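import Crest.Agent.R271.H3_51

-- ▼ part R276/NL_137
section

/-!
# R276, leaf ALG-NL (helper137), part 1: null-Lagrangian identity for `det (∂_j g_k)` on a Riemann domain

* `integral_det_eq_zero` : `g : Fin n → M → ℂ` smooth, one `g k₀` compactly supported, then
  `∫ det (∂_j g_k) dμ = 0` (and the integrand is integrable);
* `integral_det_sub` : `φ - χ` compactly supported, then `∫ (det Lv φ - det Lv χ) dμ = 0`.
-/

set_option autoImplicit false
set_option linter.unusedSectionVars false

noncomputable section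

open Set Filter Topology MeasureTheory ComplexConjugate

namespace Crest.Agent.R276.NL_137

open Crest.Agent.R271.Ho51

variable {n : ℕ} {M : Type*} [TopologicalSpace M] [RDom n M]

lemma Sm_prod {ι : Type*} (s : Finset ι) {f : ι → M → ℂ} (hf : ∀ i ∈ s, Sm (f i)) :
    Sm (fun x => ∏ i ∈ s, f i x) := by
  classical
  induction s using Finset.induction_on with
  | empty => simpa using Sm.const (M := M) (1 : ℂ)
  | insert a s ha ih =>
    simp only [Finset.prod_insert ha]
    exact (hf a (by simp)).mul (ih fun i hi => hf i (by simp [hi]))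

lemma dz_prod {ι : Type*} [DecidableEq ι] (s : Finset ι) {f : ι → M → ℂ}
    (hf : ∀ i ∈ s, Sm (f i)) (j : Fin n) (x : M) :
    dz j (fun x => ∏ i ∈ s, f i x) x = ∑ m ∈ s, dz j (f m) x * ∏ i ∈ s.erase m, f i x := by
  induction s using Finset.induction_on with
  | empty => simp [dz_const]
  | insert a s ha ih =>
    have hs : ∀ i ∈ s, Sm (f i) := fun i hi => hf i (by simp [hi])
    simp only [Finset.prod_insert ha]
    rw [dz_mul (hf a (by simp)) (Sm_prod s hs), ih hs, Finset.sum_insert ha,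
      Finset.erase_insert ha, Finset.mul_sum]
    congr 1
    refine Finset.sum_congr rfl fun m hm => ?_
    have hma : m ≠ a := fun h => ha (h ▸ hm)
    rw [Finset.erase_insert_of_ne hma.symm, Finset.prod_insert (fun h => ha (Finset.mem_of_mem_erase h))]
    ring

/-- the matrix `(∂_j g_k)_{jk}` -/
def Jm (g : Fin n → M → ℂ) (x : M) : Matrix (Fin n) (Fin n) ℂ :=
  Matrix.of fun j k => dz j (g k) x

lemma det_Jm (g : Fin n → M → ℂ) (x : M) : (Jm g x).det =
    ∑ σ : Equiv.Perm (Fin n), ((Equiv.Perm.sign σ : ℤ) : ℂ) * ∏ i, dz (σ i) (g i) x := by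
  rw [Matrix.det_apply']
  rfl

lemma Sm_det {g : Fin n → M → ℂ} (hg : ∀ k, Sm (g k)) : Sm (fun x => (Jm g x).det) := by
  simp only [det_Jm]
  exact Sm.sum fun σ _ => (Sm.const _).mul (Sm_prod _ fun i _ => (hg i).dz _)

/-- **Piola identity** -/
theorem piola {g : Fin n → M → ℂ} (hg : ∀ k, Sm (g k)) (k₀ : Fin n) (x : M) :
    ∑ σ : Equiv.Perm (Fin n), ((Equiv.Perm.sign σ : ℤ) : ℂ) *
      dz (σ k₀) (fun y => ∏ i ∈ Finset.univ.erase k₀, dz (σ i) (g i) y) x = 0 := by
  have h1 : ∀ σ : Equiv.Perm (Fin n),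
      dz (σ k₀) (fun y => ∏ i ∈ Finset.univ.erase k₀, dz (σ i) (g i) y) x =
      ∑ m ∈ Finset.univ.erase k₀, dz (σ k₀) (dz (σ m) (g m)) x *
        ∏ i ∈ (Finset.univ.erase k₀).erase m, dz (σ i) (g i) x := fun σ =>
    dz_prod _ (fun i _ => (hg i).dz _) _ x
  simp only [h1, Finset.mul_sum]
  rw [Finset.sum_comm]
  refine Finset.sum_eq_zero fun m hm => ?_
  have hmk : m ≠ k₀ := Finset.ne_of_mem_erase hm
  set F : Equiv.Perm (Fin n) → ℂ := fun σ => ((Equiv.Perm.sign σ : ℤ) : ℂ) *
    (dz (σ k₀) (dz (σ m) (g m)) x * ∏ i ∈ (Finset.univ.erase k₀).erase m, dz (σ i) (g i) x) with hF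
  have h2 : ∀ σ, F (σ * Equiv.swap k₀ m) = - F σ := by
    intro σ
    simp only [hF]
    have e1 : (σ * Equiv.swap k₀ m) k₀ = σ m := by simp
    have e2 : (σ * Equiv.swap k₀ m) m = σ k₀ := by simp
    have e3 : ∏ i ∈ (Finset.univ.erase k₀).erase m, dz ((σ * Equiv.swap k₀ m) i) (g i) x =
        ∏ i ∈ (Finset.univ.erase k₀).erase m, dz (σ i) (g i) x := by
      refine Finset.prod_congr rfl fun i hi => ?_
      have hi1 : i ≠ m := Finset.ne_of_mem_erase hi
      have hi2 : i ≠ k₀ := Finset.ne_of_mem_erase (Finset.mem_of_mem_erase hi)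
      rw [Equiv.Perm.mul_apply, Equiv.swap_apply_of_ne_of_ne hi2 hi1]
    rw [e1, e2, e3, Equiv.Perm.sign_mul, Equiv.Perm.sign_swap hmk.symm, dz_dz_comm (hg m)]
    push_cast
    ring
  have h3 : ∑ σ, F (σ * Equiv.swap k₀ m) = ∑ σ, F σ :=
    Equiv.sum_comp (Equiv.mulRight (Equiv.swap k₀ m)) F
  have h4 : ∑ σ, F σ = - ∑ σ, F σ := by
    conv_lhs => rw [← h3]
    simp only [h2, Finset.sum_neg_distrib]
  have h5 : (2 : ℂ) * ∑ σ, F σ = 0 := by linear_combination h4
  exact (mul_eq_zero.1 h5).resolve_left two_ne_zero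

variable [T2Space M] [MeasurableSpace M] [BorelSpace M] {μ : Measure M}

theorem integral_det_eq_zero (hμ : IsLeb μ) {g : Fin n → M → ℂ} (hg : ∀ k, Sm (g k))
    (k₀ : Fin n) (hc : HasCompactSupport (g k₀)) :
    Integrable (fun x => (Jm g x).det) μ ∧ ∫ x, (Jm g x).det ∂μ = 0 := by
  set P : Equiv.Perm (Fin n) → M → ℂ := fun σ x =>
    ∏ i ∈ Finset.univ.erase k₀, dz (σ i) (g i) x with hP
  have hPs : ∀ σ, Sm (P σ) := fun σ => Sm_prod _ fun i _ => (hg i).dz _
  have h1 : ∀ x, (Jm g x).det = ∑ σ : Equiv.Perm (Fin n), ((Equiv.Perm.sign σ : ℤ) : ℂ) *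
      dz (σ k₀) (fun y => g k₀ y * P σ y) x := by
    intro x
    have h2 : ∀ σ : Equiv.Perm (Fin n), dz (σ k₀) (fun y => g k₀ y * P σ y) x =
        dz (σ k₀) (g k₀) x * P σ x + g k₀ x * dz (σ k₀) (P σ) x := fun σ =>
      dz_mul (hg k₀) (hPs σ) _ x
    simp only [h2, mul_add, Finset.sum_add_distrib]
    have h3 : ∑ σ : Equiv.Perm (Fin n), ((Equiv.Perm.sign σ : ℤ) : ℂ) *
        (g k₀ x * dz (σ k₀) (P σ) x) = 0 := by
      have := piola hg k₀ x
      have h4 : ∑ σ : Equiv.Perm (Fin n), ((Equiv.Perm.sign σ : ℤ) : ℂ) *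
        (g k₀ x * dz (σ k₀) (P σ) x) = g k₀ x * ∑ σ : Equiv.Perm (Fin n),
          ((Equiv.Perm.sign σ : ℤ) : ℂ) * dz (σ k₀) (P σ) x := by
        rw [Finset.mul_sum]
        exact Finset.sum_congr rfl fun σ _ => by ring
      rw [h4, this, mul_zero]
    rw [h3, add_zero, det_Jm]
    refine Finset.sum_congr rfl fun σ _ => ?_
    congr 1
    exact (Finset.mul_prod_erase Finset.univ (fun i => dz (σ i) (g i) x)
      (Finset.mem_univ k₀)).symm
  have hS : ∀ σ, Sm (fun y => g k₀ y * P σ y) := fun σ => (hg k₀).mul (hPs σ)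
  have hC : ∀ σ, HasCompactSupport (fun y => g k₀ y * P σ y) := fun σ => hc.mul_right
  have hdC : ∀ σ : Equiv.Perm (Fin n), HasCompactSupport (dz (σ k₀) (fun y => g k₀ y * P σ y)) :=
    fun σ => (hasCompactSupport_D (hC σ)).comp_left (g := wz (σ k₀)) (by simp [wz])
  have hI : ∀ σ : Equiv.Perm (Fin n), Integrable (fun x => ((Equiv.Perm.sign σ : ℤ) : ℂ) *
      dz (σ k₀) (fun y => g k₀ y * P σ y) x) μ := fun σ =>
    (((hS σ).dz (σ k₀)).integrable hμ (hdC σ)).const_mul _
  have hfun : (fun x => (Jm g x).det) = fun x => ∑ σ : Equiv.Perm (Fin n),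
      ((Equiv.Perm.sign σ : ℤ) : ℂ) * dz (σ k₀) (fun y => g k₀ y * P σ y) x := funext h1
  rw [hfun]
  refine ⟨integrable_finsetSum _ fun σ _ => hI σ, ?_⟩
  rw [integral_finsetSum _ fun σ _ => hI σ]
  refine Finset.sum_eq_zero fun σ _ => ?_
  rw [integral_const_mul, integral_dz_eq_zero hμ (hS σ) (hC σ), mul_zero]

/-- two families which agree outside a compact set -/
theorem integral_det_sub' (hμ : IsLeb μ) {g h : Fin n → M → ℂ} (hg : ∀ k, Sm (g k))
    (hh : ∀ k, Sm (h k)) (hc : ∀ k, HasCompactSupport (fun x => g k x - h k x)) :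
    Integrable (fun x => (Jm g x).det - (Jm h x).det) μ ∧
      ∫ x, ((Jm g x).det - (Jm h x).det) ∂μ = 0 := by
  classical
  have key : ∀ s : Finset (Fin n),
      Integrable (fun x => (Jm (s.piecewise g h) x).det - (Jm h x).det) μ ∧
      ∫ x, ((Jm (s.piecewise g h) x).det - (Jm h x).det) ∂μ = 0 := by
    intro s
    induction s using Finset.induction_on with
    | empty => simp
    | insert a s ha ih =>
      set F : Fin n → M → ℂ := s.piecewise g h with hF
      have hFs : ∀ k, Sm (F k) := by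
        intro k
        by_cases hk : k ∈ s
        · simpa [hF, hk] using hg k
        · simpa [hF, hk] using hh k
      set E : Fin n → M → ℂ := Function.update F a (fun x => g a x - h a x) with hE
      have hEs : ∀ k, Sm (E k) := by
        intro k
        by_cases hk : k = a
        · subst hk; simpa [hE] using (hg k).sub (hh k)
        · simpa [hE, hk] using hFs k
      have hEa : HasCompactSupport (E a) := by simpa [hE] using hc a
      have h1 := integral_det_eq_zero hμ hEs a hEa
      have h2 : ∀ x, (Jm ((insert a s).piecewise g h) x).det - (Jm h x).det =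
          ((Jm F x).det - (Jm h x).det) + (Jm E x).det := by
        intro x
        have e1 : (insert a s).piecewise g h = Function.update F a (g a) := by
          rw [Finset.piecewise_insert]
        have c1 : Jm (Function.update F a (g a)) x =
            (Jm F x).updateCol a (fun j => dz j (g a) x) := by
          ext j k
          by_cases hk : k = a
          · subst hk; simp [Jm]
          · simp [Jm, hk]
        have c2 : Jm E x = (Jm F x).updateCol a (fun j => dz j (g a) x - dz j (h a) x) := by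
          ext j k
          by_cases hk : k = a
          · subst hk; simp [Jm, hE, dz_sub (hg k) (hh k)]
          · simp [Jm, hE, hk]
        have c3 : Jm F x = (Jm F x).updateCol a (fun j => dz j (h a) x) := by
          ext j k
          by_cases hk : k = a
          · subst hk; simp [Jm, hF, ha]
          · simp [hk]
        have c4 : (fun j => dz j (g a) x) = (fun j => dz j (h a) x) +
            fun j => dz j (g a) x - dz j (h a) x := by
          funext j; simp
        rw [e1, c1, c4, Matrix.det_updateCol_add, ← c3, ← c2]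
        ring
      refine ⟨?_, ?_⟩
      · refine (ih.1.add h1.1).congr (Eventually.of_forall fun x => ?_)
        exact (h2 x).symm
      · simp only [h2]
        rw [integral_add ih.1 h1.1, ih.2, h1.2, add_zero]
  simpa using key Finset.univ

/-- the Levi matrix -/
def LvM (φ : M → ℝ) (x : M) : Matrix (Fin n) (Fin n) ℂ := Matrix.of (Lv φ x)

theorem Sm_detLv {φ : M → ℝ} (hφ : Sm φ) : Sm (fun x => (LvM φ x).det) :=
  Sm_det (g := fun k => db k (fun y => (φ y : ℂ))) fun k => hφ.ofReal.db k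

/-- **null-Lagrangian identity** for the determinant of the Levi matrix -/
theorem integral_det_sub (hμ : IsLeb μ) {φ χ : M → ℝ} (hφ : Sm φ) (hχ : Sm χ)
    (hc : HasCompactSupport (fun x => φ x - χ x)) :
    Integrable (fun x => (LvM φ x).det - (LvM χ x).det) μ ∧
      ∫ x, ((LvM φ x).det - (LvM χ x).det) ∂μ = 0 := by
  refine integral_det_sub' hμ (g := fun k => db k (fun y => (φ y : ℂ)))
    (h := fun k => db k (fun y => (χ y : ℂ))) (fun k => hφ.ofReal.db k)
    (fun k => hχ.ofReal.db k) fun k => ?_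
  have h1 : (fun x => db k (fun y => (φ y : ℂ)) x - db k (fun y => (χ y : ℂ)) x) =
      db k (fun y => ((φ y - χ y : ℝ) : ℂ)) := by
    funext x
    rw [← db_sub hφ.ofReal hχ.ofReal]
    apply db_congr
    exact Eventually.of_forall fun y => by simp
  rw [h1]
  have h2 : HasCompactSupport (fun y => ((φ y - χ y : ℝ) : ℂ)) :=
    hc.comp_left (g := fun r : ℝ => (r : ℂ)) (by simp)
  exact (hasCompactSupport_D h2).comp_left (g := wb k) (by simp [wb])

end Crest.Agent.R276.NL_137
end
end

-- ▼ part R276/SMax_137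

/-!
# R276, leaf ALG-NL (helper137), part 2: smooth maximum, truncated logarithm, positivity of `det Lv`

* `SM : ℝ → ℝ` smooth convex nondecreasing, `SM t = 0` for `t ≤ -1`, `SM t = t` for `1 ≤ t`;
* `VL j t` : smooth, `= -j` for `t ≤ exp (-j-1)`, `= log t` for `exp (-j+1) ≤ t`;
* `Levi_smax_nonneg` : Levi form of `b + SM (a - b)`.
-/

set_option autoImplicit false
set_option linter.unusedSectionVars false

noncomputable section

open Set Filter Topology MeasureTheory ComplexConjugate
open scoped Matrix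

namespace Crest.Agent.R276.NL_137

open Crest.Agent.R271.Ho51

/-! ### the function `SM` -/

/-- smooth step from `0` (at `-1`) to `1` (at `1`) -/
def ss (t : ℝ) : ℝ := Real.smoothTransition ((t + 1) / 2)

lemma ss_contDiff : ContDiff ℝ (⊤ : ℕ∞) ss :=
  Real.smoothTransition.contDiff.comp (by fun_prop)

lemma ss_nonneg (t : ℝ) : 0 ≤ ss t := Real.smoothTransition.nonneg _
lemma ss_le_one (t : ℝ) : ss t ≤ 1 := Real.smoothTransition.le_one _
lemma ss_zero {t : ℝ} (ht : t ≤ -1) : ss t = 0 :=
  Real.smoothTransition.zero_of_nonpos (by linarith)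
lemma ss_one {t : ℝ} (ht : 1 ≤ t) : ss t = 1 :=
  Real.smoothTransition.one_of_one_le (by linarith)
lemma ss_mono : Monotone ss := fun a b h => Real.smoothTransition.monotone (by linarith)
lemma ss_add (t : ℝ) : ss t + ss (-t) = 1 := by
  unfold ss Real.smoothTransition
  have e1 : 1 - (t + 1) / 2 = (-t + 1) / 2 := by ring
  have e2 : 1 - (-t + 1) / 2 = (t + 1) / 2 := by ring
  rw [e1, e2]
  have h := Real.smoothTransition.pos_denom ((t + 1) / 2)
  rw [e1] at h
  rw [add_comm (expNegInvGlue ((-t + 1) / 2))]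
  rw [← add_div, div_self h.ne']

/-- smooth convex regularisation of `max t 0` -/
def SM (t : ℝ) : ℝ := ∫ u in (-1 : ℝ)..t, ss u

lemma ss_cont : Continuous ss := ss_contDiff.continuous

lemma SM_hasDerivAt (t : ℝ) : HasDerivAt SM (ss t) t :=
  intervalIntegral.integral_hasDerivAt_right (ss_cont.intervalIntegrable _ _)
    (ss_cont.stronglyMeasurableAtFilter _ _) ss_cont.continuousAt

lemma deriv_SM : deriv SM = ss := funext fun t => (SM_hasDerivAt t).deriv

lemma SM_contDiff : ContDiff ℝ (⊤ : ℕ∞) SM := by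
  rw [contDiff_infty_iff_deriv]
  refine ⟨fun t => (SM_hasDerivAt t).differentiableAt, ?_⟩
  rw [deriv_SM]; exact ss_contDiff

lemma SM_zero {t : ℝ} (ht : t ≤ -1) : SM t = 0 := by
  unfold SM
  rw [intervalIntegral.integral_symm, neg_eq_zero]
  refine (intervalIntegral.integral_congr (g := fun _ => (0 : ℝ)) fun u hu => ?_).trans (by simp)
  rw [uIcc_of_le ht] at hu
  exact ss_zero hu.2

lemma SM_one : SM 1 = 1 := by
  have h1 : ∫ u in (-1 : ℝ)..1, ss (-u) = SM 1 := by
    rw [intervalIntegral.integral_comp_neg]; simp [SM]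
  have h2 : (∫ u in (-1 : ℝ)..1, ss (-u)) + ∫ u in (-1 : ℝ)..1, ss u = 2 := by
    rw [← intervalIntegral.integral_add]
    · have : ∀ u : ℝ, ss (-u) + ss u = 1 := fun u => by rw [add_comm]; exact ss_add u
      simp only [this]
      simp; norm_num
    · exact (ss_cont.comp continuous_neg).intervalIntegrable _ _
    · exact ss_cont.intervalIntegrable _ _
  rw [h1] at h2
  have h3 : SM 1 + SM 1 = 2 := h2
  linarith

lemma SM_id {t : ℝ} (ht : 1 ≤ t) : SM t = t := by
  have h1 : SM t = SM 1 + ∫ u in (1 : ℝ)..t, ss u := by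
    unfold SM
    rw [intervalIntegral.integral_add_adjacent_intervals (ss_cont.intervalIntegrable _ _)
      (ss_cont.intervalIntegrable _ _)]
  have h2 : ∫ u in (1 : ℝ)..t, ss u = t - 1 := by
    refine (intervalIntegral.integral_congr (g := fun _ => (1 : ℝ)) fun u hu => ?_).trans (by simp)
    rw [uIcc_of_le ht] at hu
    exact ss_one hu.1
  rw [h1, h2, SM_one]; ring

lemma SM_mono : Monotone SM :=
  monotone_of_deriv_nonneg (fun t => (SM_hasDerivAt t).differentiableAt) fun t => by
    rw [deriv_SM]; exact ss_nonneg t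

lemma SM_nonneg (t : ℝ) : 0 ≤ SM t := by
  rcases le_total t (-1) with h | h
  · rw [SM_zero h]
  · rw [← SM_zero (le_refl (-1))]; exact SM_mono h

lemma SM_le (t : ℝ) : SM t ≤ max t 0 + 1 := by
  rcases le_total t 1 with h | h
  · have := SM_mono h
    rw [SM_one] at this
    linarith [le_max_right t 0]
  · rw [SM_id h]
    linarith [le_max_left t 0]

lemma deriv_ss_nonneg (t : ℝ) : 0 ≤ deriv ss t := ss_mono.deriv_nonneg

/-! ### the truncated logarithm -/

/-- `smoothmax (log t) (-j)` as a smooth function of `t ∈ ℝ` -/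
def VL (j : ℝ) (t : ℝ) : ℝ := if 0 < t then -j + SM (Real.log t + j) else -j

lemma VL_of_pos (j : ℝ) {t : ℝ} (ht : 0 < t) : VL j t = -j + SM (Real.log t + j) := by
  rw [VL, if_pos ht]

lemma VL_small (j : ℝ) {t : ℝ} (ht : t ≤ Real.exp (-j - 1)) : VL j t = -j := by
  by_cases h : 0 < t
  · rw [VL_of_pos j h, SM_zero, add_zero]
    have := (Real.log_le_iff_le_exp h).2 ht
    linarith
  · rw [VL, if_neg h]

lemma VL_large (j : ℝ) {t : ℝ} (ht : Real.exp (-j + 1) ≤ t) : VL j t = Real.log t := by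
  have h : 0 < t := (Real.exp_pos _).trans_le ht
  rw [VL_of_pos j h, SM_id]
  · ring
  · have := (Real.le_log_iff_exp_le h).2 ht
    linarith

lemma VL_contDiff (j : ℝ) : ContDiff ℝ (⊤ : ℕ∞) (VL j) := by
  rw [contDiff_iff_contDiffAt]
  intro t
  rcases lt_or_ge 0 t with h | h
  · have h1 : ContDiffAt ℝ (⊤ : ℕ∞) (fun t => -j + SM (Real.log t + j)) t := by
      refine contDiffAt_const.add (SM_contDiff.contDiffAt.comp t ?_)
      exact (Real.contDiffAt_log.2 h.ne').add contDiffAt_const
    refine h1.congr_of_eventuallyEq ?_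
    filter_upwards [lt_mem_nhds h] with s hs
    exact VL_of_pos j hs
  · have h1 : ContDiffAt ℝ (⊤ : ℕ∞) (fun _ : ℝ => -j) t := contDiffAt_const
    refine h1.congr_of_eventuallyEq ?_
    filter_upwards [gt_mem_nhds (h.trans_lt (Real.exp_pos (-j - 1)))] with s hs
    exact VL_small j hs.le

lemma VL_le (j : ℝ) {t : ℝ} (ht : 0 < t) : VL j t ≤ max (Real.log t) (-j) + 1 := by
  rw [VL_of_pos j ht]
  have := SM_le (Real.log t + j)
  have h2 : -j + max (Real.log t + j) 0 = max (Real.log t) (-j) := by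
    rw [← max_add_add_left]; congr 1 <;> ring
  linarith


/-! ### Levi forms -/

variable {n : ℕ} {M : Type*} [TopologicalSpace M] [RDom n M]

lemma Lv_congr {φ χ : M → ℝ} {x : M} (h : φ =ᶠ[𝓝 x] χ) (j k : Fin n) :
    Lv φ x j k = Lv χ x j k := by
  unfold Lv
  apply dz_congr
  filter_upwards [eventually_eventually_nhds.2 h] with y hy
  apply db_congr
  filter_upwards [hy] with z hz
  rw [hz]

lemma LvM_congr {φ χ : M → ℝ} {x : M} (h : φ =ᶠ[𝓝 x] χ) : LvM φ x = LvM χ x := by
  ext j k; exact Lv_congr h j k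

lemma Levi_congr {φ χ : M → ℝ} {x : M} (h : φ =ᶠ[𝓝 x] χ) (w : Fin n → ℂ) :
    Levi φ x w = Levi χ x w := by
  unfold Levi
  simp only [Lv_congr h]

lemma Lv_const (c : ℝ) (x : M) (j k : Fin n) : Lv (fun _ : M => c) x j k = 0 := by
  unfold Lv
  have : db k (fun _ : M => (c : ℂ)) = fun _ => 0 := by
    funext y; exact db_const _ _ _
  rw [this, dz_const]

lemma Levi_const (c : ℝ) (x : M) (w : Fin n → ℂ) : Levi (fun _ : M => c) x w = 0 := by
  simp [Levi, Lv_const]

lemma Lv_add {φ χ : M → ℝ} (hφ : Sm φ) (hχ : Sm χ) (x : M) (j k : Fin n) :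
    Lv (fun y => φ y + χ y) x j k = Lv φ x j k + Lv χ x j k := by
  unfold Lv
  rw [← dz_add (hφ.ofReal.db k) (hχ.ofReal.db k)]
  apply dz_congr
  refine Eventually.of_forall fun y => ?_
  have := db_add hφ.ofReal hχ.ofReal k y
  show db k (fun y => ((φ y + χ y : ℝ) : ℂ)) y =
    db k (fun x => (φ x : ℂ)) y + db k (fun x => (χ x : ℂ)) y
  rw [← this]
  apply db_congr
  refine Eventually.of_forall fun z => ?_
  simp

lemma Lv_const_mul {φ : M → ℝ} (hφ : Sm φ) (c : ℝ) (x : M) (j k : Fin n) :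
    Lv (fun y => c * φ y) x j k = c * Lv φ x j k := by
  unfold Lv
  rw [← dz_const_mul (hφ.ofReal.db k)]
  apply dz_congr
  refine Eventually.of_forall fun y => ?_
  have := db_const_mul hφ.ofReal (c : ℂ) k y
  show db k (fun y => ((c * φ y : ℝ) : ℂ)) y = (c : ℂ) * db k (fun x => (φ x : ℂ)) y
  rw [← this]
  apply db_congr
  refine Eventually.of_forall fun z => ?_
  simp

lemma Levi_const_mul {φ : M → ℝ} (hφ : Sm φ) (c : ℝ) (x : M) (w : Fin n → ℂ) :
    Levi (fun y => c * φ y) x w = c * Levi φ x w := by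
  unfold Levi
  simp only [Lv_const_mul hφ]
  rw [← Complex.re_ofReal_mul, Finset.mul_sum]
  congr 1
  refine Finset.sum_congr rfl fun j _ => ?_
  rw [Finset.mul_sum]
  exact Finset.sum_congr rfl fun k _ => by ring

/-- the smooth maximum of two psh functions is psh -/
theorem Levi_smax_nonneg {a b : M → ℝ} (ha : Sm a) (hb : Sm b) {x : M} {w : Fin n → ℂ}
    (h1 : 0 ≤ Levi a x w) (h2 : 0 ≤ Levi b x w) :
    0 ≤ Levi (fun y => b y + SM (a y - b y)) x w := by
  have hab : Sm (fun y => a y - b y) := ha.sub hb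
  have hS : Sm (fun y => SM (a y - b y)) := Sm.comp SM_contDiff hab
  rw [Levi_add hb hS, Levi_comp hab SM_contDiff, deriv_SM]
  have h3 : Levi (fun y => a y - b y) x w = Levi a x w - Levi b x w := by
    have h4 : (fun y => a y - b y) = fun y => a y + (-1) * b y := by funext y; ring
    rw [h4, Levi_add ha ((Sm.const (-1 : ℝ)).mulR hb), Levi_const_mul hb]
    ring
  rw [h3]
  have h5 := ss_nonneg (a x - b x)
  have h6 := ss_le_one (a x - b x)
  have h7 : 0 ≤ deriv ss (a x - b x) * ‖∑ j, dz j (fun y => ((a y - b y : ℝ) : ℂ)) x * w j‖ ^ 2 :=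
    mul_nonneg (deriv_ss_nonneg _) (by positivity)
  have h8 : Levi b x w + ss (a x - b x) * (Levi a x w - Levi b x w) =
      (1 - ss (a x - b x)) * Levi b x w + ss (a x - b x) * Levi a x w := by ring
  have h9 : 0 ≤ (1 - ss (a x - b x)) * Levi b x w + ss (a x - b x) * Levi a x w :=
    add_nonneg (mul_nonneg (by linarith) h2) (mul_nonneg h5 h1)
  linarith

/-! ### determinant of a nonnegative Levi matrix -/

open scoped ComplexOrder in
lemma LvM_posSemidef {φ : M → ℝ} (hφ : Sm φ) {x : M} (h : ∀ w, 0 ≤ Levi φ x w) :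
    (LvM φ x).PosSemidef := by
  refine Matrix.PosSemidef.of_dotProduct_mulVec_nonneg ?_ fun v => ?_
  · ext j k
    rw [Matrix.conjTranspose_apply]
    exact Lv_conj hφ x k j
  · have h1 : star v ⬝ᵥ (LvM φ x *ᵥ v) = ((Levi φ x (fun j => conj (v j)) : ℝ) : ℂ) := by
      rw [Levi_eq hφ]
      simp only [dotProduct, Matrix.mulVec, Finset.mul_sum, LvM, Matrix.of_apply, Pi.star_apply]
      refine Finset.sum_congr rfl fun j _ => Finset.sum_congr rfl fun k _ => ?_
      simp only [Complex.conj_conj, RCLike.star_def]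
      ring
    rw [h1]
    exact_mod_cast h _

open scoped ComplexOrder in
/-- `det Lv φ` is a nonnegative real number when the Levi form is nonnegative -/
lemma det_LvM_nonneg {φ : M → ℝ} (hφ : Sm φ) {x : M} (h : ∀ w, 0 ≤ Levi φ x w) :
    0 ≤ (LvM φ x).det.re ∧ ((LvM φ x).det.re : ℂ) = (LvM φ x).det := by
  have h1 := (LvM_posSemidef hφ h).det_nonneg
  have h2 := (Complex.le_def.1 h1)
  exact ⟨h2.1, Complex.ext (by simp) (by simpa using h2.2)⟩

end Crest.Agent.R276.NL_137
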