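import Crest.Agent.R271.Engine_51
import Crest.Agent.R271.W_792

/-!
# Row 276, leaf SUBL (helper29): open subsets of a Riemann domain

`rdO U : RDom n U` for `U : Opens M`; restriction of `Sm`, `D`, `dz`, `db`, `Levi`, `Hol`, `IsLeb`;
exhaustion of the sublevel domains `{ρ < a}`.
-/

set_option autoImplicit false
set_option linter.unusedSectionVars false
set_option linter.style.haveILetI false

noncomputable section

open Set Filter Topology MeasureTheory
open scoped ENNReal

namespace Crest.Agent.R276.SubL_29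

open Crest.Agent.R271.Ho51
open TopologicalSpace (Opens)

variable {n : ℕ} {M : Type*} [TopologicalSpace M] [RDom n M]

/-- the Riemann domain structure of an open subset -/
@[reducible] def rdO (U : Opens M) : RDom n U where
  p := fun x => cp x.1
  hp := cp_lh.comp U.isOpen.isOpenEmbedding_subtypeVal.isLocalHomeomorph

/-- two local sections agree -/
lemma germ_section {e : OpenPartialHomeomorph M (Fin n → ℂ)} (he : IsCh e) {x : M}
    (hx : x ∈ e.source) {s : (Fin n → ℂ) → M} (hs : ContinuousAt s (cp x)) (hsx : s (cp x) = x)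
    (hsec : ∀ᶠ z in 𝓝 (cp x), cp (s z) = z) : s =ᶠ[𝓝 (cp x)] e.symm := by
  have h1 : ∀ᶠ z in 𝓝 (cp x), s z ∈ e.source := by
    apply hs.eventually_mem
    rw [hsx]
    exact e.open_source.mem_nhds hx
  filter_upwards [h1, hsec] with z h2 h3
  have h4 := he.symm_cp h2
  rw [h3] at h4
  exact h4.symm

section

variable (U : Opens M)

/-- a chart of `U` is a chart of `M` -/
def liftCh (e : OpenPartialHomeomorph U (Fin n → ℂ)) (he : (⇑e : U → (Fin n → ℂ)) = fun x => cp x.1) :
    OpenPartialHomeomorph M (Fin n → ℂ) where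
  toFun := cp
  invFun := fun z => (e.symm z).1
  source := Subtype.val '' e.source
  target := e.target
  map_source' := by
    rintro _ ⟨x, hx, rfl⟩
    have := e.map_source hx
    rwa [he] at this
  map_target' := fun z hz => ⟨e.symm z, e.map_target hz, rfl⟩
  left_inv' := by
    rintro _ ⟨x, hx, rfl⟩
    have h1 := e.left_inv hx
    rw [he] at h1
    exact congrArg Subtype.val h1
  right_inv' := by
    intro z hz
    have h1 := e.right_inv hz
    rw [he] at h1
    exact h1
  open_source := U.isOpen.isOpenEmbedding_subtypeVal.isOpenMap _ e.open_source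
  open_target := e.open_target
  continuousOn_toFun := cp_cont.continuousOn
  continuousOn_invFun := continuous_subtype_val.comp_continuousOn e.symm.continuousOn

lemma isCh_liftCh (e : OpenPartialHomeomorph U (Fin n → ℂ))
    (he : (⇑e : U → (Fin n → ℂ)) = fun x => cp x.1) : IsCh (liftCh U e he) := rfl

/-- the chart of `U` and the chart of `M` at the same point -/
lemma germ_ch (x : U) : (fun z => ((@ch n U _ (rdO U) x).symm z).1) =ᶠ[𝓝 (cp x.1)]
    (ch x.1).symm := by
  letI := rdO U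
  have hx := mem_ch (n := n) x
  have hcp : ∀ y : U, cp (n := n) y = cp y.1 := fun _ => rfl
  refine germ_section (isCh_ch x.1) (mem_ch x.1) ?_ ?_ ?_
  · have h1 : ContinuousAt (ch x).symm (cp x) :=
      (ch x).symm.continuousAt (by simpa using (isCh_ch x).cp_mem hx)
    exact continuous_subtype_val.continuousAt.comp h1
  · show ((ch x).symm (cp x)).1 = x.1
    rw [symm_cp]
  · have h2 : ∀ᶠ z in 𝓝 (cp x), z ∈ (ch x).target :=
      (ch x).open_target.mem_nhds ((isCh_ch x).cp_mem hx)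
    filter_upwards [h2] with z hz
    exact (isCh_ch x).cp_symm hz

variable {G : Type*} [NormedAddCommGroup G] [NormedSpace ℝ G]

lemma comp_germ_ch (f : M → G) (x : U) :
    ((fun y : U => f y.1) ∘ (@ch n U _ (rdO U) x).symm) =ᶠ[𝓝 (cp x.1)] (f ∘ (ch x.1).symm) := by
  filter_upwards [germ_ch U x] with z hz
  simp only [Function.comp_apply]
  rw [← hz]

lemma D_res (f : M → G) (x : U) :
    @D n U _ (rdO U) G _ _ (fun y : U => f y.1) x = D f x.1 :=
  (comp_germ_ch U f x).fderiv_eq

/-- smoothness near the points of `U` suffices -/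
lemma sm_res' {f : M → G} (hf : ∀ x : M, x ∈ U → ContDiffAt ℝ (⊤ : ℕ∞) (f ∘ (ch x).symm) (cp x)) :
    @Sm n U _ (rdO U) G _ _ (fun y : U => f y.1) := fun x =>
  (hf x.1 x.2).congr_of_eventuallyEq (comp_germ_ch U f x)

lemma sm_res {f : M → G} (hf : Sm f) : @Sm n U _ (rdO U) G _ _ (fun y : U => f y.1) :=
  sm_res' U fun x _ => hf x

lemma dz_res (j : Fin n) (f : M → ℂ) (x : U) :
    @dz n U _ (rdO U) j (fun y : U => f y.1) x = dz j f x.1 := by
  unfold dz
  rw [D_res]

lemma db_res (j : Fin n) (f : M → ℂ) (x : U) :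
    @db n U _ (rdO U) j (fun y : U => f y.1) x = db j f x.1 := by
  unfold db
  rw [D_res]

lemma Levi_res (φ : M → ℝ) (x : U) (w : Fin n → ℂ) :
    @Levi n U _ (rdO U) (fun y : U => φ y.1) x w = Levi φ x.1 w := by
  unfold Levi Lv
  have h1 : ∀ k : Fin n, @db n U _ (rdO U) k (fun y : U => ((φ y.1 : ℝ) : ℂ)) =
      fun y : U => db k (fun y => (φ y : ℂ)) y.1 := by
    intro k; funext y
    exact db_res U k (fun y => (φ y : ℂ)) y
  simp only [h1]
  have h2 : ∀ j k : Fin n, @dz n U _ (rdO U) j (fun y : U => db k (fun y => (φ y : ℂ)) y.1) x =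
      dz j (db k (fun y => (φ y : ℂ))) x.1 := fun j k => dz_res U j _ x
  simp only [h2]

/-- a holomorphic function on `U` is complex differentiable in the charts of `M` -/
lemma differentiableAt_of_hol {F : U → ℂ} (hF : @Hol n U _ (rdO U) F) {F' : M → ℂ}
    (hFF : ∀ x : U, F' x.1 = F x) {e : OpenPartialHomeomorph M (Fin n → ℂ)} (he : IsCh e)
    {z : Fin n → ℂ} (hz : z ∈ e.target) (hzU : e.symm z ∈ U) :
    DifferentiableAt ℂ (F' ∘ e.symm) z := by
  letI := rdO U
  set x : U := ⟨e.symm z, hzU⟩ with hx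
  have hcz : cp (n := n) x = z := he.cp_symm hz
  have hxs : x.1 ∈ e.source := e.map_target hz
  have h1 : DifferentiableAt ℂ (F ∘ (ch x).symm) (cp x) :=
    (hF (ch x) (isCh_ch x)).differentiableAt
      ((ch x).open_target.mem_nhds ((isCh_ch x).cp_mem (mem_ch x)))
  have h2 : (ch x.1).symm =ᶠ[𝓝 (cp x.1)] e.symm := (isCh_ch x.1).germ he (mem_ch x.1) hxs
  have h3 : (F' ∘ e.symm) =ᶠ[𝓝 (cp x)] (F ∘ (ch x).symm) := by
    filter_upwards [germ_ch U x, h2] with y hy1 hy2
    simp only [Function.comp_apply]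
    rw [← hy2, ← hy1, hFF]
  have h4 := h1.congr_of_eventuallyEq h3
  rwa [hcz] at h4

lemma hol_res {F : M → ℂ} (hF : Hol F) : @Hol n U _ (rdO U) (fun y : U => F y.1) := by
  letI := rdO U
  intro e he
  exact hF (liftCh U e he) (isCh_liftCh U e he)

section measure

variable [MeasurableSpace M] [BorelSpace M]

lemma isLeb_res {μ : Measure M} (hμ : IsLeb μ) :
    @IsLeb n U _ (rdO U) _ (μ.comap (Subtype.val : U → M)) := by
  letI := rdO U
  intro e he
  have hme : MeasurableEmbedding (Subtype.val : U → M) :=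
    MeasurableEmbedding.subtype_coe U.isOpen.measurableSet
  have h1 := hμ (liftCh U e he) (isCh_liftCh U e he)
  have h2 : (liftCh U e he).source = Subtype.val '' e.source := rfl
  have h3 : (liftCh U e he).target = e.target := rfl
  have h4 : ((liftCh U e he).symm : (Fin n → ℂ) → M) = Subtype.val ∘ e.symm := rfl
  rw [h2, h3, h4] at h1
  have haem : AEMeasurable e.symm ((volume : Measure (Fin n → ℂ)).restrict e.target) :=
    (e.symm.continuousOn).aemeasurable e.open_target.measurableSet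
  have h5 : (volume.restrict e.target).map (Subtype.val ∘ e.symm) =
      ((volume.restrict e.target).map e.symm).map (Subtype.val : U → M) :=
    (AEMeasurable.map_map_of_aemeasurable measurable_subtype_coe.aemeasurable haem).symm
  rw [h5] at h1
  have h6 : (μ.comap (Subtype.val : U → M)).restrict e.source =
      (μ.restrict (Subtype.val '' e.source)).comap (Subtype.val : U → M) := by
    ext s hs
    rw [Measure.restrict_apply hs, hme.comap_apply, hme.comap_apply,
      Measure.restrict_apply (hme.measurableSet_image.2 hs), image_inter Subtype.val_injective]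
  rw [h6, h1, hme.comap_map]

lemma lintegral_res {μ : Measure M} (f : M → ℝ≥0∞) :
    ∫⁻ x : U, f x.1 ∂(μ.comap (Subtype.val : U → M)) = ∫⁻ x in (U : Set M), f x ∂μ := by
  have hme : MeasurableEmbedding (Subtype.val : U → M) :=
    MeasurableEmbedding.subtype_coe U.isOpen.measurableSet
  rw [← hme.lintegral_map, hme.map_comap, Subtype.range_coe]

end measure

end

/-! ## Sublevel domains -/

/-- the open set `{ρ < a}` -/
def sub (ρ : M → ℝ) (hρ : Continuous ρ) (a : ℝ) : Opens M := ⟨{x | ρ x < a}, isOpen_lt hρ continuous_const⟩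


/-- the exhaustion of `{ρ < a}` -/
def rhoA (ρ : M → ℝ) (a : ℝ) (x : M) : ℝ := ρ x + (a - ρ x)⁻¹

lemma sm_rhoA {ρ : M → ℝ} (hρ : Sm ρ) (a : ℝ) :
    @Sm n (sub ρ hρ.continuous a) _ (rdO _) ℝ _ _ (fun y => rhoA ρ a y.1) := by
  apply sm_res'
  intro x hx
  have h1 : a - (ρ ∘ (ch x).symm) (cp x) ≠ 0 := by
    have : (ρ ∘ (ch x).symm) (cp x) = ρ x := by simp [symm_cp]
    rw [this]
    have : ρ x < a := hx
    linarith
  exact (hρ x).add ((contDiffAt_const.sub (hρ x)).inv h1)

lemma isCompact_rhoA {ρ : M → ℝ} (hρ : Continuous ρ) (hcpt : ∀ c, IsCompact {x | ρ x ≤ c})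
    (a c : ℝ) : IsCompact {x : sub ρ hρ a | rhoA ρ a x.1 ≤ c} := by
  rw [Subtype.isCompact_iff]
  rcases (sub ρ hρ a : Set M).eq_empty_or_nonempty with hemp | ⟨x0, hx0⟩
  · have : (Subtype.val '' {x : sub ρ hρ a | rhoA ρ a x.1 ≤ c}) = ∅ := by
      rw [eq_empty_iff_forall_notMem]
      rintro _ ⟨x, _, rfl⟩
      have := x.2
      rw [← SetLike.mem_coe, hemp] at this
      exact this
    rw [this]; exact isCompact_empty
  -- lower bound of ρ
  obtain ⟨xm, -, hxm⟩ := (hcpt a).exists_isMinOn ⟨x0, (show ρ x0 < a from hx0).le⟩ hρ.continuousOn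
  set m := ρ xm with hm
  have hmin : ∀ x, ρ x < a → m ≤ ρ x := fun x hx => hxm (show ρ x ≤ a from hx.le)
  set a' : ℝ := a - (max (c - m) 1)⁻¹ with ha'
  have hpos : 0 < (max (c - m) 1)⁻¹ := inv_pos.2 (lt_of_lt_of_le one_pos (le_max_right _ _))
  have ha'lt : a' < a := by rw [ha']; linarith
  have heq : (Subtype.val '' {x : sub ρ hρ a | rhoA ρ a x.1 ≤ c}) =
      {x | ρ x ≤ a'} ∩ {x | (c - ρ x) * (a - ρ x) ≥ 1} := by
    ext x
    constructor
    · rintro ⟨y, hy, rfl⟩
      have hya : ρ y.1 < a := y.2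
      have hy' : ρ y.1 + (a - ρ y.1)⁻¹ ≤ c := hy
      have h1 : 0 < a - ρ y.1 := by linarith
      have h2 : (a - ρ y.1)⁻¹ ≤ c - ρ y.1 := by linarith
      have h3 : (a - ρ y.1)⁻¹ ≤ max (c - m) 1 := by
        refine le_trans h2 (le_trans ?_ (le_max_left _ _))
        linarith [hmin _ hya]
      refine ⟨?_, ?_⟩
      · have h4 : (max (c - m) 1)⁻¹ ≤ a - ρ y.1 := by
          rw [inv_le_comm₀ (lt_of_lt_of_le one_pos (le_max_right _ _)) h1]
          exact h3
        show ρ y.1 ≤ a'
        rw [ha']; linarith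
      · show (c - ρ y.1) * (a - ρ y.1) ≥ 1
        have := mul_le_mul_of_nonneg_right h2 h1.le
        rwa [inv_mul_cancel₀ h1.ne'] at this
    · rintro ⟨hx1, hx2⟩
      have hx1' : ρ x ≤ a' := hx1
      have hxa : ρ x < a := by linarith
      refine ⟨⟨x, hxa⟩, ?_, rfl⟩
      show ρ x + (a - ρ x)⁻¹ ≤ c
      have h1 : 0 < a - ρ x := by linarith
      have h2 : (1 : ℝ) ≤ (c - ρ x) * (a - ρ x) := hx2
      have h3 : (a - ρ x)⁻¹ ≤ c - ρ x := by
        rw [inv_le_iff_one_le_mul₀ h1]
        linarith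
      linarith
  rw [heq]
  apply (hcpt a').inter_right
  exact isClosed_le continuous_const ((continuous_const.sub hρ).mul (continuous_const.sub hρ))

lemma Levi_rhoA' (U : Opens M) {ρ : M → ℝ} (hρ : Sm ρ) {a : ℝ} (hU : ∀ x ∈ U, ρ x < a)
    (hL : ∀ x w, nsq w ≤ Levi ρ x w) (x : U) (w : Fin n → ℂ) :
    nsq w ≤ @Levi n U _ (rdO U) (fun y => rhoA ρ a y.1) x w := by
  letI := rdO U
  have hs1 : Sm (fun y : U => ρ y.1) := sm_res U hρ
  have hs2 : ∀ k : ℕ, Sm (fun y : U => ((a - ρ y.1) ^ k)⁻¹) := by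
    intro k y
    have h1 : (a - ((fun y : U => ρ y.1) ∘ (ch y).symm) (cp y)) ^ k ≠ 0 := by
      have : ((fun y : U => ρ y.1) ∘ (ch y).symm) (cp y) = ρ y.1 := by
        simp only [Function.comp_apply]
        rw [symm_cp]
      rw [this]
      have := hU y.1 y.2
      exact pow_ne_zero _ (by linarith)
    exact (((contDiffAt_const.sub (hs1 y)).pow k).inv h1)
  have hs2' : Sm (fun y : U => (a - ρ y.1)⁻¹) := by simpa using hs2 1
  have h1 : Levi (fun y : U => rhoA ρ a y.1) x w =
      Levi (fun y : U => ρ y.1) x w + Levi (fun y : U => (a - ρ y.1)⁻¹) x w :=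
    Levi_add hs1 hs2' x w
  rw [h1]
  have h2 : Levi (fun y : U => ρ y.1) x w = Levi ρ x.1 w := Levi_res U ρ x w
  have hxa : ρ x.1 < a := hU x.1 x.2
  have hpos : 0 < a - ρ x.1 := by linarith
  have h3 : 0 ≤ Levi (fun y : U => (a - ρ y.1)⁻¹) x w := by
    rw [Crest.Agent.R271.W792.Levi_eq_lev hs2']
    have hd0 : ∀ t : ℝ, HasDerivAt (fun t : ℝ => a - t) (-1) t := fun t => by
      simpa using (hasDerivAt_id t).const_sub a
    have hd1 : ∀ t : ℝ, t < a → HasDerivAt (fun t => (a - t)⁻¹) (((a - t) ^ 2)⁻¹) t := by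
      intro t ht
      have h5 := (hd0 t).fun_inv (by linarith [ht] : a - t ≠ 0)
      exact h5.congr_deriv (by rw [neg_neg, one_div])
    have hd2 : HasDerivAt (fun t => ((a - t) ^ 2)⁻¹) (2 * ((a - ρ x.1) ^ 3)⁻¹) (ρ x.1) := by
      have h5 := ((hd0 (ρ x.1)).fun_pow 2).fun_inv (pow_ne_zero 2 hpos.ne')
      refine h5.congr_deriv ?_
      have hne : a - ρ x.1 ≠ 0 := hpos.ne'
      field_simp
      ring
    rw [Crest.Agent.R271.W792.lev_comp hs1 (g := fun t => (a - t)⁻¹)
      (g' := fun t => ((a - t) ^ 2)⁻¹) (g'' := 2 * ((a - ρ x.1) ^ 3)⁻¹) x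
      ((eventually_lt_nhds hxa).mono fun t ht => hd1 t ht) hd2 w (hs2 2)]
    have h6 : 0 ≤ Crest.Agent.R271.W792.lev (fun y : U => ρ y.1) x w := by
      rw [← Crest.Agent.R271.W792.Levi_eq_lev hs1, h2]
      exact (nsq_nonneg w).trans (hL x.1 w)
    have h7 := Crest.Agent.R271.W792.dsq_nonneg (fun y : U => ρ y.1) x w
    positivity
  rw [h2]
  linarith [hL x.1 w]

lemma Levi_rhoA {ρ : M → ℝ} (hρ : Sm ρ) (hL : ∀ x w, nsq w ≤ Levi ρ x w) (a : ℝ)
    (x : sub ρ hρ.continuous a) (w : Fin n → ℂ) :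
    nsq w ≤ @Levi n (sub ρ hρ.continuous a) _ (rdO _) (fun y => rhoA ρ a y.1) x w :=
  Levi_rhoA' (sub ρ hρ.continuous a) hρ (fun _ hx => hx) hL x w

end Crest.Agent.R276.SubL_29
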