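import Crest.Agent.R271.T7a_297
import Crest.Agent.R273.RegC_844
import Crest.Agent.R276.SubL_29
import Crest.Agent.R273.TwE_34

-- ▼ part R276/LimW_29
section

/-!
# Row 276 (helper29): the limit argument with exhausting domains and general weights

`limW` : `F_k` holomorphic on open sets `Ω_k` exhausting `M`, weights `W_k : M → [0,∞]` increasing,
locally bounded below, `∫_{Ω_k} |F_k - G|² W_k ≤ K` (up to `ε`, for many `k`) ⇒ along the
ultrafilter `F_k → F₀` pointwise, `F₀` holomorphic, `∫ |F₀ - G|² sup_k W_k ≤ K`.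
-/

set_option autoImplicit false
set_option linter.unusedSectionVars false

noncomputable section

open Set Filter Topology MeasureTheory Metric
open scoped ENNReal

namespace Crest.Agent.R276.LimW_29

open Crest.Agent.R271 Crest.Agent.R271.Ho51 Crest.Agent.R271.T7a297

variable {n : ℕ} {M : Type*} [TopologicalSpace M] [RDom n M]

/-- holomorphic on a subset (used for open subsets) -/
def HolOn (F : M → ℂ) (Ω : Set M) : Prop :=
  ∀ e : OpenPartialHomeomorph M (Fin n → ℂ), IsCh e →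
    DifferentiableOn ℂ (F ∘ e.symm) (e.target ∩ e.symm ⁻¹' Ω)

lemma HolOn.mono {F : M → ℂ} {Ω Ω' : Set M} (h : HolOn F Ω) (hs : Ω' ⊆ Ω) : HolOn F Ω' :=
  fun e he => (h e he).mono (inter_subset_inter_right _ (preimage_mono hs))

lemma HolOn.of_hol {F : M → ℂ} (h : Hol F) (Ω : Set M) : HolOn F Ω :=
  fun e he => (h e he).mono inter_subset_left

lemma HolOn.continuousOn {F : M → ℂ} {Ω : Set M} (h : HolOn F Ω) (hΩ : IsOpen Ω) :
    ContinuousOn F Ω := by
  intro x hx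
  have hopen : IsOpen ((ch x).target ∩ (ch x).symm ⁻¹' Ω) :=
    (ch x).symm.continuousOn.isOpen_inter_preimage (ch x).open_target hΩ
  have hmem : cp x ∈ (ch x).target ∩ (ch x).symm ⁻¹' Ω :=
    ⟨(isCh_ch x).cp_mem (mem_ch x), by rw [mem_preimage, symm_cp]; exact hx⟩
  have h1 : ContinuousAt (F ∘ (ch x).symm) (cp x) :=
    ((h (ch x) (isCh_ch x)).differentiableAt (hopen.mem_nhds hmem)).continuousAt
  have h2 : ContinuousAt (fun y => (F ∘ (ch x).symm) (cp y)) x :=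
    ContinuousAt.comp (g := F ∘ (ch x).symm) h1 cp_cont.continuousAt
  exact (h2.congr (eventually_eq_comp (isCh_ch x) (mem_ch x) F).symm).continuousWithinAt

variable [T2Space M] [SecondCountableTopology M] [MeasurableSpace M] [BorelSpace M]

open Classical in
lemma measurable_ind {Ω : Set M} (hΩ : IsOpen Ω) {F : M → ℂ} (hF : ContinuousOn F Ω) :
    Measurable (Ω.indicator F) := by
  rw [← piecewise_eq_indicator]
  exact hF.measurable_piecewise continuousOn_const hΩ.measurableSet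

section main

variable {μ : Measure M} {Ω : ℕ → Set M} {W : ℕ → M → ℝ≥0∞} {G : M → ℂ} {F : ℕ → M → ℂ}
  {K : ℝ≥0∞}

/-- the local bound and Montel's theorem in a chart -/
theorem local_montelW (hμ : IsLeb μ) (hΩo : ∀ k, IsOpen (Ω k)) (hΩm : Monotone Ω)
    (hΩc : ∀ C : Set M, IsCompact C → ∃ k, C ⊆ Ω k) (hG : Continuous G)
    (hF : ∀ k, HolOn (F k) (Ω k)) (hWmono : ∀ x, Monotone fun k => W k x)
    (hWm : ∀ k, Measurable (W k))
    (hWlb : ∀ x, ∃ k, ∃ c : ℝ≥0∞, 0 < c ∧ ∀ᶠ y in 𝓝 x, c ≤ W k y)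
    (hK : K ≠ ⊤)
    (hb : ∀ᶠ k in (hyperfilter ℕ : Filter ℕ),
      ∫⁻ x in Ω k, ENNReal.ofReal (‖F k x - G x‖ ^ 2) * W k x ∂μ ≤ K)
    {e : OpenPartialHomeomorph M (Fin n → ℂ)} (he : IsCh e) {z : Fin n → ℂ} (hz : z ∈ e.target) :
    ∃ r : ℝ, 0 < r ∧ ball z r ⊆ e.target ∧ ∃ f0 : (Fin n → ℂ) → ℂ,
      DifferentiableOn ℂ f0 (ball z r) ∧
      TendstoLocallyUniformlyOn (fun j => F j ∘ e.symm) f0 (hyperfilter ℕ : Filter ℕ)
        (ball z r) := by
  have hlf := hμ.locallyFinite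
  obtain ⟨k1, c, hc, hWc⟩ := hWlb (e.symm z)
  -- choose the radius
  have h0 : ∀ᶠ y in 𝓝 z, c ≤ W k1 (e.symm y) :=
    (e.symm.continuousAt (by simpa using hz)).eventually hWc
  obtain ⟨r, hr, hB'⟩ := Metric.nhds_basis_closedBall.mem_iff.1
    (inter_mem (e.open_target.mem_nhds hz) h0)
  have hB : closedBall z r ⊆ e.target := fun y hy => (hB' hy).1
  have hBW : ∀ y ∈ closedBall z r, c ≤ W k1 (e.symm y) := fun y hy => (hB' hy).2
  set B : Set (Fin n → ℂ) := closedBall z r with hBdef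
  have hBc : IsCompact B := isCompact_closedBall z r
  set S : Set M := e.symm '' B with hSdef
  have hSc : IsCompact S := hBc.image_of_continuousOn (e.symm.continuousOn.mono hB)
  have hSm : MeasurableSet S := hSc.isClosed.measurableSet
  obtain ⟨k2, hk2⟩ := hΩc S hSc
  set k0 := max k1 k2 with hk0
  have hSk : ∀ j, k0 ≤ j → S ⊆ Ω j := fun j hj =>
    hk2.trans (hΩm ((le_max_right _ _).trans hj))
  have hSW : ∀ j, k0 ≤ j → ∀ x ∈ S, c ≤ W j x := by
    rintro j hj _ ⟨y, hy, rfl⟩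
    exact (hBW y hy).trans (hWmono _ ((le_max_left _ _).trans hj))
  obtain ⟨g, hg'⟩ := hSc.bddAbove_image hG.norm.continuousOn
  have hSg : ∀ x ∈ S, ‖G x‖ ≤ g := fun x hx => hg' (mem_image_of_mem _ hx)
  -- finite constant
  obtain ⟨c', hc'0, hc'c⟩ : ∃ c' : ℝ≥0∞, c' ≠ ⊤ ∧ ∀ j, k0 ≤ j → ∀ x ∈ S, 1 ≤ c' * W j x := by
    refine ⟨(min c 1)⁻¹, ?_, fun j hj x hx => ?_⟩
    · exact ENNReal.inv_ne_top.2 (lt_min hc one_pos).ne'
    · have h1 : (min c 1)⁻¹ * min c 1 = 1 :=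
        ENNReal.inv_mul_cancel (lt_min hc one_pos).ne' (ne_top_of_le_ne_top ENNReal.one_ne_top
          (min_le_right _ _))
      calc (1 : ℝ≥0∞) = (min c 1)⁻¹ * min c 1 := h1.symm
        _ ≤ (min c 1)⁻¹ * W j x := by
            gcongr
            exact (min_le_left _ _).trans (hSW j hj x hx)
  set C : ℝ≥0∞ := 2 * c' * K + 2 * ENNReal.ofReal (g ^ 2) * μ S with hCdef
  have hC : C ≠ ⊤ := by
    refine ENNReal.add_ne_top.2 ⟨ENNReal.mul_ne_top (ENNReal.mul_ne_top (by simp)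
      hc'0) hK, ENNReal.mul_ne_top (ENNReal.mul_ne_top (by simp)
      ENNReal.ofReal_ne_top) hSc.measure_lt_top.ne⟩
  have hFc : ∀ j, ContinuousOn (F j) (Ω j) := fun j => (hF j).continuousOn (hΩo j)
  have hbound : ∀ j, k0 ≤ j →
      ∫⁻ x in Ω j, ENNReal.ofReal (‖F j x - G x‖ ^ 2) * W j x ∂μ ≤ K →
      ∫⁻ y in ball z r, ‖(F j ∘ e.symm) y‖ₑ ^ 2 ≤ C := by
    intro j hj hbj
    have hfm : Measurable fun x => ‖(Ω j).indicator (F j) x‖ₑ ^ 2 := by
      have h1 : Measurable ((Ω j).indicator (F j)) := measurable_ind (hΩo j) (hFc j)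
      exact h1.enorm.pow_const 2
    have h0 : ∫⁻ y in ball z r, ‖(F j ∘ e.symm) y‖ₑ ^ 2 =
        ∫⁻ y in ball z r, ‖(Ω j).indicator (F j) (e.symm y)‖ₑ ^ 2 := by
      refine setLIntegral_congr_fun measurableSet_ball fun y hy => ?_
      simp only [Function.comp_apply]
      rw [indicator_of_mem (hSk j hj (mem_image_of_mem _ (ball_subset_closedBall hy)))]
    have h1 : ∫⁻ y in B, ‖(Ω j).indicator (F j) (e.symm y)‖ₑ ^ 2 ≤
        ∫⁻ x in S, ‖(Ω j).indicator (F j) x‖ₑ ^ 2 ∂μ :=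
      lintegral_ball_le hμ he hBc hB hfm
    have h2 : ∀ x ∈ S, ‖(Ω j).indicator (F j) x‖ₑ ^ 2 ≤ 2 * c' *
        (ENNReal.ofReal (‖F j x - G x‖ ^ 2) * W j x) +
        2 * ENNReal.ofReal (g ^ 2) := by
      intro x hx
      rw [indicator_of_mem (hSk j hj hx)]
      refine (enorm_sq_le_aux (F j x) (G x)).trans (add_le_add ?_ ?_)
      · calc 2 * ENNReal.ofReal (‖F j x - G x‖ ^ 2)
            = 2 * ENNReal.ofReal (‖F j x - G x‖ ^ 2) * 1 := (mul_one _).symm
          _ ≤ 2 * ENNReal.ofReal (‖F j x - G x‖ ^ 2) * (c' * W j x) := by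
              gcongr
              exact hc'c j hj x hx
          _ = _ := by ring
      · refine mul_le_mul_right (ENNReal.ofReal_le_ofReal ?_) _
        have := hSg x hx
        exact pow_le_pow_left₀ (norm_nonneg _) this 2
    rw [h0]
    calc ∫⁻ y in ball z r, ‖(Ω j).indicator (F j) (e.symm y)‖ₑ ^ 2
        ≤ ∫⁻ y in B, ‖(Ω j).indicator (F j) (e.symm y)‖ₑ ^ 2 :=
          lintegral_mono_set ball_subset_closedBall
      _ ≤ ∫⁻ x in S, ‖(Ω j).indicator (F j) x‖ₑ ^ 2 ∂μ := h1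
      _ ≤ ∫⁻ x in S, (2 * c' * (ENNReal.ofReal (‖F j x - G x‖ ^ 2) * W j x) +
        2 * ENNReal.ofReal (g ^ 2)) ∂μ := setLIntegral_mono' hSm h2
      _ = ∫⁻ x in S, 2 * c' * (ENNReal.ofReal (‖F j x - G x‖ ^ 2) * W j x) ∂μ +
          2 * ENNReal.ofReal (g ^ 2) * μ S := by
        rw [lintegral_add_right _ measurable_const, setLIntegral_const]
      _ = 2 * c' * ∫⁻ x in S, (ENNReal.ofReal (‖F j x - G x‖ ^ 2) * W j x) ∂μ +
          2 * ENNReal.ofReal (g ^ 2) * μ S := by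
        rw [lintegral_const_mul' _ _ (ENNReal.mul_ne_top (by simp) hc'0)]
      _ ≤ C := by
        rw [hCdef]
        gcongr
        exact (lintegral_mono_set (hSk j hj)).trans hbj
  -- Montel for the modified family
  set F' : ℕ → (Fin n → ℂ) → ℂ := fun j => if k0 ≤ j then F j ∘ e.symm else fun _ => 0 with hF'
  have hF'd : ∀ j, DifferentiableOn ℂ (F' j) (ball z r) := by
    intro j
    by_cases hj : k0 ≤ j
    · simp only [hF', if_pos hj]
      refine (hF j e he).mono fun y hy => ?_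
      exact ⟨hB (ball_subset_closedBall hy),
        hSk j hj (mem_image_of_mem _ (ball_subset_closedBall hy))⟩
    · simp only [hF', if_neg hj]
      exact differentiableOn_const _
  have hle : (hyperfilter ℕ : Filter ℕ) ≤ atTop := by
    rw [← Nat.cofinite_eq_atTop]
    exact hyperfilter_le_cofinite
  have hev : ∀ᶠ j in (hyperfilter ℕ : Filter ℕ), k0 ≤ j := hle (eventually_ge_atTop k0)
  obtain ⟨f0, hf0d, hf0⟩ := Montel297.montel_L2 (ball z r) isOpen_ball F' hF'd C hC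
    (hyperfilter ℕ) (by
      filter_upwards [hev, hb] with j hj hbj
      simp only [hF', if_pos hj]
      exact hbound j hj hbj)
  refine ⟨r, hr, ball_subset_closedBall.trans hB, f0, hf0d, ?_⟩
  intro u hu x hx
  obtain ⟨t, ht, hev2⟩ := hf0 u hu x hx
  refine ⟨t, ht, ?_⟩
  filter_upwards [hev2, hev] with j hj1 hj2 y hy
  have := hj1 y hy
  simpa only [hF', if_pos hj2] using this

/-- **limit lemma** -/
theorem limW' (hμ : IsLeb μ) (hΩo : ∀ k, IsOpen (Ω k)) (hΩm : Monotone Ω)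
    (hΩc : ∀ C : Set M, IsCompact C → ∃ k, C ⊆ Ω k) (hG : Continuous G)
    (hF : ∀ k, HolOn (F k) (Ω k)) (hWmono : ∀ x, Monotone fun k => W k x)
    (hWm : ∀ k, Measurable (W k))
    (hWlb : ∀ x, ∃ k, ∃ c : ℝ≥0∞, 0 < c ∧ ∀ᶠ y in 𝓝 x, c ≤ W k y)
    (hK : K ≠ ⊤)
    (hb : ∀ K', K < K' → ∀ᶠ k in (hyperfilter ℕ : Filter ℕ),
      ∫⁻ x in Ω k, ENNReal.ofReal (‖F k x - G x‖ ^ 2) * W k x ∂μ ≤ K') :
    ∃ F0 : M → ℂ, Hol F0 ∧
      (∀ x, Tendsto (fun j => F j x) (hyperfilter ℕ : Filter ℕ) (𝓝 (F0 x))) ∧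
      ∫⁻ x, ENNReal.ofReal (‖F0 x - G x‖ ^ 2) * (⨆ k, W k x) ∂μ ≤ K := by
  obtain ⟨K1, hK1, hK1t⟩ := exists_between hK.lt_top
  have hloc := fun {e : OpenPartialHomeomorph M (Fin n → ℂ)} (he : IsCh e) {z : Fin n → ℂ}
    (hz : z ∈ e.target) => local_montelW hμ hΩo hΩm hΩc hG hF hWmono hWm hWlb hK1t.ne
      (hb K1 hK1) he hz
  set l : Filter ℕ := (hyperfilter ℕ : Filter ℕ) with hl
  -- pointwise limits
  set F0 : M → ℂ := fun x => limUnder l (fun j => F j x) with hF0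
  have hlim : ∀ x, Tendsto (fun j => F j x) l (𝓝 (F0 x)) := by
    intro x
    obtain ⟨r, hr, -, f0, -, hf0⟩ := hloc (isCh_ch x) ((isCh_ch x).cp_mem (mem_ch x))
    have h1 := hf0.tendsto_at (mem_ball_self hr)
    have h2 : Tendsto (fun j => F j x) l (𝓝 (f0 (cp x))) := by
      simpa [symm_cp] using h1
    exact tendsto_nhds_limUnder ⟨_, h2⟩
  have hagree : ∀ {e : OpenPartialHomeomorph M (Fin n → ℂ)} {z : Fin n → ℂ} {r : ℝ}
      {f0 : (Fin n → ℂ) → ℂ}, TendstoLocallyUniformlyOn (fun j => F j ∘ e.symm) f0 l (ball z r) →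
      ∀ y ∈ ball z r, f0 y = F0 (e.symm y) := by
    intro e z r f0 hf0 y hy
    exact tendsto_nhds_unique (hf0.tendsto_at hy) (hlim (e.symm y))
  have hHol : Hol F0 := by
    intro e he z hz
    obtain ⟨r, hr, hsub, f0, hd, hf0⟩ := hloc he hz
    have h1 : DifferentiableAt ℂ f0 z := hd.differentiableAt (isOpen_ball.mem_nhds (mem_ball_self hr))
    refine (h1.congr_of_eventuallyEq ?_).differentiableWithinAt
    filter_upwards [isOpen_ball.mem_nhds (mem_ball_self hr)] with y hy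
    exact (hagree hf0 y hy).symm
  have hF0c : Continuous F0 := Hol.continuous hHol
  have hLU : TendstoLocallyUniformly F F0 l := by
    intro u hu x
    obtain ⟨r, hr, hsub, f0, hd, hf0⟩ := hloc (isCh_ch x) ((isCh_ch x).cp_mem (mem_ch x))
    obtain ⟨t, ht, hev⟩ := hf0 u hu (cp x) (mem_ball_self hr)
    rw [isOpen_ball.nhdsWithin_eq (mem_ball_self hr)] at ht
    refine ⟨(ch x).source ∩ cp ⁻¹' (t ∩ ball (cp x) r), inter_mem
      ((ch x).open_source.mem_nhds (mem_ch x)) (cp_cont.continuousAt.preimage_mem_nhds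
        (inter_mem ht (isOpen_ball.mem_nhds (mem_ball_self hr)))), ?_⟩
    filter_upwards [hev] with j hj y hy
    have h1 := hj (cp y) hy.2.1
    rw [hagree hf0 _ hy.2.2] at h1
    simpa [(isCh_ch x).symm_cp hy.1] using h1
  have hle : l ≤ atTop := by
    rw [← Nat.cofinite_eq_atTop]
    exact hyperfilter_le_cofinite
  have hlc : LocallyCompactSpace M := R273.Reg_844.locallyCompact_rdom n M
  set CE : CompactExhaustion M := default with hCE
  have hFc : ∀ j, ContinuousOn (F j) (Ω j) := fun j => (hF j).continuousOn (hΩo j)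
  refine ⟨F0, hHol, hlim, ?_⟩
  refine le_of_forall_gt_imp_ge_of_dense fun K' hK' => ?_
  -- a subsequence converging uniformly on the compact sets
  have hsub : ∀ m : ℕ, ∃ j : ℕ, m ≤ j ∧ (∀ x ∈ CE m, dist (F0 x) (F j x) < 1 / ((m : ℝ) + 1)) ∧
      ∫⁻ x in Ω j, ENNReal.ofReal (‖F j x - G x‖ ^ 2) * W j x ∂μ ≤ K' := by
    intro m
    have h1 : TendstoUniformlyOn F F0 l (CE m) :=
      (tendstoLocallyUniformlyOn_iff_tendstoUniformlyOn_of_compact (CE.isCompact m)).1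
        hLU.tendstoLocallyUniformlyOn
    have h2 := (Metric.tendstoUniformlyOn_iff.1 h1) (1 / ((m : ℝ) + 1)) (by positivity)
    have h3 : ∀ᶠ j in l, m ≤ j := hle (eventually_ge_atTop m)
    obtain ⟨j, ⟨hj1, hj2⟩, hj3⟩ := ((h3.and h2).and (hb K' hK')).exists
    exact ⟨j, hj1, fun x hx => hj2 x hx, hj3⟩
  choose J hJ1 hJ2 hJ3 using hsub
  have hJlim : ∀ x, Tendsto (fun m => F (J m) x) atTop (𝓝 (F0 x)) := by
    intro x
    rw [tendsto_iff_dist_tendsto_zero]
    refine squeeze_zero' (Eventually.of_forall fun _ => dist_nonneg) ?_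
      tendsto_one_div_add_atTop_nhds_zero_nat
    obtain ⟨m0, hm0⟩ := mem_iUnion.1 (by rw [CE.iUnion_eq]; trivial : x ∈ ⋃ m, CE m)
    filter_upwards [eventually_ge_atTop m0] with m hm
    rw [dist_comm]
    exact (hJ2 m x (CE.subset hm hm0)).le
  -- Fatou
  have hfatou : ∀ k : ℕ, ∫⁻ x in Ω k,
      ENNReal.ofReal (‖F0 x - G x‖ ^ 2) * W k x ∂μ ≤ K' := by
    intro k
    have hsubk : ∀ m, Ω k ⊆ Ω (J (m + k)) := fun m =>
      hΩm ((Nat.le_add_left k m).trans (hJ1 (m + k)))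
    set f : ℕ → M → ℝ≥0∞ := fun m x =>
      ENNReal.ofReal (‖(Ω (J (m + k))).indicator (F (J (m + k))) x - G x‖ ^ 2) * W k x with hf
    have hfm : ∀ m, Measurable (f m) := fun m =>
      (((((measurable_ind (hΩo _) (hFc (J (m + k)))).sub hG.measurable).norm).pow_const
        2).ennreal_ofReal).mul (hWm k)
    have h1 : ∀ x ∈ Ω k, ENNReal.ofReal (‖F0 x - G x‖ ^ 2) * W k x ≤
        liminf (fun m => f m x) atTop := by
      intro x hx
      have h3 : Tendsto (fun m => ENNReal.ofReal (‖F (J (m + k)) x - G x‖ ^ 2)) atTop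
          (𝓝 (ENNReal.ofReal (‖F0 x - G x‖ ^ 2))) :=
        (ENNReal.continuous_ofReal.tendsto _).comp
          (((((hJlim x).comp (tendsto_add_atTop_nat k)).sub_const (G x)).norm).pow 2)
      have h4 : (fun m => f m x) = fun m =>
          ENNReal.ofReal (‖F (J (m + k)) x - G x‖ ^ 2) * W k x := by
        funext m
        simp only [hf]
        rw [indicator_of_mem (hsubk m hx)]
      rw [h4]
      rcases eq_or_ne (ENNReal.ofReal (‖F0 x - G x‖ ^ 2)) 0 with h0 | h0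
      · rw [h0, zero_mul]; exact zero_le
      · have h2 := ENNReal.Tendsto.mul_const (b := W k x) h3 (Or.inl h0)
        rw [h2.liminf_eq]
    calc ∫⁻ x in Ω k, ENNReal.ofReal (‖F0 x - G x‖ ^ 2) * W k x ∂μ
        ≤ ∫⁻ x in Ω k, liminf (fun m => f m x) atTop ∂μ :=
          setLIntegral_mono' (hΩo k).measurableSet h1
      _ ≤ liminf (fun m => ∫⁻ x in Ω k, f m x ∂μ) atTop := lintegral_liminf_le hfm
      _ ≤ K' := by
        refine liminf_le_of_frequently_le' (Eventually.frequently (Eventually.of_forall fun m => ?_))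
        refine le_trans ?_ (hJ3 (m + k))
        refine (setLIntegral_mono' (hΩo k).measurableSet (g := fun x =>
          ENNReal.ofReal (‖F (J (m + k)) x - G x‖ ^ 2) * W (J (m + k)) x) fun x hx => ?_).trans
          (lintegral_mono_set (hsubk m))
        simp only [hf]
        rw [indicator_of_mem (hsubk m hx)]
        exact mul_le_mul_right (hWmono x ((Nat.le_add_left k m).trans (hJ1 (m + k)))) _
  -- monotone convergence
  set g : ℕ → M → ℝ≥0∞ := fun k => (Ω k).indicator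
    (fun x => ENNReal.ofReal (‖F0 x - G x‖ ^ 2) * W k x) with hg
  have hgm : ∀ k, Measurable (g k) := fun k =>
    ((((hF0c.sub hG).norm.pow 2).measurable.ennreal_ofReal).mul
      (hWm k)).indicator (hΩo k).measurableSet
  have hgmono : Monotone g := by
    intro k k' hkk' x
    by_cases hx : x ∈ Ω k
    · simp only [hg, indicator_of_mem hx, indicator_of_mem (hΩm hkk' hx)]
      exact mul_le_mul_right (hWmono x hkk') _
    · simp only [hg, indicator_of_notMem hx]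
      exact zero_le
  have hsup : ∀ x, ENNReal.ofReal (‖F0 x - G x‖ ^ 2) * (⨆ k, W k x) = ⨆ k, g k x := by
    intro x
    rw [ENNReal.mul_iSup]
    apply le_antisymm
    · refine iSup_le fun k => ?_
      obtain ⟨m0, hm0⟩ := hΩc {x} isCompact_singleton
      have hx : x ∈ Ω (max k m0) := hΩm (le_max_right _ _) (hm0 rfl)
      refine le_trans ?_ (le_iSup (fun k => g k x) (max k m0))
      simp only [hg, indicator_of_mem hx]
      exact mul_le_mul_right (hWmono x (le_max_left _ _)) _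
    · refine iSup_mono fun k => ?_
      exact indicator_le_self _ _ _
  simp only [hsup]
  rw [lintegral_iSup hgm hgmono]
  refine iSup_le fun k => ?_
  simp only [hg]
  rw [lintegral_indicator (hΩo k).measurableSet]
  exact hfatou k

/-- **limit lemma**, simple form -/
theorem limW (hμ : IsLeb μ) (hΩo : ∀ k, IsOpen (Ω k)) (hΩm : Monotone Ω)
    (hΩc : ∀ C : Set M, IsCompact C → ∃ k, C ⊆ Ω k) (hG : Continuous G)
    (hF : ∀ k, HolOn (F k) (Ω k)) (hWmono : ∀ x, Monotone fun k => W k x)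
    (hWm : ∀ k, Measurable (W k))
    (hWlb : ∀ x, ∃ k, ∃ c : ℝ≥0∞, 0 < c ∧ ∀ᶠ y in 𝓝 x, c ≤ W k y)
    (hK : K ≠ ⊤)
    (hb : ∀ k, ∫⁻ x in Ω k, ENNReal.ofReal (‖F k x - G x‖ ^ 2) * W k x ∂μ ≤ K) :
    ∃ F0 : M → ℂ, Hol F0 ∧
      (∀ x, Tendsto (fun j => F j x) (hyperfilter ℕ : Filter ℕ) (𝓝 (F0 x))) ∧
      ∫⁻ x, ENNReal.ofReal (‖F0 x - G x‖ ^ 2) * (⨆ k, W k x) ∂μ ≤ K :=
  limW' hμ hΩo hΩm hΩc hG hF hWmono hWm hWlb hK fun _ hK' =>
    Eventually.of_forall fun k => (hb k).trans hK'.le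

end main

end Crest.Agent.R276.LimW_29
end
end

-- ▼ part R276/EngU_29

/-!
# Row 276 (helper29): the (twisted) engine with a singular psh weight

`LPsh b` : `b ≥ 0` and `log (b + δ)` plurisubharmonic for all `δ > 0` (i.e. `log b` psh, `-∞`
allowed).  `twU` : helper34's twisted engine with the additional weight `1/b`;
`engU` : the untwisted engine with weight `e^{-ψ}/b`.
-/

set_option autoImplicit false
set_option linter.unusedSectionVars false
set_option linter.style.haveILetI false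

noncomputable section

open Set Filter Topology MeasureTheory ComplexConjugate
open scoped ENNReal

namespace Crest.Agent.R276.EngU_29

open Crest.Agent.R271 Crest.Agent.R271.Ho51 Crest.Agent.R273.TwA_34 Crest.Agent.R273.Reg_844
  Crest.Agent.R276.SubL_29 Crest.Agent.R276.LimW_29
open Crest.Agent.R271.W792 (lev)
open TopologicalSpace (Opens)

variable {n : ℕ} {M : Type*} [TopologicalSpace M] [RDom n M]

/-- `log b` is plurisubharmonic -/
structure LPsh (b : M → ℝ) : Prop where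
  nonneg : ∀ x, 0 ≤ b x
  psh : ∀ δ : ℝ, 0 < δ → PSH (fun x => Real.log (b x + δ))

lemma lev_res (U : Opens M) (φ : M → ℝ) (x : U) (w : Fin n → ℂ) :
    @lev n U _ (rdO U) (fun y : U => φ y.1) x w = lev φ x.1 w := by
  unfold lev
  have h1 : ∀ v : Fin n → ℂ, (fun y : U => @D n U _ (rdO U) ℝ _ _ (fun y : U => φ y.1) y v) =
      fun y : U => D φ y.1 v := by
    intro v; funext y
    rw [D_res]
  simp only [h1]
  rw [D_res U (fun y => D φ y w) x, D_res U (fun y => D φ y (Complex.I • w)) x]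

variable [T2Space M] [SecondCountableTopology M] [MeasurableSpace M] [BorelSpace M]
  {μ : Measure M} {c : ℝ}

/-- twisted engine with a psh weight on a sublevel domain -/
theorem twU_step (hμ : IsLeb μ) {ρ : M → ℝ} (hρ : Sm ρ)
    (hcpt : ∀ t : ℝ, IsCompact {x | ρ x ≤ t}) (hL : ∀ x w, nsq w ≤ Levi ρ x w) (a : ℝ)
    (hc1 : 1 < c) {Φ ψ q : M → ℝ} (hΦ : Sm Φ) (hψ : Sm ψ) (hq : Sm q) (hq2 : ∀ x, 2 ≤ q x)
    (hpos : ∀ x w, 0 ≤ Bt c Φ ψ q x w) {G : M → ℂ} (hG : Sm G) {κ : M → ℝ}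
    (hk : ∀ x (w : Fin n → ℂ), ‖∑ j, db j G x * conj (w j)‖ ^ 2 ≤ κ x * Bt c Φ ψ q x w)
    {u : M → ℝ} (hu : PSH u) {K : ℝ≥0∞} (hKt : K ≠ ∞)
    (hK : ∫⁻ x, ENNReal.ofReal (κ x * Real.exp (ψ x - Φ x)) *
      ENNReal.ofReal (Real.exp (-u x)) ∂μ ≤ K) :
    ∃ F : M → ℂ, HolOn F {x | ρ x < a} ∧ ∫⁻ x in {x | ρ x < a},
      ENNReal.ofReal (‖F x - G x‖ ^ 2) *
        ENNReal.ofReal (Real.exp (ψ x - Φ x) / q x * Real.exp (-u x)) ∂μ ≤ K := by
  obtain ⟨U₀, φ, hU₀, hCU, hφs, hφl, hφa, hφg, hφt⟩ := exists_reg hu (hcpt a)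
  set U : Opens M := sub ρ hρ.continuous a with hU
  letI := rdO U
  have hUU₀ : ∀ x : U, x.1 ∈ U₀ := fun x => hCU (show ρ x.1 ≤ a from (show ρ x.1 < a from x.2).le)
  have hμU : IsLeb (μ.comap (Subtype.val : U → M)) := isLeb_res U hμ
  have hΦU : Sm (fun y : U => Φ y.1) := sm_res U hΦ
  have hψU : Sm (fun y : U => ψ y.1) := sm_res U hψ
  have hqU : Sm (fun y : U => q y.1) := sm_res U hq
  have hGU : Sm (fun y : U => G y.1) := sm_res U hG
  have hφU : ∀ j, Sm (fun y : U => φ j y.1) := fun j =>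
    sm_res' U fun x hx => hφs j x (hCU (show ρ x ≤ a from (show ρ x < a from hx).le))
  have hBt : ∀ j (x : U) (w : Fin n → ℂ), Bt c Φ ψ q x.1 w ≤
      Bt c (fun y : U => Φ y.1 + φ j y.1) (fun y : U => ψ y.1) (fun y : U => q y.1) x w := by
    intro j x w
    unfold Bt
    have h1 : (fun y : U => Φ y.1 + φ j y.1 + ψ y.1) =
        fun y : U => (Φ y.1 + ψ y.1) + φ j y.1 := by funext y; ring
    have h2 : Levi (fun y : U => (Φ y.1 + ψ y.1) + φ j y.1) x w =
        Levi (fun y : U => Φ y.1 + ψ y.1) x w + Levi (fun y : U => φ j y.1) x w :=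
      Levi_add (hΦU.add hψU) (hφU j) x w
    have h3 : Levi (fun y : U => Φ y.1 + ψ y.1) x w = Levi (fun y => Φ y + ψ y) x.1 w :=
      Levi_res U (fun y => Φ y + ψ y) x w
    have h4 : 0 ≤ Levi (fun y : U => φ j y.1) x w := by
      rw [W792.Levi_eq_lev (hφU j), lev_res]
      exact hφl j x.1 (hUU₀ x) w
    have h5 : ∀ i : Fin n, dz i (fun y : U => ((ψ y.1 : ℝ) : ℂ)) x =
        dz i (fun y => (ψ y : ℂ)) x.1 := fun i => dz_res U i (fun y => (ψ y : ℂ)) x
    rw [h1, h2, h3]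
    simp only [h5]
    linarith
  set κ' : U → ℝ := fun x => max (κ x.1) 0 with hκ'
  have hstep : ∀ j, ∃ F : U → ℂ, Hol F ∧
      ∫⁻ x : U, ENNReal.ofReal (‖F x - G x.1‖ ^ 2 * (Real.exp (ψ x.1 - (Φ x.1 + φ j x.1)) /
        q x.1)) ∂(μ.comap (Subtype.val : U → M)) ≤ K := by
    intro j
    have hpos' : ∀ (x : U) (w : Fin n → ℂ), 0 ≤
        Bt c (fun y : U => Φ y.1 + φ j y.1) (fun y : U => ψ y.1) (fun y : U => q y.1) x w :=
      fun x w => (hpos x.1 w).trans (hBt j x w)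
    refine R273.TwE_34.twE hμU (sm_rhoA hρ a) (isCompact_rhoA hρ.continuous hcpt a)
      (Levi_rhoA hρ hL a) hc1 (hΦU.add (hφU j)) hψU hqU (fun x => hq2 x.1) hpos' hGU
      (κ := κ') ?_ ?_
    · intro x w
      have h1 : ∀ i : Fin n, db i (fun y : U => G y.1) x = db i G x.1 := fun i => db_res U i G x
      simp only [h1]
      refine (hk x.1 w).trans ?_
      calc κ x.1 * Bt c Φ ψ q x.1 w ≤ κ' x * Bt c Φ ψ q x.1 w :=
            mul_le_mul_of_nonneg_right (le_max_left _ _) (hpos x.1 w)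
        _ ≤ _ := mul_le_mul_of_nonneg_left (hBt j x w) (le_max_right _ _)
    · calc ∫⁻ x : U, ENNReal.ofReal (κ' x * Real.exp (ψ x.1 - (Φ x.1 + φ j x.1)))
            ∂(μ.comap (Subtype.val : U → M))
          ≤ ∫⁻ x : U, (fun x : M => ENNReal.ofReal (κ x * Real.exp (ψ x - Φ x)) *
              ENNReal.ofReal (Real.exp (-u x))) x.1 ∂(μ.comap (Subtype.val : U → M)) := by
            refine lintegral_mono fun x => ?_
            have h1 : ψ x.1 - (Φ x.1 + φ j x.1) = (ψ x.1 - Φ x.1) + -φ j x.1 := by ring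
            have h2 : κ' x * Real.exp (ψ x.1 - (Φ x.1 + φ j x.1)) =
                max (κ x.1) 0 * Real.exp (ψ x.1 - Φ x.1) * Real.exp (-φ j x.1) := by
              rw [h1, Real.exp_add]; simp only [hκ']; ring
            rw [h2, ENNReal.ofReal_mul (mul_nonneg (le_max_right _ _) (Real.exp_pos _).le)]
            have h3 : ENNReal.ofReal (max (κ x.1) 0 * Real.exp (ψ x.1 - Φ x.1)) =
                ENNReal.ofReal (κ x.1 * Real.exp (ψ x.1 - Φ x.1)) := by
              rcases le_total (κ x.1) 0 with h | h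
              · rw [max_eq_right h, zero_mul, ENNReal.ofReal_zero, ENNReal.ofReal_of_nonpos]
                exact mul_nonpos_of_nonpos_of_nonneg h (Real.exp_pos _).le
              · rw [max_eq_left h]
            rw [h3]
            refine mul_le_mul_right (ENNReal.ofReal_le_ofReal (Real.exp_le_exp.2 ?_)) _
            linarith [hφg j x.1 (hUU₀ x)]
        _ = ∫⁻ x in (U : Set M), ENNReal.ofReal (κ x * Real.exp (ψ x - Φ x)) *
              ENNReal.ofReal (Real.exp (-u x)) ∂μ :=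
            lintegral_res U (fun x => ENNReal.ofReal (κ x * Real.exp (ψ x - Φ x)) *
              ENNReal.ofReal (Real.exp (-u x)))
        _ ≤ _ := (setLIntegral_le_lintegral _ _).trans hK
  choose F hFh hFb using hstep
  -- limit on `U`
  have hq0 : ∀ x, 0 < q x := fun x => by have := hq2 x; linarith
  have hlq : Continuous (fun x : U => Real.log (q x.1)) :=
    hqU.continuous.log fun x => (hq0 x.1).ne'
  obtain ⟨F0, hF0, -, hb0⟩ := limW (Ω := fun _ => (univ : Set U)) hμU (fun _ => isOpen_univ)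
    (fun _ _ _ => le_rfl) (fun C _ => ⟨0, subset_univ C⟩) hGU.continuous
    (fun k => HolOn.of_hol (hFh k) univ)
    (W := fun k x => ENNReal.ofReal (Real.exp (ψ x.1 - Φ x.1) / q x.1 * Real.exp (-φ k x.1)))
    (fun x k k' hkk' => ENNReal.ofReal_le_ofReal (mul_le_mul_of_nonneg_left
      (Real.exp_le_exp.2 (neg_le_neg (hφa x.1 (hUU₀ x) hkk')))
      (div_nonneg (Real.exp_pos _).le (hq0 _).le)))
    (fun k => by
      have h1 : Continuous (fun x : U => Real.exp (ψ x.1 - Φ x.1) / q x.1 *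
          Real.exp (-φ k x.1)) := by
        refine Continuous.mul (Continuous.div (Real.continuous_exp.comp
          (hψU.continuous.sub hΦU.continuous)) hqU.continuous fun x => (hq0 x.1).ne')
          (Real.continuous_exp.comp (hφU k).continuous.neg)
      exact h1.measurable.ennreal_ofReal)
    (fun x => by
      have h1 : Continuous (fun x : U => Real.exp (ψ x.1 - Φ x.1) / q x.1 *
          Real.exp (-φ 0 x.1)) := by
        refine Continuous.mul (Continuous.div (Real.continuous_exp.comp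
          (hψU.continuous.sub hΦU.continuous)) hqU.continuous fun x => (hq0 x.1).ne')
          (Real.continuous_exp.comp (hφU 0).continuous.neg)
      have h2 : 0 < Real.exp (ψ x.1 - Φ x.1) / q x.1 * Real.exp (-φ 0 x.1) :=
        mul_pos (div_pos (Real.exp_pos _) (hq0 _)) (Real.exp_pos _)
      refine ⟨0, ENNReal.ofReal (Real.exp (ψ x.1 - Φ x.1) / q x.1 * Real.exp (-φ 0 x.1) / 2),
        ENNReal.ofReal_pos.2 (by positivity), ?_⟩
      filter_upwards [h1.continuousAt.eventually (lt_mem_nhds (half_lt_self h2))] with y hy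
      exact ENNReal.ofReal_le_ofReal hy.le)
    hKt (fun k => by
      refine le_trans (le_of_eq ?_) (hFb k)
      rw [Measure.restrict_univ]
      refine lintegral_congr fun x => ?_
      rw [← ENNReal.ofReal_mul (by positivity)]
      congr 1
      have h1 : ψ x.1 - (Φ x.1 + φ k x.1) = (ψ x.1 - Φ x.1) + -φ k x.1 := by ring
      rw [h1, Real.exp_add]
      ring)
  -- back to `M`
  classical
  refine ⟨fun x => if hx : x ∈ U then F0 ⟨x, hx⟩ else 0, ?_, ?_⟩
  · intro e he z hz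
    have hzU : e.symm z ∈ U := hz.2
    refine (differentiableAt_of_hol U hF0 (F' := fun x => if hx : x ∈ U then F0 ⟨x, hx⟩ else 0)
      (fun x => ?_) he hz.1 hzU).differentiableWithinAt
    rw [dif_pos x.2]
  · have h1 := lintegral_res (U := U) (μ := μ) (fun x => ENNReal.ofReal
      (‖(if hx : x ∈ U then F0 ⟨x, hx⟩ else 0) - G x‖ ^ 2) *
        ENNReal.ofReal (Real.exp (ψ x - Φ x) / q x * Real.exp (-u x)))
    refine le_trans (le_of_eq ?_) hb0
    refine h1.symm.trans ?_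
    refine lintegral_congr fun x => ?_
    rw [dif_pos x.2]
    congr 1
    -- the supremum
    have h2 : Tendsto (fun k => ENNReal.ofReal (Real.exp (ψ x.1 - Φ x.1) / q x.1 *
        Real.exp (-φ k x.1))) atTop (𝓝 (ENNReal.ofReal (Real.exp (ψ x.1 - Φ x.1) / q x.1 *
        Real.exp (-u x.1)))) :=
      (ENNReal.continuous_ofReal.tendsto _).comp
        (((Real.continuous_exp.tendsto _).comp (hφt x.1 (hUU₀ x)).neg).const_mul _)
    refine (tendsto_nhds_unique (tendsto_atTop_iSup ?_) h2).symm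
    intro k k' hkk'
    exact ENNReal.ofReal_le_ofReal (mul_le_mul_of_nonneg_left
      (Real.exp_le_exp.2 (neg_le_neg (hφa x.1 (hUU₀ x) hkk')))
      (div_nonneg (Real.exp_pos _).le (hq0 _).le))

lemma exhaust {ρ : M → ℝ} (hρ : Continuous ρ) (C : Set M) (hC : IsCompact C) :
    ∃ k : ℕ, C ⊆ {x | ρ x < k} := by
  obtain ⟨b, hb⟩ := hC.bddAbove_image hρ.continuousOn
  obtain ⟨k, hk⟩ := exists_nat_gt b
  exact ⟨k, fun x hx => lt_of_le_of_lt (hb (mem_image_of_mem _ hx)) hk⟩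

/-- **twisted engine with a psh weight** -/
theorem twU_psh (hμ : IsLeb μ) {ρ : M → ℝ} (hρ : Sm ρ)
    (hcpt : ∀ t : ℝ, IsCompact {x | ρ x ≤ t}) (hL : ∀ x w, nsq w ≤ Levi ρ x w)
    (hc1 : 1 < c) {Φ ψ q : M → ℝ} (hΦ : Sm Φ) (hψ : Sm ψ) (hq : Sm q) (hq2 : ∀ x, 2 ≤ q x)
    (hpos : ∀ x w, 0 ≤ Bt c Φ ψ q x w) {G : M → ℂ} (hG : Sm G) {κ : M → ℝ}
    (hk : ∀ x (w : Fin n → ℂ), ‖∑ j, db j G x * conj (w j)‖ ^ 2 ≤ κ x * Bt c Φ ψ q x w)
    {u : M → ℝ} (hu : PSH u) {K : ℝ≥0∞} (hKt : K ≠ ∞)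
    (hK : ∫⁻ x, ENNReal.ofReal (κ x * Real.exp (ψ x - Φ x)) *
      ENNReal.ofReal (Real.exp (-u x)) ∂μ ≤ K) :
    ∃ F : M → ℂ, Hol F ∧ ∫⁻ x, ENNReal.ofReal (‖F x - G x‖ ^ 2) *
        ENNReal.ofReal (Real.exp (ψ x - Φ x) / q x * Real.exp (-u x)) ∂μ ≤ K := by
  have hq0 : ∀ x, 0 < q x := fun x => by have := hq2 x; linarith
  choose F hF hFb using fun k : ℕ =>
    twU_step hμ hρ hcpt hL (k : ℝ) hc1 hΦ hψ hq hq2 hpos hG hk hu hKt hK
  have hcont : Continuous (fun x => Real.exp (ψ x - Φ x) / q x) :=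
    Continuous.div (Real.continuous_exp.comp (hψ.continuous.sub hΦ.continuous)) hq.continuous
      fun x => (hq0 x).ne'
  obtain ⟨F0, hF0, -, hb⟩ := limW (Ω := fun k : ℕ => {x | ρ x < (k : ℝ)}) hμ
    (fun k => isOpen_lt hρ.continuous continuous_const)
    (fun k k' hkk' x hx => lt_of_lt_of_le (show ρ x < (k : ℝ) from hx)
      (by exact_mod_cast hkk' : (k : ℝ) ≤ (k' : ℝ)))
    (exhaust hρ.continuous) hG.continuous hF
    (W := fun _ x => ENNReal.ofReal (Real.exp (ψ x - Φ x) / q x * Real.exp (-u x)))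
    (fun x _ _ _ => le_rfl)
    (fun _ => (hcont.measurable.mul
      (Real.measurable_exp.comp hu.usc.measurable.neg)).ennreal_ofReal)
    (fun x => by
      have h2 : 0 < Real.exp (ψ x - Φ x) / q x := div_pos (Real.exp_pos _) (hq0 _)
      refine ⟨0, ENNReal.ofReal (Real.exp (ψ x - Φ x) / q x / 2 * Real.exp (-(u x + 1))),
        ENNReal.ofReal_pos.2 (by positivity), ?_⟩
      filter_upwards [hcont.continuousAt.eventually (lt_mem_nhds (half_lt_self h2)),
        hu.usc x (u x + 1) (by linarith)] with y hy1 hy2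
      refine ENNReal.ofReal_le_ofReal (mul_le_mul hy1.le (Real.exp_le_exp.2 (by linarith))
        (Real.exp_pos _).le (div_nonneg (Real.exp_pos _).le (hq0 _).le)))
    hKt (fun k => hFb k)
  refine ⟨F0, hF0, le_trans (le_of_eq ?_) hb⟩
  simp only [iSup_const]

/-! ### singular weights -/

lemma exp_neg_log {b δ : ℝ} (hb : 0 ≤ b) (hδ : 0 < δ) : Real.exp (-Real.log (b + δ)) = (b + δ)⁻¹ := by
  rw [Real.exp_neg, Real.exp_log (by positivity)]

lemma iSup_inv_eq {b : ℝ} (hb : 0 ≤ b) :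
    ⨆ k : ℕ, ENNReal.ofReal ((b + 1 / ((k : ℝ) + 1))⁻¹) = (ENNReal.ofReal b)⁻¹ := by
  have h1 : ∀ k : ℕ, ENNReal.ofReal ((b + 1 / ((k : ℝ) + 1))⁻¹) =
      (ENNReal.ofReal (b + 1 / ((k : ℝ) + 1)))⁻¹ := fun k =>
    ENNReal.ofReal_inv_of_pos (by positivity)
  simp only [h1]
  rw [← ENNReal.inv_iInf]
  congr 1
  have h2 : Tendsto (fun k : ℕ => ENNReal.ofReal (b + 1 / ((k : ℝ) + 1))) atTop
      (𝓝 (ENNReal.ofReal b)) := by
    have h3 : Tendsto (fun k : ℕ => b + 1 / ((k : ℝ) + 1)) atTop (𝓝 (b + 0)) :=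
      tendsto_one_div_add_atTop_nhds_zero_nat.const_add b
    rw [add_zero] at h3
    exact (ENNReal.continuous_ofReal.tendsto _).comp h3
  refine tendsto_nhds_unique (tendsto_atTop_iInf ?_) h2
  intro k k' hkk'
  refine ENNReal.ofReal_le_ofReal (add_le_add le_rfl ?_)
  apply one_div_le_one_div_of_le (by positivity)
  have : (k : ℝ) ≤ k' := by exact_mod_cast hkk'
  linarith

/-- **twisted engine with a singular psh weight** -/
theorem twU (hμ : IsLeb μ) {ρ : M → ℝ} (hρ : Sm ρ)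
    (hcpt : ∀ t : ℝ, IsCompact {x | ρ x ≤ t}) (hL : ∀ x w, nsq w ≤ Levi ρ x w)
    (hc1 : 1 < c) {Φ ψ q : M → ℝ} (hΦ : Sm Φ) (hψ : Sm ψ) (hq : Sm q) (hq2 : ∀ x, 2 ≤ q x)
    (hpos : ∀ x w, 0 ≤ Bt c Φ ψ q x w) {G : M → ℂ} (hG : Sm G) {κ : M → ℝ}
    (hk : ∀ x (w : Fin n → ℂ), ‖∑ j, db j G x * conj (w j)‖ ^ 2 ≤ κ x * Bt c Φ ψ q x w)
    {b : M → ℝ} (hb : LPsh b) {K : ℝ≥0∞} 
    (hK : ∫⁻ x, ENNReal.ofReal (κ x * Real.exp (ψ x - Φ x)) / ENNReal.ofReal (b x) ∂μ ≤ K) :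
    ∃ F : M → ℂ, Hol F ∧ ∫⁻ x, ENNReal.ofReal (‖F x - G x‖ ^ 2 * (Real.exp (ψ x - Φ x) / q x)) /
        ENNReal.ofReal (b x) ∂μ ≤ K := by
  by_cases hKt : K = ∞
  · subst hKt
    exact ⟨fun _ => 0, fun e _ => differentiableOn_const _, le_top⟩
  have hq0 : ∀ x, 0 < q x := fun x => by have := hq2 x; linarith
  have hδ : ∀ k : ℕ, (0 : ℝ) < 1 / ((k : ℝ) + 1) := fun k => by positivity
  have hmono : ∀ x {k k' : ℕ}, k ≤ k' → (b x + 1 / ((k : ℝ) + 1))⁻¹ ≤
      (b x + 1 / ((k' : ℝ) + 1))⁻¹ := by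
    intro x k k' hkk'
    have h1 := hb.nonneg x
    have h2 := hδ k'
    have h3 : 1 / ((k' : ℝ) + 1) ≤ 1 / ((k : ℝ) + 1) := by
      apply one_div_le_one_div_of_le (by positivity)
      have : (k : ℝ) ≤ k' := by exact_mod_cast hkk'
      linarith
    exact inv_anti₀ (by positivity) (by linarith)
  choose F hF hFb using fun k : ℕ =>
    twU_psh hμ hρ hcpt hL hc1 hΦ hψ hq hq2 hpos hG hk (hb.psh _ (hδ k)) hKt (by
      refine le_trans (lintegral_mono fun x => ?_) hK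
      rw [exp_neg_log (hb.nonneg x) (hδ k), ENNReal.div_eq_inv_mul, mul_comm]
      refine mul_le_mul_left ?_ _
      rw [ENNReal.ofReal_inv_of_pos (add_pos_of_nonneg_of_pos (hb.nonneg x) (hδ k))]
      refine ENNReal.inv_le_inv.2 (ENNReal.ofReal_le_ofReal ?_)
      linarith [hδ k])
  have hcont : Continuous (fun x => Real.exp (ψ x - Φ x) / q x) :=
    Continuous.div (Real.continuous_exp.comp (hψ.continuous.sub hΦ.continuous)) hq.continuous
      fun x => (hq0 x).ne'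
  have hbm : ∀ k : ℕ, UpperSemicontinuous (fun x => Real.log (b x + 1 / ((k : ℝ) + 1))) :=
    fun k => (hb.psh _ (hδ k)).usc
  obtain ⟨F0, hF0, -, hbd⟩ := limW (Ω := fun _ : ℕ => (univ : Set M)) hμ
    (fun _ => isOpen_univ) (fun _ _ _ => le_rfl) (fun C _ => ⟨0, subset_univ C⟩) hG.continuous
    (fun k => HolOn.of_hol (hF k) univ)
    (W := fun k x => ENNReal.ofReal (Real.exp (ψ x - Φ x) / q x *
      Real.exp (-Real.log (b x + 1 / ((k : ℝ) + 1)))))
    (fun x k k' hkk' => by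
      refine ENNReal.ofReal_le_ofReal (mul_le_mul_of_nonneg_left ?_
        (div_nonneg (Real.exp_pos _).le (hq0 _).le))
      rw [exp_neg_log (hb.nonneg x) (hδ k), exp_neg_log (hb.nonneg x) (hδ k')]
      exact hmono x hkk')
    (fun k => (hcont.measurable.mul
      (Real.measurable_exp.comp (hbm k).measurable.neg)).ennreal_ofReal)
    (fun x => by
      have h2 : 0 < Real.exp (ψ x - Φ x) / q x := div_pos (Real.exp_pos _) (hq0 _)
      set u : M → ℝ := fun x => Real.log (b x + 1 / (((0 : ℕ) : ℝ) + 1)) with hu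
      refine ⟨0, ENNReal.ofReal (Real.exp (ψ x - Φ x) / q x / 2 * Real.exp (-(u x + 1))),
        ENNReal.ofReal_pos.2 (by positivity), ?_⟩
      filter_upwards [hcont.continuousAt.eventually (lt_mem_nhds (half_lt_self h2)),
        hbm 0 x (u x + 1) (by simp only [hu]; linarith)] with y hy1 hy2
      exact ENNReal.ofReal_le_ofReal (mul_le_mul hy1.le (Real.exp_le_exp.2 (neg_le_neg hy2.le))
        (Real.exp_pos _).le (div_nonneg (Real.exp_pos _).le (hq0 _).le)))
    hKt (fun k => by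
      rw [Measure.restrict_univ]
      exact hFb k)
  refine ⟨F0, hF0, le_trans (le_of_eq ?_) hbd⟩
  refine lintegral_congr fun x => ?_
  have h1 : ∀ k : ℕ, ENNReal.ofReal (Real.exp (ψ x - Φ x) / q x *
      Real.exp (-Real.log (b x + 1 / ((k : ℝ) + 1)))) =
      ENNReal.ofReal (Real.exp (ψ x - Φ x) / q x) *
        ENNReal.ofReal ((b x + 1 / ((k : ℝ) + 1))⁻¹) := by
    intro k
    rw [exp_neg_log (hb.nonneg x) (hδ k),
      ENNReal.ofReal_mul (div_nonneg (Real.exp_pos _).le (hq0 _).le)]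
  simp only [h1]
  rw [← ENNReal.mul_iSup, iSup_inv_eq (hb.nonneg x), ENNReal.ofReal_mul (by positivity), ENNReal.div_eq_inv_mul]
  ring

/-- **engine with a singular psh weight** -/
theorem engU (hμ : IsLeb μ) {ρ : M → ℝ} (hρ : Sm ρ)
    (hcpt : ∀ t : ℝ, IsCompact {x | ρ x ≤ t}) (hL : ∀ x w, nsq w ≤ Levi ρ x w)
    {ψ : M → ℝ} (hψ : Sm ψ) (hpos : ∀ x w, 0 ≤ Levi ψ x w) {G : M → ℂ} (hG : Sm G) {κ : M → ℝ}
    (hk : ∀ x (w : Fin n → ℂ), ‖∑ j, db j G x * conj (w j)‖ ^ 2 ≤ κ x * Levi ψ x w)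
    {b : M → ℝ} (hb : LPsh b) {K : ℝ≥0∞}
    (hK : ∫⁻ x, ENNReal.ofReal (κ x * Real.exp (-ψ x)) / ENNReal.ofReal (b x) ∂μ ≤ K) :
    ∃ F : M → ℂ, Hol F ∧ ∫⁻ x, ENNReal.ofReal (‖F x - G x‖ ^ 2 * Real.exp (-ψ x)) /
        ENNReal.ofReal (b x) ∂μ ≤ 2 * K := by
  have hBt : ∀ x (w : Fin n → ℂ), Bt 2 ψ (fun _ => 0) (fun _ => 2) x w = Levi ψ x w := by
    intro x w
    unfold Bt
    have h0 : D (fun _ : M => ((0 : ℝ) : ℂ)) x = 0 := by
      show fderiv ℝ (fun _ => ((0 : ℝ) : ℂ)) (cp x) = 0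
      exact fderiv_const_apply _
    have h1 : ∀ j : Fin n, dz j (fun _ : M => ((0 : ℝ) : ℂ)) x = 0 := by
      intro j
      unfold dz
      rw [h0]
      simp [wz]
    simp only [h1, mul_zero, Finset.sum_const_zero, norm_zero, add_zero]
    ring
  obtain ⟨F, hF, hFb⟩ := twU (c := 2) hμ hρ hcpt hL (by norm_num) hψ (Sm.const 0) (q := fun _ => 2)
    (Sm.const 2) (fun _ => le_rfl) (fun x w => by rw [hBt]; exact hpos x w) hG
    (κ := κ) (fun x w => by rw [hBt]; exact hk x w) hb (K := K) (by simpa using hK)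
  refine ⟨F, hF, ?_⟩
  calc ∫⁻ x, ENNReal.ofReal (‖F x - G x‖ ^ 2 * Real.exp (-ψ x)) / ENNReal.ofReal (b x) ∂μ
      = ∫⁻ x, 2 * (ENNReal.ofReal (‖F x - G x‖ ^ 2 * (Real.exp (0 - ψ x) / 2)) /
        ENNReal.ofReal (b x)) ∂μ := by
        refine lintegral_congr fun x => ?_
        rw [← mul_div_assoc]
        congr 1
        have h2 : (2 : ℝ≥0∞) = ENNReal.ofReal 2 := by simp
        rw [h2, ← ENNReal.ofReal_mul (by norm_num)]
        congr 1
        rw [zero_sub]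
        ring
    _ = 2 * ∫⁻ x, (ENNReal.ofReal (‖F x - G x‖ ^ 2 * (Real.exp (0 - ψ x) / 2)) /
        ENNReal.ofReal (b x)) ∂μ := lintegral_const_mul' _ _ (by simp)
    _ ≤ 2 * K := by gcongr

end Crest.Agent.R276.EngU_29
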