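import Crest.Agent.R276.PshA_29
import Crest.Agent.R276.SubL_29
import Crest.Agent.R276.EngU_29
import Crest.Agent.R273.PsiB_844

-- ▼ part R276/PshB_29
section

/-!
# Row 276 (helper29): closure properties of psh functions on Riemann domains, part B

Pull back of psh functions by holomorphic maps between Riemann domains; restriction to open sets.
-/

set_option autoImplicit false
set_option linter.unusedSectionVars false
set_option linter.style.haveILetI false

open MeasureTheory Set Metric Filter Topology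
open scoped ENNReal ContDiff

noncomputable section

namespace Crest.Agent.R276.PshB_29

open Crest.Agent.R275.FL606 Crest.Agent.R271.Ho51 Crest.Agent.R273.Reg_844
  Crest.Agent.R276.PshA_29 Crest.Agent.R276.SubL_29
open Crest.Agent.R271.W792 (lev)
open TopologicalSpace (Opens)

section flat

variable {E : Type*} [NormedAddCommGroup E] [NormedSpace ℂ E] [CompleteSpace E]

/-- second derivative of the composition with a holomorphic curve -/
lemma snd_comp {H : E → ℝ} {g : ℂ → E} {w0 : ℂ} (hH : ContDiffAt ℝ 2 H (g w0))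
    (hg : ∀ᶠ w in 𝓝 w0, DifferentiableAt ℂ g w) (a : ℂ) :
    fderiv ℝ (fderiv ℝ (H ∘ g)) w0 a a =
      fderiv ℝ (fderiv ℝ H) (g w0) (a • deriv g w0) (a • deriv g w0) +
        fderiv ℝ H (g w0) (a • a • deriv (deriv g) w0) := by
  have hgan : AnalyticAt ℂ g w0 := by
    obtain ⟨s, hs, hso, hw⟩ := _root_.eventually_nhds_iff.1 hg
    exact DifferentiableOn.analyticAt (s := s) (fun w hw' => (hs w hw').differentiableWithinAt)
      (hso.mem_nhds hw)
  have hgc : ContDiffAt ℝ 2 g w0 := (hgan.contDiffAt (n := 2)).restrict_scalars ℝ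
  have hHg : ContDiffAt ℝ 2 (H ∘ g) w0 := hH.comp w0 hgc
  have hdH : DifferentiableAt ℝ (fderiv ℝ H) (g w0) :=
    (hH.fderiv_right (m := 1) (by norm_num)).differentiableAt (by norm_num)
  have hdHg : DifferentiableAt ℝ (fderiv ℝ (H ∘ g)) w0 :=
    (hHg.fderiv_right (m := 1) (by norm_num)).differentiableAt (by norm_num)
  have hevH : ∀ᶠ w in 𝓝 w0, ContDiffAt ℝ 2 H (g w) :=
    hgc.continuousAt.eventually (hH.eventually (by simp))
  have key : ∀ w, DifferentiableAt ℂ g w → HasFDerivAt g
      ((ContinuousLinearMap.toSpanSingleton ℂ (deriv g w)).restrictScalars ℝ) w := fun w hw =>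
    (hw.hasDerivAt.hasFDerivAt).restrictScalars ℝ
  have h1 : (fun w => fderiv ℝ (H ∘ g) w a) =ᶠ[𝓝 w0]
      fun w => fderiv ℝ H (g w) (a • deriv g w) := by
    filter_upwards [hg, hevH] with w hw hw2
    have h2 : HasFDerivAt (H ∘ g) ((fderiv ℝ H (g w)).comp
        ((ContinuousLinearMap.toSpanSingleton ℂ (deriv g w)).restrictScalars ℝ)) w :=
      HasFDerivAt.comp w (hw2.differentiableAt (by norm_num)).hasFDerivAt (key w hw)
    rw [h2.fderiv]
    simp [ContinuousLinearMap.toSpanSingleton_apply]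
  have h2 : fderiv ℝ (fderiv ℝ (H ∘ g)) w0 a a = fderiv ℝ (fun w => fderiv ℝ (H ∘ g) w a) w0 a := by
    rw [fderiv_clm_apply hdHg (differentiableAt_const a)]
    simp
  rw [h2, h1.fderiv_eq]
  have hg0 : DifferentiableAt ℂ g w0 := hg.self_of_nhds
  have hc : HasFDerivAt (fun w => fderiv ℝ H (g w)) ((fderiv ℝ (fderiv ℝ H) (g w0)).comp
      ((ContinuousLinearMap.toSpanSingleton ℂ (deriv g w0)).restrictScalars ℝ)) w0 :=
    HasFDerivAt.comp w0 hdH.hasFDerivAt (key w0 hg0)
  have hd1 : DifferentiableAt ℂ (deriv g) w0 := hgan.deriv.differentiableAt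
  have hu : HasFDerivAt (fun w => a • deriv g w) (a •
      ((ContinuousLinearMap.toSpanSingleton ℂ (deriv (deriv g) w0)).restrictScalars ℝ)) w0 :=
    HasFDerivAt.const_smul ((hd1.hasDerivAt.hasFDerivAt).restrictScalars ℝ) a
  have h3 := hc.clm_apply hu
  rw [h3.fderiv]
  simp [ContinuousLinearMap.toSpanSingleton_apply, add_comm]

lemma lap_comp {H : E → ℝ} {g : ℂ → E} {w0 : ℂ} (hH : ContDiffAt ℝ 2 H (g w0))
    (hg : ∀ᶠ w in 𝓝 w0, DifferentiableAt ℂ g w) :
    fderiv ℝ (fderiv ℝ (H ∘ g)) w0 1 1 + fderiv ℝ (fderiv ℝ (H ∘ g)) w0 Complex.I Complex.I =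
      fderiv ℝ (fderiv ℝ H) (g w0) (deriv g w0) (deriv g w0) +
      fderiv ℝ (fderiv ℝ H) (g w0) (Complex.I • deriv g w0) (Complex.I • deriv g w0) := by
  rw [snd_comp hH hg, snd_comp hH hg]
  have h1 : Complex.I • Complex.I • deriv (deriv g) w0 = - deriv (deriv g) w0 := by
    rw [smul_smul, Complex.I_mul_I, neg_one_smul]
  rw [h1, one_smul, one_smul, one_smul, map_neg]
  ring

end flat

section mani

variable {n n' : ℕ} {M : Type*} [TopologicalSpace M] [RDom n M]
  {M' : Type*} [TopologicalSpace M'] [RDom n' M']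

/-- holomorphic maps between Riemann domains -/
structure HolMap (f : M' → M) : Prop where
  cont : Continuous f
  hol : ∀ j, Hol (fun x => cp (f x) j)

lemma HolMap.id : HolMap (fun x : M => x) :=
  ⟨continuous_id, fun j e he => by
    have h1 : DifferentiableOn ℂ (fun z : Fin n → ℂ => z j) e.target :=
      (differentiable_apply j).differentiableOn
    exact h1.congr fun z hz => by simp only [Function.comp_apply]; rw [he.cp_symm hz]⟩

/-- **pull back by holomorphic maps** -/
theorem psh_comp_hol [T2Space M] {f : M' → M} (hf : HolMap f) {ψ : M → ℝ} (h : PSH ψ) :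
    PSH (fun x => ψ (f x)) := by
  refine psh_of_local (h.usc.comp hf.cont) (fun x => ?_) (fun x => ?_)
  · obtain ⟨c, hc⟩ := h.bdd (f x)
    exact ⟨c, hf.cont.continuousAt.eventually hc⟩
  obtain ⟨U, φ, hU, hCU, hφs, hφl, hφa, hφg, hφt⟩ := exists_reg h (isCompact_singleton (x := f x))
  set e' := ch x with he'
  have hch : IsCh e' := isCh_ch x
  have hcont : ContinuousOn (fun z => f (e'.symm z)) e'.target :=
    hf.cont.comp_continuousOn e'.symm.continuousOn
  have hVo : IsOpen (e'.target ∩ (fun z => f (e'.symm z)) ⁻¹' U) :=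
    hcont.isOpen_inter_preimage e'.open_target hU
  have hxV : cp x ∈ e'.target ∩ (fun z => f (e'.symm z)) ⁻¹' U := by
    refine ⟨hch.cp_mem (mem_ch x), ?_⟩
    rw [mem_preimage, he', symm_cp]
    exact hCU rfl
  obtain ⟨r, hr, hb⟩ := Metric.isOpen_iff.1 hVo _ hxV
  refine ⟨r, hr, SM.of_le fun z v hd => ?_⟩
  rw [zero_mul, add_zero]
  have hdt : ∀ w : ℂ, ‖w‖ ≤ 1 → z + w • v ∈ e'.target := fun w hw => (hb (hd w hw)).1
  have hdU : ∀ w : ℂ, ‖w‖ ≤ 1 → f (e'.symm (z + w • v)) ∈ U := fun w hw => (hb (hd w hw)).2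
  -- the smooth functions along the disc
  have hloc : ∀ (k : ℕ) (w : ℂ), ‖w‖ ≤ 1 →
      ContDiffAt ℝ 2 (fun w : ℂ => φ k (f (e'.symm (z + w • v)))) w ∧
      0 ≤ fderiv ℝ (fderiv ℝ (fun w : ℂ => φ k (f (e'.symm (z + w • v))))) w 1 1 +
        fderiv ℝ (fderiv ℝ (fun w : ℂ => φ k (f (e'.symm (z + w • v))))) w Complex.I Complex.I := by
    intro k w hw
    set y0 : M := f (e'.symm (z + w • v)) with hy0
    set G : ℂ → (Fin n → ℂ) := fun w' => cp (f (e'.symm (z + w' • v))) with hG
    have hline : Continuous (fun w' : ℂ => z + w' • v) := by fun_prop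
    have hev : ∀ᶠ w' in 𝓝 w, z + w' • v ∈ e'.target :=
      hline.continuousAt.eventually_mem (e'.open_target.mem_nhds (hdt w hw))
    have hcontG : ContinuousAt (fun w' : ℂ => f (e'.symm (z + w' • v))) w :=
      ContinuousAt.comp (g := fun z => f (e'.symm z)) (hcont.continuousAt
        (e'.open_target.mem_nhds (hdt w hw))) hline.continuousAt
    have hsrc : ∀ᶠ w' in 𝓝 w, f (e'.symm (z + w' • v)) ∈ (ch y0).source :=
      hcontG.eventually_mem ((ch y0).open_source.mem_nhds (mem_ch y0))
    have hGd : ∀ᶠ w' in 𝓝 w, DifferentiableAt ℂ G w' := by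
      filter_upwards [hev] with w' hw'
      rw [differentiableAt_pi]
      intro j
      have h1 : DifferentiableAt ℂ ((fun x => cp (f x) j) ∘ e'.symm) (z + w' • v) :=
        (hf.hol j e' hch).differentiableAt (e'.open_target.mem_nhds hw')
      have h2 : DifferentiableAt ℂ (fun w' : ℂ => z + w' • v) w' := by fun_prop
      exact DifferentiableAt.comp (g := (fun x => cp (f x) j) ∘ e'.symm) w' h1 h2
    have heq : (fun w : ℂ => φ k (f (e'.symm (z + w • v)))) =ᶠ[𝓝 w]
        ((φ k ∘ (ch y0).symm) ∘ G) := by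
      filter_upwards [hsrc] with w' hw'
      simp only [Function.comp_apply, hG]
      rw [(isCh_ch y0).symm_cp hw']
    have hH : ContDiffAt ℝ 2 (φ k ∘ (ch y0).symm) (G w) :=
      (hφs k y0 (hdU w hw)).of_le (by norm_cast)
    have hGan : AnalyticAt ℂ G w := by
      obtain ⟨s, hs, hso, hw⟩ := _root_.eventually_nhds_iff.1 hGd
      exact DifferentiableOn.analyticAt (s := s) (fun w hw' => (hs w hw').differentiableWithinAt)
        (hso.mem_nhds hw)
    have hGc : ContDiffAt ℝ 2 G w := (hGan.contDiffAt (n := 2)).restrict_scalars ℝ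
    refine ⟨(hH.comp w hGc).congr_of_eventuallyEq heq, ?_⟩
    rw [heq.fderiv.fderiv_eq, lap_comp hH hGd]
    have h1 := hφl k y0 (hdU w hw) (deriv G w)
    rw [lev_eq_chart (isCh_ch y0) (mem_ch y0) hH] at h1
    have h2 : cp y0 = G w := rfl
    rw [h2] at h1
    linarith
  have hstep : ∀ k, φ k (f (e'.symm z)) ≤ av (fun y => φ k (f (e'.symm y))) z v := by
    intro k
    rw [av_eq_circleAverage]
    have h1 := Crest.Agent.R275.FL884.le_circleAverage_of_contDiffAt
      (ψ := fun w : ℂ => φ k (f (e'.symm (z + w • v)))) (c := 0) (fun w hw => by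
        rw [mem_closedBall, dist_zero_right] at hw
        exact (hloc k w hw).1)
      (fun w hw => by
        rw [mem_closedBall, dist_zero_right] at hw
        rw [mul_zero, neg_zero]
        exact (hloc k w hw).2)
    simpa using h1
  -- bounds
  have hcurve : Continuous (fun θ : ℝ => z + ang θ • v) := by
    have := continuous_ang
    fun_prop
  have hcirc : ∀ k, Continuous (fun θ : ℝ => φ k (f (e'.symm (z + ang θ • v)))) := by
    intro k
    rw [continuous_iff_continuousAt]
    intro θ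
    exact ContinuousAt.comp (g := fun w : ℂ => φ k (f (e'.symm (z + w • v))))
      (hloc k (ang θ) (norm_ang θ).le).1.continuousAt continuous_ang.continuousAt
  have hcptM : IsCompact ((fun w : ℂ => f (e'.symm (z + w • v))) '' closedBall 0 1) := by
    refine (isCompact_closedBall (0 : ℂ) 1).image_of_continuousOn ?_
    refine hcont.comp (by fun_prop) ?_
    intro w hw
    rw [mem_closedBall, dist_zero_right] at hw
    exact hdt w hw
  obtain ⟨K, hK⟩ := h.exists_bound hcptM
  have hmem : ∀ θ : ℝ, f (e'.symm (z + ang θ • v)) ∈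
      (fun w : ℂ => f (e'.symm (z + w • v))) '' closedBall 0 1 := fun θ =>
    ⟨ang θ, by rw [mem_closedBall, dist_zero_right]; exact (norm_ang θ).le, rfl⟩
  obtain ⟨K0, hK0⟩ : ∃ K0 : ℝ, ∀ w ∈ closedBall (0 : ℂ) 1,
      ‖φ 0 (f (e'.symm (z + w • v)))‖ ≤ K0 := by
    refine (isCompact_closedBall (0 : ℂ) 1).exists_bound_of_continuousOn ?_
    intro w hw
    rw [mem_closedBall, dist_zero_right] at hw
    exact (hloc 0 w hw).1.continuousAt.continuousWithinAt
  have hav : Tendsto (fun k => av (fun y => φ k (f (e'.symm y))) z v) atTop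
      (𝓝 (av (fun y => ψ (f (e'.symm y))) z v)) := by
    unfold av
    refine tendsto_integral_of_dominated_convergence (fun _ => max K K0) (fun k => ?_)
      (integrable_const _) (fun k => ?_) ?_
    · exact (hcirc k).aestronglyMeasurable
    · refine Eventually.of_forall fun θ => ?_
      have hθU := hdU (ang θ) (norm_ang θ).le
      rw [Real.norm_eq_abs, abs_le]
      constructor
      · have h1 := (abs_le.1 (hK _ (hmem θ))).1
        have h2 := hφg k _ hθU
        have h3 := le_max_left K K0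
        linarith
      · have h1 : φ k (f (e'.symm (z + ang θ • v))) ≤ φ 0 (f (e'.symm (z + ang θ • v))) :=
          hφa _ hθU (Nat.zero_le k)
        have h2 := hK0 (ang θ) (by rw [mem_closedBall, dist_zero_right]; exact (norm_ang θ).le)
        rw [Real.norm_eq_abs] at h2
        exact h1.trans (((le_abs_self _).trans h2).trans (le_max_right _ _))
    · exact Eventually.of_forall fun θ => hφt _ (hdU (ang θ) (norm_ang θ).le)
  have hz : f (e'.symm z) ∈ U := by simpa using hdU 0 (by simp)
  exact le_of_tendsto_of_tendsto' (hφt _ hz) hav hstep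

/-- restriction to an open subset -/
theorem psh_res (U : Opens M) {ψ : M → ℝ} (h : PSH ψ) :
    @PSH n U _ (rdO U) (fun y : U => ψ y.1) := by
  letI := rdO U
  refine ⟨h.usc.comp continuous_subtype_val, fun x => ?_, fun e he => ?_⟩
  · obtain ⟨c, hc⟩ := h.bdd x.1
    exact ⟨c, continuous_subtype_val.continuousAt.eventually hc⟩
  · exact h.sm (liftCh U e he) (isCh_liftCh U e he)

end mani

end Crest.Agent.R276.PshB_29
end
end

-- ▼ part R276/LPsh_29

/-!
# Row 276 (helper29): closure properties of `LPsh` (`log b` plurisubharmonic, `-∞` allowed)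
-/

set_option autoImplicit false
set_option linter.unusedSectionVars false
set_option linter.style.haveILetI false

open MeasureTheory Set Metric Filter Topology
open scoped ENNReal ContDiff

noncomputable section

namespace Crest.Agent.R276.EngU_29

open Crest.Agent.R275.FL606 Crest.Agent.R271.Ho51 Crest.Agent.R273.Reg_844
  Crest.Agent.R276.PshA_29 Crest.Agent.R276.PshB_29 Crest.Agent.R276.SubL_29
open TopologicalSpace (Opens)

/-! ### log-sum-exp -/

lemma lse_pos {ι : Type*} [Fintype ι] {δ : ℝ} (hδ : 0 < δ) (t : ι → ℝ) :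
    0 < ∑ i, Real.exp (t i) + δ :=
  add_pos_of_nonneg_of_pos (Finset.sum_nonneg fun _ _ => (Real.exp_pos _).le) hδ

lemma convexOn_lse {ι : Type*} [Fintype ι] {δ : ℝ} (hδ : 0 < δ) :
    ConvexOn ℝ univ (fun t : ι → ℝ => Real.log (∑ i, Real.exp (t i) + δ)) := by
  refine ⟨convex_univ, fun s _ t _ a b ha hb hab => ?_⟩
  set S : ℝ := ∑ i, Real.exp (s i) + δ with hS
  set T : ℝ := ∑ i, Real.exp (t i) + δ with hT
  have hS0 : 0 < S := lse_pos hδ s
  have hT0 : 0 < T := lse_pos hδ t
  simp only [smul_eq_mul, Pi.add_apply, Pi.smul_apply]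
  rw [Real.log_le_iff_le_exp (lse_pos hδ _)]
  have hexp : ∀ x y : ℝ, Real.exp (a * x + b * y) ≤
      Real.exp (a * Real.log S + b * Real.log T) *
        (a * (Real.exp x / S) + b * (Real.exp y / T)) := by
    intro x y
    have h1 := convexOn_exp.2 (mem_univ (x - Real.log S)) (mem_univ (y - Real.log T)) ha hb hab
    simp only [smul_eq_mul] at h1
    rw [Real.exp_sub, Real.exp_sub, Real.exp_log hS0, Real.exp_log hT0] at h1
    have h2 : Real.exp (a * x + b * y) = Real.exp (a * Real.log S + b * Real.log T) *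
        Real.exp (a * (x - Real.log S) + b * (y - Real.log T)) := by
      rw [← Real.exp_add]; congr 1; ring
    rw [h2]
    exact mul_le_mul_of_nonneg_left h1 (Real.exp_pos _).le
  have hδe : δ = Real.exp (a * Real.log δ + b * Real.log δ) := by
    rw [← add_mul, hab, one_mul, Real.exp_log hδ]
  calc ∑ i, Real.exp (a * s i + b * t i) + δ
      ≤ ∑ i, Real.exp (a * Real.log S + b * Real.log T) *
        (a * (Real.exp (s i) / S) + b * (Real.exp (t i) / T)) +
        Real.exp (a * Real.log S + b * Real.log T) * (a * (δ / S) + b * (δ / T)) := by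
        refine add_le_add (Finset.sum_le_sum fun i _ => hexp _ _) ?_
        have := hexp (Real.log δ) (Real.log δ)
        rw [← hδe, Real.exp_log hδ] at this
        exact this
    _ = Real.exp (a * Real.log S + b * Real.log T) * (a * (S / S) + b * (T / T)) := by
        rw [← Finset.mul_sum, ← mul_add, Finset.sum_add_distrib, ← Finset.mul_sum,
          ← Finset.mul_sum, ← Finset.sum_div, ← Finset.sum_div]
        congr 1
        rw [hS, hT]
        ring
    _ = Real.exp (a * Real.log S + b * Real.log T) := by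
        rw [div_self hS0.ne', div_self hT0.ne', mul_one, mul_one, hab, mul_one]

lemma monotone_lse {ι : Type*} [Fintype ι] {δ : ℝ} (hδ : 0 < δ) :
    Monotone (fun t : ι → ℝ => Real.log (∑ i, Real.exp (t i) + δ)) := by
  intro s t hst
  refine Real.log_le_log (lse_pos hδ s) (add_le_add (Finset.sum_le_sum fun i _ => ?_) le_rfl)
  exact Real.exp_le_exp.2 (hst i)

lemma continuous_lse {ι : Type*} [Fintype ι] {δ : ℝ} (hδ : 0 < δ) :
    Continuous (fun t : ι → ℝ => Real.log (∑ i, Real.exp (t i) + δ)) := by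
  refine Continuous.log (by fun_prop) fun t => (lse_pos hδ t).ne'

section mani

variable {n : ℕ} {M : Type*} [TopologicalSpace M] [RDom n M]

/-- sums of exponentials of psh functions -/
theorem LPsh.sum_exp {ι : Type*} [Fintype ι] {u : ι → M → ℝ} (h : ∀ i, PSH (u i)) :
    LPsh (fun x => ∑ i, Real.exp (u i x)) :=
  ⟨fun x => Finset.sum_nonneg fun _ _ => (Real.exp_pos _).le, fun _δ hδ =>
    psh_comp_pi h (convexOn_lse hδ) (monotone_lse hδ) (continuous_lse hδ)⟩

theorem LPsh.exp {u : M → ℝ} (h : PSH u) : LPsh (fun x => Real.exp (u x)) := by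
  have := LPsh.sum_exp (ι := Unit) (u := fun _ => u) (fun _ => h)
  simpa using this

lemma LPsh.usc {b : M → ℝ} (h : LPsh b) : UpperSemicontinuous b := by
  intro x c hc
  have h0 := h.nonneg x
  have h1 : Real.log (b x + 1) < Real.log (c + 1) :=
    Real.log_lt_log (by linarith) (by linarith)
  filter_upwards [(h.psh 1 one_pos).usc x _ h1] with y hy
  have h2 := h.nonneg y
  have h3 := (Real.log_lt_log_iff (by linarith : 0 < b y + 1) (by linarith)).1 hy
  linarith

lemma LPsh.measurable [MeasurableSpace M] [BorelSpace M] {b : M → ℝ} (h : LPsh b) :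
    Measurable b := h.usc.measurable

lemma LPsh.exists_bound {b : M → ℝ} (h : LPsh b) {C : Set M} (hC : IsCompact C) :
    ∃ K, ∀ x ∈ C, b x ≤ K := usc_bdd h.usc hC

/-- decreasing limits -/
theorem LPsh.of_antitone {b : M → ℝ} {β : ℕ → M → ℝ} (h : ∀ k, LPsh (β k))
    (hanti : ∀ x, Antitone fun k => β k x)
    (hlim : ∀ x, Tendsto (fun k => β k x) atTop (𝓝 (b x))) : LPsh b := by
  have h0 : ∀ x, 0 ≤ b x := fun x => ge_of_tendsto' (hlim x) fun k => (h k).nonneg x
  refine ⟨h0, fun δ hδ => psh_of_antitone (fun k => (h k).psh δ hδ) (fun x k k' hkk' => ?_)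
    (fun x => ?_) fun x => ⟨Real.log δ, Eventually.of_forall fun y => ?_⟩⟩
  · exact Real.log_le_log (by have := (h k').nonneg x; positivity)
      (add_le_add (hanti x hkk') le_rfl)
  · have h1 : b x + δ ≠ 0 := by have := h0 x; positivity
    exact (Real.continuousAt_log h1).tendsto.comp ((hlim x).add_const δ)
  · exact Real.log_le_log hδ (by linarith [h0 y])


/-- suprema -/
theorem LPsh.of_sup {ι : Type*} {b : M → ℝ} {β : ι → M → ℝ} (h : ∀ i, LPsh (β i))
    (husc : UpperSemicontinuous b) (hle : ∀ i x, β i x ≤ b x)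
    (happ : ∀ x, ∀ c < b x, ∃ i, c < β i x) : LPsh b := by
  have h0 : ∀ x, 0 ≤ b x := fun x => by
    obtain ⟨i, -⟩ := happ x (b x - 1) (by linarith)
    exact ((h i).nonneg x).trans (hle i x)
  refine ⟨h0, fun δ hδ => psh_of_sup (fun i => (h i).psh δ hδ) ?_ (fun i x => ?_) fun x c hc => ?_⟩
  · intro x c hc
    have h1 : b x < Real.exp c - δ := by
      have := (Real.log_lt_iff_lt_exp (by have := h0 x; positivity)).1 hc
      linarith
    filter_upwards [husc x _ h1] with y hy
    rw [Real.log_lt_iff_lt_exp (by have := h0 y; positivity)]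
    linarith
  · exact Real.log_le_log (by have := (h i).nonneg x; positivity) (by linarith [hle i x])
  · have h1 : Real.exp c - δ < b x := by
      have := (Real.lt_log_iff_exp_lt (by have := h0 x; positivity)).1 hc
      linarith
    obtain ⟨i, hi⟩ := happ x _ h1
    refine ⟨i, ?_⟩
    rw [Real.lt_log_iff_exp_lt (by have := (h i).nonneg x; positivity)]
    linarith

lemma eps_pos (k : ℕ) : (0 : ℝ) < 1 / ((k : ℝ) + 1) := by positivity

lemma eps_anti {k k' : ℕ} (h : k ≤ k') : 1 / ((k' : ℝ) + 1) ≤ 1 / ((k : ℝ) + 1) := by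
  apply one_div_le_one_div_of_le (by positivity)
  have : (k : ℝ) ≤ k' := by exact_mod_cast h
  linarith

/-- `b + δ` for `δ > 0` -/
theorem LPsh.add_const {b : M → ℝ} (h : LPsh b) {δ : ℝ} (hδ : 0 < δ) : LPsh (fun x => b x + δ) := by
  have h1 := LPsh.exp (h.psh δ hδ)
  have h2 : (fun x => Real.exp (Real.log (b x + δ))) = fun x => b x + δ := by
    funext x
    exact Real.exp_log (by have := h.nonneg x; positivity)
  rwa [h2] at h1

theorem LPsh.mul {b b' : M → ℝ} (h : LPsh b) (h' : LPsh b') : LPsh (fun x => b x * b' x) := by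
  refine LPsh.of_antitone (β := fun k x => (b x + 1 / ((k : ℝ) + 1)) * (b' x + 1 / ((k : ℝ) + 1)))
    (fun k => ?_) (fun x k k' hkk' => ?_) (fun x => ?_)
  · have h1 := LPsh.exp ((h.psh _ (eps_pos k)).add (h'.psh _ (eps_pos k)))
    have h2 : (fun x => Real.exp (Real.log (b x + 1 / ((k : ℝ) + 1)) +
        Real.log (b' x + 1 / ((k : ℝ) + 1)))) =
        fun x => (b x + 1 / ((k : ℝ) + 1)) * (b' x + 1 / ((k : ℝ) + 1)) := by
      funext x
      have := h.nonneg x
      have := h'.nonneg x
      rw [Real.exp_add, Real.exp_log (by positivity), Real.exp_log (by positivity)]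
    rwa [h2] at h1
  · have := h.nonneg x
    have := h'.nonneg x
    have := eps_pos k'
    exact mul_le_mul (by linarith [eps_anti hkk']) (by linarith [eps_anti hkk'])
      (by positivity) (by positivity)
  · have h1 : Tendsto (fun k : ℕ => b x + 1 / ((k : ℝ) + 1)) atTop (𝓝 (b x + 0)) :=
      tendsto_one_div_add_atTop_nhds_zero_nat.const_add _
    have h2 : Tendsto (fun k : ℕ => b' x + 1 / ((k : ℝ) + 1)) atTop (𝓝 (b' x + 0)) :=
      tendsto_one_div_add_atTop_nhds_zero_nat.const_add _
    rw [add_zero] at h1 h2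
    exact h1.mul h2

theorem LPsh.const {c : ℝ} (hc : 0 ≤ c) : LPsh (fun _ : M => c) :=
  ⟨fun _ => hc, fun _ _ => PSH.const _⟩

theorem LPsh.const_mul {b : M → ℝ} (h : LPsh b) {c : ℝ} (hc : 0 ≤ c) :
    LPsh (fun x => c * b x) := (LPsh.const hc).mul h

theorem LPsh.pow {b : M → ℝ} (h : LPsh b) (k : ℕ) : LPsh (fun x => b x ^ k) := by
  induction k with
  | zero => simpa using LPsh.const (M := M) zero_le_one
  | succ k ih => simpa only [pow_succ] using ih.mul h

theorem LPsh.rpow {b : M → ℝ} (h : LPsh b) {c : ℝ} (hc : 0 ≤ c) : LPsh (fun x => b x ^ c) := by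
  rcases hc.eq_or_lt with rfl | hc0
  · simpa using LPsh.const (M := M) zero_le_one
  refine LPsh.of_antitone (β := fun k x => (b x + 1 / ((k : ℝ) + 1)) ^ c)
    (fun k => ?_) (fun x k k' hkk' => ?_) (fun x => ?_)
  · have h1 := LPsh.exp ((h.psh _ (eps_pos k)).const_mul hc)
    have h2 : (fun x => Real.exp (c * Real.log (b x + 1 / ((k : ℝ) + 1)))) =
        fun x => (b x + 1 / ((k : ℝ) + 1)) ^ c := by
      funext x
      have := h.nonneg x
      rw [Real.rpow_def_of_pos (by positivity), mul_comm]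
    rwa [h2] at h1
  · have := h.nonneg x
    have := eps_pos k'
    exact Real.rpow_le_rpow (by positivity) (by linarith [eps_anti hkk']) hc
  · have h1 : Tendsto (fun k : ℕ => b x + 1 / ((k : ℝ) + 1)) atTop (𝓝 (b x + 0)) :=
      tendsto_one_div_add_atTop_nhds_zero_nat.const_add _
    rw [add_zero] at h1
    exact h1.rpow_const (Or.inr hc)

theorem LPsh.sum {ι : Type*} (s : Finset ι) {b : ι → M → ℝ} (h : ∀ i ∈ s, LPsh (b i)) :
    LPsh (fun x => ∑ i ∈ s, b i x) := by
  have key : ∀ x, ∑ i ∈ s, b i x = ∑ i : s, b i.1 x := fun x =>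
    (Finset.sum_coe_sort s (fun i => b i x)).symm
  simp only [key]
  refine LPsh.of_antitone (β := fun k x => ∑ i : s, (b i.1 x + 1 / ((k : ℝ) + 1)))
    (fun k => ?_) (fun x k k' hkk' => ?_) (fun x => ?_)
  · have h1 := LPsh.sum_exp (fun i : s => (h i.1 i.2).psh _ (eps_pos k))
    have h2 : (fun x => ∑ i : s, Real.exp (Real.log (b i.1 x + 1 / ((k : ℝ) + 1)))) =
        fun x => ∑ i : s, (b i.1 x + 1 / ((k : ℝ) + 1)) := by
      funext x
      refine Finset.sum_congr rfl fun i _ => ?_
      have := (h i.1 i.2).nonneg x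
      exact Real.exp_log (by positivity)
    rwa [h2] at h1
  · exact Finset.sum_le_sum fun i _ => by linarith [eps_anti hkk']
  · refine tendsto_finsetSum _ fun i _ => ?_
    have h1 : Tendsto (fun k : ℕ => b i.1 x + 1 / ((k : ℝ) + 1)) atTop (𝓝 (b i.1 x + 0)) :=
      tendsto_one_div_add_atTop_nhds_zero_nat.const_add _
    rwa [add_zero] at h1

theorem LPsh.add {b b' : M → ℝ} (h : LPsh b) (h' : LPsh b') : LPsh (fun x => b x + b' x) := by
  have h1 := LPsh.sum (s := (Finset.univ : Finset Bool)) (b := fun i => if i then b else b')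
    (fun i _ => by cases i <;> simp [h, h'])
  simpa using h1

theorem LPsh.max {b b' : M → ℝ} (h : LPsh b) (h' : LPsh b') : LPsh (fun x => max (b x) (b' x)) := by
  refine ⟨fun x => (h.nonneg x).trans (le_max_left _ _), fun δ hδ => ?_⟩
  have h1 := (h.psh δ hδ).sup (h'.psh δ hδ)
  have h2 : (fun x => Real.log (Max.max (b x) (b' x) + δ)) =
      fun x => Max.max (Real.log (b x + δ)) (Real.log (b' x + δ)) := by
    funext x
    have h3 := h.nonneg x
    have h4 := h'.nonneg x
    rcases le_total (b x) (b' x) with hle | hle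
    · rw [max_eq_right hle, max_eq_right (Real.log_le_log (by positivity) (by linarith))]
    · rw [max_eq_left hle, max_eq_left (Real.log_le_log (by positivity) (by linarith))]
  rwa [h2]

theorem LPsh.of_hol {f : M → ℂ} (hf : Hol f) : LPsh (fun x => ‖f x‖ ^ 2) :=
  ⟨fun _ => by positivity, fun _ hδ => psh_log hf hδ⟩

theorem LPsh.of_hol_norm {f : M → ℂ} (hf : Hol f) : LPsh (fun x => ‖f x‖) := by
  have h1 := (LPsh.of_hol hf).rpow (c := 1 / 2) (by norm_num)
  have h2 : (fun x => (‖f x‖ ^ 2) ^ (1 / 2 : ℝ)) = fun x => ‖f x‖ := by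
    funext x
    rw [← Real.sqrt_eq_rpow, Real.sqrt_sq (norm_nonneg _)]
  rwa [h2] at h1

theorem LPsh.of_hol_rpow {f : M → ℂ} (hf : Hol f) {c : ℝ} (hc : 0 ≤ c) :
    LPsh (fun x => ‖f x‖ ^ c) := (LPsh.of_hol_norm hf).rpow hc

/-- `∑ |f_i|²` -/
theorem LPsh.sum_hol {ι : Type*} (s : Finset ι) {f : ι → M → ℂ} (hf : ∀ i ∈ s, Hol (f i)) :
    LPsh (fun x => ∑ i ∈ s, ‖f i x‖ ^ 2) := LPsh.sum s fun i hi => LPsh.of_hol (hf i hi)

theorem LPsh.comp_hol {n' : ℕ} {M' : Type*} [TopologicalSpace M'] [RDom n' M'] [T2Space M]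
    {f : M' → M} (hf : HolMap f) {b : M → ℝ} (h : LPsh b) : LPsh (fun x => b (f x)) :=
  ⟨fun _ => h.nonneg _, fun δ hδ => psh_comp_hol hf (h.psh δ hδ)⟩

theorem LPsh.res (U : Opens M) {b : M → ℝ} (h : LPsh b) : @LPsh n U _ (rdO U) (fun y : U => b y.1) :=
  @LPsh.mk n U _ (rdO U) _ (fun _ => h.nonneg _) fun δ hδ => psh_res U (h.psh δ hδ)

/-- local criterion -/
theorem LPsh.of_local {b : M → ℝ} (h0 : ∀ x, 0 ≤ b x) (husc : UpperSemicontinuous b)
    (hloc : ∀ δ : ℝ, 0 < δ → ∀ x, ∃ r : ℝ, 0 < r ∧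
      SM 0 ((fun y => Real.log (b y + δ)) ∘ (ch x).symm) (ball (cp x) r)) : LPsh b := by
  refine ⟨h0, fun δ hδ => psh_of_local ?_ (fun x => ⟨Real.log δ, Eventually.of_forall fun y =>
    Real.log_le_log hδ (by linarith [h0 y])⟩) (hloc δ hδ)⟩
  intro x c hc
  have h1 : b x < Real.exp c - δ := by
    have := (Real.log_lt_iff_lt_exp (by have := h0 x; positivity)).1 hc
    linarith
  filter_upwards [husc x _ h1] with y hy
  rw [Real.log_lt_iff_lt_exp (by have := h0 y; positivity)]
  linarith

end mani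

end Crest.Agent.R276.EngU_29
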