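import Crest.Agent.R276.LM1_976

-- ▼ part R276/LM2_976
section

/-!
# R276, leaf LM (helper976): local Morse inequalities, part 2

`lev`      : `D²u(v,v) + D²u(iv,iv)` (four times the Levi form; same formula as `R273.Defs_333.lev`).
`taylor2`  : second order Taylor formula, uniform on compacts, for `C²` functions.
`quadHol`  : the holomorphic quadratic part.
`lm2`      : uniform local Morse inequality.
-/

set_option autoImplicit false

open MeasureTheory Set Metric Topology Filter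
open scoped ENNReal Real ContDiff Pointwise

namespace Crest.Agent.R276.LM2_976

open Crest.Agent.R276.LM1_976

noncomputable section

variable {E : Type*} [NormedAddCommGroup E] [NormedSpace ℂ E]

/-- `D²u(z)(v,v) + D²u(z)(iv,iv)`: four times the Levi form -/
def lev (u : E → ℝ) (z v : E) : ℝ :=
  iteratedFDeriv ℝ 2 u z ![v, v] + iteratedFDeriv ℝ 2 u z ![Complex.I • v, Complex.I • v]


theorem smul_decomp (c : ℂ) (v : E) : c • v = (c.re : ℝ) • v + (c.im : ℝ) • (Complex.I • v) := by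
  have h1 : ∀ (r : ℝ) (x : E), r • x = (r : ℂ) • x := fun r x => (Complex.coe_smul r x).symm
  rw [h1, h1, smul_smul, ← add_smul, Complex.re_add_im]

theorem I_smul_decomp (c : ℂ) (v : E) :
    Complex.I • (c • v) = (c.re : ℝ) • (Complex.I • v) - (c.im : ℝ) • v := by
  rw [smul_decomp c v, smul_add, smul_comm Complex.I (c.re : ℝ) v,
    smul_comm Complex.I (c.im : ℝ) (Complex.I • v), smul_smul Complex.I Complex.I v,
    Complex.I_mul_I, neg_one_smul, smul_neg, sub_eq_add_neg]

/-- the complex bilinear form attached to a real one -/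
def qfun (B : E →L[ℝ] E →L[ℝ] ℝ) (v w : E) : ℂ :=
  ⟨(B v w - B (Complex.I • v) (Complex.I • w)) / 2,
    -(B v (Complex.I • w) + B (Complex.I • v) w) / 2⟩

def qlin (B : E →L[ℝ] E →L[ℝ] ℝ) : E →ₗ[ℂ] E →ₗ[ℂ] ℂ :=
  LinearMap.mk₂ ℂ (qfun B)
    (by
      intro v v' w
      apply Complex.ext <;> simp [qfun, smul_add] <;> ring)
    (by
      intro c v w
      apply Complex.ext
      · simp only [qfun, I_smul_decomp c v, Complex.mul_re, smul_eq_mul]
        rw [smul_decomp c v]
        simp only [map_add, map_sub, map_smul, add_apply,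
          sub_apply, smul_apply, smul_eq_mul]
        ring
      · simp only [qfun, I_smul_decomp c v, Complex.mul_im, smul_eq_mul]
        rw [smul_decomp c v]
        simp only [map_add, map_sub, map_smul, add_apply,
          sub_apply, smul_apply, smul_eq_mul]
        ring)
    (by
      intro v w w'
      apply Complex.ext <;> simp [qfun, smul_add] <;> ring)
    (by
      intro c v w
      apply Complex.ext
      · simp only [qfun, I_smul_decomp c w, Complex.mul_re, smul_eq_mul]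
        rw [smul_decomp c w]
        simp only [map_add, map_sub, map_smul, smul_eq_mul]
        ring
      · simp only [qfun, I_smul_decomp c w, Complex.mul_im, smul_eq_mul]
        rw [smul_decomp c w]
        simp only [map_add, map_sub, map_smul, smul_eq_mul]
        ring)

theorem norm_qfun_le (B : E →L[ℝ] E →L[ℝ] ℝ) (v w : E) : ‖qfun B v w‖ ≤ (2 * ‖B‖) * ‖v‖ * ‖w‖ := by
  have hb : ∀ a b : E, |B a b| ≤ ‖B‖ * ‖a‖ * ‖b‖ := fun a b => B.le_opNorm₂ a b
  have hI : ∀ a : E, ‖Complex.I • a‖ = ‖a‖ := fun a => by rw [norm_smul, Complex.norm_I, one_mul]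
  have h1 := hb v w
  have h2 := hb (Complex.I • v) (Complex.I • w)
  have h3 := hb v (Complex.I • w)
  have h4 := hb (Complex.I • v) w
  rw [hI, hI] at h2
  rw [hI] at h3 h4
  have h0 := Complex.norm_le_abs_re_add_abs_im (qfun B v w)
  have hre : |(qfun B v w).re| ≤ ‖B‖ * ‖v‖ * ‖w‖ := by
    simp only [qfun]
    rw [abs_div, abs_two, div_le_iff₀ two_pos]
    calc _ ≤ |B v w| + |B (Complex.I • v) (Complex.I • w)| := abs_sub _ _
      _ ≤ _ := by linarith
  have him : |(qfun B v w).im| ≤ ‖B‖ * ‖v‖ * ‖w‖ := by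
    simp only [qfun]
    rw [abs_div, abs_two, div_le_iff₀ two_pos, abs_neg]
    calc _ ≤ |B v (Complex.I • w)| + |B (Complex.I • v) w| := abs_add_le _ _
      _ ≤ _ := by linarith
  linarith

/-- the continuous complex bilinear form attached to a real one -/
def qcont (B : E →L[ℝ] E →L[ℝ] ℝ) : E →L[ℂ] E →L[ℂ] ℂ :=
  (qlin B).mkContinuous₂ (2 * ‖B‖) (fun v w => norm_qfun_le B v w)

theorem qcont_apply (B : E →L[ℝ] E →L[ℝ] ℝ) (v w : E) : qcont B v w = qfun B v w := rfl

/-- the complex linear form attached to a real one -/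
def lfun (l : E →L[ℝ] ℝ) (w : E) : ℂ := ⟨l w, -l (Complex.I • w)⟩

def llin (l : E →L[ℝ] ℝ) : E →ₗ[ℂ] ℂ where
  toFun := lfun l
  map_add' := by
    intro v w
    apply Complex.ext <;> simp [lfun, smul_add]
    ring
  map_smul' := by
    intro c w
    apply Complex.ext
    · simp only [lfun, RingHom.id_apply, smul_eq_mul, Complex.mul_re]
      rw [smul_decomp c w]
      simp only [map_add, map_smul, smul_eq_mul]
      ring
    · simp only [lfun, RingHom.id_apply, smul_eq_mul, Complex.mul_im, I_smul_decomp c w]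
      simp only [map_sub, map_smul, smul_eq_mul]
      ring

def lcont (l : E →L[ℝ] ℝ) : E →L[ℂ] ℂ :=
  (llin l).mkContinuous (2 * ‖l‖) (by
    intro w
    have h0 := Complex.norm_le_abs_re_add_abs_im (lfun l w)
    have h1 : |(lfun l w).re| ≤ ‖l‖ * ‖w‖ := l.le_opNorm w
    have h2 : |(lfun l w).im| ≤ ‖l‖ * ‖w‖ := by
      have := l.le_opNorm (Complex.I • w)
      rw [norm_smul, Complex.norm_I, one_mul] at this
      simpa [lfun] using this
    change ‖lfun l w‖ ≤ _
    linarith)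

theorem lcont_apply (l : E →L[ℝ] ℝ) (w : E) : lcont l w = lfun l w := rfl

/-- the holomorphic part of the second order Taylor polynomial -/
def hpart (l : E →L[ℝ] ℝ) (B : E →L[ℝ] E →L[ℝ] ℝ) (w : E) : ℂ :=
  lcont l w + (1 / 2 : ℂ) * qcont B w w

theorem hpart_zero (l : E →L[ℝ] ℝ) (B : E →L[ℝ] E →L[ℝ] ℝ) : hpart l B 0 = 0 := by
  simp [hpart]


theorem hpart_re (l : E →L[ℝ] ℝ) (B : E →L[ℝ] E →L[ℝ] ℝ) (w : E) :
    l w + (1 / 2) * B w w =
      (hpart l B w).re + (1 / 4) * (B w w + B (Complex.I • w) (Complex.I • w)) := by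
  have : (hpart l B w).re = l w + (1 / 4) * (B w w - B (Complex.I • w) (Complex.I • w)) := by
    simp only [hpart, lcont_apply, qcont_apply, Complex.add_re, lfun]
    have : ((1 / 2 : ℂ) * qfun B w w).re = (1 / 2) * (qfun B w w).re := by
      have h : (1 / 2 : ℂ) = ((1 / 2 : ℝ) : ℂ) := by push_cast; rfl
      rw [h, Complex.re_ofReal_mul]
    rw [this]
    simp only [qfun]
    ring
  rw [this]; ring

/-- second order Taylor formula, uniform on compacts -/
theorem taylor2 [FiniteDimensional ℂ E] {U K : Set E} (hU : IsOpen U) (hK : IsCompact K)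
    (hKU : K ⊆ U) {ψ : E → ℝ} (hψ : ContDiffOn ℝ 2 ψ U) {ε : ℝ} (hε : 0 < ε) :
    ∃ r > 0, ∀ z ∈ K, ∀ w : E, ‖w‖ < r → z + w ∈ U ∧
      |ψ (z + w) - ψ z - fderiv ℝ ψ z w - (1 / 2) * fderiv ℝ (fderiv ℝ ψ) z w w| ≤ ε * ‖w‖ ^ 2 := by
  have hfd : FiniteDimensional ℝ E := FiniteDimensional.complexToReal E
  have hproper : ProperSpace E := FiniteDimensional.proper ℝ E
  obtain ⟨d, hd, hdU⟩ := hK.exists_cthickening_subset_open hU hKU
  have hK' : IsCompact (cthickening d K) := hK.cthickening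
  have hD1 : ContDiffOn ℝ 1 (fderiv ℝ ψ) U := hψ.fderiv_of_isOpen hU (by norm_num)
  have hD2 : ContinuousOn (fderiv ℝ (fderiv ℝ ψ)) U :=
    hD1.continuousOn_fderiv_of_isOpen hU le_rfl
  have huc := (Metric.uniformContinuousOn_iff (f := fderiv ℝ (fderiv ℝ ψ))
    (s := cthickening d K)).1 (by exact hK'.uniformContinuousOn_of_continuous (hD2.mono hdU))
  obtain ⟨r1, hr1, hr1'⟩ := huc (ε / 2) (by positivity)
  refine ⟨min r1 d, lt_min hr1 hd, ?_⟩
  intro z hz w hw
  have hmem : ∀ v : E, ‖v‖ ≤ ‖w‖ → z + v ∈ cthickening d K := by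
    intro v hv
    apply closedBall_subset_cthickening hz d
    rw [mem_closedBall, dist_eq_norm, add_sub_cancel_left]
    exact hv.trans (hw.le.trans (min_le_right _ _))
  have hzU : ∀ v : E, ‖v‖ ≤ ‖w‖ → z + v ∈ U := fun v hv => hdU (hmem v hv)
  refine ⟨hzU w le_rfl, ?_⟩
  have hzK : z ∈ cthickening d K := by simpa using hmem 0 (by simp)
  have hsmall : ∀ v : E, ‖v‖ ≤ ‖w‖ →
      ‖fderiv ℝ (fderiv ℝ ψ) (z + v) - fderiv ℝ (fderiv ℝ ψ) z‖ ≤ ε / 2 := by
    intro v hv
    have := hr1' (z + v) (hmem v hv) z hzK (by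
      rw [dist_eq_norm, add_sub_cancel_left]
      exact hv.trans_lt (hw.trans_le (min_le_left _ _)))
    have e := dist_eq_norm (fderiv ℝ (fderiv ℝ ψ) (z + v)) (fderiv ℝ (fderiv ℝ ψ) z)
    have h2 := e.symm.le.trans this.le
    exact h2
  set D2 := fderiv ℝ (fderiv ℝ ψ) z with hD2def
  have hzU0 : z ∈ U := hdU hzK
  have hsymm : ∀ a b : E, D2 a b = D2 b a := by
    intro a b
    have h1 : ContDiffAt ℝ 2 ψ z := hψ.contDiffAt (hU.mem_nhds hzU0)
    exact (h1.isSymmSndFDerivAt (by simp [minSmoothness_of_isRCLikeNormedField])).eq a b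
  -- first step
  have hconv : Convex ℝ (closedBall (0 : E) ‖w‖) := convex_closedBall 0 ‖w‖
  have step1 : ∀ v ∈ closedBall (0 : E) ‖w‖,
      ‖fderiv ℝ ψ (z + v) - fderiv ℝ ψ z - D2 v‖ ≤ ε * ‖w‖ := by
    intro v hv
    have hv' : ‖v‖ ≤ ‖w‖ := by simpa using hv
    have hder : ∀ x ∈ closedBall (0 : E) ‖w‖,
        HasFDerivWithinAt (fun x => fderiv ℝ ψ (z + x) - D2 x)
          (fderiv ℝ (fderiv ℝ ψ) (z + x) - D2) (closedBall (0 : E) ‖w‖) x := by
      intro x hx
      have hx' : ‖x‖ ≤ ‖w‖ := by simpa using hx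
      have h1 : HasFDerivAt (fderiv ℝ ψ) (fderiv ℝ (fderiv ℝ ψ) (z + x)) (z + x) :=
        ((hD1.contDiffAt (hU.mem_nhds (hzU x hx'))).differentiableAt (by norm_num)).hasFDerivAt
      have h2 : HasFDerivAt (fun x => fderiv ℝ ψ (z + x)) (fderiv ℝ (fderiv ℝ ψ) (z + x)) x :=
        (hasFDerivAt_comp_add_left z).2 h1
      exact (h2.sub D2.hasFDerivAt).hasFDerivWithinAt
    have hbd := hconv.norm_image_sub_le_of_norm_hasFDerivWithin_le hder (C := ε / 2)
      (fun x hx => hsmall x (by simpa using hx)) (mem_closedBall_self (norm_nonneg w)) hv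
    simp only [map_zero, sub_zero, add_zero] at hbd
    have e1 : fderiv ℝ ψ (z + v) - fderiv ℝ ψ z - D2 v =
        fderiv ℝ ψ (z + v) - D2 v - fderiv ℝ ψ z := by abel
    rw [e1]
    refine hbd.trans ?_
    nlinarith [norm_nonneg v, norm_nonneg w]
  -- second step
  have hder2 : ∀ x ∈ closedBall (0 : E) ‖w‖,
      HasFDerivWithinAt (fun x => ψ (z + x) - fderiv ℝ ψ z x - (1 / 2) * D2 x x)
        (fderiv ℝ ψ (z + x) - fderiv ℝ ψ z - D2 x) (closedBall (0 : E) ‖w‖) x := by
    intro x hx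
    have hx' : ‖x‖ ≤ ‖w‖ := by simpa using hx
    have h1 : HasFDerivAt ψ (fderiv ℝ ψ (z + x)) (z + x) :=
      ((hψ.contDiffAt (hU.mem_nhds (hzU x hx'))).differentiableAt (by norm_num)).hasFDerivAt
    have h2 : HasFDerivAt (fun x => ψ (z + x)) (fderiv ℝ ψ (z + x)) x :=
      (hasFDerivAt_comp_add_left z).2 h1
    have h3 : HasFDerivAt (fun x => (1 / 2 : ℝ) * D2 x x) (D2 x) x := by
      have h4 : HasFDerivAt (fun x => D2 x x) (D2.flip x + D2 x) x := by
        have h5 := D2.hasFDerivAt (x := x) |>.clm_apply (hasFDerivAt_id x)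
        refine h5.congr_fderiv ?_
        ext y
        simp [add_comm]
      refine (h4.const_mul (1 / 2)).congr_fderiv ?_
      ext y
      simp only [smul_apply, add_apply,
        ContinuousLinearMap.flip_apply, smul_eq_mul]
      rw [hsymm y x]; ring
    exact ((h2.sub (fderiv ℝ ψ z).hasFDerivAt).sub h3).hasFDerivWithinAt
  have hbd2 := hconv.norm_image_sub_le_of_norm_hasFDerivWithin_le hder2 (C := ε * ‖w‖)
    step1 (mem_closedBall_self (norm_nonneg w)) (by simp : w ∈ closedBall (0 : E) ‖w‖)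
  simp only [map_zero, sub_zero, add_zero, mul_zero, Real.norm_eq_abs] at hbd2
  have e2 : ψ (z + w) - ψ z - fderiv ℝ ψ z w - (1 / 2) * D2 w w =
      ψ (z + w) - fderiv ℝ ψ z w - (1 / 2) * D2 w w - ψ z := by ring
  rw [e2]
  calc _ ≤ ε * ‖w‖ * ‖w‖ := hbd2
    _ = _ := by ring

variable [MeasurableSpace E] [BorelSpace E]



end

end Crest.Agent.R276.LM2_976
end

-- ▼ part R276/LM3_976

/-!
# R276, leaf LM (helper976): part 3: volumes of Hermitian ellipsoids, determinants, dimension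

`volume_herm`, `volume_herm_euclidean` : `vol {w : ⟨w, M w⟩ < 1} = vol(B) / det M`.
`det_add_smul_bound` : `|det (A + t B)| ≤ C t ^ r` if `rank B ≤ r`.
`finrank_le_lintegral`, `lintegral_le_finrank` : `dim V` and the Bergman function.
-/

set_option autoImplicit false

open MeasureTheory Set Metric Topology Filter Matrix
open scoped ENNReal Real ContDiff ComplexOrder MatrixOrder

namespace Crest.Agent.R276.LM3_976

noncomputable section

theorem measure_preimage_complexLinear {E : Type*} [NormedAddCommGroup E] [NormedSpace ℂ E]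
    [FiniteDimensional ℂ E] [MeasurableSpace E] [BorelSpace E] (μ : Measure E)
    [μ.IsAddHaarMeasure] (L : E →ₗ[ℂ] E) (hL : LinearMap.det L ≠ 0) (s : Set E) :
    μ (L ⁻¹' s) = ENNReal.ofReal ((‖LinearMap.det L‖ ^ 2)⁻¹) * μ s := by
  have : FiniteDimensional ℝ E := FiniteDimensional.complexToReal E
  have hdet : LinearMap.det (L.restrictScalars ℝ) = ‖LinearMap.det L‖ ^ 2 := by
    rw [LinearMap.det_restrictScalars, Algebra.norm_complex_apply, Complex.normSq_eq_norm_sq]
  have hne : LinearMap.det (L.restrictScalars ℝ) ≠ 0 := by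
    rw [hdet]; positivity
  have h := Measure.addHaar_preimage_linearMap μ hne s
  rw [hdet, abs_of_nonneg (by positivity)] at h
  exact h

theorem exists_gram {d : ℕ} {M : Matrix (Fin d) (Fin d) ℂ} (hM : M.PosSemidef) :
    ∃ G : Matrix (Fin d) (Fin d) ℂ, M = Gᴴ * G := by
  obtain ⟨G, hG⟩ := CStarAlgebra.nonneg_iff_eq_star_mul_self.1 hM.nonneg
  exact ⟨G, hG⟩

/-- the Hermitian form of a matrix -/
def hq {d : ℕ} (M : Matrix (Fin d) (Fin d) ℂ) (w : Fin d → ℂ) : ℝ := (star w ⬝ᵥ (M *ᵥ w)).re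

theorem hq_gram {d : ℕ} (G : Matrix (Fin d) (Fin d) ℂ) (w : Fin d → ℂ) :
    hq (Gᴴ * G) w = ∑ i, ‖(G *ᵥ w) i‖ ^ 2 := by
  have h1 : star w ⬝ᵥ ((Gᴴ * G) *ᵥ w) = star (G *ᵥ w) ⬝ᵥ (G *ᵥ w) := by
    rw [← Matrix.mulVec_mulVec, Matrix.dotProduct_mulVec, Matrix.star_mulVec]
  rw [hq, h1, dotProduct, Complex.re_sum]
  refine Finset.sum_congr rfl fun i _ => ?_
  rw [Pi.star_apply, Complex.star_def, Complex.conj_mul']
  norm_cast

theorem hq_smul {d : ℕ} (M : Matrix (Fin d) (Fin d) ℂ) (c : ℂ) (w : Fin d → ℂ) :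
    hq M (c • w) = ‖c‖ ^ 2 * hq M w := by
  have h1 : star (c • w) ⬝ᵥ (M *ᵥ (c • w)) = ((‖c‖ ^ 2 : ℝ) : ℂ) * (star w ⬝ᵥ (M *ᵥ w)) := by
    rw [Matrix.mulVec_smul, dotProduct_smul, star_smul, smul_dotProduct, smul_eq_mul, smul_eq_mul,
      ← mul_assoc]
    congr 1
    rw [Complex.star_def, Complex.mul_conj']
    push_cast
    rfl
  rw [hq, h1, Complex.re_ofReal_mul, hq]

theorem hq_continuous {d : ℕ} (M : Matrix (Fin d) (Fin d) ℂ) : Continuous (hq M) := by
  unfold hq
  refine Complex.continuous_re.comp ?_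
  exact Continuous.dotProduct continuous_star (Continuous.matrix_mulVec continuous_const continuous_id)

theorem det_gram {d : ℕ} (G : Matrix (Fin d) (Fin d) ℂ) : (Gᴴ * G).det = ((‖G.det‖ ^ 2 : ℝ) : ℂ) := by
  rw [det_mul, det_conjTranspose, Complex.star_def, Complex.conj_mul']
  push_cast; rfl

/-- volume of a Hermitian ellipsoid in `Fin d → ℂ` -/
theorem volume_herm {d : ℕ} {M : Matrix (Fin d) (Fin d) ℂ} (hM : M.PosDef)
    (μ : Measure (Fin d → ℂ)) [μ.IsAddHaarMeasure] :
    μ {w : Fin d → ℂ | hq M w < 1} =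
      ENNReal.ofReal ((M.det.re)⁻¹) * μ {w : Fin d → ℂ | ∑ i, ‖w i‖ ^ 2 < 1} := by
  obtain ⟨G, rfl⟩ := exists_gram hM.posSemidef
  have hdet : G.det ≠ 0 := by
    intro h
    have := hM.det_pos
    rw [det_gram, h] at this
    simp at this
  have h := measure_preimage_complexLinear μ (Matrix.toLin' G)
    (by rwa [LinearMap.det_toLin']) {w : Fin d → ℂ | ∑ i, ‖w i‖ ^ 2 < 1}
  rw [LinearMap.det_toLin'] at h
  rw [det_gram, Complex.ofReal_re, ← h]
  congr 1
  ext w
  simp [hq_gram]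



/-! ### dimension and the Bergman function -/

section Dim

variable {X : Type*} [MeasurableSpace X] {ν : Measure X} {V : Type*} [AddCommGroup V]
  [Module ℂ V] [FiniteDimensional ℂ V]

/-- the squared norm -/
def nI (ν : Measure X) (f : X → ℂ) : ℝ≥0∞ := ∫⁻ x, ‖f x‖ₑ ^ 2 ∂ν

theorem nI_eq (f : X → ℂ) : nI ν f = eLpNorm f 2 ν ^ 2 := by
  have h := eLpNorm_nnreal_pow_eq_lintegral (μ := ν) (f := f) (p := 2) two_ne_zero
  have h2 : ((2 : NNReal) : ℝ) = (2 : ℕ) := by norm_num
  rw [h2] at h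
  simp only [ENNReal.rpow_natCast] at h
  rw [nI, ← h]
  rfl

/-- `Σ_j |e x s_j|²` for a suitable basis: reproducing (Bergman) function and its properties -/
theorem exists_bergman (e : X → V →ₗ[ℂ] ℂ)
    (hm : ∀ s, AEStronglyMeasurable (fun x => e x s) ν)
    (hfin : ∀ s, nI ν (fun x => e x s) ≠ ⊤)
    (hinj : ∀ s, nI ν (fun x => e x s) = 0 → s = 0) :
    ∃ T : X → ℝ≥0∞, AEMeasurable T ν ∧ (∫⁻ x, T x ∂ν = Module.finrank ℂ V) ∧
      (∀ x, T x ≠ ⊤) ∧
      (∀ x s, ‖e x s‖ₑ ^ 2 ≤ T x * nI ν (fun y => e y s)) ∧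
      (∀ x, T x ≠ 0 → ∃ s, nI ν (fun y => e y s) ≠ 0 ∧
        ‖e x s‖ₑ ^ 2 = T x * nI ν (fun y => e y s)) := by
  have hmem : ∀ s, MemLp (fun x => e x s) 2 ν := by
    intro s
    refine ⟨hm s, ?_⟩
    have h1 := hfin s
    rw [nI_eq] at h1
    rw [lt_top_iff_ne_top]
    intro h2
    rw [h2] at h1
    exact h1 (by simp)
  let F : V →ₗ[ℂ] Lp ℂ 2 ν :=
    { toFun := fun s => (hmem s).toLp _
      map_add' := by
        intro s t
        rw [← MemLp.toLp_add]
        congr 1
        funext x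
        simp
      map_smul' := by
        intro c s
        rw [RingHom.id_apply, ← MemLp.toLp_const_smul]
        congr 1
        funext x
        simp }
  have hFn : ∀ s, nI ν (fun x => e x s) = ENNReal.ofReal (‖F s‖ ^ 2) := by
    intro s
    have h1 : ‖F s‖ = (eLpNorm (fun x => e x s) 2 ν).toReal := Lp.norm_toLp _ (hmem s)
    rw [h1, nI_eq, ENNReal.ofReal_pow ENNReal.toReal_nonneg, ENNReal.ofReal_toReal (hmem s).2.ne]
  have hFinj : Function.Injective F := by
    rw [← LinearMap.ker_eq_bot, LinearMap.ker_eq_bot']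
    intro s hs
    apply hinj
    rw [hFn, hs]
    simp
  let W := LinearMap.range F
  have hWfin : FiniteDimensional ℂ W := inferInstance
  have hWdim : Module.finrank ℂ W = Module.finrank ℂ V := LinearMap.finrank_range_of_inj hFinj
  let b := stdOrthonormalBasis ℂ W
  have hb : ∀ j, ∃ s, F s = b j := fun j => (b j).2
  choose sj hsj using hb
  have hF : ∀ c : Fin (Module.finrank ℂ W) → ℂ, ‖F (∑ j, c j • sj j)‖ ^ 2 = ∑ j, ‖c j‖ ^ 2 := by
    intro c
    have h1 : F (∑ j, c j • sj j) = ((∑ j, c j • b j : W) : Lp ℂ 2 ν) := by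
      rw [map_sum, Submodule.coe_sum]
      refine Finset.sum_congr rfl fun j _ => ?_
      rw [map_smul, hsj, Submodule.coe_smul]
    rw [h1, Submodule.norm_coe]
    have h2 : (∑ j, c j • b j : W) = b.repr.symm (WithLp.toLp 2 c) := by
      rw [← b.sum_repr_symm]
    rw [h2, LinearIsometryEquiv.norm_map, EuclideanSpace.norm_sq_eq]
  -- every `s` is a combination of the `sj`
  have hspan : ∀ s : V, ∃ c : Fin (Module.finrank ℂ W) → ℂ, s = ∑ j, c j • sj j := by
    intro s
    let w : W := ⟨F s, LinearMap.mem_range_self F s⟩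
    refine ⟨fun j => b.repr w j, hFinj ?_⟩
    have h1 := b.sum_repr w
    have h2 : F s = ((∑ j, b.repr w j • b j : W) : Lp ℂ 2 ν) := by rw [h1]
    rw [h2, map_sum, Submodule.coe_sum]
    refine Finset.sum_congr rfl fun j _ => ?_
    rw [map_smul, hsj, Submodule.coe_smul]
  have hnc : ∀ c : Fin (Module.finrank ℂ W) → ℂ,
      nI ν (fun x => e x (∑ j, c j • sj j)) = ∑ j, ‖c j‖ₑ ^ 2 := by
    intro c
    rw [hFn, hF, ENNReal.ofReal_sum_of_nonneg (fun _ _ => by positivity)]
    refine Finset.sum_congr rfl fun j _ => ?_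
    rw [LM1_976.enorm_sq_eq]
  set T : X → ℝ≥0∞ := fun x => ∑ j, ‖e x (sj j)‖ₑ ^ 2 with hT
  have hTtop : ∀ x, T x ≠ ⊤ := by
    intro x
    simp only [hT]
    exact ENNReal.sum_ne_top.2 fun j _ => ENNReal.pow_ne_top enorm_ne_top
  refine ⟨T, ?_, ?_, hTtop, ?_, ?_⟩
  · refine Finset.aemeasurable_fun_sum _ fun j _ => ?_
    exact ((hm (sj j)).enorm).pow_const 2
  · rw [hT, lintegral_finsetSum' _ (fun j _ => ((hm (sj j)).enorm).pow_const 2)]
    have h1 : ∀ j, ∫⁻ x, ‖e x (sj j)‖ₑ ^ 2 ∂ν = 1 := by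
      intro j
      have h2 := hnc (Pi.single j 1)
      have h3 : ∑ i, (Pi.single j 1 : Fin (Module.finrank ℂ W) → ℂ) i • sj i = sj j := by
        rw [Finset.sum_eq_single j]
        · simp
        · intro i _ hi; simp [Pi.single_eq_of_ne hi]
        · intro h; exact absurd (Finset.mem_univ j) h
      have h4 : ∑ i, ‖(Pi.single j 1 : Fin (Module.finrank ℂ W) → ℂ) i‖ₑ ^ 2 = 1 := by
        rw [Finset.sum_eq_single j]
        · simp
        · intro i _ hi; simp [Pi.single_eq_of_ne hi]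
        · intro h; exact absurd (Finset.mem_univ j) h
      rw [h3, h4] at h2
      exact h2
    rw [Finset.sum_congr rfl fun j _ => h1 j]
    simp [hWdim]
  · intro x s
    obtain ⟨c, rfl⟩ := hspan s
    rw [hnc]
    have h1 : ‖e x (∑ j, c j • sj j)‖ ^ 2 ≤ (∑ j, ‖e x (sj j)‖ ^ 2) * ∑ j, ‖c j‖ ^ 2 := by
      rw [map_sum]
      have h2 : ‖∑ j, e x (c j • sj j)‖ ≤ ∑ j, ‖e x (sj j)‖ * ‖c j‖ := by
        refine (norm_sum_le _ _).trans (le_of_eq ?_)
        refine Finset.sum_congr rfl fun j _ => ?_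
        rw [map_smul, smul_eq_mul, norm_mul, mul_comm]
      calc _ ≤ (∑ j, ‖e x (sj j)‖ * ‖c j‖) ^ 2 := by gcongr
        _ ≤ _ := Finset.sum_mul_sq_le_sq_mul_sq _ _ _
    have h3 := ENNReal.ofReal_le_ofReal h1
    rw [ENNReal.ofReal_mul (Finset.sum_nonneg fun _ _ => by positivity),
      ENNReal.ofReal_sum_of_nonneg (fun _ _ => by positivity),
      ENNReal.ofReal_sum_of_nonneg (fun _ _ => by positivity)] at h3
    simp only [LM1_976.enorm_sq_eq] at h3
    exact h3
  · intro x hx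
    set c : Fin (Module.finrank ℂ W) → ℂ := fun j => star (e x (sj j)) with hc
    refine ⟨∑ j, c j • sj j, ?_, ?_⟩
    · rw [hnc]
      simpa [hc, hT] using hx
    · rw [hnc]
      have h1 : e x (∑ j, c j • sj j) = ((∑ j, ‖e x (sj j)‖ ^ 2 : ℝ) : ℂ) := by
        rw [map_sum]
        push_cast
        refine Finset.sum_congr rfl fun j _ => ?_
        rw [map_smul, smul_eq_mul, hc, Complex.star_def, Complex.conj_mul']
      have h2 : ‖e x (∑ j, c j • sj j)‖ₑ = T x := by
        rw [h1, ← ofReal_norm, Complex.norm_real, Real.norm_eq_abs,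
          abs_of_nonneg (Finset.sum_nonneg fun _ _ => by positivity),
          ENNReal.ofReal_sum_of_nonneg (fun _ _ => by positivity)]
        simp only [LM1_976.enorm_sq_eq, hT]
      have h3 : ∑ j, ‖c j‖ₑ ^ 2 = T x := by
        simp only [hT, hc]
        refine Finset.sum_congr rfl fun j _ => ?_
        congr 1
        rw [← ofReal_norm, ← ofReal_norm, norm_star]
      rw [h2, h3, sq]



end Dim

end

end Crest.Agent.R276.LM3_976
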