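import Mathlib
import Crest.Agent.R271.Alg_956
import Crest.Agent.R271.Null_956
import Crest.Agent.R271.Rd7_692
import Crest.Agent.R271.W_792
import Crest.Agent.R266.SCV

/-!
Row 276, AB2 (helper590): ALGEBRAICITY of holomorphic functions of algebraic growth on
`M = Hom(B,ℂ)`, `B` a domain of finite type étale over `ℂ[z]`.

* `hol51_iff`, `hol792_iff` : the three notions of holomorphic functions agree;
* `exists_card_le` : the fibres of `z` are (generically) bounded;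
* `lintM_lt_top` : a function with `f ≤ C (1+|z|²)^{-(n+1)}` is integrable on `M`;
* `mem_of_growth` : `|F| |u|^b ≤ C (1+|z|²)^a` implies `F ∈ B`;
* `mem_of_weight` : `∫ |F|² W < ∞`, `W ≥ c |u|^{2N} (1+|z|²)^{-M}` implies `F ∈ B`;
* `mem_of_phi` : the same for `W = e^{-φ}`.
-/

set_option autoImplicit false

open Topology Filter MeasureTheory Set
open scoped ENNReal

noncomputable section

namespace Crest.Agent.R276.AB2_590

open Crest.Agent.R271 Crest.Agent.R271.Defs710 Crest.Agent.R271.Rd692 Crest.Agent.R271.Ho51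

/-! ### holomorphic functions on a Riemann domain -/

section hol

variable {n : ℕ} {M : Type*} [TopologicalSpace M] [RDom n M]

/-- analytic in the charts -/
def HolA (F : M → ℂ) : Prop := ∀ x : M, AnalyticAt ℂ (F ∘ (ch x).symm) (cp x)

lemma comp_symm_analyticAt {F : M → ℂ} (h : HolA F) {e : OpenPartialHomeomorph M (Fin n → ℂ)}
    (he : IsCh e) {w : Fin n → ℂ} (hw : w ∈ e.target) : AnalyticAt ℂ (F ∘ e.symm) w := by
  have hx : e.symm w ∈ e.source := e.map_target hw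
  have h1 := h (e.symm w)
  rw [he.cp_symm hw] at h1
  have h2 := comp_germ he (isCh_ch (e.symm w)) hx (mem_ch _) F
  rw [he.cp_symm hw] at h2
  exact h1.congr h2.symm

theorem hol51_iff {F : M → ℂ} : Ho51.Hol F ↔ HolA F := by
  constructor
  · intro h x
    have h1 := R266.SCV.analyticOnNhd_of_differentiableOn (ch x).open_target
      (h (ch x) (isCh_ch x))
    exact h1 _ ((isCh_ch x).cp_mem (mem_ch x))
  · intro h e he w hw
    exact (comp_symm_analyticAt h he hw).differentiableAt.differentiableWithinAt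

theorem hol792_iff {F : M → ℂ} : W792.Hol F ↔ HolA F := by
  constructor
  · intro h x
    have h1 : ∀ᶠ w in 𝓝 (cp x), DifferentiableAt ℂ (F ∘ (ch x).symm) w := by
      filter_upwards [(ch x).open_target.mem_nhds ((isCh_ch x).cp_mem (mem_ch x))] with w hw
      have h2 : DifferentiableAt ℝ (F ∘ (ch x).symm) w :=
        (h.sm.contDiffAt' (isCh_ch x) hw).differentiableAt (by simp)
      refine R266.SCV.differentiableAt_complex_of_real h2 fun v => ?_
      have h3 := h.cl ((ch x).symm w) v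
      rw [D_symm (isCh_ch x) hw] at h3
      exact h3
    exact R266.SCV.analyticAt_of_eventually_differentiableAt h1
  · intro h
    refine ⟨fun x => ?_, fun x w => ?_⟩
    · exact ((h x).contDiffAt (n := ((⊤ : ℕ∞) : WithTop ℕ∞))).restrict_scalars ℝ
    · exact R266.SCV.fderiv_real_smul_I (h x).differentiableAt w

end hol

/-! ### `M = Hom(B,ℂ)` -/

variable {n : ℕ} {B : Type} [CommRing B] [Algebra ℂ B]

/-- analytic in every `Chart` of `M = Hom(B,ℂ)` -/
def HolB (z : Fin n → B) (F : (B →ₐ[ℂ] ℂ) → ℂ) : Prop :=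
  ∀ (y : B →ₐ[ℂ] ℂ) (C : Chart z y), AnalyticAt ℂ (fun ζ => F (C.s ζ)) 0

/-- `B` étale over `ℂ[z]` -/
abbrev Et (z : Fin n → B) : Prop :=
  RingHom.Etale ((MvPolynomial.aeval z : MvPolynomial (Fin n) ℂ →ₐ[ℂ] B) :
      MvPolynomial (Fin n) ℂ →+* B)

section holB

variable {z : Fin n → B}

theorem holA_iff (hch : ∀ y : Pt B, Nonempty (Chart z y)) {F : (B →ₐ[ℂ] ℂ) → ℂ} :
    (letI := rdom hch; HolA (M := (B →ₐ[ℂ] ℂ)) F) ↔ HolB z F := by
  let _ := rdom hch
  have key : ∀ (y : B →ₐ[ℂ] ℂ) (C : Chart z y),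
      (AnalyticAt ℂ (F ∘ (ch y).symm) (cp y) ↔ AnalyticAt ℂ (fun ζ => F (C.s ζ)) 0) := by
    intro y C
    have h0 : (fun w => (ch y).symm w) =ᶠ[𝓝 (cp y)] fun w => C.s (w - cp y) :=
      (isCh_ch y).germ (e' := chartHomeo hch C) rfl (mem_ch y) (self_mem_sheet C)
    have h1 : (F ∘ (ch y).symm) =ᶠ[𝓝 (cp y)] fun w => F (C.s (w - cp y)) := by
      filter_upwards [h0] with w hw
      simp only [Function.comp_apply]
      rw [hw]
    rw [analyticAt_congr h1]
    constructor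
    · intro h
      have h2 : AnalyticAt ℂ (fun ζ : Cn n => ζ + cp y) 0 := analyticAt_id.add analyticAt_const
      have h3 : AnalyticAt ℂ (fun w => F (C.s (w - cp y))) ((fun ζ : Cn n => ζ + cp y) 0) := by
        simpa using h
      have h4 := AnalyticAt.comp (g := fun w => F (C.s (w - cp y)))
        (f := fun ζ : Cn n => ζ + cp y) h3 h2
      refine h4.congr (Eventually.of_forall fun ζ => ?_)
      simp
    · intro h
      have h2 : AnalyticAt ℂ (fun w : Cn n => w - cp y) (cp y) := analyticAt_id.sub analyticAt_const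
      have h3 : AnalyticAt ℂ (fun ζ => F (C.s ζ)) ((fun w : Cn n => w - cp y) (cp y)) := by
        simpa using h
      exact AnalyticAt.comp (g := fun ζ => F (C.s ζ)) (f := fun w : Cn n => w - cp y) h3 h2
  constructor
  · intro h y C
    exact (key y C).mp (h y)
  · intro h y
    obtain ⟨C⟩ := hch y
    exact (key y C).mpr (h y C)

theorem holB_of_51 (hch : ∀ y : Pt B, Nonempty (Chart z y)) {F : (B →ₐ[ℂ] ℂ) → ℂ}
    (h : letI := rdom hch; Ho51.Hol (M := (B →ₐ[ℂ] ℂ)) F) : HolB z F :=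
  letI := rdom hch
  (holA_iff hch).mp (hol51_iff.mp h)


theorem holB_ev (b : B) : HolB z (fun y : B →ₐ[ℂ] ℂ => y b) := fun _ C =>
  C.anal b 0 (Metric.mem_ball_self C.r_pos)

theorem hol51_ev (hch : ∀ y : Pt B, Nonempty (Chart z y)) (b : B) :
    letI := rdom hch; Ho51.Hol (M := (B →ₐ[ℂ] ℂ)) (fun y => y b) :=
  letI := rdom hch
  hol51_iff.mpr ((holA_iff hch).mpr (holB_ev b))

theorem hol792_ev (hch : ∀ y : Pt B, Nonempty (Chart z y)) (b : B) :
    letI := rdom hch; W792.Hol (M := (B →ₐ[ℂ] ℂ)) (fun y => y b) :=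
  letI := rdom hch
  hol792_iff.mpr ((holA_iff hch).mpr (holB_ev b))

end holB

/-! ### integrability -/

section int

variable [IsDomain B] [Algebra.FiniteType ℂ B] {z : Fin n → B}






omit [Algebra.FiniteType ℂ B] in
/-- every nonzero `v ∈ B` divides a nonzero polynomial in `z` -/
theorem exists_poly_dvd (het : Et z) {v : B} (hv : v ≠ 0) :
    ∃ p : MvPolynomial (Fin n) ℂ, p ≠ 0 ∧ v ∣ MvPolynomial.aeval z p := by
  let _ : Algebra (MvPolynomial (Fin n) ℂ) B :=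
    ((MvPolynomial.aeval z : MvPolynomial (Fin n) ℂ →ₐ[ℂ] B) :
      MvPolynomial (Fin n) ℂ →+* B).toAlgebra
  have _ : Algebra.Etale (MvPolynomial (Fin n) ℂ) B := het
  have h1 := (KT661.injective_and_isAlgebraic_of_etale
      (R := MvPolynomial (Fin n) ℂ) (S := B)).2
  obtain ⟨r, hr, h⟩ := (h1.isAlgebraic v).exists_nonzero_dvd (mem_nonZeroDivisors_of_ne_zero hv)
  exact ⟨r, hr, h⟩

omit [Algebra.FiniteType ℂ B] in
/-- for almost every `ζ` the points of the fibre are off `{v = 0}` -/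
theorem ae_fib_ne (het : Et z) {v : B} (hv : v ≠ 0) :
    ∀ᵐ ζ : Cn n, ∀ y : B →ₐ[ℂ] ℂ, (∀ i, y (z i) = ζ i) → y v ≠ 0 := by
  obtain ⟨p, hp, b, hb⟩ := exists_poly_dvd het hv
  filter_upwards [Null956.ae_eval_ne hp] with ζ hζ y hy h0
  apply hζ
  rw [← AlgB956.comp_aeval y hy, hb, map_mul, h0, zero_mul]

omit [Algebra.FiniteType ℂ B] in
/-- `lintM` does not see the set `{v = 0}` -/
theorem lintM_mono_off (het : Et z) {v : B} (hv : v ≠ 0) {f g : (B →ₐ[ℂ] ℂ) → ℝ≥0∞}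
    (hfg : ∀ y : B →ₐ[ℂ] ℂ, y v ≠ 0 → f y ≤ g y) : lintM z f ≤ lintM z g := by
  unfold lintM
  refine lintegral_mono_ae ?_
  filter_upwards [ae_fib_ne het hv] with ζ hζ
  exact ENNReal.tsum_le_tsum fun y => hfg y.1 (hζ y.1 y.2)

omit [Algebra.FiniteType ℂ B] in
theorem lintM_congr_off (het : Et z) {v : B} (hv : v ≠ 0) {f g : (B →ₐ[ℂ] ℂ) → ℝ≥0∞}
    (hfg : ∀ y : B →ₐ[ℂ] ℂ, y v ≠ 0 → f y = g y) : lintM z f = lintM z g :=
  le_antisymm (lintM_mono_off het hv fun y hy => (hfg y hy).le)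
    (lintM_mono_off het hv fun y hy => (hfg y hy).ge)

/-- ALGEBRAICITY for a weight `W ≥ c |u|^{2N} (1+|z|²)^{-M}` (off `{v = 0}`) -/
theorem mem_of_weight (het : Et z) {F : (B →ₐ[ℂ] ℂ) → ℂ} (hF : HolB z F) {u v : B} (hu : u ≠ 0)
    (hv : v ≠ 0) (N M : ℕ) {c : ℝ} (hc : 0 < c) {W : (B →ₐ[ℂ] ℂ) → ℝ≥0∞}
    (hW : ∀ y : B →ₐ[ℂ] ℂ, y v ≠ 0 →
      ENNReal.ofReal (c * ‖y u‖ ^ (2 * N) / (1 + ∑ i, ‖y (z i)‖ ^ 2) ^ M) ≤ W y)
    (hint : lintM z (fun y => ENNReal.ofReal (‖F y‖ ^ 2) * W y) < ∞) :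
    ∃ f : B, ∀ y : B →ₐ[ℂ] ℂ, F y = y f := by
  refine Alg956.algebraicity_gen het hF hu N M ?_
  have h1 : lintM z (fun y => ENNReal.ofReal
      (‖F y‖ ^ 2 * ‖y u‖ ^ (2 * N) / (1 + ∑ i, ‖y (z i)‖ ^ 2) ^ M)) ≤
      lintM z (fun y => ENNReal.ofReal c⁻¹ * (ENNReal.ofReal (‖F y‖ ^ 2) * W y)) := by
    refine lintM_mono_off het hv fun y hy => ?_
    calc ENNReal.ofReal (‖F y‖ ^ 2 * ‖y u‖ ^ (2 * N) / (1 + ∑ i, ‖y (z i)‖ ^ 2) ^ M)
        = ENNReal.ofReal c⁻¹ * (ENNReal.ofReal (‖F y‖ ^ 2) *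
          ENNReal.ofReal (c * ‖y u‖ ^ (2 * N) / (1 + ∑ i, ‖y (z i)‖ ^ 2) ^ M)) := by
          rw [← ENNReal.ofReal_mul (by positivity), ← ENNReal.ofReal_mul (by positivity)]
          congr 1
          field_simp
      _ ≤ _ := by
          gcongr
          exact hW y hy
  have h2 : lintM z (fun y => ENNReal.ofReal c⁻¹ * (ENNReal.ofReal (‖F y‖ ^ 2) * W y)) =
      ENNReal.ofReal c⁻¹ * lintM z (fun y => ENNReal.ofReal (‖F y‖ ^ 2) * W y) := by
    unfold lintM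
    rw [← lintegral_const_mul' _ _ ENNReal.ofReal_ne_top]
    refine lintegral_congr fun ζ => ?_
    rw [← ENNReal.tsum_mul_left]
  rw [h2] at h1
  exact h1.trans_lt (ENNReal.mul_lt_top ENNReal.ofReal_lt_top hint)

/-- ALGEBRAICITY for `∫ |F|² e^{-φ} < ∞`,
`φ ≤ M log(1+|z|²) + N log(1/|u|²) + C` (where `u ≠ 0`, `v ≠ 0`). -/
theorem mem_of_phi (het : Et z) {F : (B →ₐ[ℂ] ℂ) → ℂ} (hF : HolB z F) {u v : B} (hu : u ≠ 0)
    (hv : v ≠ 0) (N M : ℕ) {C : ℝ} {φ : (B →ₐ[ℂ] ℂ) → ℝ}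
    (hφ : ∀ y : B →ₐ[ℂ] ℂ, y u ≠ 0 → y v ≠ 0 →
      φ y ≤ M * Real.log (1 + ∑ i, ‖y (z i)‖ ^ 2) - N * Real.log (‖y u‖ ^ 2) + C)
    (hint : lintM z (fun y => ENNReal.ofReal (‖F y‖ ^ 2 * Real.exp (-(φ y)))) < ∞) :
    ∃ f : B, ∀ y : B →ₐ[ℂ] ℂ, F y = y f := by
  refine mem_of_weight (W := fun y => ENNReal.ofReal (Real.exp (-(φ y)))) het hF hu
    (mul_ne_zero hu hv) N M (c := Real.exp (-C)) (by positivity) ?_ ?_
  · intro y hy
    rw [map_mul] at hy
    have hyu := left_ne_zero_of_mul hy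
    have hyv := right_ne_zero_of_mul hy
    apply ENNReal.ofReal_le_ofReal
    have hu0 : 0 < ‖y u‖ ^ 2 := by
      have := norm_pos_iff.mpr hyu
      positivity
    set S : ℝ := 1 + ∑ i, ‖y (z i)‖ ^ 2 with hS
    have hS0 : 0 < S := by positivity
    have h1 : Real.exp (-(M * Real.log S - N * Real.log (‖y u‖ ^ 2) + C)) =
        Real.exp (-C) * ‖y u‖ ^ (2 * N) / S ^ M := by
      have h2 : -(M * Real.log S - N * Real.log (‖y u‖ ^ 2) + C) =
          -C + N * Real.log (‖y u‖ ^ 2) - M * Real.log S := by ring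
      rw [h2, Real.exp_sub, Real.exp_add, Real.exp_nat_mul, Real.exp_nat_mul, Real.exp_log hu0,
        Real.exp_log hS0, pow_mul]
    rw [← h1]
    exact Real.exp_le_exp.mpr (neg_le_neg (hφ y hyu hyv))
  · have h3 : (fun y : B →ₐ[ℂ] ℂ => ENNReal.ofReal (‖F y‖ ^ 2 * Real.exp (-(φ y)))) =
        fun y => ENNReal.ofReal (‖F y‖ ^ 2) * ENNReal.ofReal (Real.exp (-(φ y))) := by
      funext y
      rw [ENNReal.ofReal_mul (by positivity)]
    rw [h3] at hint
    exact hint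

end int

end Crest.Agent.R276.AB2_590
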