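import Mathlib
import Crest.Agent.R271.Bd5_741
import Crest.Agent.R271.Fr_960
import Crest.Agent.R271.Rd6_692

-- ▼ part R276/BC0_986
section

/-!
Row 276, leaf BC (boundary charts at divisorial valuations), part 0: algebra.

`DivModel n K`: a domain `A` of finite type over `ℂ` with fraction field `K`, étale over `ℂ[w₁..wₙ]`,
such that `t = w i₀` is prime in `A`.  It is an algebraic model of the divisorial valuation ring
`A_(t)` of `K/ℂ`.
-/

set_option autoImplicit false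

open scoped Topology BigOperators
open Set Metric

noncomputable section

namespace Crest.Agent.R276.BC_986

open Crest.Agent.R271.Defs710 Crest.Agent.R271.Bd741

/-- algebraic model of a divisorial valuation of `K/ℂ` -/
structure DivModel (n : ℕ) (K : Type) [Field K] [Algebra ℂ K] where
  /-- the ring of the model -/
  A : Type
  [cr : CommRing A]
  [dom : IsDomain A]
  [alg : Algebra ℂ A]
  [algK : Algebra A K]
  [tower : IsScalarTower ℂ A K]
  [frac : IsFractionRing A K]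
  ft : Algebra.FiniteType ℂ A
  /-- the étale coordinates -/
  w : Fin n → A
  etale : RingHom.Etale ((MvPolynomial.aeval w : MvPolynomial (Fin n) ℂ →ₐ[ℂ] A) :
    MvPolynomial (Fin n) ℂ →+* A)
  /-- the index of the coordinate which defines the divisor -/
  i₀ : Fin n
  prime : Prime (w i₀)

attribute [instance] DivModel.cr DivModel.dom DivModel.alg DivModel.algK DivModel.tower
  DivModel.frac

namespace DivModel

variable {n : ℕ} {K : Type} [Field K] [Algebra ℂ K] (D : DivModel n K)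

/-- the equation of the divisor -/
def t : D.A := D.w D.i₀

lemma t_prime : Prime D.t := D.prime

lemma t_ne : D.t ≠ 0 := D.prime.ne_zero

lemma inj : Function.Injective (algebraMap D.A K) := IsFractionRing.injective D.A K

lemma tK_ne : algebraMap D.A K D.t ≠ 0 := by
  intro h
  exact D.t_ne (D.inj (by rw [h, map_zero]))

instance : IsNoetherianRing D.A := by
  have := D.ft
  exact Algebra.FiniteType.isNoetherianRing ℂ D.A

/-- `f ∈ K` has order exactly `a` along the divisor -/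
def HasOrd (f : K) (a : ℤ) : Prop :=
  ∃ u v : D.A, ¬ D.t ∣ u ∧ ¬ D.t ∣ v ∧ f * algebraMap D.A K v =
    algebraMap D.A K D.t ^ a * algebraMap D.A K u

lemma exists_pow_mul (x : D.A) (hx : x ≠ 0) : ∃ (k : ℕ) (u : D.A), ¬ D.t ∣ u ∧ x = D.t ^ k * u := by
  have h1 : ∃ k : ℕ, ¬ D.t ^ (k + 1) ∣ x := by
    by_contra hcon
    push Not at hcon
    have h2 : x ∈ ⨅ i : ℕ, (Ideal.span {D.t}) ^ i := by
      rw [Submodule.mem_iInf]
      intro i
      rw [Ideal.span_singleton_pow, Ideal.mem_span_singleton]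
      exact (pow_dvd_pow D.t (Nat.le_succ i)).trans (hcon i)
    rw [Ideal.iInf_pow_eq_bot_of_isDomain _ (by
      rw [Ne, Ideal.span_singleton_eq_top]; exact D.prime.not_isUnit)] at h2
    exact hx (by simpa using h2)
  classical
  have h2 := Nat.find_spec h1
  set k := Nat.find h1
  have h3 : D.t ^ k ∣ x := by
    rcases Nat.eq_zero_or_pos k with h | h
    · rw [h]; simp
    · have h4 := Nat.find_min h1 (m := k - 1) (Nat.sub_lt h one_pos)
      rw [not_not] at h4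
      rwa [Nat.sub_one_add_one h.ne'] at h4
  obtain ⟨u, hu⟩ := h3
  refine ⟨k, u, ?_, hu⟩
  rintro ⟨v, hv⟩
  apply h2
  exact ⟨v, by rw [hu, hv, pow_succ, mul_assoc]⟩

lemma exists_hasOrd (f : K) (hf : f ≠ 0) : ∃ a, D.HasOrd f a := by
  obtain ⟨x, y, hy, h⟩ := IsFractionRing.div_surjective (A := D.A) f
  have hy0 : y ≠ 0 := nonZeroDivisors.ne_zero hy
  have hyK : algebraMap D.A K y ≠ 0 := fun h0 => hy0 (D.inj (by rw [h0, map_zero]))
  have hx0 : x ≠ 0 := by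
    rintro rfl
    rw [map_zero, zero_div] at h
    exact hf h.symm
  obtain ⟨k, u, hu, hxu⟩ := D.exists_pow_mul x hx0
  obtain ⟨l, v, hv, hyv⟩ := D.exists_pow_mul y hy0
  refine ⟨(k : ℤ) - l, u, v, hu, hv, ?_⟩
  have hvK : algebraMap D.A K v ≠ 0 := fun h0 => by
    apply hy0; apply D.inj; rw [hyv, map_mul, h0, mul_zero, map_zero]
  rw [← h, hxu, hyv, map_mul, map_mul, map_pow, map_pow, zpow_sub₀ D.tK_ne, zpow_natCast,
    zpow_natCast]
  have := D.tK_ne
  field_simp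

lemma not_dvd_mul {u v : D.A} (hu : ¬ D.t ∣ u) (hv : ¬ D.t ∣ v) : ¬ D.t ∣ u * v := fun h =>
  (D.prime.dvd_or_dvd h).elim hu hv

lemma hasOrd_unique {f : K} {a b : ℤ} (ha : D.HasOrd f a) (hb : D.HasOrd f b) : a = b := by
  -- enough: `a ≤ b`
  have key : ∀ {a b : ℤ}, D.HasOrd f a → D.HasOrd f b → ¬ a < b := by
    rintro a b ⟨u, v, hu, hv, h1⟩ ⟨u', v', hu', hv', h2⟩ hlt
    obtain ⟨k, hk⟩ := Int.eq_ofNat_of_zero_le (sub_nonneg.2 hlt.le)
    have hk0 : k ≠ 0 := by rintro rfl; simp at hk; omega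
    have h3 : algebraMap D.A K (u * v') = algebraMap D.A K (D.t ^ k * u' * v) := by
      have ht := D.tK_ne
      have e1 : b = a + k := by omega
      rw [e1, zpow_add₀ ht, zpow_natCast] at h2
      have e2 : algebraMap D.A K D.t ^ a ≠ 0 := zpow_ne_zero _ ht
      apply mul_left_cancel₀ e2
      rw [map_mul, map_mul, map_mul, map_pow]
      calc algebraMap D.A K D.t ^ a * (algebraMap D.A K u * algebraMap D.A K v')
          = (f * algebraMap D.A K v) * algebraMap D.A K v' := by rw [h1]; ring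
        _ = (f * algebraMap D.A K v') * algebraMap D.A K v := by ring
        _ = _ := by rw [h2]; ring
    have h4 := D.inj h3
    have h5 : D.t ∣ u * v' := by
      rw [h4, mul_assoc]
      exact (dvd_pow_self D.t hk0).mul_right _
    exact D.not_dvd_mul hu hv' h5
  rcases lt_trichotomy a b with h | h | h
  · exact absurd h (key ha hb)
  · exact h
  · exact absurd h (key hb ha)

lemma HasOrd.mul {f g : K} {a b : ℤ} (hf : D.HasOrd f a) (hg : D.HasOrd g b) :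
    D.HasOrd (f * g) (a + b) := by
  obtain ⟨u, v, hu, hv, h1⟩ := hf
  obtain ⟨u', v', hu', hv', h2⟩ := hg
  refine ⟨u * u', v * v', D.not_dvd_mul hu hu', D.not_dvd_mul hv hv', ?_⟩
  rw [map_mul, map_mul, zpow_add₀ D.tK_ne]
  calc f * g * (algebraMap D.A K v * algebraMap D.A K v')
      = (f * algebraMap D.A K v) * (g * algebraMap D.A K v') := by ring
    _ = _ := by rw [h1, h2]; ring

lemma HasOrd.ne_zero {f : K} {a : ℤ} (hf : D.HasOrd f a) : f ≠ 0 := by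
  rintro rfl
  obtain ⟨u, v, hu, hv, h1⟩ := hf
  rw [zero_mul] at h1
  have : algebraMap D.A K u = 0 := by
    rcases mul_eq_zero.1 h1.symm with h | h
    · exact absurd h (zpow_ne_zero _ D.tK_ne)
    · exact h
  apply hu
  rw [D.inj (by rw [this, map_zero] : algebraMap D.A K u = algebraMap D.A K 0)]
  exact dvd_zero _

lemma HasOrd.inv {f : K} {a : ℤ} (hf : D.HasOrd f a) : D.HasOrd f⁻¹ (-a) := by
  have hf0 := hf.ne_zero
  obtain ⟨u, v, hu, hv, h1⟩ := hf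
  refine ⟨v, u, hv, hu, ?_⟩
  have ht : algebraMap D.A K D.t ^ a ≠ 0 := zpow_ne_zero _ D.tK_ne
  rw [zpow_neg]
  field_simp
  linear_combination -h1

lemma hasOrd_one : D.HasOrd (1 : K) 0 :=
  ⟨1, 1, fun h => D.prime.not_isUnit (isUnit_of_dvd_one h),
    fun h => D.prime.not_isUnit (isUnit_of_dvd_one h), by simp⟩

lemma hasOrd_t : D.HasOrd (algebraMap D.A K D.t) 1 :=
  ⟨1, 1, fun h => D.prime.not_isUnit (isUnit_of_dvd_one h),
    fun h => D.prime.not_isUnit (isUnit_of_dvd_one h), by simp⟩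

/-- there are points on the divisor off every proper subset: Nullstellensatz -/
lemma exists_point (g : D.A) (hg : ¬ D.t ∣ g) : ∃ y : D.A →ₐ[ℂ] ℂ, y D.t = 0 ∧ y g ≠ 0 := by
  let I : Ideal D.A := Ideal.span {D.t}
  have hI : I.IsPrime := (Ideal.span_singleton_prime D.t_ne).2 D.prime
  have hft : Algebra.FiniteType ℂ D.A := D.ft
  have hft' : Algebra.FiniteType ℂ (D.A ⧸ I) :=
    Algebra.FiniteType.of_surjective (Ideal.Quotient.mkₐ ℂ I) (Ideal.Quotient.mkₐ_surjective ℂ I)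
  have hJ : IsJacobsonRing (D.A ⧸ I) := by
    have := isJacobsonRing_of_finiteType (A := ℂ) (B := D.A ⧸ I)
    exact this
  have hg' : Ideal.Quotient.mk I g ≠ 0 := by
    rw [Ne, Ideal.Quotient.eq_zero_iff_mem, Ideal.mem_span_singleton]
    exact hg
  have h1 : ∃ m : Ideal (D.A ⧸ I), m.IsMaximal ∧ Ideal.Quotient.mk I g ∉ m := by
    by_contra hcon
    push Not at hcon
    have h2 : Ideal.Quotient.mk I g ∈ (⊥ : Ideal (D.A ⧸ I)).jacobson := by
      rw [Ideal.mem_jacobson_bot]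
      intro y
      by_contra hnu
      obtain ⟨m, hm, hmem⟩ := exists_max_ideal_of_mem_nonunits hnu
      have h3 := m.sub_mem hmem (m.mul_mem_right y (hcon m hm))
      rw [add_sub_cancel_left] at h3
      exact hm.ne_top ((Ideal.eq_top_iff_one m).2 h3)
    have h4 : (⊥ : Ideal (D.A ⧸ I)).jacobson = ⊥ :=
      IsJacobsonRing.out' (⊥ : Ideal (D.A ⧸ I)) (Ideal.isRadical_bot)
    rw [h4] at h2
    exact hg' (by simpa using h2)
  obtain ⟨m, hm, hgm⟩ := h1
  have hfin : Module.Finite ℂ ((D.A ⧸ I) ⧸ m) := by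
    let _ : Field ((D.A ⧸ I) ⧸ m) := Ideal.Quotient.field m
    have : Algebra.FiniteType ℂ ((D.A ⧸ I) ⧸ m) :=
      Algebra.FiniteType.of_surjective (Ideal.Quotient.mkₐ ℂ m) (Ideal.Quotient.mkₐ_surjective ℂ m)
    exact finite_of_finite_type_of_isJacobsonRing ℂ ((D.A ⧸ I) ⧸ m)
  let _ : Field ((D.A ⧸ I) ⧸ m) := Ideal.Quotient.field m
  have hbij : Function.Bijective (algebraMap ℂ ((D.A ⧸ I) ⧸ m)) :=
    IsAlgClosed.algebraMap_bijective_of_isIntegral
  let e : ℂ ≃ₐ[ℂ] ((D.A ⧸ I) ⧸ m) :=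
    AlgEquiv.ofBijective (Algebra.ofId ℂ ((D.A ⧸ I) ⧸ m)) hbij
  refine ⟨(e.symm : ((D.A ⧸ I) ⧸ m) →ₐ[ℂ] ℂ).comp
    ((Ideal.Quotient.mkₐ ℂ m).comp (Ideal.Quotient.mkₐ ℂ I)), ?_, ?_⟩
  · have h : Ideal.Quotient.mkₐ ℂ I D.t = 0 := by
      rw [Ideal.Quotient.mkₐ_eq_mk, Ideal.Quotient.eq_zero_iff_mem]
      exact Ideal.mem_span_singleton_self _
    simp only [AlgHom.comp_apply, h, map_zero]
  · intro h
    have h1 : Ideal.Quotient.mkₐ ℂ m (Ideal.Quotient.mkₐ ℂ I g) = 0 := by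
      have h2 : e.symm (Ideal.Quotient.mkₐ ℂ m (Ideal.Quotient.mkₐ ℂ I g)) = 0 := h
      exact (map_eq_zero_iff e.symm e.symm.injective).1 h2
    rw [Ideal.Quotient.mkₐ_eq_mk, Ideal.Quotient.mkₐ_eq_mk, Ideal.Quotient.eq_zero_iff_mem] at h1
    exact hgm h1

/-- generic points of the divisor: a finite set of nonzero rational functions has its generic
order at the point -/
lemma exists_generic (F : Finset K) (hF : ∀ f ∈ F, f ≠ 0) (g : D.A) (hg : ¬ D.t ∣ g) :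
    ∃ y : D.A →ₐ[ℂ] ℂ, y D.t = 0 ∧ y g ≠ 0 ∧ ∀ f ∈ F, ∀ a, D.HasOrd f a → OrdAt y D.t f a := by
  classical
  have h1 : ∀ f : K, ∃ h : D.A, ¬ D.t ∣ h ∧ ∀ y : D.A →ₐ[ℂ] ℂ, f ∈ F → y h ≠ 0 →
      ∀ a, D.HasOrd f a → OrdAt y D.t f a := by
    intro f
    by_cases hf : f ∈ F
    · obtain ⟨a, ha⟩ := D.exists_hasOrd f (hF f hf)
      obtain ⟨u, v, hu, hv, h⟩ := ha
      refine ⟨u * v, D.not_dvd_mul hu hv, fun y _ hy a' ha' => ?_⟩
      have e : a' = a := D.hasOrd_unique ha' ⟨u, v, hu, hv, h⟩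
      subst e
      rw [map_mul] at hy
      exact ⟨u, v, left_ne_zero_of_mul hy, right_ne_zero_of_mul hy, h⟩
    · exact ⟨1, fun h => D.prime.not_isUnit (isUnit_of_dvd_one h), fun y h => absurd h hf⟩
  choose h hh hh' using h1
  have h2 : ¬ D.t ∣ g * ∏ f ∈ F, h f := by
    apply D.not_dvd_mul hg
    intro hd
    obtain ⟨f, _, hf⟩ := (D.t_prime.dvd_finsetProd_iff _).1 hd
    exact hh f hf
  obtain ⟨y, hy0, hy⟩ := D.exists_point _ h2
  rw [map_mul, map_prod] at hy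
  refine ⟨y, hy0, left_ne_zero_of_mul hy, fun f hf a ha => ?_⟩
  exact hh' f y hf (Finset.prod_ne_zero_iff.1 (right_ne_zero_of_mul hy) f hf) a ha

end DivModel

end Crest.Agent.R276.BC_986
end
end

-- ▼ part R276/BC1_986
section

/-!
Row 276, leaf BC (boundary charts at divisorial valuations), part 1: the chart.

Given a divisorial model `D` of `K/ℂ` and a domain `B` of finite type over `ℂ` with fraction field
`K`, a small polydisc `U` around a general point of the divisor `t = 0` minus `{t = 0}` is embedded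
into `Hom(B,ℂ)`.
-/

set_option autoImplicit false

open scoped Topology BigOperators
open Set Metric

noncomputable section

namespace Crest.Agent.R276.BC_986

open Crest.Agent.R271.Defs710 Crest.Agent.R271.Bd741

variable {n : ℕ} {K : Type} [Field K] [Algebra ℂ K]

/-- a boundary chart of `Hom(B,ℂ)` along the divisor of `D`.  `y` is a point of the divisor,
`C` the chart of the model at `y` (coordinates `ζ ↦ w - w(y)`, so `ζ i₀ = t`), and
`s ζ ∈ Hom(B,ℂ)` for `‖ζ‖ < r`, `ζ i₀ ≠ 0`. -/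
structure BChart (D : DivModel n K) (B : Type) [CommRing B] [Algebra ℂ B] [Algebra B K] where
  y : D.A →ₐ[ℂ] ℂ
  C : Chart D.w y
  y_t : y D.t = 0
  r : ℝ
  r_pos : 0 < r
  r_le : r ≤ C.r
  s : Cn n → (B →ₐ[ℂ] ℂ)
  q : D.A
  q_ne : ∀ ζ ∈ ball (0 : Cn n) r, ζ D.i₀ ≠ 0 → C.s ζ q ≠ 0
  q_spec : ∀ b : B, ∃ (M : ℕ) (a : D.A),
    algebraMap B K b * algebraMap D.A K q ^ M = algebraMap D.A K a
  spec : ∀ ζ ∈ ball (0 : Cn n) r, ζ D.i₀ ≠ 0 → ∀ (b : B) (u v : D.A),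
    algebraMap B K b * algebraMap D.A K v = algebraMap D.A K u → s ζ b * C.s ζ v = C.s ζ u
  inj : InjOn s (ball (0 : Cn n) r ∩ {ζ | ζ D.i₀ ≠ 0})

/-- `f = t^a G` near the point, `G` holomorphic without zeros on the whole polydisc.  In fact
`G = u₀ / v₀` with regular functions `u₀`, `v₀` without zeros on the polydisc. -/
structure Good (D : DivModel n K) {B : Type} [CommRing B] [Algebra ℂ B] [Algebra B K]
    (X : BChart D B) (f : K) (a : ℤ) (G : Cn n → ℂ) : Prop where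
  wit : ∃ u₀ v₀ : D.A, f * algebraMap D.A K v₀ = algebraMap D.A K D.t ^ a * algebraMap D.A K u₀ ∧
    ∀ ζ ∈ ball (0 : Cn n) X.r, X.C.s ζ u₀ ≠ 0 ∧ X.C.s ζ v₀ ≠ 0 ∧
      G ζ * X.C.s ζ v₀ = X.C.s ζ u₀

namespace BChart

variable {D : DivModel n K} {B : Type} [CommRing B] [Algebra ℂ B] [Algebra B K]
  (X : BChart D B)

/-- the polydisc -/
def U : Set (Cn n) := ball (0 : Cn n) X.r

/-- the polydisc minus the divisor -/
def V : Set (Cn n) := ball (0 : Cn n) X.r ∩ {ζ | ζ D.i₀ ≠ 0}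



lemma isOpen_V : IsOpen X.V :=
  isOpen_ball.inter (isOpen_ne_fun (continuous_apply _) continuous_const)

lemma ball_sub : ball (0 : Cn n) X.r ⊆ ball (0 : Cn n) X.C.r := ball_subset_ball X.r_le

lemma s_t {ζ : Cn n} (hζ : ζ ∈ ball (0 : Cn n) X.r) : X.C.s ζ D.t = ζ D.i₀ := by
  have h := X.C.s_z ζ (X.ball_sub hζ) D.i₀
  have h2 : X.y (D.w D.i₀) = 0 := X.y_t
  rw [h2, zero_add] at h
  exact h

lemma s_w {ζ : Cn n} (hζ : ζ ∈ ball (0 : Cn n) X.r) (i : Fin n) :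
    X.C.s ζ (D.w i) = X.y (D.w i) + ζ i := X.C.s_z ζ (X.ball_sub hζ) i

lemma analA (u : D.A) : AnalyticOnNhd ℂ (fun ζ => X.C.s ζ u) (ball (0 : Cn n) X.r) :=
  fun ζ hζ => X.C.anal u ζ (X.ball_sub hζ)

/-- regular functions on `Hom(B,ℂ)` are holomorphic in the chart -/
lemma anal (b : B) : AnalyticOnNhd ℂ (fun ζ => X.s ζ b) X.V := by
  intro ζ hζ
  obtain ⟨M, a, h⟩ := X.q_spec b
  have h1 : (fun ζ => X.s ζ b) =ᶠ[𝓝 ζ] fun ζ => X.C.s ζ a / (X.C.s ζ X.q) ^ M := by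
    filter_upwards [X.isOpen_V.mem_nhds hζ] with ζ' hζ'
    have h2 := X.spec ζ' hζ'.1 hζ'.2 b a (X.q ^ M) (by rw [map_pow]; exact h)
    have h3 : (X.C.s ζ' X.q) ^ M ≠ 0 := pow_ne_zero _ (X.q_ne ζ' hζ'.1 hζ'.2)
    rw [eq_div_iff h3, ← h2, map_pow]
  rw [analyticAt_congr h1]
  exact (X.analA a ζ hζ.1).div ((X.analA X.q ζ hζ.1).pow M)
    (pow_ne_zero _ (X.q_ne ζ hζ.1 hζ.2))

/-- shrink the polydisc -/
def shrink (ρ : ℝ) (hρ : 0 < ρ) (hρr : ρ ≤ X.r) : BChart D B where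
  y := X.y
  C := X.C
  y_t := X.y_t
  r := ρ
  r_pos := hρ
  r_le := hρr.trans X.r_le
  s := X.s
  q := X.q
  q_ne := fun ζ hζ => X.q_ne ζ (ball_subset_ball hρr hζ)
  q_spec := X.q_spec
  spec := fun ζ hζ => X.spec ζ (ball_subset_ball hρr hζ)
  inj := X.inj.mono (inter_subset_inter_left _ (ball_subset_ball hρr))

end BChart

namespace Good

variable {D : DivModel n K} {B : Type} [CommRing B] [Algebra ℂ B] [Algebra B K]
  {X : BChart D B} {f f' : K} {a a' : ℤ} {G G' : Cn n → ℂ}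

lemma eqG (h : Good D X f a G) : ∃ u₀ v₀ : D.A,
    f * algebraMap D.A K v₀ = algebraMap D.A K D.t ^ a * algebraMap D.A K u₀ ∧
    ∀ ζ ∈ ball (0 : Cn n) X.r, X.C.s ζ u₀ ≠ 0 ∧ X.C.s ζ v₀ ≠ 0 ∧
      G ζ = X.C.s ζ u₀ / X.C.s ζ v₀ := by
  obtain ⟨u₀, v₀, h1, h2⟩ := h.wit
  refine ⟨u₀, v₀, h1, fun ζ hζ => ?_⟩
  obtain ⟨h3, h4, h5⟩ := h2 ζ hζ
  exact ⟨h3, h4, by rw [← h5]; field_simp⟩

lemma anal (h : Good D X f a G) : AnalyticOnNhd ℂ G (ball (0 : Cn n) X.r) := by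
  obtain ⟨u₀, v₀, -, h2⟩ := h.eqG
  intro ζ hζ
  have h3 : G =ᶠ[𝓝 ζ] fun ζ => X.C.s ζ u₀ / X.C.s ζ v₀ := by
    filter_upwards [isOpen_ball.mem_nhds hζ] with ζ' hζ'
    exact (h2 ζ' hζ').2.2
  rw [analyticAt_congr h3]
  exact (X.analA u₀ ζ hζ).div (X.analA v₀ ζ hζ) (h2 ζ hζ).2.1

lemma ne (h : Good D X f a G) : ∀ ζ ∈ ball (0 : Cn n) X.r, G ζ ≠ 0 := by
  obtain ⟨u₀, v₀, -, h2⟩ := h.eqG
  intro ζ hζ
  rw [(h2 ζ hζ).2.2]
  exact div_ne_zero (h2 ζ hζ).1 (h2 ζ hζ).2.1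

lemma eqA (h : Good D X f a G) : ∀ ζ ∈ ball (0 : Cn n) X.r, ζ D.i₀ ≠ 0 → ∀ u v : D.A,
    f * algebraMap D.A K v = algebraMap D.A K u →
    X.C.s ζ u = ζ D.i₀ ^ a * G ζ * X.C.s ζ v := by
  obtain ⟨u₀, v₀, h1, h2⟩ := h.eqG
  intro ζ hζ hζ0 u v huv
  obtain ⟨e1, e2, e0⟩ := h2 ζ hζ
  have ht : X.C.s ζ D.t ≠ 0 := by rw [X.s_t hζ]; exact hζ0
  have e3 : algebraMap D.A K u * algebraMap D.A K v₀ =
      algebraMap D.A K D.t ^ a * algebraMap D.A K (u₀ * v) := by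
    rw [← huv, map_mul, ← mul_assoc (algebraMap D.A K D.t ^ a), ← h1]; ring
  have e4 := a_zpow D.inj ht D.tK_ne e3
  rw [map_mul, X.s_t hζ] at e4
  rw [e0]
  field_simp
  linear_combination e4

/-- the order is the valuation of `f` -/
lemma hasOrd (h : Good D X f a G) : D.HasOrd f a := by
  obtain ⟨u₀, v₀, h1, h2⟩ := h.eqG
  have h3 : ∀ u : D.A, X.C.s 0 u ≠ 0 → ¬ D.t ∣ u := by
    rintro u hu ⟨c, rfl⟩
    apply hu
    rw [map_mul, X.s_t (mem_ball_self X.r_pos), Pi.zero_apply, zero_mul]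
  obtain ⟨e1, e2, -⟩ := h2 0 (mem_ball_self X.r_pos)
  exact ⟨u₀, v₀, h3 u₀ e1, h3 v₀ e2, h1⟩

/-- quotients of regular functions -/
lemma eq₂ (h : Good D X f a G) {ζ : Cn n} (hζ : ζ ∈ X.V) (b₁ b₂ : B)
    (hf : f * algebraMap B K b₂ = algebraMap B K b₁) :
    X.s ζ b₁ = ζ D.i₀ ^ a * G ζ * X.s ζ b₂ := by
  obtain ⟨M₁, a₁, h₁⟩ := X.q_spec b₁
  obtain ⟨M₂, a₂, h₂⟩ := X.q_spec b₂
  have e1 := X.spec ζ hζ.1 hζ.2 b₁ (a₁ * X.q ^ M₂) (X.q ^ (M₁ + M₂)) (by
    rw [map_mul, map_pow, map_pow, pow_add, ← h₁]; ring)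
  have e2 := X.spec ζ hζ.1 hζ.2 b₂ (a₂ * X.q ^ M₁) (X.q ^ (M₁ + M₂)) (by
    rw [map_mul, map_pow, map_pow, pow_add, ← h₂]; ring)
  have e3 := h.eqA ζ hζ.1 hζ.2 (a₁ * X.q ^ M₂) (a₂ * X.q ^ M₁) (by
    rw [map_mul, map_mul, map_pow, map_pow, ← h₁, ← h₂, ← hf]; ring)
  have h3 : X.C.s ζ (X.q ^ (M₁ + M₂)) ≠ 0 := by
    rw [map_pow]; exact pow_ne_zero _ (X.q_ne ζ hζ.1 hζ.2)
  apply mul_right_cancel₀ h3
  rw [e1, e3, ← e2]; ring

/-- the value of a regular function -/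
lemma eq₁ (h : Good D X f a G) {ζ : Cn n} (hζ : ζ ∈ X.V) (b : B) (hf : algebraMap B K b = f) :
    X.s ζ b = ζ D.i₀ ^ a * G ζ := by
  have := h.eq₂ hζ b 1 (by rw [map_one, mul_one, hf])
  rwa [map_one, mul_one] at this

lemma shrink (h : Good D X f a G) (ρ : ℝ) (hρ : 0 < ρ) (hρr : ρ ≤ X.r) :
    Good D (X.shrink ρ hρ hρr) f a G := by
  obtain ⟨u₀, v₀, h1, h2⟩ := h.wit
  exact ⟨u₀, v₀, h1, fun ζ hζ => h2 ζ (ball_subset_ball hρr hζ)⟩

end Good

section exist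

variable (D : DivModel n K) {B : Type} [CommRing B] [IsDomain B] [Algebra ℂ B]
  [Algebra B K] [IsScalarTower ℂ B K] [IsFractionRing B K]

/-- finitely many rational functions are good at a point where they have their order -/
lemma eventually_good {y : D.A →ₐ[ℂ] ℂ} (C : Chart D.w y) {f : K} {a : ℤ}
    (hf : OrdAt y D.t f a) :
    ∃ G : Cn n → ℂ, ∃ ρ : ℝ, 0 < ρ ∧ ρ ≤ C.r ∧ ∃ u₀ v₀ : D.A,
      f * algebraMap D.A K v₀ = algebraMap D.A K D.t ^ a * algebraMap D.A K u₀ ∧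
      ∀ ζ ∈ ball (0 : Cn n) ρ, C.s ζ u₀ ≠ 0 ∧ C.s ζ v₀ ≠ 0 ∧ G ζ * C.s ζ v₀ = C.s ζ u₀ := by
  obtain ⟨u₀, v₀, hu₀, hv₀, h⟩ := hf
  have hcont : ∀ f : D.A, ContinuousAt (fun ζ => C.s ζ f) 0 := fun f =>
    (C.anal f 0 (mem_ball_self C.r_pos)).continuousAt
  have hs0 : ∀ f, C.s 0 f = y f := by rw [C.s_zero]; exact fun _ => rfl
  have h1 : ∀ᶠ ζ in 𝓝 (0 : Cn n), C.s ζ u₀ ≠ 0 :=
    (hcont u₀).eventually_ne (by simp only [hs0]; exact hu₀)
  have h2 : ∀ᶠ ζ in 𝓝 (0 : Cn n), C.s ζ v₀ ≠ 0 :=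
    (hcont v₀).eventually_ne (by simp only [hs0]; exact hv₀)
  obtain ⟨ρ, hρ, h3⟩ := Metric.eventually_nhds_iff_ball.1 (h1.and h2)
  refine ⟨fun ζ => C.s ζ u₀ / C.s ζ v₀, min ρ C.r, lt_min hρ C.r_pos, min_le_right _ _,
    u₀, v₀, h, ?_⟩
  intro ζ hζ
  obtain ⟨e1, e2⟩ := h3 ζ (ball_subset_ball (min_le_left _ _) hζ)
  exact ⟨e1, e2, by field_simp⟩

/-- **Existence of boundary charts** (BC1).  `F` is a finite set of nonzero elements of `K`,
`g` a function on the model which does not vanish on the divisor, `ε` arbitrary. -/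
theorem exists_bchart (hB : Algebra.FiniteType ℂ B) (F : Finset K) (hF : ∀ f ∈ F, f ≠ 0)
    (g : D.A) (hg : ¬ D.t ∣ g) (ε : ℝ) (hε : 0 < ε) :
    ∃ X : BChart D B, X.r ≤ ε ∧ (∀ ζ ∈ ball (0 : Cn n) X.r, X.C.s ζ g ≠ 0) ∧
      ∀ f ∈ F, ∃ (a : ℤ) (G : Cn n → ℂ), D.HasOrd f a ∧ Good D X f a G := by
  classical
  have hinjA := D.inj
  have hinjB : Function.Injective (algebraMap B K) := IsFractionRing.injective B K
  obtain ⟨q, hq0, hq⟩ := exists_denom (A := D.A) (B := B) K hB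
  have hqK : algebraMap D.A K q ≠ 0 := fun h => hq0 (hinjA (by rw [h, map_zero]))
  -- `w` in terms of `B`
  obtain ⟨⟨b0, hb0⟩, hb0'⟩ := IsLocalization.exist_integer_multiples_of_finite (nonZeroDivisors B)
    (fun i => algebraMap D.A K (D.w i))
  have hb00 : b0 ≠ 0 := nonZeroDivisors.ne_zero hb0
  have hcw : ∀ i, ∃ cw : B, algebraMap B K cw =
      algebraMap B K b0 * algebraMap D.A K (D.w i) := by
    intro i
    obtain ⟨cw, hcw⟩ := hb0' i
    refine ⟨cw, ?_⟩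
    rw [hcw, Algebra.smul_def]
  choose cw hcw using hcw
  obtain ⟨M0, u0, hu0⟩ := hq b0
  have hb0K : algebraMap B K b0 ≠ 0 := fun h => hb00 (hinjB (by rw [h, map_zero]))
  -- the generic point
  obtain ⟨y, hyt, hyg, hy⟩ := D.exists_generic (insert (algebraMap D.A K q)
    (insert (algebraMap B K b0) F)) (by
      intro f hf
      rcases Finset.mem_insert.1 hf with rfl | hf
      · exact hqK
      · rcases Finset.mem_insert.1 hf with rfl | hf
        · exact hb0K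
        · exact hF f hf) g hg
  obtain ⟨C⟩ := Crest.Agent.R271.Rd692.nonempty_chart D.w D.etale y
  have hcont : ∀ f : D.A, ContinuousAt (fun ζ => C.s ζ f) 0 := fun f =>
    (C.anal f 0 (mem_ball_self C.r_pos)).continuousAt
  have hs0 : ∀ f, C.s 0 f = y f := by rw [C.s_zero]; exact fun _ => rfl
  -- the elements of `insert q (insert b0 F)` are good on a common polydisc
  have hgood : ∀ f ∈ insert (algebraMap D.A K q) (insert (algebraMap B K b0) F),
      ∃ (a : ℤ) (G : Cn n → ℂ) (ρ : ℝ), D.HasOrd f a ∧ 0 < ρ ∧ ρ ≤ C.r ∧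
      ∃ u₀ v₀ : D.A, f * algebraMap D.A K v₀ = algebraMap D.A K D.t ^ a * algebraMap D.A K u₀ ∧
      ∀ ζ ∈ ball (0 : Cn n) ρ, C.s ζ u₀ ≠ 0 ∧ C.s ζ v₀ ≠ 0 ∧ G ζ * C.s ζ v₀ = C.s ζ u₀ := by
    intro f hf
    have hf0 : f ≠ 0 := by
      rcases Finset.mem_insert.1 hf with rfl | hf
      · exact hqK
      · rcases Finset.mem_insert.1 hf with rfl | hf
        · exact hb0K
        · exact hF f hf
    obtain ⟨a, ha⟩ := D.exists_hasOrd f hf0
    obtain ⟨G, ρ, h1, h2, h3⟩ := eventually_good D C (hy f hf a ha)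
    exact ⟨a, G, ρ, ha, h1, h2, h3⟩
  choose! aa GG ρρ hord hρ0 hρC uu vv huv hGeq using hgood
  obtain ⟨ρg, hρg, hρg'⟩ : ∃ ρ > 0, ∀ ζ ∈ ball (0 : Cn n) ρ, C.s ζ g ≠ 0 := by
    have h1 : ∀ᶠ ζ in 𝓝 (0 : Cn n), C.s ζ g ≠ 0 :=
      (hcont g).eventually_ne (by simp only [hs0]; exact hyg)
    exact Metric.eventually_nhds_iff_ball.1 h1
  obtain ⟨r, hr0, hrε, hrg, hrC, hrρ⟩ : ∃ r : ℝ, 0 < r ∧ r ≤ ε ∧ r ≤ ρg ∧ r ≤ C.r ∧
      ∀ f ∈ insert (algebraMap D.A K q) (insert (algebraMap B K b0) F), r ≤ ρρ f := by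
    have hne : (insert (algebraMap D.A K q) (insert (algebraMap B K b0) F)).Nonempty :=
      Finset.insert_nonempty _ _
    set r1 := (insert (algebraMap D.A K q) (insert (algebraMap B K b0) F)).inf' hne ρρ with hr1
    have h1 : 0 < r1 := by
      rw [hr1, Finset.lt_inf'_iff]
      exact hρ0
    refine ⟨min (min ε ρg) (min C.r r1), lt_min (lt_min hε hρg) (lt_min C.r_pos h1),
      (min_le_left _ _).trans (min_le_left _ _), (min_le_left _ _).trans (min_le_right _ _),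
      (min_le_right _ _).trans (min_le_left _ _), fun f hf => ?_⟩
    exact ((min_le_right _ _).trans (min_le_right _ _)).trans (Finset.inf'_le _ hf)
  have hst : ∀ ζ ∈ ball (0 : Cn n) r, C.s ζ D.t = ζ D.i₀ := by
    intro ζ hζ
    have h := C.s_z ζ (ball_subset_ball hrC hζ) D.i₀
    have h2 : y (D.w D.i₀) = 0 := hyt
    rw [h2, zero_add] at h
    exact h
  -- every element of `A` which is in the list has no zeros off `t = 0`
  have hGA : ∀ u : D.A, algebraMap D.A K u ∈ insert (algebraMap D.A K q)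
      (insert (algebraMap B K b0) F) → ∀ ζ ∈ ball (0 : Cn n) r, ζ D.i₀ ≠ 0 → C.s ζ u ≠ 0 := by
    intro u hu ζ hζ hζ0
    obtain ⟨h1, h2, -⟩ := hGeq _ hu ζ (ball_subset_ball (hrρ _ hu) hζ)
    have h3 := a_zpow D.inj (by rw [hst ζ hζ]; exact hζ0) D.tK_ne (huv _ hu)
    rw [hst ζ hζ] at h3
    intro h0
    rw [h0, zero_mul] at h3
    exact (mul_ne_zero (zpow_ne_zero _ hζ0) h1) h3.symm
  have hqne : ∀ ζ ∈ ball (0 : Cn n) r, ζ D.i₀ ≠ 0 → C.s ζ q ≠ 0 :=
    hGA q (Finset.mem_insert_self _ _)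
  -- the section
  have hex : ∀ ζ : Cn n, ∃ p : B →ₐ[ℂ] ℂ, ζ ∈ ball (0 : Cn n) r → ζ D.i₀ ≠ 0 →
      ∀ (b : B) (u v : D.A), algebraMap B K b * algebraMap D.A K v = algebraMap D.A K u →
      p b * C.s ζ v = C.s ζ u := by
    intro ζ
    by_cases h : ζ ∈ ball (0 : Cn n) r ∧ ζ D.i₀ ≠ 0
    · obtain ⟨p, hp⟩ := exists_pt hinjA q hq (C.s ζ) (hqne ζ h.1 h.2)
      exact ⟨p, fun _ _ => hp⟩
    · by_cases hne : ∃ ζ' : Cn n, ζ' ∈ ball (0 : Cn n) r ∧ ζ' D.i₀ ≠ 0
      · obtain ⟨ζ', h1, h2⟩ := hne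
        obtain ⟨p, hp⟩ := exists_pt hinjA q hq (C.s ζ') (hqne ζ' h1 h2)
        exact ⟨p, fun h1 h2 => absurd ⟨h1, h2⟩ h⟩
      · exfalso
        apply hne
        refine ⟨Pi.single D.i₀ (r / 2 : ℝ), ?_, ?_⟩
        · rw [mem_ball_zero_iff, Pi.norm_single]
          simp only [Complex.norm_real, Real.norm_eq_abs]
          rw [abs_of_pos (by positivity)]
          linarith
        · rw [Pi.single_eq_same]
          simp [hr0.ne']
  choose s' hs' using hex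
  -- injectivity
  have hinj : InjOn s' (ball (0 : Cn n) r ∩ {ζ | ζ D.i₀ ≠ 0}) := by
    intro ζ hζ ζ' hζ' heq
    have key : ∀ ζ ∈ ball (0 : Cn n) r ∩ {ζ : Cn n | ζ D.i₀ ≠ 0},
        s' ζ b0 ≠ 0 ∧ ∀ i, s' ζ (cw i) = s' ζ b0 * C.s ζ (D.w i) := by
      intro ζ hζ
      have h2 := hqne ζ hζ.1 hζ.2
      have e1 := hs' ζ hζ.1 hζ.2 b0 u0 (q ^ M0) (by rw [map_pow]; exact hu0)
      have hb : s' ζ b0 ≠ 0 := by
        intro h
        rw [h, zero_mul] at e1
        have hmem : algebraMap B K b0 ∈ insert (algebraMap D.A K q)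
          (insert (algebraMap B K b0) F) :=
          Finset.mem_insert_of_mem (Finset.mem_insert_self _ _)
        obtain ⟨g1, g2, -⟩ := hGeq _ hmem ζ (ball_subset_ball (hrρ _ hmem) hζ.1)
        have h3 : algebraMap D.A K u0 * algebraMap D.A K (vv (algebraMap B K b0)) =
            algebraMap D.A K D.t ^ aa (algebraMap B K b0) *
              algebraMap D.A K (uu (algebraMap B K b0) * q ^ M0) := by
          rw [map_mul, ← mul_assoc, ← huv _ hmem, ← hu0, map_pow]; ring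
        have h4 := a_zpow D.inj (by rw [hst ζ hζ.1]; exact hζ.2) D.tK_ne h3
        rw [← e1, zero_mul, map_mul, map_pow] at h4
        refine absurd h4.symm (mul_ne_zero (zpow_ne_zero _ ?_) (mul_ne_zero g1 (pow_ne_zero _ h2)))
        rw [hst ζ hζ.1]; exact hζ.2
      refine ⟨hb, fun i => ?_⟩
      have e2 := hs' ζ hζ.1 hζ.2 (cw i) (u0 * D.w i) (q ^ M0) (by
        rw [hcw, map_pow, map_mul, ← hu0]; ring)
      rw [map_mul, ← e1, map_pow] at e2
      have hqp : (C.s ζ q) ^ M0 ≠ 0 := pow_ne_zero _ h2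
      have : s' ζ (cw i) * (C.s ζ q) ^ M0 =
          (s' ζ b0 * C.s ζ (D.w i)) * (C.s ζ q) ^ M0 := by
        rw [e2]; ring
      exact mul_right_cancel₀ hqp this
    obtain ⟨k1, k2⟩ := key ζ hζ
    obtain ⟨k1', k2'⟩ := key ζ' hζ'
    funext i
    have e1 := k2 i
    have e2 := k2' i
    rw [← heq, e1] at e2
    have e3 := mul_left_cancel₀ k1 e2
    rw [C.s_z ζ (ball_subset_ball hrC hζ.1) i, C.s_z ζ' (ball_subset_ball hrC hζ'.1) i] at e3
    exact add_left_cancel e3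
  let X : BChart D B :=
    { y := y, C := C, y_t := hyt, r := r, r_pos := hr0, r_le := hrC, s := s', q := q,
      q_ne := hqne, q_spec := hq, spec := hs', inj := hinj }
  refine ⟨X, hrε, fun ζ hζ => hρg' ζ (ball_subset_ball hrg hζ), fun f hf => ?_⟩
  have hf' : f ∈ insert (algebraMap D.A K q) (insert (algebraMap B K b0) F) :=
    Finset.mem_insert_of_mem (Finset.mem_insert_of_mem hf)
  exact ⟨aa f, GG f, hord f hf', ⟨uu f, vv f, huv f hf', fun ζ hζ =>
    hGeq f hf' ζ (ball_subset_ball (hrρ f hf') hζ)⟩⟩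

end exist

end Crest.Agent.R276.BC_986
end
end

-- ▼ part R276/BC2_986

/-!
Row 276, leaf BC (boundary charts at divisorial valuations), part 2: values of rational functions,
derivatives and the Jacobian of a boundary chart.
-/

set_option autoImplicit false

open scoped Topology BigOperators
open Set Metric

noncomputable section

namespace Crest.Agent.R276.BC_986

open Crest.Agent.R271.Defs710 Crest.Agent.R271.Bd741

section isval

variable {A K : Type} [CommRing A] [Algebra ℂ A] [Field K] [Algebra A K]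

/-- `c` is the value at the point `p ∈ Hom(A,ℂ)` of the rational function `f`, which is regular
at `p` -/
def IsVal (p : A →ₐ[ℂ] ℂ) (f : K) (c : ℂ) : Prop :=
  ∃ u v : A, p v ≠ 0 ∧ f * algebraMap A K v = algebraMap A K u ∧ c * p v = p u

variable {p : A →ₐ[ℂ] ℂ} {f g : K} {c d : ℂ}

lemma IsVal.eq_of (hinj : Function.Injective (algebraMap A K)) (h : IsVal p f c) (u v : A)
    (huv : f * algebraMap A K v = algebraMap A K u) : c * p v = p u := by
  obtain ⟨u', v', h1, h2, h3⟩ := h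
  have h4 : u * v' = u' * v := hinj (by rw [map_mul, map_mul, ← huv, ← h2]; ring)
  have h5 : p u * p v' = p u' * p v := by rw [← map_mul, h4, map_mul]
  apply mul_right_cancel₀ h1
  rw [h5, ← h3]; ring

lemma IsVal.unique (hinj : Function.Injective (algebraMap A K)) (h : IsVal p f c)
    (h' : IsVal p f d) : c = d := by
  obtain ⟨u', v', h1, h2, h3⟩ := h'
  have h4 := h.eq_of hinj u' v' h2
  exact mul_right_cancel₀ h1 (h4.trans h3.symm)

lemma isVal_algebraMap (u : A) : IsVal (K := K) p (algebraMap A K u) (p u) :=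
  ⟨u, 1, by simp, by simp, by simp⟩

lemma isVal_zero : IsVal (K := K) p 0 0 := by
  simpa using isVal_algebraMap (K := K) (p := p) 0

lemma isVal_one : IsVal (K := K) p 1 1 := by
  simpa using isVal_algebraMap (K := K) (p := p) 1

lemma isVal_intCast (m : ℤ) : IsVal (K := K) p (m : K) (m : ℂ) := by
  simpa using isVal_algebraMap (K := K) (p := p) (m : A)

lemma IsVal.add (hf : IsVal p f c) (hg : IsVal p g d) : IsVal p (f + g) (c + d) := by
  obtain ⟨u, v, h1, h2, h3⟩ := hf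
  obtain ⟨u', v', h1', h2', h3'⟩ := hg
  refine ⟨u * v' + u' * v, v * v', ?_, ?_, ?_⟩
  · rw [map_mul]; exact mul_ne_zero h1 h1'
  · rw [map_add, map_mul, map_mul, map_mul, ← h2, ← h2']; ring
  · rw [map_add, map_mul, map_mul, map_mul, ← h3, ← h3']; ring

lemma IsVal.mul (hf : IsVal p f c) (hg : IsVal p g d) : IsVal p (f * g) (c * d) := by
  obtain ⟨u, v, h1, h2, h3⟩ := hf
  obtain ⟨u', v', h1', h2', h3'⟩ := hg
  refine ⟨u * u', v * v', ?_, ?_, ?_⟩
  · rw [map_mul]; exact mul_ne_zero h1 h1'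
  · rw [map_mul, map_mul, ← h2, ← h2']; ring
  · rw [map_mul, map_mul, ← h3, ← h3']; ring

lemma IsVal.neg (hf : IsVal p f c) : IsVal p (-f) (-c) := by
  obtain ⟨u, v, h1, h2, h3⟩ := hf
  exact ⟨-u, v, h1, by rw [map_neg, ← h2]; ring, by rw [map_neg, ← h3]; ring⟩

lemma IsVal.sub (hf : IsVal p f c) (hg : IsVal p g d) : IsVal p (f - g) (c - d) := by
  rw [sub_eq_add_neg, sub_eq_add_neg]
  exact hf.add hg.neg

lemma IsVal.pow (hf : IsVal p f c) (k : ℕ) : IsVal p (f ^ k) (c ^ k) := by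
  induction k with
  | zero => simpa using isVal_one
  | succ k ih => rw [pow_succ, pow_succ]; exact ih.mul hf

lemma IsVal.inv (hinj : Function.Injective (algebraMap A K)) (hf : IsVal p f c) (hc : c ≠ 0) :
    IsVal p f⁻¹ c⁻¹ := by
  obtain ⟨u, v, h1, h2, h3⟩ := hf
  have hu : p u ≠ 0 := by rw [← h3]; exact mul_ne_zero hc h1
  have hu0 : algebraMap A K u ≠ 0 := by
    intro h
    have : u = 0 := hinj (by rw [h, map_zero])
    rw [this, map_zero] at hu
    exact hu rfl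
  have hf0 : f ≠ 0 := by
    rintro rfl
    rw [zero_mul] at h2
    exact hu0 h2.symm
  refine ⟨v, u, hu, ?_, ?_⟩
  · rw [← h2]; field_simp
  · rw [← h3]; field_simp

lemma IsVal.sum {ι : Type*} (s : Finset ι) {f : ι → K} {c : ι → ℂ}
    (h : ∀ i ∈ s, IsVal p (f i) (c i)) : IsVal p (∑ i ∈ s, f i) (∑ i ∈ s, c i) := by
  classical
  induction s using Finset.induction_on with
  | empty => simpa using isVal_zero
  | insert a s ha ih =>
    rw [Finset.sum_insert ha, Finset.sum_insert ha]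
    exact (h a (by simp)).add (ih fun i hi => h i (by simp [hi]))

lemma IsVal.prod {ι : Type*} (s : Finset ι) {f : ι → K} {c : ι → ℂ}
    (h : ∀ i ∈ s, IsVal p (f i) (c i)) : IsVal p (∏ i ∈ s, f i) (∏ i ∈ s, c i) := by
  classical
  induction s using Finset.induction_on with
  | empty => simpa using isVal_one
  | insert a s ha ih =>
    rw [Finset.prod_insert ha, Finset.prod_insert ha]
    exact (h a (by simp)).mul (ih fun i hi => h i (by simp [hi]))

lemma IsVal.det {m : Type*} [Fintype m] [DecidableEq m] {M : Matrix m m K} {N : Matrix m m ℂ}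
    (h : ∀ i j, IsVal p (M i j) (N i j)) : IsVal p M.det N.det := by
  rw [Matrix.det_apply', Matrix.det_apply']
  exact IsVal.sum _ fun σ _ => (isVal_intCast _).mul (IsVal.prod _ fun i _ => h _ _)

end isval

variable {n : ℕ} {K : Type} [Field K] [Algebra ℂ K]

section deriv

lemma DivModel.exists_basis (D : DivModel n K) : ∃ b : Module.Basis (Fin n) K (Ω[K⁄ℂ]),
    ∀ j, b j = KaehlerDifferential.D ℂ K (algebraMap D.A K (D.w j)) := by
  have h1 := (Crest.Agent.R271.Bs960.ECoord.fe (w := D.w) D.etale)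
  have h2 := h1.loc (S := D.A) (T := K) (nonZeroDivisors D.A)
  exact Crest.Agent.R271.Bs960.exists_basis_of_formallyEtale _ h2

/-- the basis `dw` of `Ω[K/ℂ]` -/
def DivModel.dw (D : DivModel n K) : Module.Basis (Fin n) K (Ω[K⁄ℂ]) := D.exists_basis.choose

lemma DivModel.dw_apply (D : DivModel n K) (j : Fin n) :
    D.dw j = KaehlerDifferential.D ℂ K (algebraMap D.A K (D.w j)) := D.exists_basis.choose_spec j

variable {D : DivModel n K}

/-- derivatives of functions which are values of a rational function -/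
theorem isVal_fderiv {y : D.A →ₐ[ℂ] ℂ} (C : Chart D.w y) {f : K} {g : Cn n → ℂ} {ζ : Cn n}
    (hζ : ζ ∈ ball (0 : Cn n) C.r) (h : ∀ᶠ ζ' in 𝓝 ζ, IsVal (C.s ζ') f (g ζ')) :
    AnalyticAt ℂ g ζ ∧ ∀ j, IsVal (C.s ζ) (D.dw.repr (KaehlerDifferential.D ℂ K f) j)
      (fderiv ℂ g ζ (Pi.single j 1)) := by
  obtain ⟨Δ, hΔ⟩ := exists_coord_deriv D.w D.etale
  obtain ⟨u, v, h1, h2, h3⟩ := h.self_of_nhds
  have hv : ∀ᶠ ζ' in 𝓝 ζ, C.s ζ' v ≠ 0 := (C.anal v ζ hζ).continuousAt.eventually_ne h1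
  have hgu : (fun ζ' => C.s ζ' u) =ᶠ[𝓝 ζ] fun ζ' => g ζ' * C.s ζ' v := by
    filter_upwards [h] with ζ' hζ'
    exact (hζ'.eq_of D.inj u v h2).symm
  have hg : g =ᶠ[𝓝 ζ] fun ζ' => C.s ζ' u / C.s ζ' v := by
    filter_upwards [hgu, hv] with ζ' e1 e2
    rw [e1]; field_simp
  have hga : AnalyticAt ℂ g ζ := by
    rw [analyticAt_congr hg]
    exact (C.anal u ζ hζ).div (C.anal v ζ hζ) h1
  refine ⟨hga, fun j => ?_⟩
  have hvK : algebraMap D.A K v ≠ 0 := by
    intro h0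
    have : v = 0 := D.inj (by rw [h0, map_zero])
    rw [this, map_zero] at h1
    exact h1 rfl
  have hrep : ∀ a : D.A, D.dw.repr (KaehlerDifferential.D ℂ K (algebraMap D.A K a)) j =
      algebraMap D.A K (Δ j a) := by
    intro a
    rw [D_K (K := K) D.w D.etale Δ hΔ a]
    have : ∑ j, algebraMap D.A K (Δ j a) • KaehlerDifferential.D ℂ K (algebraMap D.A K (D.w j)) =
      ∑ j, algebraMap D.A K (Δ j a) • D.dw j := by
      refine Finset.sum_congr rfl fun i _ => ?_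
      rw [D.dw_apply]
    rw [this, Module.Basis.repr_sum_self]
  -- the algebraic derivative
  have e1 : D.dw.repr (KaehlerDifferential.D ℂ K f) j * algebraMap D.A K v ^ 2 =
      algebraMap D.A K (v * Δ j u - u * Δ j v) := by
    have e2 := congrArg (KaehlerDifferential.D ℂ K) h2
    rw [Derivation.leibniz] at e2
    have e3 := congrArg (fun x => D.dw.repr x j) e2
    simp only [map_add, map_smul, Finsupp.add_apply, Finsupp.smul_apply, smul_eq_mul, hrep] at e3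
    rw [map_sub, map_mul, map_mul, ← e3, ← h2]
    ring
  -- the analytic derivative
  have d1 := chart_deriv D.w D.etale Δ hΔ C ζ hζ j u
  have d2 := chart_deriv D.w D.etale Δ hΔ C ζ hζ j v
  rw [hgu.fderiv_eq, fderiv_fun_mul hga.differentiableAt (C.anal v ζ hζ).differentiableAt] at d1
  simp only [_root_.add_apply, _root_.smul_apply, smul_eq_mul, d2] at d1
  refine ⟨v * Δ j u - u * Δ j v, v ^ 2, ?_, ?_, ?_⟩
  · rw [map_pow]; exact pow_ne_zero _ h1
  · rw [map_pow]; exact e1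
  · rw [map_pow, map_sub, map_mul, map_mul, ← d1, ← h3]
    ring

end deriv

namespace BChart

variable {D : DivModel n K} {B : Type} [CommRing B] [Algebra ℂ B] [Algebra B K]
  (X : BChart D B)

lemma isVal_s {ζ : Cn n} (hζ : ζ ∈ X.V) (b : B) :
    IsVal (X.C.s ζ) (algebraMap B K b) (X.s ζ b) := by
  obtain ⟨M, a, h⟩ := X.q_spec b
  refine ⟨a, X.q ^ M, ?_, by rw [map_pow]; exact h, ?_⟩
  · rw [map_pow]; exact pow_ne_zero _ (X.q_ne ζ hζ.1 hζ.2)
  · exact X.spec ζ hζ.1 hζ.2 b a (X.q ^ M) (by rw [map_pow]; exact h)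

lemma isVal_good {f : K} {a : ℤ} {G : Cn n → ℂ} (hf : Good D X f a G) {ζ : Cn n} (hζ : ζ ∈ X.V) :
    IsVal (X.C.s ζ) f (ζ D.i₀ ^ a * G ζ) := by
  obtain ⟨u₀, v₀, h1, h2⟩ := hf.wit
  obtain ⟨e1, e2, e3⟩ := h2 ζ hζ.1
  have ht : X.C.s ζ D.t = ζ D.i₀ := X.s_t hζ.1
  have ht0 : ζ D.i₀ ≠ 0 := hζ.2
  obtain ⟨N, hN | hN⟩ := Int.eq_nat_or_neg a
  · refine ⟨D.t ^ N * u₀, v₀, e2, ?_, ?_⟩
    · rw [h1, hN, zpow_natCast, map_mul, map_pow]
    · rw [map_mul, map_pow, ht, ← e3, hN, zpow_natCast]; ring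
  · refine ⟨u₀, D.t ^ N * v₀, ?_, ?_, ?_⟩
    · rw [map_mul, map_pow, ht]
      exact mul_ne_zero (pow_ne_zero _ ht0) e2
    · have htK := D.tK_ne
      rw [map_mul, map_pow]
      calc f * (algebraMap D.A K D.t ^ N * algebraMap D.A K v₀)
          = algebraMap D.A K D.t ^ N * (f * algebraMap D.A K v₀) := by ring
        _ = algebraMap D.A K u₀ := by
          rw [h1, hN, zpow_neg, zpow_natCast]; field_simp
    · rw [map_mul, map_pow, ht, ← e3, hN, zpow_neg, zpow_natCast]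
      field_simp


/-- derivatives of the regular functions of `B` in the chart -/
lemma isVal_fderiv_s {ζ : Cn n} (hζ : ζ ∈ X.V) (b : B) (j : Fin n) :
    IsVal (X.C.s ζ) (D.dw.repr (KaehlerDifferential.D ℂ K (algebraMap B K b)) j)
      (fderiv ℂ (fun ζ => X.s ζ b) ζ (Pi.single j 1)) := by
  refine (isVal_fderiv X.C (X.ball_sub hζ.1) ?_).2 j
  filter_upwards [X.isOpen_V.mem_nhds hζ] with ζ' hζ'
  exact X.isVal_s hζ' b

/-- the chart followed by the coordinates of `Hom(B,ℂ)` -/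
def ψ (z : Fin n → B) (ζ : Cn n) : Cn n := fun i => X.s ζ (z i)

lemma analyticAt_ψ (z : Fin n → B) {ζ : Cn n} (hζ : ζ ∈ X.V) : AnalyticAt ℂ (X.ψ z) ζ :=
  analyticAt_pi_iff.2 fun i => X.anal (z i) ζ hζ

lemma hasStrictFDerivAt_ψ (z : Fin n → B) {ζ : Cn n} (hζ : ζ ∈ X.V) :
    HasStrictFDerivAt (X.ψ z) (fderiv ℂ (X.ψ z) ζ) ζ := (X.analyticAt_ψ z hζ).hasStrictFDerivAt

lemma fderiv_ψ_apply (z : Fin n → B) {ζ : Cn n} (hζ : ζ ∈ X.V) (v : Cn n) (i : Fin n) :
    fderiv ℂ (X.ψ z) ζ v i = fderiv ℂ (fun ζ => X.s ζ (z i)) ζ v := by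
  have h1 : HasFDerivAt (X.ψ z) (fderiv ℂ (X.ψ z) ζ) ζ :=
    (X.analyticAt_ψ z hζ).differentiableAt.hasFDerivAt
  have h2 := (hasFDerivAt_pi'.1 h1) i
  have h3 := h2.fderiv
  have h4 : (fun x => X.ψ z x i) = fun ζ => X.s ζ (z i) := rfl
  rw [h4] at h3
  rw [h3]
  rfl

/-- **the Jacobian of the chart** is the value of the change of bases of differential forms -/
theorem isVal_det (z : Fin n → B) (b : Fin n → Ω[K⁄ℂ])
    (hb : ∀ j, b j = KaehlerDifferential.D ℂ K (algebraMap B K (z j))) {ζ : Cn n} (hζ : ζ ∈ X.V) :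
    IsVal (X.C.s ζ) (D.dw.toMatrix b).det (fderiv ℂ (X.ψ z) ζ).det := by
  have e1 : (fderiv ℂ (X.ψ z) ζ).det =
      (LinearMap.toMatrix' (fderiv ℂ (X.ψ z) ζ : Cn n →ₗ[ℂ] Cn n)).transpose.det := by
    rw [Matrix.det_transpose, ContinuousLinearMap.det, ← LinearMap.det_toMatrix']
  rw [e1]
  apply IsVal.det
  intro j i
  rw [Module.Basis.toMatrix_apply, hb, Matrix.transpose_apply, LinearMap.toMatrix'_apply]
  have h := X.isVal_fderiv_s hζ (z i) j
  rw [← X.fderiv_ψ_apply z hζ] at h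
  simpa using h

/-- the Jacobian as `t^c` times a unit -/
theorem det_eq (z : Fin n → B) (b : Fin n → Ω[K⁄ℂ])
    (hb : ∀ j, b j = KaehlerDifferential.D ℂ K (algebraMap B K (z j))) {c : ℤ} {G : Cn n → ℂ}
    (hG : Good D X (D.dw.toMatrix b).det c G) {ζ : Cn n} (hζ : ζ ∈ X.V) :
    (fderiv ℂ (X.ψ z) ζ).det = ζ D.i₀ ^ c * G ζ :=
  (X.isVal_det z b hb hζ).unique D.inj (X.isVal_good hG hζ)

theorem det_ne (z : Fin n → B) (b : Fin n → Ω[K⁄ℂ])
    (hb : ∀ j, b j = KaehlerDifferential.D ℂ K (algebraMap B K (z j))) {c : ℤ} {G : Cn n → ℂ}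
    (hG : Good D X (D.dw.toMatrix b).det c G) {ζ : Cn n} (hζ : ζ ∈ X.V) :
    (fderiv ℂ (X.ψ z) ζ).det ≠ 0 := by
  rw [X.det_eq z b hb hG hζ]
  exact mul_ne_zero (zpow_ne_zero _ hζ.2) (hG.ne ζ hζ.1)

end BChart

end Crest.Agent.R276.BC_986
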