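import Mathlib
import Crest.Agent.R276.BC2_986
import Crest.Agent.R271.Rd7_692

/-!
Row 276, leaf BC (boundary charts at divisorial valuations), part 3: topology, change of
variables, `L²` criterion.
-/

set_option autoImplicit false

open scoped Topology BigOperators ENNReal
open Set Metric MeasureTheory

noncomputable section

namespace Crest.Agent.R276.BC_986

open Crest.Agent.R271.Defs710 Crest.Agent.R271.Bd741
open Crest.Agent.R271.Rd692 (Pt pr)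

variable {n : ℕ} {K : Type} [Field K] [Algebra ℂ K]

namespace BChart

variable {D : DivModel n K} {B : Type} [CommRing B] [Algebra ℂ B] [Algebra B K]
  (X : BChart D B)

lemma continuousOn_s : ContinuousOn (X.s : Cn n → Pt B) X.V := by
  rw [Crest.Agent.R271.Rd692.continuousOn_iff_ev]
  intro b ζ hζ
  exact (X.anal b ζ hζ).continuousAt.continuousWithinAt

lemma continuousAt_s {ζ : Cn n} (hζ : ζ ∈ X.V) : ContinuousAt (X.s : Cn n → Pt B) ζ :=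
  X.continuousOn_s.continuousAt (X.isOpen_V.mem_nhds hζ)




/-- change of variables, lower bound -/
theorem lintM_ge (z : Fin n → B) (b : Fin n → Ω[K⁄ℂ])
    (hb : ∀ j, b j = KaehlerDifferential.D ℂ K (algebraMap B K (z j))) {c : ℤ} {G : Cn n → ℂ}
    (hG : Good D X (D.dw.toMatrix b).det c G) (g : (B →ₐ[ℂ] ℂ) → ℝ≥0∞) :
    ∫⁻ ζ in X.V, g (X.s ζ) * ENNReal.ofReal (‖(fderiv ℂ (X.ψ z) ζ).det‖ ^ 2) ≤ lintM z g :=
  Crest.Agent.R271.Bd741.lintM_ge z X.V X.isOpen_V X.s X.inj (fun ζ => fderiv ℂ (X.ψ z) ζ)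
    (fun _ hζ => X.hasStrictFDerivAt_ψ z hζ) (fun _ hζ => X.det_ne z b hb hG hζ) g

end BChart

/-- `∫ |ζ_i|^{2E} = ∞` near `0` minus the hyperplane if `E ≤ -1` -/
lemma lintegral_zpow_top {i : Fin n} {r : ℝ} (hr : 0 < r) (hr1 : r ≤ 1) {E : ℤ} (hE : E ≤ -1) :
    ∫⁻ ζ in ball (0 : Cn n) r ∩ {ζ | ζ i ≠ 0}, ENNReal.ofReal ((‖ζ i‖ ^ E) ^ 2) = ∞ := by
  have h1 := not_integrable_zero (n := n) (fun ζ => ζ i) (fun ζ => ζ i)
    ((ContinuousLinearMap.proj (R := ℂ) (φ := fun _ : Fin n => ℂ) i).analyticAt 0)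
    ((ContinuousLinearMap.proj (R := ℂ) (φ := fun _ : Fin n => ℂ) i).analyticAt 0) rfl ?_
    (Filter.Eventually.of_forall fun ζ h => h) (ball (0 : Cn n) r) (ball_mem_nhds _ hr)
  · rw [eq_top_iff, ← h1]
    have hm : MeasurableSet (ball (0 : Cn n) r ∩ {ζ | ζ i ≠ 0}) :=
      (isOpen_ball.inter (isOpen_ne_fun (continuous_apply _) continuous_const)).measurableSet
    refine setLIntegral_mono' hm fun ζ hζ => ?_
    have h0 : 0 < ‖ζ i‖ := norm_pos_iff.2 hζ.2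
    have h2 : ‖ζ i‖ ≤ 1 := by
      have := norm_le_pi_norm ζ i
      have h3 := hζ.1
      rw [mem_ball_zero_iff] at h3
      linarith
    rw [← ENNReal.ofReal_inv_of_pos (by positivity)]
    apply ENNReal.ofReal_le_ofReal
    rw [← inv_pow]
    apply pow_le_pow_left₀ (by positivity)
    rw [← zpow_neg_one]
    exact zpow_le_zpow_right_of_le_one₀ h0 h2 hE
  · intro h
    obtain ⟨ε, hε, h2⟩ := Metric.eventually_nhds_iff_ball.1 h
    have h3 := h2 (Pi.single i ((ε / 2 : ℝ) : ℂ)) (by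
      rw [mem_ball_zero_iff, Pi.norm_single]
      simp only [Complex.norm_real, Real.norm_eq_abs]
      rw [abs_of_pos (by positivity)]
      linarith)
    rw [Pi.single_eq_same] at h3
    have : (ε / 2 : ℝ) = 0 := by exact_mod_cast h3
    linarith

namespace Good

variable {D : DivModel n K} {B : Type} [CommRing B] [Algebra ℂ B] [Algebra B K]
  {X : BChart D B} {f : K} {a : ℤ} {G : Cn n → ℂ}

/-- lower bound on the half polydisc -/
lemma exists_lower (h : Good D X f a G) : ∃ c : ℝ, 0 < c ∧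
    ∀ ζ ∈ ball (0 : Cn n) (X.r / 2), c ≤ ‖G ζ‖ := by
  have hr := X.r_pos
  have hsub : closedBall (0 : Cn n) (X.r / 2) ⊆ ball (0 : Cn n) X.r :=
    closedBall_subset_ball (by linarith)
  have hc : ContinuousOn (fun ζ => ‖G ζ‖) (closedBall (0 : Cn n) (X.r / 2)) := fun ζ hζ =>
    (h.anal ζ (hsub hζ)).continuousAt.norm.continuousWithinAt
  obtain ⟨ζ₀, hζ₀, hmin⟩ := (isCompact_closedBall (0 : Cn n) (X.r / 2)).exists_isMinOn
    ⟨0, mem_closedBall_self (by linarith)⟩ hc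
  refine ⟨‖G ζ₀‖, norm_pos_iff.2 (h.ne ζ₀ (hsub hζ₀)), fun ζ hζ => ?_⟩
  exact hmin (ball_subset_closedBall hζ)

/-- upper bound on the half polydisc -/
lemma exists_upper (h : Good D X f a G) : ∃ c : ℝ, 0 < c ∧
    ∀ ζ ∈ ball (0 : Cn n) (X.r / 2), ‖G ζ‖ ≤ c := by
  have hr := X.r_pos
  have hsub : closedBall (0 : Cn n) (X.r / 2) ⊆ ball (0 : Cn n) X.r :=
    closedBall_subset_ball (by linarith)
  have hc : ContinuousOn (fun ζ => ‖G ζ‖) (closedBall (0 : Cn n) (X.r / 2)) := fun ζ hζ =>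
    (h.anal ζ (hsub hζ)).continuousAt.norm.continuousWithinAt
  obtain ⟨ζ₀, hζ₀, hmax⟩ := (isCompact_closedBall (0 : Cn n) (X.r / 2)).exists_isMaxOn
    ⟨0, mem_closedBall_self (by linarith)⟩ hc
  refine ⟨‖G ζ₀‖, norm_pos_iff.2 (h.ne ζ₀ (hsub hζ₀)), fun ζ hζ => ?_⟩
  exact hmax (ball_subset_closedBall hζ)

end Good

/-- **`L²` criterion of regularity**: `f (dz)^m` is square integrable near a general point of the
divisor, for a weight `w` which is `≥ const` in the frame of `(m-1)K` of the boundary chart: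
`w ∘ s ≥ c ‖J‖^{2(m-1)}`.  Then `f (dz)^m` is regular along the divisor. -/
theorem ord_nonneg_of_lintM {D : DivModel n K} {B : Type} [CommRing B] [Algebra ℂ B]
    [Algebra B K] (X : BChart D B) (z : Fin n → B) (b : Fin n → Ω[K⁄ℂ])
    (hb : ∀ j, b j = KaehlerDifferential.D ℂ K (algebraMap B K (z j))) {c : ℤ} {GJ : Cn n → ℂ}
    (hJ : Good D X (D.dw.toMatrix b).det c GJ) (F : B) {a : ℤ} {G : Cn n → ℂ}
    (hF : Good D X (algebraMap B K F) a G) (m : ℤ) (w : (B →ₐ[ℂ] ℂ) → ℝ≥0∞) (κ : ℝ) (hκ : 0 < κ)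
    (hw : ∀ ζ ∈ X.V, ENNReal.ofReal (κ * (‖(fderiv ℂ (X.ψ z) ζ).det‖ ^ (m - 1)) ^ 2) ≤ w (X.s ζ))
    (hfin : lintM z (fun y => ENNReal.ofReal (‖y F‖ ^ 2) * w y) < ∞) :
    0 ≤ a + m * c := by
  by_contra hneg
  have hE : a + m * c ≤ -1 := by omega
  obtain ⟨cG, hcG, hcG'⟩ := hF.exists_lower
  obtain ⟨cJ, hcJ, hcJ'⟩ := hJ.exists_lower
  obtain ⟨CJ, hCJ, hCJ'⟩ := hJ.exists_upper
  have hr := X.r_pos
  -- lower bound for `‖GJ‖ ^ m`
  obtain ⟨d, hd, hd'⟩ : ∃ d : ℝ, 0 < d ∧ ∀ ζ ∈ ball (0 : Cn n) (X.r / 2), d ≤ ‖GJ ζ‖ ^ m := by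
    rcases le_total 0 m with hm | hm
    · obtain ⟨k, rfl⟩ := Int.eq_ofNat_of_zero_le hm
      refine ⟨cJ ^ k, by positivity, fun ζ hζ => ?_⟩
      rw [zpow_natCast]
      exact pow_le_pow_left₀ hcJ.le (hcJ' ζ hζ) k
    · obtain ⟨k, hk⟩ := Int.eq_ofNat_of_zero_le (neg_nonneg.2 hm)
      have hm' : m = -(k : ℤ) := by omega
      subst hm'
      refine ⟨(CJ ^ k)⁻¹, by positivity, fun ζ hζ => ?_⟩
      rw [zpow_neg, zpow_natCast]
      have h0 : 0 < ‖GJ ζ‖ := hcJ.trans_le (hcJ' ζ hζ)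
      exact inv_anti₀ (by positivity) (pow_le_pow_left₀ h0.le (hCJ' ζ hζ) k)
  set ρ : ℝ := min (X.r / 2) 1 with hρ
  have hρ0 : 0 < ρ := lt_min (by linarith) one_pos
  have hsub : ball (0 : Cn n) ρ ⊆ ball (0 : Cn n) (X.r / 2) :=
    ball_subset_ball (min_le_left _ _)
  have hsub' : ball (0 : Cn n) ρ ⊆ ball (0 : Cn n) X.r :=
    hsub.trans (ball_subset_ball (by linarith))
  have hWV : ball (0 : Cn n) ρ ∩ {ζ | ζ D.i₀ ≠ 0} ⊆ X.V := inter_subset_inter_left _ hsub'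
  have hm : MeasurableSet (ball (0 : Cn n) ρ ∩ {ζ | ζ D.i₀ ≠ 0}) :=
    (isOpen_ball.inter (isOpen_ne_fun (continuous_apply _) continuous_const)).measurableSet
  have h1 : ENNReal.ofReal (κ * (cG * d) ^ 2) * ∞ ≤
      lintM z (fun y => ENNReal.ofReal (‖y F‖ ^ 2) * w y) := by
    rw [← lintegral_zpow_top (n := n) (i := D.i₀) hρ0 (min_le_right _ _) hE,
      ← lintegral_const_mul' _ _ ENNReal.ofReal_ne_top]
    refine le_trans ?_ (X.lintM_ge z b hb hJ _)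
    refine le_trans ?_ (lintegral_mono_set hWV)
    refine setLIntegral_mono' hm fun ζ hζ => ?_
    have hζV := hWV hζ
    have hζh := hsub hζ.1
    have ht : 0 < ‖ζ D.i₀‖ := norm_pos_iff.2 hζ.2
    have e1 : X.s ζ F = ζ D.i₀ ^ a * G ζ := hF.eq₁ hζV F rfl
    have e2 := X.det_eq z b hb hJ hζV
    have hJ0 : 0 < ‖(fderiv ℂ (X.ψ z) ζ).det‖ := norm_pos_iff.2 (X.det_ne z b hb hJ hζV)
    have hGJ0 : 0 < ‖GJ ζ‖ := norm_pos_iff.2 (hJ.ne ζ (hsub' hζ.1))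
    have key : κ * (cG * d) ^ 2 * (‖ζ D.i₀‖ ^ (a + m * c)) ^ 2 ≤
        ‖X.s ζ F‖ ^ 2 * (κ * (‖(fderiv ℂ (X.ψ z) ζ).det‖ ^ (m - 1)) ^ 2) *
          ‖(fderiv ℂ (X.ψ z) ζ).det‖ ^ 2 := by
      have e3 : (‖(fderiv ℂ (X.ψ z) ζ).det‖ ^ (m - 1)) ^ 2 * ‖(fderiv ℂ (X.ψ z) ζ).det‖ ^ 2 =
          (‖ζ D.i₀‖ ^ (m * c) * ‖GJ ζ‖ ^ m) ^ 2 := by
        rw [← mul_pow]
        congr 1
        have : ‖(fderiv ℂ (X.ψ z) ζ).det‖ ^ (m - 1) * ‖(fderiv ℂ (X.ψ z) ζ).det‖ =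
            ‖(fderiv ℂ (X.ψ z) ζ).det‖ ^ m := by
          rw [← zpow_add_one₀ hJ0.ne']; congr 1; ring
        rw [this, e2, norm_mul, mul_zpow, norm_zpow, ← zpow_mul, mul_comm c m]
      have e4 : ‖X.s ζ F‖ ^ 2 * (κ * (‖(fderiv ℂ (X.ψ z) ζ).det‖ ^ (m - 1)) ^ 2) *
          ‖(fderiv ℂ (X.ψ z) ζ).det‖ ^ 2 =
          κ * (‖G ζ‖ * ‖GJ ζ‖ ^ m) ^ 2 * (‖ζ D.i₀‖ ^ (a + m * c)) ^ 2 := by
        rw [mul_assoc, mul_assoc κ, e3, e1, norm_mul, norm_zpow, zpow_add₀ ht.ne']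
        ring
      rw [e4]
      have e5 : cG * d ≤ ‖G ζ‖ * ‖GJ ζ‖ ^ m :=
        mul_le_mul (hcG' ζ hζh) (hd' ζ hζh) hd.le (norm_nonneg _)
      gcongr
    calc ENNReal.ofReal (κ * (cG * d) ^ 2) * ENNReal.ofReal ((‖ζ D.i₀‖ ^ (a + m * c)) ^ 2)
        = ENNReal.ofReal (κ * (cG * d) ^ 2 * (‖ζ D.i₀‖ ^ (a + m * c)) ^ 2) :=
          (ENNReal.ofReal_mul (by positivity)).symm
      _ ≤ ENNReal.ofReal (‖X.s ζ F‖ ^ 2 * (κ * (‖(fderiv ℂ (X.ψ z) ζ).det‖ ^ (m - 1)) ^ 2) *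
          ‖(fderiv ℂ (X.ψ z) ζ).det‖ ^ 2) := ENNReal.ofReal_le_ofReal key
      _ = ENNReal.ofReal (‖X.s ζ F‖ ^ 2) *
          ENNReal.ofReal (κ * (‖(fderiv ℂ (X.ψ z) ζ).det‖ ^ (m - 1)) ^ 2) *
          ENNReal.ofReal (‖(fderiv ℂ (X.ψ z) ζ).det‖ ^ 2) := by
          rw [ENNReal.ofReal_mul (by positivity), ENNReal.ofReal_mul (by positivity)]
      _ ≤ _ := by
          gcongr
          exact hw ζ hζV
  rw [ENNReal.mul_top (by simp only [ne_eq, ENNReal.ofReal_eq_zero, not_le]; positivity)] at h1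
  exact absurd (lt_of_le_of_lt h1 hfin) (lt_irrefl _)

end Crest.Agent.R276.BC_986
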