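import Mathlib

/-!
# Row 276, FK: the Kodaira dimension of a field extension (helper779)

`K/k` a field extension, `b` a `K`-basis of `Ω[K⁄k]`; the rational `m`-canonical form `g · b^m`
is *regular* at a valuation ring `R ⊇ k` of `K` if `v(g) ≤ v(jac b y)^m` for some `y` in `R`
(multiplicative valuations).

`CoreField` is the statement the geometers have to prove (post "CORE'fin"); the FK files derive
S0419 from it.
-/

set_option autoImplicit false

noncomputable section

namespace Crest.Agent.R276.FKDefs_779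

section defs
variable (k : Type*) {K : Type*} [Field k] [Field K] [Algebra k K]

/-- The Jacobian: `dy₁ ∧ … ∧ dyₙ = jac b y · b₁ ∧ … ∧ bₙ`. -/
def jac {n : ℕ} (b : Module.Basis (Fin n) K (Ω[K⁄k])) (y : Fin n → K) : K :=
  b.det (fun i => KaehlerDifferential.D k K (y i))

/-- `R` is a divisorial valuation ring of `K/k` (`n` = transcendence degree): it contains `k`, it is
not `K`, and there are `n - 1` elements of `R` whose residues are algebraically independent
over `k`. -/
structure IsDiv (n : ℕ) (R : ValuationSubring K) : Prop where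
  alg : ∀ c : k, algebraMap k K c ∈ R
  ne_top : R ≠ ⊤
  res : ∃ x : Fin (n - 1) → K, (∀ i, x i ∈ R) ∧
    ∀ P : MvPolynomial (Fin (n - 1)) k, P ≠ 0 → R.valuation (MvPolynomial.aeval x P) = 1

/-- `g · b^m` is regular at the valuation ring `R`. -/
def RegAt {n : ℕ} (R : ValuationSubring K) (b : Module.Basis (Fin n) K (Ω[K⁄k])) (m : ℕ)
    (g : K) : Prop :=
  ∃ y : Fin n → K, (∀ i, y i ∈ R) ∧ R.valuation g ≤ R.valuation (jac k b y) ^ m

/-- `g · b^m` is a pluricanonical form of weight `m` without poles: it is regular at every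
divisorial valuation ring of `K/k`. -/
def Pluri {n : ℕ} (b : Module.Basis (Fin n) K (Ω[K⁄k])) (m : ℕ) (g : K) : Prop :=
  ∀ R : ValuationSubring K, IsDiv k n R → RegAt k R b m g

/-- strong version: `g · b^m` is regular at every valuation ring of `K` containing `k`. -/
def PluriS {n : ℕ} (b : Module.Basis (Fin n) K (Ω[K⁄k])) (m : ℕ) (g : K) : Prop :=
  ∀ R : ValuationSubring K, (∀ c : k, algebraMap k K c ∈ R) → RegAt k R b m g

variable (K)

/-- `κ(K/k) ≥ d`. -/
def KapGe (d : ℕ) : Prop :=
  ∃ (n : ℕ) (b : Module.Basis (Fin n) K (Ω[K⁄k])) (m : ℕ), 0 < m ∧ ∃ f : Fin (d + 1) → K,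
    (∀ i, f i ≠ 0 ∧ Pluri k b m (f i)) ∧ AlgebraicIndependent k (fun i : Fin d => f i.succ / f 0)

/-- strong version of `κ(K/k) ≥ d`. -/
def KapGeS (d : ℕ) : Prop :=
  ∃ (n : ℕ) (b : Module.Basis (Fin n) K (Ω[K⁄k])) (m : ℕ), 0 < m ∧ ∃ f : Fin (d + 1) → K,
    (∀ i, f i ≠ 0 ∧ PluriS k b m (f i)) ∧
      AlgebraicIndependent k (fun i : Fin d => f i.succ / f 0)

/-- `(A, z)` is an affine étale chart of `K/k`: `A` is a finitely generated `k`-subalgebra of `K`
with fraction field `K`, étale over `k[z₁, …, zₙ]`. -/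
structure EtChart {n : ℕ} (A : Subalgebra k K) (z : Fin n → K) : Prop where
  fg : A.FG
  frac : ∀ a : K, ∃ b ∈ A, ∃ s ∈ A, s ≠ 0 ∧ a = b * s⁻¹
  mem : ∀ i, z i ∈ A
  etale : RingHom.Etale ((MvPolynomial.aeval (fun i => (⟨z i, mem i⟩ : A)) :
    MvPolynomial (Fin n) k →ₐ[k] A) : MvPolynomial (Fin n) k →+* A)

/-- `κ(K/k) ≥ d`, finite test version: there is ONE affine étale chart `(A, z)` such that for every
finite set `S` of divisorial valuation rings there are `d + 1` pluricanonical forms of some weight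
`m > 0` (depending on `S`), regular on the chart and at all `R ∈ S`, with algebraically
independent ratios. -/
def KapGeF (d : ℕ) : Prop :=
  ∃ (n : ℕ) (A : Subalgebra k K) (z : Fin n → K) (b : Module.Basis (Fin n) K (Ω[K⁄k])),
    EtChart k K A z ∧ (∀ i, b i = KaehlerDifferential.D k K (z i)) ∧
    ∀ S : Set (ValuationSubring K), S.Finite → (∀ R ∈ S, IsDiv k n R) →
      ∃ m : ℕ, 0 < m ∧ ∃ f : Fin (d + 1) → K,
        (∀ i, f i ≠ 0 ∧ f i ∈ A ∧ ∀ R ∈ S, RegAt k R b m (f i)) ∧
        AlgebraicIndependent k (fun i : Fin d => f i.succ / f 0)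

/-- `K/k` is finitely generated as a field extension. -/
def FGF : Prop := (⊤ : IntermediateField k K).FG

end defs


end Crest.Agent.R276.FKDefs_779
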