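import Mathlib
import Crest.Agent.R276.Mod3_987
import Crest.Agent.R276.BC3_986
import Crest.Agent.R276.EngU_29
import Crest.Agent.R276.BetaDefs_231
import Crest.Agent.R276.IpcDefs_735

/-!
# Row 276 (S0419): register of frozen interfaces (helper220)

The target is 231's `BetaDefs_231.CoreBeta`.  Level 1: `DEnd` (endgame, 723).  Level 2: the weight
assembly `C1 … C4`, `Flat`, charts `TChart`.  Level 3: geometry.

Conventions: models are 987's `Mdl`; the base coordinates come FIRST (`Fin.append`).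
-/

set_option autoImplicit false

open Set Filter Topology MeasureTheory
open scoped ENNReal

noncomputable section

namespace Crest.Agent.R276.SkelDefs_220

open Crest.Agent.R271 Crest.Agent.R271.Defs710 Crest.Agent.R271.Rd692 Crest.Agent.R271.Ho51
open Crest.Agent.R276.Mod1_987 Crest.Agent.R276.FKDefs_779 Crest.Agent.R276.BC_986
open Crest.Agent.R276.EngU_29 (LPsh)
open Crest.Agent.R276.BetaDefs_231

/-! ## 0. One model -/

section one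

variable {K : Type} [Field K] [Algebra ℂ K] {n : ℕ} (M : Mdl K n)

/-- polynomial growth on the model: `b |h|^j ≤ C (1 + |z|²)^k` -/
def PGr (b : M.Pts → ℝ) : Prop :=
  ∃ (C : ℝ) (j k : ℕ), ∀ y : M.Pts,
    b y * ‖MvPolynomial.eval (M.pz y) M.h‖ ^ j ≤ C * (1 + ∑ i, ‖M.pz y i‖ ^ 2) ^ k

/-- the divisorial model `D` is a model of the valuation ring `R`: `R = A_(t)` -/
def ModelOf (D : DivModel n K) (R : ValuationSubring K) : Prop :=
  ∀ y : K, y ∈ R ↔ ∃ a b : D.A, ¬ D.t ∣ b ∧ y * algebraMap D.A K b = algebraMap D.A K a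

/-- `b`, a weight of `l K` in the coordinates `z` of the model, is bounded near the general points
of the divisor of `R`: `b |J|^{2l} ≤ C` on boundary charts. -/
def Bdd (R : ValuationSubring K) (l : ℕ) (b : M.Pts → ℝ) : Prop :=
  ∃ D : DivModel n K, ModelOf D R ∧ ∀ F : Finset K, (∀ f ∈ F, f ≠ 0) →
    ∃ X : BChart D M.B, (∀ f ∈ F, ∃ a G, Good D X f a G) ∧
      ∃ C : ℝ, ∀ ζ ∈ X.V, b (X.s ζ) * ‖(fderiv ℂ (X.ψ M.z) ζ).det‖ ^ (2 * l) ≤ C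

end one

/-! ## 1. The endgame (723): from one weight and functions on one slice to `KapGeF` -/

section slice

variable {K : Type} [Field K] [Algebra ℂ K] {n ρ p : ℕ} (M : Mdl K n) (e : Fin ρ ⊕ Fin p ≃ Fin n)

/-- the distinguished `ρ` coordinates `t` -/
def tc (y : M.Pts) : Cn ρ := fun i => M.pz y (e (Sum.inl i))

/-- the other coordinates -/
def xc (y : M.Pts) : Cn p := fun j => M.pz y (e (Sum.inr j))

/-- the point of `ℂⁿ` with `t = c` and other coordinates `x` -/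
def glue (c : Cn ρ) (x : Cn p) : Cn n := fun j => Sum.elim c x (e.symm j)

/-- integral over the slice `{t = c}` -/
def sint (c : Cn ρ) (g : M.Pts → ℝ≥0∞) : ℝ≥0∞ :=
  ∫⁻ x : Cn p, ∑' y : {y : M.Pts // tc M e y = c ∧ xc M e y = x}, g y.1

/-- holomorphic along the slice `{t = c}` (a function on `M` of which only the values on the slice
matter) -/
def HolS (c : Cn ρ) (g : M.Pts → ℂ) : Prop :=
  ∀ y : M.Pts, tc M e y = c → AnalyticAt ℂ (fun x : Cn p => g ((ch y).symm (glue e c x))) (xc M e y)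


end slice


/-! ## 2. Relative models, fibre integrals, tower charts -/

section rel

variable {L K : Type} [Field L] [Field K] [Algebra ℂ L] [Algebra ℂ K] [Algebra L K]
  [IsScalarTower ℂ L K] {m r : ℕ}

/-- relative model (base coordinates first): `M_K → M_L` surjective with connected fibres -/
structure Rel (ML : Mdl L m) (MK : Mdl K (m + r)) : Prop where
  mem : ∀ b : ML.B, algebraMap L K b ∈ MK.B
  coord : ∀ i : Fin m, (MK.z (Fin.castAdd r i) : K) = algebraMap L K (ML.z i)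
  /-- `h_L ∣ h_K` -/
  dvd : MvPolynomial.rename (Fin.castAdd r) ML.h ∣ MK.h
  surj : ∀ z : ML.Pts, ∃ y : MK.Pts, ∀ (b : ML.B) (b' : MK.B), (b' : K) = algebraMap L K b →
    y b' = z b

variable {ML : Mdl L m} {MK : Mdl K (m + r)}

/-- `B_L → B_K` -/
def Rel.incl (H : Rel ML MK) : ML.B →ₐ[ℂ] MK.B where
  toFun b := ⟨algebraMap L K b, H.mem b⟩
  map_one' := by ext; simp
  map_mul' a b := by ext; simp
  map_zero' := by ext; simp
  map_add' a b := by ext; simp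
  commutes' c := by
    ext
    simp [← IsScalarTower.algebraMap_apply]

/-- the projection `M_K → M_L` -/
def Rel.f (H : Rel ML MK) (y : MK.Pts) : ML.Pts := y.comp H.incl

/-- connected fibres -/
def Rel.Conn (H : Rel ML MK) : Prop := ∀ z : ML.Pts, IsConnected {y : MK.Pts | H.f y = z}

/-- integral over the fibre over `z` with respect to Lebesgue measure in the last `r` coordinates -/
def Rel.fint (H : Rel ML MK) (z : ML.Pts) (g : MK.Pts → ℝ≥0∞) : ℝ≥0∞ :=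
  ∫⁻ x : Cn r, ∑' y : {y : MK.Pts // H.f y = z ∧ (fun j => MK.pz y (Fin.natAdd m j)) = x}, g y.1

/-- integral over the `s`-fold product of the fibre over `z` -/
def Rel.fintS (H : Rel ML MK) (s : ℕ) (z : ML.Pts) (g : (Fin s → MK.Pts) → ℝ≥0∞) : ℝ≥0∞ :=
  ∫⁻ x : Fin s → Cn r,
    ∑' y : {y : Fin s → MK.Pts // (∀ i, H.f (y i) = z) ∧ ∀ i, (fun j => MK.pz (y i) (Fin.natAdd m j)) = x i}, g y.1

/-- holomorphic on the fibre over `z` -/
def Rel.HolF (H : Rel ML MK) (z : ML.Pts) (g : MK.Pts → ℂ) : Prop :=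
  ∀ y : MK.Pts, H.f y = z →
    AnalyticAt ℂ (fun x : Cn r => g ((ch y).symm (Fin.append (ML.pz z) x)))
      (fun j => MK.pz y (Fin.natAdd m j))

/-- a basis of `Ω[K⁄L]` given by the fibre coordinates -/
def IsRelBasis (MK : Mdl K (m + r)) (b : Module.Basis (Fin r) K (Ω[K⁄L])) : Prop :=
  ∀ j, b j = KaehlerDifferential.D L K (MK.z (Fin.natAdd m j))

end rel

/-! ### analytic charts -/

section ac

/-- polydisc of radius `δ` minus the coordinate hyperplane `i₀` (`none`: nothing is removed) -/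
def PD {n : ℕ} (δ : ℝ) (i₀ : Option (Fin n)) : Set (Cn n) :=
  {ζ | ‖ζ‖ < δ ∧ ∀ i, i₀ = some i → ζ i ≠ 0}

/-- the equation of the hyperplane -/
def tau {n : ℕ} (i₀ : Option (Fin n)) (ζ : Cn n) : ℂ :=
  match i₀ with
  | none => 1
  | some i => ζ i

/-- `u` is bounded by a power of `log 1/|τ|` on smaller polydiscs -/
def LogB {n : ℕ} (δ : ℝ) (i₀ : Option (Fin n)) (u : Cn n → ℝ) : Prop :=
  ∀ δ' < δ, ∃ (C : ℝ) (k : ℕ), ∀ ζ ∈ PD δ' i₀, u ζ ≤ C * (1 + |Real.log ‖tau i₀ ζ‖|) ^ k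

variable {K : Type} [Field K] [Algebra ℂ K] {n : ℕ}

/-- analytic chart of a model on `PD δ i₀` -/
structure AC (M : Mdl K n) (δ : ℝ) (i₀ : Option (Fin n)) where
  s : Cn n → M.Pts
  anal : ∀ b : M.B, AnalyticOnNhd ℂ (fun ζ => s ζ b) (PD δ i₀)
  inj : InjOn s (PD δ i₀)

variable {M : Mdl K n} {δ : ℝ} {i₀ : Option (Fin n)}

/-- the Jacobian `det ∂z/∂ζ` -/
def AC.J (X : AC M δ i₀) (ζ : Cn n) : ℂ := (fderiv ℂ (fun ζ => M.pz (X.s ζ)) ζ).det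

/-- `u = τ^k G` on the chart, `G` without zeros on the whole polydisc -/
def Mono (δ : ℝ) (i₀ : Option (Fin n)) (u : Cn n → ℂ) (k : ℤ) : Prop :=
  ∃ G : Cn n → ℂ, AnalyticOnNhd ℂ G (Metric.ball 0 δ) ∧ (∀ ζ ∈ Metric.ball (0 : Cn n) δ, G ζ ≠ 0) ∧
    ∀ ζ ∈ PD δ i₀, u ζ = tau i₀ ζ ^ k * G ζ

/-- the element `f ∈ K` is `τ^k ·` (zero-free) on the chart -/
def AC.Ord (X : AC M δ i₀) (f : K) (k : ℤ) : Prop :=
  ∃ u : Cn n → ℂ, Mono δ i₀ u k ∧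
    ∀ ζ ∈ PD δ i₀, ∀ b c : M.B, (b : K) = f * c → X.s ζ b = u ζ * X.s ζ c

end ac

/-! ### charts adapted to a tower `T ⊂ L ⊂ K` along a divisorial valuation ring `R` of `K` -/

section tower

variable {T L K : Type} [Field T] [Field L] [Field K] [Algebra ℂ T] [Algebra ℂ L] [Algebra ℂ K]
  [Algebra T L] [Algebra L K] [IsScalarTower ℂ T L] [IsScalarTower ℂ L K] {ρ a r : ℕ}
  {MT : Mdl T ρ} {ML : Mdl L (ρ + a)} {MK : Mdl K (ρ + a + r)}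

/-- index of the divisor coordinate on the base -/
def low {m r : ℕ} (i₀ : Option (Fin (m + r))) : Option (Fin m) :=
  i₀.bind fun i => if h : (i : ℕ) < m then some ⟨i, h⟩ else none

/-- `(ζ, x) ↦ ζ` with the divisor coordinate raised to the power `e` -/
def pw {m r : ℕ} (e : ℕ) (i₀ : Option (Fin (m + r))) (ζ : Cn (m + r)) : Cn m := fun j =>
  if low i₀ = some j then ζ (Fin.castAdd r j) ^ e else ζ (Fin.castAdd r j)

/-- chart adapted to `K/L/T` along `R`; `i₀` is the index of the coordinate `τ`.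
If `i₀ < ρ` then `R ∩ T` is divisorial, if `ρ ≤ i₀ < ρ + a` then `T ⊆ R` and `R ∩ L` is divisorial,
otherwise `L ⊆ R`. -/
structure TChart (H₁ : Rel MT ML) (H₂ : Rel ML MK) (R : ValuationSubring K) where
  δ : ℝ
  δ_pos : 0 < δ
  δ_lt : δ < 1
  i₀ : Fin (ρ + a + r)
  cK : AC MK δ (some i₀)
  cL : AC ML δ (low (some i₀))
  cT : AC MT δ (low (low (some i₀)))
  e₁ : ℕ
  e₂ : ℕ
  e₁_pos : 0 < e₁
  e₂_pos : 0 < e₂
  compL : ∀ ζ ∈ PD δ (some i₀), H₂.f (cK.s ζ) = cL.s (pw e₁ (some i₀) ζ)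
  compT : ∀ η ∈ PD δ (low (some i₀)), H₁.f (cL.s η) = cT.s (pw e₂ (low (some i₀)) η)
  /-- orders of functions -/
  ordR : ∀ (f : K) (k : ℤ), cK.Ord f k → (f ∈ R ↔ 0 ≤ k)

namespace TChart

variable {H₁ : Rel MT ML} {H₂ : Rel ML MK} {R : ValuationSubring K} (Y : TChart H₁ H₂ R)

/-- the projection of the chart of `K` to the chart of `L` -/
def π (ζ : Cn (ρ + a + r)) : Cn (ρ + a) := pw Y.e₁ (some Y.i₀) ζ

/-- Jacobian of the fibre coordinates of `K/L` along the leaves -/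
def jF (ζ : Cn (ρ + a + r)) : ℂ :=
  (fderiv ℂ (fun (x : Cn r) (j : Fin r) =>
    MK.pz (Y.cK.s (Fin.append (fun i => ζ (Fin.castAdd r i)) x)) (Fin.natAdd (ρ + a) j))
    (fun j => ζ (Fin.natAdd (ρ + a) j))).det

/-- Jacobian of the fibre coordinates of `L/T` along the leaves -/
def jG (η : Cn (ρ + a)) : ℂ :=
  (fderiv ℂ (fun (x : Cn a) (j : Fin a) =>
    ML.pz (Y.cL.s (Fin.append (fun i => η (Fin.castAdd a i)) x)) (Fin.natAdd ρ j))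
    (fun j => η (Fin.natAdd ρ j))).det

/-- Jacobian of the coordinates of `T` with respect to the transversal chart coordinates:
`dt₁ ∧ … ∧ dt_ρ = jN dη₁ ∧ … ∧ dη_ρ` -/
def jN (η : Cn (ρ + a)) : ℂ :=
  (fderiv ℂ (fun (x : Cn ρ) (i : Fin ρ) =>
    ML.pz (Y.cL.s (Fin.append x (fun j => η (Fin.natAdd ρ j)))) (Fin.castAdd a i))
    (fun i => η (Fin.castAdd a i))).det

/-- all elements of `F` are `τ^k ·` zero-free on the chart of `K` -/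
def Good (F : Finset K) : Prop := ∀ f ∈ F, ∃ k, Y.cK.Ord f k

/-- all elements of `FL` are `τ^k ·` zero-free on the chart of `L` -/
def GoodL (FL : Finset L) : Prop := ∀ f ∈ FL, ∃ k, Y.cL.Ord f k

/-- dictionary for pluricanonical forms at `R`, `R ∩ L` and for relative forms of `K/L` -/
structure Dict : Prop where
  JK : ∃ c : ℤ, Mono Y.δ (some Y.i₀) Y.cK.J c ∧
    ∀ (b : Module.Basis (Fin (ρ + a + r)) K (Ω[K⁄ℂ])),
      (∀ j, b j = KaehlerDifferential.D ℂ K (MK.z j)) →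
      ∀ (m : ℕ) (g : K) (k : ℤ), Y.cK.Ord g k → (RegAt ℂ R b m g ↔ 0 ≤ k + m * c)
  JL : ∃ c : ℤ, Mono Y.δ (low (some Y.i₀)) Y.cL.J c ∧
    ∀ (b : Module.Basis (Fin (ρ + a)) L (Ω[L⁄ℂ])),
      (∀ j, b j = KaehlerDifferential.D ℂ L (ML.z j)) →
      ∀ (m : ℕ) (g : L) (k : ℤ), Y.cL.Ord g k → low (some Y.i₀) ≠ none →
        (RegAt ℂ (R.comap (algebraMap L K)) b m g ↔ 0 ≤ k + m * c)
  JF : ∃ c : ℤ, Mono Y.δ (some Y.i₀) Y.jF c ∧
    ∀ (b : Module.Basis (Fin r) K (Ω[K⁄L])), IsRelBasis MK b →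
      ∀ (m : ℕ) (g : K) (k : ℤ), Y.cK.Ord g k → (RegAt L R b m g ↔ 0 ≤ k + m * c)

end TChart

/-- TCH: existence of tower charts (590, 986, 858): for a divisorial `R` there is a divisorial model
such that for all finite sets `F`, `FL` there are a boundary chart `X` and a tower chart `Y`, good
for `F` and `FL`, with `X ⊆ Y` and `|J_X| ≤ C |J_Y|`. -/
def TCh (H₁ : Rel MT ML) (H₂ : Rel ML MK) : Prop :=
  ∀ R : ValuationSubring K, IsDiv ℂ (ρ + a + r) R →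
    ∃ D : DivModel (ρ + a + r) K, ModelOf D R ∧
      ∀ (F : Finset K) (FL : Finset L), (∀ f ∈ F, f ≠ 0) → (∀ f ∈ FL, f ≠ 0) →
      ∃ X : BChart D MK.B, (∀ f ∈ F, ∃ k G, BC_986.Good D X f k G) ∧
      ∃ Y : TChart H₁ H₂ R, Y.Dict ∧ Y.Good F ∧ Y.GoodL FL ∧
        ∃ C : ℝ, ∀ ζ ∈ X.V, ∃ η ∈ PD (Y.δ / 2) (some Y.i₀), X.s ζ = Y.cK.s η ∧
          ‖(fderiv ℂ (X.ψ MK.z) ζ).det‖ ≤ C * ‖Y.cK.J η‖

end tower


/-! ## 3. The weights (C1)-(C4) of BP-END and the flat sections -/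

section weights

variable {L K : Type} [Field L] [Field K] [Algebra ℂ L] [Algebra ℂ K] [Algebra L K]
  [IsScalarTower ℂ L K] {m r : ℕ} {ML : Mdl L m} {MK : Mdl K (m + r)}

/-- `δ(y₁,…,y_s) = det uᵢ(yⱼ)` -/
def dl {s : ℕ} (u : Fin s → MK.B) (y : Fin s → MK.Pts) : ℂ :=
  (Matrix.of fun i j => y j (u i)).det

/-- `D(z) = ∫_{M_z^s} |δ|^{2/N}`, finite and positive -/
def IsCY (H₂ : Rel ML MK) (N : ℕ) {s : ℕ} (u : Fin s → MK.B) (D : ML.Pts → ℝ) : Prop :=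
  ∀ z, 0 < D z ∧ H₂.fintS s z (fun y => ‖dl u y‖ₑ ^ (2 / (N : ℝ))) = ENNReal.ofReal (D z)

/-- evaluation of a polynomial in the sections `u` -/
def evs {s : ℕ} (u : Fin s → MK.B) (P : MvPolynomial (Fin s) ℂ) (y : MK.Pts) : ℂ :=
  MvPolynomial.eval (fun i => y (u i)) P

/-- `I(z) = ∫_{M_z^s} ∏ |g(xⱼ)|^{2(1+εN)/(kN)} |δ|^{-2ε}` -/
def Ieps (H₂ : Rel ML MK) (N k : ℕ) {s : ℕ} (u : Fin s → MK.B) (ε : ℝ) (z : ML.Pts)
    (g : MK.Pts → ℂ) : ℝ≥0∞ :=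
  H₂.fintS s z fun y =>
    (∏ j, ‖g (y j)‖ₑ ^ (2 * (1 + ε * N) / (k * N))) * ‖dl u y‖ₑ ^ (-(2 * ε))

/-- `W = ∑ |wⱼ|²` -/
def Wf {e : ℕ} (w : Fin (e + 1) → ML.B) (z : ML.Pts) : ℝ := ∑ j, ‖z (w j)‖ ^ 2

end weights

section tower2

variable {T L K : Type} [Field T] [Field L] [Field K] [Algebra ℂ T] [Algebra ℂ L] [Algebra ℂ K]
  [Algebra T L] [Algebra L K] [IsScalarTower ℂ T L] [IsScalarTower ℂ L K] {ρ a r : ℕ}
  {MT : Mdl T ρ} {ML : Mdl L (ρ + a)} {MK : Mdl K (ρ + a + r)}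

/-- a bound on the charts of `K` along `R`, for all tower charts which are good for suitable
finite sets -/
def BdK (H₁ : Rel MT ML) (H₂ : Rel ML MK) (R : ValuationSubring K)
    (v : (Y : TChart H₁ H₂ R) → Cn (ρ + a + r) → ℝ) : Prop :=
  ∃ (F : Finset K) (FL : Finset L), (∀ f ∈ F, f ≠ 0) ∧ (∀ f ∈ FL, f ≠ 0) ∧
    ∀ Y : TChart H₁ H₂ R, Y.Dict → Y.Good F → Y.GoodL FL → LogB Y.δ (some Y.i₀) (v Y)

/-- the same for a function on the chart of `L` -/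
def BdL (H₁ : Rel MT ML) (H₂ : Rel ML MK) (R : ValuationSubring K)
    (v : (Y : TChart H₁ H₂ R) → Cn (ρ + a) → ℝ) : Prop :=
  ∃ (F : Finset K) (FL : Finset L), (∀ f ∈ F, f ≠ 0) ∧ (∀ f ∈ FL, f ≠ 0) ∧
    ∀ Y : TChart H₁ H₂ R, Y.Dict → Y.Good F → Y.GoodL FL → LogB Y.δ (low (some Y.i₀)) (v Y)

/-- coordinates `(t, z'')` of `M_L` -/
def eL (ρ a : ℕ) : Fin ρ ⊕ Fin a ≃ Fin (ρ + a) := finSumFinEquiv

/-- coordinates `(t, (z'', x))` of `M_K` -/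
def eK (ρ a r : ℕ) : Fin ρ ⊕ Fin (a + r) ≃ Fin (ρ + a + r) :=
  finSumFinEquiv.trans (finCongr (Nat.add_assoc ρ a r).symm)

/-- (C1) [W1, 185]: N-Bergman kernel with the extra weight `ε log|δ|²` on the small diagonal of
`M_K^{(s)}`, `a₁ = s(1+εN)`. -/
structure C1 (H₁ : Rel MT ML) (H₂ : Rel ML MK) (N k : ℕ) {s : ℕ} (u : Fin s → MK.B)
    (D : ML.Pts → ℝ) (ε : ℝ) (b₁ : MK.Pts → ℝ) : Prop where
  psh : LPsh b₁
  gr : PGr MK b₁
  bd : ∀ R : ValuationSubring K, IsDiv ℂ (ρ + a + r) R → BdK H₁ H₂ R fun Y ζ =>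
    b₁ (Y.cK.s ζ) * ‖Y.jF ζ‖ ^ (2 * s * (1 + ε * N)) / D (H₂.f (Y.cK.s ζ)) ^ (ε * N)
  low : ∀ᵐ c : Cn ρ, ∀ z : ML.Pts, tc ML (eL ρ a) z = c →
    ∀ P : MvPolynomial (Fin s) ℂ, P.IsHomogeneous k →
    Ieps H₂ N k u ε z (evs u P) ≠ ∞ → ∀ y : MK.Pts, H₂.f y = z →
    ‖evs u P y‖ₑ ^ (2 * s * (1 + ε * N) / (k * N)) ≤
      ENNReal.ofReal (b₁ y) * Ieps H₂ N k u ε z (evs u P)

/-- (C2) [W2, 748]: Bergman kernel of the fibres of `M_L → ℂ^ρ` with weight `W^{-(e₀-1)/e₀}`. -/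
structure C2 (H₁ : Rel MT ML) (H₂ : Rel ML MK) {e : ℕ} (w : Fin (e + 1) → ML.B) (e₀ : ℕ)
    (b₂ : ML.Pts → ℝ) : Prop where
  psh : LPsh b₂
  gr : PGr ML b₂
  bd : ∀ R : ValuationSubring K, IsDiv ℂ (ρ + a + r) R → BdL H₁ H₂ R fun Y η =>
    b₂ (Y.cL.s η) * ‖Y.jG η‖ ^ 2 * ‖Y.cL.J η‖ ^ (2 * (e₀ - 1))
  low : ∀ᵐ c : Cn ρ,
    sint ML (eL ρ a) c (fun z' => ENNReal.ofReal (Wf w z') ^ (1 / (e₀ : ℝ))) ≠ ∞ →
    ∀ z : ML.Pts, tc ML (eL ρ a) z = c →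
    ENNReal.ofReal (Wf w z) ≤ (e + 1) *
      sint ML (eL ρ a) c (fun z' => ENNReal.ofReal (Wf w z') ^ (1 / (e₀ : ℝ))) *
      ENNReal.ofReal (b₂ z)

/-- (C3) [505]: frame bound of `W`. -/
def C3 (H₁ : Rel MT ML) (H₂ : Rel ML MK) {e : ℕ} (w : Fin (e + 1) → ML.B) (e₀ : ℕ) : Prop :=
  ∀ R : ValuationSubring K, IsDiv ℂ (ρ + a + r) R → BdL H₁ H₂ R fun Y η =>
    Wf w (Y.cL.s η) * ‖Y.cL.J η‖ ^ (2 * e₀)

/-- (C4) [COUNT, 857/327/505]: positivity of `k (det N*_GG + t L)`: a section `σ` such that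
`|σ|^{2/k} D^t` is constant on the fibres of `M_L → M_T`. -/
def C4 (H₁ : Rel MT ML) (H₂ : Rel ML MK) (D : ML.Pts → ℝ) : Prop :=
  ∀ S : Set (ValuationSubring K), S.Finite → (∀ R ∈ S, IsDiv ℂ (ρ + a + r) R) →
    ∀ t₀ : ℕ, ∃ t : ℕ, t₀ ≤ t ∧ ∃ (k : ℕ) (σ : ML.B) (κ : ℝ), 0 < k ∧ σ ≠ 0 ∧ 0 < κ ∧
      (∀ R ∈ S, BdL H₁ H₂ R fun Y η =>
        ‖Y.cL.s η σ‖ ^ (2 / (k : ℝ)) * ‖Y.jN η‖ ^ 2 * D (Y.cL.s η) ^ (t : ℝ) *
          (1 + ∑ i, ‖tc ML (eL ρ a) (Y.cL.s η) i‖ ^ 2) ^ κ) ∧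
      ∀ᵐ c : Cn ρ, ∀ y : MT.Pts, MT.pz y = c → ∃ c₀ : ℝ, ∀ z : ML.Pts, H₁.f z = y →
        ‖z σ‖ ^ (2 / (k : ℝ)) * D z ^ (t : ℝ) = c₀

open scoped Classical in
/-- (FLAT) [LEMMA N 999, FIN 39, FRI 348, GVHS 574, FLATALG 464; SKO 845 for the finiteness of
`I`]: on ALMOST EVERY fibre `G_y` of `M_L → M_T` there are flat `τ₀ … τ_d`, homogeneous polynomials of one
degree `k` in the sections `u` with coefficients holomorphic on `G_y`. -/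
def Flat (H₁ : Rel MT ML) (H₂ : Rel ML MK) (N d : ℕ) {s : ℕ} (u : Fin s → MK.B)
    (D : ML.Pts → ℝ) (ε : ℝ) : Prop :=
  ∀ᵐ c : Cn ρ, ∀ y₀ : MT.Pts, MT.pz y₀ = c →
    ∃ (k : ℕ) (P : Fin (d + 1) → ML.Pts → MvPolynomial (Fin s) ℂ) (C : ℝ), 0 < k ∧
    (∀ i z, H₁.f z = y₀ → (P i z).IsHomogeneous k) ∧
    (∀ i μ, HolS ML (eL ρ a) (MT.pz y₀) fun z =>
      if H₁.f z = y₀ then (P i z).coeff μ else 0) ∧
    ∀ z : ML.Pts, H₁.f z = y₀ →
      (∀ i, H₂.fint z (fun y => ‖evs u (P i z) y‖ₑ ^ (2 / (k * N : ℝ))) ≤ ENNReal.ofReal C) ∧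
      (∀ i, Ieps H₂ N k u ε z (evs u (P i z)) * ENNReal.ofReal (D z ^ (ε * N)) ≤
        ENNReal.ofReal C) ∧
      ∀ (Δ : ℕ) (Q : MvPolynomial (Fin (d + 1)) ℂ), Q.IsHomogeneous Δ →
        (∀ y : MK.Pts, H₂.f y = z → MvPolynomial.eval (fun i => evs u (P i z) y) Q = 0) → Q = 0

/-- (J) [748, 505, 448]: `∫_{G_c} W^{1/e₀} < ∞` for almost every slice. -/
def CJ (ML : Mdl L (ρ + a)) {e : ℕ} (w : Fin (e + 1) → ML.B) (e₀ : ℕ) : Prop :=
  ∀ᵐ c : Cn ρ, sint ML (eL ρ a) c (fun z => ENNReal.ofReal (Wf w z) ^ (1 / (e₀ : ℝ))) < ∞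

/-- (IND): for almost every `c` at least `e - ρ` ratios of the `wⱼ` are algebraically independent on
every fibre `G_y`, `y` over `c`. -/
def CInd (H₁ : Rel MT ML) {e : ℕ} (w : Fin (e + 1) → ML.B) : Prop :=
  ∃ (e' : ℕ) (ι : Fin (e' + 1) → Fin (e + 1)), e ≤ e' + ρ ∧
    ∀ᵐ c : Cn ρ, ∀ y : MT.Pts, MT.pz y = c →
      ∀ (Δ : ℕ) (Q : MvPolynomial (Fin (e' + 1)) ℂ), Q.IsHomogeneous Δ →
        (∀ z : ML.Pts, H₁.f z = y → MvPolynomial.eval (fun i => z (w (ι i))) Q = 0) → Q = 0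

/-- (NZ): a nonzero function does not vanish identically on almost all fibres. -/
def CNz (H₁ : Rel MT ML) : Prop :=
  ∀ σ : ML.B, σ ≠ 0 → ∀ᵐ c : Cn ρ, ∀ y : MT.Pts, MT.pz y = c →
    ∃ z : ML.Pts, H₁.f z = y ∧ z σ ≠ 0

end tower2

/-! ## 4. THE GEOMETRIC OUTPUT -/


end Crest.Agent.R276.SkelDefs_220
end
private theorem rz_32d05137a5 : type_of% @_root_.Crest.Agent.R276.SkelDefs_220.tau.eq_1 := @_root_.Crest.Agent.R276.SkelDefs_220.tau.eq_1 -- L164
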