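import Mathlib
import Crest.Agent.R276.SkelDefs_220

/-!
# Row 276 (S0419), AC-OPEN (helper89)

Analytic charts `X : AC M δ i₀` (SkelDefs_220) of a model: continuity, openness and analytic local
inverses at the points where `X.J ≠ 0`.

* `isOpen_PD`, `preconnected`-free facts on `PD`;
* `continuousAt_s`, `continuousOn_s`, `analyticAt_pz`, `analyticOnNhd_J`;
* `map_nhds_eq : X.J ζ ≠ 0 → map X.s (𝓝 ζ) = 𝓝 (X.s ζ)`, `nhds_le`, `isOpen_image`, `isOpenMap`;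
* `exists_inverse`: analytic local inverse `ψ` with `X.s (ψ (pz y)) = y` near `X.s ζ`;
* `eventually_ch`: `X.s ζ' = (ch (X.s ζ)).symm (pz (X.s ζ'))` near `ζ`;
* `analyticAt_comp_iff`: `g` is holomorphic at `X.s ζ` iff `g ∘ X.s` is analytic at `ζ`.
-/

set_option autoImplicit false

open Set Filter Topology

noncomputable section

namespace Crest.Agent.R276.AcOpen_89

open Crest.Agent.R271 Crest.Agent.R271.Defs710 Crest.Agent.R271.Rd692 Crest.Agent.R271.Ho51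
open Crest.Agent.R276.Mod1_987 Crest.Agent.R276.SkelDefs_220

/-! ### the punctured polydisc -/

section pd

variable {n : ℕ}

lemma isOpen_PD (δ : ℝ) (i₀ : Option (Fin n)) : IsOpen (PD δ i₀) := by
  have h1 : PD δ i₀ = {ζ : Cn n | ‖ζ‖ < δ} ∩ ⋂ i : Fin n, {ζ : Cn n | i₀ = some i → ζ i ≠ 0} := by
    ext ζ
    simp [PD]
  rw [h1]
  refine (isOpen_lt continuous_norm continuous_const).inter (isOpen_iInter_of_finite fun i => ?_)
  by_cases h : i₀ = some i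
  · simp only [h, true_imp_iff]
    exact isOpen_ne_fun (continuous_apply i) continuous_const
  · simp only [h, false_imp_iff]
    exact isOpen_univ

lemma PD_mono {δ δ' : ℝ} (h : δ' ≤ δ) (i₀ : Option (Fin n)) : PD δ' i₀ ⊆ PD δ i₀ :=
  fun _ hζ => ⟨hζ.1.trans_le h, hζ.2⟩


lemma PD_subset_ball (δ : ℝ) (i₀ : Option (Fin n)) : PD δ i₀ ⊆ Metric.ball 0 δ := by
  intro ζ hζ
  simpa using hζ.1

lemma tau_ne {δ : ℝ} {i₀ : Option (Fin n)} {ζ : Cn n} (h : ζ ∈ PD δ i₀) : tau i₀ ζ ≠ 0 := by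
  cases i₀ with
  | none => exact one_ne_zero
  | some i => exact h.2 i rfl

lemma PD_eq (δ : ℝ) (i₀ : Option (Fin n)) :
    PD δ i₀ = Metric.ball 0 δ ∩ {ζ : Cn n | tau i₀ ζ ≠ 0} := by
  ext ζ
  constructor
  · intro h
    exact ⟨PD_subset_ball δ i₀ h, tau_ne h⟩
  · rintro ⟨h1, h2⟩
    refine ⟨by simpa using h1, ?_⟩
    rintro i rfl
    exact h2


lemma analyticOnNhd_tau (i₀ : Option (Fin n)) (s : Set (Cn n)) : AnalyticOnNhd ℂ (tau i₀) s := by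
  intro ζ _
  cases i₀ with
  | none => exact analyticAt_const
  | some i => exact (ContinuousLinearMap.proj (R := ℂ) (φ := fun _ : Fin n => ℂ) i).analyticAt ζ

/-- a monomial function `τ^k G` has no zeros on `PD` -/
lemma Mono.ne_zero {δ : ℝ} {i₀ : Option (Fin n)} {u : Cn n → ℂ} {k : ℤ} (h : Mono δ i₀ u k)
    {ζ : Cn n} (hζ : ζ ∈ PD δ i₀) : u ζ ≠ 0 := by
  obtain ⟨G, _, h2, h3⟩ := h
  rw [h3 ζ hζ]
  exact mul_ne_zero (zpow_ne_zero _ (tau_ne hζ)) (h2 ζ (PD_subset_ball δ i₀ hζ))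

end pd

/-! ### charts -/

variable {K : Type} [Field K] [Algebra ℂ K] {n : ℕ} {M : Mdl K n} {δ : ℝ} {i₀ : Option (Fin n)}

section chart

variable (X : AC M δ i₀)

theorem continuousAt_s {ζ : Cn n} (hζ : ζ ∈ PD δ i₀) : ContinuousAt X.s ζ :=
  continuousAt_iff_ev.mpr fun b => (X.anal b ζ hζ).continuousAt


theorem analyticAt_pz {ζ : Cn n} (hζ : ζ ∈ PD δ i₀) :
    AnalyticAt ℂ (fun ζ => M.pz (X.s ζ)) ζ :=
  AnalyticAt.pi fun i => X.anal (M.z i) ζ hζ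


theorem analyticOnNhd_J : AnalyticOnNhd ℂ X.J (PD δ i₀) := by
  intro ζ hζ
  have h1 : AnalyticAt ℂ (fderiv ℂ (fun ζ => M.pz (X.s ζ))) ζ := (analyticAt_pz X hζ).fderiv
  have h2 : ∀ L : Cn n →L[ℂ] Cn n, L.det =
      (Matrix.of fun i j => L (Pi.single j 1) i).det := by
    intro L
    rw [ContinuousLinearMap.det, ← LinearMap.det_toMatrix']
    congr 1
  have h3 : X.J = fun ζ => (Matrix.of fun i j =>
      (fderiv ℂ (fun ζ => M.pz (X.s ζ)) ζ) (Pi.single j 1) i).det := by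
    funext ζ
    exact h2 _
  rw [h3]
  simp only [Matrix.det_apply']
  refine Finset.analyticAt_fun_sum _ fun σ _ => ?_
  refine analyticAt_const.mul ?_
  refine Finset.analyticAt_fun_prod _ fun i _ => ?_
  simp only [Matrix.of_apply]
  have h4 : AnalyticAt ℂ (fun ζ' => (fderiv ℂ (fun ζ => M.pz (X.s ζ)) ζ') (Pi.single i 1)) ζ :=
    (ContinuousLinearMap.apply ℂ (Cn n) (Pi.single i 1 : Cn n)).analyticAt _ |>.comp h1
  exact (ContinuousLinearMap.proj (R := ℂ) (φ := fun _ : Fin n => ℂ) (σ i)).analyticAt _ |>.comp h4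

/-- the chart in terms of the standard chart of the Riemann domain -/
theorem eventually_ch {ζ : Cn n} (hζ : ζ ∈ PD δ i₀) :
    ∀ᶠ ζ' in 𝓝 ζ, X.s ζ' = (ch (X.s ζ)).symm (M.pz (X.s ζ')) := by
  have h1 : ∀ᶠ ζ' in 𝓝 ζ, X.s ζ' ∈ (ch (X.s ζ)).source :=
    (continuousAt_s X hζ).eventually_mem ((ch (X.s ζ)).open_source.mem_nhds (mem_ch _))
  filter_upwards [h1] with ζ' h
  have h2 := (ch (X.s ζ)).left_inv h
  rw [(isCh_ch (X.s ζ)).apply] at h2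
  exact h2.symm

/-- the derivative of `pz ∘ s` as an equivalence -/
theorem exists_equiv {ζ : Cn n} (hJ : X.J ζ ≠ 0) :
    ∃ L : Cn n ≃L[ℂ] Cn n, (L : Cn n →L[ℂ] Cn n) = fderiv ℂ (fun ζ => M.pz (X.s ζ)) ζ := by
  refine ⟨ContinuousLinearMap.toContinuousLinearEquivOfDetNeZero _ hJ, ?_⟩
  rfl

theorem hasStrictFDerivAt_pz {ζ : Cn n} (hζ : ζ ∈ PD δ i₀) :
    HasStrictFDerivAt (fun ζ => M.pz (X.s ζ)) (fderiv ℂ (fun ζ => M.pz (X.s ζ)) ζ) ζ :=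
  (analyticAt_pz X hζ).hasStrictFDerivAt

theorem map_pz_nhds {ζ : Cn n} (hζ : ζ ∈ PD δ i₀) (hJ : X.J ζ ≠ 0) :
    map (fun ζ => M.pz (X.s ζ)) (𝓝 ζ) = 𝓝 (M.pz (X.s ζ)) := by
  obtain ⟨L, hL⟩ := exists_equiv X hJ
  have h1 := hasStrictFDerivAt_pz X hζ
  rw [← hL] at h1
  exact h1.map_nhds_eq_of_equiv

/-- **AC charts are open**: `s` maps the neighbourhoods of `ζ` onto the neighbourhoods of `s ζ` -/
theorem map_nhds_eq {ζ : Cn n} (hζ : ζ ∈ PD δ i₀) (hJ : X.J ζ ≠ 0) :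
    map X.s (𝓝 ζ) = 𝓝 (X.s ζ) := by
  have h1 : map X.s (𝓝 ζ) = map (fun ζ' => (ch (X.s ζ)).symm (M.pz (X.s ζ'))) (𝓝 ζ) :=
    Filter.map_congr (eventually_ch X hζ)
  have h2 : map (fun ζ' => (ch (X.s ζ)).symm (M.pz (X.s ζ'))) (𝓝 ζ) =
      map (ch (X.s ζ)).symm (map (fun ζ' => M.pz (X.s ζ')) (𝓝 ζ)) := by
    rw [Filter.map_map]
    rfl
  rw [h1, h2, map_pz_nhds X hζ hJ]
  have h3 : M.pz (X.s ζ) = (ch (X.s ζ)) (X.s ζ) := ((isCh_ch (X.s ζ)).apply _).symm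
  rw [h3, (ch (X.s ζ)).symm.map_nhds_eq ((ch (X.s ζ)).map_source (mem_ch _)),
    (ch (X.s ζ)).left_inv (mem_ch _)]

theorem nhds_le {ζ : Cn n} (hζ : ζ ∈ PD δ i₀) (hJ : X.J ζ ≠ 0) :
    𝓝 (X.s ζ) ≤ map X.s (𝓝 ζ) :=
  (map_nhds_eq X hζ hJ).ge




variable {E : Type*} [NormedAddCommGroup E] [NormedSpace ℂ E]




end chart

end Crest.Agent.R276.AcOpen_89
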