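import Mathlib

-- ▼ part R276/BN0_143
section

/-!
# Row 276, MOD-BN (helper143), part 0: elimination (Nullstellensatz over a domain) and the
Bertini–Noether theorem: an absolutely irreducible polynomial over a domain `A` stays irreducible
under all ring homs `z : A → k` to fields with `z a ≠ 0`, for some `a ≠ 0`.
-/

set_option autoImplicit false

noncomputable section

open MvPolynomial

namespace Crest.Agent.R276.BN0_143

universe u

section elim

attribute [local instance] MvPolynomial.algebraMvPolynomial

variable {A : Type*} [CommRing A] [IsDomain A]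

/-- ELIM: a system of polynomial equations over a domain `A` without solution in the algebraic
closure of the fraction field has no solution over `z : A → k` if `z a ≠ 0`. -/
theorem elim {σ : Type*} [Finite σ] (L : Type*) [Field L] [Algebra A L] [IsFractionRing A L]
    (Lb : Type*) [Field Lb] [Algebra L Lb] [IsAlgClosed Lb] (S : Set (MvPolynomial σ A))
    (h : ∀ v : σ → Lb, ∃ p ∈ S, MvPolynomial.eval₂ ((algebraMap L Lb).comp (algebraMap A L)) v p
      ≠ 0) :
    ∃ a : A, a ≠ 0 ∧ ∀ (k : Type u) [Field k] (z : A →+* k), z a ≠ 0 → ∀ v : σ → k,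
      ∃ p ∈ S, MvPolynomial.eval₂ z v p ≠ 0 := by
  classical
  let I : Ideal (MvPolynomial σ L) := (Ideal.span S).map (MvPolynomial.map (algebraMap A L))
  have hI : I = ⊤ := by
    by_contra hne
    obtain ⟨m, hm, hle⟩ := Ideal.exists_le_maximal I hne
    let F := MvPolynomial σ L ⧸ m
    let _ : Field F := Ideal.Quotient.field m
    let π : MvPolynomial σ L →ₐ[L] F := Ideal.Quotient.mkₐ L m
    have hft : Algebra.FiniteType L F := Algebra.FiniteType.of_surjective π
      (Ideal.Quotient.mkₐ_surjective L m)
    have hfin : Module.Finite L F := finite_of_finite_type_of_isJacobsonRing L F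
    have : Algebra.IsAlgebraic L F := Algebra.IsAlgebraic.of_finite L F
    let φ : F →ₐ[L] Lb := IsAlgClosed.lift
    obtain ⟨p, hp, hpv⟩ := h (fun i => φ (π (X i)))
    apply hpv
    have h1 : MvPolynomial.eval₂ ((algebraMap L Lb).comp (algebraMap A L))
        (fun i => φ (π (X i))) p = φ (π (MvPolynomial.map (algebraMap A L) p)) := by
      have h2 : φ (π (MvPolynomial.map (algebraMap A L) p)) =
          MvPolynomial.aeval (fun i => φ (π (X i))) (MvPolynomial.map (algebraMap A L) p) := by
        have h3 : (φ.comp π) = MvPolynomial.aeval (fun i => φ (π (X i))) := by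
          apply MvPolynomial.algHom_ext
          intro i
          rw [AlgHom.comp_apply, MvPolynomial.aeval_X]
        exact congrArg (fun f : MvPolynomial σ L →ₐ[L] Lb =>
          f (MvPolynomial.map (algebraMap A L) p)) h3
      rw [h2, MvPolynomial.aeval_def, MvPolynomial.eval₂_map]
    rw [h1]
    have h5 : MvPolynomial.map (algebraMap A L) p ∈ m :=
      hle (Ideal.mem_map_of_mem _ (Ideal.subset_span hp))
    have h6 : π (MvPolynomial.map (algebraMap A L) p) = 0 :=
      Ideal.Quotient.eq_zero_iff_mem.2 h5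
    rw [h6, map_zero]
  have h1 : (1 : MvPolynomial σ L) ∈ I := by rw [hI]; trivial
  have hloc : IsLocalization ((nonZeroDivisors A).map (C : A →+* MvPolynomial σ A))
      (MvPolynomial σ L) := MvPolynomial.isLocalization (nonZeroDivisors A) L
  have h2 := (IsLocalization.mem_map_algebraMap_iff
    ((nonZeroDivisors A).map (C : A →+* MvPolynomial σ A)) (MvPolynomial σ L)
    (I := Ideal.span S) (z := 1)).1 h1
  obtain ⟨⟨⟨x, hx⟩, ⟨y, hy⟩⟩, hxy⟩ := h2
  obtain ⟨a, ha, rfl⟩ := hy
  have hinj : Function.Injective (algebraMap (MvPolynomial σ A) (MvPolynomial σ L)) := by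
    show Function.Injective (MvPolynomial.map (algebraMap A L))
    exact MvPolynomial.map_injective _ (IsFractionRing.injective A L)
  simp only [one_mul] at hxy
  have hCa : (C : A →+* MvPolynomial σ A) a ∈ Ideal.span S := by
    have := hinj hxy
    rw [this]
    exact hx
  refine ⟨a, nonZeroDivisors.ne_zero ha, ?_⟩
  intro k _ z hz v
  by_contra hall
  push Not at hall
  have hle : Ideal.span S ≤ RingHom.ker (MvPolynomial.eval₂Hom z v) := by
    rw [Ideal.span_le]
    intro p hp
    exact hall p hp
  have h7 := hle hCa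
  rw [RingHom.mem_ker, MvPolynomial.coe_eval₂Hom, MvPolynomial.eval₂_C] at h7
  exact hz h7

end elim

section generic

variable {τ : Type*} [Finite τ]

/-- exponents of degree at most `D` -/
abbrev Ex (τ : Type*) (D : ℕ) : Type _ := {α : τ →₀ ℕ // α.degree ≤ D}

instance (D : ℕ) : Finite (Ex τ D) := (Finsupp.finite_of_degree_le (σ := τ) D).to_subtype

instance (D : ℕ) : Fintype (Ex τ D) := Fintype.ofFinite _

/-- the polynomial with coefficients `v` in degrees `≤ d` (`d ≤ D`). -/
def gen {R : Type*} [CommRing R] (D d : ℕ) (v : Ex τ D → R) : MvPolynomial τ R :=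
  ∑ α : Ex τ D, monomial α.1 (if α.1.degree ≤ d then v α else 0)

theorem map_gen {R R' : Type*} [CommRing R] [CommRing R'] (f : R →+* R') (D d : ℕ)
    (v : Ex τ D → R) : MvPolynomial.map f (gen D d v) = gen D d (fun α => f (v α)) := by
  rw [gen, gen, map_sum]
  refine Finset.sum_congr rfl fun α _ => ?_
  rw [MvPolynomial.map_monomial]
  split_ifs
  · rfl
  · rw [map_zero]

theorem totalDegree_gen_le {R : Type*} [CommRing R] (D d : ℕ) (v : Ex τ D → R) :
    (gen D d v).totalDegree ≤ d := by
  refine totalDegree_finsetSum_le fun α _ => ?_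
  split_ifs with h
  · refine (totalDegree_monomial_le _ _).trans ?_
    exact h
  · rw [monomial_zero, totalDegree_zero]
    exact Nat.zero_le _

theorem gen_coeff {R : Type*} [CommRing R] (D d : ℕ) (hd : d ≤ D) (q : MvPolynomial τ R)
    (hq : q.totalDegree ≤ d) : gen D d (fun α => q.coeff α.1) = q := by
  classical
  ext β
  rw [gen, coeff_sum]
  by_cases hβ : β.degree ≤ D
  · rw [Finset.sum_eq_single (⟨β, hβ⟩ : Ex τ D)]
    · rw [coeff_monomial, if_pos rfl]
      split_ifs with h
      · rfl
      · by_contra hne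
        apply h
        have h1 := le_totalDegree (mem_support_iff.2 (Ne.symm hne))
        exact le_trans h1 hq
    · intro α _ hα
      rw [coeff_monomial, if_neg]
      intro h
      exact hα (Subtype.ext h)
    · intro h
      exact absurd (Finset.mem_univ _) h
  · rw [Finset.sum_eq_zero]
    · by_contra hne
      apply hβ
      have h1 := le_totalDegree (mem_support_iff.2 (Ne.symm hne))
      exact le_trans h1 (hq.trans hd)
    · intro α _
      rw [coeff_monomial, if_neg]
      intro h
      apply hβ
      rw [← h]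
      exact α.2

/-- the generic factorisation `P = Q R`, `deg Q ≤ d`, `deg R ≤ D - d` -/
def gq {A : Type*} [CommRing A] (P : MvPolynomial τ A) (D d : ℕ) :
    MvPolynomial τ (MvPolynomial (Ex τ D ⊕ Ex τ D) A) :=
  gen D d (fun α => X (Sum.inl α)) * gen D (D - d) (fun α => X (Sum.inr α)) -
    MvPolynomial.map C P

theorem key {A : Type*} [CommRing A] (P : MvPolynomial τ A) (D d : ℕ) {R : Type*} [CommRing R]
    (g : A →+* R) (v : Ex τ D ⊕ Ex τ D → R) :
    (∀ p ∈ Set.range (fun γ => (gq P D d).coeff γ), MvPolynomial.eval₂ g v p = 0) ↔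
      gen D d (fun α => v (Sum.inl α)) * gen D (D - d) (fun α => v (Sum.inr α)) =
        MvPolynomial.map g P := by
  have h1 : MvPolynomial.map (eval₂Hom g v) (gq P D d) =
      gen D d (fun α => v (Sum.inl α)) * gen D (D - d) (fun α => v (Sum.inr α)) -
      MvPolynomial.map g P := by
    rw [gq, map_sub, map_mul, map_gen, map_gen, MvPolynomial.map_map]
    congr 2
    · simp
    · simp
    · congr 1
      ext a
      simp
  rw [← sub_eq_zero, ← h1]
  constructor
  · intro h
    ext γ
    rw [coeff_map, coeff_zero]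
    exact h _ ⟨γ, rfl⟩
  · rintro h p ⟨γ, rfl⟩
    have h2 := congrArg (coeff γ) h
    rw [coeff_map, coeff_zero] at h2
    exact h2

omit [Finite τ] in
theorem isUnit_of_deg {k : Type*} [Field k] (q : MvPolynomial τ k) (h0 : q ≠ 0)
    (hq : q.totalDegree = 0) : IsUnit q := by
  rw [isUnit_iff_totalDegree_of_isReduced]
  refine ⟨?_, hq⟩
  rw [totalDegree_eq_zero_iff_eq_C] at hq
  rw [isUnit_iff_ne_zero]
  intro h
  apply h0
  rw [hq, h, C_0]

omit [Finite τ] in
theorem deg_of_isUnit {k : Type*} [Field k] (q : MvPolynomial τ k) (hq : IsUnit q) :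
    q.totalDegree = 0 := (isUnit_iff_totalDegree_of_isReduced.1 hq).2

/-- BERTINI–NOETHER: an absolutely irreducible polynomial over a domain stays irreducible under
`z : A → k` when `z a ≠ 0`. -/
theorem irreducible_spread {A : Type*} [CommRing A] [IsDomain A] (L : Type*) [Field L] [Algebra A L]
    [IsFractionRing A L] (Lb : Type*) [Field Lb] [Algebra L Lb] [IsAlgClosed Lb]
    (P : MvPolynomial τ A)
    (hP : Irreducible (MvPolynomial.map ((algebraMap L Lb).comp (algebraMap A L)) P)) :
    ∃ a : A, a ≠ 0 ∧ ∀ (k : Type u) [Field k] (z : A →+* k), z a ≠ 0 →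
      Irreducible (MvPolynomial.map z P) := by
  classical
  set f : A →+* Lb := (algebraMap L Lb).comp (algebraMap A L) with hf
  have hfinj : Function.Injective f :=
    (FaithfulSMul.algebraMap_injective L Lb).comp (IsFractionRing.injective A L)
  set D := P.totalDegree with hD
  have hP0 : P ≠ 0 := by
    rintro rfl
    rw [map_zero] at hP
    exact hP.ne_zero rfl
  have hDf : (MvPolynomial.map f P).totalDegree = D := by
    show (MvPolynomial.map f P).support.sup (fun s => s.sum fun _ e => e) =
      P.support.sup (fun s => s.sum fun _ e => e)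
    rw [support_map_of_injective _ hfinj]
  -- leading coefficient
  obtain ⟨α₀, hα₀, hα₀D⟩ : ∃ α ∈ P.support, α.degree = D := by
    have hne : P.support.Nonempty := by
      rwa [Finset.nonempty_iff_ne_empty, Ne, support_eq_empty]
    obtain ⟨α, hα, h⟩ := Finset.exists_mem_eq_sup P.support hne
      (fun s : τ →₀ ℕ => s.sum fun _ e => e)
    exact ⟨α, hα, h.symm⟩
  have hD1 : 1 ≤ D := by
    by_contra h
    have h0 : D = 0 := by omega
    exact hP.not_isUnit (isUnit_of_deg _ hP.ne_zero (hDf.trans h0))
  -- elimination for every splitting of the degree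
  have hel : ∀ d : ℕ, ∃ a : A, a ≠ 0 ∧ (1 ≤ d → d < D → ∀ (k : Type u) [Field k] (z : A →+* k),
      z a ≠ 0 → ∀ v : Ex τ D ⊕ Ex τ D → k,
      gen D d (fun α => v (Sum.inl α)) * gen D (D - d) (fun α => v (Sum.inr α)) ≠
        MvPolynomial.map z P) := by
    intro d
    by_cases hd : 1 ≤ d ∧ d < D
    · obtain ⟨a, ha, h⟩ := elim.{u} L Lb (Set.range (fun γ => (gq P D d).coeff γ)) (by
        intro v
        by_contra hall
        push Not at hall
        have h1 := (key P D d f v).1 hall
        rcases hP.isUnit_or_isUnit h1.symm with h2 | h2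
        · have h3 := deg_of_isUnit _ h2
          have h4 : (MvPolynomial.map f P).totalDegree ≤ 0 + (D - d) := by
            rw [← h1]
            refine (totalDegree_mul _ _).trans ?_
            exact add_le_add h3.le (totalDegree_gen_le _ _ _)
          omega
        · have h3 := deg_of_isUnit _ h2
          have h4 : (MvPolynomial.map f P).totalDegree ≤ d + 0 := by
            rw [← h1]
            refine (totalDegree_mul _ _).trans ?_
            exact add_le_add (totalDegree_gen_le _ _ _) h3.le
          omega)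
      refine ⟨a, ha, fun _ _ k _ z hz v hv => ?_⟩
      obtain ⟨p, hp, hpv⟩ := h k z hz v
      exact hpv ((key P D d z v).2 hv p hp)
    · exact ⟨1, one_ne_zero, fun h1 h2 => absurd ⟨h1, h2⟩ hd⟩
  choose a ha h using hel
  refine ⟨P.coeff α₀ * ∏ d ∈ Finset.range D, a d, mul_ne_zero (mem_support_iff.1 hα₀)
    (Finset.prod_ne_zero_iff.2 fun d _ => ha d), ?_⟩
  intro k _ z hz
  rw [map_mul, map_prod, mul_ne_zero_iff, Finset.prod_ne_zero_iff] at hz
  have hDz : (MvPolynomial.map z P).totalDegree = D := by
    apply le_antisymm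
    · refine Finset.sup_le fun s hs => ?_
      exact (le_totalDegree (support_map_subset _ _ hs))
    · rw [← hα₀D]
      exact le_totalDegree (mem_support_iff.2 (by rw [coeff_map]; exact hz.1))
  refine ⟨fun hu => ?_, fun q r hqr => ?_⟩
  · have := deg_of_isUnit _ hu
    omega
  · have hq0 : q ≠ 0 := by
      rintro rfl
      rw [zero_mul] at hqr
      rw [hqr, totalDegree_zero] at hDz
      omega
    have hr0 : r ≠ 0 := by
      rintro rfl
      rw [mul_zero] at hqr
      rw [hqr, totalDegree_zero] at hDz
      omega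
    have hsum : q.totalDegree + r.totalDegree = D := by
      rw [← totalDegree_mul_of_isDomain hq0 hr0, ← hqr, hDz]
    by_cases hq : q.totalDegree = 0
    · exact Or.inl (isUnit_of_deg _ hq0 hq)
    by_cases hr : r.totalDegree = 0
    · exact Or.inr (isUnit_of_deg _ hr0 hr)
    exfalso
    have h1 := h q.totalDegree (by omega) (by omega) k z (hz.2 _ (Finset.mem_range.2 (by omega)))
      (Sum.elim (fun α => q.coeff α.1) (fun α => r.coeff α.1))
    apply h1
    simp only [Sum.elim_inl, Sum.elim_inr]
    rw [gen_coeff D _ (by omega) q le_rfl, gen_coeff D _ (by omega) r (by omega), hqr]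

end generic

end Crest.Agent.R276.BN0_143
end
end

-- ▼ part R276/BN1_143
section

/-!
# Row 276, MOD-BN (helper143), part 1: if `L` is algebraically closed in `K` (char. 0) then an
irreducible polynomial over `L` defining a subfield of `K` is absolutely irreducible.
-/

set_option autoImplicit false

noncomputable section

open MvPolynomial

namespace Crest.Agent.R276.BN1_143

universe v

variable {L : Type*} {K : Type v} [Field L] [Field K] [Algebra L K]

/-- `L` is algebraically closed in `K` -/
def AC (L K : Type*) [Field L] [Field K] [Algebra L K] : Prop :=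
  ∀ a : K, IsAlgebraic L a → ∃ c : L, algebraMap L K c = a

/-- minimal polynomials over `L` stay irreducible over `K` -/
theorem irreducible_map (h : AC L K) {m : Polynomial L} (hm : m.Monic) (hi : Irreducible m) :
    Irreducible (m.map (algebraMap L K)) := by
  have hmK : (m.map (algebraMap L K)).Monic := hm.map _
  have hne1 : m.map (algebraMap L K) ≠ 1 := by
    intro h1
    apply hi.not_isUnit
    have : m = 1 := by
      apply Polynomial.map_injective _ (algebraMap L K).injective
      rw [h1, Polynomial.map_one]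
    rw [this]
    exact isUnit_one
  rw [hmK.irreducible_iff_natDegree']
  refine ⟨hne1, ?_⟩
  intro f g hf hg hfg hdeg
  have h1 := integralClosure.mem_lifts_of_monic_of_dvd_map K hm hg ⟨f, by rw [← hfg, mul_comm]⟩
  rw [Polynomial.lifts_iff_coeff_lifts] at h1
  have h2 : g ∈ Polynomial.lifts (algebraMap L K) := by
    rw [Polynomial.lifts_iff_coeff_lifts]
    intro n
    obtain ⟨c, hc⟩ := h1 n
    have hc2 : IsAlgebraic L (g.coeff n) := by
      rw [← hc]
      exact IsIntegral.isAlgebraic c.2
    obtain ⟨c', hc'⟩ := h _ hc2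
    exact ⟨c', hc'⟩
  obtain ⟨g0, hg0, hdeg0, hmon⟩ := Polynomial.lifts_and_natDegree_eq_and_monic h2 hg
  have hdvd : g0 ∣ m := by
    rw [← Polynomial.map_dvd_map' (algebraMap L K), hg0, ← hfg]
    exact Dvd.intro_left f rfl
  obtain ⟨q, hq⟩ := hdvd
  have h3 : 0 < g.natDegree ∧ g.natDegree < m.natDegree := by
    have h4 := Finset.mem_Ioc.1 hdeg
    rw [hm.natDegree_map] at h4
    refine ⟨h4.1, ?_⟩
    have := h4.2
    omega
  rcases hi.isUnit_or_isUnit hq with hu | hu
  · have := Polynomial.natDegree_eq_zero_of_isUnit hu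
    omega
  · have h5 := Polynomial.natDegree_eq_zero_of_isUnit hu
    have h6 : m.natDegree = g0.natDegree + q.natDegree := by
      rw [hq]
      apply Polynomial.natDegree_mul
      · exact hmon.ne_zero
      · rintro rfl
        exact hu.ne_zero rfl
    omega

section main

variable {τ : Type*}

/-- the `L`-coordinates of a polynomial over a finite extension with a power basis -/
def comp {E : Type*} [Field E] [Algebra L E] (pb : PowerBasis L E) (F : MvPolynomial τ E)
    (j : Fin pb.dim) : MvPolynomial τ L :=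
  ∑ α ∈ F.support, monomial α (pb.basis.repr (coeff α F) j)

theorem sum_comp {E : Type*} [Field E] [Algebra L E] (pb : PowerBasis L E)
    (F : MvPolynomial τ E) :
    F = ∑ j : Fin pb.dim, C (pb.gen ^ (j : ℕ)) * MvPolynomial.map (algebraMap L E) (comp pb F j) := by
  have h1 : ∀ j : Fin pb.dim, C (pb.gen ^ (j : ℕ)) * MvPolynomial.map (algebraMap L E) (comp pb F j)
      = ∑ α ∈ F.support, monomial α (pb.basis.repr (coeff α F) j • pb.basis j) := by
    intro j
    rw [comp, map_sum, Finset.mul_sum]
    refine Finset.sum_congr rfl fun α _ => ?_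
    rw [MvPolynomial.map_monomial, C_mul_monomial, PowerBasis.basis_eq_pow, Algebra.smul_def,
      mul_comm]
  rw [Finset.sum_congr rfl fun j _ => h1 j, Finset.sum_comm]
  conv_lhs => rw [F.as_sum]
  refine Finset.sum_congr rfl fun α _ => ?_
  rw [← map_sum, pb.basis.sum_repr]

theorem deg_map {R S : Type*} [Field R] [Field S] (f : R →+* S) (q : MvPolynomial τ R) :
    (MvPolynomial.map f q).totalDegree = q.totalDegree := by
  show (MvPolynomial.map f q).support.sup (fun s => s.sum fun _ e => e) =
    q.support.sup (fun s => s.sum fun _ e => e)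
  rw [support_map_of_injective _ f.injective]

theorem isUnit_of_deg {k : Type*} [Field k] (q : MvPolynomial τ k) (h0 : q ≠ 0)
    (hq : q.totalDegree = 0) : IsUnit q := by
  rw [isUnit_iff_totalDegree_of_isReduced]
  refine ⟨?_, hq⟩
  rw [totalDegree_eq_zero_iff_eq_C] at hq
  rw [isUnit_iff_ne_zero]
  intro h
  apply h0
  rw [hq, h, C_0]

theorem deg_of_isUnit {k : Type*} [Field k] (q : MvPolynomial τ k) (hq : IsUnit q) :
    q.totalDegree = 0 := (isUnit_iff_totalDegree_of_isReduced.1 hq).2

/-- the case of a finite extension `E / L`: the kernel of `E[x] → K ⊗ E` is generated by `P` -/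
theorem ext_kernel [CharZero L] (h : AC L K) (P : MvPolynomial τ L)
    (φ : MvPolynomial τ L →ₐ[L] K) (hker : ∀ F, φ F = 0 ↔ P ∣ F)
    (E : Type*) [Field E] [Algebra L E] [FiniteDimensional L E] :
    ∃ (K' : Type v) (_ : Field K') (ψ : MvPolynomial τ E →+* K'),
      ∀ F, ψ F = 0 ↔ MvPolynomial.map (algebraMap L E) P ∣ F := by
  classical
  let pb : PowerBasis L E := Field.powerBasisOfFiniteOfSeparable L E
  have hint : IsIntegral L pb.gen := IsIntegral.of_finite L pb.gen
  let m := minpoly L pb.gen
  have hm : m.Monic := minpoly.monic hint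
  have hirr := irreducible_map h hm (minpoly.irreducible hint)
  have hmK : (m.map (algebraMap L K)).Monic := hm.map _
  have : Fact (Irreducible (m.map (algebraMap L K))) := ⟨hirr⟩
  let K' := AdjoinRoot (m.map (algebraMap L K))
  let pbK : PowerBasis K K' := AdjoinRoot.powerBasis' hmK
  have hgen : pbK.gen = AdjoinRoot.root (m.map (algebraMap L K)) := AdjoinRoot.powerBasis'_gen hmK
  have hdim : pbK.dim = pb.dim := by
    rw [AdjoinRoot.powerBasis'_dim, hm.natDegree_map]
    exact pb.natDegree_minpoly
  have hroot : Polynomial.aeval (AdjoinRoot.root (m.map (algebraMap L K))) (minpoly L pb.gen) = 0 := by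
    have h1 := AdjoinRoot.eval₂_root (m.map (algebraMap L K))
    rw [Polynomial.eval₂_map] at h1
    exact h1
  let ι : E →ₐ[L] K' := pb.lift (AdjoinRoot.root (m.map (algebraMap L K))) hroot
  have hιgen : ι pb.gen = pbK.gen := by
    rw [hgen]
    exact pb.lift_gen _ hroot
  let ψ : MvPolynomial τ E →+* K' := MvPolynomial.eval₂Hom (ι : E →+* K')
    (fun i => algebraMap K K' (φ (X i)))
  have hψmap : ∀ F : MvPolynomial τ L, ψ (MvPolynomial.map (algebraMap L E) F) =
      algebraMap K K' (φ F) := by
    intro F
    have h1 : (ψ.comp (MvPolynomial.map (algebraMap L E))) =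
        (algebraMap K K').comp (φ : MvPolynomial τ L →+* K) := by
      apply MvPolynomial.ringHom_ext
      · intro a
        simp only [RingHom.comp_apply, MvPolynomial.map_C, ψ, coe_eval₂Hom, eval₂_C]
        have h2 : (φ : MvPolynomial τ L →+* K) (C a) = algebraMap L K a := φ.commutes a
        rw [h2]
        show ι (algebraMap L E a) = _
        rw [ι.commutes, ← IsScalarTower.algebraMap_apply]
      · intro i
        simp [ψ]
    exact congrArg (fun f : MvPolynomial τ L →+* K' => f F) h1
  refine ⟨K', inferInstance, ψ, fun F => ⟨fun hF => ?_, ?_⟩⟩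
  · have h1 := sum_comp pb F
    have h2 : ψ F = ∑ j : Fin pb.dim, φ (comp pb F j) • pbK.gen ^ (j : ℕ) := by
      conv_lhs => rw [h1]
      rw [map_sum]
      refine Finset.sum_congr rfl fun j _ => ?_
      rw [map_mul, hψmap, Algebra.smul_def, mul_comm]
      congr 1
      show MvPolynomial.eval₂Hom (ι : E →+* K') _ (C (pb.gen ^ (j : ℕ))) = _
      rw [coe_eval₂Hom, eval₂_C]
      show ι (pb.gen ^ (j : ℕ)) = _
      rw [map_pow, hιgen]
    rw [hF] at h2
    have hli := pbK.basis.linearIndependent
    rw [Fintype.linearIndependent_iff] at hli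
    have h3 : ∀ j : Fin pb.dim, φ (comp pb F j) = 0 := by
      intro j
      have h4 := hli (fun i : Fin pbK.dim => φ (comp pb F (Fin.cast hdim i))) (by
        rw [h2]
        symm
        refine Fintype.sum_equiv (finCongr hdim.symm) _ _ fun i => ?_
        rw [PowerBasis.basis_eq_pow]
        rfl) (Fin.cast hdim.symm j)
      exact h4
    rw [h1]
    refine Finset.dvd_sum fun j _ => ?_
    apply Dvd.dvd.mul_left
    exact map_dvd _ ((hker _).1 (h3 j))
  · rintro ⟨G, rfl⟩
    rw [map_mul, hψmap, (hker P).2 (dvd_refl P), map_zero, zero_mul]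

/-- IRREDUCIBLE + `L` ALGEBRAICALLY CLOSED in the function field ⟹ ABSOLUTELY IRREDUCIBLE -/
theorem abs_irreducible [CharZero L] (h : AC L K) (P : MvPolynomial τ L) (hP0 : P ≠ 0)
    (φ : MvPolynomial τ L →ₐ[L] K) (hker : ∀ F, φ F = 0 ↔ P ∣ F)
    (Lb : Type*) [Field Lb] [Algebra L Lb] [Algebra.IsAlgebraic L Lb] :
    Irreducible (MvPolynomial.map (algebraMap L Lb) P) := by
  classical
  refine ⟨fun hu => ?_, fun Q R hQR => ?_⟩
  · have h1 := deg_of_isUnit _ hu
    rw [deg_map] at h1
    have h2 := isUnit_of_deg P hP0 h1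
    have h3 : φ 1 = 0 := (hker 1).2 h2.dvd
    rw [map_one] at h3
    exact one_ne_zero h3
  · let S : Set Lb := (Q.coeffs : Set Lb) ∪ R.coeffs
    have hSf : S.Finite := (Finset.finite_toSet _).union (Finset.finite_toSet _)
    have : Finite S := hSf.to_subtype
    let E := IntermediateField.adjoin L S
    have : FiniteDimensional L E := IntermediateField.finiteDimensional_adjoin
      (fun x _ => Algebra.IsIntegral.isIntegral x)
    have hsub : S ⊆ Set.range (algebraMap E Lb) := by
      intro x hx
      exact ⟨⟨x, IntermediateField.subset_adjoin L S hx⟩, rfl⟩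
    obtain ⟨Q', hQ'⟩ : Q ∈ Set.range (MvPolynomial.map (algebraMap E Lb)) :=
      mem_range_map_iff_coeffs_subset.2 (Set.subset_union_left.trans hsub)
    obtain ⟨R', hR'⟩ : R ∈ Set.range (MvPolynomial.map (algebraMap E Lb)) :=
      mem_range_map_iff_coeffs_subset.2 (Set.subset_union_right.trans hsub)
    have hPE : MvPolynomial.map (algebraMap L E) P = Q' * R' := by
      apply MvPolynomial.map_injective _ (algebraMap E Lb).injective
      rw [map_mul, hQ', hR', ← hQR, MvPolynomial.map_map, ← IsScalarTower.algebraMap_eq]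
    obtain ⟨K', _, ψ, hψ⟩ := ext_kernel h P φ hker E
    have hPE0 : MvPolynomial.map (algebraMap L E) P ≠ 0 := by
      intro h0
      apply hP0
      apply MvPolynomial.map_injective _ (algebraMap L E).injective
      rw [h0, map_zero]
    have hQ0 : Q' ≠ 0 := by
      rintro rfl
      rw [zero_mul] at hPE
      exact hPE0 hPE
    have hR0 : R' ≠ 0 := by
      rintro rfl
      rw [mul_zero] at hPE
      exact hPE0 hPE
    have hdeg := totalDegree_mul_of_isDomain hQ0 hR0
    have h0 : ψ Q' * ψ R' = 0 := by
      rw [← map_mul, ← hPE]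
      exact (hψ _).2 (dvd_refl _)
    rcases mul_eq_zero.1 h0 with h1 | h1
    · right
      have h2 := totalDegree_le_of_dvd_of_isDomain ((hψ _).1 h1) hQ0
      rw [hPE, hdeg] at h2
      rw [← hR']
      exact (isUnit_of_deg R' hR0 (by omega)).map _
    · left
      have h2 := totalDegree_le_of_dvd_of_isDomain ((hψ _).1 h1) hR0
      rw [hPE, hdeg] at h2
      rw [← hQ']
      exact (isUnit_of_deg Q' hQ0 (by omega)).map _

end main

end Crest.Agent.R276.BN1_143
end
end

-- ▼ part R276/BN2_143
section

/-!
# Row 276, MOD-BN (helper143), part 2: kernels of evaluation maps over UFDs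
-/

set_option autoImplicit false

noncomputable section

namespace Crest.Agent.R276.BN2_143

open Polynomial

/-- Let `R` be a UFD, `P ∈ R[T]` irreducible of positive degree and `θ` a root of `P` in an
`R`-algebra `C ⊇ R` (any commutative ring). Then `P` generates the kernel of `R[T] → C`. -/
theorem ker_iff {R E : Type*} [CommRing R] [IsDomain R] [UniqueFactorizationMonoid R] [CommRing E]
    [Algebra R E] (hinj : Function.Injective (algebraMap R E)) (P : R[X]) (hP : Irreducible P)
    (hdeg : P.natDegree ≠ 0) (θ : E) (hθ : aeval θ P = 0) (G : R[X]) :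
    aeval θ G = 0 ↔ P ∣ G := by
  classical
  constructor
  · intro hG
    by_contra hndvd
    let _ : StrongNormalizationMonoid R := UniqueFactorizationMonoid.strongNormalizationMonoid
    let _ : NormalizedGCDMonoid R := UniqueFactorizationMonoid.toNormalizedGCDMonoid R
    have hprim : P.IsPrimitive := hP.isPrimitive hdeg
    let F := FractionRing R
    have hPF : Irreducible (P.map (algebraMap R F)) :=
      (hprim.irreducible_iff_irreducible_map_fraction_map (K := F)).1 hP
    have hnd : ¬ P.map (algebraMap R F) ∣ G.map (algebraMap R F) := by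
      intro h
      apply hndvd
      by_cases hG0 : G = 0
      · rw [hG0]; exact dvd_zero _
      -- reduce to the primitive part
      have h1 : G = C G.content * G.primPart := G.eq_C_content_mul_primPart
      have hc : G.content ≠ 0 := by rwa [Ne, content_eq_zero_iff]
      have h2 : P.map (algebraMap R F) ∣ G.primPart.map (algebraMap R F) := by
        rw [h1, Polynomial.map_mul, Polynomial.map_C] at h
        have hu : IsUnit (C (algebraMap R F G.content)) := by
          rw [Polynomial.isUnit_C, isUnit_iff_ne_zero]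
          exact (map_ne_zero_iff _ (IsFractionRing.injective R F)).2 hc
        exact (hu.dvd_mul_left).1 h
      have h3 := hprim.dvd_of_fraction_map_dvd_fraction_map (K := F) h2
      rw [h1]
      exact h3.mul_left _
    have hcop : IsCoprime (P.map (algebraMap R F)) (G.map (algebraMap R F)) :=
      (hPF.coprime_iff_not_dvd).2 hnd
    obtain ⟨U, V, hUV⟩ := hcop
    obtain ⟨u, hu, hU⟩ := IsLocalization.integerNormalization_spec (nonZeroDivisors R) U
    obtain ⟨v, hv, hV⟩ := IsLocalization.integerNormalization_spec (nonZeroDivisors R) V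
    set U' := IsLocalization.integerNormalization (nonZeroDivisors R) U
    set V' := IsLocalization.integerNormalization (nonZeroDivisors R) V
    have hid : C (u * v) = C v * U' * P + C u * V' * G := by
      apply Polynomial.map_injective (algebraMap R F) (IsFractionRing.injective R F)
      simp only [Polynomial.map_add, Polynomial.map_mul, Polynomial.map_C]
      rw [hU, hV, Algebra.smul_def, Algebra.smul_def, IsScalarTower.algebraMap_apply R F F[X],
        IsScalarTower.algebraMap_apply R F F[X], Polynomial.algebraMap_eq]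
      rw [map_mul, C_mul]
      linear_combination (-C (algebraMap R F u) * C (algebraMap R F v)) * hUV
    have h4 := congrArg (aeval θ) hid
    rw [map_add, map_mul _ _ P, map_mul _ _ G, hθ, hG, mul_zero, mul_zero, add_zero, aeval_C]
      at h4
    have h5 : u * v = 0 := hinj (by rw [h4, map_zero])
    rcases mul_eq_zero.1 h5 with h6 | h6
    · exact nonZeroDivisors.ne_zero hu h6
    · exact nonZeroDivisors.ne_zero hv h6
  · rintro ⟨H, rfl⟩
    rw [map_mul, hθ, zero_mul]

end Crest.Agent.R276.BN2_143
end
end

-- ▼ part R276/BN3_143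
section

/-!
# Row 276, MOD-BN (helper143), part 3: for `B` étale over `A[x]`, `Frac A` algebraically closed in
`Frac B`: the fibres `k ⊗[A] B` are domains over a dense open subset of `A`.
-/

set_option autoImplicit false

noncomputable section

namespace Crest.Agent.R276.BN3_143

open Polynomial TensorProduct

universe u

theorem isDomain_of {R E : Type*} [CommRing R] [IsDomain R] [UniqueFactorizationMonoid R]
    [CommRing E] [Nontrivial E] [Algebra R E] (htf : ∀ (r : R) (u : E), r ≠ 0 → r • u = 0 → u = 0)
    (P : R[X]) (hP : Irreducible P) (hdeg : P.natDegree ≠ 0) (θ : E) (hθ : aeval θ P = 0)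
    (c : R) (hc : c ≠ 0) (hgen : ∀ u : E, ∃ (N : ℕ) (Q : R[X]), c ^ N • u = aeval θ Q) :
    IsDomain E := by
  have hinj : Function.Injective (algebraMap R E) := by
    rw [injective_iff_map_eq_zero]
    intro r hr
    by_contra hne
    have h1 := htf r 1 hne (by rw [Algebra.smul_def, hr, zero_mul])
    exact one_ne_zero h1
  have hprime : Prime P := hP.prime
  have : NoZeroDivisors E := by
    refine ⟨fun {u v} huv => ?_⟩
    obtain ⟨N, Q, hQ⟩ := hgen u
    obtain ⟨N', Q', hQ'⟩ := hgen v
    have h1 : aeval θ (Q * Q') = 0 := by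
      rw [map_mul, ← hQ, ← hQ', smul_mul_smul_comm, huv, smul_zero]
    have h2 := (BN2_143.ker_iff hinj P hP hdeg θ hθ _).1 h1
    rcases hprime.dvd_or_dvd h2 with h3 | h3
    · left
      have h4 := (BN2_143.ker_iff hinj P hP hdeg θ hθ _).2 h3
      rw [← hQ] at h4
      exact htf _ _ (pow_ne_zero _ hc) h4
    · right
      have h4 := (BN2_143.ker_iff hinj P hP hdeg θ hθ _).2 h3
      rw [← hQ'] at h4
      exact htf _ _ (pow_ne_zero _ hc) h4
  exact NoZeroDivisors.to_isDomain E

section nontriv

variable {A B : Type*} [CommRing A] [IsDomain A] [CommRing B] [IsDomain B] [Algebra A B]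

theorem nontrivial_spread [Algebra.FinitePresentation A B] [Module.Flat A B]
    (hinj : Function.Injective (algebraMap A B)) :
    ∃ a : A, a ≠ 0 ∧ ∀ (k : Type u) [Field k] [Algebra A k], algebraMap A k a ≠ 0 →
      Nontrivial (k ⊗[A] B) := by
  have hopen := (PrimeSpectrum.isOpenMap_comap_of_hasGoingDown_of_finitePresentation
    (R := A) (S := B)).isOpen_range
  have hmem : (⊥ : PrimeSpectrum A) ∈ Set.range (PrimeSpectrum.comap (algebraMap A B)) := by
    refine ⟨⊥, ?_⟩
    apply PrimeSpectrum.ext
    show Ideal.comap (algebraMap A B) ⊥ = ⊥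
    exact (RingHom.injective_iff_ker_eq_bot _).1 hinj
  obtain ⟨s, ⟨a, rfl⟩, has, hsub⟩ :=
    PrimeSpectrum.isTopologicalBasis_basic_opens.isOpen_iff.1 hopen _ hmem
  refine ⟨a, ?_, ?_⟩
  · intro h0
    apply (PrimeSpectrum.mem_basicOpen a _).1 has
    rw [h0]
    exact Ideal.zero_mem _
  · intro k _ _ hk
    obtain ⟨p, hpd⟩ : ∃ p : PrimeSpectrum A, p.asIdeal = RingHom.ker (algebraMap A k) :=
      ⟨⟨RingHom.ker (algebraMap A k), RingHom.ker_isPrime _⟩, rfl⟩
    have hp : p ∈ Set.range (PrimeSpectrum.comap (algebraMap A B)) := by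
      apply hsub
      exact (PrimeSpectrum.mem_basicOpen a p).2 (fun h => hk (by rw [hpd] at h; exact h))
    have h1 := (PrimeSpectrum.nontrivial_iff_mem_rangeComap (R := A) (S := B) p).2 hp
    let κ := p.asIdeal.ResidueField
    let f : κ →+* k := Ideal.ResidueField.lift p.asIdeal (algebraMap A k) (le_of_eq hpd) (by
      intro x hx
      rw [Submonoid.mem_comap, IsUnit.mem_submonoid_iff, isUnit_iff_ne_zero]
      intro h
      apply hx
      rw [hpd]
      exact h)
    let _ : Algebra κ k := f.toAlgebra
    have : IsScalarTower A κ k := IsScalarTower.of_algebraMap_eq fun x => by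
      show _ = f (algebraMap A κ x)
      rw [Ideal.ResidueField.lift_algebraMap]
    have : Nontrivial (k ⊗[κ] (κ ⊗[A] B)) := Module.FaithfullyFlat.lTensor_nontrivial κ k _
    exact (TensorProduct.AlgebraTensorModule.cancelBaseChange A κ k k B).symm.toEquiv.nontrivial

end nontriv

section torsion

theorem torsionFree {ι : Type*} {A B k : Type*} [CommRing A] [CommRing B] [Algebra A B] [Field k]
    [Algebra A k] [Algebra (MvPolynomial ι A) B] [IsScalarTower A (MvPolynomial ι A) B]
    [Module.Flat (MvPolynomial ι A) B] (x : ι → B)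
    (hx : ∀ i, algebraMap (MvPolynomial ι A) B (MvPolynomial.X i) = x i) (r : MvPolynomial ι k)
    (hr : r ≠ 0) (u : k ⊗[A] B)
    (hu : MvPolynomial.aeval (fun i => (1 : k) ⊗ₜ[A] x i) r * u = 0) : u = 0 := by
  let e0 : k ⊗[A] MvPolynomial ι A ≃ₐ[k] MvPolynomial ι k := MvPolynomial.algebraTensorAlgEquiv A k
  let c0 : k ⊗[A] MvPolynomial ι A ≃ₐ[A] MvPolynomial ι A ⊗[A] k := Algebra.TensorProduct.comm A _ _
  let e : B ⊗[MvPolynomial ι A] (MvPolynomial ι A ⊗[A] k) ≃ₐ[B] B ⊗[A] k :=
    Algebra.TensorProduct.cancelBaseChange A (MvPolynomial ι A) B B k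
  let c1 : B ⊗[A] k ≃ₐ[A] k ⊗[A] B := Algebra.TensorProduct.comm A _ _
  let r1 : MvPolynomial ι A ⊗[A] k := c0 (e0.symm r)
  have hΦ : ∀ q : MvPolynomial ι k, c1 (e (1 ⊗ₜ c0 (e0.symm q))) =
      MvPolynomial.aeval (fun i => (1 : k) ⊗ₜ[A] x i) q := by
    intro q
    let Φ : MvPolynomial ι k →+* k ⊗[A] B :=
      (c1.toRingEquiv.toRingHom.comp e.toRingEquiv.toRingHom).comp
        ((Algebra.TensorProduct.includeRight :
          (MvPolynomial ι A ⊗[A] k) →ₐ[MvPolynomial ι A]
            B ⊗[MvPolynomial ι A] (MvPolynomial ι A ⊗[A] k)).toRingHom.comp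
          (c0.toRingEquiv.toRingHom.comp e0.symm.toRingEquiv.toRingHom))
    have h1 : Φ = (MvPolynomial.aeval (fun i => (1 : k) ⊗ₜ[A] x i) :
        MvPolynomial ι k →ₐ[k] k ⊗[A] B).toRingHom := by
      apply MvPolynomial.ringHom_ext
      · intro c
        show c1 (e (1 ⊗ₜ c0 (e0.symm (MvPolynomial.C c)))) =
          MvPolynomial.aeval (fun i => (1 : k) ⊗ₜ[A] x i) (MvPolynomial.C c)
        have h2 : e0.symm (MvPolynomial.C c) = c ⊗ₜ 1 := by
          rw [AlgEquiv.symm_apply_eq]
          rw [MvPolynomial.algebraTensorAlgEquiv_tmul, map_one, MvPolynomial.smul_eq_C_mul, mul_one]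
        rw [h2, Algebra.TensorProduct.comm_tmul, Algebra.TensorProduct.cancelBaseChange_tmul,
          one_smul, Algebra.TensorProduct.comm_tmul, MvPolynomial.aeval_C]
        rfl
      · intro i
        show c1 (e (1 ⊗ₜ c0 (e0.symm (MvPolynomial.X i)))) =
          MvPolynomial.aeval (fun i => (1 : k) ⊗ₜ[A] x i) (MvPolynomial.X i)
        rw [MvPolynomial.algebraTensorAlgEquiv_symm_X, Algebra.TensorProduct.comm_tmul,
          Algebra.TensorProduct.cancelBaseChange_tmul, Algebra.TensorProduct.comm_tmul,
          MvPolynomial.aeval_X, Algebra.smul_def, hx, mul_one]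
    exact congrArg (fun f : MvPolynomial ι k →+* k ⊗[A] B => f q) h1
  have hinj : Function.Injective (LinearMap.mulLeft (MvPolynomial ι A) r1) := by
    rw [injective_iff_map_eq_zero]
    intro w hw
    have h1 : r1 * w = 0 := hw
    have h2 : r * e0 (c0.symm w) = 0 := by
      have h3 := congrArg (fun t => e0 (c0.symm t)) h1
      simp only [map_mul, map_zero, r1, AlgEquiv.symm_apply_apply, AlgEquiv.apply_symm_apply] at h3
      exact h3
    rcases mul_eq_zero.1 h2 with h4 | h4
    · exact absurd h4 hr
    · have h5 : c0.symm w = 0 := by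
        apply e0.injective
        rw [h4, map_zero]
      apply c0.symm.injective
      rw [h5, map_zero]
  have hflat := Module.Flat.lTensor_preserves_injective_linearMap (M := B) _ hinj
  have hmul : LinearMap.lTensor B (LinearMap.mulLeft (MvPolynomial ι A) r1) =
      LinearMap.mulLeft (MvPolynomial ι A)
        ((1 : B) ⊗ₜ[MvPolynomial ι A] r1 : B ⊗[MvPolynomial ι A] (MvPolynomial ι A ⊗[A] k)) := by
    apply TensorProduct.ext'
    intro a b
    rw [LinearMap.lTensor_tmul, LinearMap.mulLeft_apply, LinearMap.mulLeft_apply,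
      Algebra.TensorProduct.tmul_mul_tmul, one_mul]
  have h6 : (1 ⊗ₜ r1) * e.symm (c1.symm u) = 0 := by
    apply e.injective
    apply c1.injective
    rw [map_mul, map_mul, hΦ r, AlgEquiv.apply_symm_apply, AlgEquiv.apply_symm_apply, hu,
      map_zero, map_zero]
  have h8 : LinearMap.lTensor B (LinearMap.mulLeft (MvPolynomial ι A) r1)
      (e.symm (c1.symm u)) = 0 := by
    rw [hmul]
    exact h6
  have h7 := hflat (h8.trans (map_zero _).symm)
  apply c1.symm.injective
  apply e.symm.injective
  rw [h7, map_zero, map_zero]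

end torsion

section gens

variable {ι A B : Type*} [CommRing A] [CommRing B] [Algebra A B]
  [Algebra (MvPolynomial ι A) B] [IsScalarTower A (MvPolynomial ι A) B]

/-- clearing denominators on generators is enough -/
theorem gen_of_generators (θ : B) (G : Finset B) (hG : Algebra.adjoin A (G : Set B) = ⊤)
    (h : ∀ b ∈ G, ∃ (c : MvPolynomial ι A) (Q : (MvPolynomial ι A)[X]), c ≠ 0 ∧
      algebraMap _ B c * b = aeval θ Q) [IsDomain A] :
    ∃ c : MvPolynomial ι A, c ≠ 0 ∧ ∀ b : B, ∃ (N : ℕ) (Q : (MvPolynomial ι A)[X]),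
      algebraMap _ B c ^ N * b = aeval θ Q := by
  classical
  choose! cf Qf h0 h1 using h
  refine ⟨∏ b ∈ G, cf b, Finset.prod_ne_zero_iff.2 fun b hb => h0 b hb, fun b => ?_⟩
  set c := ∏ b ∈ G, cf b with hc
  have hb : b ∈ Algebra.adjoin A (G : Set B) := by rw [hG]; trivial
  have hstep : ∀ (b : B) (N : ℕ) (Q : (MvPolynomial ι A)[X]) (M : ℕ),
      algebraMap _ B c ^ N * b = aeval θ Q →
      algebraMap _ B c ^ (M + N) * b = aeval θ (C (c ^ M) * Q) := by
    intro b N Q M hQ
    rw [map_mul, ← hQ, aeval_C, map_pow, pow_add, mul_assoc]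
  induction hb using Algebra.adjoin_induction with
  | mem b hb =>
    refine ⟨1, C (∏ b' ∈ G.erase b, cf b') * Qf b, ?_⟩
    rw [map_mul, ← h1 b hb, aeval_C, pow_one, hc, ← Finset.mul_prod_erase G cf hb, map_mul]
    ring
  | algebraMap a =>
    refine ⟨0, C (MvPolynomial.C a), ?_⟩
    rw [pow_zero, one_mul, aeval_C, IsScalarTower.algebraMap_apply A (MvPolynomial ι A) B]
    rfl
  | add b b' _ _ ih ih' =>
    obtain ⟨N, Q, hQ⟩ := ih
    obtain ⟨N', Q', hQ'⟩ := ih'
    refine ⟨N' + N, C (c ^ N') * Q + C (c ^ N) * Q', ?_⟩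
    rw [mul_add, hstep b N Q N' hQ, add_comm N' N, hstep b' N' Q' N hQ', map_add]
  | mul b b' _ _ ih ih' =>
    obtain ⟨N, Q, hQ⟩ := ih
    obtain ⟨N', Q', hQ'⟩ := ih'
    refine ⟨N + N', Q * Q', ?_⟩
    rw [map_mul, ← hQ, ← hQ', pow_add]
    ring

end gens

section opt

variable {ι : Type*}

theorem opt_map {A k : Type*} [CommRing A] [CommRing k] (z : A →+* k)
    (F : MvPolynomial (Option ι) A) :
    MvPolynomial.optionEquivLeft k ι (MvPolynomial.map z F) =
      (MvPolynomial.optionEquivLeft A ι F).map (MvPolynomial.map z) := by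
  have h : ((MvPolynomial.optionEquivLeft k ι).toRingEquiv.toRingHom).comp (MvPolynomial.map z) =
      (Polynomial.mapRingHom (MvPolynomial.map z)).comp
        ((MvPolynomial.optionEquivLeft A ι).toRingEquiv.toRingHom) := by
    apply MvPolynomial.ringHom_ext
    · intro a
      show MvPolynomial.optionEquivLeft k ι (MvPolynomial.map z (MvPolynomial.C a)) =
        (MvPolynomial.optionEquivLeft A ι (MvPolynomial.C a)).map (MvPolynomial.map z)
      rw [MvPolynomial.map_C, MvPolynomial.optionEquivLeft_C, MvPolynomial.optionEquivLeft_C,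
        Polynomial.map_C, MvPolynomial.map_C]
    · intro o
      show MvPolynomial.optionEquivLeft k ι (MvPolynomial.map z (MvPolynomial.X o)) =
        (MvPolynomial.optionEquivLeft A ι (MvPolynomial.X o)).map (MvPolynomial.map z)
      rw [MvPolynomial.map_X]
      cases o with
      | none =>
        rw [MvPolynomial.optionEquivLeft_X_none, MvPolynomial.optionEquivLeft_X_none,
          Polynomial.map_X]
      | some i =>
        rw [MvPolynomial.optionEquivLeft_X_some, MvPolynomial.optionEquivLeft_X_some,
          Polynomial.map_C, MvPolynomial.map_X]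
  exact congrArg (fun f : MvPolynomial (Option ι) A →+* (MvPolynomial ι k)[X] => f F) h

theorem opt_aeval {A E : Type*} [CommRing A] [CommRing E] [Algebra A E]
    [Algebra (MvPolynomial ι A) E] [IsScalarTower A (MvPolynomial ι A) E] (x : ι → E)
    (hx : ∀ i, algebraMap (MvPolynomial ι A) E (MvPolynomial.X i) = x i) (θ : E)
    (F : MvPolynomial (Option ι) A) :
    aeval θ (MvPolynomial.optionEquivLeft A ι F) =
      MvPolynomial.aeval (fun o : Option ι => o.elim θ x) F := by
  have h : (((aeval θ : (MvPolynomial ι A)[X] →ₐ[MvPolynomial ι A] E).restrictScalars A).comp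
      (MvPolynomial.optionEquivLeft A ι).toAlgHom) =
      MvPolynomial.aeval (fun o : Option ι => o.elim θ x) := by
    apply MvPolynomial.algHom_ext
    intro o
    show aeval θ (MvPolynomial.optionEquivLeft A ι (MvPolynomial.X o)) = _
    cases o with
    | none => rw [MvPolynomial.optionEquivLeft_X_none, aeval_X, MvPolynomial.aeval_X]; rfl
    | some i =>
      rw [MvPolynomial.optionEquivLeft_X_some, aeval_C, hx, MvPolynomial.aeval_X]; rfl
  exact congrArg (fun f : MvPolynomial (Option ι) A →ₐ[A] E => f F) h

end opt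

section basech

variable {ι A B : Type*} [CommRing A] [CommRing B] [Algebra A B]

theorem ev_map {k : Type*} [Field k] [Algebra A k] {σ : Type*} (y : σ → B)
    (F : MvPolynomial σ A) :
    MvPolynomial.aeval (fun i => (1 : k) ⊗ₜ[A] y i) (MvPolynomial.map (algebraMap A k) F) =
      (1 : k) ⊗ₜ[A] MvPolynomial.aeval y F := by
  rw [MvPolynomial.aeval_map_algebraMap]
  exact MvPolynomial.aeval_one_tmul (R := A) (N := k) (S := B) y F

/-- the generation property after base change -/
theorem gen_baseChange {k : Type*} [Field k] [Algebra A k] (x : ι → B) (θ : B)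
    (c : MvPolynomial ι A)
    (h : ∀ b : B, ∃ (N : ℕ) (Q : MvPolynomial (Option ι) A),
      MvPolynomial.aeval x c ^ N * b = MvPolynomial.aeval (fun o : Option ι => o.elim θ x) Q)
    (u : k ⊗[A] B) : ∃ (N : ℕ) (Q : MvPolynomial (Option ι) k),
      MvPolynomial.aeval (fun i => (1 : k) ⊗ₜ[A] x i) (MvPolynomial.map (algebraMap A k) c) ^ N * u =
        MvPolynomial.aeval (fun o : Option ι => o.elim ((1 : k) ⊗ₜ[A] θ)
          (fun i => (1 : k) ⊗ₜ[A] x i)) Q := by
  set ck := MvPolynomial.aeval (fun i => (1 : k) ⊗ₜ[A] x i)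
    (MvPolynomial.map (algebraMap A k) c) with hck
  have hc1 : ck = (1 : k) ⊗ₜ[A] MvPolynomial.aeval x c := ev_map x c
  have hstep : ∀ (u : k ⊗[A] B) (N : ℕ) (Q : MvPolynomial (Option ι) k) (M : ℕ),
      ck ^ N * u = MvPolynomial.aeval (fun o : Option ι => o.elim ((1 : k) ⊗ₜ[A] θ)
          (fun i => (1 : k) ⊗ₜ[A] x i)) Q →
      ck ^ (M + N) * u = MvPolynomial.aeval (fun o : Option ι => o.elim ((1 : k) ⊗ₜ[A] θ)
          (fun i => (1 : k) ⊗ₜ[A] x i))
          ((MvPolynomial.rename some (MvPolynomial.map (algebraMap A k) c)) ^ M * Q) := by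
    intro u N Q M hQ
    rw [map_mul, ← hQ, map_pow, MvPolynomial.aeval_rename, pow_add, mul_assoc]
    rfl
  induction u using TensorProduct.induction_on with
  | zero => exact ⟨0, 0, by simp⟩
  | add u v hu hv =>
    obtain ⟨N, Q, hQ⟩ := hu
    obtain ⟨N', Q', hQ'⟩ := hv
    refine ⟨N' + N,
      (MvPolynomial.rename some) ((MvPolynomial.map (algebraMap A k)) c) ^ N' * Q +
      (MvPolynomial.rename some) ((MvPolynomial.map (algebraMap A k)) c) ^ N * Q', ?_⟩
    rw [mul_add, hstep u N Q N' hQ, add_comm N' N, hstep v N' Q' N hQ', ← map_add]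
  | tmul s b =>
    obtain ⟨N, Q, hQ⟩ := h b
    refine ⟨N, MvPolynomial.C s * MvPolynomial.map (algebraMap A k) Q, ?_⟩
    rw [map_mul, MvPolynomial.aeval_C, hc1, Algebra.TensorProduct.tmul_pow, one_pow,
      Algebra.TensorProduct.tmul_mul_tmul, one_mul, hQ]
    have h2 : (fun o : Option ι => o.elim ((1 : k) ⊗ₜ[A] θ) (fun i => (1 : k) ⊗ₜ[A] x i)) =
        fun o : Option ι => (1 : k) ⊗ₜ[A] (o.elim θ x) := by
      funext o
      cases o <;> rfl
    rw [h2, ev_map, Algebra.TensorProduct.algebraMap_apply, Algebra.TensorProduct.tmul_mul_tmul,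
      one_mul]
    simp

end basech

section theta

variable {ι : Type} {A B : Type u} [CommRing A] [IsDomain A] [CharZero A] [CommRing B] [IsDomain B]
  [Algebra (MvPolynomial ι A) B]

open IntermediateField in
theorem exists_theta' (K : Type u) [Field K] [Algebra B K] [IsFractionRing B K]
    [Algebra (MvPolynomial ι A) K] [IsScalarTower (MvPolynomial ι A) B K]
    [Algebra.FormallyUnramified (MvPolynomial ι A) B]
    [Algebra.FiniteType (MvPolynomial ι A) B] [Module.Flat (MvPolynomial ι A) B] :
    ∃ θ : B, (∀ b : B, IsAlgebraic (MvPolynomial ι A) b) ∧ ∀ b : B, ∃ (c : MvPolynomial ι A) (Q : (MvPolynomial ι A)[X]), c ≠ 0 ∧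
      algebraMap _ B c * b = aeval θ Q := by
  classical
  have hinjB : Function.Injective (algebraMap (MvPolynomial ι A) B) := by
    rw [injective_iff_map_eq_zero]
    intro r hr
    by_contra hne
    have h1 : r • (1 : B) = 0 := by rw [Algebra.smul_def, hr, zero_mul]
    rcases smul_eq_zero.1 h1 with h2 | h2
    · exact hne h2
    · exact one_ne_zero h2
  have hinjK : Function.Injective (algebraMap (MvPolynomial ι A) K) := by
    rw [IsScalarTower.algebraMap_eq (MvPolynomial ι A) B K]
    exact (IsFractionRing.injective B K).comp hinjB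
  have : FaithfulSMul (MvPolynomial ι A) K := (faithfulSMul_iff_algebraMap_injective _ _).2 hinjK
  have : FaithfulSMul (MvPolynomial ι A) B := (faithfulSMul_iff_algebraMap_injective _ _).2 hinjB
  let F0 := FractionRing (MvPolynomial ι A)
  let _ : Algebra F0 K := FractionRing.liftAlgebra _ K
  have : IsScalarTower (MvPolynomial ι A) F0 K := FractionRing.isScalarTower_liftAlgebra _ K
  have h1 : Algebra.FormallyUnramified B K := Algebra.FormallyUnramified.of_isLocalization
    (nonZeroDivisors B)
  have h2 : Algebra.FormallyUnramified (MvPolynomial ι A) K :=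
    Algebra.FormallyUnramified.comp (MvPolynomial ι A) B K
  have h3 : Algebra.FormallyUnramified F0 K :=
    Algebra.FormallyUnramified.of_restrictScalars (MvPolynomial ι A) F0 K
  have h4 : Algebra.EssFiniteType B K := Algebra.EssFiniteType.of_isLocalization K
    (nonZeroDivisors B)
  have h5 : Algebra.EssFiniteType (MvPolynomial ι A) K :=
    Algebra.EssFiniteType.comp (MvPolynomial ι A) B K
  have h6 : Algebra.EssFiniteType F0 K := Algebra.EssFiniteType.of_comp (MvPolynomial ι A) F0 K
  have h7 : Module.Finite F0 K := Algebra.FormallyUnramified.finite_of_free F0 K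
  have : CharZero F0 := inferInstance
  obtain ⟨α, hα⟩ := Field.exists_primitive_element F0 K
  obtain ⟨b0, s0, hs0, hbs⟩ := IsFractionRing.div_surjective (A := B) α
  have halgK : Algebra.IsAlgebraic F0 K := Algebra.IsAlgebraic.of_finite F0 K
  have halgK' : Algebra.IsAlgebraic (MvPolynomial ι A) K :=
    (IsFractionRing.comap_isAlgebraic_iff (A := MvPolynomial ι A) (K := F0) (C := K)).2 halgK
  have halgB : IsAlgebraic (MvPolynomial ι A) s0 := by
    have := halgK'.isAlgebraic (algebraMap B K s0)
    exact (isAlgebraic_algebraMap_iff (IsFractionRing.injective B K)).1 this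
  obtain ⟨c0, hc0, t0, ht0⟩ := halgB.exists_nonzero_dvd hs0
  set θ := b0 * t0 with hθ
  have hs0' : algebraMap B K s0 ≠ 0 := by
    exact (map_ne_zero_iff _ (IsFractionRing.injective B K)).2 (nonZeroDivisors.ne_zero hs0)
  have hθα : algebraMap B K θ = algebraMap (MvPolynomial ι A) K c0 * α := by
    rw [← hbs, IsScalarTower.algebraMap_apply (MvPolynomial ι A) B K, ht0, hθ, map_mul, map_mul]
    field_simp
  refine ⟨θ, ?_, fun b => ?_⟩
  · intro b
    exact (isAlgebraic_algebraMap_iff (IsFractionRing.injective B K)).1 (halgK'.isAlgebraic _)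
  have htop : F0⟮algebraMap B K θ⟯ = ⊤ := by
    rw [eq_top_iff, ← hα, adjoin_simple_le_iff]
    have h8 : α = (algebraMap F0 K (algebraMap _ F0 c0))⁻¹ * algebraMap B K θ := by
      rw [hθα, ← IsScalarTower.algebraMap_apply]
      have : algebraMap (MvPolynomial ι A) K c0 ≠ 0 := (map_ne_zero_iff _ hinjK).2 hc0
      field_simp
    rw [h8]
    exact mul_mem (inv_mem (IntermediateField.algebraMap_mem _ _)) (mem_adjoin_simple_self F0 _)
  have hmem : algebraMap B K b ∈ F0⟮algebraMap B K θ⟯ := by rw [htop]; trivial
  rw [← IntermediateField.mem_toSubalgebra, IntermediateField.adjoin_simple_toSubalgebra_of_isAlgebraic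
    (halgK.isAlgebraic _), Algebra.adjoin_singleton_eq_range_aeval] at hmem
  obtain ⟨q, hq⟩ := hmem
  obtain ⟨c, hc, hcq⟩ := IsLocalization.integerNormalization_spec
    (nonZeroDivisors (MvPolynomial ι A)) q
  refine ⟨c, IsLocalization.integerNormalization (nonZeroDivisors (MvPolynomial ι A)) q,
    nonZeroDivisors.ne_zero hc, ?_⟩
  apply IsFractionRing.injective B K
  have hq' : aeval (algebraMap B K θ) q = algebraMap B K b := hq
  have hcq2 : algebraMap (MvPolynomial ι A) K c * aeval (algebraMap B K θ) q =
      aeval (algebraMap B K θ) (IsLocalization.integerNormalization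
        (nonZeroDivisors (MvPolynomial ι A)) q) := by
    have h9 := congrArg (aeval (algebraMap B K θ)) hcq
    rw [aeval_map_algebraMap] at h9
    rw [h9]
    have h10 : c • q = C (algebraMap _ F0 c) * q := by
      rw [Algebra.smul_def]
      rfl
    have h11 : ∀ y : K, aeval y (C (algebraMap _ F0 c) * q) =
        algebraMap (MvPolynomial ι A) K c * aeval y q := by
      intro y
      rw [map_mul, aeval_C, ← IsScalarTower.algebraMap_apply]
    rw [h10, h11]
  rw [map_mul, ← hq', ← IsScalarTower.algebraMap_apply, hcq2, aeval_algebraMap_apply]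

theorem exists_theta [Algebra.FormallyUnramified (MvPolynomial ι A) B]
    [Algebra.FiniteType (MvPolynomial ι A) B] [Module.Flat (MvPolynomial ι A) B] :
    ∃ θ : B, (∀ b : B, IsAlgebraic (MvPolynomial ι A) b) ∧ ∀ b : B, ∃ (c : MvPolynomial ι A) (Q : (MvPolynomial ι A)[X]), c ≠ 0 ∧
      algebraMap _ B c * b = aeval θ Q :=
  exists_theta' (FractionRing B)

end theta

section final

theorem exists_prime_factor {R E : Type*} [CommRing R] [IsDomain R] [UniqueFactorizationMonoid R]
    [CommRing E] [IsDomain E] (φ : R →+* E) {G : R} (hG : G ≠ 0) (h : φ G = 0) :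
    ∃ P, Prime P ∧ φ P = 0 := by
  obtain ⟨f, hf, u, hu⟩ := UniqueFactorizationMonoid.exists_prime_factors G hG
  have h1 : φ f.prod = 0 := by
    rw [← hu, map_mul] at h
    rcases mul_eq_zero.1 h with h2 | h2
    · exact h2
    · exact absurd h2 (u.isUnit.map φ).ne_zero
  rw [map_multiset_prod, Multiset.prod_eq_zero_iff, Multiset.mem_map] at h1
  obtain ⟨P, hP, hP0⟩ := h1
  exact ⟨P, hf P hP, hP0⟩

end final

end Crest.Agent.R276.BN3_143
end
end

-- ▼ part R276/BN_143

/-!
# Row 276, MOD-BN (helper143): main theorem.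
For `A`, `B` domains, `B` étale over `A[x]`, `Frac A` algebraically closed in `Frac B`:
there is `a ≠ 0` in `A` such that `k ⊗[A] B` is a domain for every field `k` over `A` in which
`a ≠ 0`.
-/

set_option autoImplicit false

noncomputable section

namespace Crest.Agent.R276.BN_143

open Polynomial TensorProduct
open Crest.Agent.R276.BN1_143 (AC)
open Crest.Agent.R276.BN3_143

universe u

section

variable {ι : Type} [Finite ι] {A B : Type u} [CommRing A] [IsDomain A] [CharZero A]
  [CommRing B] [IsDomain B] [Algebra A B]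

/-- algebraic independence passes to the fraction field -/
theorem aeval_injective {L K : Type*} [Field L] [Field K] [Algebra A L] [IsFractionRing A L]
    [Algebra B K] [IsFractionRing B K] [Algebra L K] [Algebra A K] [IsScalarTower A L K]
    [IsScalarTower A B K] (x : ι → B)
    (hx : Function.Injective (MvPolynomial.aeval x : MvPolynomial ι A →ₐ[A] B)) :
    Function.Injective (MvPolynomial.aeval (fun i => algebraMap B K (x i)) :
      MvPolynomial ι L →ₐ[L] K) := by
  rw [injective_iff_map_eq_zero]
  intro q hq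
  let _ : Algebra (MvPolynomial ι A) (MvPolynomial ι L) := MvPolynomial.algebraMvPolynomial
  have hloc : IsLocalization ((nonZeroDivisors A).map (MvPolynomial.C : A →+* MvPolynomial ι A))
      (MvPolynomial ι L) := MvPolynomial.isLocalization (nonZeroDivisors A) L
  obtain ⟨⟨q', ⟨y, a, ha, rfl⟩⟩, hqa⟩ := IsLocalization.surj
    ((nonZeroDivisors A).map (MvPolynomial.C : A →+* MvPolynomial ι A)) q
  have h1 : q * MvPolynomial.C (algebraMap A L a) = MvPolynomial.map (algebraMap A L) q' := by
    have h2 : algebraMap (MvPolynomial ι A) (MvPolynomial ι L) (MvPolynomial.C a) =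
      MvPolynomial.C (algebraMap A L a) := MvPolynomial.map_C _ _
    rw [← h2]
    exact hqa
  have h3 := congrArg (MvPolynomial.aeval (fun i => algebraMap B K (x i))) h1
  have h30 : MvPolynomial.aeval (fun i => algebraMap B K (x i)) q' =
      algebraMap B K (MvPolynomial.aeval x q') := MvPolynomial.aeval_algebraMap_apply K x q'
  rw [map_mul, hq, zero_mul, MvPolynomial.aeval_map_algebraMap, h30] at h3
  have h4 : MvPolynomial.aeval x q' = 0 := IsFractionRing.injective B K (by rw [← h3, map_zero])
  have h5 : q' = 0 := hx (by rw [h4, map_zero])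
  rw [h5, map_zero] at h1
  have h6 : (MvPolynomial.C (algebraMap A L a) : MvPolynomial ι L) ≠ 0 := by
    rw [Ne, MvPolynomial.C_eq_zero]
    exact (map_ne_zero_iff _ (IsFractionRing.injective A L)).2 (nonZeroDivisors.ne_zero ha)
  exact (mul_eq_zero.1 h1).resolve_right h6

/-- The absolutely irreducible polynomial of a primitive element. -/
theorem exists_poly (L K : Type u) [Field L] [Field K] [Algebra A L] [IsFractionRing A L]
    [Algebra B K] [IsFractionRing B K] [Algebra L K] [Algebra A K] [IsScalarTower A L K]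
    [IsScalarTower A B K] (hac : AC L K) (x : ι → B)
    (hx : Function.Injective (MvPolynomial.aeval x : MvPolynomial ι A →ₐ[A] B))
    (θ : B) (hθ : ∃ G : (MvPolynomial ι A)[X], G ≠ 0 ∧
      Polynomial.eval₂ (MvPolynomial.aeval x : MvPolynomial ι A →ₐ[A] B).toRingHom θ G = 0) :
    ∃ P : MvPolynomial (Option ι) A,
      Irreducible (MvPolynomial.map ((algebraMap L (AlgebraicClosure L)).comp (algebraMap A L)) P) ∧
      (MvPolynomial.optionEquivLeft A ι P).natDegree ≠ 0 ∧
      MvPolynomial.aeval (fun o : Option ι => o.elim θ x) P = 0 := by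
  classical
  have : CharZero L := charZero_of_injective_algebraMap (IsFractionRing.injective A L)
  have hxL := aeval_injective (L := L) (K := K) x hx
  let xK : ι → K := fun i => algebraMap B K (x i)
  let θK : K := algebraMap B K θ
  let _ : Algebra (MvPolynomial ι L) K := (MvPolynomial.aeval xK : MvPolynomial ι L →ₐ[L] K).toAlgebra
  have hal : ∀ q : MvPolynomial ι L, algebraMap (MvPolynomial ι L) K q =
    MvPolynomial.aeval xK q := fun q => rfl
  have : IsScalarTower L (MvPolynomial ι L) K := IsScalarTower.of_algebraMap_eq fun c => by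
    rw [hal]
    exact (MvPolynomial.aeval_C _ _).symm
  have hxK : ∀ i, algebraMap (MvPolynomial ι L) K (MvPolynomial.X i) = xK i := fun i => by
    rw [hal, MvPolynomial.aeval_X]
  have hinj : Function.Injective (algebraMap (MvPolynomial ι L) K) := hxL
  -- a nonzero polynomial over `L[x]` killing `θ`
  obtain ⟨G, hG0, hG⟩ := hθ
  have hGL0 : G.map (MvPolynomial.map (algebraMap A L)) ≠ 0 := by
    rw [Ne, Polynomial.map_eq_zero_iff (MvPolynomial.map_injective _ (IsFractionRing.injective A L))]
    exact hG0
  have hcomp : (algebraMap (MvPolynomial ι L) K).comp (MvPolynomial.map (algebraMap A L)) =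
      (algebraMap B K).comp (MvPolynomial.aeval x : MvPolynomial ι A →ₐ[A] B).toRingHom := by
    apply MvPolynomial.ringHom_ext
    · intro a
      show MvPolynomial.aeval xK (MvPolynomial.map (algebraMap A L) (MvPolynomial.C a)) =
        algebraMap B K (MvPolynomial.aeval x (MvPolynomial.C a))
      rw [MvPolynomial.map_C, MvPolynomial.aeval_C, MvPolynomial.aeval_C,
        ← IsScalarTower.algebraMap_apply, ← IsScalarTower.algebraMap_apply]
    · intro i
      show MvPolynomial.aeval xK (MvPolynomial.map (algebraMap A L) (MvPolynomial.X i)) =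
        algebraMap B K (MvPolynomial.aeval x (MvPolynomial.X i))
      rw [MvPolynomial.map_X, MvPolynomial.aeval_X, MvPolynomial.aeval_X]
  have hGL : (aeval θK : (MvPolynomial ι L)[X] →ₐ[MvPolynomial ι L] K).toRingHom
      (G.map (MvPolynomial.map (algebraMap A L))) = 0 := by
    show aeval θK (G.map (MvPolynomial.map (algebraMap A L))) = 0
    rw [aeval_def, Polynomial.eval₂_map, hcomp, ← Polynomial.hom_eval₂, hG, map_zero]
  obtain ⟨PL, hPLp, hPL0⟩ := exists_prime_factor _ hGL0 hGL
  have hPL0' : aeval θK PL = 0 := hPL0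
  have hdeg : PL.natDegree ≠ 0 := by
    intro h0
    rw [Polynomial.natDegree_eq_zero] at h0
    obtain ⟨q, rfl⟩ := h0
    rw [aeval_C] at hPL0'
    have : q = 0 := hinj (by rw [hPL0', map_zero])
    rw [this, map_zero] at hPLp
    exact hPLp.ne_zero rfl
  -- clear denominators
  let P1 : MvPolynomial (Option ι) L := (MvPolynomial.optionEquivLeft L ι).symm PL
  let _ : Algebra (MvPolynomial (Option ι) A) (MvPolynomial (Option ι) L) :=
    MvPolynomial.algebraMvPolynomial
  have hloc : IsLocalization ((nonZeroDivisors A).map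
      (MvPolynomial.C : A →+* MvPolynomial (Option ι) A)) (MvPolynomial (Option ι) L) :=
    MvPolynomial.isLocalization (nonZeroDivisors A) L
  obtain ⟨⟨P, ⟨y, a, ha, rfl⟩⟩, hPa⟩ := IsLocalization.surj
    ((nonZeroDivisors A).map (MvPolynomial.C : A →+* MvPolynomial (Option ι) A)) P1
  have hP1 : P1 * MvPolynomial.C (algebraMap A L a) = MvPolynomial.map (algebraMap A L) P := by
    have h2 : algebraMap (MvPolynomial (Option ι) A) (MvPolynomial (Option ι) L)
        (MvPolynomial.C a) = MvPolynomial.C (algebraMap A L a) := MvPolynomial.map_C _ _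
    rw [← h2]
    exact hPa
  have ha0 : algebraMap A L a ≠ 0 :=
    (map_ne_zero_iff _ (IsFractionRing.injective A L)).2 (nonZeroDivisors.ne_zero ha)
  have hunit : IsUnit (MvPolynomial.C (algebraMap A L a) : MvPolynomial (Option ι) L) :=
    (isUnit_iff_ne_zero.2 ha0).map MvPolynomial.C
  have hass : Associated P1 (MvPolynomial.map (algebraMap A L) P) := by
    rw [← hP1]
    exact (associated_mul_unit_right P1 _ hunit)
  have hker : ∀ F : MvPolynomial (Option ι) L,
      MvPolynomial.aeval (fun o : Option ι => o.elim θK xK) F = 0 ↔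
        MvPolynomial.map (algebraMap A L) P ∣ F := by
    intro F
    rw [← opt_aeval xK hxK θK F, BN2_143.ker_iff hinj PL hPLp.irreducible hdeg θK hPL0',
      ← hass.dvd_iff_dvd_left]
    constructor
    · intro h
      have := map_dvd (MvPolynomial.optionEquivLeft L ι).symm h
      rwa [AlgEquiv.symm_apply_apply] at this
    · intro h
      have := map_dvd (MvPolynomial.optionEquivLeft L ι) h
      rwa [AlgEquiv.apply_symm_apply] at this
  have hP0 : MvPolynomial.map (algebraMap A L) P ≠ 0 := by
    intro h0
    rw [h0] at hass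
    apply hPLp.ne_zero
    apply (MvPolynomial.optionEquivLeft L ι).symm.injective
    rw [map_zero]
    exact (associated_zero_iff_eq_zero P1).1 hass
  refine ⟨P, ?_, ?_, ?_⟩
  · have h1 := BN1_143.abs_irreducible hac (MvPolynomial.map (algebraMap A L) P) hP0
      (MvPolynomial.aeval (fun o : Option ι => o.elim θK xK)) hker (AlgebraicClosure L)
    rwa [MvPolynomial.map_map] at h1
  · intro h0
    apply hdeg
    have h1 : (MvPolynomial.optionEquivLeft L ι (MvPolynomial.map (algebraMap A L) P)).natDegree
        = 0 := by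
      rw [opt_map]
      have := Polynomial.natDegree_map_le (f := MvPolynomial.map (algebraMap A L))
        (p := MvPolynomial.optionEquivLeft A ι P)
      omega
    have h2 : Associated PL (MvPolynomial.optionEquivLeft L ι (MvPolynomial.map (algebraMap A L) P)) := by
      have := hass.map (MvPolynomial.optionEquivLeft L ι)
      rwa [AlgEquiv.apply_symm_apply] at this
    rw [Polynomial.natDegree_eq_of_degree_eq (Polynomial.degree_eq_degree_of_associated h2), h1]
  · have h1 := (hker _).2 (dvd_refl (MvPolynomial.map (algebraMap A L) P))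
    rw [MvPolynomial.aeval_map_algebraMap] at h1
    apply IsFractionRing.injective B K
    rw [map_zero, ← h1]
    have h2 : (fun o : Option ι => o.elim θK xK) = fun o => algebraMap B K (o.elim θ x) := by
      funext o
      cases o <;> rfl
    rw [h2]
    exact (MvPolynomial.aeval_algebraMap_apply K _ P).symm

/-- BERTINI–NOETHER for étale algebras: the fibres over a dense open set are domains. -/
theorem fiber_isDomain (L K : Type u) [Field L] [Field K] [Algebra A L] [IsFractionRing A L]
    [Algebra B K] [IsFractionRing B K] [Algebra L K] [Algebra A K] [IsScalarTower A L K]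
    [IsScalarTower A B K] (hac : AC L K) (x : ι → B)
    (het : RingHom.Etale ((MvPolynomial.aeval x : MvPolynomial ι A →ₐ[A] B) :
      MvPolynomial ι A →+* B)) :
    ∃ a : A, a ≠ 0 ∧ ∀ (k : Type u) [Field k] [Algebra A k], algebraMap A k a ≠ 0 →
      IsDomain (k ⊗[A] B) := by
  classical
  let _ : Algebra (MvPolynomial ι A) B :=
    ((MvPolynomial.aeval x : MvPolynomial ι A →ₐ[A] B) : MvPolynomial ι A →+* B).toAlgebra
  have hal : ∀ q, algebraMap (MvPolynomial ι A) B q = MvPolynomial.aeval x q := fun q => rfl
  have : IsScalarTower A (MvPolynomial ι A) B := IsScalarTower.of_algebraMap_eq fun c => by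
    rw [hal]
    exact (MvPolynomial.aeval_C _ _).symm
  have hxB : ∀ i, algebraMap (MvPolynomial ι A) B (MvPolynomial.X i) = x i := fun i => by
    rw [hal, MvPolynomial.aeval_X]
  have hE : Algebra.Etale (MvPolynomial ι A) B := het
  have hflat : Module.Flat (MvPolynomial ι A) B := inferInstance
  have hfp : Algebra.FinitePresentation A B :=
    Algebra.FinitePresentation.trans A (MvPolynomial ι A) B
  have hflatA : Module.Flat A B := Module.Flat.trans A (MvPolynomial ι A) B
  have hinjB : Function.Injective (algebraMap (MvPolynomial ι A) B) := by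
    rw [injective_iff_map_eq_zero]
    intro r hr
    by_contra hne
    have h1 : r • (1 : B) = 0 := by rw [Algebra.smul_def, hr, zero_mul]
    rcases smul_eq_zero.1 h1 with h2 | h2
    · exact hne h2
    · exact one_ne_zero h2
  have hinjA : Function.Injective (algebraMap A B) := by
    rw [IsScalarTower.algebraMap_eq A (MvPolynomial ι A) B]
    exact hinjB.comp (MvPolynomial.C_injective ι A)
  obtain ⟨θ, hθalg, hθ⟩ := exists_theta (ι := ι) (A := A) (B := B)
  obtain ⟨P, hPirr, hPdeg, hP0⟩ := exists_poly L K hac x hinjB θ (hθalg θ)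
  obtain ⟨G, hG⟩ := (Algebra.FiniteType.out : (⊤ : Subalgebra A B).FG)
  obtain ⟨c, hc0, hc⟩ := gen_of_generators θ G hG (fun b _ => hθ b)
  have hc' : ∀ b : B, ∃ (N : ℕ) (Q : MvPolynomial (Option ι) A),
      MvPolynomial.aeval x c ^ N * b = MvPolynomial.aeval (fun o : Option ι => o.elim θ x) Q := by
    intro b
    obtain ⟨N, Q, hQ⟩ := hc b
    refine ⟨N, (MvPolynomial.optionEquivLeft A ι).symm Q, ?_⟩
    rw [← opt_aeval x hxB, AlgEquiv.apply_symm_apply]
    exact hQ
  obtain ⟨a1, ha1, h1⟩ := BN0_143.irreducible_spread.{u} L (AlgebraicClosure L) P hPirr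
  obtain ⟨a4, ha4, h4⟩ := nontrivial_spread.{u} (A := A) (B := B) hinjA
  obtain ⟨β, hβ⟩ := MvPolynomial.ne_zero_iff.1 hc0
  have hlead : (MvPolynomial.optionEquivLeft A ι P).leadingCoeff ≠ 0 := by
    rw [Ne, Polynomial.leadingCoeff_eq_zero]
    intro h
    rw [h] at hPdeg
    exact hPdeg Polynomial.natDegree_zero
  obtain ⟨γ, hγ⟩ := MvPolynomial.ne_zero_iff.1 hlead
  refine ⟨a1 * a4 * c.coeff β * (MvPolynomial.optionEquivLeft A ι P).leadingCoeff.coeff γ,
    mul_ne_zero (mul_ne_zero (mul_ne_zero ha1 ha4) hβ) hγ, ?_⟩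
  intro k _ _ hk
  rw [map_mul, map_mul, map_mul, mul_ne_zero_iff, mul_ne_zero_iff, mul_ne_zero_iff] at hk
  obtain ⟨⟨⟨hk1, hk4⟩, hkc⟩, hkγ⟩ := hk
  have hnt : Nontrivial (k ⊗[A] B) := h4 k hk4
  let xk : ι → k ⊗[A] B := fun i => (1 : k) ⊗ₜ[A] x i
  let θk : k ⊗[A] B := (1 : k) ⊗ₜ[A] θ
  let _ : Algebra (MvPolynomial ι k) (k ⊗[A] B) :=
    (MvPolynomial.aeval xk : MvPolynomial ι k →ₐ[k] k ⊗[A] B).toRingHom.toAlgebra
  have halk : ∀ q : MvPolynomial ι k, algebraMap (MvPolynomial ι k) (k ⊗[A] B) q =
    MvPolynomial.aeval xk q := fun q => rfl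
  have : IsScalarTower k (MvPolynomial ι k) (k ⊗[A] B) := IsScalarTower.of_algebraMap_eq fun c => by
    rw [halk]
    exact (MvPolynomial.aeval_C _ _).symm
  have hxk : ∀ i, algebraMap (MvPolynomial ι k) (k ⊗[A] B) (MvPolynomial.X i) = xk i := fun i => by
    rw [halk, MvPolynomial.aeval_X]
  have hpair : (fun o : Option ι => o.elim θk xk) = fun o => (1 : k) ⊗ₜ[A] (o.elim θ x) := by
    funext o
    cases o <;> rfl
  have hck : MvPolynomial.map (algebraMap A k) c ≠ 0 := by
    rw [MvPolynomial.ne_zero_iff]
    exact ⟨β, by rw [MvPolynomial.coeff_map]; exact hkc⟩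
  refine isDomain_of (R := MvPolynomial ι k) ?_
    (MvPolynomial.optionEquivLeft k ι (MvPolynomial.map (algebraMap A k) P)) ?_ ?_ θk ?_
    (MvPolynomial.map (algebraMap A k) c) hck ?_
  · intro r u hr hru
    rw [Algebra.smul_def, halk] at hru
    exact torsionFree x hxB r hr u hru
  · exact (MulEquiv.irreducible_iff (MvPolynomial.optionEquivLeft k ι)).2 (h1 k _ hk1)
  · rw [opt_map]
    intro h0
    apply hPdeg
    have h5 : ((MvPolynomial.optionEquivLeft A ι P).map (MvPolynomial.map (algebraMap A k))).coeff
        (MvPolynomial.optionEquivLeft A ι P).natDegree ≠ 0 := by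
      rw [Polynomial.coeff_map]
      intro h6
      apply hkγ
      have h7 := congrArg (MvPolynomial.coeff γ) h6
      rw [MvPolynomial.coeff_map, MvPolynomial.coeff_zero] at h7
      exact h7
    have h8 := Polynomial.le_natDegree_of_ne_zero h5
    omega
  · rw [opt_aeval xk hxk θk, hpair, ev_map, hP0, tmul_zero]
  · intro u
    obtain ⟨N, Q, hQ⟩ := gen_baseChange (k := k) x θ c hc' u
    refine ⟨N, MvPolynomial.optionEquivLeft k ι Q, ?_⟩
    rw [opt_aeval xk hxk θk, Algebra.smul_def, map_pow, halk]
    exact hQ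


end

end Crest.Agent.R276.BN_143
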