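import Mathlib
import Crest.Agent.R271.Defs_710
import Crest.Agent.R276.BC2_986
import Crest.Agent.R276.BC3_986

-- ▼ part R276/BR1_590
section

/-!
Row 276, leaf BC-REL (helper590), part 1: the coordinate `τ = t G^{1/e}`.

`exists_root_coord` : if `G` is holomorphic without zeros near `0 ∈ ℂⁿ` and `e ≥ 1`, there is a
local biholomorphic map `Ξ` (new coordinates `ξ`, old coordinates `ζ = Ξ ξ`) with `ζ i = ξ i` for
`i ≠ i₀` and `ζ_{i₀}^e G(ζ) = ξ_{i₀}^e`.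
-/

set_option autoImplicit false

open scoped Topology BigOperators ContDiff
open Set Metric Filter

noncomputable section

namespace Crest.Agent.R276.BR_590

open Crest.Agent.R271.Defs710

/-- a holomorphic `e`-th root near the centre -/
lemma exists_root {n : ℕ} {G : Cn n → ℂ} (hG : AnalyticAt ℂ G 0) (hne : G 0 ≠ 0) (e : ℕ)
    (he : e ≠ 0) : ∃ H : Cn n → ℂ, AnalyticAt ℂ H 0 ∧ (∀ ζ, H ζ ≠ 0) ∧
      ∀ᶠ ζ in 𝓝 0, H ζ ^ e = G ζ := by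
  refine ⟨fun ζ => Complex.exp ((Complex.log (G ζ / G 0) + Complex.log (G 0)) / e), ?_,
    fun ζ => Complex.exp_ne_zero _, ?_⟩
  · have h1 : AnalyticAt ℂ (fun ζ => G ζ / G 0) 0 := hG.div analyticAt_const hne
    have h2 : AnalyticAt ℂ (fun ζ => Complex.log (G ζ / G 0)) 0 := by
      apply h1.clog
      rw [div_self hne]
      exact Complex.one_mem_slitPlane
    have he' : (e : ℂ) ≠ 0 := by exact_mod_cast he
    exact ((h2.add analyticAt_const).div analyticAt_const he').cexp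
  · filter_upwards [hG.continuousAt.eventually_ne hne] with ζ hζ
    have he' : (e : ℂ) ≠ 0 := by exact_mod_cast he
    rw [← Complex.exp_nat_mul, mul_div_cancel₀ _ he', Complex.exp_add, Complex.exp_log,
      Complex.exp_log hne, div_mul_cancel₀ _ hne]
    exact div_ne_zero hζ hne

theorem exists_root_coord {n : ℕ} (i₀ : Fin n) {G : Cn n → ℂ} {r : ℝ} (hr : 0 < r)
    (hG : AnalyticOnNhd ℂ G (ball 0 r)) (hne : G 0 ≠ 0) (e : ℕ) (he : e ≠ 0) (ε : ℝ)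
    (hε : 0 < ε) :
    ∃ (ρ : ℝ) (Ξ : Cn n → Cn n) (E : Cn n → ℂ), 0 < ρ ∧ ρ ≤ ε ∧
      AnalyticOnNhd ℂ Ξ (ball 0 ρ) ∧ MapsTo Ξ (ball 0 ρ) (ball 0 r) ∧ InjOn Ξ (ball 0 ρ) ∧
      (∀ ξ ∈ ball (0 : Cn n) ρ, (fderiv ℂ Ξ ξ).det ≠ 0) ∧
      (∀ ξ ∈ ball (0 : Cn n) ρ, ∀ i, i ≠ i₀ → Ξ ξ i = ξ i) ∧
      AnalyticOnNhd ℂ E (ball 0 ρ) ∧
      (∀ ξ ∈ ball (0 : Cn n) ρ, E ξ ≠ 0 ∧ Ξ ξ i₀ = ξ i₀ * E ξ ∧
        (Ξ ξ i₀) ^ e * G (Ξ ξ) = ξ i₀ ^ e) ∧ Ξ 0 = 0 := by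
  have hG0 : AnalyticAt ℂ G 0 := hG 0 (mem_ball_self hr)
  obtain ⟨H, hH, hH0, hHe⟩ := exists_root hG0 hne e he
  let Θ : Cn n → Cn n := fun ζ i => if i = i₀ then ζ i₀ * H ζ else ζ i
  have hproj : ∀ (i : Fin n) (ζ : Cn n), AnalyticAt ℂ (fun ζ : Cn n => ζ i) ζ := fun i ζ =>
    (ContinuousLinearMap.proj (R := ℂ) (φ := fun _ : Fin n => ℂ) i).analyticAt ζ
  have hΘan : ∀ ζ, AnalyticAt ℂ H ζ → AnalyticAt ℂ Θ ζ := by
    intro ζ hζ
    rw [analyticAt_pi_iff]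
    intro i
    by_cases hi : i = i₀
    · simp only [if_pos hi]
      exact (hproj i₀ ζ).mul hζ
    · simp only [if_neg hi]
      exact hproj i ζ
  have hΘ0 : Θ 0 = 0 := by
    funext i
    simp [Θ]
  let c : Fin n → ℂˣ := fun i => if i = i₀ then Units.mk0 (H 0) (hH0 0) else 1
  let Θ' : Cn n ≃L[ℂ] Cn n :=
    ContinuousLinearEquiv.piCongrRight fun i => ContinuousLinearEquiv.unitsEquivAut ℂ (c i)
  have hΘ' : HasFDerivAt Θ (Θ' : Cn n →L[ℂ] Cn n) 0 := by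
    rw [hasFDerivAt_pi']
    intro i
    by_cases hi : i = i₀
    · subst hi
      have h1 : HasFDerivAt (fun ζ : Cn n => ζ i * H ζ)
          ((0 : Cn n) i • fderiv ℂ H 0 + H 0 •
            (ContinuousLinearMap.proj (R := ℂ) (φ := fun _ : Fin n => ℂ) i)) 0 :=
        HasFDerivAt.fun_mul (hasFDerivAt_apply i (0 : Cn n)) hH.differentiableAt.hasFDerivAt
      have h2 : (fun ζ : Cn n => Θ ζ i) = fun ζ => ζ i * H ζ := by
        funext ζ; simp [Θ]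
      rw [h2]
      convert! h1 using 1
      ext v
      simp [Θ', c, mul_comm]
    · have h2 : (fun ζ : Cn n => Θ ζ i) = fun ζ => ζ i := by
        funext ζ; simp [Θ, hi]
      rw [h2]
      convert! hasFDerivAt_apply (𝕜 := ℂ) i (0 : Cn n) using 1
      ext v
      simp [Θ', c, hi]
  have hΘc : ContDiffAt ℂ ω Θ 0 := (hΘan 0 hH).contDiffAt
  have hn : (ω : WithTop ℕ∞) ≠ 0 := by simp
  set Ξ : Cn n → Cn n := hΘc.localInverse hΘ' hn with hΞ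
  have hΞ0 : Ξ 0 = 0 := by
    have := hΘc.localInverse_apply_image hΘ' hn
    rwa [hΘ0] at this
  have hΞan : AnalyticAt ℂ Ξ 0 := by
    have h1 := hΘc.to_localInverse hΘ' hn
    rw [hΘ0] at h1
    exact h1.analyticAt
  have hinv : ∀ᶠ ξ in 𝓝 (0 : Cn n), Θ (Ξ ξ) = ξ := by
    have h1 := (hΘc.hasStrictFDerivAt' hΘ' hn).eventually_right_inverse
    rw [hΘ0] at h1
    exact h1
  have hcont : Tendsto Ξ (𝓝 0) (𝓝 0) := by
    have := hΞan.continuousAt.tendsto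
    rwa [hΞ0] at this
  have hev : ∀ᶠ ξ in 𝓝 (0 : Cn n), AnalyticAt ℂ Ξ ξ ∧ Θ (Ξ ξ) = ξ ∧ Ξ ξ ∈ ball (0 : Cn n) r ∧
      AnalyticAt ℂ H (Ξ ξ) ∧ H (Ξ ξ) ^ e = G (Ξ ξ) :=
    hΞan.eventually_analyticAt.and (hinv.and ((hcont.eventually (ball_mem_nhds 0 hr)).and
      ((hcont.eventually hH.eventually_analyticAt).and (hcont.eventually hHe))))
  obtain ⟨ρ₁, hρ₁, hball⟩ := Metric.eventually_nhds_iff_ball.1 hev
  set ρ := min ρ₁ ε with hρ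
  have hball' : ∀ ξ ∈ ball (0 : Cn n) ρ, AnalyticAt ℂ Ξ ξ ∧ Θ (Ξ ξ) = ξ ∧
      Ξ ξ ∈ ball (0 : Cn n) r ∧ AnalyticAt ℂ H (Ξ ξ) ∧ H (Ξ ξ) ^ e = G (Ξ ξ) :=
    fun ξ hξ => hball ξ (ball_subset_ball (min_le_left _ _) hξ)
  have hcoord : ∀ ξ ∈ ball (0 : Cn n) ρ, ξ i₀ = Ξ ξ i₀ * H (Ξ ξ) := by
    intro ξ hξ
    have h1 := congrFun (hball' ξ hξ).2.1 i₀
    simp only [Θ, if_true] at h1
    exact h1.symm
  refine ⟨ρ, Ξ, fun ξ => (H (Ξ ξ))⁻¹, lt_min hρ₁ hε, min_le_right _ _,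
    fun ξ hξ => (hball' ξ hξ).1, fun ξ hξ => (hball' ξ hξ).2.2.1, ?_, ?_, ?_, ?_, ?_, hΞ0⟩
  · intro ξ hξ ξ' hξ' h
    rw [← (hball' ξ hξ).2.1, ← (hball' ξ' hξ').2.1, h]
  · intro ξ hξ
    obtain ⟨h1, h2, h3, h4, h5⟩ := hball' ξ hξ
    have h6 : (fun ξ => Θ (Ξ ξ)) =ᶠ[𝓝 ξ] id := by
      filter_upwards [isOpen_ball.mem_nhds hξ] with ξ' hξ'
      exact (hball' ξ' hξ').2.1
    have h7 : fderiv ℂ (fun ξ => Θ (Ξ ξ)) ξ = (fderiv ℂ Θ (Ξ ξ)).comp (fderiv ℂ Ξ ξ) :=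
      fderiv_comp ξ (hΘan _ h4).differentiableAt h1.differentiableAt
    rw [h6.fderiv_eq, fderiv_id] at h7
    intro h0
    have h8 : LinearMap.det (ContinuousLinearMap.id ℂ (Cn n) : Cn n →ₗ[ℂ] Cn n) =
        LinearMap.det (((fderiv ℂ Θ (Ξ ξ) : Cn n →L[ℂ] Cn n) : Cn n →ₗ[ℂ] Cn n) ∘ₗ
          ((fderiv ℂ Ξ ξ : Cn n →L[ℂ] Cn n) : Cn n →ₗ[ℂ] Cn n)) := by
      rw [h7]; rfl
    rw [LinearMap.det_comp, ContinuousLinearMap.coe_id, LinearMap.det_id] at h8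
    rw [ContinuousLinearMap.det] at h0
    rw [h0, mul_zero] at h8
    exact one_ne_zero h8
  · intro ξ hξ i hi
    have h1 := congrFun (hball' ξ hξ).2.1 i
    simp only [Θ, if_neg hi] at h1
    exact h1
  · intro ξ hξ
    obtain ⟨h1, h2, h3, h4, h5⟩ := hball' ξ hξ
    exact (AnalyticAt.comp h4 h1).inv (hH0 _)
  · intro ξ hξ
    obtain ⟨h1, h2, h3, h4, h5⟩ := hball' ξ hξ
    refine ⟨inv_ne_zero (hH0 _), ?_, ?_⟩
    · have := hcoord ξ hξ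
      rw [this]
      field_simp [hH0 (Ξ ξ)]
    · rw [← h5, ← mul_pow, ← hcoord ξ hξ]

end Crest.Agent.R276.BR_590
end
end

-- ▼ part R276/BR0_590
section

/-!
Row 276, leaf BC-REL (helper590), part 0: boundary charts at a PRESCRIBED general point.

`exists_bchart_at` : for a finite set `F ⊆ K^*` there is `g₀` not vanishing on the divisor such
that at every point `y` of the divisor with `g₀(y) ≠ 0` there are arbitrarily small boundary charts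
centred at `y` for which all `f ∈ F` are good.
-/

set_option autoImplicit false

open scoped Topology BigOperators
open Set Metric

noncomputable section

namespace Crest.Agent.R276.BR_590

open Crest.Agent.R271.Defs710 Crest.Agent.R271.Bd741 Crest.Agent.R276.BC_986

variable {n : ℕ} {K : Type} [Field K] [Algebra ℂ K]

/-- the points where finitely many functions have their generic order -/
lemma exists_generic_fun (D : DivModel n K) (F : Finset K) (hF : ∀ f ∈ F, f ≠ 0) :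
    ∃ g : D.A, ¬ D.t ∣ g ∧ ∀ y : D.A →ₐ[ℂ] ℂ, y g ≠ 0 → ∀ f ∈ F, ∀ a, D.HasOrd f a →
      OrdAt y D.t f a := by
  classical
  have h1 : ∀ f : K, ∃ h : D.A, ¬ D.t ∣ h ∧ ∀ y : D.A →ₐ[ℂ] ℂ, f ∈ F → y h ≠ 0 →
      ∀ a, D.HasOrd f a → OrdAt y D.t f a := by
    intro f
    by_cases hf : f ∈ F
    · obtain ⟨a, ha⟩ := D.exists_hasOrd f (hF f hf)
      obtain ⟨u, v, hu, hv, h⟩ := ha
      refine ⟨u * v, D.not_dvd_mul hu hv, fun y _ hy a' ha' => ?_⟩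
      have e : a' = a := D.hasOrd_unique ha' ⟨u, v, hu, hv, h⟩
      subst e
      rw [map_mul] at hy
      exact ⟨u, v, left_ne_zero_of_mul hy, right_ne_zero_of_mul hy, h⟩
    · exact ⟨1, fun h => D.prime.not_isUnit (isUnit_of_dvd_one h), fun y h => absurd h hf⟩
  choose h hh hh' using h1
  refine ⟨∏ f ∈ F, h f, ?_, fun y hy f hf a ha => ?_⟩
  · intro hd
    obtain ⟨f, _, hf⟩ := (D.t_prime.dvd_finsetProd_iff _).1 hd
    exact hh f hf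
  · rw [map_prod] at hy
    exact hh' f y hf (Finset.prod_ne_zero_iff.1 hy f hf) a ha

variable (D : DivModel n K) {B : Type} [CommRing B] [IsDomain B] [Algebra ℂ B]
  [Algebra B K] [IsScalarTower ℂ B K] [IsFractionRing B K]

/-- **Existence of boundary charts** at a prescribed general point. -/
theorem exists_bchart_at (hB : Algebra.FiniteType ℂ B) (F : Finset K) (hF : ∀ f ∈ F, f ≠ 0) :
    ∃ g₀ : D.A, ¬ D.t ∣ g₀ ∧ ∀ y : D.A →ₐ[ℂ] ℂ, y D.t = 0 → y g₀ ≠ 0 →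
      ∀ g : D.A, y g ≠ 0 → ∀ ε : ℝ, 0 < ε →
      ∃ X : BChart D B, X.y = y ∧ X.r ≤ ε ∧ (∀ ζ ∈ ball (0 : Cn n) X.r, X.C.s ζ g ≠ 0) ∧
        ∀ f ∈ F, ∃ (a : ℤ) (G : Cn n → ℂ), D.HasOrd f a ∧ Good D X f a G := by
  classical
  have hinjA := D.inj
  have hinjB : Function.Injective (algebraMap B K) := IsFractionRing.injective B K
  obtain ⟨q, hq0, hq⟩ := exists_denom (A := D.A) (B := B) K hB
  have hqK : algebraMap D.A K q ≠ 0 := fun h => hq0 (hinjA (by rw [h, map_zero]))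
  -- `w` in terms of `B`
  obtain ⟨⟨b0, hb0⟩, hb0'⟩ := IsLocalization.exist_integer_multiples_of_finite (nonZeroDivisors B)
    (fun i => algebraMap D.A K (D.w i))
  have hb00 : b0 ≠ 0 := nonZeroDivisors.ne_zero hb0
  have hcw : ∀ i, ∃ cw : B, algebraMap B K cw =
      algebraMap B K b0 * algebraMap D.A K (D.w i) := by
    intro i
    obtain ⟨cw, hcw⟩ := hb0' i
    refine ⟨cw, ?_⟩
    rw [hcw, Algebra.smul_def]
  choose cw hcw using hcw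
  obtain ⟨M0, u0, hu0⟩ := hq b0
  have hb0K : algebraMap B K b0 ≠ 0 := fun h => hb00 (hinjB (by rw [h, map_zero]))
  set F' : Finset K := insert (algebraMap D.A K q) (insert (algebraMap B K b0) F) with hF'
  have hF'0 : ∀ f ∈ F', f ≠ 0 := by
    intro f hf
    rcases Finset.mem_insert.1 hf with rfl | hf
    · exact hqK
    · rcases Finset.mem_insert.1 hf with rfl | hf
      · exact hb0K
      · exact hF f hf
  obtain ⟨g₀, hg₀, hgen⟩ := exists_generic_fun D F' hF'0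
  refine ⟨g₀, hg₀, fun y hyt hyg₀ g hyg ε hε => ?_⟩
  have hy := hgen y hyg₀
  obtain ⟨C⟩ := Crest.Agent.R271.Rd692.nonempty_chart D.w D.etale y
  have hcont : ∀ f : D.A, ContinuousAt (fun ζ => C.s ζ f) 0 := fun f =>
    (C.anal f 0 (mem_ball_self C.r_pos)).continuousAt
  have hs0 : ∀ f, C.s 0 f = y f := by rw [C.s_zero]; exact fun _ => rfl
  -- the elements of `F'` are good on a common polydisc
  have hgood : ∀ f ∈ F',
      ∃ (a : ℤ) (G : Cn n → ℂ) (ρ : ℝ), D.HasOrd f a ∧ 0 < ρ ∧ ρ ≤ C.r ∧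
      ∃ u₀ v₀ : D.A, f * algebraMap D.A K v₀ = algebraMap D.A K D.t ^ a * algebraMap D.A K u₀ ∧
      ∀ ζ ∈ ball (0 : Cn n) ρ, C.s ζ u₀ ≠ 0 ∧ C.s ζ v₀ ≠ 0 ∧ G ζ * C.s ζ v₀ = C.s ζ u₀ := by
    intro f hf
    obtain ⟨a, ha⟩ := D.exists_hasOrd f (hF'0 f hf)
    obtain ⟨G, ρ, h1, h2, h3⟩ := eventually_good D C (hy f hf a ha)
    exact ⟨a, G, ρ, ha, h1, h2, h3⟩
  choose! aa GG ρρ hord hρ0 hρC uu vv huv hGeq using hgood
  obtain ⟨ρg, hρg, hρg'⟩ : ∃ ρ > 0, ∀ ζ ∈ ball (0 : Cn n) ρ, C.s ζ g ≠ 0 := by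
    have h1 : ∀ᶠ ζ in 𝓝 (0 : Cn n), C.s ζ g ≠ 0 :=
      (hcont g).eventually_ne (by simp only [hs0]; exact hyg)
    exact Metric.eventually_nhds_iff_ball.1 h1
  obtain ⟨r, hr0, hrε, hrg, hrC, hrρ⟩ : ∃ r : ℝ, 0 < r ∧ r ≤ ε ∧ r ≤ ρg ∧ r ≤ C.r ∧
      ∀ f ∈ F', r ≤ ρρ f := by
    have hne : F'.Nonempty := Finset.insert_nonempty _ _
    set r1 := F'.inf' hne ρρ with hr1
    have h1 : 0 < r1 := by
      rw [hr1, Finset.lt_inf'_iff]
      exact hρ0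
    refine ⟨min (min ε ρg) (min C.r r1), lt_min (lt_min hε hρg) (lt_min C.r_pos h1),
      (min_le_left _ _).trans (min_le_left _ _), (min_le_left _ _).trans (min_le_right _ _),
      (min_le_right _ _).trans (min_le_left _ _), fun f hf => ?_⟩
    exact ((min_le_right _ _).trans (min_le_right _ _)).trans (Finset.inf'_le _ hf)
  have hst : ∀ ζ ∈ ball (0 : Cn n) r, C.s ζ D.t = ζ D.i₀ := by
    intro ζ hζ
    have h := C.s_z ζ (ball_subset_ball hrC hζ) D.i₀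
    have h2 : y (D.w D.i₀) = 0 := hyt
    rw [h2, zero_add] at h
    exact h
  -- every element of `A` which is in the list has no zeros off `t = 0`
  have hGA : ∀ u : D.A, algebraMap D.A K u ∈ F' → ∀ ζ ∈ ball (0 : Cn n) r, ζ D.i₀ ≠ 0 →
      C.s ζ u ≠ 0 := by
    intro u hu ζ hζ hζ0
    obtain ⟨h1, h2, -⟩ := hGeq _ hu ζ (ball_subset_ball (hrρ _ hu) hζ)
    have h3 := a_zpow D.inj (by rw [hst ζ hζ]; exact hζ0) D.tK_ne (huv _ hu)
    rw [hst ζ hζ] at h3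
    intro h0
    rw [h0, zero_mul] at h3
    exact (mul_ne_zero (zpow_ne_zero _ hζ0) h1) h3.symm
  have hqne : ∀ ζ ∈ ball (0 : Cn n) r, ζ D.i₀ ≠ 0 → C.s ζ q ≠ 0 :=
    hGA q (Finset.mem_insert_self _ _)
  -- the section
  have hex : ∀ ζ : Cn n, ∃ p : B →ₐ[ℂ] ℂ, ζ ∈ ball (0 : Cn n) r → ζ D.i₀ ≠ 0 →
      ∀ (b : B) (u v : D.A), algebraMap B K b * algebraMap D.A K v = algebraMap D.A K u →
      p b * C.s ζ v = C.s ζ u := by
    intro ζ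
    by_cases h : ζ ∈ ball (0 : Cn n) r ∧ ζ D.i₀ ≠ 0
    · obtain ⟨p, hp⟩ := exists_pt hinjA q hq (C.s ζ) (hqne ζ h.1 h.2)
      exact ⟨p, fun _ _ => hp⟩
    · by_cases hne : ∃ ζ' : Cn n, ζ' ∈ ball (0 : Cn n) r ∧ ζ' D.i₀ ≠ 0
      · obtain ⟨ζ', h1, h2⟩ := hne
        obtain ⟨p, hp⟩ := exists_pt hinjA q hq (C.s ζ') (hqne ζ' h1 h2)
        exact ⟨p, fun h1 h2 => absurd ⟨h1, h2⟩ h⟩
      · exfalso
        apply hne
        refine ⟨Pi.single D.i₀ (r / 2 : ℝ), ?_, ?_⟩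
        · rw [mem_ball_zero_iff, Pi.norm_single]
          simp only [Complex.norm_real, Real.norm_eq_abs]
          rw [abs_of_pos (by positivity)]
          linarith
        · rw [Pi.single_eq_same]
          simp [hr0.ne']
  choose s' hs' using hex
  -- injectivity
  have hinj : InjOn s' (ball (0 : Cn n) r ∩ {ζ | ζ D.i₀ ≠ 0}) := by
    intro ζ hζ ζ' hζ' heq
    have key : ∀ ζ ∈ ball (0 : Cn n) r ∩ {ζ : Cn n | ζ D.i₀ ≠ 0},
        s' ζ b0 ≠ 0 ∧ ∀ i, s' ζ (cw i) = s' ζ b0 * C.s ζ (D.w i) := by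
      intro ζ hζ
      have h2 := hqne ζ hζ.1 hζ.2
      have e1 := hs' ζ hζ.1 hζ.2 b0 u0 (q ^ M0) (by rw [map_pow]; exact hu0)
      have hb : s' ζ b0 ≠ 0 := by
        intro h
        rw [h, zero_mul] at e1
        have hmem : algebraMap B K b0 ∈ F' :=
          Finset.mem_insert_of_mem (Finset.mem_insert_self _ _)
        obtain ⟨g1, g2, -⟩ := hGeq _ hmem ζ (ball_subset_ball (hrρ _ hmem) hζ.1)
        have h3 : algebraMap D.A K u0 * algebraMap D.A K (vv (algebraMap B K b0)) =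
            algebraMap D.A K D.t ^ aa (algebraMap B K b0) *
              algebraMap D.A K (uu (algebraMap B K b0) * q ^ M0) := by
          rw [map_mul, ← mul_assoc, ← huv _ hmem, ← hu0, map_pow]; ring
        have h4 := a_zpow D.inj (by rw [hst ζ hζ.1]; exact hζ.2) D.tK_ne h3
        rw [← e1, zero_mul, map_mul, map_pow] at h4
        refine absurd h4.symm (mul_ne_zero (zpow_ne_zero _ ?_) (mul_ne_zero g1 (pow_ne_zero _ h2)))
        rw [hst ζ hζ.1]; exact hζ.2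
      refine ⟨hb, fun i => ?_⟩
      have e2 := hs' ζ hζ.1 hζ.2 (cw i) (u0 * D.w i) (q ^ M0) (by
        rw [hcw, map_pow, map_mul, ← hu0]; ring)
      rw [map_mul, ← e1, map_pow] at e2
      have hqp : (C.s ζ q) ^ M0 ≠ 0 := pow_ne_zero _ h2
      have : s' ζ (cw i) * (C.s ζ q) ^ M0 =
          (s' ζ b0 * C.s ζ (D.w i)) * (C.s ζ q) ^ M0 := by
        rw [e2]; ring
      exact mul_right_cancel₀ hqp this
    obtain ⟨k1, k2⟩ := key ζ hζ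
    obtain ⟨k1', k2'⟩ := key ζ' hζ'
    funext i
    have e1 := k2 i
    have e2 := k2' i
    rw [← heq, e1] at e2
    have e3 := mul_left_cancel₀ k1 e2
    rw [C.s_z ζ (ball_subset_ball hrC hζ.1) i, C.s_z ζ' (ball_subset_ball hrC hζ'.1) i] at e3
    exact add_left_cancel e3
  let X : BChart D B :=
    { y := y, C := C, y_t := hyt, r := r, r_pos := hr0, r_le := hrC, s := s', q := q,
      q_ne := hqne, q_spec := hq, spec := hs', inj := hinj }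
  refine ⟨X, rfl, hrε, fun ζ hζ => hρg' ζ (ball_subset_ball hrg hζ), fun f hf => ?_⟩
  have hf' : f ∈ F' :=
    Finset.mem_insert_of_mem (Finset.mem_insert_of_mem hf)
  exact ⟨aa f, GG f, hord f hf', ⟨uu f, vv f, huv f hf', fun ζ hζ =>
    hGeq f hf' ζ (ball_subset_ball (hrρ f hf') hζ)⟩⟩

end Crest.Agent.R276.BR_590
end
end

-- ▼ part R276/BR2_590

/-!
Row 276, leaf BC-REL (helper590), part 2: analytic boundary charts.

`ACh n i₀ B` : an analytic boundary chart of `Hom(B,ℂ)`: coordinates `ξ` in a polydisc of radius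
`ρ` around `0 ∈ ℂⁿ`, the divisor is `ξ i₀ = 0`.  `GoodA X f a G`: `f = ξ_{i₀}^a G`, `G` holomorphic
without zeros on the whole polydisc.  `ofRoot` : a boundary chart (986) after the change of
coordinates `τ = t u^{1/e}`.
-/

set_option autoImplicit false

open scoped Topology BigOperators ENNReal
open Set Metric MeasureTheory

noncomputable section

namespace Crest.Agent.R276.BR_590

open Crest.Agent.R271.Defs710 Crest.Agent.R271.Bd741 Crest.Agent.R276.BC_986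
open Crest.Agent.R271.Rd692 (Pt pr)

/-! ### determinants of analytic families -/

lemma det_eq_matrix {n : ℕ} (A : Cn n →L[ℂ] Cn n) :
    A.det = (Matrix.of fun k l => A (Pi.single l 1) k).det := by
  rw [ContinuousLinearMap.det, ← LinearMap.det_toMatrix']
  congr 1

lemma analyticAt_det {E : Type*} [NormedAddCommGroup E] [NormedSpace ℂ E] {ι : Type*} [Fintype ι]
    [DecidableEq ι] {M : E → Matrix ι ι ℂ} {x : E} (h : ∀ k l, AnalyticAt ℂ (fun y => M y k l) x) :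
    AnalyticAt ℂ (fun y => (M y).det) x := by
  have h1 : (fun y => (M y).det) = fun y => ∑ σ : Equiv.Perm ι,
      ((Equiv.Perm.sign σ : ℤ) : ℂ) * ∏ i, M y (σ i) i := by
    funext y
    rw [Matrix.det_apply']
  rw [h1]
  refine Finset.analyticAt_fun_sum _ fun σ _ => ?_
  refine analyticAt_const.mul ?_
  exact Finset.analyticAt_fun_prod _ fun i _ => h _ _

lemma fderiv_pi_apply {n : ℕ} {E : Type*} [NormedAddCommGroup E] [NormedSpace ℂ E]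
    {Ξ : E → Cn n} {x : E} (h : DifferentiableAt ℂ Ξ x) (v : E) (i : Fin n) :
    fderiv ℂ Ξ x v i = fderiv ℂ (fun ξ => Ξ ξ i) x v := by
  have h2 := (hasFDerivAt_pi'.1 h.hasFDerivAt) i
  rw [h2.fderiv]
  rfl

lemma analyticAt_det_fderiv {n : ℕ} {Ξ : Cn n → Cn n} {ξ : Cn n} (h : AnalyticAt ℂ Ξ ξ) :
    AnalyticAt ℂ (fun ξ => (fderiv ℂ Ξ ξ).det) ξ := by
  have h1 : (fun ξ => (fderiv ℂ Ξ ξ).det) =
      fun ξ => (Matrix.of fun k l => fderiv ℂ Ξ ξ (Pi.single l 1) k).det := by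
    funext ξ
    exact det_eq_matrix _
  rw [h1]
  refine analyticAt_det fun k l => ?_
  have h2 : AnalyticAt ℂ (fderiv ℂ Ξ) ξ := h.fderiv
  have h3 : AnalyticAt ℂ (fun ξ => fderiv ℂ Ξ ξ (Pi.single l 1)) ξ :=
    (ContinuousLinearMap.apply ℂ (Cn n) (Pi.single l 1 : Cn n)).analyticAt _ |>.comp h2
  exact (analyticAt_pi_iff.1 h3) k

/-! ### analytic boundary charts -/

/-- analytic boundary chart of `Hom(B,ℂ)` -/
structure ACh (n : ℕ) (i₀ : Fin n) (B : Type) [CommRing B] [Algebra ℂ B] where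
  ρ : ℝ
  ρ_pos : 0 < ρ
  s : Cn n → (B →ₐ[ℂ] ℂ)
  inj : InjOn s (ball (0 : Cn n) ρ ∩ {ξ | ξ i₀ ≠ 0})
  anal : ∀ b : B, AnalyticOnNhd ℂ (fun ξ => s ξ b) (ball (0 : Cn n) ρ ∩ {ξ | ξ i₀ ≠ 0})

namespace ACh

variable {n : ℕ} {i₀ : Fin n} {B : Type} [CommRing B] [Algebra ℂ B] (X : ACh n i₀ B)

/-- the polydisc minus the divisor -/
def V : Set (Cn n) := ball (0 : Cn n) X.ρ ∩ {ξ | ξ i₀ ≠ 0}

lemma isOpen_V : IsOpen X.V :=
  isOpen_ball.inter (isOpen_ne_fun (continuous_apply _) continuous_const)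

/-- the chart followed by functions `z` on `Hom(B,ℂ)` -/
def ψ {k : ℕ} (z : Fin k → B) (ξ : Cn n) : Cn k := fun i => X.s ξ (z i)

lemma analyticAt_ψ {k : ℕ} (z : Fin k → B) {ξ : Cn n} (hξ : ξ ∈ X.V) :
    AnalyticAt ℂ (X.ψ z) ξ := analyticAt_pi_iff.2 fun i => X.anal (z i) ξ hξ

lemma hasStrictFDerivAt_ψ {k : ℕ} (z : Fin k → B) {ξ : Cn n} (hξ : ξ ∈ X.V) :
    HasStrictFDerivAt (X.ψ z) (fderiv ℂ (X.ψ z) ξ) ξ := (X.analyticAt_ψ z hξ).hasStrictFDerivAt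


/-- shrink the polydisc -/
def shrink (ρ : ℝ) (hρ : 0 < ρ) (hρr : ρ ≤ X.ρ) : ACh n i₀ B where
  ρ := ρ
  ρ_pos := hρ
  s := X.s
  inj := X.inj.mono (inter_subset_inter_left _ (ball_subset_ball hρr))
  anal := fun b => (X.anal b).mono (inter_subset_inter_left _ (ball_subset_ball hρr))

/-- change of variables, lower bound -/
theorem lintM_ge (z : Fin n → B) (hdet : ∀ ξ ∈ X.V, (fderiv ℂ (X.ψ z) ξ).det ≠ 0)
    (g : (B →ₐ[ℂ] ℂ) → ℝ≥0∞) :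
    ∫⁻ ξ in X.V, g (X.s ξ) * ENNReal.ofReal (‖(fderiv ℂ (X.ψ z) ξ).det‖ ^ 2) ≤ lintM z g :=
  Crest.Agent.R271.Bd741.lintM_ge z X.V X.isOpen_V X.s X.inj (fun ξ => fderiv ℂ (X.ψ z) ξ)
    (fun _ hξ => X.hasStrictFDerivAt_ψ z hξ) hdet g

/-- `f = ξ_{i₀}^a G` in the chart, `G` holomorphic without zeros on the polydisc -/
structure GoodA {K : Type} [Field K] [Algebra B K] (f : K) (a : ℤ) (G : Cn n → ℂ) : Prop where
  an : AnalyticOnNhd ℂ G (ball (0 : Cn n) X.ρ)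
  ne : ∀ ξ ∈ ball (0 : Cn n) X.ρ, G ξ ≠ 0
  eq : ∀ ξ ∈ X.V, ∀ b₁ b₂ : B, f * algebraMap B K b₂ = algebraMap B K b₁ →
    X.s ξ b₁ = ξ i₀ ^ a * G ξ * X.s ξ b₂

/-- the Jacobian determinant with respect to `z` is `ξ_{i₀}^c J` -/
structure JacA (z : Fin n → B) (c : ℤ) (J : Cn n → ℂ) : Prop where
  an : AnalyticOnNhd ℂ J (ball (0 : Cn n) X.ρ)
  ne : ∀ ξ ∈ ball (0 : Cn n) X.ρ, J ξ ≠ 0
  eq : ∀ ξ ∈ X.V, (fderiv ℂ (X.ψ z) ξ).det = ξ i₀ ^ c * J ξ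

variable {X}

lemma GoodA.eq₁ {K : Type} [Field K] [Algebra B K] {f : K} {a : ℤ} {G : Cn n → ℂ}
    (h : X.GoodA f a G) {ξ : Cn n} (hξ : ξ ∈ X.V) (b : B) (hb : algebraMap B K b = f) :
    X.s ξ b = ξ i₀ ^ a * G ξ := by
  have := h.eq ξ hξ b 1 (by rw [map_one, mul_one, hb])
  rwa [map_one, mul_one] at this

lemma GoodA.shrink {K : Type} [Field K] [Algebra B K] {f : K} {a : ℤ} {G : Cn n → ℂ}
    (h : X.GoodA f a G) (ρ : ℝ) (hρ : 0 < ρ) (hρr : ρ ≤ X.ρ) :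
    (X.shrink ρ hρ hρr).GoodA f a G where
  an := h.an.mono (ball_subset_ball hρr)
  ne := fun ξ hξ => h.ne ξ (ball_subset_ball hρr hξ)
  eq := fun ξ hξ => h.eq ξ ⟨ball_subset_ball hρr hξ.1, hξ.2⟩

lemma JacA.shrink {z : Fin n → B} {c : ℤ} {J : Cn n → ℂ} (h : X.JacA z c J)
    (ρ : ℝ) (hρ : 0 < ρ) (hρr : ρ ≤ X.ρ) : (X.shrink ρ hρ hρr).JacA z c J where
  an := h.an.mono (ball_subset_ball hρr)
  ne := fun ξ hξ => h.ne ξ (ball_subset_ball hρr hξ)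
  eq := fun ξ hξ => h.eq ξ ⟨ball_subset_ball hρr hξ.1, hξ.2⟩

lemma JacA.det_ne {z : Fin n → B} {c : ℤ} {J : Cn n → ℂ} (h : X.JacA z c J) {ξ : Cn n}
    (hξ : ξ ∈ X.V) : (fderiv ℂ (X.ψ z) ξ).det ≠ 0 := by
  rw [h.eq ξ hξ]
  exact mul_ne_zero (zpow_ne_zero _ hξ.2) (h.ne ξ hξ.1)

end ACh

/-! ### the change of coordinates `τ = t u^{1/e}` -/

/-- the data of `exists_root_coord` -/
structure Root {n : ℕ} (i₀ : Fin n) (r : ℝ) (G : Cn n → ℂ) (e : ℕ) where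
  ρ : ℝ
  Ξ : Cn n → Cn n
  E : Cn n → ℂ
  ρ_pos : 0 < ρ
  an : AnalyticOnNhd ℂ Ξ (ball 0 ρ)
  maps : MapsTo Ξ (ball 0 ρ) (ball 0 r)
  inj : InjOn Ξ (ball 0 ρ)
  det : ∀ ξ ∈ ball (0 : Cn n) ρ, (fderiv ℂ Ξ ξ).det ≠ 0
  coord : ∀ ξ ∈ ball (0 : Cn n) ρ, ∀ i, i ≠ i₀ → Ξ ξ i = ξ i
  anE : AnalyticOnNhd ℂ E (ball 0 ρ)
  ne : ∀ ξ ∈ ball (0 : Cn n) ρ, E ξ ≠ 0
  eq : ∀ ξ ∈ ball (0 : Cn n) ρ, Ξ ξ i₀ = ξ i₀ * E ξ
  pow : ∀ ξ ∈ ball (0 : Cn n) ρ, (Ξ ξ i₀) ^ e * G (Ξ ξ) = ξ i₀ ^ e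
  zero : Ξ 0 = 0

lemma exists_rootS {n : ℕ} (i₀ : Fin n) {G : Cn n → ℂ} {r : ℝ} (hr : 0 < r)
    (hG : AnalyticOnNhd ℂ G (ball 0 r)) (hne : G 0 ≠ 0) (e : ℕ) (he : e ≠ 0) (ε : ℝ)
    (hε : 0 < ε) : ∃ T : Root i₀ r G e, T.ρ ≤ ε := by
  obtain ⟨ρ, Ξ, E, h1, h2, h3, h4, h5, h6, h7, h8, h9, h10⟩ :=
    exists_root_coord i₀ hr hG hne e he ε hε
  exact ⟨⟨ρ, Ξ, E, h1, h3, h4, h5, h6, h7, h8, fun ξ hξ => (h9 ξ hξ).1,
    fun ξ hξ => (h9 ξ hξ).2.1, fun ξ hξ => (h9 ξ hξ).2.2, h10⟩, h2⟩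

section ofRoot

variable {n : ℕ} {K : Type} [Field K] [Algebra ℂ K] {D : DivModel n K} {B : Type} [CommRing B]
  [Algebra ℂ B] [Algebra B K] (X : BChart D B) {G : Cn n → ℂ} {e : ℕ} (T : Root D.i₀ X.r G e)

lemma root_mem_V {ξ : Cn n} (h1 : ξ ∈ ball (0 : Cn n) T.ρ) (h2 : ξ D.i₀ ≠ 0) : T.Ξ ξ ∈ X.V := by
  refine ⟨T.maps h1, ?_⟩
  change T.Ξ ξ D.i₀ ≠ 0
  rw [T.eq ξ h1]
  exact mul_ne_zero h2 (T.ne ξ h1)

/-- the boundary chart in the coordinates `ξ` -/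
def ofRoot : ACh n D.i₀ B where
  ρ := T.ρ
  ρ_pos := T.ρ_pos
  s := fun ξ => X.s (T.Ξ ξ)
  inj := by
    intro ξ hξ ξ' hξ' h
    exact T.inj hξ.1 hξ'.1 (X.inj (root_mem_V X T hξ.1 hξ.2) (root_mem_V X T hξ'.1 hξ'.2) h)
  anal := by
    intro b ξ hξ
    exact AnalyticAt.comp (X.anal b _ (root_mem_V X T hξ.1 hξ.2)) (T.an ξ hξ.1)

lemma ofRoot_s (ξ : Cn n) : (ofRoot X T).s ξ = X.s (T.Ξ ξ) := rfl


theorem Good.ofRoot {f : K} {a : ℤ} {G' : Cn n → ℂ} (h : Good D X f a G') :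
    (ofRoot X T).GoodA f a (fun ξ => T.E ξ ^ a * G' (T.Ξ ξ)) where
  an := fun ξ hξ => ((T.anE ξ hξ).zpow (T.ne ξ hξ)).mul
    (AnalyticAt.comp (h.anal _ (T.maps hξ)) (T.an ξ hξ))
  ne := fun ξ hξ => mul_ne_zero (zpow_ne_zero _ (T.ne ξ hξ)) (h.ne _ (T.maps hξ))
  eq := by
    intro ξ hξ b₁ b₂ hb
    have h1 := h.eq₂ (root_mem_V X T hξ.1 hξ.2) b₁ b₂ hb
    rw [ofRoot_s, h1, T.eq ξ hξ.1, mul_zpow]
    ring

theorem Good.ofRoot_jac (z : Fin n → B) (b : Fin n → Ω[K⁄ℂ])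
    (hb : ∀ j, b j = KaehlerDifferential.D ℂ K (algebraMap B K (z j))) {c : ℤ} {GJ : Cn n → ℂ}
    (hJ : Good D X (D.dw.toMatrix b).det c GJ) :
    (BR_590.ofRoot X T).JacA z c
      (fun ξ => T.E ξ ^ c * GJ (T.Ξ ξ) * (fderiv ℂ T.Ξ ξ).det) where
  an := fun ξ hξ => (((T.anE ξ hξ).zpow (T.ne ξ hξ)).mul
    (AnalyticAt.comp (hJ.anal _ (T.maps hξ)) (T.an ξ hξ))).mul (analyticAt_det_fderiv (T.an ξ hξ))
  ne := fun ξ hξ => mul_ne_zero (mul_ne_zero (zpow_ne_zero _ (T.ne ξ hξ)) (hJ.ne _ (T.maps hξ)))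
    (T.det ξ hξ)
  eq := by
    intro ξ hξ
    have hV := root_mem_V X T hξ.1 hξ.2
    have h1 : fderiv ℂ ((BR_590.ofRoot X T).ψ z) ξ =
        (fderiv ℂ (X.ψ z) (T.Ξ ξ)).comp (fderiv ℂ T.Ξ ξ) :=
      fderiv_comp ξ (X.analyticAt_ψ z hV).differentiableAt (T.an ξ hξ.1).differentiableAt
    have h2 : (fderiv ℂ ((BR_590.ofRoot X T).ψ z) ξ).det =
        (fderiv ℂ (X.ψ z) (T.Ξ ξ)).det * (fderiv ℂ T.Ξ ξ).det := by
      rw [h1]
      exact LinearMap.det_comp _ _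
    rw [h2, X.det_eq z b hb hJ hV, T.eq ξ hξ.1, mul_zpow]
    ring

end ofRoot

end Crest.Agent.R276.BR_590
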