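import Mathlib
import Crest.Agent.R276.BR3_590

/-!
Row 276, leaf BC-REL (helper590), part 4: relative boundary charts at a VERTICAL divisor.

`VData` : algebraic data at a divisorial valuation ring `R` of `K` such that `R ∩ L` is divisorial:
`w₁ = t^e u` (`w₁` uniformiser of `R ∩ L`, `t` uniformiser of `R`, `u` a unit of `R`), coordinates
`(t, w₂, …, w_m, x₁, …, x_r)`.

`exists_vchart` : analytic coordinates `ξ = (τ, w₂, …, w_m, x₁, …, x_r)` on a polydisc with
`τ^e = w₁`; the point of `M_L` under `s ξ` is `s_L (τ^e, w₂, …, w_m)`.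
-/

set_option autoImplicit false

open scoped Topology BigOperators ENNReal
open Set Metric MeasureTheory Filter

noncomputable section

namespace Crest.Agent.R276.BR_590

open Crest.Agent.R271.Defs710 Crest.Agent.R271.Bd741 Crest.Agent.R276.BC_986
open Crest.Agent.R271.Rd692 (Pt pr)

/-- `a ↦ (a₁, …, a_i^e, …, a_m)` -/
def pe {m : ℕ} (i : Fin m) (e : ℕ) (a : Cn m) : Cn m := fun k => if k = i then a k ^ e else a k

section pe

variable {m : ℕ} (i : Fin m) (e : ℕ)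

lemma pe_self (a : Cn m) : pe i e a i = a i ^ e := by simp [pe]

lemma pe_of_ne (a : Cn m) {k : Fin m} (h : k ≠ i) : pe i e a k = a k := by simp [pe, h]

lemma hasFDerivAt_pe (a : Cn m) : HasFDerivAt (pe i e)
    (ContinuousLinearMap.pi fun k => (if k = i then ((e : ℂ) * a k ^ (e - 1)) else 1) •
      (ContinuousLinearMap.proj k : Cn m →L[ℂ] ℂ)) a := by
  rw [hasFDerivAt_pi']
  intro k
  by_cases h : k = i
  · have h1 : (fun a : Cn m => pe i e a k) = fun a => a k ^ e := by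
      funext a; simp [pe, h]
    rw [h1]
    have h2 := (hasFDerivAt_apply (𝕜 := ℂ) k a).pow e
    convert! h2 using 1
    ext v
    simp [h]
  · have h1 : (fun a : Cn m => pe i e a k) = fun a => a k := by
      funext a; simp [pe, h]
    rw [h1]
    convert! hasFDerivAt_apply (𝕜 := ℂ) k a using 1
    ext v
    simp [h]

lemma analyticAt_pe (a : Cn m) : AnalyticAt ℂ (pe i e) a := by
  rw [analyticAt_pi_iff]
  intro k
  have hk : AnalyticAt ℂ (fun a : Cn m => a k) a :=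
    (ContinuousLinearMap.proj (R := ℂ) (φ := fun _ : Fin m => ℂ) k).analyticAt a
  by_cases h : k = i
  · have h1 : (fun a : Cn m => pe i e a k) = fun a => a k ^ e := by
      funext a; simp [pe, h]
    rw [h1]
    exact hk.pow e
  · have h1 : (fun a : Cn m => pe i e a k) = fun a => a k := by
      funext a; simp [pe, h]
    rw [h1]
    exact hk

lemma norm_pe_lt {a : Cn m} {ρ : ℝ} (he : e ≠ 0) (hρ : 0 < ρ) (hρ1 : ρ ≤ 1) (ha : ‖a‖ < ρ) :
    ‖pe i e a‖ < ρ := by
  rw [pi_norm_lt_iff hρ] at ha ⊢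
  intro k
  by_cases h : k = i
  · subst h
    rw [pe_self, norm_pow]
    have h1 : ‖a k‖ ≤ 1 := (ha k).le.trans hρ1
    calc ‖a k‖ ^ e ≤ ‖a k‖ ^ 1 :=
          pow_le_pow_of_le_one (norm_nonneg _) h1 (Nat.one_le_iff_ne_zero.2 he)
      _ < ρ := by rw [pow_one]; exact ha k
  · rw [pe_of_ne i e a h]
    exact ha k

end pe

/-- shrink the domain of a root coordinate -/
def Root.shrink {n : ℕ} {i₀ : Fin n} {r : ℝ} {G : Cn n → ℂ} {e : ℕ} (T : Root i₀ r G e) (ρ : ℝ)
    (hρ : 0 < ρ) (hρT : ρ ≤ T.ρ) : Root i₀ r G e where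
  ρ := ρ
  Ξ := T.Ξ
  E := T.E
  ρ_pos := hρ
  an := T.an.mono (ball_subset_ball hρT)
  maps := T.maps.mono_left (ball_subset_ball hρT)
  inj := T.inj.mono (ball_subset_ball hρT)
  det := fun ξ hξ => T.det ξ (ball_subset_ball hρT hξ)
  coord := fun ξ hξ => T.coord ξ (ball_subset_ball hρT hξ)
  anE := T.anE.mono (ball_subset_ball hρT)
  ne := fun ξ hξ => T.ne ξ (ball_subset_ball hρT hξ)
  eq := fun ξ hξ => T.eq ξ (ball_subset_ball hρT hξ)
  pow := fun ξ hξ => T.pow ξ (ball_subset_ball hρT hξ)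
  zero := T.zero

/-- algebraic data at a divisorial valuation of `K` which is divisorial on `L` -/
structure VData (m r : ℕ) (L K : Type) [Field L] [Algebra ℂ L] [Field K] [Algebra ℂ K]
    [Algebra L K] where
  DL : DivModel m L
  D : DivModel (m + r) K
  ι : DL.A →ₐ[ℂ] D.A
  ι_K : ∀ a, algebraMap D.A K (ι a) = algebraMap L K (algebraMap DL.A L a)
  i₀_eq : D.i₀ = Fin.castAdd r DL.i₀
  base : ∀ i, i ≠ DL.i₀ → D.w (Fin.castAdd r i) = ι (DL.w i)
  e : ℕ
  e_ne : e ≠ 0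
  u : D.A
  u_nd : ¬ D.t ∣ u
  ram : ι DL.t = D.t ^ e * u
  lies : ∀ a : DL.A, D.t ∣ ι a → DL.t ∣ a

/-- a relative boundary chart at a vertical divisor -/
structure VChart {m r : ℕ} {L K : Type} [Field L] [Algebra ℂ L] [Field K] [Algebra ℂ K]
    [Algebra L K] (V : VData m r L K) {BL BK : Type} [CommRing BL] [Algebra ℂ BL] [Algebra BL L]
    [CommRing BK] [Algebra ℂ BK] [Algebra BK K] (j : BL →ₐ[ℂ] BK) where
  /-- the boundary chart of the base -/
  XL : BChart V.DL BL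
  /-- the (algebraic) boundary chart of `M_K` -/
  X0 : BChart V.D BK
  /-- the change of coordinates `τ = t u^{1/e}` -/
  T : Root V.D.i₀ X0.r (fun ζ => X0.C.s ζ V.u) V.e
  ρ_le_one : T.ρ ≤ 1
  ρ_le : T.ρ ≤ XL.r
  fib : ∀ ξ ∈ ball (0 : Cn (m + r)) T.ρ ∩ {ξ | ξ V.D.i₀ ≠ 0},
      (X0.s (T.Ξ ξ)).comp j = XL.s (pe V.DL.i₀ V.e (bs ξ))

/-- the relative analytic chart -/
def VChart.X {m r : ℕ} {L K : Type} [Field L] [Algebra ℂ L] [Field K] [Algebra ℂ K]
    [Algebra L K] {V : VData m r L K} {BL BK : Type} [CommRing BL] [Algebra ℂ BL] [Algebra BL L]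
    [CommRing BK] [Algebra ℂ BK] [Algebra BK K] {j : BL →ₐ[ℂ] BK} (W : VChart V j) :
    RCh m r V.D.i₀ j where
  toACh := ofRoot W.X0 W.T
  sL := fun a => W.XL.s (pe V.DL.i₀ V.e a)
  fib := W.fib

section exist

variable {m r : ℕ} {L K : Type} [Field L] [Algebra ℂ L] [Field K] [Algebra ℂ K]
    [Algebra L K] (V : VData m r L K) {BL BK : Type}
    [CommRing BL] [Algebra ℂ BL] [Algebra BL L]
    [CommRing BK] [Algebra ℂ BK] [Algebra BK K]


end exist

namespace VChart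

variable {m r : ℕ} {L K : Type} [Field L] [Algebra ℂ L] [Field K] [Algebra ℂ K]
    [Algebra L K] {V : VData m r L K} {BL BK : Type} [CommRing BL] [Algebra ℂ BL] [Algebra BL L]
    [CommRing BK] [Algebra ℂ BK] [Algebra BK K] {j : BL →ₐ[ℂ] BK} (W : VChart V j)





lemma good {f : K} {a : ℤ} {G : Cn (m + r) → ℂ} (h : Good V.D W.X0 f a G) :
    W.X.GoodA f a (fun ξ => W.T.E ξ ^ a * G (W.T.Ξ ξ)) := Good.ofRoot W.X0 W.T h

lemma jac (z : Fin (m + r) → BK) (b : Fin (m + r) → Ω[K⁄ℂ])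
    (hb : ∀ j, b j = KaehlerDifferential.D ℂ K (algebraMap BK K (z j))) {c : ℤ}
    {GJ : Cn (m + r) → ℂ} (hJ : Good V.D W.X0 (V.D.dw.toMatrix b).det c GJ) :
    W.X.JacA z c (fun ξ => W.T.E ξ ^ c * GJ (W.T.Ξ ξ) * (fderiv ℂ W.T.Ξ ξ).det) :=
  Good.ofRoot_jac W.X0 W.T z b hb hJ



end VChart

end Crest.Agent.R276.BR_590
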