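import Mathlib
import Crest.Agent.R276.BR4_590
import Crest.Agent.R276.BR5_590

-- ▼ part R276/BR7_590
section

/-!
Row 276, leaf BC-REL (helper590), part 7: towers of root coordinates.

`Root.one`        : the trivial change of coordinates;
`Root.exists_inv` : inverse of a root coordinate near the centre;
`vstep`           : over a chart of `M_L` which already carries a root coordinate there is a root
                    coordinate on the chart of `M_K` with `f (s_K ξ) = s_L (ξ₁, …, ξ_i^e, …, ξ_m)`.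
-/

set_option autoImplicit false

open scoped Topology BigOperators ENNReal ContDiff
open Set Metric MeasureTheory Filter

noncomputable section

namespace Crest.Agent.R276.BR_590

open Crest.Agent.R271.Defs710 Crest.Agent.R271.Bd741 Crest.Agent.R276.BC_986
open Crest.Agent.R271.Rd692 (Pt pr)

lemma analyticAt_coord {n : ℕ} (i : Fin n) (ζ : Cn n) : AnalyticAt ℂ (fun ζ : Cn n => ζ i) ζ :=
  (ContinuousLinearMap.proj (R := ℂ) (φ := fun _ : Fin n => ℂ) i).analyticAt ζ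

/-- the trivial change of coordinates -/
def Root.one {n : ℕ} (i₀ : Fin n) (r : ℝ) (hr : 0 < r) : Root i₀ r (fun _ => 1) 1 where
  ρ := r
  Ξ := id
  E := fun _ => 1
  ρ_pos := hr
  an := analyticOnNhd_id
  maps := fun _ h => h
  inj := fun _ _ _ _ h => h
  det := by
    intro ξ _
    rw [fderiv_id]
    simp [ContinuousLinearMap.det]
  coord := fun _ _ _ _ => rfl
  anE := analyticOnNhd_const
  ne := fun _ _ => one_ne_zero
  eq := fun ξ _ => by simp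
  pow := fun ξ _ => by simp
  zero := rfl

/-- `ζ` with `ζ_{i₀}` multiplied by `H ζ` -/
def th {n : ℕ} (i₀ : Fin n) (H : Cn n → ℂ) (ζ : Cn n) : Cn n :=
  fun i => if i = i₀ then ζ i * H ζ else ζ i

section th

variable {n : ℕ} (i₀ : Fin n) (H : Cn n → ℂ)

lemma th_self (ζ : Cn n) : th i₀ H ζ i₀ = ζ i₀ * H ζ := by simp [th]

lemma th_of_ne (ζ : Cn n) {i : Fin n} (h : i ≠ i₀) : th i₀ H ζ i = ζ i := by simp [th, h]

lemma th_zero : th i₀ H 0 = 0 := by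
  funext i
  by_cases h : i = i₀
  · subst h; simp [th_self]
  · simp [th_of_ne i₀ H 0 h]

lemma analyticAt_th {ζ : Cn n} (h : AnalyticAt ℂ H ζ) : AnalyticAt ℂ (th i₀ H) ζ := by
  rw [analyticAt_pi_iff]
  intro i
  by_cases hi : i = i₀
  · subst hi
    have : (fun ζ : Cn n => th i H ζ i) = fun ζ => ζ i * H ζ := by
      funext ζ; exact th_self i H ζ
    rw [this]
    exact (analyticAt_coord i ζ).mul h
  · have : (fun ζ : Cn n => th i₀ H ζ i) = fun ζ => ζ i := by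
      funext ζ; exact th_of_ne i₀ H ζ hi
    rw [this]
    exact analyticAt_coord i ζ

end th

/-- **the inverse of a root coordinate** -/
theorem Root.exists_inv {n : ℕ} {i₀ : Fin n} {r : ℝ} {G : Cn n → ℂ} {e : ℕ} (T : Root i₀ r G e) :
    ∃ H : Cn n → ℂ, AnalyticAt ℂ H 0 ∧ H 0 ≠ 0 ∧
      ∀ᶠ ζ in 𝓝 (0 : Cn n), th i₀ H ζ ∈ ball (0 : Cn n) T.ρ ∧ T.Ξ (th i₀ H ζ) = ζ := by
  have h0 : (0 : Cn n) ∈ ball (0 : Cn n) T.ρ := mem_ball_self T.ρ_pos
  have han := T.an 0 h0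
  have hdet := T.det 0 h0
  have hu : IsUnit (fderiv ℂ T.Ξ 0 : Cn n →ₗ[ℂ] Cn n) := by
    rw [LinearMap.isUnit_iff_isUnit_det, isUnit_iff_ne_zero]; exact hdet
  let L : Cn n ≃L[ℂ] Cn n := ContinuousLinearEquiv.ofBijective (fderiv ℂ T.Ξ 0)
    (LinearMap.ker_eq_bot.2 ((Module.End.isUnit_iff _).1 hu).1)
    (LinearMap.range_eq_top.2 ((Module.End.isUnit_iff _).1 hu).2)
  have hL : (L : Cn n →L[ℂ] Cn n) = fderiv ℂ T.Ξ 0 := ContinuousLinearEquiv.coe_ofBijective _ _ _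
  have hd : HasFDerivAt T.Ξ (L : Cn n →L[ℂ] Cn n) 0 := by
    rw [hL]; exact han.differentiableAt.hasFDerivAt
  have hc : ContDiffAt ℂ ω T.Ξ 0 := han.contDiffAt
  have hn : (ω : WithTop ℕ∞) ≠ 0 := by simp
  set Ψ : Cn n → Cn n := hc.localInverse hd hn with hΨ
  have hΨ0 : Ψ 0 = 0 := by
    have := hc.localInverse_apply_image hd hn
    rwa [T.zero] at this
  have hΨan : AnalyticAt ℂ Ψ 0 := by
    have h1 := hc.to_localInverse hd hn
    rw [T.zero] at h1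
    exact h1.analyticAt
  have hinv : ∀ᶠ ξ in 𝓝 (0 : Cn n), T.Ξ (Ψ ξ) = ξ := by
    have h1 := (hc.hasStrictFDerivAt' hd hn).eventually_right_inverse
    rw [T.zero] at h1
    exact h1
  have hcont : Tendsto Ψ (𝓝 0) (𝓝 0) := by
    have := hΨan.continuousAt.tendsto
    rwa [hΨ0] at this
  refine ⟨fun ζ => (T.E (Ψ ζ))⁻¹, ?_, ?_, ?_⟩
  · refine AnalyticAt.inv ?_ ?_
    · refine AnalyticAt.comp (g := T.E) (f := Ψ) ?_ hΨan
      rw [hΨ0]; exact T.anE 0 h0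
    · simp only [hΨ0]; exact T.ne 0 h0
  · simp only [hΨ0]
    exact inv_ne_zero (T.ne 0 h0)
  · filter_upwards [hinv, hcont.eventually (ball_mem_nhds 0 T.ρ_pos)] with ζ h1 h2
    have h3 : th i₀ (fun ζ => (T.E (Ψ ζ))⁻¹) ζ = Ψ ζ := by
      funext i
      by_cases hi : i = i₀
      · subst hi
        rw [th_self]
        have h4 := T.eq _ h2
        rw [h1] at h4
        rw [h4, mul_assoc, mul_inv_cancel₀ (T.ne _ h2), mul_one]
      · rw [th_of_ne _ _ _ hi]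
        have h4 := T.coord _ h2 i hi
        rw [h1] at h4
        exact h4
    rw [h3]
    exact ⟨h2, h1⟩

/-- the coordinates of the base point -/
def zm {m : ℕ} (r : ℕ) (i₁ : Fin m) (e : ℕ) (g : Cn (m + r) → ℂ) (ζ : Cn (m + r)) : Cn m :=
  fun i => if i = i₁ then ζ (Fin.castAdd r i) ^ e * g ζ else ζ (Fin.castAdd r i)

section zm

variable {m r : ℕ} (i₁ : Fin m) (e : ℕ) (g : Cn (m + r) → ℂ)

lemma zm_self (ζ : Cn (m + r)) : zm r i₁ e g ζ i₁ = ζ (Fin.castAdd r i₁) ^ e * g ζ := by simp [zm]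

lemma zm_of_ne (ζ : Cn (m + r)) {i : Fin m} (h : i ≠ i₁) :
    zm r i₁ e g ζ i = ζ (Fin.castAdd r i) := by simp [zm, h]

lemma zm_zero (he : e ≠ 0) : zm r i₁ e g 0 = 0 := by
  funext i
  by_cases h : i = i₁
  · subst h; simp [zm_self, he]
  · simp [zm_of_ne i₁ e g 0 h]

lemma analyticAt_zm {ζ : Cn (m + r)} (h : AnalyticAt ℂ g ζ) : AnalyticAt ℂ (zm r i₁ e g) ζ := by
  rw [analyticAt_pi_iff]
  intro i
  by_cases hi : i = i₁
  · subst hi
    have : (fun ζ : Cn (m + r) => zm r i e g ζ i) = fun ζ => ζ (Fin.castAdd r i) ^ e * g ζ := by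
      funext ζ; exact zm_self i e g ζ
    rw [this]
    exact ((analyticAt_coord _ ζ).pow e).mul h
  · have : (fun ζ : Cn (m + r) => zm r i₁ e g ζ i) = fun ζ => ζ (Fin.castAdd r i) := by
      funext ζ; exact zm_of_ne i₁ e g ζ hi
    rw [this]
    exact analyticAt_coord _ ζ

end zm

section step

variable {m r : ℕ} {L K : Type} [Field L] [Algebra ℂ L] [Field K] [Algebra ℂ K]
    [Algebra L K] (V : VData m r L K) {BL BK : Type}
    [CommRing BL] [Algebra ℂ BL] [Algebra BL L]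
    [CommRing BK] [Algebra ℂ BK] [Algebra BK K]

/-- the base point of the points of a boundary chart, vertical case -/
theorem vbase (j : BL →ₐ[ℂ] BK)
    (hj : ∀ b : BL, algebraMap BK K (j b) = algebraMap L K (algebraMap BL L b))
    (X : BChart V.D BK) (XL : BChart V.DL BL) (hXLy : XL.y = X.y.comp V.ι)
    (hXu : X.y V.u ≠ 0) : ∃ ρ : ℝ, 0 < ρ ∧ ρ ≤ X.r ∧ ∀ ζ ∈ ball (0 : Cn (m + r)) ρ,
      X.C.s ζ V.u ≠ 0 ∧
      zm r V.DL.i₀ V.e (fun ζ => X.C.s ζ V.u) ζ ∈ ball (0 : Cn m) XL.r ∧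
      (X.C.s ζ).comp V.ι = XL.C.s (zm r V.DL.i₀ V.e (fun ζ => X.C.s ζ V.u) ζ) ∧
      (ζ V.D.i₀ ≠ 0 → zm r V.DL.i₀ V.e (fun ζ => X.C.s ζ V.u) ζ ∈ XL.V ∧
        (X.s ζ).comp j = XL.s (zm r V.DL.i₀ V.e (fun ζ => X.C.s ζ V.u) ζ)) := by
  classical
  set g : Cn (m + r) → ℂ := fun ζ => X.C.s ζ V.u with hg
  obtain ⟨S, δ, hδ, hS⟩ := XL.C.surj
  have h0 : (0 : Cn (m + r)) ∈ ball (0 : Cn (m + r)) X.r := mem_ball_self X.r_pos
  have hcont : ∀ b : V.D.A, ContinuousAt (fun ζ => X.C.s ζ b) 0 := fun b =>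
    (X.analA b 0 h0).continuousAt
  have hval0 : ∀ b : V.DL.A, X.C.s 0 (V.ι b) = XL.y b := by
    intro b
    rw [X.C.s_zero, hXLy]; rfl
  have hev1 : ∀ᶠ ζ in 𝓝 (0 : Cn (m + r)), ∀ b ∈ S, ‖X.C.s ζ (V.ι b) - XL.y b‖ < δ := by
    rw [Filter.eventually_all_finset]
    intro b _
    have h1 : ContinuousAt (fun ζ => ‖X.C.s ζ (V.ι b) - XL.y b‖) 0 :=
      ((hcont (V.ι b)).sub continuousAt_const).norm
    refine h1.eventually (gt_mem_nhds ?_)
    simp only [hval0, sub_self, norm_zero]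
    exact hδ
  have hev2 : ∀ᶠ ζ in 𝓝 (0 : Cn (m + r)), zm r V.DL.i₀ V.e g ζ ∈ ball (0 : Cn m) XL.r := by
    have h1 : ContinuousAt (zm r V.DL.i₀ V.e g) 0 :=
      (analyticAt_zm _ _ _ (X.analA V.u 0 h0)).continuousAt
    refine h1.eventually (isOpen_ball.mem_nhds ?_)
    rw [zm_zero _ _ _ V.e_ne]
    exact mem_ball_self XL.r_pos
  have hev3 : ∀ᶠ ζ in 𝓝 (0 : Cn (m + r)), X.C.s ζ V.u ≠ 0 := by
    refine (hcont V.u).eventually_ne ?_
    rw [X.C.s_zero]; exact hXu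
  obtain ⟨ρ₁, hρ₁, hball⟩ := Metric.eventually_nhds_iff_ball.1 (hev1.and (hev2.and hev3))
  refine ⟨min ρ₁ X.r, lt_min hρ₁ X.r_pos, min_le_right _ _, fun ζ hζ => ?_⟩
  obtain ⟨k1, k2, k3⟩ := hball ζ (ball_subset_ball (min_le_left _ _) hζ)
  have hζX : ζ ∈ ball (0 : Cn (m + r)) X.r := ball_subset_ball (min_le_right _ _) hζ
  have hpt : (X.C.s ζ).comp V.ι = XL.C.s (zm r V.DL.i₀ V.e g ζ) := by
    have h1 := hS ((X.C.s ζ).comp V.ι) k1
    rw [h1]
    congr 1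
    funext i
    by_cases hi : i = V.DL.i₀
    · subst hi
      rw [zm_self]
      have e1 : XL.y (V.DL.w V.DL.i₀) = 0 := XL.y_t
      rw [e1, sub_zero]
      change X.C.s ζ (V.ι V.DL.t) = _
      rw [V.ram, map_mul, map_pow, X.s_t hζX, V.i₀_eq]
    · rw [zm_of_ne _ _ _ _ hi]
      have e1 : XL.y (V.DL.w i) = X.y (V.D.w (Fin.castAdd r i)) := by
        rw [hXLy, V.base i hi]; rfl
      rw [e1]
      change X.C.s ζ (V.ι (V.DL.w i)) - _ = _
      rw [← V.base i hi, X.s_w hζX, add_sub_cancel_left]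
  refine ⟨k3, k2, hpt, fun hζ0 => ?_⟩
  have hzV : zm r V.DL.i₀ V.e g ζ ∈ XL.V := by
    refine ⟨k2, ?_⟩
    change zm r V.DL.i₀ V.e g ζ V.DL.i₀ ≠ 0
    rw [zm_self]
    rw [V.i₀_eq] at hζ0
    exact mul_ne_zero (pow_ne_zero _ hζ0) k3
  refine ⟨hzV, ?_⟩
  apply AlgHom.ext
  intro b
  have h1 : IsVal (X.C.s ζ) (algebraMap BK K (j b)) (X.s ζ (j b)) := X.isVal_s ⟨hζX, hζ0⟩ (j b)
  obtain ⟨u, v, e1, e2, e3⟩ := XL.isVal_s hzV b
  have hpa : ∀ a : V.DL.A, XL.C.s (zm r V.DL.i₀ V.e g ζ) a = X.C.s ζ (V.ι a) := by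
    intro a
    rw [← hpt]; rfl
  have h2 : IsVal (X.C.s ζ) (algebraMap BK K (j b)) (XL.s (zm r V.DL.i₀ V.e g ζ) b) := by
    refine ⟨V.ι u, V.ι v, ?_, ?_, ?_⟩
    · rw [← hpa]; exact e1
    · rw [hj, V.ι_K, V.ι_K, ← map_mul, e2]
    · rw [← hpa, ← hpa]; exact e3
  exact h1.unique V.D.inj h2

/-- **the step**: over a chart of `M_L` with a root coordinate there is a root coordinate on the
chart of `M_K` -/
theorem vstep (j : BL →ₐ[ℂ] BK)
    (hj : ∀ b : BL, algebraMap BK K (j b) = algebraMap L K (algebraMap BL L b))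
    (X : BChart V.D BK) (XL : BChart V.DL BL) (hXLy : XL.y = X.y.comp V.ι)
    (hXu : X.y V.u ≠ 0) {G₁ : Cn m → ℂ} {eL : ℕ} (TL : Root V.DL.i₀ XL.r G₁ eL)
    (ε : ℝ) (hε : 0 < ε) : ∃ (r' : ℝ) (hr' : 0 < r') (hle : r' ≤ X.r) (G : Cn (m + r) → ℂ)
      (T : Root V.D.i₀ (X.shrink r' hr' hle).r G V.e), T.ρ ≤ ε ∧
      ∀ ξ ∈ ball (0 : Cn (m + r)) T.ρ, pe V.DL.i₀ V.e (bs ξ) ∈ ball (0 : Cn m) TL.ρ ∧
        (ξ V.D.i₀ ≠ 0 →
          (X.s (T.Ξ ξ)).comp j = XL.s (TL.Ξ (pe V.DL.i₀ V.e (bs ξ)))) := by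
  classical
  obtain ⟨ρ₀, hρ₀, hρ₀X, hbase⟩ := vbase V j hj X XL hXLy hXu
  obtain ⟨H, hHan, hH0, hHinv⟩ := TL.exists_inv
  set g : Cn (m + r) → ℂ := fun ζ => X.C.s ζ V.u with hg
  set Z : Cn (m + r) → Cn m := zm r V.DL.i₀ V.e g with hZ
  have h0 : (0 : Cn (m + r)) ∈ ball (0 : Cn (m + r)) X.r := mem_ball_self X.r_pos
  have hgan : AnalyticAt ℂ g 0 := X.analA V.u 0 h0
  have hZan : AnalyticAt ℂ Z 0 := analyticAt_zm _ _ _ hgan
  have hZ0 : Z 0 = 0 := zm_zero _ _ _ V.e_ne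
  have hZt : Tendsto Z (𝓝 0) (𝓝 0) := by
    have := hZan.continuousAt.tendsto
    rwa [hZ0] at this
  have hGan : AnalyticAt ℂ (fun ζ => g ζ * H (Z ζ)) 0 := by
    refine hgan.mul (AnalyticAt.comp (g := H) (f := Z) ?_ hZan)
    rw [hZ0]; exact hHan
  have hG0 : g 0 * H (Z 0) ≠ 0 := by
    rw [hZ0]
    refine mul_ne_zero ?_ hH0
    change X.C.s 0 V.u ≠ 0
    rw [X.C.s_zero]; exact hXu
  -- shrink `X`
  obtain ⟨ρ₁, hρ₁, hball⟩ := Metric.eventually_nhds_iff_ball.1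
    (hGan.eventually_analyticAt.and (hZt.eventually hHinv))
  set r' := min ρ₀ ρ₁ with hr'def
  have hr' : 0 < r' := lt_min hρ₀ hρ₁
  have hle : r' ≤ X.r := (min_le_left _ _).trans hρ₀X
  have hGan' : AnalyticOnNhd ℂ (fun ζ => g ζ * H (Z ζ)) (ball 0 (X.shrink r' hr' hle).r) := by
    intro ζ hζ
    exact (hball ζ (ball_subset_ball (min_le_right _ _) hζ)).1
  obtain ⟨T₀, hT₀⟩ := exists_rootS V.D.i₀ (X.shrink r' hr' hle).r_pos hGan' hG0 V.e V.e_ne
    (min ε (min 1 TL.ρ)) (lt_min hε (lt_min one_pos TL.ρ_pos))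
  refine ⟨r', hr', hle, _, T₀, hT₀.trans (min_le_left _ _), fun ξ hξ => ?_⟩
  have hT1 : T₀.ρ ≤ 1 := (hT₀.trans (min_le_right _ _)).trans (min_le_left _ _)
  have hTL : T₀.ρ ≤ TL.ρ := (hT₀.trans (min_le_right _ _)).trans (min_le_right _ _)
  refine ⟨?_, fun hξ0 => ?_⟩
  · rw [mem_ball_zero_iff] at hξ ⊢
    exact (norm_pe_lt _ _ V.e_ne T₀.ρ_pos hT1 ((norm_bs_le ξ).trans_lt hξ)).trans_le hTL
  · have hmaps : T₀.Ξ ξ ∈ ball (0 : Cn (m + r)) r' := T₀.maps hξ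
    have hζ₀ : T₀.Ξ ξ ∈ ball (0 : Cn (m + r)) ρ₀ := ball_subset_ball (min_le_left _ _) hmaps
    have hζ₁ : T₀.Ξ ξ ∈ ball (0 : Cn (m + r)) ρ₁ := ball_subset_ball (min_le_right _ _) hmaps
    have hζ0 : T₀.Ξ ξ V.D.i₀ ≠ 0 := by
      rw [T₀.eq ξ hξ]
      exact mul_ne_zero hξ0 (T₀.ne ξ hξ)
    obtain ⟨-, -, -, k4⟩ := hbase (T₀.Ξ ξ) hζ₀
    obtain ⟨-, k5⟩ := k4 hζ0
    obtain ⟨-, k6⟩ := (hball (T₀.Ξ ξ) hζ₁).2
    rw [k5]
    congr 1
    -- `TL.Ξ (pe (bs ξ)) = Z (T₀.Ξ ξ)`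
    have h1 : pe V.DL.i₀ V.e (bs ξ) = th V.DL.i₀ H (Z (T₀.Ξ ξ)) := by
      funext i
      by_cases hi : i = V.DL.i₀
      · subst hi
        rw [pe_self, th_self]
        have h2 : Z (T₀.Ξ ξ) V.DL.i₀ = T₀.Ξ ξ (Fin.castAdd r V.DL.i₀) ^ V.e * g (T₀.Ξ ξ) :=
          zm_self _ _ _ _
        rw [h2]
        have h3 := T₀.pow ξ hξ
        have e3 : ∀ v : Cn (m + r), v V.D.i₀ = v (Fin.castAdd r V.DL.i₀) := fun v => by
          rw [V.i₀_eq]
        rw [e3 (T₀.Ξ ξ), e3 ξ] at h3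
        change ξ (Fin.castAdd r V.DL.i₀) ^ V.e = _
        rw [← h3]
        ring
      · rw [pe_of_ne _ _ _ hi, th_of_ne _ _ _ hi]
        have h2 : Z (T₀.Ξ ξ) i = T₀.Ξ ξ (Fin.castAdd r i) := zm_of_ne _ _ _ _ hi
        rw [h2, T₀.coord ξ hξ]
        · rfl
        · rw [V.i₀_eq]
          intro h
          exact hi ((Fin.castAdd_injective m r) h)
    rw [h1]
    exact k6.symm

end step

end Crest.Agent.R276.BR_590
end
end

-- ▼ part R276/BR8_590
section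

/-!
Row 276, leaf BC-REL (helper590), part 8: Jacobians of relative charts over ANY analytic chart of
the base, comparison of charts.
-/

set_option autoImplicit false

open scoped Topology BigOperators ENNReal ContDiff
open Set Metric MeasureTheory Filter

noncomputable section

namespace Crest.Agent.R276.BR_590

open Crest.Agent.R271.Defs710 Crest.Agent.R271.Bd741 Crest.Agent.R276.BC_986
open Crest.Agent.R271.Rd692 (Pt pr)

section jac

variable {m r : ℕ} {BL BK : Type} [CommRing BL] [Algebra ℂ BL] [CommRing BK] [Algebra ℂ BK]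
  {i₀ : Fin (m + r)} {j : BL →ₐ[ℂ] BK}

/-- **base Jacobian**, vertical case: the relative chart `X` lies over the analytic chart `Y` of the
base by `ξ ↦ (ξ₁, …, ξ_i^e, …, ξ_m)` -/
theorem Jbs_vert (X : RCh m r i₀ j) {i₁ : Fin m} (hi : i₀ = Fin.castAdd r i₁) (e : ℕ)
    (Y : ACh m i₁ BL) (hV : ∀ ξ ∈ X.V, pe i₁ e (bs ξ) ∈ Y.V)
    (hs : ∀ ξ ∈ X.V, X.sL (bs ξ) = Y.s (pe i₁ e (bs ξ))) (zL : Fin m → BL)
    {ξ : Cn (m + r)} (hξ : ξ ∈ X.V) :
    X.Jbs zL ξ = (fderiv ℂ (Y.ψ zL) (pe i₁ e (bs ξ))).det * ((e : ℂ) * ξ i₀ ^ (e - 1)) := by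
  have han := Y.analyticAt_ψ zL (hV ξ hξ)
  have hbs : HasFDerivAt (fun ξ : Cn (m + r) => bs ξ)
      (ContinuousLinearMap.pi fun i => ContinuousLinearMap.proj (Fin.castAdd r i)) ξ :=
    (ContinuousLinearMap.pi (R := ℂ) (φ := fun _ : Fin m => ℂ)
      fun i : Fin m => (ContinuousLinearMap.proj (Fin.castAdd r i) : Cn (m + r) →L[ℂ] ℂ)).hasFDerivAt
  have hcomp : ∀ k : Fin m, HasFDerivAt (fun ξ => X.s ξ (j (zL k)))
      ((((ContinuousLinearMap.proj k : Cn m →L[ℂ] ℂ).comp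
        (fderiv ℂ (Y.ψ zL) (pe i₁ e (bs ξ)))).comp
        (ContinuousLinearMap.pi fun k => (if k = i₁ then
          ((e : ℂ) * bs ξ k ^ (e - 1)) else 1) •
          (ContinuousLinearMap.proj k : Cn m →L[ℂ] ℂ))).comp
        (ContinuousLinearMap.pi fun i => ContinuousLinearMap.proj (Fin.castAdd r i))) ξ := by
    intro k
    have h1 : HasFDerivAt (fun a : Cn m => Y.ψ zL a k)
        ((ContinuousLinearMap.proj k : Cn m →L[ℂ] ℂ).comp
        (fderiv ℂ (Y.ψ zL) (pe i₁ e (bs ξ)))) (pe i₁ e (bs ξ)) :=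
      (hasFDerivAt_pi'.1 han.differentiableAt.hasFDerivAt) k
    have h2 := (h1.comp (bs ξ) (hasFDerivAt_pe i₁ e (bs ξ))).comp ξ hbs
    refine h2.congr_of_eventuallyEq ?_
    filter_upwards [X.toACh.isOpen_V.mem_nhds hξ] with ξ' hξ'
    have h3 := X.fib' hξ' (zL k)
    rw [h3, hs ξ' hξ']
    rfl
  have hmat : (Matrix.of fun k l : Fin m => fderiv ℂ (fun ξ => X.s ξ (j (zL k))) ξ
      (Pi.single (Fin.castAdd r l) 1)) =
      (Matrix.of fun k l => fderiv ℂ (Y.ψ zL) (pe i₁ e (bs ξ)) (Pi.single l 1) k) *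
      Matrix.diagonal fun l => if l = i₁ then ((e : ℂ) * bs ξ l ^ (e - 1)) else 1 := by
    ext k l
    rw [Matrix.mul_diagonal, Matrix.of_apply, Matrix.of_apply, (hcomp k).fderiv]
    simp only [ContinuousLinearMap.comp_apply, ContinuousLinearMap.proj_apply]
    have e1 : (ContinuousLinearMap.pi fun i => ContinuousLinearMap.proj (Fin.castAdd r i) :
        Cn (m + r) →L[ℂ] Cn m) (Pi.single (Fin.castAdd r l) 1) = Pi.single l 1 := by
      funext i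
      simp only [ContinuousLinearMap.coe_pi', ContinuousLinearMap.proj_apply]
      by_cases h : i = l
      · subst h; simp
      · rw [Pi.single_eq_of_ne h, Pi.single_eq_of_ne]
        intro h'
        exact h ((Fin.castAdd_injective m r) h')
    rw [e1]
    have e2 : (ContinuousLinearMap.pi fun k => (if k = i₁ then
          ((e : ℂ) * bs ξ k ^ (e - 1)) else 1) •
          (ContinuousLinearMap.proj k : Cn m →L[ℂ] ℂ)) (Pi.single l 1) =
        (if l = i₁ then ((e : ℂ) * bs ξ l ^ (e - 1)) else 1) •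
          (Pi.single l 1 : Cn m) := by
      funext i
      change (if i = i₁ then ((e : ℂ) * bs ξ i ^ (e - 1)) else 1) •
        ((Pi.single l (1 : ℂ) : Cn m) i) = _
      by_cases h : i = l
      · subst h; simp
      · simp [Pi.single_eq_of_ne h]
    rw [e2, map_smul, Pi.smul_apply, smul_eq_mul, mul_comm]
  unfold RCh.Jbs
  rw [hmat, Matrix.det_mul, ← det_eq_matrix, Matrix.det_diagonal]
  congr 1
  rw [Finset.prod_ite_eq' Finset.univ i₁ (fun l => (e : ℂ) * bs ξ l ^ (e - 1))]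
  simp only [Finset.mem_univ, if_true]
  rw [hi]
  rfl

/-- **the fibre Jacobian**, vertical case -/
theorem Jrel_vert (X : RCh m r i₀ j) {i₁ : Fin m} (hi : i₀ = Fin.castAdd r i₁) {e : ℕ}
    (he : e ≠ 0) (hρ1 : X.ρ ≤ 1) (Y : ACh m i₁ BL) (hρ : X.ρ ≤ Y.ρ)
    (hs : ∀ ξ ∈ X.V, X.sL (bs ξ) = Y.s (pe i₁ e (bs ξ))) (zL : Fin m → BL) (xt : Fin r → BK)
    {cL : ℤ} {JL : Cn m → ℂ} (hJL : Y.JacA zL cL JL) {c : ℤ} {JK : Cn (m + r) → ℂ}
    (hJK : X.toACh.JacA (Fin.append (fun i => j (zL i)) xt) c JK) :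
    ∃ J : Cn (m + r) → ℂ, AnalyticOnNhd ℂ J (ball 0 X.ρ) ∧ (∀ ξ ∈ ball 0 X.ρ, J ξ ≠ 0) ∧
      ∀ ξ ∈ X.V, X.Jrel xt ξ = ξ i₀ ^ (c - e * cL - (e - 1)) * J ξ := by
  have hmaps : ∀ ξ ∈ ball (0 : Cn (m + r)) X.ρ, pe i₁ e (bs ξ) ∈ ball 0 Y.ρ := by
    intro ξ h1
    rw [mem_ball_zero_iff] at h1 ⊢
    exact (norm_pe_lt _ _ he X.ρ_pos hρ1 ((norm_bs_le ξ).trans_lt h1)).trans_le hρ
  have hV : ∀ ξ ∈ X.V, pe i₁ e (bs ξ) ∈ Y.V := by
    intro ξ hξ
    refine ⟨hmaps ξ hξ.1, ?_⟩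
    change pe i₁ e (bs ξ) i₁ ≠ 0
    rw [pe_self]
    refine pow_ne_zero _ ?_
    have h2 : ξ i₀ ≠ 0 := hξ.2
    rw [hi] at h2
    exact h2
  have hGBan : ∀ ξ ∈ ball (0 : Cn (m + r)) X.ρ,
      AnalyticAt ℂ (fun ξ => JL (pe i₁ e (bs ξ))) ξ := by
    intro ξ hξ
    have h1 : AnalyticAt ℂ (fun ξ : Cn (m + r) => bs ξ) ξ :=
      (ContinuousLinearMap.pi (R := ℂ) (φ := fun _ : Fin m => ℂ)
        fun i : Fin m => (ContinuousLinearMap.proj (Fin.castAdd r i) : Cn (m + r) →L[ℂ] ℂ)).analyticAt ξ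
    have h2 : AnalyticAt ℂ (fun ξ : Cn (m + r) => pe i₁ e (bs ξ)) ξ :=
      AnalyticAt.comp (g := pe i₁ e) (analyticAt_pe _ _ _) h1
    exact AnalyticAt.comp (g := JL) (f := fun ξ : Cn (m + r) => pe i₁ e (bs ξ))
      (hJL.an _ (hmaps ξ hξ)) h2
  have heC : (e : ℂ) ≠ 0 := by exact_mod_cast he
  refine ⟨fun ξ => JK ξ / ((e : ℂ) * JL (pe i₁ e (bs ξ))), fun ξ hξ => ?_, fun ξ hξ => ?_,
    fun ξ hξ => ?_⟩
  · exact (hJK.an ξ hξ).div (analyticAt_const.mul (hGBan ξ hξ))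
      (mul_ne_zero heC (hJL.ne _ (hmaps ξ hξ)))
  · exact div_ne_zero (hJK.ne ξ hξ) (mul_ne_zero heC (hJL.ne _ (hmaps ξ hξ)))
  · have h1 := X.det_block zL xt hξ
    rw [hJK.eq ξ hξ, Jbs_vert X hi e Y hV hs zL hξ, hJL.eq _ (hV ξ hξ), pe_self] at h1
    have hξ0 : ξ i₀ ≠ 0 := hξ.2
    have hbsi : bs ξ i₁ = ξ i₀ := by rw [hi]; rfl
    rw [hbsi] at h1
    have hGB := hJL.ne _ (hmaps ξ hξ.1)
    have he1 : ((e : ℤ) - 1) = ((e - 1 : ℕ) : ℤ) := by
      have := Nat.one_le_iff_ne_zero.2 he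
      push_cast [Nat.cast_sub this]; ring
    have e2 : ξ i₀ ^ c = ξ i₀ ^ (c - e * cL - (e - 1)) *
        ((ξ i₀ ^ e) ^ cL * ξ i₀ ^ (e - 1)) := by
      rw [he1, ← zpow_natCast (ξ i₀) (e - 1), ← zpow_natCast (ξ i₀) e, ← zpow_mul,
        ← zpow_add₀ hξ0, ← zpow_add₀ hξ0]
      congr 1
      ring
    have h3 : ξ i₀ ^ e ≠ 0 := pow_ne_zero _ hξ0
    have h4 : (ξ i₀ ^ e) ^ cL ≠ 0 := zpow_ne_zero _ h3
    have h5 : ξ i₀ ^ (e - 1) ≠ 0 := pow_ne_zero _ hξ0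
    rw [e2] at h1
    set Q := ξ i₀ ^ (c - e * cL - (e - 1)) with hQ
    have h6 : Q * JK ξ * ((ξ i₀ ^ e) ^ cL * ξ i₀ ^ (e - 1)) =
        X.Jrel xt ξ * (e * JL (pe i₁ e (bs ξ))) *
          ((ξ i₀ ^ e) ^ cL * ξ i₀ ^ (e - 1)) := by
      linear_combination h1
    have h7 := mul_right_cancel₀ (mul_ne_zero h4 h5) h6
    rw [← mul_div_assoc, eq_div_iff (mul_ne_zero heC hGB), h7]

/-- base Jacobian in the horizontal case, `C` a chart of the base (without divisor) for the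
coordinates `zL` -/
theorem Jbs_hor (X : RCh m r i₀ j) (zL : Fin m → BL) {y : BL →ₐ[ℂ] ℂ} (C : Chart zL y)
    (hρ : X.ρ ≤ C.r) (hs : ∀ ξ ∈ X.V, X.sL (bs ξ) = C.s (bs ξ)) {ξ : Cn (m + r)} (hξ : ξ ∈ X.V) :
    X.Jbs zL ξ = 1 := by
  have h1 : ∀ k : Fin m, (fun ξ => X.s ξ (j (zL k))) =ᶠ[𝓝 ξ]
      fun ξ => y (zL k) + ξ (Fin.castAdd r k) := by
    intro k
    filter_upwards [X.toACh.isOpen_V.mem_nhds hξ] with ξ' hξ'
    have h3 := X.fib' hξ' (zL k)
    rw [h3, hs ξ' hξ']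
    have hb : bs ξ' ∈ ball (0 : Cn m) C.r := by
      have h4 : ξ' ∈ ball (0 : Cn (m + r)) X.ρ := hξ'.1
      rw [mem_ball_zero_iff] at h4 ⊢
      exact ((norm_bs_le ξ').trans_lt h4).trans_le hρ
    exact C.s_z _ hb k
  have h2 : ∀ k : Fin m, fderiv ℂ (fun ξ => X.s ξ (j (zL k))) ξ =
      (ContinuousLinearMap.proj (Fin.castAdd r k) : Cn (m + r) →L[ℂ] ℂ) := by
    intro k
    rw [(h1 k).fderiv_eq, fderiv_const_add]
    exact (ContinuousLinearMap.proj (R := ℂ) (φ := fun _ : Fin (m + r) => ℂ)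
      (Fin.castAdd r k)).fderiv
  unfold RCh.Jbs
  have h3 : (Matrix.of fun k l : Fin m => fderiv ℂ (fun ξ => X.s ξ (j (zL k))) ξ
      (Pi.single (Fin.castAdd r l) 1)) = 1 := by
    ext k l
    rw [Matrix.of_apply, h2 k, ContinuousLinearMap.proj_apply]
    by_cases h : k = l
    · subst h; simp
    · rw [Matrix.one_apply_ne h, Pi.single_eq_of_ne]
      intro h'
      exact h ((Fin.castAdd_injective m r) h')
  rw [h3, Matrix.det_one]

/-- the fibre Jacobian in the horizontal case is the Jacobian -/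
theorem Jrel_hor (X : RCh m r i₀ j) (zL : Fin m → BL) {y : BL →ₐ[ℂ] ℂ} (C : Chart zL y)
    (hρ : X.ρ ≤ C.r) (hs : ∀ ξ ∈ X.V, X.sL (bs ξ) = C.s (bs ξ)) (xt : Fin r → BK)
    {ξ : Cn (m + r)} (hξ : ξ ∈ X.V) : X.Jrel xt ξ =
      (fderiv ℂ (X.toACh.ψ (Fin.append (fun i => j (zL i)) xt)) ξ).det := by
  rw [X.det_block zL xt hξ, Jbs_hor X zL C hρ hs hξ, one_mul]

end jac

section compare

variable {n : ℕ} {K : Type} [Field K] [Algebra ℂ K] {D : DivModel n K} {B : Type} [CommRing B]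
  [Algebra ℂ B] [Algebra B K]

/-- a small algebraic chart is contained in the chart with the root coordinate; the Jacobians are
comparable -/
theorem exists_small (X : BChart D B) {G : Cn n → ℂ} {e : ℕ} (T : Root D.i₀ X.r G e)
    (z : Fin n → B) {δ : ℝ} (hδ : 0 < δ) (hδT : δ < T.ρ) : ∃ (ρ : ℝ) (C : ℝ), 0 < ρ ∧ ρ ≤ X.r ∧
      ∀ ζ ∈ ball (0 : Cn n) ρ, ζ D.i₀ ≠ 0 → ∃ η ∈ ball (0 : Cn n) δ, η D.i₀ ≠ 0 ∧
        T.Ξ η = ζ ∧
        ‖(fderiv ℂ (X.ψ z) ζ).det‖ ≤ C * ‖(fderiv ℂ ((ofRoot X T).ψ z) η).det‖ := by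
  obtain ⟨H, hHan, hH0, hHinv⟩ := T.exists_inv
  have h1 : Tendsto (th D.i₀ H) (𝓝 0) (𝓝 0) := by
    have := (analyticAt_th D.i₀ H hHan).continuousAt.tendsto
    rwa [th_zero] at this
  -- lower bound for the Jacobian of `Ξ`
  have hsub : closedBall (0 : Cn n) δ ⊆ ball (0 : Cn n) T.ρ := closedBall_subset_ball hδT
  have hc : ContinuousOn (fun ξ => ‖(fderiv ℂ T.Ξ ξ).det‖) (closedBall (0 : Cn n) δ) :=
    fun ξ hξ => (analyticAt_det_fderiv (T.an ξ (hsub hξ))).continuousAt.norm.continuousWithinAt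
  obtain ⟨ξ₀, hξ₀, hmin⟩ := (isCompact_closedBall (0 : Cn n) δ).exists_isMinOn
    ⟨0, mem_closedBall_self hδ.le⟩ hc
  have hm : 0 < ‖(fderiv ℂ T.Ξ ξ₀).det‖ := norm_pos_iff.2 (T.det ξ₀ (hsub hξ₀))
  obtain ⟨ρ₁, hρ₁, hball⟩ := Metric.eventually_nhds_iff_ball.1
    (hHinv.and ((h1.eventually (ball_mem_nhds 0 hδ)).and
      (hHan.continuousAt.eventually_ne hH0)))
  refine ⟨min ρ₁ X.r, ‖(fderiv ℂ T.Ξ ξ₀).det‖⁻¹, lt_min hρ₁ X.r_pos, min_le_right _ _,
    fun ζ hζ hζ0 => ?_⟩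
  obtain ⟨⟨k1, k2⟩, k3, k4⟩ := hball ζ (ball_subset_ball (min_le_left _ _) hζ)
  have hη0 : th D.i₀ H ζ D.i₀ ≠ 0 := by
    rw [th_self]
    exact mul_ne_zero hζ0 k4
  refine ⟨th D.i₀ H ζ, k3, hη0, k2, ?_⟩
  have hV := root_mem_V X T k1 hη0
  have h2 : fderiv ℂ ((ofRoot X T).ψ z) (th D.i₀ H ζ) =
      (fderiv ℂ (X.ψ z) (T.Ξ (th D.i₀ H ζ))).comp (fderiv ℂ T.Ξ (th D.i₀ H ζ)) :=
    fderiv_comp _ (X.analyticAt_ψ z hV).differentiableAt (T.an _ k1).differentiableAt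
  have h3 : (fderiv ℂ ((ofRoot X T).ψ z) (th D.i₀ H ζ)).det =
      (fderiv ℂ (X.ψ z) ζ).det * (fderiv ℂ T.Ξ (th D.i₀ H ζ)).det := by
    rw [h2, k2]
    exact LinearMap.det_comp _ _
  rw [h3, norm_mul]
  have h4 : ‖(fderiv ℂ T.Ξ ξ₀).det‖ ≤ ‖(fderiv ℂ T.Ξ (th D.i₀ H ζ)).det‖ :=
    hmin (ball_subset_closedBall k3)
  rw [mul_comm, mul_assoc]
  nth_rewrite 1 [← mul_one ‖(fderiv ℂ (X.ψ z) ζ).det‖]
  refine mul_le_mul_of_nonneg_left ?_ (norm_nonneg _)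
  rw [← div_eq_mul_inv, one_le_div hm]
  exact h4

end compare

/-! ### horizontal charts -/

/-- algebraic data at a divisorial valuation of `K` whose valuation ring contains `L`; `BL` is the
ring of an étale chart of `L` with coordinates `zL` -/
structure HData (m r : ℕ) (L K : Type) [Field L] [Algebra ℂ L] [Field K] [Algebra ℂ K]
    [Algebra L K] (BL : Type) [CommRing BL] [Algebra ℂ BL] [Algebra BL L] (zL : Fin m → BL) where
  D : DivModel (m + r) K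
  ι : BL →ₐ[ℂ] D.A
  ι_K : ∀ a, algebraMap D.A K (ι a) = algebraMap L K (algebraMap BL L a)
  k₀ : Fin r
  i₀_eq : D.i₀ = Fin.natAdd m k₀
  base : ∀ i, D.w (Fin.castAdd r i) = ι (zL i)

section hor

variable {m r : ℕ} {L K : Type} [Field L] [Algebra ℂ L] [Field K] [Algebra ℂ K]
    [Algebra L K] {BL : Type} [CommRing BL] [Algebra ℂ BL] [Algebra BL L] {zL : Fin m → BL}
    (V : HData m r L K BL zL) {BK : Type} [CommRing BK] [Algebra ℂ BK] [Algebra BK K]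

/-- the base point of the points of a boundary chart, horizontal case -/
theorem hbase (j : BL →ₐ[ℂ] BK)
    (hj : ∀ b : BL, algebraMap BK K (j b) = algebraMap L K (algebraMap BL L b))
    (X : BChart V.D BK) (C : Chart zL (X.y.comp V.ι)) : ∃ ρ : ℝ, 0 < ρ ∧ ρ ≤ X.r ∧ ρ ≤ C.r ∧
      ∀ ζ ∈ ball (0 : Cn (m + r)) ρ, (X.C.s ζ).comp V.ι = C.s (bs ζ) ∧
      (ζ V.D.i₀ ≠ 0 → (X.s ζ).comp j = C.s (bs ζ)) := by
  classical
  obtain ⟨S, δ, hδ, hS⟩ := C.surj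
  have h0 : (0 : Cn (m + r)) ∈ ball (0 : Cn (m + r)) X.r := mem_ball_self X.r_pos
  have hcont : ∀ b : V.D.A, ContinuousAt (fun ζ => X.C.s ζ b) 0 := fun b =>
    (X.analA b 0 h0).continuousAt
  have hval0 : ∀ b : BL, X.C.s 0 (V.ι b) = X.y.comp V.ι b := by
    intro b
    rw [X.C.s_zero]; rfl
  have hev1 : ∀ᶠ ζ in 𝓝 (0 : Cn (m + r)), ∀ b ∈ S, ‖X.C.s ζ (V.ι b) - X.y.comp V.ι b‖ < δ := by
    rw [Filter.eventually_all_finset]
    intro b _
    have h1 : ContinuousAt (fun ζ => ‖X.C.s ζ (V.ι b) - X.y.comp V.ι b‖) 0 :=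
      ((hcont (V.ι b)).sub continuousAt_const).norm
    refine h1.eventually (gt_mem_nhds ?_)
    simp only [hval0, sub_self, norm_zero]
    exact hδ
  obtain ⟨ρ₁, hρ₁, hball⟩ := Metric.eventually_nhds_iff_ball.1 hev1
  refine ⟨min ρ₁ (min X.r C.r), lt_min hρ₁ (lt_min X.r_pos C.r_pos),
    (min_le_right _ _).trans (min_le_left _ _), (min_le_right _ _).trans (min_le_right _ _),
    fun ζ hζ => ?_⟩
  have k1 := hball ζ (ball_subset_ball (min_le_left _ _) hζ)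
  have hζX : ζ ∈ ball (0 : Cn (m + r)) X.r :=
    ball_subset_ball ((min_le_right _ _).trans (min_le_left _ _)) hζ
  have hpt : (X.C.s ζ).comp V.ι = C.s (bs ζ) := by
    have h1 := hS ((X.C.s ζ).comp V.ι) k1
    rw [h1]
    congr 1
    funext i
    change X.C.s ζ (V.ι (zL i)) - X.y (V.ι (zL i)) = _
    rw [← V.base i, X.s_w hζX, add_sub_cancel_left]
    rfl
  refine ⟨hpt, fun hζ0 => ?_⟩
  apply AlgHom.ext
  intro b
  have h1 : IsVal (X.C.s ζ) (algebraMap BK K (j b)) (X.s ζ (j b)) := X.isVal_s ⟨hζX, hζ0⟩ (j b)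
  have h2 : IsVal (X.C.s ζ) (algebraMap BK K (j b)) (C.s (bs ζ) b) := by
    rw [hj, ← V.ι_K, ← hpt]
    exact isVal_algebraMap (V.ι b)
  exact h1.unique V.D.inj h2

/-- charts of two étale rings -/
theorem chart_comp {ρ' a : ℕ} {BT BL : Type} [CommRing BT] [Algebra ℂ BT] [CommRing BL]
    [Algebra ℂ BL] (j : BT →ₐ[ℂ] BL) {zT : Fin ρ' → BT} {zL : Fin (ρ' + a) → BL}
    (hz : ∀ i, zL (Fin.castAdd a i) = j (zT i)) {y : BL →ₐ[ℂ] ℂ} (C : Chart zL y)
    (CT : Chart zT (y.comp j)) : ∃ ρ : ℝ, 0 < ρ ∧ ρ ≤ C.r ∧ ρ ≤ CT.r ∧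
      ∀ ζ ∈ ball (0 : Cn (ρ' + a)) ρ, (C.s ζ).comp j = CT.s (bs ζ) := by
  classical
  obtain ⟨S, δ, hδ, hS⟩ := CT.surj
  have h0 : (0 : Cn (ρ' + a)) ∈ ball (0 : Cn (ρ' + a)) C.r := mem_ball_self C.r_pos
  have hval0 : ∀ b : BT, C.s 0 (j b) = y.comp j b := by
    intro b
    rw [C.s_zero]; rfl
  have hev1 : ∀ᶠ ζ in 𝓝 (0 : Cn (ρ' + a)), ∀ b ∈ S, ‖C.s ζ (j b) - y.comp j b‖ < δ := by
    rw [Filter.eventually_all_finset]
    intro b _
    have h1 : ContinuousAt (fun ζ => ‖C.s ζ (j b) - y.comp j b‖) 0 :=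
      ((C.anal (j b) 0 h0).continuousAt.sub continuousAt_const).norm
    refine h1.eventually (gt_mem_nhds ?_)
    simp only [hval0, sub_self, norm_zero]
    exact hδ
  obtain ⟨ρ₁, hρ₁, hball⟩ := Metric.eventually_nhds_iff_ball.1 hev1
  refine ⟨min ρ₁ (min C.r CT.r), lt_min hρ₁ (lt_min C.r_pos CT.r_pos),
    (min_le_right _ _).trans (min_le_left _ _), (min_le_right _ _).trans (min_le_right _ _),
    fun ζ hζ => ?_⟩
  have k1 := hball ζ (ball_subset_ball (min_le_left _ _) hζ)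
  have hζX : ζ ∈ ball (0 : Cn (ρ' + a)) C.r :=
    ball_subset_ball ((min_le_right _ _).trans (min_le_left _ _)) hζ
  have h1 := hS ((C.s ζ).comp j) k1
  rw [h1]
  congr 1
  funext i
  change C.s ζ (j (zT i)) - y (j (zT i)) = _
  rw [← hz i, C.s_z ζ hζX, add_sub_cancel_left]
  rfl

end hor

end Crest.Agent.R276.BR_590
end
end

-- ▼ part R276/BR9_590

/-!
Row 276, leaf BC-REL (helper590), part 9: existence of the relative algebraic data.

`exists_vext` : from divisorial models `DL`, `D` with shared coordinates (858's R0-V) to a vertical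
                datum over `DL` (`D.A` is enlarged to contain `DL.A`);
`exists_hdata`: the same for `R ⊇ L`.
-/

set_option autoImplicit false

open scoped Topology BigOperators ENNReal ContDiff
open Set Metric MeasureTheory Filter

noncomputable section

namespace Crest.Agent.R276.BR_590

open Crest.Agent.R271.Defs710 Crest.Agent.R271.Bd741 Crest.Agent.R276.BC_986

/-- a vertical datum over a given divisorial model of `L` -/
structure VExt {m : ℕ} {L : Type} [Field L] [Algebra ℂ L] (DL : DivModel m L) (r : ℕ) (K : Type)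
    [Field K] [Algebra ℂ K] [Algebra L K] where
  D : DivModel (m + r) K
  ι : DL.A →ₐ[ℂ] D.A
  ι_K : ∀ a, algebraMap D.A K (ι a) = algebraMap L K (algebraMap DL.A L a)
  i₀_eq : D.i₀ = Fin.castAdd r DL.i₀
  base : ∀ i, i ≠ DL.i₀ → D.w (Fin.castAdd r i) = ι (DL.w i)
  e : ℕ
  e_ne : e ≠ 0
  u : D.A
  u_nd : ¬ D.t ∣ u
  ram : ι DL.t = D.t ^ e * u
  lies : ∀ a : DL.A, D.t ∣ ι a → DL.t ∣ a

/-- the vertical datum -/
def VExt.V {m : ℕ} {L : Type} [Field L] [Algebra ℂ L] {DL : DivModel m L} {r : ℕ} {K : Type}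
    [Field K] [Algebra ℂ K] [Algebra L K] (E : VExt DL r K) : VData m r L K where
  DL := DL
  D := E.D
  ι := E.ι
  ι_K := E.ι_K
  i₀_eq := E.i₀_eq
  base := E.base
  e := E.e
  e_ne := E.e_ne
  u := E.u
  u_nd := E.u_nd
  ram := E.ram
  lies := E.lies

section exist

variable {m r : ℕ} {L K : Type} [Field L] [Algebra ℂ L] [Field K] [Algebra ℂ K]
  [Algebra L K] [IsScalarTower ℂ L K]

/-- **vertical data**: `D.A` is enlarged to contain `DL.A` -/
theorem exists_vext {R : ValuationSubring K} (DL : DivModel m L) (D : DivModel (m + r) K)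
    (hDL : DL.ModelOf (R.comap (algebraMap L K))) (hD : D.ModelOf R)
    (hi : D.i₀ = Fin.castAdd r DL.i₀)
    (hw : ∀ i, i ≠ DL.i₀ → algebraMap D.A K (D.w (Fin.castAdd r i)) =
      algebraMap L K (algebraMap DL.A L (DL.w i))) {e : ℕ} (he : 0 < e) {u : K}
    (hu : R.valuation u = 1)
    (hram : algebraMap L K (algebraMap DL.A L DL.t) = (algebraMap D.A K D.t) ^ e * u) :
    ∃ (E : VExt DL r K) (g : D.A) (φ : D.A →ₐ[ℂ] E.D.A), ¬ D.t ∣ g ∧ IsAway D E.D φ g ∧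
      E.D.ModelOf R ∧ E.e = e := by
  classical
  -- a ring of finite type which contains `DL.A`, `u`
  let i₁ : DL.A →ₐ[ℂ] K := (IsScalarTower.toAlgHom ℂ L K).comp (IsScalarTower.toAlgHom ℂ DL.A L)
  have hi₁ : ∀ a, i₁ a = algebraMap L K (algebraMap DL.A L a) := fun _ => rfl
  let A₀ : Subalgebra ℂ K := i₁.range ⊔ Algebra.adjoin ℂ {u}
  have hfg1 : i₁.range.FG := by
    have h1 : (⊤ : Subalgebra ℂ DL.A).FG := DL.ft.out
    have h2 := h1.map i₁
    rwa [Algebra.map_top] at h2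
  have hfg2 : (Algebra.adjoin ℂ ({u} : Set K)).FG :=
    ⟨{u}, by simp⟩
  have hfg : A₀.FG := hfg1.sup hfg2
  have hft : Algebra.FiniteType ℂ A₀ := (Subalgebra.fg_iff_finiteType A₀).1 hfg
  have hcR : ∀ c : ℂ, algebraMap ℂ K c ∈ R := by
    intro c
    rw [IsScalarTower.algebraMap_apply ℂ D.A K]
    exact hD.mem _
  let RS : Subalgebra ℂ K :=
    { carrier := R
      mul_mem' := fun ha hb => R.mul_mem _ _ ha hb
      one_mem' := R.one_mem
      add_mem' := fun ha hb => R.add_mem _ _ ha hb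
      zero_mem' := R.zero_mem
      algebraMap_mem' := hcR }
  have hleR : A₀ ≤ RS := by
    refine sup_le ?_ ?_
    · rintro _ ⟨a, rfl⟩
      change i₁ a ∈ R
      rw [hi₁]
      exact hDL.mem a
    · rw [Algebra.adjoin_le_iff]
      intro x hx
      rw [Set.mem_singleton_iff] at hx
      rw [hx]
      change u ∈ R
      rw [← R.valuation_le_one_iff, hu]
  obtain ⟨g, D', φ, ι', hg, hA, hι'⟩ := exists_contain hD A₀ hft (fun a => hleR a.2)
  have hD' := hA.modelOf hD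
  have hmem1 : ∀ a : DL.A, i₁ a ∈ A₀ := fun a =>
    (le_sup_left : i₁.range ≤ A₀) ⟨a, rfl⟩
  have hmem2 : u ∈ A₀ := (le_sup_right : Algebra.adjoin ℂ ({u} : Set K) ≤ A₀)
    (Algebra.subset_adjoin (Set.mem_singleton u))
  let ι : DL.A →ₐ[ℂ] D'.A := ι'.comp (i₁.codRestrict A₀ hmem1)
  let u' : D'.A := ι' ⟨u, hmem2⟩
  have hιK : ∀ a, algebraMap D'.A K (ι a) = algebraMap L K (algebraMap DL.A L a) := by
    intro a
    exact hι' ⟨i₁ a, hmem1 a⟩
  have huK : algebraMap D'.A K u' = u := hι' ⟨u, hmem2⟩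
  have ht : algebraMap D'.A K D'.t = algebraMap D.A K D.t := by rw [hA.t_eq, hA.map]
  refine ⟨⟨D', ι, hιK, hA.i₀.trans hi, ?_, e, he.ne', u', ?_, ?_, ?_⟩, g, φ, hg, hA, hD', rfl⟩
  · intro i hi'
    apply D'.inj
    rw [hA.w, hA.map, hw i hi', hιK]
  · intro hd
    obtain ⟨c, hc⟩ := hd
    have h1 := congrArg (fun x => R.valuation (algebraMap D'.A K x)) hc
    simp only [huK, hu, map_mul] at h1
    have h2 := hD'.val_le_one c
    have h3 := hD'.lt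
    have h4 : R.valuation (algebraMap D'.A K D'.t) * R.valuation (algebraMap D'.A K c) < 1 :=
      lt_of_le_of_lt (mul_le_of_le_one_right' h2) h3
    rw [← h1] at h4
    exact lt_irrefl _ h4
  · apply D'.inj
    rw [hιK, hram, map_mul, map_pow, ht, huK]
  · intro a ha
    by_contra hna
    have h1 := hDL.unit a hna
    -- both `a` and `a⁻¹` are in `R ∩ L`
    have h2 : (algebraMap DL.A L a)⁻¹ ∈ R.comap (algebraMap L K) := by
      rw [← ValuationSubring.valuation_le_one_iff, map_inv₀, h1, inv_one]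
    rw [ValuationSubring.mem_comap, map_inv₀] at h2
    obtain ⟨c, hc⟩ := ha
    have h3 := congrArg (fun x => R.valuation (algebraMap D'.A K x)) hc
    simp only [hιK, map_mul] at h3
    have h4 : R.valuation (algebraMap L K (algebraMap DL.A L a)) < 1 := by
      rw [h3]
      exact lt_of_le_of_lt (mul_le_of_le_one_right' (hD'.val_le_one c)) hD'.lt
    rw [← R.valuation_le_one_iff, map_inv₀] at h2
    have ha0 : algebraMap L K (algebraMap DL.A L a) ≠ 0 := by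
      intro h0
      have h5 : algebraMap DL.A L a = 0 := (algebraMap L K).injective (by rw [h0, map_zero])
      have h6 : a = 0 := DL.inj (by rw [h5, map_zero])
      exact hna (h6 ▸ dvd_zero _)
    have h5 : 0 < R.valuation (algebraMap L K (algebraMap DL.A L a)) := by
      rw [Valuation.pos_iff]; exact ha0
    have h6 := (inv_le_one₀ h5).1 h2
    exact absurd (lt_of_le_of_lt h6 h4) (lt_irrefl _)

/-- **horizontal data** -/
theorem exists_hdata {R : ValuationSubring K} (hL : ∀ c : L, algebraMap L K c ∈ R)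
    {BL : Type} [CommRing BL] [Algebra ℂ BL] [Algebra BL L] [IsScalarTower ℂ BL L]
    (hft : Algebra.FiniteType ℂ BL) (zL : Fin m → BL) (D : DivModel (m + r) K)
    (hD : D.ModelOf R) (k₀ : Fin r) (hi : D.i₀ = Fin.natAdd m k₀)
    (hw : ∀ i, algebraMap D.A K (D.w (Fin.castAdd r i)) =
      algebraMap L K (algebraMap BL L (zL i))) :
    ∃ (E : HData m r L K BL zL) (g : D.A) (φ : D.A →ₐ[ℂ] E.D.A), ¬ D.t ∣ g ∧
      IsAway D E.D φ g ∧ E.D.ModelOf R := by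
  classical
  let algBK : Algebra BL K := ((algebraMap L K).comp (algebraMap BL L)).toAlgebra
  have tow1 : IsScalarTower BL L K := IsScalarTower.of_algebraMap_eq fun _ => rfl
  have tow2 : IsScalarTower ℂ BL K := by
    refine IsScalarTower.of_algebraMap_eq fun c => ?_
    rw [IsScalarTower.algebraMap_apply BL L K, ← IsScalarTower.algebraMap_apply ℂ BL L,
      ← IsScalarTower.algebraMap_apply ℂ L K]
  obtain ⟨g, D', φ, ι, hg, hA, hι⟩ := exists_contain hD BL hft (fun a => hL _)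
  have hιK : ∀ a, algebraMap D'.A K (ι a) = algebraMap L K (algebraMap BL L a) := hι
  refine ⟨⟨D', ι, hιK, k₀, hA.i₀.trans hi, ?_⟩, g, φ, hg, hA, hA.modelOf hD⟩
  intro i
  apply D'.inj
  rw [hA.w, hA.map, hw i, hιK]

omit [IsScalarTower ℂ L K] in
/-- nonzero elements of the base are units along a horizontal divisor -/
lemma HData.nd {BL : Type} [CommRing BL] [Algebra ℂ BL] [Algebra BL L]
    (hinj : Function.Injective (algebraMap BL L)) {zL : Fin m → BL}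
    (E : HData m r L K BL zL) {R : ValuationSubring K} (hD : E.D.ModelOf R)
    (hL : ∀ c : L, algebraMap L K c ∈ R) {a : BL} (ha : a ≠ 0) : ¬ E.D.t ∣ E.ι a := by
  rintro ⟨c, hc⟩
  have h3 := congrArg (fun x => R.valuation (algebraMap E.D.A K x)) hc
  simp only [E.ι_K, map_mul] at h3
  have h4 : R.valuation (algebraMap L K (algebraMap BL L a)) < 1 := by
    rw [h3]
    exact lt_of_le_of_lt (mul_le_of_le_one_right' (hD.val_le_one c)) hD.lt
  have ha0 : algebraMap L K (algebraMap BL L a) ≠ 0 := by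
    intro h0
    have h5 : algebraMap BL L a = 0 := (algebraMap L K).injective (by rw [h0, map_zero])
    exact ha (hinj (by rw [h5, map_zero]))
  have h2 := hL (algebraMap BL L a)⁻¹
  rw [map_inv₀, ← R.valuation_le_one_iff, map_inv₀] at h2
  have h5 : 0 < R.valuation (algebraMap L K (algebraMap BL L a)) := by
    rw [Valuation.pos_iff]; exact ha0
  have h6 := (inv_le_one₀ h5).1 h2
  exact absurd (lt_of_le_of_lt h6 h4) (lt_irrefl _)

end exist

end Crest.Agent.R276.BR_590
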