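import Mathlib
import Crest.Agent.R271.Growth_255
import Crest.Agent.R271.Bd3_741
import Crest.Agent.R271.Rd6_692

-- ▼ part R276/BcqA_828
section

/-!
# R276, leaf BCQ (helper828), part A: continuation of sections of a local homeomorphism

`exists_sec`: if every section through `x₀` over a ball of radius `≤ ρ` has its values in a fixed
compact set then there is a section over the ball of radius `ρ`.
-/

set_option autoImplicit false
set_option linter.unusedSectionVars false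

noncomputable section

open Set Filter Topology Metric

namespace Crest.Agent.R276.Bcq_828

variable {X E : Type*} [TopologicalSpace X] [NormedAddCommGroup E] [NormedSpace ℝ E]

/-- `s` is a section of `p` over `S` -/
def IsSec (p : X → E) (S : Set E) (s : E → X) : Prop :=
  ContinuousOn s S ∧ ∀ w ∈ S, p (s w) = w

lemma IsSec.mono {p : X → E} {S T : Set E} {s : E → X} (h : IsSec p T s) (hST : S ⊆ T) :
    IsSec p S s := ⟨h.1.mono hST, fun w hw => h.2 w (hST hw)⟩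

/-- sections over a preconnected set agree if they agree at a point -/
lemma IsSec.eqOn [T2Space X] {p : X → E} (hp : IsLocalHomeomorph p) {S : Set E}
    (hS : IsPreconnected S) {s t : E → X} (hs : IsSec p S s) (ht : IsSec p S t) {w₀ : E}
    (hw₀ : w₀ ∈ S) (h : s w₀ = t w₀) : EqOn s t S := by
  refine (T2Space.isSeparatedMap p).eqOn_of_comp_eqOn hp.isLocallyInjective hS hs.1 ht.1 ?_ hw₀ h
  intro w hw
  simp only [Function.comp_apply]
  rw [hs.2 w hw, ht.2 w hw]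

lemma exists_loc_sec {p : X → E} (hp : IsLocalHomeomorph p) (x : X) : ∃ (ε : ℝ) (U : Set X),
    0 < ε ∧ U ∈ 𝓝 x ∧ ∀ y ∈ U, ∃ s : E → X, IsSec p (ball (p y) ε) s ∧ s (p y) = y := by
  obtain ⟨e, hx, he⟩ := hp x
  have hex : p x ∈ e.target := by rw [he]; exact e.map_source hx
  obtain ⟨r, hr, hb⟩ := Metric.isOpen_iff.1 e.open_target (p x) hex
  refine ⟨r / 2, e.source ∩ p ⁻¹' ball (p x) (r / 2), by positivity, ?_, ?_⟩
  · exact Filter.inter_mem (e.open_source.mem_nhds hx)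
      (hp.continuous.continuousAt.preimage_mem_nhds (ball_mem_nhds _ (by positivity)))
  · rintro y ⟨hy1, hy2⟩
    have hsub : ball (p y) (r / 2) ⊆ e.target := fun z hz => hb (by
      rw [mem_preimage, mem_ball] at hy2
      rw [mem_ball] at hz ⊢
      calc dist z (p x) ≤ dist z (p y) + dist (p y) (p x) := dist_triangle _ _ _
        _ < r := by linarith)
    refine ⟨e.symm, ⟨e.symm.continuousOn.mono hsub, fun w hw => ?_⟩, ?_⟩
    · rw [he]; exact e.right_inv (hsub hw)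
    · rw [he]; exact e.left_inv hy1

/-- uniform local sections over a compact set -/
lemma exists_unif_sec {p : X → E} (hp : IsLocalHomeomorph p) {K : Set X} (hK : IsCompact K) :
    ∃ ε : ℝ, 0 < ε ∧ ∀ x ∈ K, ∃ s : E → X, IsSec p (ball (p x) ε) s ∧ s (p x) = x := by
  refine hK.induction_on (p := fun S => ∃ ε : ℝ, 0 < ε ∧ ∀ x ∈ S, ∃ s : E → X,
    IsSec p (ball (p x) ε) s ∧ s (p x) = x) ?_ ?_ ?_ ?_
  · exact ⟨1, one_pos, by simp⟩
  · rintro s t hst ⟨r, hr, h⟩
    exact ⟨r, hr, fun x hx => h x (hst hx)⟩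
  · rintro s t ⟨r, hr, h⟩ ⟨r', hr', h'⟩
    refine ⟨min r r', lt_min hr hr', fun x hx => ?_⟩
    rcases hx with hx | hx
    · obtain ⟨s, h1, h2⟩ := h x hx
      exact ⟨s, h1.mono (ball_subset_ball (min_le_left _ _)), h2⟩
    · obtain ⟨s, h1, h2⟩ := h' x hx
      exact ⟨s, h1.mono (ball_subset_ball (min_le_right _ _)), h2⟩
  · intro x _
    obtain ⟨ε, U, hε, hU, h⟩ := exists_loc_sec hp x
    exact ⟨U, mem_nhdsWithin_of_mem_nhds hU, ε, hε, h⟩

/-- extension of a section over a ball by local sections of uniform radius -/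
lemma IsSec.extend [T2Space X] {p : X → E} (hp : IsLocalHomeomorph p) {z₀ : E} {R R' ε : ℝ}
    (hR : 0 < R) (hRR' : R < R') (hε : R' - R < ε) {s : E → X} (hs : IsSec p (ball z₀ R) s)
    (ht : ∀ v ∈ ball z₀ R, ∃ t : E → X, IsSec p (ball v ε) t ∧ t v = s v) :
    ∃ s' : E → X, IsSec p (ball z₀ R') s' ∧ s' z₀ = s z₀ := by
  have hε0 : 0 < ε := by linarith
  have hR' : 0 < R' := hR.trans hRR'
  have : Nonempty X := ⟨s z₀⟩
  choose! t ht1 ht2 using ht
  -- `t v = s` on the intersection of the balls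
  have hts : ∀ v ∈ ball z₀ R, EqOn (t v) s (ball v ε ∩ ball z₀ R) := by
    intro v hv
    refine IsSec.eqOn hp ?_ ((ht1 v hv).mono inter_subset_left) (hs.mono inter_subset_right)
      ⟨mem_ball_self hε0, hv⟩ (ht2 v hv)
    exact ((convex_ball v ε).inter (convex_ball z₀ R)).isPreconnected
  -- `t v = t v'` on the intersection of the balls
  have htt : ∀ v ∈ ball z₀ R, ∀ v' ∈ ball z₀ R, EqOn (t v) (t v') (ball v ε ∩ ball v' ε) := by
    intro v hv v' hv' w hw
    have hd : dist v v' < 2 * ε := by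
      have h1 := hw.1
      have h2 := hw.2
      rw [mem_ball] at h1 h2
      calc dist v v' ≤ dist v w + dist w v' := dist_triangle _ _ _
        _ < 2 * ε := by rw [dist_comm v w]; linarith
    have hm1 : midpoint ℝ v v' ∈ ball v ε := by
      rw [mem_ball, dist_midpoint_left]
      simp only [Real.norm_ofNat]
      linarith
    have hm2 : midpoint ℝ v v' ∈ ball v' ε := by
      rw [mem_ball, dist_midpoint_right]
      simp only [Real.norm_ofNat]
      linarith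
    have hm3 : midpoint ℝ v v' ∈ ball z₀ R := (convex_ball z₀ R).midpoint_mem hv hv'
    have h4 : t v (midpoint ℝ v v') = t v' (midpoint ℝ v v') :=
      (hts v hv ⟨hm1, hm3⟩).trans (hts v' hv' ⟨hm2, hm3⟩).symm
    exact IsSec.eqOn hp ((convex_ball v ε).inter (convex_ball v' ε)).isPreconnected
      ((ht1 v hv).mono inter_subset_left) ((ht1 v' hv').mono inter_subset_right) ⟨hm1, hm2⟩ h4 hw
  -- the retraction
  let v : E → E := fun w => z₀ + (R / R') • (w - z₀)
  have hvc : Continuous v := by fun_prop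
  have hfr : 0 < R / R' := by positivity
  have hv1 : ∀ w ∈ ball z₀ R', v w ∈ ball z₀ R := by
    intro w hw
    rw [mem_ball, dist_eq_norm] at hw ⊢
    have h1 : v w - z₀ = (R / R') • (w - z₀) := by simp [v]
    rw [h1, norm_smul, Real.norm_of_nonneg hfr.le]
    calc R / R' * ‖w - z₀‖ < R / R' * R' := by gcongr
      _ = R := by field_simp
  have hv2 : ∀ w ∈ ball z₀ R', w ∈ ball (v w) ε := by
    intro w hw
    rw [mem_ball, dist_eq_norm] at hw ⊢
    have h1 : w - v w = (1 - R / R') • (w - z₀) := by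
      simp only [v]
      module
    have h2 : 0 < 1 - R / R' := by
      rw [sub_pos, div_lt_one hR']; exact hRR'
    rw [h1, norm_smul, Real.norm_of_nonneg h2.le]
    calc (1 - R / R') * ‖w - z₀‖ ≤ (1 - R / R') * R' := by gcongr
      _ = R' - R := by field_simp
      _ < ε := hε
  refine ⟨fun w => t (v w) w, ⟨?_, ?_⟩, ?_⟩
  · intro w hw
    have h1 : (fun w => t (v w) w) =ᶠ[𝓝 w] t (v w) := by
      have e1 : ∀ᶠ w' in 𝓝 w, w' ∈ ball z₀ R' := isOpen_ball.mem_nhds hw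
      have e2 : ∀ᶠ w' in 𝓝 w, w' ∈ ball (v w) ε := isOpen_ball.mem_nhds (hv2 w hw)
      filter_upwards [e1, e2] with w' h1 h2
      exact htt (v w') (hv1 w' h1) (v w) (hv1 w hw) ⟨hv2 w' h1, h2⟩
    have h2 : ContinuousAt (t (v w)) w :=
      (ht1 (v w) (hv1 w hw)).1.continuousAt (isOpen_ball.mem_nhds (hv2 w hw))
    exact (h2.congr h1.symm).continuousWithinAt
  · intro w hw
    exact (ht1 (v w) (hv1 w hw)).2 w (hv2 w hw)
  · have h1 : v z₀ = z₀ := by simp [v]
    change t (v z₀) z₀ = s z₀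
    rw [h1]
    exact ht2 z₀ (mem_ball_self hR)

/-- **continuation**: if, for every `R < ρ`, all sections through `x₀` over the ball of radius `R`
have values in a compact set, then there is a section over the ball of radius `ρ` -/
theorem exists_sec' [T2Space X] {p : X → E} (hp : IsLocalHomeomorph p) (x₀ : X) {ρ : ℝ}
    (hρ : 0 < ρ)
    (h : ∀ R, 0 < R → R < ρ → ∃ K : Set X, IsCompact K ∧ ∀ s : E → X,
      IsSec p (ball (p x₀) R) s → s (p x₀) = x₀ → ∀ w ∈ ball (p x₀) R, s w ∈ K) :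
    ∃ s : E → X, IsSec p (ball (p x₀) ρ) s ∧ s (p x₀) = x₀ := by
  set z₀ := p x₀ with hz₀
  let T : Set ℝ := {R | 0 < R ∧ R ≤ ρ ∧ ∃ s : E → X, IsSec p (ball z₀ R) s ∧ s z₀ = x₀}
  have hT0 : T.Nonempty := by
    obtain ⟨ε, U, hε, hU, h⟩ := exists_loc_sec hp x₀
    obtain ⟨s, h1, h2⟩ := h x₀ (mem_of_mem_nhds hU)
    exact ⟨min ε ρ, lt_min hε hρ, min_le_right _ _, s,
      h1.mono (ball_subset_ball (min_le_left _ _)), h2⟩
  have hTb : BddAbove T := ⟨ρ, fun R hR => hR.2.1⟩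
  set R₀ := sSup T with hR₀
  have hR₀ρ : R₀ ≤ ρ := csSup_le hT0 fun R hR => hR.2.1
  have hR₀0 : 0 < R₀ := by
    obtain ⟨R, hR⟩ := hT0
    exact hR.1.trans_le (le_csSup hTb hR)
  have hT : ∀ R ∈ T, ∃ s : E → X, IsSec p (ball z₀ R) s ∧ s z₀ = x₀ := fun R hR => hR.2.2
  have : Nonempty X := ⟨x₀⟩
  choose! s hs1 hs2 using hT
  have hagree : ∀ R ∈ T, ∀ R' ∈ T, R ≤ R' → EqOn (s R) (s R') (ball z₀ R) := by
    intro R hR R' hR' hle
    exact IsSec.eqOn hp (convex_ball z₀ R).isPreconnected (hs1 R hR)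
      ((hs1 R' hR').mono (ball_subset_ball hle)) (mem_ball_self hR.1)
      ((hs2 R hR).trans (hs2 R' hR').symm)
  have hagree' : ∀ R ∈ T, ∀ R' ∈ T, ∀ w, w ∈ ball z₀ R → w ∈ ball z₀ R' → s R w = s R' w := by
    intro R hR R' hR' w hw hw'
    rcases le_total R R' with hle | hle
    · exact hagree R hR R' hR' hle hw
    · exact (hagree R' hR' R hR hle hw').symm
  have hex : ∀ w ∈ ball z₀ R₀, ∃ R ∈ T, w ∈ ball z₀ R := by
    intro w hw
    rw [mem_ball] at hw
    obtain ⟨R, hR, hlt⟩ := exists_lt_of_lt_csSup hT0 hw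
    exact ⟨R, hR, hlt⟩
  choose! Rw hRw1 hRw2 using hex
  let s₀ : E → X := fun w => s (Rw w) w
  have hs₀ : ∀ R ∈ T, ∀ w ∈ ball z₀ R, s₀ w = s R w := by
    intro R hR w hw
    have hw0 : w ∈ ball z₀ R₀ := ball_subset_ball (le_csSup hTb hR) hw
    exact hagree' _ (hRw1 w hw0) R hR w (hRw2 w hw0) hw
  have hsec₀ : IsSec p (ball z₀ R₀) s₀ := by
    refine ⟨fun w hw => ?_, fun w hw => ?_⟩
    · have hR := hRw1 w hw
      have hwR := hRw2 w hw
      have h1 : s₀ =ᶠ[𝓝 w] s (Rw w) := by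
        filter_upwards [isOpen_ball.mem_nhds hwR] with w' hw'
        exact hs₀ _ hR w' hw'
      have h2 : ContinuousAt (s (Rw w)) w :=
        (hs1 _ hR).1.continuousAt (isOpen_ball.mem_nhds hwR)
      exact (h2.congr h1.symm).continuousWithinAt
    · exact (hs1 _ (hRw1 w hw)).2 w (hRw2 w hw)
  have hs₀0 : s₀ z₀ = x₀ := hs2 _ (hRw1 z₀ (mem_ball_self hR₀0))
  rcases hR₀ρ.eq_or_lt with heq | hlt
  · rw [← heq]
    exact ⟨s₀, hsec₀, hs₀0⟩
  · exfalso
    obtain ⟨K, hK, hK'⟩ := h R₀ hR₀0 hlt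
    have hKs : ∀ w ∈ ball z₀ R₀, s₀ w ∈ K := hK' s₀ hsec₀ hs₀0
    obtain ⟨ε, hε, hloc⟩ := exists_unif_sec hp hK
    have hR' : R₀ < min (R₀ + ε / 2) ρ := lt_min (by linarith) hlt
    obtain ⟨s', h1, h2⟩ := IsSec.extend hp hR₀0 hR' (ε := ε)
      (by have := min_le_left (R₀ + ε / 2) ρ; linarith) hsec₀ (by
        intro v hv
        obtain ⟨t, ht1, ht2⟩ := hloc (s₀ v) (hKs v hv)
        rw [hsec₀.2 v hv] at ht1 ht2
        exact ⟨t, ht1, ht2⟩)
    have hmem : min (R₀ + ε / 2) ρ ∈ T :=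
      ⟨hR₀0.trans hR', min_le_right _ _, s', h1, h2.trans hs₀0⟩
    exact absurd (le_csSup hTb hmem) (not_le.2 hR')

/-- **continuation**: if all sections through `x₀` over balls of radius `≤ ρ` have values in a
compact set, then there is a section over the ball of radius `ρ` -/
theorem exists_sec [T2Space X] {p : X → E} (hp : IsLocalHomeomorph p) (x₀ : X) {ρ : ℝ}
    (hρ : 0 < ρ) {K : Set X} (hK : IsCompact K)
    (h : ∀ R, 0 < R → R ≤ ρ → ∀ s : E → X, IsSec p (ball (p x₀) R) s → s (p x₀) = x₀ →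
      ∀ w ∈ ball (p x₀) R, s w ∈ K) :
    ∃ s : E → X, IsSec p (ball (p x₀) ρ) s ∧ s (p x₀) = x₀ :=
  exists_sec' hp x₀ hρ fun R hR hRρ => ⟨K, hK, h R hR hRρ.le⟩

end Crest.Agent.R276.Bcq_828
end
end

-- ▼ part R276/BcqB_828

/-!
# R276, leaf BCQ (helper828), part B: charts of polynomial radius for étale algebras

`exists_qchart`: `A` étale over `ℂ[w]`, generated by `a i`: the point `y` of `Hom(A,ℂ)` has a chart
of radius `c (1 + ∑ |y (a i)|²)^{-κ}` on which `1 + ∑ |a i|²` is at most doubled.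
-/

set_option autoImplicit false

noncomputable section

open Set Filter Topology Metric

namespace Crest.Agent.R276.Bcq_828

open Crest.Agent.R271.Defs710 Crest.Agent.R271.Rd692 Crest.Agent.R271.Alg255
open Crest.Agent.R271.Bd741

variable {n : ℕ} {A : Type} [CommRing A] [Algebra ℂ A] {w : Fin n → A}

/-- a section is, near every point, given by the chart at this point -/
lemma sec_eventually {S : Cn n → Pt A} {U : Set (Cn n)} (hU : IsOpen U)
    (hS : IsSec (pr w) U S) {v : Cn n} (hv : v ∈ U) {y' : Pt A} (C' : Chart w y')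
    (h : S v = y') : ∀ᶠ v' in 𝓝 v, S v' = C'.s (v' - v) := by
  subst h
  obtain ⟨T, ε, hε, hT⟩ := C'.surj
  have h1 : ContinuousAt S v := hS.1.continuousAt (hU.mem_nhds hv)
  have h2 := h1.eventually (mem_nhds_of_finset (S v) T hε)
  filter_upwards [h2, hU.mem_nhds hv] with v' h3 h4
  have h5 := hT (S v') h3
  have h6 : (fun i => S v' (w i) - S v (w i)) = v' - v := by
    have e1 := hS.2 v' h4
    have e2 := hS.2 v hv
    funext i
    have e3 := congrFun e1 i
    have e4 := congrFun e2 i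
    simp only [pr_apply] at e3 e4
    rw [e3, e4]
    rfl
  rw [h6] at h5
  exact h5

/-- a section over a ball is a chart -/
theorem exists_chart_of_sec (hch : ∀ y : Pt A, Nonempty (Chart w y)) (y : Pt A) {R : ℝ}
    (hR : 0 < R) {S : Cn n → Pt A} (hS : IsSec (pr w) (ball (pr w y) R) S)
    (h0 : S (pr w y) = y) : ∃ C : Chart w y, C.r = R ∧ ∀ ζ, C.s ζ = S (pr w y + ζ) := by
  have hmem : ∀ ζ ∈ ball (0 : Cn n) R, pr w y + ζ ∈ ball (pr w y) R := by
    intro ζ hζ
    simpa [Metric.mem_ball, dist_eq_norm] using hζ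
  refine ⟨⟨R, hR, fun ζ => S (pr w y + ζ), by simp [h0], ?_, ?_, ?_⟩, rfl, fun _ => rfl⟩
  · intro ζ hζ i
    have h1 := congrFun (hS.2 _ (hmem ζ hζ)) i
    simpa using h1
  · intro b ζ hζ
    obtain ⟨C'⟩ := hch (S (pr w y + ζ))
    have h1 := sec_eventually isOpen_ball hS (hmem ζ hζ) C' rfl
    have h2 : ContinuousAt (fun ζ' : Cn n => pr w y + ζ') ζ := by fun_prop
    have h3 : ∀ᶠ ζ' in 𝓝 ζ, S (pr w y + ζ') = C'.s (pr w y + ζ' - (pr w y + ζ)) :=
      h2.eventually h1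
    have h4 : (fun ζ' => S (pr w y + ζ') b) =ᶠ[𝓝 ζ] fun ζ' => C'.s (ζ' - ζ) b := by
      filter_upwards [h3] with ζ' h5
      rw [h5]
      congr 2
      abel
    rw [analyticAt_congr h4]
    have h5 : AnalyticAt ℂ (fun ζ' => C'.s ζ' b) (ζ - ζ) := by
      rw [sub_self]
      exact C'.anal b 0 (mem_ball_self C'.r_pos)
    have h6 : AnalyticAt ℂ (fun ζ' : Cn n => ζ' - ζ) ζ := analyticAt_id.sub analyticAt_const
    exact AnalyticAt.comp (g := fun ζ' => C'.s ζ' b) (f := fun ζ' : Cn n => ζ' - ζ) h5 h6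
  · classical
    obtain ⟨C0⟩ := hch y
    obtain ⟨T, ε, hε, hT⟩ := C0.surj
    have h1 := sec_eventually isOpen_ball hS (mem_ball_self hR) C0 h0
    obtain ⟨δ, hδ, h2⟩ := Metric.eventually_nhds_iff_ball.1 h1
    refine ⟨T ∪ Finset.univ.image w, min ε δ, lt_min hε hδ, fun y' hy' => ?_⟩
    have h3 : y' = C0.s (fun i => y' (w i) - y (w i)) := by
      apply hT
      intro b hb
      exact (hy' b (Finset.mem_union_left _ hb)).trans_le (min_le_left _ _)
    have h4 : pr w y' ∈ ball (pr w y) δ := by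
      rw [mem_ball, dist_pi_lt_iff hδ]
      intro i
      rw [dist_eq_norm]
      exact (hy' (w i) (Finset.mem_union_right _ (by simp))).trans_le (min_le_right _ _)
    have h5 := h2 _ h4
    have h6 : pr w y' - pr w y = fun i => y' (w i) - y (w i) := rfl
    rw [h6, ← h3] at h5
    have h7 : pr w y + (fun i => y' (w i) - y (w i)) = pr w y' := by
      rw [← h6]; abel
    rw [h7]
    exact h5.symm

lemma clm_apply_eq_sum (L : Cn n →L[ℂ] ℂ) (ζ : Cn n) :
    L ζ = ∑ j, ζ j * L (Pi.single j 1) := by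
  have h4 : ζ = ∑ j, ζ j • (Pi.single j (1 : ℂ) : Cn n) := by
    conv_lhs => rw [← Finset.univ_sum_single ζ]
    refine Finset.sum_congr rfl fun j _ => ?_
    rw [← Pi.single_smul, smul_eq_mul, mul_one]
  conv_lhs => rw [h4, map_sum]
  refine Finset.sum_congr rfl fun j _ => ?_
  rw [map_smul, smul_eq_mul]

/-- derivative of a regular function along a ray in a chart -/
lemma hasDerivAt_ray (het : RingHom.Etale ((MvPolynomial.aeval w :
    MvPolynomial (Fin n) ℂ →ₐ[ℂ] A) : MvPolynomial (Fin n) ℂ →+* A))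
    (Δ : Fin n → Derivation ℂ A A) (hΔ : ∀ i j, Δ j (w i) = if i = j then 1 else 0)
    {y : Pt A} (C : Chart w y) {ζ : Cn n} {t : ℝ} (ht : t • ζ ∈ ball (0 : Cn n) C.r) (f : A) :
    HasDerivAt (fun t : ℝ => C.s (t • ζ) f) (∑ j, ζ j * C.s (t • ζ) (Δ j f)) t := by
  have h1 : HasFDerivAt (fun ζ' => C.s ζ' f) (fderiv ℂ (fun ζ' => C.s ζ' f) (t • ζ)) (t • ζ) :=
    (C.anal f _ ht).differentiableAt.hasFDerivAt
  have h2 : HasDerivAt (fun t : ℝ => t • ζ) ζ t := by
    simpa using (hasDerivAt_id t).smul_const ζ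
  have h3 := (h1.restrictScalars ℝ).comp_hasDerivAt t h2
  convert! h3 using 1
  change _ = fderiv ℂ (fun ζ' => C.s ζ' f) (t • ζ) ζ
  rw [clm_apply_eq_sum]
  refine Finset.sum_congr rfl fun j _ => ?_
  rw [chart_deriv w het Δ hΔ C _ ht j f]

/-- the a priori estimate -/
theorem apriori (het : RingHom.Etale ((MvPolynomial.aeval w :
    MvPolynomial (Fin n) ℂ →ₐ[ℂ] A) : MvPolynomial (Fin n) ℂ →+* A))
    (Δ : Fin n → Derivation ℂ A A) (hΔ : ∀ i j, Δ j (w i) = if i = j then 1 else 0)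
    {N : ℕ} (a : Fin N → A) {M : ℝ} (hM0 : 0 ≤ M) {κ : ℕ}
    (hM : ∀ i j, ∀ y : Pt A, ‖y (Δ j (a i))‖ ≤ M * oz a y ^ κ) {y : Pt A} (C : Chart w y)
    (hr : C.r * (n * (M * (2 * oz a y) ^ κ)) * (8 * (N + 1)) ≤ 1) :
    ∀ ζ ∈ ball (0 : Cn n) C.r, oz a (C.s ζ) ≤ 2 * oz a y := by
  intro ζ hζ
  have hζr : ‖ζ‖ < C.r := by simpa using hζ
  have hu1 : 1 ≤ oz a y := one_le_oz a y
  have hmem : ∀ t ∈ Icc (0 : ℝ) 1, t • ζ ∈ ball (0 : Cn n) C.r := by
    intro t ht
    rw [mem_ball_zero_iff, norm_smul, Real.norm_of_nonneg ht.1]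
    calc t * ‖ζ‖ ≤ 1 * ‖ζ‖ := by gcongr; exact ht.2
      _ < C.r := by rw [one_mul]; exact hζr
  let φ : ℝ → ℝ := fun t => oz a (C.s (t • ζ))
  have hφc : ContinuousOn φ (Icc 0 1) := by
    intro t ht
    have h1 : ∀ i, ContinuousAt (fun t : ℝ => C.s (t • ζ) (a i)) t := fun i =>
      (hasDerivAt_ray het Δ hΔ C (hmem t ht) (a i)).continuousAt
    have h2 : ContinuousAt φ t := by
      apply ContinuousAt.add continuousAt_const
      exact tendsto_finsetSum _ fun i _ => ((h1 i).norm.pow 2)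
    exact h2.continuousWithinAt
  have key : ∀ t ∈ Icc (0 : ℝ) 1, φ t < 2 * oz a y := by
    by_contra hcon
    push Not at hcon
    obtain ⟨t₁, ht₁, hφ₁⟩ := hcon
    have hcomp : IsCompact (Icc (0 : ℝ) 1 ∩ φ ⁻¹' Ici (2 * oz a y)) := by
      have h1 : IsClosed (Icc (0 : ℝ) 1 ∩ φ ⁻¹' Ici (2 * oz a y)) :=
        hφc.preimage_isClosed_of_isClosed isClosed_Icc isClosed_Ici
      exact isCompact_Icc.of_isClosed_subset h1 inter_subset_left
    obtain ⟨t₀, ht₀, hmin⟩ := hcomp.exists_isLeast ⟨t₁, ht₁, hφ₁⟩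
    have ht₀1 : t₀ ∈ Icc (0 : ℝ) 1 := ht₀.1
    have hφ₀ : 2 * oz a y ≤ φ t₀ := ht₀.2
    have hlt : ∀ t ∈ Ico (0 : ℝ) t₀, φ t < 2 * oz a y := by
      intro t ht
      by_contra hge
      push Not at hge
      have h1 : t ∈ Icc (0 : ℝ) 1 ∩ φ ⁻¹' Ici (2 * oz a y) :=
        ⟨⟨ht.1, ht.2.le.trans ht₀1.2⟩, hge⟩
      exact absurd (hmin h1) (not_le.2 ht.2)
    set δ : ℝ := C.r * (n * (M * (2 * oz a y) ^ κ)) with hδ
    have hδ0 : 0 ≤ δ := by
      have := C.r_pos
      positivity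
    have hb : ∀ i, ‖C.s (t₀ • ζ) (a i) - y (a i)‖ ≤ δ := by
      intro i
      have h1 : ∀ t ∈ Icc (0 : ℝ) t₀, HasDerivWithinAt (fun t : ℝ => C.s (t • ζ) (a i))
          (∑ j, ζ j * C.s (t • ζ) (Δ j (a i))) (Icc 0 t₀) t := fun t ht =>
        (hasDerivAt_ray het Δ hΔ C (hmem t ⟨ht.1, ht.2.trans ht₀1.2⟩) (a i)).hasDerivWithinAt
      have h2 : ∀ t ∈ Ico (0 : ℝ) t₀, ‖∑ j, ζ j * C.s (t • ζ) (Δ j (a i))‖ ≤ δ := by
        intro t ht
        have h3 : ∀ j, ‖ζ j * C.s (t • ζ) (Δ j (a i))‖ ≤ C.r * (M * (2 * oz a y) ^ κ) := by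
          intro j
          rw [norm_mul]
          have h4 : ‖ζ j‖ ≤ C.r := (norm_le_pi_norm ζ j).trans hζr.le
          have h5 : ‖C.s (t • ζ) (Δ j (a i))‖ ≤ M * (2 * oz a y) ^ κ := by
            refine (hM i j _).trans ?_
            have h6 : oz a (C.s (t • ζ)) ≤ 2 * oz a y := (hlt t ht).le
            have h7 : 0 ≤ oz a (C.s (t • ζ)) := zero_le_one.trans (one_le_oz _ _)
            gcongr
          exact mul_le_mul h4 h5 (norm_nonneg _) C.r_pos.le
        calc ‖∑ j, ζ j * C.s (t • ζ) (Δ j (a i))‖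
            ≤ ∑ j : Fin n, C.r * (M * (2 * oz a y) ^ κ) := norm_sum_le_of_le _ fun j _ => h3 j
          _ = δ := by
            rw [Finset.sum_const, Finset.card_univ, Fintype.card_fin, nsmul_eq_mul, hδ]; ring
      have h3 := norm_image_sub_le_of_norm_deriv_le_segment' h1 h2 t₀ ⟨ht₀1.1, le_rfl⟩
      simp only [zero_smul, C.s_zero, sub_zero] at h3
      refine h3.trans ?_
      calc δ * t₀ ≤ δ * 1 := by gcongr; exact ht₀1.2
        _ = δ := mul_one δ
    have hδs : δ * (8 * (N + 1)) ≤ 1 := hr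
    have hN0 : (0 : ℝ) ≤ N := Nat.cast_nonneg N
    have hδ1 : δ ≤ 1 / 8 := by nlinarith
    have hδ2 : δ * N ≤ 1 / 8 := by nlinarith
    have h9 : φ t₀ < 2 * oz a y := by
      have h1 : ∀ i, ‖C.s (t₀ • ζ) (a i)‖ ^ 2 ≤ ‖y (a i)‖ ^ 2 + δ * (2 * oz a y + 1) := by
        intro i
        have h2 : ‖C.s (t₀ • ζ) (a i)‖ ≤ ‖y (a i)‖ + δ := by
          calc ‖C.s (t₀ • ζ) (a i)‖ = ‖y (a i) + (C.s (t₀ • ζ) (a i) - y (a i))‖ := by
                congr 1; ring
            _ ≤ ‖y (a i)‖ + ‖C.s (t₀ • ζ) (a i) - y (a i)‖ := norm_add_le _ _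
            _ ≤ _ := by have := hb i; linarith
        have h3 : ‖y (a i)‖ ≤ oz a y := by
          have h4 : ‖y (a i)‖ ^ 2 ≤ ∑ i, ‖y (a i)‖ ^ 2 :=
            Finset.single_le_sum (f := fun i => ‖y (a i)‖ ^ 2) (fun i _ => by positivity)
              (Finset.mem_univ i)
          unfold oz
          nlinarith [sq_nonneg (‖y (a i)‖ - 1)]
        calc ‖C.s (t₀ • ζ) (a i)‖ ^ 2 ≤ (‖y (a i)‖ + δ) ^ 2 := by gcongr
          _ = ‖y (a i)‖ ^ 2 + δ * (2 * ‖y (a i)‖ + δ) := by ring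
          _ ≤ _ := by
            gcongr
            linarith
      have h2 : φ t₀ ≤ oz a y + (δ * N) * (2 * oz a y + 1) := by
        simp only [φ, oz]
        calc 1 + ∑ i, ‖C.s (t₀ • ζ) (a i)‖ ^ 2
            ≤ 1 + ∑ i : Fin N, (‖y (a i)‖ ^ 2 + δ * (2 * oz a y + 1)) := by
              gcongr with i _
              exact h1 i
          _ = 1 + ∑ i : Fin N, ‖y (a i)‖ ^ 2 + (δ * N) * (2 * oz a y + 1) := by
              rw [Finset.sum_add_distrib, Finset.sum_const, Finset.card_univ, Fintype.card_fin,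
                nsmul_eq_mul]
              ring
      have h3 : (δ * N) * (2 * oz a y + 1) ≤ 1 / 8 * (2 * oz a y + 1) := by gcongr
      linarith
    linarith
  have := key 1 ⟨zero_le_one, le_rfl⟩
  simp only [φ, one_smul] at this
  exact this.le

/-- every regular function has polynomial growth w.r.t. generators -/
lemma PG_all {N : ℕ} {a : Fin N → A} (ha : Algebra.adjoin ℂ (Set.range a) = ⊤) (b : A) :
    PG a b := PG.adjoin (by rw [ha]; trivial)

/-- finitely many functions have a common growth bound -/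
lemma PG_unif {ι : Type*} [Finite ι] {N : ℕ} {a : Fin N → A} (f : ι → A)
    (h : ∀ i, PG a (f i)) : ∃ (M : ℝ) (κ : ℕ), 0 ≤ M ∧ ∀ i, ∀ y : Pt A,
      ‖y (f i)‖ ≤ M * oz a y ^ κ := by
  have := Fintype.ofFinite ι
  choose C K hC h1 using h
  refine ⟨∑ i, C i, ∑ i, K i, Finset.sum_nonneg fun i _ => hC i, fun i y => ?_⟩
  refine (h1 i y).trans ?_
  have h2 : C i ≤ ∑ i, C i := Finset.single_le_sum (f := C) (fun i _ => hC i) (Finset.mem_univ i)
  have h3 : K i ≤ ∑ i, K i :=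
    Finset.single_le_sum (f := K) (fun i _ => Nat.zero_le _) (Finset.mem_univ i)
  have h4 := one_le_oz a y
  calc C i * oz a y ^ K i ≤ (∑ i, C i) * oz a y ^ (∑ i, K i) := by
        apply mul_le_mul h2 (pow_le_pow_right₀ h4 h3) (by positivity)
        exact Finset.sum_nonneg fun i _ => hC i

/-- **charts of polynomial radius** -/
theorem exists_qchart (het : RingHom.Etale ((MvPolynomial.aeval w :
    MvPolynomial (Fin n) ℂ →ₐ[ℂ] A) : MvPolynomial (Fin n) ℂ →+* A)) {N : ℕ} (a : Fin N → A)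
    (ha : Algebra.adjoin ℂ (Set.range a) = ⊤) :
    ∃ (c : ℝ) (κ : ℕ), 0 < c ∧ c ≤ 1 ∧ ∀ (y : Pt A) (R : ℝ), 0 < R → R * oz a y ^ κ ≤ c →
      ∃ C : Chart w y, C.r = R ∧ ∀ ζ ∈ ball (0 : Cn n) C.r, oz a (C.s ζ) ≤ 2 * oz a y := by
  obtain ⟨Δ, hΔ⟩ := exists_coord_deriv w het
  obtain ⟨M, κ, hM0, hM⟩ := PG_unif (ι := Fin N × Fin n) (fun p => Δ p.2 (a p.1))
    (fun p => PG_all ha _)
  have hch : ∀ y : Pt A, Nonempty (Chart w y) := fun y => nonempty_chart w het y
  have hlh := isLocalHomeomorph_pr hch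
  set Q : ℝ := n * (M * 2 ^ κ) * (8 * (N + 1)) + 1 with hQ
  have hQ1 : 1 ≤ Q := by
    have : 0 ≤ (n : ℝ) * (M * 2 ^ κ) * (8 * (N + 1)) := by positivity
    linarith
  refine ⟨1 / Q, κ, by positivity, ?_, ?_⟩
  · rw [div_le_one (by positivity)]; exact hQ1
  intro y R hR hRc
  have hu := one_le_oz a y
  have hest : ∀ R', 0 < R' → R' ≤ R → ∀ C : Chart w y, C.r = R' →
      ∀ ζ ∈ ball (0 : Cn n) C.r, oz a (C.s ζ) ≤ 2 * oz a y := by
    intro R' hR' hR'R C hC
    refine apriori het Δ hΔ a hM0 (fun i j y => hM (i, j) y) C ?_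
    rw [hC]
    have h1 : R' * oz a y ^ κ ≤ 1 / Q := le_trans (by gcongr) hRc
    rw [le_div_iff₀ (by positivity)] at h1
    have h2 : R' * (n * (M * (2 * oz a y) ^ κ)) * (8 * (N + 1)) =
        (R' * oz a y ^ κ) * (Q - 1) := by
      rw [hQ, mul_pow]; ring
    rw [h2]
    have h3 : 0 ≤ R' * oz a y ^ κ := by positivity
    nlinarith
  have hK : IsCompact {y' : Pt A | ∑ i, ‖y' (a i)‖ ^ 2 ≤ 2 * oz a y} :=
    isCompact_sublevel a ha _
  obtain ⟨S, hS, hS0⟩ := exists_sec hlh y hR hK (by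
    intro R' hR' hR'R S hS hS0 v hv
    obtain ⟨C, hC, hCs⟩ := exists_chart_of_sec hch y hR' hS hS0
    have h1 := hest R' hR' hR'R C hC (v - pr w y) (by
      rw [hC, mem_ball_zero_iff, ← dist_eq_norm]; exact hv)
    rw [hCs, add_sub_cancel] at h1
    unfold oz at h1
    change ∑ i, ‖S v (a i)‖ ^ 2 ≤ 2 * oz a y
    unfold oz
    linarith)
  obtain ⟨C, hC, hCs⟩ := exists_chart_of_sec hch y hR hS hS0
  exact ⟨C, hC, hest R hR le_rfl C hC⟩

end Crest.Agent.R276.Bcq_828
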