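import Mathlib
import Crest.Agent.R276.BcqB_828
import Crest.Agent.R276.BC4_986
import Crest.Agent.R276.Mod3_987
import Crest.Agent.R276.CntDefs_857
import Crest.Agent.R276.FKB1_594

-- ▼ part R276/BcqC_828
section

/-!
# R276, leaf BCQ (helper828), part C: the divisor

* `Mdl.pcov` : the points of a model of 987 are a finite covering `PCov` of `{h ≠ 0}`;
* `DivMdl D` : a model `M` of the divisor `t = 0` of a divisorial model `D` of 986,
  `ι : D.A → M.B` the restriction of functions; `exists_divMdl`.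
-/

set_option autoImplicit false

noncomputable section

open Set Filter Topology Metric

namespace Crest.Agent.R276.Bcq_828

open Crest.Agent.R271.Defs710 Crest.Agent.R271.Rd692 Crest.Agent.R271.Alg255
open Crest.Agent.R271.Bd741 Crest.Agent.R271.Ho51
open Crest.Agent.R276.BC_986 Crest.Agent.R276.Mod1_987 Crest.Agent.R276.CntDefs_857

/-! ### finite coverings of polydiscs -/

section pcov

variable {n : ℕ} {K : Type} [Field K] [Algebra ℂ K]

/-- the sheets over a polydisc in `{h ≠ 0}` -/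
theorem mdl_ev (M : Mdl K n) (z : Fin n → ℂ) (r : ℝ) (hr : 0 < r)
    (hh : ∀ w ∈ ball z r, MvPolynomial.eval w M.h ≠ 0) :
    ∃ s : Fin M.deg → OpenPartialHomeomorph M.Pts (Fin n → ℂ),
      (∀ i, IsCh (s i) ∧ (s i).target = ball z r) ∧
      (∀ i j, i ≠ j → Disjoint (s i).source (s j).source) ∧
      (cp ⁻¹' ball z r : Set M.Pts) = ⋃ i, (s i).source := by
  classical
  have hlh := isLocalHomeomorph_pr M.hch
  -- sections through the points over `z`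
  have hsec : ∀ y : M.Pts, M.pz y = z → ∃ C : Chart M.z y, C.r = r := by
    intro y hy
    obtain ⟨S, hS, hS0⟩ := exists_sec' hlh y hr (by
      intro R hR hRr
      refine ⟨M.pz ⁻¹' closedBall z R, M.isCompact_preimage (isCompact_closedBall z R) ?_, ?_⟩
      · intro ζ hζ
        exact hh ζ (closedBall_subset_ball hRr hζ)
      · intro S hS _ v hv
        change pr M.z (S v) ∈ closedBall z R
        rw [hS.2 v hv]
        rw [show pr M.z y = z from hy] at hv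
        exact ball_subset_closedBall hv)
    obtain ⟨C, hC, _⟩ := exists_chart_of_sec M.hch y hr hS hS0
    exact ⟨C, hC⟩
  choose C hC using hsec
  obtain ⟨hcard, hfin⟩ := M.card_fib (hh z (mem_ball_self hr))
  -- enumeration of the fibre
  let e : Fin M.deg ≃ {y : M.Pts // M.pz y = z} :=
    (finCongr hcard.symm).trans (Finite.equivFin {y : M.Pts // M.pz y = z}).symm
  let s : Fin M.deg → OpenPartialHomeomorph M.Pts (Fin n → ℂ) := fun i =>
    chartHomeo M.hch (C (e i).1 (e i).2)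
  have hIsCh : ∀ i, IsCh (s i) := fun i => rfl
  have htgt : ∀ i, (s i).target = ball z r := by
    intro i
    change ball (pr M.z (e i).1) (C (e i).1 (e i).2).r = ball z r
    rw [hC, show pr M.z (e i).1 = z from (e i).2]
  have hinj : ∀ i j, ∀ ζ ∈ ball z r, (s i).symm ζ = (s j).symm ζ → i = j := by
    intro i j ζ hζ h
    have h1 : IsSec (cp : M.Pts → (Fin n → ℂ)) (ball z r) (s i).symm :=
      ⟨by rw [← htgt i]; exact (s i).symm.continuousOn, fun w hw => (hIsCh i).cp_symm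
        (by rw [htgt i]; exact hw)⟩
    have h2 : IsSec (cp : M.Pts → (Fin n → ℂ)) (ball z r) (s j).symm :=
      ⟨by rw [← htgt j]; exact (s j).symm.continuousOn, fun w hw => (hIsCh j).cp_symm
        (by rw [htgt j]; exact hw)⟩
    have h3 := IsSec.eqOn (cp_lh (M := M.Pts)) (convex_ball z r).isPreconnected h1 h2 hζ h
      (mem_ball_self hr)
    have h4 : ∀ i, (s i).symm z = (e i).1 := by
      intro i
      have h5 : (e i).1 ∈ (s i).source := self_mem_sheet _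
      have h6 := (hIsCh i).symm_cp h5
      rwa [show cp (e i).1 = z from (e i).2] at h6
    rw [h4, h4] at h3
    exact e.injective (Subtype.ext h3)
  refine ⟨s, fun i => ⟨hIsCh i, htgt i⟩, ?_, ?_⟩
  · intro i j hij
    rw [Set.disjoint_left]
    intro y hy1 hy2
    apply hij
    refine hinj i j (cp y) ?_ ?_
    · rw [← htgt i]; exact (hIsCh i).cp_mem hy1
    · rw [(hIsCh i).symm_cp hy1, (hIsCh j).symm_cp hy2]
  · ext y
    simp only [mem_preimage, mem_iUnion]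
    constructor
    · intro hy
      obtain ⟨hcard', hfin'⟩ := M.card_fib (hh _ hy)
      let g : Fin M.deg → {y' : M.Pts // M.pz y' = cp y} := fun i =>
        ⟨(s i).symm (cp y), (hIsCh i).cp_symm (by rw [htgt i]; exact hy)⟩
      have hg : Function.Injective g := by
        intro i j h
        exact hinj i j (cp y) hy (congrArg Subtype.val h)
      have hg' : Function.Bijective g := by
        have := Fintype.ofFinite {y' : M.Pts // M.pz y' = cp y}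
        rw [Fintype.bijective_iff_injective_and_card]
        refine ⟨hg, ?_⟩
        rw [Fintype.card_fin, ← Nat.card_eq_fintype_card, hcard']
      obtain ⟨i, hi⟩ := hg'.2 ⟨y, rfl⟩
      refine ⟨i, ?_⟩
      have h1 : (s i).symm (cp y) = y := congrArg Subtype.val hi
      rw [← h1]
      exact (s i).map_target (by rw [htgt i]; exact hy)
    · rintro ⟨i, hi⟩
      rw [← htgt i]
      exact (hIsCh i).cp_mem hi

/-- the points of a model form a finite covering of `{h ≠ 0}` -/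
def pcov (M : Mdl K n) : PCov n M.Pts where
  h := M.h
  k := M.deg
  hk := M.deg_pos
  h0 := M.h_ne
  hne := M.eval_h_ne
  ev := mdl_ev M

@[simp] lemma pcov_h (M : Mdl K n) : (pcov M).h = M.h := rfl

@[simp] lemma pcov_k (M : Mdl K n) : (pcov M).k = M.deg := rfl

end pcov

/-! ### the divisor -/

section div

variable {d : ℕ} {K : Type} [Field K] [Algebra ℂ K] (D : DivModel (d + 1) K)

/-- the ideal of the divisor -/
abbrev dI : Ideal D.A := Ideal.span {D.t}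

instance dI_prime : (dI D).IsPrime := (Ideal.span_singleton_prime D.t_ne).2 D.prime

/-- the function field of the divisor -/
abbrev LL : Type := FractionRing (D.A ⧸ dI D)

/-- restriction of regular functions to the divisor -/
def res : D.A →ₐ[ℂ] LL D :=
  (IsScalarTower.toAlgHom ℂ (D.A ⧸ dI D) (LL D)).comp (Ideal.Quotient.mkₐ ℂ (dI D))

lemma res_apply (a : D.A) : res D a = algebraMap (D.A ⧸ dI D) (LL D) (Ideal.Quotient.mk (dI D) a) :=
  rfl

lemma res_eq_zero_iff (a : D.A) : res D a = 0 ↔ D.t ∣ a := by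
  rw [res_apply, map_eq_zero_iff _ (IsFractionRing.injective (D.A ⧸ dI D) (LL D)),
    Ideal.Quotient.eq_zero_iff_mem, Ideal.mem_span_singleton]


instance : Algebra.EssFiniteType ℂ (LL D) := by
  have h1 : Algebra.FiniteType ℂ D.A := D.ft
  have h2 : Algebra.FiniteType ℂ (D.A ⧸ dI D) :=
    Algebra.FiniteType.of_surjective (Ideal.Quotient.mkₐ ℂ (dI D))
      (Ideal.Quotient.mkₐ_surjective ℂ (dI D))
  have h3 : Algebra.EssFiniteType (D.A ⧸ dI D) (LL D) :=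
    Algebra.EssFiniteType.of_isLocalization _ (nonZeroDivisors (D.A ⧸ dI D))
  exact Algebra.EssFiniteType.comp ℂ (D.A ⧸ dI D) (LL D)

lemma dI_height : (dI D).height = 1 := by
  have h1 : (dI D).height ≤ 1 := by
    have : Submodule.IsPrincipal (dI D) := ⟨⟨D.t, rfl⟩⟩
    exact Ideal.height_le_one_of_isPrincipal_of_mem_minimalPrimes (dI D) (dI D)
      (by rw [Ideal.minimalPrimes_eq_subsingleton_self]; rfl)
  have h2 : (dI D).height ≠ 0 := by
    intro h0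
    have h3 : dI D = ⊥ := Ideal.height_eq_zero_iff_eq_bot.1 h0
    have h4 : D.t ∈ (⊥ : Ideal D.A) := by
      rw [← h3]; exact Ideal.mem_span_singleton_self _
    exact D.t_ne (by simpa using h4)
  exact le_antisymm h1 (Order.one_le_iff_ne_zero.2 h2)

/-- the coordinates of the divisor are a transcendence basis of its function field -/
theorem isTranscendenceBasis_res (h0 : D.i₀ = 0) :
    IsTranscendenceBasis ℂ (fun j : Fin d => res D (D.w j.succ)) := by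
  obtain ⟨j₀, h1, h2⟩ := FKB1_594.trdeg_quotient D.w D.etale (dI D) (dI_height D)
  have hj₀ : j₀ = 0 := by
    by_contra hne
    have h3 := h1.ne_zero ⟨0, fun h => hne h.symm⟩
    apply h3
    change Ideal.Quotient.mk (dI D) (D.w 0) = 0
    rw [← h0, Ideal.Quotient.eq_zero_iff_mem]
    exact Ideal.mem_span_singleton_self _
  subst hj₀
  have h3 : AlgebraicIndependent ℂ (fun j : Fin d => Ideal.Quotient.mk (dI D) (D.w j.succ)) :=
    h1.comp (fun j : Fin d => (⟨j.succ, Fin.succ_ne_zero j⟩ : {i : Fin (d + 1) // i ≠ 0}))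
      (fun i j h => Fin.succ_injective _ (congrArg Subtype.val h))
  have h4 : Algebra.trdeg ℂ (D.A ⧸ dI D) = d := by
    have h5 : Algebra.trdeg ℂ (D.A ⧸ dI D) + 1 = (d : Cardinal) + 1 := by
      rw [h2]; push_cast; rfl
    exact (Cardinal.add_one_inj).1 h5
  have h5 : IsTranscendenceBasis ℂ
      (fun j : Fin d => Ideal.Quotient.mk (dI D) (D.w j.succ)) := by
    refine h3.isTranscendenceBasis_of_trdeg_le_of_finite ?_
    rw [h4, Cardinal.mk_fin]
  have h6 : Algebra.IsAlgebraic (D.A ⧸ dI D) (LL D) :=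
    IsLocalization.isAlgebraic _ (nonZeroDivisors (D.A ⧸ dI D))
  exact h5.algebraMap_comp (A := LL D)

/-- a model of the divisor -/
structure DivMdl where
  /-- the model of 987 -/
  M : Mdl (LL D) d
  z_eq : ∀ j, (M.z j : LL D) = res D (D.w j.succ)
  mem : ∀ a : D.A, res D a ∈ M.B

namespace DivMdl

variable {D} (X : DivMdl D)

/-- restriction of functions -/
def ι : D.A →ₐ[ℂ] X.M.B := (res D).codRestrict X.M.B X.mem

@[simp] lemma coe_ι (a : D.A) : (X.ι a : LL D) = res D a := rfl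

lemma ι_w (j : Fin d) : X.ι (D.w j.succ) = X.M.z j := Subtype.ext (X.z_eq j).symm

lemma ι_eq_zero_iff (a : D.A) : X.ι a = 0 ↔ D.t ∣ a := by
  rw [← res_eq_zero_iff, ← X.coe_ι]
  exact ⟨fun h => by rw [h]; rfl, fun h => Subtype.ext h⟩

@[simp] lemma ι_t : X.ι D.t = 0 := (X.ι_eq_zero_iff _).2 dvd_rfl

/-- the point of the model `D` -/
def pA (y : X.M.Pts) : Pt D.A := y.comp X.ι

@[simp] lemma pA_apply (y : X.M.Pts) (a : D.A) : X.pA y a = y (X.ι a) := rfl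

lemma pA_t (y : X.M.Pts) : X.pA y D.t = 0 := by simp

lemma pA_succ (y : X.M.Pts) (j : Fin d) : X.pA y (D.w j.succ) = cp y j := by
  rw [pA_apply, X.ι_w]; rfl

end DivMdl

/-- existence of models of the divisor, with finitely many prescribed units; every sufficiently
divisible `h` is allowed -/
theorem exists_divMdl (h0 : D.i₀ = 0) (S : Finset D.A) :
    ∃ g : MvPolynomial (Fin d) ℂ, g ≠ 0 ∧ ∀ h : MvPolynomial (Fin d) ℂ, h ≠ 0 → g ∣ h →
      ∃ X : DivMdl D, X.M.h = h ∧ ∀ s ∈ S, ¬ D.t ∣ s → IsUnit (X.ι s) := by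
  classical
  obtain ⟨G, hG⟩ := D.ft.out
  obtain ⟨g, hg0, hg⟩ := exists_mdl (fun j : Fin d => res D (D.w j.succ))
    (isTranscendenceBasis_res D h0) ((G ∪ S).image (res D))
  refine ⟨g, hg0, fun h hh0 hgh => ?_⟩
  obtain ⟨M, hMh, hMz, hMS⟩ := hg h hh0 hgh
  have hmem : ∀ a : D.A, res D a ∈ M.B := by
    intro a
    have ha : a ∈ Algebra.adjoin ℂ (G : Set D.A) := by rw [hG]; trivial
    have h1 : Algebra.adjoin ℂ (G : Set D.A) ≤ M.B.comap (res D) := by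
      rw [Algebra.adjoin_le_iff]
      intro x hx
      refine (hMS (res D x) ?_).1
      exact Finset.mem_image_of_mem _ (Finset.mem_union_left _ hx)
    exact h1 ha
  let X : DivMdl D := ⟨M, hMz, hmem⟩
  refine ⟨X, hMh, fun s hs hts => ?_⟩
  have h1 := (hMS (res D s) (Finset.mem_image_of_mem _ (Finset.mem_union_right _ hs))).2
  have h2 : res D s ≠ 0 := fun h => hts ((res_eq_zero_iff D s).1 h)
  refine IsUnit.of_mul_eq_one (⟨(res D s)⁻¹, h1⟩ : M.B) ?_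
  apply Subtype.ext
  exact mul_inv_cancel₀ h2

end div

end Crest.Agent.R276.Bcq_828
end
end

-- ▼ part R276/BcqD_828
section

/-!
# R276, leaf BCQ (helper828), part D: sections of polynomial radius over the divisor

* `r0 h z = min 1 |h z| / (1 + |z|)`, `PB` polynomial bounds (in `1 / r0`) on the divisor;
* `QS D X S` : charts of the model `D` at all points of the divisor `X`, of radius `radf h c κ`;
  the elements of `S` have no zeros there; all values are polynomially bounded;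
* `exists_QS`.
-/

set_option autoImplicit false

noncomputable section

open Set Filter Topology Metric

namespace Crest.Agent.R276.Bcq_828

open Crest.Agent.R271.Defs710 Crest.Agent.R271.Rd692 Crest.Agent.R271.Alg255
open Crest.Agent.R271.Bd741 Crest.Agent.R271.Ho51
open Crest.Agent.R276.BC_986 Crest.Agent.R276.Mod1_987 Crest.Agent.R276.CntDefs_857

/-! ### the basic radius -/

/-- `min 1 |h z| / (1 + |z|)` -/
def r0 {d : ℕ} (h : MvPolynomial (Fin d) ℂ) (z : Fin d → ℂ) : ℝ :=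
  min 1 ‖MvPolynomial.eval z h‖ / (1 + ‖z‖)

lemma radf_eq {d : ℕ} (h : MvPolynomial (Fin d) ℂ) (c : ℝ) (κ : ℕ) (z : Fin d → ℂ) :
    radf h c κ z = c * r0 h z ^ κ := rfl

lemma r0_pos {d : ℕ} {h : MvPolynomial (Fin d) ℂ} {z : Fin d → ℂ}
    (hz : MvPolynomial.eval z h ≠ 0) : 0 < r0 h z := by
  unfold r0
  have := norm_pos_iff.2 hz
  positivity

lemma r0_nonneg {d : ℕ} (h : MvPolynomial (Fin d) ℂ) (z : Fin d → ℂ) : 0 ≤ r0 h z := by
  unfold r0
  positivity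

lemma r0_le_one {d : ℕ} (h : MvPolynomial (Fin d) ℂ) (z : Fin d → ℂ) : r0 h z ≤ 1 := by
  unfold r0
  rw [div_le_one (by positivity)]
  have := min_le_left 1 ‖MvPolynomial.eval z h‖
  have := norm_nonneg z
  linarith

lemma radf_mono {d : ℕ} {h : MvPolynomial (Fin d) ℂ} {c c' : ℝ} {κ κ' : ℕ} {z : Fin d → ℂ}
    (hc0 : 0 ≤ c') (hc : c' ≤ c) (hκ : κ ≤ κ') : radf h c' κ' z ≤ radf h c κ z := by
  rw [radf_eq, radf_eq]
  have h1 := pow_le_pow_of_le_one (r0_nonneg h z) (r0_le_one h z) hκ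
  have h2 : 0 ≤ r0 h z ^ κ := pow_nonneg (r0_nonneg h z) κ
  have h3 : 0 ≤ r0 h z ^ κ' := pow_nonneg (r0_nonneg h z) κ'
  calc c' * r0 h z ^ κ' ≤ c' * r0 h z ^ κ := by gcongr
    _ ≤ c * r0 h z ^ κ := by gcongr

/-! ### polynomial bounds -/

section pb

variable {L : Type} [Field L] [Algebra ℂ L] {d : ℕ} (M : Mdl L d)

/-- the basic radius at a point -/
def rr (y : M.Pts) : ℝ := r0 M.h (cp y)

lemma rr_pos (y : M.Pts) : 0 < rr M y := r0_pos (M.eval_h_ne y)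

lemma rr_le_one (y : M.Pts) : rr M y ≤ 1 := r0_le_one _ _

/-- polynomial bound in `1 / rr` -/
def PB (φ : M.Pts → ℝ) : Prop := ∃ (C : ℝ) (k : ℕ), 0 < C ∧ ∀ y, φ y * rr M y ^ k ≤ C

variable {M} {φ ψ : M.Pts → ℝ}

lemma PB.const (c : ℝ) : PB M fun _ => c :=
  ⟨|c| + 1, 0, by positivity, fun y => by rw [pow_zero, mul_one]; linarith [le_abs_self c]⟩

lemma PB.mono (hψ : PB M ψ) (h : ∀ y, φ y ≤ ψ y) : PB M φ := by
  obtain ⟨C, k, hC, h1⟩ := hψ
  refine ⟨C, k, hC, fun y => le_trans ?_ (h1 y)⟩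
  exact mul_le_mul_of_nonneg_right (h y) (pow_nonneg (rr_pos M y).le k)

/-- raise the exponent -/
lemma PB.raise {C : ℝ} {k l : ℕ} (hC : 0 ≤ C) (hkl : k ≤ l) {y : M.Pts}
    (h : φ y * rr M y ^ k ≤ C) : φ y * rr M y ^ l ≤ C := by
  obtain ⟨m, rfl⟩ := Nat.exists_eq_add_of_le hkl
  have h1 : rr M y ^ m ≤ 1 := pow_le_one₀ (rr_pos M y).le (rr_le_one M y)
  have h2 : 0 ≤ rr M y ^ m := pow_nonneg (rr_pos M y).le m
  calc φ y * rr M y ^ (k + m) = (φ y * rr M y ^ k) * rr M y ^ m := by rw [pow_add]; ring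
    _ ≤ C * rr M y ^ m := by gcongr
    _ ≤ C * 1 := by gcongr
    _ = C := mul_one C

lemma PB.add (hφ : PB M φ) (hψ : PB M ψ) : PB M fun y => φ y + ψ y := by
  obtain ⟨C, k, hC, h1⟩ := hφ
  obtain ⟨C', k', hC', h2⟩ := hψ
  refine ⟨C + C', k + k', by positivity, fun y => ?_⟩
  have e1 := PB.raise (φ := φ) hC.le (Nat.le_add_right k k') (h1 y)
  have e2 := PB.raise (φ := ψ) hC'.le (Nat.le_add_left k' k) (h2 y)
  rw [add_mul]
  linarith

lemma PB.mul (hφ : PB M φ) (hψ : PB M ψ) (h0 : ∀ y, 0 ≤ ψ y) : PB M fun y => φ y * ψ y := by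
  obtain ⟨C, k, hC, h1⟩ := hφ
  obtain ⟨C', k', hC', h2⟩ := hψ
  refine ⟨C * C', k + k', by positivity, fun y => ?_⟩
  have e1 : 0 ≤ ψ y * rr M y ^ k' := mul_nonneg (h0 y) (pow_nonneg (rr_pos M y).le _)
  calc φ y * ψ y * rr M y ^ (k + k') = (φ y * rr M y ^ k) * (ψ y * rr M y ^ k') := by
        rw [pow_add]; ring
    _ ≤ C * (ψ y * rr M y ^ k') := by gcongr; exact h1 y
    _ ≤ C * C' := by gcongr; exact h2 y

lemma PB.pow (hφ : PB M φ) (h0 : ∀ y, 0 ≤ φ y) (k : ℕ) : PB M fun y => φ y ^ k := by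
  induction k with
  | zero => simpa using PB.const (M := M) 1
  | succ k ih => simp only [pow_succ]; exact ih.mul hφ h0

lemma PB.sum {ι : Type*} (s : Finset ι) {f : ι → M.Pts → ℝ} (h : ∀ i ∈ s, PB M (f i)) :
    PB M fun y => ∑ i ∈ s, f i y := by
  classical
  induction s using Finset.induction_on with
  | empty => simpa using PB.const (M := M) 0
  | insert a s ha ih =>
    simp only [Finset.sum_insert ha]
    exact (h a (by simp)).add (ih fun i hi => h i (by simp [hi]))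

variable (M) in
/-- values of regular functions are polynomially bounded -/
theorem PB_val (b : M.B) : PB M fun y => ‖y b‖ := by
  obtain ⟨C, k, l, hC, h⟩ := M.growth b
  refine ⟨C * (d + 1) ^ k + 1, 2 * k + l, by positivity, fun y => ?_⟩
  have h1 := h y
  set H := ‖MvPolynomial.eval (M.pz y) M.h‖ with hH
  set Z := 1 + ‖(cp y : Fin d → ℂ)‖ with hZ
  have hZ1 : 1 ≤ Z := by have := norm_nonneg (cp y : Fin d → ℂ); linarith
  have hH0 : 0 < H := norm_pos_iff.2 (M.eval_h_ne y)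
  have hr : rr M y = min 1 H / Z := rfl
  have hm0 : 0 < min 1 H := lt_min one_pos hH0
  have h2 : 1 + ∑ i, ‖y (M.z i)‖ ^ 2 ≤ (d + 1) * Z ^ 2 := by
    have h3 : ∀ i : Fin d, ‖y (M.z i)‖ ^ 2 ≤ Z ^ 2 := by
      intro i
      have h4 : ‖y (M.z i)‖ ≤ Z := by
        have := norm_le_pi_norm (cp y : Fin d → ℂ) i
        have h5 : (cp y : Fin d → ℂ) i = y (M.z i) := rfl
        rw [h5] at this
        linarith
      gcongr
    calc 1 + ∑ i, ‖y (M.z i)‖ ^ 2 ≤ Z ^ 2 + ∑ _i : Fin d, Z ^ 2 :=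
          add_le_add (by nlinarith) (Finset.sum_le_sum fun i _ => h3 i)
      _ = (d + 1) * Z ^ 2 := by
          rw [Finset.sum_const, Finset.card_univ, Fintype.card_fin, nsmul_eq_mul]; ring
  have h3 : H ^ l * ‖y b‖ ≤ C * ((d + 1) * Z ^ 2) ^ k := by
    refine h1.trans ?_
    have : 0 ≤ 1 + ∑ i, ‖y (M.z i)‖ ^ 2 := by positivity
    gcongr
  have h4 : (min 1 H) ^ l * ‖y b‖ ≤ C * ((d + 1) * Z ^ 2) ^ k := by
    refine le_trans ?_ h3
    gcongr
    exact min_le_right _ _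
  have h5 : (min 1 H) ^ (2 * k) ≤ 1 := pow_le_one₀ hm0.le (min_le_left _ _)
  have h6 : 1 ≤ Z ^ l := one_le_pow₀ hZ1
  rw [hr, div_pow, ← mul_div_assoc, div_le_iff₀ (by positivity)]
  calc ‖y b‖ * min 1 H ^ (2 * k + l) = min 1 H ^ (2 * k) * (min 1 H ^ l * ‖y b‖) := by
        rw [pow_add]; ring
    _ ≤ 1 * (C * ((d + 1) * Z ^ 2) ^ k) := by gcongr
    _ = C * (d + 1) ^ k * Z ^ (2 * k) * 1 := by rw [mul_pow, ← pow_mul]; ring
    _ ≤ C * (d + 1) ^ k * Z ^ (2 * k) * Z ^ l := by gcongr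
    _ = C * (d + 1) ^ k * Z ^ (2 * k + l) := by rw [pow_add]; ring
    _ ≤ (C * (d + 1) ^ k + 1) * Z ^ (2 * k + l) := by gcongr; linarith

/-- a unit is polynomially bounded from below -/
theorem PB_unit {b : M.B} (hb : IsUnit b) : PB M fun y => ‖y b‖⁻¹ := by
  obtain ⟨u, rfl⟩ := hb
  refine (PB_val M (u⁻¹ : M.Bˣ)).mono fun y => le_of_eq ?_
  rw [← norm_inv]
  congr 1
  apply inv_eq_of_mul_eq_one_right
  rw [← map_mul, ← Units.val_mul, mul_inv_cancel, Units.val_one, map_one]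

/-- small radii -/
theorem PB.rad (hφ : PB M φ) {ε : ℝ} (hε : 0 < ε) : ∃ (c₀ : ℝ) (κ₀ : ℕ), 0 < c₀ ∧
    ∀ (c : ℝ) (κ : ℕ), 0 ≤ c → c ≤ c₀ → κ₀ ≤ κ → ∀ y, radf M.h c κ (cp y) * φ y ≤ ε := by
  obtain ⟨C, k, hC, h⟩ := hφ
  refine ⟨ε / C, k, by positivity, fun c κ hc0 hc hκ y => ?_⟩
  have h1 := PB.raise (φ := φ) hC.le hκ (h y)
  rw [radf_eq]
  calc c * r0 M.h (cp y) ^ κ * φ y = c * (φ y * rr M y ^ κ) := by rw [rr]; ring
    _ ≤ c * C := by gcongr
    _ ≤ ε / C * C := by gcongr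
    _ = ε := by field_simp


end pb

/-! ### Lipschitz estimate in a chart -/

section lip

variable {n : ℕ} {A : Type} [CommRing A] [Algebra ℂ A] {w : Fin n → A}

theorem chart_lip (het : RingHom.Etale ((MvPolynomial.aeval w :
    MvPolynomial (Fin n) ℂ →ₐ[ℂ] A) : MvPolynomial (Fin n) ℂ →+* A)) {N : ℕ} {a : Fin N → A}
    (ha : Algebra.adjoin ℂ (Set.range a) = ⊤) (f : A) :
    ∃ (M : ℝ) (κ : ℕ), 0 ≤ M ∧ ∀ (y : Pt A) (C : Chart w y),
      (∀ ζ ∈ ball (0 : Cn n) C.r, oz a (C.s ζ) ≤ 2 * oz a y) →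
      ∀ ζ ∈ ball (0 : Cn n) C.r, ‖C.s ζ f - y f‖ ≤ ‖ζ‖ * (M * oz a y ^ κ) := by
  obtain ⟨Δ, hΔ⟩ := exists_coord_deriv w het
  obtain ⟨M, κ, hM0, hM⟩ := PG_unif (ι := Fin n) (fun j => Δ j f) (fun j => PG_all ha _)
  refine ⟨n * M * 2 ^ κ, κ, by positivity, fun y C hC ζ hζ => ?_⟩
  have hζr : ‖ζ‖ < C.r := by simpa using hζ
  have hmem : ∀ t ∈ Icc (0 : ℝ) 1, t • ζ ∈ ball (0 : Cn n) C.r := by
    intro t ht
    rw [mem_ball_zero_iff, norm_smul, Real.norm_of_nonneg ht.1]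
    calc t * ‖ζ‖ ≤ 1 * ‖ζ‖ := by gcongr; exact ht.2
      _ < C.r := by rw [one_mul]; exact hζr
  have h1 : ∀ t ∈ Icc (0 : ℝ) 1, HasDerivWithinAt (fun t : ℝ => C.s (t • ζ) f)
      (∑ j, ζ j * C.s (t • ζ) (Δ j f)) (Icc 0 1) t := fun t ht =>
    (hasDerivAt_ray het Δ hΔ C (hmem t ht) f).hasDerivWithinAt
  have h2 : ∀ t ∈ Ico (0 : ℝ) 1, ‖∑ j, ζ j * C.s (t • ζ) (Δ j f)‖ ≤
      ‖ζ‖ * (n * M * 2 ^ κ * oz a y ^ κ) := by
    intro t ht
    have h3 : ∀ j, ‖ζ j * C.s (t • ζ) (Δ j f)‖ ≤ ‖ζ‖ * (M * (2 * oz a y) ^ κ) := by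
      intro j
      rw [norm_mul]
      have h5 : ‖C.s (t • ζ) (Δ j f)‖ ≤ M * (2 * oz a y) ^ κ := by
        refine (hM j _).trans ?_
        have h6 := hC _ (hmem t ⟨ht.1, ht.2.le⟩)
        have h7 : 0 ≤ oz a (C.s (t • ζ)) := zero_le_one.trans (one_le_oz _ _)
        gcongr
      exact mul_le_mul (norm_le_pi_norm ζ j) h5 (norm_nonneg _) (norm_nonneg _)
    calc ‖∑ j, ζ j * C.s (t • ζ) (Δ j f)‖
        ≤ ∑ j : Fin n, ‖ζ‖ * (M * (2 * oz a y) ^ κ) := norm_sum_le_of_le _ fun j _ => h3 j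
      _ = _ := by
        rw [Finset.sum_const, Finset.card_univ, Fintype.card_fin, nsmul_eq_mul, mul_pow]; ring
  have h3 := norm_image_sub_le_of_norm_deriv_le_segment' h1 h2 1 ⟨zero_le_one, le_rfl⟩
  simp only [zero_smul, one_smul, C.s_zero, sub_zero, mul_one] at h3
  exact h3

/-- the chart with a smaller radius -/
def chShrink {y : Pt A} (C : Chart w y) (ρ : ℝ) (hρ : 0 < ρ) (h : ρ ≤ C.r) : Chart w y where
  r := ρ
  r_pos := hρ
  s := C.s
  s_zero := C.s_zero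
  s_z := fun ζ hζ => C.s_z ζ (ball_subset_ball h hζ)
  anal := fun b ζ hζ => C.anal b ζ (ball_subset_ball h hζ)
  surj := C.surj

@[simp] lemma chShrink_s {y : Pt A} (C : Chart w y) (ρ : ℝ) (hρ : 0 < ρ) (h : ρ ≤ C.r) :
    (chShrink C ρ hρ h).s = C.s := rfl

@[simp] lemma chShrink_r {y : Pt A} (C : Chart w y) (ρ : ℝ) (hρ : 0 < ρ) (h : ρ ≤ C.r) :
    (chShrink C ρ hρ h).r = ρ := rfl

end lip

/-! ### sections over the divisor -/

section qs

variable {d : ℕ} {K : Type} [Field K] [Algebra ℂ K] {D : DivModel (d + 1) K}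

/-- sections of polynomial radius over the divisor -/
structure QS (D : DivModel (d + 1) K) (X : DivMdl D) (S : Finset D.A) where
  c : ℝ
  c_pos : 0 < c
  c_le : c ≤ 1
  κ : ℕ
  κ_pos : 1 ≤ κ
  /-- the charts of the model at the points of the divisor -/
  ch : ∀ y : X.M.Pts, Chart D.w (X.pA y)
  r_eq : ∀ y, (ch y).r = radf X.M.h c κ (cp y)
  hball : ∀ y : X.M.Pts, ∀ v ∈ ball (cp y) (radf X.M.h c κ (cp y)), MvPolynomial.eval v X.M.h ≠ 0
  unit : ∀ u ∈ S, IsUnit (X.ι u)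
  low : ∀ u ∈ S, ∀ y, ∀ ζ ∈ ball (0 : Cn (d + 1)) (ch y).r, ‖X.pA y u‖ / 2 ≤ ‖(ch y).s ζ u‖
  up : ∀ a : D.A, ∃ (C : ℝ) (k : ℕ), 0 < C ∧ ∀ y, ∀ ζ ∈ ball (0 : Cn (d + 1)) (ch y).r,
    ‖(ch y).s ζ a‖ * rr X.M y ^ k ≤ C

/-- existence of the sections -/
theorem exists_QS (X : DivMdl D) (S : Finset D.A) (hS : ∀ s ∈ S, IsUnit (X.ι s)) :
    Nonempty (QS D X S) := by
  classical
  obtain ⟨N, a, ha⟩ := exists_gens D.ft
  obtain ⟨N', a', ha'⟩ := exists_gens X.M.ft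
  obtain ⟨cA, κA, hcA, -, hA⟩ := exists_qchart D.etale a ha
  obtain ⟨cB, κB, hcB, -, hB⟩ := exists_qchart X.M.het a' ha'
  -- the growth functions
  have hozA : PB X.M fun y => oz a (X.pA y) := by
    unfold oz
    refine (PB.const 1).add (PB.sum _ fun i _ => ?_)
    exact (PB_val X.M (X.ι (a i))).pow (fun _ => norm_nonneg _) 2
  have hozB : PB X.M fun y => oz a' y := by
    unfold oz
    refine (PB.const 1).add (PB.sum _ fun i _ => ?_)
    exact (PB_val X.M (a' i)).pow (fun _ => norm_nonneg _) 2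
  have hozA0 : ∀ y, 0 ≤ oz a (X.pA y) := fun y => zero_le_one.trans (one_le_oz _ _)
  have hozB0 : ∀ y : X.M.Pts, 0 ≤ oz a' y := fun y => zero_le_one.trans (one_le_oz _ _)
  obtain ⟨c1, κ1, hc1, h1⟩ := (hozA.pow hozA0 κA).rad hcA
  obtain ⟨c2, κ2, hc2, h2⟩ := (hozB.pow hozB0 κB).rad hcB
  choose Mf κf hMf0 hMf using chart_lip D.etale ha
  have hlow : PB X.M fun y => ∑ u ∈ S, (Mf u * oz a (X.pA y) ^ κf u) * ‖X.pA y u‖⁻¹ := by
    refine PB.sum _ fun u hu => ?_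
    refine PB.mul ?_ (PB_unit (hS u hu)) (fun _ => by positivity)
    exact (PB.const (Mf u)).mul (hozA.pow hozA0 _) (fun y => pow_nonneg (hozA0 y) _)
  obtain ⟨c3, κ3, hc3, h3⟩ := hlow.rad (ε := 1 / 2) (by norm_num)
  set c := min 1 (min c1 (min c2 c3)) with hc
  set κ := 1 + κ1 + κ2 + κ3 with hκ
  have hc0 : 0 < c := lt_min one_pos (lt_min hc1 (lt_min hc2 hc3))
  have e1 : c ≤ c1 := (min_le_right _ _).trans (min_le_left _ _)
  have e2 : c ≤ c2 := (min_le_right _ _).trans ((min_le_right _ _).trans (min_le_left _ _))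
  have e3 : c ≤ c3 := (min_le_right _ _).trans ((min_le_right _ _).trans (min_le_right _ _))
  have hrad0 : ∀ y : X.M.Pts, 0 < radf X.M.h c κ (cp y) := fun y => by
    rw [radf_eq]; exact mul_pos hc0 (pow_pos (rr_pos X.M y) _)
  have hchart : ∀ y : X.M.Pts, ∃ C : Chart D.w (X.pA y), C.r = radf X.M.h c κ (cp y) ∧
      ∀ ζ ∈ ball (0 : Cn (d + 1)) C.r, oz a (C.s ζ) ≤ 2 * oz a (X.pA y) := fun y =>
    hA (X.pA y) _ (hrad0 y) (h1 c κ hc0.le e1 (by omega) y)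
  choose C hCr hC2 using hchart
  refine ⟨⟨c, hc0, min_le_left _ _, κ, by omega, C, hCr, ?_, hS, ?_, ?_⟩⟩
  · intro y v hv
    obtain ⟨C', hC'r, -⟩ := hB y _ (hrad0 y) (h2 c κ hc0.le e2 (by omega) y)
    have hv' : v - cp y ∈ ball (0 : Cn d) C'.r := by
      rw [hC'r, mem_ball_zero_iff, ← dist_eq_norm]
      exact hv
    have h4 : X.M.pz (C'.s (v - cp y)) = v := by
      change pr X.M.z (C'.s (v - cp y)) = v
      rw [chart_pr C' hv']
      change cp y + (v - cp y) = v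
      abel
    rw [← h4]
    exact X.M.eval_h_ne _
  · intro u hu y ζ hζ
    have h4 := hMf u (X.pA y) (C y) (hC2 y) ζ hζ
    have hζr : ‖ζ‖ ≤ radf X.M.h c κ (cp y) := by
      have : ‖ζ‖ < (C y).r := by simpa using hζ
      rw [← hCr]; exact this.le
    have h5 := h3 c κ hc0.le e3 (by omega) y
    have hu0 : X.pA y u ≠ 0 := ((hS u hu).map (y : X.M.B →+* ℂ)).ne_zero
    have hu1 : 0 < ‖X.pA y u‖ := norm_pos_iff.2 hu0
    have h6 : (Mf u * oz a (X.pA y) ^ κf u) * ‖X.pA y u‖⁻¹ ≤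
        ∑ u ∈ S, (Mf u * oz a (X.pA y) ^ κf u) * ‖X.pA y u‖⁻¹ :=
      Finset.single_le_sum (f := fun u => (Mf u * oz a (X.pA y) ^ κf u) * ‖X.pA y u‖⁻¹)
        (fun u _ => mul_nonneg (mul_nonneg (hMf0 u) (pow_nonneg (hozA0 y) _)) (by positivity)) hu
    have h7 : radf X.M.h c κ (cp y) * ((Mf u * oz a (X.pA y) ^ κf u) * ‖X.pA y u‖⁻¹) ≤ 1 / 2 :=
      le_trans (mul_le_mul_of_nonneg_left h6 (hrad0 y).le) h5
    have h8 : ‖ζ‖ * (Mf u * oz a (X.pA y) ^ κf u) ≤ ‖X.pA y u‖ / 2 := by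
      have h9 : radf X.M.h c κ (cp y) * (Mf u * oz a (X.pA y) ^ κf u) ≤ ‖X.pA y u‖ / 2 := by
        have h10 : radf X.M.h c κ (cp y) * (Mf u * oz a (X.pA y) ^ κf u) =
            (radf X.M.h c κ (cp y) * ((Mf u * oz a (X.pA y) ^ κf u) * ‖X.pA y u‖⁻¹)) *
              ‖X.pA y u‖ := by field_simp
        rw [h10]
        calc _ ≤ 1 / 2 * ‖X.pA y u‖ := by gcongr
          _ = _ := by ring
      refine le_trans ?_ h9
      exact mul_le_mul_of_nonneg_right hζr (mul_nonneg (hMf0 u) (pow_nonneg (hozA0 y) _))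
    have h9 : ‖X.pA y u‖ ≤ ‖(C y).s ζ u‖ + ‖(C y).s ζ u - X.pA y u‖ := by
      have := norm_sub_norm_le (X.pA y u) ((C y).s ζ u)
      rw [norm_sub_rev] at this
      linarith
    linarith
  · intro b
    obtain ⟨M, k, hM0, hM⟩ := PG_all ha b
    have h4 : PB X.M fun y => M * (2 * oz a (X.pA y)) ^ k := by
      refine (PB.const M).mul ?_ (fun y => pow_nonneg (by have := hozA0 y; linarith) _)
      exact ((PB.const 2).mul hozA hozA0).pow (fun y => by have := hozA0 y; linarith) _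
    obtain ⟨C', k', hC', h5⟩ := h4
    refine ⟨C', k', hC', fun y ζ hζ => le_trans ?_ (h5 y)⟩
    have h6 : ‖(C y).s ζ b‖ ≤ M * (2 * oz a (X.pA y)) ^ k := by
      refine (hM _).trans ?_
      have h7 := hC2 y ζ hζ
      have h8 : 0 ≤ oz a ((C y).s ζ) := zero_le_one.trans (one_le_oz _ _)
      gcongr
    exact mul_le_mul_of_nonneg_right h6 (pow_nonneg (rr_pos X.M y).le _)

end qs

end Crest.Agent.R276.Bcq_828
end
end

-- ▼ part R276/BcqE_828
section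

/-!
# R276, leaf BCQ (helper828), part E: the boundary charts

* `QS.shrink`, `QS.compat` : smaller radii; compatibility of the sections;
* `QB Q B` : the points of `Hom(B,ℂ)` given by the sections (`B ⊆ K` of finite type);
* `QGood Q f a G` : `f = ζ₀^a G` with polynomial bounds of `G` and `1/G`.
-/

set_option autoImplicit false

noncomputable section

open Set Filter Topology Metric

namespace Crest.Agent.R276.Bcq_828

open Crest.Agent.R271.Defs710 Crest.Agent.R271.Rd692 Crest.Agent.R271.Alg255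
open Crest.Agent.R271.Bd741 Crest.Agent.R271.Ho51
open Crest.Agent.R276.BC_986 Crest.Agent.R276.Mod1_987 Crest.Agent.R276.CntDefs_857

variable {d : ℕ} {K : Type} [Field K] [Algebra ℂ K] {D : DivModel (d + 1) K}
  {X : DivMdl D} {S : Finset D.A}

namespace QS

variable (Q : QS D X S)

/-- the radius -/
def r (y : X.M.Pts) : ℝ := radf X.M.h Q.c Q.κ (cp y)

/-- the sections -/
def s (y : X.M.Pts) : Cn (d + 1) → Pt D.A := (Q.ch y).s

lemma ch_r (y : X.M.Pts) : (Q.ch y).r = Q.r y := Q.r_eq y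

lemma r_pos (y : X.M.Pts) : 0 < Q.r y := by rw [← ch_r]; exact (Q.ch y).r_pos

@[simp] lemma s_zero (y : X.M.Pts) : Q.s y 0 = X.pA y := (Q.ch y).s_zero

lemma s_z {y : X.M.Pts} {ζ : Cn (d + 1)} (hζ : ζ ∈ ball (0 : Cn (d + 1)) (Q.r y))
    (i : Fin (d + 1)) : Q.s y ζ (D.w i) = X.pA y (D.w i) + ζ i :=
  (Q.ch y).s_z ζ (by rw [ch_r]; exact hζ) i

lemma s_t (h0 : D.i₀ = 0) {y : X.M.Pts} {ζ : Cn (d + 1)}
    (hζ : ζ ∈ ball (0 : Cn (d + 1)) (Q.r y)) : Q.s y ζ D.t = ζ 0 := by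
  have h := Q.s_z hζ D.i₀
  have h1 : X.pA y (D.w D.i₀) = 0 := X.pA_t y
  rw [h1, zero_add, h0] at h
  rw [DivModel.t, h0]
  exact h


lemma anal (y : X.M.Pts) (a : D.A) :
    AnalyticOnNhd ℂ (fun ζ => Q.s y ζ a) (ball (0 : Cn (d + 1)) (Q.r y)) := by
  rw [← ch_r]; exact (Q.ch y).anal a

lemma low' {u : D.A} (hu : u ∈ S) (y : X.M.Pts) {ζ : Cn (d + 1)}
    (hζ : ζ ∈ ball (0 : Cn (d + 1)) (Q.r y)) : ‖X.pA y u‖ / 2 ≤ ‖Q.s y ζ u‖ :=
  Q.low u hu y ζ (by rw [ch_r]; exact hζ)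

include Q in
lemma pA_ne {u : D.A} (hu : u ∈ S) (y : X.M.Pts) : X.pA y u ≠ 0 :=
  ((Q.unit u hu).map (y : X.M.B →+* ℂ)).ne_zero

lemma ne {u : D.A} (hu : u ∈ S) (y : X.M.Pts) {ζ : Cn (d + 1)}
    (hζ : ζ ∈ ball (0 : Cn (d + 1)) (Q.r y)) : Q.s y ζ u ≠ 0 := by
  have h1 := Q.low' hu y hζ
  have h2 := norm_pos_iff.2 (Q.pA_ne hu y)
  exact norm_pos_iff.1 (lt_of_lt_of_le (by linarith) h1)

lemma up' (a : D.A) : ∃ (C : ℝ) (k : ℕ), 0 < C ∧ ∀ y, ∀ ζ ∈ ball (0 : Cn (d + 1)) (Q.r y),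
    ‖Q.s y ζ a‖ * rr X.M y ^ k ≤ C := by
  obtain ⟨C, k, hC, h⟩ := Q.up a
  exact ⟨C, k, hC, fun y ζ hζ => h y ζ (by rw [ch_r]; exact hζ)⟩

lemma low_inv {u : D.A} (hu : u ∈ S) : ∃ (C : ℝ) (k : ℕ), 0 < C ∧
    ∀ y, ∀ ζ ∈ ball (0 : Cn (d + 1)) (Q.r y), ‖Q.s y ζ u‖⁻¹ * rr X.M y ^ k ≤ C := by
  obtain ⟨C, k, hC, h⟩ := PB_unit (Q.unit u hu)
  refine ⟨2 * C, k, by positivity, fun y ζ hζ => ?_⟩
  have h1 := Q.low' hu y hζ
  have h2 : 0 < ‖X.pA y u‖ := norm_pos_iff.2 (Q.pA_ne hu y)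
  have h3 : ‖Q.s y ζ u‖⁻¹ ≤ 2 * ‖X.pA y u‖⁻¹ := by
    calc ‖Q.s y ζ u‖⁻¹ ≤ (‖X.pA y u‖ / 2)⁻¹ := inv_anti₀ (by positivity) h1
      _ = 2 * ‖X.pA y u‖⁻¹ := by field_simp
  have h4 : 0 ≤ rr X.M y ^ k := pow_nonneg (rr_pos X.M y).le k
  calc ‖Q.s y ζ u‖⁻¹ * rr X.M y ^ k ≤ 2 * ‖X.pA y u‖⁻¹ * rr X.M y ^ k := by gcongr
    _ = 2 * (‖X.pA y u‖⁻¹ * rr X.M y ^ k) := by ring
    _ ≤ 2 * C := by gcongr; exact h y

lemma radf_le_ch {c : ℝ} {κ : ℕ} (hc0 : 0 < c) (hc : c ≤ Q.c) (hκ : Q.κ ≤ κ) (y : X.M.Pts) :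
    radf X.M.h c κ (cp y) ≤ (Q.ch y).r := by
  rw [Q.r_eq]; exact radf_mono hc0.le hc hκ

lemma _root_.Crest.Agent.R276.Bcq_828.radf_pos {L : Type} [Field L] [Algebra ℂ L] {M : Mdl L d}
    {c : ℝ} (hc0 : 0 < c) (κ : ℕ) (y : M.Pts) : 0 < radf M.h c κ (cp y) := by
  rw [radf_eq]
  exact mul_pos hc0 (pow_pos (r0_pos (M.eval_h_ne y)) _)

/-- smaller radii -/
def shrink (c : ℝ) (κ : ℕ) (hc0 : 0 < c) (hc : c ≤ Q.c) (hκ : Q.κ ≤ κ) : QS D X S where
  c := c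
  c_pos := hc0
  c_le := hc.trans Q.c_le
  κ := κ
  κ_pos := Q.κ_pos.trans hκ
  ch y := chShrink (Q.ch y) (radf X.M.h c κ (cp y)) (radf_pos hc0 κ y)
    (Q.radf_le_ch hc0 hc hκ y)
  r_eq y := rfl
  hball y := fun v hv => Q.hball y v (ball_subset_ball (radf_mono hc0.le hc hκ) hv)
  unit := Q.unit
  low u hu y := fun ζ hζ => Q.low u hu y ζ (ball_subset_ball (Q.radf_le_ch hc0 hc hκ y) hζ)
  up a := by
    obtain ⟨C, k, hC, h⟩ := Q.up a
    exact ⟨C, k, hC, fun y ζ hζ => h y ζ (ball_subset_ball (Q.radf_le_ch hc0 hc hκ y) hζ)⟩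



lemma shrink_r_le (c : ℝ) (κ : ℕ) (hc0 : 0 < c) (hc : c ≤ Q.c) (hκ : Q.κ ≤ κ) (y : X.M.Pts) :
    (Q.shrink c κ hc0 hc hκ).r y ≤ Q.r y := radf_mono hc0.le hc hκ

/-! ### compatibility -/

lemma pr_pA (h0 : D.i₀ = 0) (y : X.M.Pts) :
    pr D.w (X.pA y) = Fin.cons (0 : ℂ) (cp y : Fin d → ℂ) := by
  funext i
  refine Fin.cases ?_ (fun j => ?_) i
  · rw [Fin.cons_zero, pr_apply]
    have := X.pA_t y
    rwa [DivModel.t, h0] at this
  · rw [Fin.cons_succ, pr_apply, X.pA_succ]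

lemma isSec (y : X.M.Pts) : IsSec (pr D.w) (ball (pr D.w (X.pA y)) (Q.r y))
    (fun v => Q.s y (v - pr D.w (X.pA y))) := by
  have hmem : ∀ v ∈ ball (pr D.w (X.pA y)) (Q.r y),
      v - pr D.w (X.pA y) ∈ ball (0 : Cn (d + 1)) (Q.ch y).r := by
    intro v hv
    rw [ch_r, mem_ball_zero_iff, ← dist_eq_norm]
    exact hv
  refine ⟨fun v hv => ?_, fun v hv => ?_⟩
  · have h1 := chart_continuousAt (Q.ch y) (hmem v hv)
    have h2 : ContinuousAt (fun v : Cn (d + 1) => v - pr D.w (X.pA y)) v := by fun_prop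
    exact (ContinuousAt.comp (g := ((Q.ch y).s : Cn (d + 1) → Pt D.A))
      (f := fun v : Cn (d + 1) => v - pr D.w (X.pA y)) h1 h2).continuousWithinAt
  · change pr D.w ((Q.ch y).s (v - pr D.w (X.pA y))) = v
    rw [chart_pr (Q.ch y) (hmem v hv)]
    abel

/-- the section at `y` restricted to the divisor -/
lemma s_divisor (h0 : D.i₀ = 0) {y : X.M.Pts} {e : OpenPartialHomeomorph X.M.Pts (Fin d → ℂ)}
    (he : IsCh e) (hy : y ∈ e.source) (het : e.target = ball (cp y) (Q.r y)) {y' : X.M.Pts}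
    (hy' : y' ∈ e.source) : Q.s y (Fin.cons 0 (cp y' - cp y)) = X.pA y' := by
  have hch : ∀ y : Pt D.A, Nonempty (Chart D.w y) := fun y => nonempty_chart D.w D.etale y
  have hlh := isLocalHomeomorph_pr hch
  have hmem : ∀ v ∈ ball (cp y : Fin d → ℂ) (Q.r y),
      (Fin.cons (0 : ℂ) (v - cp y) : Cn (d + 1)) ∈ ball (0 : Cn (d + 1)) (Q.ch y).r := by
    intro v hv
    rw [ch_r, mem_ball_zero_iff, pi_norm_lt_iff (Q.r_pos y)]
    intro i
    refine Fin.cases ?_ (fun j => ?_) i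
    · rw [Fin.cons_zero, norm_zero]; exact Q.r_pos y
    · rw [Fin.cons_succ]
      rw [mem_ball, dist_eq_norm] at hv
      exact (norm_le_pi_norm _ j).trans_lt hv
  have hcons : Continuous fun v : Fin d → ℂ => (Fin.cons (0 : ℂ) (v - cp y) : Cn (d + 1)) := by
    apply continuous_pi
    intro i
    refine Fin.cases ?_ (fun j => ?_) i
    · simp only [Fin.cons_zero]; exact continuous_const
    · simp only [Fin.cons_succ]; fun_prop
  have h1 : EqOn (fun v : Fin d → ℂ => Q.s y (Fin.cons 0 (v - cp y)))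
      (fun v => X.pA (e.symm v)) (ball (cp y) (Q.r y)) := by
    refine (T2Space.isSeparatedMap (pr D.w)).eqOn_of_comp_eqOn hlh.isLocallyInjective
      (convex_ball (cp y : Fin d → ℂ) (Q.r y)).isPreconnected ?_ ?_ ?_
      (mem_ball_self (Q.r_pos y)) ?_
    · intro v hv
      have h2 := chart_continuousAt (Q.ch y) (hmem v hv)
      exact (ContinuousAt.comp (g := ((Q.ch y).s : Cn (d + 1) → Pt D.A))
        (f := fun v : Fin d → ℂ => (Fin.cons (0 : ℂ) (v - cp y) : Cn (d + 1))) h2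
        hcons.continuousAt).continuousWithinAt
    · have h2 : ContinuousOn e.symm (ball (cp y) (Q.r y)) := by
        rw [← het]; exact e.symm.continuousOn
      rw [continuousOn_iff_ev]
      intro a
      exact (continuous_ev (X.ι a)).comp_continuousOn h2
    · intro v hv
      have h2 : pr D.w (Q.s y (Fin.cons 0 (v - cp y))) =
          pr D.w (X.pA y) + Fin.cons 0 (v - cp y) := chart_pr (Q.ch y) (hmem v hv)
      have h3 : cp (e.symm v) = v := he.cp_symm (by rw [het]; exact hv)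
      simp only [Function.comp_apply]
      rw [h2, pr_pA h0, pr_pA h0, h3]
      funext i
      refine Fin.cases ?_ (fun j => ?_) i
      · simp
      · simp
    · have h2 : (Fin.cons (0 : ℂ) (cp y - cp y : Fin d → ℂ) : Cn (d + 1)) = 0 := by
        funext i
        refine Fin.cases ?_ (fun j => ?_) i
        · simp
        · simp
      change Q.s y (Fin.cons 0 (cp y - cp y)) = X.pA (e.symm (cp y))
      rw [h2, Q.s_zero, he.symm_cp hy]
  have h2 : cp y' ∈ ball (cp y : Fin d → ℂ) (Q.r y) := by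
    rw [← het]; exact he.cp_mem hy'
  have h3 := h1 h2
  simp only at h3
  rw [h3, he.symm_cp hy']

/-- **compatibility of the sections** -/
theorem compat (h0 : D.i₀ = 0) {y : X.M.Pts} {e : OpenPartialHomeomorph X.M.Pts (Fin d → ℂ)}
    (he : IsCh e) (hy : y ∈ e.source) (het : e.target = ball (cp y) (Q.r y)) {y' : X.M.Pts}
    (hy' : y' ∈ e.source) {q : Cn (d + 1)} (hq : q ∈ ball (0 : Cn (d + 1)) (Q.r y'))
    (hq' : q + Fin.cons 0 (cp y' - cp y) ∈ ball (0 : Cn (d + 1)) (Q.r y)) :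
    Q.s y' q = Q.s y (q + Fin.cons 0 (cp y' - cp y)) := by
  have hch : ∀ y : Pt D.A, Nonempty (Chart D.w y) := fun y => nonempty_chart D.w D.etale y
  have hlh := isLocalHomeomorph_pr hch
  have hdiff : pr D.w (X.pA y') - pr D.w (X.pA y) =
      (Fin.cons (0 : ℂ) (cp y' - cp y : Fin d → ℂ) : Cn (d + 1)) := by
    rw [pr_pA h0, pr_pA h0]
    funext i
    refine Fin.cases ?_ (fun j => ?_) i
    · simp
    · simp
  have hy'b : pr D.w (X.pA y') ∈ ball (pr D.w (X.pA y)) (Q.r y) := by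
    rw [mem_ball, dist_eq_norm, hdiff, pi_norm_lt_iff (Q.r_pos y)]
    have h2 : cp y' ∈ ball (cp y : Fin d → ℂ) (Q.r y) := by
      rw [← het]; exact he.cp_mem hy'
    rw [mem_ball, dist_eq_norm] at h2
    intro i
    refine Fin.cases ?_ (fun j => ?_) i
    · rw [Fin.cons_zero, norm_zero]; exact Q.r_pos y
    · rw [Fin.cons_succ]
      exact (norm_le_pi_norm _ j).trans_lt h2
  have h1 := IsSec.eqOn hlh (S := ball (pr D.w (X.pA y')) (Q.r y') ∩
      ball (pr D.w (X.pA y)) (Q.r y))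
    ((convex_ball _ _).inter (convex_ball _ _)).isPreconnected
    ((Q.isSec y').mono inter_subset_left) ((Q.isSec y).mono inter_subset_right)
    (w₀ := pr D.w (X.pA y')) ⟨mem_ball_self (Q.r_pos y'), hy'b⟩ (by
      simp only [sub_self, s_zero]
      rw [hdiff]
      exact (Q.s_divisor h0 he hy het hy').symm)
  have h2 : pr D.w (X.pA y') + q ∈ ball (pr D.w (X.pA y')) (Q.r y') ∩
      ball (pr D.w (X.pA y)) (Q.r y) := by
    constructor
    · rw [mem_ball, dist_eq_norm, add_sub_cancel_left]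
      simpa using hq
    · rw [mem_ball, dist_eq_norm]
      have h3 : pr D.w (X.pA y') + q - pr D.w (X.pA y) =
          q + Fin.cons 0 (cp y' - cp y) := by rw [← hdiff]; abel
      rw [h3]
      simpa using hq'
  have h3 := h1 h2
  simp only [add_sub_cancel_left] at h3
  rw [h3]
  congr 1
  rw [← hdiff]
  abel

end QS

/-! ### good rational functions -/

/-- `f = ζ₀^a G_y(ζ)`, `G_y` holomorphic on the polydisc, `G_y` and `1 / G_y` polynomially
bounded -/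
structure QGood (Q : QS D X S) (f : K) (a : ℤ) (G : X.M.Pts → Cn (d + 1) → ℂ) : Prop where
  anal : ∀ y, AnalyticOnNhd ℂ (G y) (ball (0 : Cn (d + 1)) (Q.r y))
  wit : ∃ u v : D.A, f * algebraMap D.A K v = algebraMap D.A K D.t ^ a * algebraMap D.A K u ∧
    ∀ y, ∀ ζ ∈ ball (0 : Cn (d + 1)) (Q.r y), Q.s y ζ u ≠ 0 ∧ Q.s y ζ v ≠ 0 ∧
      G y ζ * Q.s y ζ v = Q.s y ζ u
  up : ∃ (C : ℝ) (k : ℕ), 0 < C ∧ ∀ y, ∀ ζ ∈ ball (0 : Cn (d + 1)) (Q.r y),
    ‖G y ζ‖ * rr X.M y ^ k ≤ C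
  low : ∃ (C : ℝ) (k : ℕ), 0 < C ∧ ∀ y, ∀ ζ ∈ ball (0 : Cn (d + 1)) (Q.r y),
    ‖G y ζ‖⁻¹ * rr X.M y ^ k ≤ C

lemma mul_bound {p q ρ C C' : ℝ} {k k' : ℕ} (hq : 0 ≤ q) (hρ : 0 ≤ ρ) (hC : 0 ≤ C)
    (h1 : p * ρ ^ k ≤ C) (h2 : q * ρ ^ k' ≤ C') : p * q * ρ ^ (k + k') ≤ C * C' := by
  have e1 : 0 ≤ q * ρ ^ k' := mul_nonneg hq (pow_nonneg hρ _)
  calc p * q * ρ ^ (k + k') = (p * ρ ^ k) * (q * ρ ^ k') := by rw [pow_add]; ring
    _ ≤ C * (q * ρ ^ k') := by gcongr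
    _ ≤ C * C' := by gcongr

/-- existence -/
theorem exists_QGood (Q : QS D X S) {f : K} {a : ℤ} {u v : D.A} (hu : u ∈ S) (hv : v ∈ S)
    (h : f * algebraMap D.A K v = algebraMap D.A K D.t ^ a * algebraMap D.A K u) :
    ∃ G, QGood Q f a G := by
  refine ⟨fun y ζ => Q.s y ζ u / Q.s y ζ v, ⟨?_, ⟨u, v, h, ?_⟩, ?_, ?_⟩⟩
  · intro y ζ hζ
    exact (Q.anal y u ζ hζ).div (Q.anal y v ζ hζ) (Q.ne hv y hζ)
  · intro y ζ hζ
    have h1 := Q.ne hv y hζ
    exact ⟨Q.ne hu y hζ, h1, by field_simp⟩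
  · obtain ⟨C, k, hC, h1⟩ := Q.up' u
    obtain ⟨C', k', hC', h2⟩ := Q.low_inv hv
    refine ⟨C * C', k + k', by positivity, fun y ζ hζ => ?_⟩
    rw [div_eq_mul_inv, norm_mul, norm_inv]
    exact mul_bound (by positivity) (rr_pos X.M y).le hC.le (h1 y ζ hζ) (h2 y ζ hζ)
  · obtain ⟨C, k, hC, h1⟩ := Q.up' v
    obtain ⟨C', k', hC', h2⟩ := Q.low_inv hu
    refine ⟨C * C', k + k', by positivity, fun y ζ hζ => ?_⟩
    rw [norm_div, inv_div, div_eq_mul_inv]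
    exact mul_bound (by positivity) (rr_pos X.M y).le hC.le (h1 y ζ hζ) (h2 y ζ hζ)

namespace QGood

variable {Q : QS D X S} {f : K} {a : ℤ} {G : X.M.Pts → Cn (d + 1) → ℂ}

lemma ne (h : QGood Q f a G) {y : X.M.Pts} {ζ : Cn (d + 1)}
    (hζ : ζ ∈ ball (0 : Cn (d + 1)) (Q.r y)) : G y ζ ≠ 0 := by
  obtain ⟨u, v, _, h2⟩ := h.wit
  obtain ⟨e1, e2, e3⟩ := h2 y ζ hζ
  intro h0
  rw [h0, zero_mul] at e3
  exact e1 e3.symm

lemma isVal (h0 : D.i₀ = 0) (h : QGood Q f a G) {y : X.M.Pts} {ζ : Cn (d + 1)}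
    (hζ : ζ ∈ ball (0 : Cn (d + 1)) (Q.r y)) (hζ0 : ζ 0 ≠ 0) :
    IsVal (Q.s y ζ) f (ζ 0 ^ a * G y ζ) := by
  obtain ⟨u₀, v₀, h1, h2⟩ := h.wit
  obtain ⟨e1, e2, e3⟩ := h2 y ζ hζ
  have ht : Q.s y ζ D.t = ζ 0 := Q.s_t h0 hζ
  obtain ⟨N, hN | hN⟩ := Int.eq_nat_or_neg a
  · refine ⟨D.t ^ N * u₀, v₀, e2, ?_, ?_⟩
    · rw [h1, hN, zpow_natCast, map_mul, map_pow]
    · rw [map_mul, map_pow, ht, ← e3, hN, zpow_natCast]; ring
  · refine ⟨u₀, D.t ^ N * v₀, ?_, ?_, ?_⟩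
    · rw [map_mul, map_pow, ht]
      exact mul_ne_zero (pow_ne_zero _ hζ0) e2
    · have htK := D.tK_ne
      rw [map_mul, map_pow]
      calc f * (algebraMap D.A K D.t ^ N * algebraMap D.A K v₀)
          = algebraMap D.A K D.t ^ N * (f * algebraMap D.A K v₀) := by ring
        _ = algebraMap D.A K u₀ := by
          rw [h1, hN, zpow_neg, zpow_natCast]; field_simp
    · rw [map_mul, map_pow, ht, ← e3, hN, zpow_neg, zpow_natCast]
      field_simp


lemma shrink (h : QGood Q f a G) (c : ℝ) (κ : ℕ) (hc0 : 0 < c) (hc : c ≤ Q.c) (hκ : Q.κ ≤ κ) :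
    QGood (Q.shrink c κ hc0 hc hκ) f a G := by
  have hsub : ∀ y, ball (0 : Cn (d + 1)) ((Q.shrink c κ hc0 hc hκ).r y) ⊆
      ball (0 : Cn (d + 1)) (Q.r y) := fun y => ball_subset_ball (Q.shrink_r_le c κ hc0 hc hκ y)
  obtain ⟨u, v, h1, h2⟩ := h.wit
  obtain ⟨C, k, hC, h3⟩ := h.up
  obtain ⟨C', k', hC', h4⟩ := h.low
  exact ⟨fun y ζ hζ => h.anal y ζ (hsub y hζ), ⟨u, v, h1, fun y ζ hζ => h2 y ζ (hsub y hζ)⟩,
    ⟨C, k, hC, fun y ζ hζ => h3 y ζ (hsub y hζ)⟩, ⟨C', k', hC', fun y ζ hζ => h4 y ζ (hsub y hζ)⟩⟩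

end QGood

end Crest.Agent.R276.Bcq_828
end
end

-- ▼ part R276/BcqF_828

/-!
# R276, leaf BCQ (helper828), part F: points of `Hom(B,ℂ)` from the sections; the jacobian

* `QB Q B` : the points `σ y ζ` of `Hom(B,ℂ)`, `B ⊆ K` of finite type, `ζ₀ ≠ 0`; `exists_QB`;
* `QB.bound` : polynomial bounds of the values of `b ∈ B`;
* `QB.det_eq` : the jacobian of the chart is `ζ₀^c G`;
* `exists_basis_B` : `dz` is a basis of `Ω[K⁄ℂ]` if `z` is étale on `B`, `K` algebraic over `B`.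
-/

set_option autoImplicit false

noncomputable section

open Set Filter Topology Metric

namespace Crest.Agent.R276.Bcq_828

open Crest.Agent.R271.Defs710 Crest.Agent.R271.Rd692 Crest.Agent.R271.Alg255
open Crest.Agent.R271.Bd741 Crest.Agent.R271.Ho51
open Crest.Agent.R276.BC_986 Crest.Agent.R276.Mod1_987 Crest.Agent.R276.CntDefs_857

variable {d : ℕ} {K : Type} [Field K] [Algebra ℂ K] {D : DivModel (d + 1) K}
  {X : DivMdl D} {S : Finset D.A}

lemma mem_PS_iff {r : ℝ} (hr : 0 < r) {q : Cn (d + 1)} :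
    q ∈ PS d r ↔ q ∈ ball (0 : Cn (d + 1)) r ∧ q 0 ≠ 0 := by
  rw [mem_ball_zero_iff, pi_norm_lt_iff hr]
  exact ⟨fun h => ⟨h.2, h.1⟩, fun h => ⟨h.2, h.1⟩⟩

lemma isOpen_PS (r : ℝ) : IsOpen (PS d r) := by
  have h : PS d r = {q : Cn (d + 1) | q 0 ≠ 0} ∩ ⋂ i, {q | ‖q i‖ < r} := by
    ext q
    simp [PS]
  rw [h]
  apply IsOpen.inter
  · exact isOpen_ne_fun (continuous_apply _) continuous_const
  · exact isOpen_iInter_of_finite fun i => isOpen_lt (by fun_prop) continuous_const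

/-- points of `Hom(B,ℂ)` from the sections -/
structure QB (Q : QS D X S) (B : Type) [CommRing B] [Algebra ℂ B] [Algebra B K] where
  q : D.A
  k : ℕ
  u : D.A
  q_eq : q = D.t ^ k * u
  hu : u ∈ S
  q_spec : ∀ b : B, ∃ (m : ℕ) (a : D.A),
    algebraMap B K b * algebraMap D.A K q ^ m = algebraMap D.A K a
  σ : X.M.Pts → Cn (d + 1) → Pt B
  spec : ∀ y, ∀ ζ ∈ PS d (Q.r y), ∀ (b : B) (u v : D.A),
    algebraMap B K b * algebraMap D.A K v = algebraMap D.A K u →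
    σ y ζ b * Q.s y ζ v = Q.s y ζ u

section exist

variable {B : Type} [CommRing B] [Algebra ℂ B] [Algebra B K]

lemma q_ne_aux (h0 : D.i₀ = 0) (Q : QS D X S) {q : D.A} {k : ℕ} {u : D.A}
    (hqu : q = D.t ^ k * u) (hu : u ∈ S) {y : X.M.Pts} {ζ : Cn (d + 1)}
    (hζ : ζ ∈ PS d (Q.r y)) : Q.s y ζ q ≠ 0 := by
  rw [mem_PS_iff (Q.r_pos y)] at hζ
  rw [hqu, map_mul, map_pow, Q.s_t h0 hζ.1]
  exact mul_ne_zero (pow_ne_zero _ hζ.2) (Q.ne hu y hζ.1)

theorem exists_QB [IsScalarTower ℂ B K] (h0 : D.i₀ = 0) (Q : QS D X S) {q : D.A} {k : ℕ}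
    {u : D.A} (hqu : q = D.t ^ k * u) (hu : u ∈ S)
    (hq : ∀ b : B, ∃ (m : ℕ) (a : D.A),
      algebraMap B K b * algebraMap D.A K q ^ m = algebraMap D.A K a) :
    ∃ P : QB Q B, P.q = q := by
  classical
  have hinj := D.inj
  -- existence of a point
  obtain ⟨y₁⟩ : Nonempty X.M.Pts := inferInstance
  have hr := Q.r_pos y₁
  have hmem : (Pi.single 0 ((Q.r y₁ / 2 : ℝ) : ℂ) : Cn (d + 1)) ∈ PS d (Q.r y₁) := by
    rw [mem_PS_iff hr]
    constructor
    · rw [mem_ball_zero_iff, Pi.norm_single]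
      simp only [Complex.norm_real, Real.norm_eq_abs]
      rw [abs_of_pos (by positivity)]
      linarith
    · rw [Pi.single_eq_same]
      simp [hr.ne']
  have hne : Nonempty (Pt B) := by
    obtain ⟨p, _⟩ := exists_pt hinj q hq (Q.s y₁ _) (q_ne_aux h0 Q hqu hu hmem)
    exact ⟨p⟩
  have hex : ∀ (y : X.M.Pts) (ζ : Cn (d + 1)), ∃ p : Pt B, ζ ∈ PS d (Q.r y) →
      ∀ (b : B) (u v : D.A), algebraMap B K b * algebraMap D.A K v = algebraMap D.A K u →
      p b * Q.s y ζ v = Q.s y ζ u := by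
    intro y ζ
    by_cases h : ζ ∈ PS d (Q.r y)
    · obtain ⟨p, hp⟩ := exists_pt hinj q hq (Q.s y ζ) (q_ne_aux h0 Q hqu hu h)
      exact ⟨p, fun _ => hp⟩
    · obtain ⟨p⟩ := hne
      exact ⟨p, fun h' => absurd h' h⟩
  choose σ hσ using hex
  exact ⟨⟨q, k, u, hqu, hu, hq, σ, hσ⟩, rfl⟩

end exist

namespace QB

variable {Q : QS D X S} {B : Type} [CommRing B] [Algebra ℂ B] [Algebra B K] (P : QB Q B)

lemma q_ne (h0 : D.i₀ = 0) {y : X.M.Pts} {ζ : Cn (d + 1)} (hζ : ζ ∈ PS d (Q.r y)) :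
    Q.s y ζ P.q ≠ 0 := q_ne_aux h0 Q P.q_eq P.hu hζ

/-- smaller radii -/
def shrink (c : ℝ) (κ : ℕ) (hc0 : 0 < c) (hc : c ≤ Q.c) (hκ : Q.κ ≤ κ) :
    QB (Q.shrink c κ hc0 hc hκ) B where
  q := P.q
  k := P.k
  u := P.u
  q_eq := P.q_eq
  hu := P.hu
  q_spec := P.q_spec
  σ := P.σ
  spec := fun y ζ hζ => P.spec y ζ ⟨hζ.1, fun i => (hζ.2 i).trans_le
    (Q.shrink_r_le c κ hc0 hc hκ y)⟩


/-- the values of `b ∈ B` are the values of the rational function `b` -/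
lemma isVal (h0 : D.i₀ = 0) {y : X.M.Pts} {ζ : Cn (d + 1)} (hζ : ζ ∈ PS d (Q.r y)) (b : B) :
    IsVal (Q.s y ζ) (algebraMap B K b) (P.σ y ζ b) := by
  obtain ⟨m, a, h⟩ := P.q_spec b
  refine ⟨a, P.q ^ m, ?_, by rw [map_pow]; exact h, ?_⟩
  · rw [map_pow]; exact pow_ne_zero _ (P.q_ne h0 hζ)
  · exact P.spec y ζ hζ b a (P.q ^ m) (by rw [map_pow]; exact h)

/-- the point is determined by the section -/
lemma σ_eq (h0 : D.i₀ = 0) {y y' : X.M.Pts} {ζ ζ' : Cn (d + 1)} (hζ : ζ ∈ PS d (Q.r y))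
    (hζ' : ζ' ∈ PS d (Q.r y')) (h : Q.s y ζ = Q.s y' ζ') : P.σ y ζ = P.σ y' ζ' := by
  ext b
  have h1 := P.isVal h0 hζ b
  have h2 := P.isVal h0 hζ' b
  rw [h] at h1
  exact h1.unique D.inj h2

/-- **compatibility** -/
theorem compat (h0 : D.i₀ = 0) {y : X.M.Pts} {e : OpenPartialHomeomorph X.M.Pts (Fin d → ℂ)}
    (he : IsCh e) (hy : y ∈ e.source) (het : e.target = ball (cp y) (Q.r y)) {y' : X.M.Pts}
    (hy' : y' ∈ e.source) {q : Cn (d + 1)} (hq : q ∈ PS d (Q.r y'))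
    (hq' : q + Fin.cons 0 (cp y' - cp y) ∈ PS d (Q.r y)) :
    P.σ y' q = P.σ y (q + Fin.cons 0 (cp y' - cp y)) :=
  P.σ_eq h0 hq hq' (Q.compat h0 he hy het hy' ((mem_PS_iff (Q.r_pos y')).1 hq).1
    ((mem_PS_iff (Q.r_pos y)).1 hq').1)

/-- regular functions are holomorphic in the charts -/
lemma anal (h0 : D.i₀ = 0) (y : X.M.Pts) (b : B) :
    AnalyticOnNhd ℂ (fun ζ => P.σ y ζ b) (PS d (Q.r y)) := by
  intro ζ hζ
  obtain ⟨m, a, h⟩ := P.q_spec b
  have h1 : (fun ζ => P.σ y ζ b) =ᶠ[𝓝 ζ] fun ζ => Q.s y ζ a / (Q.s y ζ P.q) ^ m := by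
    filter_upwards [(isOpen_PS (Q.r y)).mem_nhds hζ] with ζ' hζ'
    have h2 := P.spec y ζ' hζ' b a (P.q ^ m) (by rw [map_pow]; exact h)
    have h3 : (Q.s y ζ' P.q) ^ m ≠ 0 := pow_ne_zero _ (P.q_ne h0 hζ')
    rw [eq_div_iff h3, ← h2, map_pow]
  rw [analyticAt_congr h1]
  have hζb := ((mem_PS_iff (Q.r_pos y)).1 hζ).1
  exact (Q.anal y a ζ hζb).div ((Q.anal y P.q ζ hζb).pow m) (pow_ne_zero _ (P.q_ne h0 hζ))

lemma continuousOn (h0 : D.i₀ = 0) (y : X.M.Pts) : ContinuousOn (P.σ y) (PS d (Q.r y)) := by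
  rw [continuousOn_iff_ev]
  intro b ζ hζ
  exact (P.anal h0 y b ζ hζ).continuousAt.continuousWithinAt

/-- **polynomial bounds** of the values of `b ∈ B` -/
theorem bound (h0 : D.i₀ = 0) (b : B) : ∃ (C : ℝ) (m k : ℕ), 0 < C ∧ ∀ y,
    ∀ ζ ∈ PS d (Q.r y), ‖P.σ y ζ b‖ * ‖ζ 0‖ ^ m * rr X.M y ^ k ≤ C := by
  obtain ⟨m, a, h⟩ := P.q_spec b
  obtain ⟨C, k, hC, h1⟩ := Q.up' a
  obtain ⟨C', k', hC', h2⟩ := Q.low_inv P.hu
  refine ⟨C * C' ^ m, P.k * m, k + k' * m, by positivity, fun y ζ hζ => ?_⟩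
  have hζb := ((mem_PS_iff (Q.r_pos y)).1 hζ).1
  have h3 := P.spec y ζ hζ b a (P.q ^ m) (by rw [map_pow]; exact h)
  rw [map_pow, P.q_eq, map_mul, map_pow, Q.s_t h0 hζb] at h3
  have hu := Q.ne P.hu y hζb
  have hu' : 0 < ‖Q.s y ζ P.u‖ := norm_pos_iff.2 hu
  have h4 : ‖P.σ y ζ b‖ * ‖ζ 0‖ ^ (P.k * m) = ‖Q.s y ζ a‖ * (‖Q.s y ζ P.u‖⁻¹) ^ m := by
    rw [← h3, norm_mul, norm_pow, norm_mul, norm_pow, mul_pow, ← pow_mul, inv_pow]
    have h5 : ‖Q.s y ζ P.u‖ ^ m ≠ 0 := pow_ne_zero _ hu'.ne'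
    field_simp
  rw [h4]
  have h5 : (‖Q.s y ζ P.u‖⁻¹) ^ m * rr X.M y ^ (k' * m) ≤ C' ^ m := by
    rw [pow_mul, ← mul_pow]
    exact pow_le_pow_left₀ (mul_nonneg (by positivity) (pow_nonneg (rr_pos X.M y).le _))
      (h2 y ζ hζb) m
  exact mul_bound (by positivity) (rr_pos X.M y).le hC.le (h1 y ζ hζb) h5

/-- value of a good regular function -/
theorem val_good (h0 : D.i₀ = 0) {f : K} {a : ℤ} {G : X.M.Pts → Cn (d + 1) → ℂ}
    (hG : QGood Q f a G) {y : X.M.Pts} {ζ : Cn (d + 1)} (hζ : ζ ∈ PS d (Q.r y)) {b : B}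
    (hb : algebraMap B K b = f) : P.σ y ζ b = ζ 0 ^ a * G y ζ := by
  have h1 := (mem_PS_iff (Q.r_pos y)).1 hζ
  have h2 := P.isVal h0 hζ b
  rw [hb] at h2
  exact h2.unique D.inj (hG.isVal h0 h1.1 h1.2)


/-! ### the jacobian -/

/-- derivatives of the regular functions of `B` in the chart -/
lemma isVal_fderiv_σ (h0 : D.i₀ = 0) {y : X.M.Pts} {ζ : Cn (d + 1)} (hζ : ζ ∈ PS d (Q.r y))
    (b : B) (j : Fin (d + 1)) :
    IsVal (Q.s y ζ) (D.dw.repr (KaehlerDifferential.D ℂ K (algebraMap B K b)) j)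
      (fderiv ℂ (fun ζ => P.σ y ζ b) ζ (Pi.single j 1)) := by
  have hζb := ((mem_PS_iff (Q.r_pos y)).1 hζ).1
  refine (isVal_fderiv (Q.ch y) (by rw [Q.ch_r]; exact hζb) ?_).2 j
  filter_upwards [(isOpen_PS (Q.r y)).mem_nhds hζ] with ζ' hζ'
  exact P.isVal h0 hζ' b

/-- the chart followed by coordinates -/
def ψ (z : Fin (d + 1) → B) (y : X.M.Pts) (ζ : Cn (d + 1)) : Cn (d + 1) := fun i => P.σ y ζ (z i)

lemma analyticAt_ψ (h0 : D.i₀ = 0) (z : Fin (d + 1) → B) {y : X.M.Pts} {ζ : Cn (d + 1)}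
    (hζ : ζ ∈ PS d (Q.r y)) : AnalyticAt ℂ (P.ψ z y) ζ :=
  analyticAt_pi_iff.2 fun i => P.anal h0 y (z i) ζ hζ

lemma fderiv_ψ_apply (h0 : D.i₀ = 0) (z : Fin (d + 1) → B) {y : X.M.Pts} {ζ : Cn (d + 1)}
    (hζ : ζ ∈ PS d (Q.r y)) (v : Cn (d + 1)) (i : Fin (d + 1)) :
    fderiv ℂ (P.ψ z y) ζ v i = fderiv ℂ (fun ζ => P.σ y ζ (z i)) ζ v := by
  have h1 : HasFDerivAt (P.ψ z y) (fderiv ℂ (P.ψ z y) ζ) ζ :=
    (P.analyticAt_ψ h0 z hζ).differentiableAt.hasFDerivAt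
  have h2 := (hasFDerivAt_pi'.1 h1) i
  have h3 := h2.fderiv
  have h4 : (fun x => P.ψ z y x i) = fun ζ => P.σ y ζ (z i) := rfl
  rw [h4] at h3
  rw [h3]
  rfl

/-- **the Jacobian of the chart** is the value of the change of bases of differential forms -/
theorem isVal_det (h0 : D.i₀ = 0) (z : Fin (d + 1) → B) (b : Fin (d + 1) → Ω[K⁄ℂ])
    (hb : ∀ j, b j = KaehlerDifferential.D ℂ K (algebraMap B K (z j))) {y : X.M.Pts}
    {ζ : Cn (d + 1)} (hζ : ζ ∈ PS d (Q.r y)) :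
    IsVal (Q.s y ζ) (D.dw.toMatrix b).det (fderiv ℂ (P.ψ z y) ζ).det := by
  have e1 : (fderiv ℂ (P.ψ z y) ζ).det =
      (LinearMap.toMatrix' (fderiv ℂ (P.ψ z y) ζ :
        Cn (d + 1) →ₗ[ℂ] Cn (d + 1))).transpose.det := by
    rw [Matrix.det_transpose, ContinuousLinearMap.det, ← LinearMap.det_toMatrix']
  rw [e1]
  apply IsVal.det
  intro j i
  rw [Module.Basis.toMatrix_apply, hb, Matrix.transpose_apply, LinearMap.toMatrix'_apply]
  have h := P.isVal_fderiv_σ h0 hζ (z i) j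
  rw [← P.fderiv_ψ_apply h0 z hζ] at h
  simpa using h

/-- the Jacobian as `t^c` times a unit -/
theorem det_eq (h0 : D.i₀ = 0) (z : Fin (d + 1) → B) (b : Fin (d + 1) → Ω[K⁄ℂ])
    (hb : ∀ j, b j = KaehlerDifferential.D ℂ K (algebraMap B K (z j))) {c : ℤ}
    {G : X.M.Pts → Cn (d + 1) → ℂ} (hG : QGood Q (D.dw.toMatrix b).det c G) {y : X.M.Pts}
    {ζ : Cn (d + 1)} (hζ : ζ ∈ PS d (Q.r y)) :
    (fderiv ℂ (P.ψ z y) ζ).det = ζ 0 ^ c * G y ζ := by
  have h1 := (mem_PS_iff (Q.r_pos y)).1 hζ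
  exact (P.isVal_det h0 z b hb hζ).unique D.inj (hG.isVal h0 h1.1 h1.2)

theorem det_ne (h0 : D.i₀ = 0) (z : Fin (d + 1) → B) (b : Fin (d + 1) → Ω[K⁄ℂ])
    (hb : ∀ j, b j = KaehlerDifferential.D ℂ K (algebraMap B K (z j))) {c : ℤ}
    {G : X.M.Pts → Cn (d + 1) → ℂ} (hG : QGood Q (D.dw.toMatrix b).det c G) {y : X.M.Pts}
    {ζ : Cn (d + 1)} (hζ : ζ ∈ PS d (Q.r y)) : (fderiv ℂ (P.ψ z y) ζ).det ≠ 0 := by
  have h1 := (mem_PS_iff (Q.r_pos y)).1 hζ
  rw [P.det_eq h0 z b hb hG hζ]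
  exact mul_ne_zero (zpow_ne_zero _ h1.2) (hG.ne h1.1)

end QB

/-! ### the basis `dz` -/

/-- `dz` is a basis of `Ω[K⁄ℂ]` -/
theorem exists_basis_B {n : ℕ} {B : Type} [CommRing B] [IsDomain B] [Algebra ℂ B] [Algebra B K]
    [IsScalarTower ℂ B K] (hinj : Function.Injective (algebraMap B K))
    [Algebra.IsAlgebraic B K] (z : Fin n → B)
    (het : RingHom.Etale ((MvPolynomial.aeval z : MvPolynomial (Fin n) ℂ →ₐ[ℂ] B) :
      MvPolynomial (Fin n) ℂ →+* B)) : ∃ b : Module.Basis (Fin n) K (Ω[K⁄ℂ]),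
    ∀ j, b j = KaehlerDifferential.D ℂ K (algebraMap B K (z j)) := by
  have : FaithfulSMul B K := (faithfulSMul_iff_algebraMap_injective B K).2 hinj
  let _ : Algebra (FractionRing B) K := FractionRing.liftAlgebra B K
  have _ : IsScalarTower B (FractionRing B) K := FractionRing.isScalarTower_liftAlgebra B K
  have _ : IsScalarTower ℂ (FractionRing B) K := by
    refine IsScalarTower.of_algebraMap_eq fun c => ?_
    rw [IsScalarTower.algebraMap_apply ℂ B K, IsScalarTower.algebraMap_apply ℂ B (FractionRing B),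
      ← IsScalarTower.algebraMap_apply B (FractionRing B) K]
  have _ : Algebra.IsAlgebraic (FractionRing B) K :=
    (IsFractionRing.comap_isAlgebraic_iff (A := B) (K := FractionRing B) (C := K)).1 inferInstance
  have : CharZero (FractionRing B) := by
    have h1 : CharZero ℂ := inferInstance
    exact charZero_of_injective_algebraMap (algebraMap ℂ (FractionRing B)).injective
  have _ : Algebra.IsSeparable (FractionRing B) K := inferInstance
  have _ : Algebra.FormallyEtale (FractionRing B) K :=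
    Algebra.FormallyEtale.of_isSeparable (FractionRing B) K
  have h1 := Crest.Agent.R271.Bs960.ECoord.fe (w := z) het
  have h2 := h1.loc (S := B) (T := FractionRing B) (nonZeroDivisors B)
  have h3 := h2.comp (S := FractionRing B) (T := K)
  obtain ⟨b, hb⟩ := Crest.Agent.R271.Bs960.exists_basis_of_formallyEtale _ h3
  refine ⟨b, fun j => ?_⟩
  rw [hb, ← IsScalarTower.algebraMap_apply B (FractionRing B) K]

end Crest.Agent.R276.Bcq_828
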