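import Mathlib
import Crest.Agent.R276.BcqF_828
import Crest.Agent.R271.Rd7_692

-- ▼ part R276/BcqG_828
section

/-!
# R276, leaf BCQ (helper828), part G: change of variables with multiplicity

`lintegral_le_mult` : `∫_V f(σ q) |J|² dq ≤ N ∫_M f dμ` if `σ : V → M` is holomorphic, locally
biholomorphic, at most `N` to one.
-/

set_option autoImplicit false

noncomputable section

open Set Filter Topology Metric MeasureTheory
open scoped ENNReal

namespace Crest.Agent.R276.Bcq_828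

open Crest.Agent.R271.Defs710 Crest.Agent.R271.Rd692 Crest.Agent.R271.Alg255
open Crest.Agent.R271.Bd741 Crest.Agent.R271.Ho51

lemma finset_sum_lintegral_le {α ι : Type*} [MeasurableSpace α] (μ : Measure α) (s : Finset ι)
    (g : ι → α → ℝ≥0∞) : ∑ i ∈ s, ∫⁻ x, g i x ∂μ ≤ ∫⁻ x, ∑ i ∈ s, g i x ∂μ := by
  classical
  induction s using Finset.induction_on with
  | empty => simp
  | insert a s ha ih =>
    simp only [Finset.sum_insert ha]
    calc ∫⁻ x, g a x ∂μ + ∑ i ∈ s, ∫⁻ x, g i x ∂μ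
        ≤ ∫⁻ x, g a x ∂μ + ∫⁻ x, ∑ i ∈ s, g i x ∂μ := by gcongr
      _ ≤ ∫⁻ x, (g a x + ∑ i ∈ s, g i x) ∂μ := le_lintegral_add _ _

lemma tsum_lintegral_le {α ι : Type*} [MeasurableSpace α] (μ : Measure α)
    (g : ι → α → ℝ≥0∞) : ∑' i, ∫⁻ x, g i x ∂μ ≤ ∫⁻ x, ∑' i, g i x ∂μ := by
  rw [ENNReal.tsum_eq_iSup_sum]
  refine iSup_le fun s => (finset_sum_lintegral_le μ s g).trans ?_
  exact lintegral_mono fun x => ENNReal.sum_le_tsum s

variable {n : ℕ} {M : Type*} [TopologicalSpace M] [RDom n M]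

/-- change of variables for a locally biholomorphic map which is at most `N` to one -/
theorem lintegral_le_mult [MeasurableSpace M] [BorelSpace M] [SecondCountableTopology M]
    {μ : Measure M} (hμ : IsLeb μ) {V : Set (Cn n)} (hV : IsOpen V) {σ : Cn n → M}
    {ψ' : Cn n → (Cn n →L[ℂ] Cn n)}
    (hψ : ∀ q ∈ V, HasStrictFDerivAt (fun q => (cp (σ q) : Cn n)) (ψ' q) q)
    (hdet : ∀ q ∈ V, (ψ' q).det ≠ 0) {N : ℕ}
    (hN : ∀ x : M, {q | q ∈ V ∧ σ q = x}.encard ≤ N) {f : M → ℝ≥0∞} (hf : Measurable f) :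
    ∫⁻ q in V, f (σ q) * ENNReal.ofReal (‖(ψ' q).det‖ ^ 2) ≤ N * ∫⁻ x, f x ∂μ := by
  classical
  set ψ : Cn n → Cn n := fun q => cp (σ q) with hψdef
  -- local injectivity
  have hinj : ∀ q ∈ V, ∃ U : Set (Cn n), IsOpen U ∧ q ∈ U ∧ InjOn ψ U := by
    intro q hq
    let e' := (ψ' q).toContinuousLinearEquivOfDetNeZero (hdet q hq)
    have he' : (e' : Cn n →L[ℂ] Cn n) = ψ' q :=
      ContinuousLinearMap.coe_toContinuousLinearEquivOfDetNeZero _ _
    have hd : HasStrictFDerivAt ψ (e' : Cn n →L[ℂ] Cn n) q := by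
      rw [he']; exact hψ q hq
    set h := hd.toOpenPartialHomeomorph ψ with hh
    refine ⟨h.source, h.open_source, hd.mem_toOpenPartialHomeomorph_source, ?_⟩
    have := h.injOn
    rwa [hd.toOpenPartialHomeomorph_coe] at this
  choose! U hUo hUm hUi using hinj
  obtain ⟨T, hTV, hTc, hTcov⟩ : ∃ T ⊆ V, T.Countable ∧ V ⊆ ⋃ x ∈ T, U x :=
    TopologicalSpace.countable_cover_nhdsWithin
      (f := U) (s := V) (fun x hx => mem_nhdsWithin_of_mem_nhds ((hUo x hx).mem_nhds (hUm x hx)))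
  rcases T.eq_empty_or_nonempty with hTe | hTne
  · have hVe : V = ∅ := by
      apply Set.eq_empty_of_subset_empty
      simpa [hTe] using hTcov
    simp [hVe]
  obtain ⟨u, hu⟩ := hTc.exists_eq_range hTne
  have huT : ∀ i, u i ∈ V := fun i => hTV (hu ▸ mem_range_self i)
  set E : ℕ → Set (Cn n) := disjointed fun i => U (u i) ∩ V with hE
  have hEm : ∀ i, MeasurableSet (E i) := fun i =>
    MeasurableSet.disjointed (fun i => ((hUo _ (huT i)).inter hV).measurableSet) i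
  have hEU' : ∀ i, E i ⊆ U (u i) ∩ V := fun i => disjointed_subset _ i
  have hEU : ∀ i, E i ⊆ U (u i) := fun i => (hEU' i).trans inter_subset_left
  have hEV : ∀ i, E i ⊆ V := fun i => (hEU' i).trans inter_subset_right
  have hEd : Pairwise (Function.onFun Disjoint E) := disjoint_disjointed _
  have hEun : ⋃ i, E i = V := by
    rw [hE, iUnion_disjointed]
    apply Subset.antisymm
    · exact iUnion_subset fun i => inter_subset_right
    · intro x hx
      have := hTcov hx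
      simp only [mem_iUnion] at this
      obtain ⟨y, hy, hxy⟩ := this
      rw [hu] at hy
      obtain ⟨i, rfl⟩ := hy
      exact mem_iUnion.2 ⟨i, hxy, hx⟩
  -- the fibre sums
  let g : ℕ → Cn n → ℝ≥0∞ := fun i η => ∑' x : {x : M // cp x = η}, (σ '' E i).indicator f x.1
  have hg : ∀ i, ∀ q ∈ E i, f (σ q) ≤ g i (ψ q) := by
    intro i q hq
    have h0 : σ q ∈ σ '' E i := ⟨q, hq, rfl⟩
    have h1 : (σ '' E i).indicator f (σ q) = f (σ q) := Set.indicator_of_mem h0 _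
    rw [← h1]
    exact ENNReal.le_tsum (⟨σ q, rfl⟩ : {x : M // cp x = ψ q})
  have hpiece : ∀ i, ∫⁻ q in E i, f (σ q) * ENNReal.ofReal (‖(ψ' q).det‖ ^ 2) ≤
      ∫⁻ η, g i η := by
    intro i
    have h1 := lintegral_image_eq_lintegral_abs_det_fderiv_mul (volume : Measure (Cn n)) (hEm i)
      (f' := fun q => (ψ' q).restrictScalars ℝ)
      (fun q hq => ((hψ q (hEV i hq)).hasFDerivAt.restrictScalars ℝ).hasFDerivWithinAt)
      ((hUi _ (huT i)).mono (hEU i)) (g i)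
    calc ∫⁻ q in E i, f (σ q) * ENNReal.ofReal (‖(ψ' q).det‖ ^ 2)
        ≤ ∫⁻ q in E i, ENNReal.ofReal |((ψ' q).restrictScalars ℝ).det| * g i (ψ q) := by
          refine setLIntegral_mono' (hEm i) fun q hq => ?_
          rw [abs_det_real, mul_comm]
          gcongr
          exact hg i q hq
      _ = ∫⁻ η in ψ '' E i, g i η := h1.symm
      _ ≤ ∫⁻ η, g i η := setLIntegral_le_lintegral _ _
  have hsum : ∀ η, ∑' i, g i η ≤ N * ∑' x : {x : M // cp x = η}, f x.1 := by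
    intro η
    simp only [g]
    rw [ENNReal.tsum_comm, ← ENNReal.tsum_mul_left]
    refine ENNReal.tsum_le_tsum fun x => ?_
    -- the number of `i` with `x ∈ σ (E i)`
    let I : Set ℕ := {i | x.1 ∈ σ '' E i}
    have h1 : ∑' i, (σ '' E i).indicator f x.1 = ∑' _ : I, f x.1 := by
      rw [tsum_subtype I (fun _ => f x.1)]
      apply tsum_congr
      intro i
      by_cases hi : x.1 ∈ σ '' E i
      · rw [Set.indicator_of_mem hi, Set.indicator_of_mem (show i ∈ I from hi)]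
      · rw [Set.indicator_of_notMem hi, Set.indicator_of_notMem (show i ∉ I from hi)]
    have h2 : I.encard ≤ N := by
      refine le_trans ?_ (hN x.1)
      choose! q hq1 hq2 using fun i (hi : i ∈ I) => hi
      refine Set.encard_le_encard_of_injOn (f := q) (fun i hi => ⟨hEV i (hq1 i hi), hq2 i hi⟩) ?_
      intro i hi j hj hij
      by_contra hne
      have h3 := Set.disjoint_left.mp (hEd hne) (hq1 i hi)
      apply h3
      rw [hij]
      exact hq1 j hj
    rw [h1, ENNReal.tsum_const]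
    gcongr
    calc ((ENat.card I : ℕ∞) : ℝ≥0∞) ≤ ((N : ℕ∞) : ℝ≥0∞) := by
          exact_mod_cast h2
      _ = (N : ℝ≥0∞) := by simp
  calc ∫⁻ q in V, f (σ q) * ENNReal.ofReal (‖(ψ' q).det‖ ^ 2)
      = ∑' i, ∫⁻ q in E i, f (σ q) * ENNReal.ofReal (‖(ψ' q).det‖ ^ 2) := by
        rw [← hEun, lintegral_iUnion hEm hEd]
    _ ≤ ∑' i, ∫⁻ η, g i η := ENNReal.tsum_le_tsum hpiece
    _ ≤ ∫⁻ η, ∑' i, g i η := tsum_lintegral_le _ _
    _ ≤ ∫⁻ η, N * ∑' x : {x : M // cp x = η}, f x.1 := lintegral_mono hsum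
    _ = N * ∫⁻ η : Cn n, ∑' x : {x : M // cp x = η}, f x.1 :=
        lintegral_const_mul' _ _ (ENNReal.natCast_ne_top N)
    _ = N * ∫⁻ x, f x ∂μ := by rw [lintegral_eq_fibre hμ hf]

end Crest.Agent.R276.Bcq_828
end
end

-- ▼ part R276/BcqH_828
section

/-!
# R276, leaf BCQ (helper828), part H: the boundary charts `DChart`

`BD D B z F` : the complete data (divisor `X`, sections `Q`, points `P`, multiplicity `N`,
jacobian, the finitely many good functions `f ∈ F`); `exists_BD`.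
`BD.dchart` : the structure `DChart (Hom(B,ℂ)) E μ` of `CntDefs_857`, for all small radii.
-/

set_option autoImplicit false

noncomputable section

open Set Filter Topology Metric MeasureTheory
open scoped ENNReal

namespace Crest.Agent.R276.Bcq_828

open Crest.Agent.R271.Defs710 Crest.Agent.R271.Rd692 Crest.Agent.R271.Alg255
open Crest.Agent.R271.Bd741 Crest.Agent.R271.Ho51
open Crest.Agent.R276.BC_986 Crest.Agent.R276.Mod1_987 Crest.Agent.R276.CntDefs_857

variable {d : ℕ} {K : Type} [Field K] [Algebra ℂ K]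

/-! ### multiplicity -/

section mult

variable {D : DivModel (d + 1) K} {X : DivMdl D} {S : Finset D.A} {Q : QS D X S}
  {B : Type} [CommRing B] [Algebra ℂ B] [Algebra B K] (P : QB Q B)

/-- a polynomial relation over `B` of an element of `D.A` holds for the values -/
lemma QB.eval_eq_zero (h0 : D.i₀ = 0) {p : Polynomial B} {a : D.A}
    (hp : Polynomial.aeval (algebraMap D.A K a) p = 0) {y : X.M.Pts} {ζ : Cn (d + 1)}
    (hζ : ζ ∈ PS d (Q.r y)) :
    (p.map ((P.σ y ζ : Pt B) : B →+* ℂ)).eval (Q.s y ζ a) = 0 := by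
  have h1 : IsVal (Q.s y ζ) (Polynomial.aeval (algebraMap D.A K a) p)
      (∑ i ∈ Finset.range (p.natDegree + 1), P.σ y ζ (p.coeff i) * Q.s y ζ a ^ i) := by
    rw [Polynomial.aeval_eq_sum_range]
    refine IsVal.sum _ fun i _ => ?_
    rw [Algebra.smul_def]
    exact (P.isVal h0 hζ _).mul ((isVal_algebraMap a).pow i)
  rw [hp] at h1
  have h2 := h1.unique D.inj isVal_zero
  rw [Polynomial.eval_map, Polynomial.eval₂_eq_sum_range]
  exact h2

/-- finite multiplicity -/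
theorem QB.mult (h0 : D.i₀ = 0) (p : Fin (d + 1) → Polynomial B)
    (hp : ∀ i, Polynomial.aeval (algebraMap D.A K (D.w i)) (p i) = 0)
    (hlc : ∀ i, ∀ y, ∀ ζ ∈ PS d (Q.r y), P.σ y ζ (p i).leadingCoeff ≠ 0) (y : X.M.Pts)
    (x : Pt B) : {q | q ∈ PS d (Q.r y) ∧ P.σ y q = x}.encard ≤
      ((∏ i, (p i).natDegree : ℕ) : ℕ∞) := by
  classical
  rcases Set.eq_empty_or_nonempty {q | q ∈ PS d (Q.r y) ∧ P.σ y q = x} with he | ⟨q₀, hq₀, hq₀x⟩
  · rw [he, Set.encard_empty]; exact zero_le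
  let R : Fin (d + 1) → Finset ℂ := fun i =>
    (((p i).map (x : B →+* ℂ)).roots.toFinset).image fun c => c - X.pA y (D.w i)
  have hne : ∀ i, (p i).map (x : B →+* ℂ) ≠ 0 := by
    intro i h
    have h1 := hlc i y q₀ hq₀
    rw [hq₀x] at h1
    apply h1
    have h2 := congrArg (fun P => Polynomial.coeff P (p i).natDegree) h
    simpa using h2
  have hR : ∀ i, (R i).card ≤ (p i).natDegree := by
    intro i
    calc (R i).card ≤ (((p i).map (x : B →+* ℂ)).roots.toFinset).card := Finset.card_image_le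
      _ ≤ Multiset.card ((p i).map (x : B →+* ℂ)).roots := Multiset.toFinset_card_le _
      _ ≤ ((p i).map (x : B →+* ℂ)).natDegree := Polynomial.card_roots' _
      _ ≤ (p i).natDegree := Polynomial.natDegree_map_le
  have hsub : {q | q ∈ PS d (Q.r y) ∧ P.σ y q = x} ⊆ (Fintype.piFinset R : Set (Cn (d + 1))) := by
    rintro q ⟨hq, hqx⟩
    rw [Finset.mem_coe, Fintype.mem_piFinset]
    intro i
    simp only [R, Finset.mem_image, Multiset.mem_toFinset]
    refine ⟨Q.s y q (D.w i), ?_, ?_⟩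
    · rw [Polynomial.mem_roots (hne i), Polynomial.IsRoot.def, ← hqx]
      exact P.eval_eq_zero h0 (hp i) hq
    · rw [Q.s_z ((mem_PS_iff (Q.r_pos y)).1 hq).1]; ring
  calc {q | q ∈ PS d (Q.r y) ∧ P.σ y q = x}.encard
      ≤ (Fintype.piFinset R : Set (Cn (d + 1))).encard := Set.encard_le_encard hsub
    _ = ((Fintype.piFinset R).card : ℕ∞) := Set.encard_coe_eq_coe_finsetCard _
    _ ≤ ((∏ i, (p i).natDegree : ℕ) : ℕ∞) := by
      rw [Fintype.card_piFinset]
      exact_mod_cast Finset.prod_le_prod' fun i _ => hR i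

end mult

/-! ### the complete data -/

/-- the complete data of boundary charts of `Hom(B,ℂ)` along the divisor of `D` -/
structure BD (D : DivModel (d + 1) K) (B : Type) [CommRing B] [Algebra ℂ B] [Algebra B K]
    (z : Fin (d + 1) → B) (F : Finset K) where
  /-- the divisor -/
  X : DivMdl D
  S : Finset D.A
  /-- the sections of the model `D` -/
  Q : QS D X S
  /-- the charts of `Hom(B,ℂ)` -/
  P : QB Q B
  h0 : D.i₀ = 0
  b : Module.Basis (Fin (d + 1)) K (Ω[K⁄ℂ])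
  hb : ∀ j, b j = KaehlerDifferential.D ℂ K (algebraMap B K (z j))
  N : ℕ
  hN : ∀ (y : X.M.Pts) (x : Pt B), {q | q ∈ PS d (Q.r y) ∧ P.σ y q = x}.encard ≤ N
  /-- order of the jacobian -/
  cJ : ℤ
  GJ : X.M.Pts → Cn (d + 1) → ℂ
  ordJ : D.HasOrd (D.dw.toMatrix b).det cJ
  goodJ : QGood Q (D.dw.toMatrix b).det cJ GJ
  good : ∀ f ∈ F, ∃ (a : ℤ) (G : X.M.Pts → Cn (d + 1) → ℂ), D.HasOrd f a ∧ QGood Q f a G


namespace BD

variable {D : DivModel (d + 1) K} {B : Type} [CommRing B] [Algebra ℂ B] [Algebra B K]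
  {z : Fin (d + 1) → B} {F : Finset K} (R : BD D B z F)

/-- smaller radii -/
def shrink (c : ℝ) (κ : ℕ) (hc0 : 0 < c) (hc : c ≤ R.Q.c) (hκ : R.Q.κ ≤ κ) : BD D B z F where
  X := R.X
  S := R.S
  Q := R.Q.shrink c κ hc0 hc hκ
  P := R.P.shrink c κ hc0 hc hκ
  h0 := R.h0
  b := R.b
  hb := R.hb
  N := R.N
  hN := fun y x => by
    have hsub : {q | q ∈ PS d ((R.Q.shrink c κ hc0 hc hκ).r y) ∧ R.P.σ y q = x} ⊆
        {q | q ∈ PS d (R.Q.r y) ∧ R.P.σ y q = x} := fun q hq => ⟨⟨hq.1.1, fun i =>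
      (hq.1.2 i).trans_le (R.Q.shrink_r_le c κ hc0 hc hκ y)⟩, hq.2⟩
    exact (Set.encard_le_encard hsub).trans (R.hN y x)
  cJ := R.cJ
  GJ := R.GJ
  ordJ := R.ordJ
  goodJ := R.goodJ.shrink c κ hc0 hc hκ
  good := fun f hf => by
    obtain ⟨a, G, h1, h2⟩ := R.good f hf
    exact ⟨a, G, h1, h2.shrink c κ hc0 hc hκ⟩

/-- the space of the divisor -/
abbrev E : Type := R.X.M.Pts

section dchart

variable [RDom (d + 1) (B →ₐ[ℂ] ℂ)]

lemma cp_σ (hcp : ∀ x : B →ₐ[ℂ] ℂ, (cp x : Fin (d + 1) → ℂ) = fun i => x (z i)) (y : R.E) :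
    (fun q => (cp (R.P.σ y q) : Fin (d + 1) → ℂ)) = R.P.ψ z y := by
  funext q
  rw [hcp]
  rfl

/-- **the boundary charts** -/
def dchart (hcp : ∀ x : B →ₐ[ℂ] ℂ, (cp x : Fin (d + 1) → ℂ) = fun i => x (z i))
    (hft : Algebra.FiniteType ℂ B) {μ : Measure (B →ₐ[ℂ] ℂ)} (hμ : IsLeb μ) :
    DChart (B →ₐ[ℂ] ℂ) R.E μ where
  cov := pcov R.X.M
  c := R.Q.c
  hc0 := R.Q.c_pos
  hc1 := R.Q.c_le
  κ := R.Q.κ
  hball := R.Q.hball
  conn := isPreconnected_univ
  σ := R.P.σ
  cont := fun y => R.P.continuousOn R.h0 y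
  hol := fun y => by
    rw [R.cp_σ hcp y]
    intro q hq
    exact (R.P.analyticAt_ψ R.h0 z hq).differentiableAt.differentiableWithinAt
  jac := fun y q hq => by
    rw [R.cp_σ hcp y]
    exact R.P.det_ne R.h0 z R.b R.hb R.goodJ hq
  N := R.N
  mult := fun y f hf => by
    have hsc : SecondCountableTopology (B →ₐ[ℂ] ℂ) := secondCountable_of_ft hft
    rw [R.cp_σ hcp y]
    refine lintegral_le_mult hμ (isOpen_PS _) (σ := R.P.σ y)
      (ψ' := fun q => fderiv ℂ (R.P.ψ z y) q) ?_ ?_ (R.hN y) hf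
    · intro q hq
      rw [R.cp_σ hcp y]
      exact (R.P.analyticAt_ψ R.h0 z hq).hasStrictFDerivAt
    · intro q hq
      exact R.P.det_ne R.h0 z R.b R.hb R.goodJ hq
  compat := fun y e he hy het y' hy' q hq hq' => R.P.compat R.h0 he hy het hy' hq hq'

variable (hcp : ∀ x : B →ₐ[ℂ] ℂ, (cp x : Fin (d + 1) → ℂ) = fun i => x (z i))
    (hft : Algebra.FiniteType ℂ B) {μ : Measure (B →ₐ[ℂ] ℂ)} (hμ : IsLeb μ)

@[simp] lemma dchart_σ : (R.dchart hcp hft hμ).σ = R.P.σ := rfl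

@[simp] lemma dchart_r (y : R.E) : (R.dchart hcp hft hμ).r y = R.Q.r y := rfl

@[simp] lemma dchart_cov : (R.dchart hcp hft hμ).cov = pcov R.X.M := rfl

/-- the jacobian -/
lemma dchart_J {y : R.E} {q : Fin (d + 1) → ℂ} (hq : q ∈ PS d (R.Q.r y)) :
    (R.dchart hcp hft hμ).J y q = q 0 ^ R.cJ * R.GJ y q := by
  unfold DChart.J
  rw [dchart_σ, R.cp_σ hcp y]
  exact R.P.det_eq R.h0 z R.b R.hb R.goodJ hq

end dchart

end BD

end Crest.Agent.R276.Bcq_828
end
end

-- ▼ part R276/BcqI_828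

/-!
# R276, leaf BCQ (helper828), part I: models, normalisation of the index, polynomial bounds

* `exists_bd_mdl`, `BD.dchartM` : the case of a model `M : Mdl K (d+1)` of 987;
* `normD D` : the coordinate of the divisor becomes the coordinate `0`;
* bounds in terms of `1 / r`, `r` the radius of the boundary chart.
-/

set_option autoImplicit false

noncomputable section

open Set Filter Topology Metric MeasureTheory
open scoped ENNReal

namespace Crest.Agent.R276.Bcq_828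

open Crest.Agent.R271.Defs710 Crest.Agent.R271.Rd692 Crest.Agent.R271.Alg255
open Crest.Agent.R271.Bd741 Crest.Agent.R271.Ho51
open Crest.Agent.R276.BC_986 Crest.Agent.R276.Mod1_987 Crest.Agent.R276.CntDefs_857

variable {d : ℕ} {K : Type} [Field K] [Algebra ℂ K]

/-! ### models of 987 -/



/-! ### the index of the divisor -/

/-- étaleness is preserved by a permutation of the coordinates -/
lemma etale_perm {A : Type} [CommRing A] [Algebra ℂ A] {n : ℕ} {w : Fin n → A}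
    (het : RingHom.Etale ((MvPolynomial.aeval w : MvPolynomial (Fin n) ℂ →ₐ[ℂ] A) :
      MvPolynomial (Fin n) ℂ →+* A)) (e : Equiv.Perm (Fin n)) :
    RingHom.Etale ((MvPolynomial.aeval (w ∘ e) : MvPolynomial (Fin n) ℂ →ₐ[ℂ] A) :
      MvPolynomial (Fin n) ℂ →+* A) := by
  have h1 : ((MvPolynomial.aeval (w ∘ e) : MvPolynomial (Fin n) ℂ →ₐ[ℂ] A) :
      MvPolynomial (Fin n) ℂ →+* A) =
      ((MvPolynomial.aeval w : MvPolynomial (Fin n) ℂ →ₐ[ℂ] A) :
        MvPolynomial (Fin n) ℂ →+* A).comp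
        ((MvPolynomial.rename e : MvPolynomial (Fin n) ℂ →ₐ[ℂ] MvPolynomial (Fin n) ℂ) :
          MvPolynomial (Fin n) ℂ →+* MvPolynomial (Fin n) ℂ) := by
    apply MvPolynomial.ringHom_ext
    · intro r; simp
    · intro i; simp
  have h2 : RingHom.Etale
      ((MvPolynomial.rename e : MvPolynomial (Fin n) ℂ →ₐ[ℂ] MvPolynomial (Fin n) ℂ) :
          MvPolynomial (Fin n) ℂ →+* MvPolynomial (Fin n) ℂ) := by
    apply RingHom.Etale.of_bijective
    exact (MvPolynomial.renameEquiv ℂ e).bijective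
  rw [h1]
  exact RingHom.Etale.stableUnderComposition _ _ h2 het

/-- the normalised model: `i₀ = 0` -/
def normD (D : DivModel (d + 1) K) : DivModel (d + 1) K where
  A := D.A
  ft := D.ft
  w := D.w ∘ Equiv.swap 0 D.i₀
  etale := etale_perm D.etale _
  i₀ := 0
  prime := by
    simp only [Function.comp_apply, Equiv.swap_apply_left]
    exact D.prime

@[simp] lemma normD_i₀ (D : DivModel (d + 1) K) : (normD D).i₀ = 0 := rfl

lemma normD_t (D : DivModel (d + 1) K) : (normD D).t = D.t := by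
  change D.w (Equiv.swap 0 D.i₀ 0) = D.w D.i₀
  rw [Equiv.swap_apply_left]



/-! ### bounds in terms of the radius -/

section bounds

variable {D : DivModel (d + 1) K} {X : DivMdl D} {S : Finset D.A} (Q : QS D X S)

lemma QS.r_le_rr (y : X.M.Pts) : Q.r y ≤ rr X.M y := by
  unfold QS.r
  rw [radf_eq]
  calc Q.c * r0 X.M.h (cp y) ^ Q.κ ≤ 1 * r0 X.M.h (cp y) ^ 1 := by
        apply mul_le_mul Q.c_le (pow_le_pow_of_le_one (r0_nonneg _ _) (r0_le_one _ _) Q.κ_pos)
          (pow_nonneg (r0_nonneg _ _) _) zero_le_one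
    _ = rr X.M y := by rw [one_mul, pow_one]; rfl

lemma QS.r_le_one (y : X.M.Pts) : Q.r y ≤ 1 := (Q.r_le_rr y).trans (rr_le_one _ _)

/-- from `rr` to the radius -/
lemma QS.le_of_mul_rr {φ C : ℝ} {k : ℕ} (y : X.M.Pts) (hφ : 0 ≤ φ)
    (h : φ * rr X.M y ^ k ≤ C) : φ ≤ C * (1 / Q.r y) ^ k := by
  have hr := Q.r_pos y
  have h1 : Q.r y ^ k ≤ rr X.M y ^ k := pow_le_pow_left₀ hr.le (Q.r_le_rr y) k
  have h2 : φ * Q.r y ^ k ≤ C := le_trans (by gcongr) h
  rw [one_div, inv_pow, ← div_eq_mul_inv, le_div_iff₀ (by positivity)]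
  exact h2


variable {Q}

/-- two sided bounds for the unit part of a good function -/
theorem QGood.bound {f : K} {a : ℤ} {G : X.M.Pts → Cn (d + 1) → ℂ} (hG : QGood Q f a G) :
    ∃ (C : ℝ) (k : ℕ), 1 ≤ C ∧ ∀ y, ∀ ζ ∈ ball (0 : Cn (d + 1)) (Q.r y),
      C⁻¹ * Q.r y ^ k ≤ ‖G y ζ‖ ∧ ‖G y ζ‖ ≤ C * (1 / Q.r y) ^ k := by
  obtain ⟨C, k, hC, h⟩ := hG.up
  obtain ⟨C', k', hC', h'⟩ := hG.low
  refine ⟨1 + C + C', k + k', by linarith, fun y ζ hζ => ?_⟩
  have hr := Q.r_pos y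
  have hr1 := Q.r_le_one y
  have h1r : 1 ≤ 1 / Q.r y := by rw [le_div_iff₀ hr]; linarith
  have hG0 : 0 < ‖G y ζ‖ := norm_pos_iff.2 (hG.ne hζ)
  constructor
  · have h1 := Q.le_of_mul_rr y (by positivity) (h' y ζ hζ)
    have h2 : ‖G y ζ‖⁻¹ ≤ (1 + C + C') * (1 / Q.r y) ^ (k + k') := by
      refine h1.trans ?_
      have : (1 / Q.r y) ^ k' ≤ (1 / Q.r y) ^ (k + k') := pow_le_pow_right₀ h1r (by omega)
      gcongr
      linarith
    have h3 := inv_anti₀ (by positivity) h2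
    rw [inv_inv] at h3
    refine le_trans (le_of_eq ?_) h3
    rw [mul_inv, one_div, inv_pow, inv_inv]
  · refine (Q.le_of_mul_rr y (norm_nonneg _) (h y ζ hζ)).trans ?_
    have : (1 / Q.r y) ^ k ≤ (1 / Q.r y) ^ (k + k') := pow_le_pow_right₀ h1r (by omega)
    gcongr
    linarith

lemma Sh_subset_PS {r : ℝ} (hr : 0 < r) : Sh d r ⊆ PS d r := by
  rintro q ⟨h1, h2, h3⟩
  refine ⟨fun h => ?_, fun i => ?_⟩
  · rw [h, norm_zero] at h1; linarith
  · refine Fin.cases ?_ (fun j => ?_) i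
    · linarith
    · have := h3 j; linarith

variable {B : Type} [CommRing B] [Algebra ℂ B] [Algebra B K] (P : QB Q B)

/-- values of `b ∈ B` on the punctured polydisc -/
theorem QB.bound_PS (h0 : D.i₀ = 0) (b : B) : ∃ (C : ℝ) (m k : ℕ), 0 < C ∧ ∀ y,
    ∀ ζ ∈ PS d (Q.r y), ‖P.σ y ζ b‖ ≤ C * (1 / ‖ζ 0‖) ^ m * (1 / Q.r y) ^ k := by
  obtain ⟨C, m, k, hC, h⟩ := P.bound h0 b
  refine ⟨C, m, k, hC, fun y ζ hζ => ?_⟩
  have hζ0 : 0 < ‖ζ 0‖ := norm_pos_iff.2 hζ.1
  have h1 := Q.le_of_mul_rr y (by positivity) (h y ζ hζ)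
  rw [one_div ‖ζ 0‖, inv_pow, mul_right_comm, ← div_eq_mul_inv, le_div_iff₀ (by positivity)]
  exact h1


end bounds

/-! ### logarithmic bounds -/

lemma log_le_of_le {v C r : ℝ} {k : ℕ} (hv : 0 < v) (hC : 1 ≤ C) (hr : 0 < r) (hr1 : r ≤ 1)
    (h : v ≤ C * (1 / r) ^ k) : Real.log v ≤ (Real.log C + k) * (1 + Real.log (1 / r)) := by
  have h1r : 1 ≤ 1 / r := by rw [le_div_iff₀ hr]; linarith
  have hl : 0 ≤ Real.log (1 / r) := Real.log_nonneg h1r
  have hC0 : 0 ≤ Real.log C := Real.log_nonneg hC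
  have h1 : Real.log v ≤ Real.log C + k * Real.log (1 / r) := by
    calc Real.log v ≤ Real.log (C * (1 / r) ^ k) := Real.log_le_log hv h
      _ = _ := by rw [Real.log_mul (by positivity) (by positivity), Real.log_pow]
  have hk : (0 : ℝ) ≤ k := Nat.cast_nonneg k
  nlinarith [mul_nonneg hC0 hl]


/-- logarithmic bound of a good function on the shell, both sides -/
theorem QGood.log_bound {D : DivModel (d + 1) K} {X : DivMdl D} {S : Finset D.A} {Q : QS D X S}
    {f : K} {a : ℤ} {G : X.M.Pts → Cn (d + 1) → ℂ} (hG : QGood Q f a G) :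
    ∃ A : ℝ, 0 ≤ A ∧ ∀ y, ∀ ζ ∈ Sh d (Q.r y),
      |Real.log (‖ζ 0 ^ a * G y ζ‖ ^ 2)| ≤ A * (1 + Real.log (1 / Q.r y)) := by
  obtain ⟨C, k, hC, h⟩ := hG.bound
  have hlC := Real.log_nonneg hC
  have hk : (0 : ℝ) ≤ k := Nat.cast_nonneg k
  refine ⟨2 * (2 * |(a : ℝ)| + (Real.log C + k)), by positivity, fun y ζ hζ => ?_⟩
  have hr := Q.r_pos y
  have hr1 := Q.r_le_one y
  have h1r : 1 ≤ 1 / Q.r y := by rw [le_div_iff₀ hr]; linarith
  set L := Real.log (1 / Q.r y) with hL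
  have hL0 : 0 ≤ L := Real.log_nonneg h1r
  have hζb := ((mem_PS_iff hr).1 (Sh_subset_PS hr hζ)).1
  obtain ⟨e1, e2⟩ := h y ζ hζb
  have hG0 : 0 < ‖G y ζ‖ := norm_pos_iff.2 (hG.ne hζb)
  have h1 : 0 < ‖ζ 0‖ := by have := hζ.1; linarith
  have h2 : ‖ζ 0‖ ≤ 1 := by have := hζ.2.1; linarith
  -- the coordinate
  have e3 : |Real.log ‖ζ 0‖| ≤ 2 * (1 + L) := by
    rw [abs_le]
    constructor
    · have h3 : Real.log (Q.r y / 4) ≤ Real.log ‖ζ 0‖ :=
        Real.log_le_log (by positivity) hζ.1.le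
      have h4 : Real.log (Q.r y / 4) = -L - Real.log 4 := by
        rw [Real.log_div hr.ne' (by norm_num), hL, one_div, Real.log_inv]; ring
      have h5 : Real.log 4 ≤ 2 := by
        have h6 : (4 : ℝ) = 2 ^ 2 := by norm_num
        rw [h6, Real.log_pow]
        have := Real.log_two_lt_d9
        push_cast
        linarith
      linarith
    · have := Real.log_nonpos h1.le h2
      linarith
  -- the unit
  have e4 : |Real.log ‖G y ζ‖| ≤ (Real.log C + k) * (1 + L) := by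
    rw [abs_le]
    constructor
    · have h3 : ‖G y ζ‖⁻¹ ≤ C * (1 / Q.r y) ^ k := by
        have h4 := inv_anti₀ (by positivity) e1
        refine h4.trans (le_of_eq ?_)
        rw [mul_inv, inv_inv, one_div, inv_pow]
      have h4 := log_le_of_le (inv_pos.2 hG0) hC hr hr1 h3
      rw [Real.log_inv] at h4
      linarith
    · exact log_le_of_le hG0 hC hr hr1 e2
  have e5 : Real.log (‖ζ 0 ^ a * G y ζ‖ ^ 2) = 2 * (a * Real.log ‖ζ 0‖ + Real.log ‖G y ζ‖) := by
    rw [Real.log_pow, norm_mul, norm_zpow, Real.log_mul (zpow_ne_zero _ h1.ne') hG0.ne',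
      Real.log_zpow]
    push_cast
    ring
  rw [e5, abs_mul, abs_of_pos (by norm_num : (0 : ℝ) < 2)]
  calc 2 * |a * Real.log ‖ζ 0‖ + Real.log ‖G y ζ‖|
      ≤ 2 * (|(a : ℝ)| * |Real.log ‖ζ 0‖| + |Real.log ‖G y ζ‖|) := by
        have := abs_add_le (a * Real.log ‖ζ 0‖) (Real.log ‖G y ζ‖)
        rw [abs_mul] at this
        linarith
    _ ≤ 2 * (|(a : ℝ)| * (2 * (1 + L)) + (Real.log C + k) * (1 + L)) := by gcongr
    _ = _ := by ring



end Crest.Agent.R276.Bcq_828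
end
namespace Crest.Agent.R276.Bcq_828.BD
end Crest.Agent.R276.Bcq_828.BD
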