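import Crest.Agent.R276.IpcDefs_735

/-!
# Row 276, leaf DISC (helper651), part A : linear algebra of polarised Hodge structures with lattice

`hq w S E v = re (vᴴ S (-1)^E v)` is positive definite; isometries given by integral matrices between
Hodge structures with bounded Hodge metrics form a finite set; Minkowski's lemma.
-/

set_option autoImplicit false

noncomputable section

open Set Filter Topology Matrix
open Crest.Agent.R276.Ipc735

namespace Crest.Agent.R276.DiscA_651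

variable {N : ℕ}

abbrev Mt (N : ℕ) := Matrix (Fin N) (Fin N) ℂ

/-! ### integral matrices -/

lemma cm_mul (g h : GL (Fin N) ℤ) : cm (g * h) = cm g * cm h := by
  unfold cm
  rw [Units.val_mul, ← Int.coe_castRingHom, Matrix.map_mul]

@[simp] lemma cm_one : cm (1 : GL (Fin N) ℤ) = 1 := by
  unfold cm
  rw [Units.val_one]
  exact Matrix.map_one _ Int.cast_zero Int.cast_one

@[simp] lemma cm_mul_inv (g : GL (Fin N) ℤ) : cm g * cm g⁻¹ = 1 := by
  rw [← cm_mul, mul_inv_cancel, cm_one]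

@[simp] lemma cm_inv_mul (g : GL (Fin N) ℤ) : cm g⁻¹ * cm g = 1 := by
  rw [← cm_mul, inv_mul_cancel, cm_one]


lemma cm_apply (g : GL (Fin N) ℤ) (i j : Fin N) :
    cm g i j = ((g : Matrix (Fin N) (Fin N) ℤ) i j : ℂ) := rfl

/-! ### the projectors of a Hodge structure -/

/-- the Lagrange polynomial -/
def lb (w p : ℕ) : Polynomial ℂ := Lagrange.basis (Finset.range (w + 1)) (fun q : ℕ => (q : ℂ)) p

lemma injN (s : Set ℕ) : Set.InjOn (fun q : ℕ => (q : ℂ)) s := fun _ _ _ _ h =>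
  Nat.cast_injective h

lemma sum_lb (w : ℕ) : ∑ p ∈ Finset.range (w + 1), lb w p = 1 :=
  Lagrange.sum_basis (injN _) ⟨0, by simp⟩

/-- `(X - p) ℓ_p` is a multiple of the nodal polynomial -/
lemma nodal_dvd (w p : ℕ) (hp : p ∈ Finset.range (w + 1)) :
    (∏ q ∈ Finset.range (w + 1), (Polynomial.X - Polynomial.C (q : ℂ))) ∣
      (Polynomial.X - Polynomial.C (p : ℂ)) * lb w p := by
  unfold lb Lagrange.basis
  have h : ∏ j ∈ (Finset.range (w + 1)).erase p, Lagrange.basisDivisor (p : ℂ) (j : ℂ) =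
      Polynomial.C (∏ j ∈ (Finset.range (w + 1)).erase p, ((p : ℂ) - (j : ℂ))⁻¹) *
        ∏ j ∈ (Finset.range (w + 1)).erase p, (Polynomial.X - Polynomial.C (j : ℂ)) := by
    simp only [Lagrange.basisDivisor, Finset.prod_mul_distrib, map_prod]
  rw [h, ← Finset.mul_prod_erase _ _ hp]
  exact ⟨Polynomial.C (∏ j ∈ (Finset.range (w + 1)).erase p, ((p : ℂ) - (j : ℂ))⁻¹), by ring⟩

variable {w : ℕ} {S E : Mt N}

lemma hpr_eq (w p : ℕ) (E : Mt N) : hpr w p E = Polynomial.aeval E (lb w p) := rfl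

lemma sum_hpr (w : ℕ) (E : Mt N) : ∑ p ∈ Finset.range (w + 1), hpr w p E = 1 := by
  simp only [hpr_eq]
  rw [← map_sum, sum_lb, map_one]

lemma mul_hpr (h : IsHS w S E) {p : ℕ} (hp : p ∈ Finset.range (w + 1)) :
    E * hpr w p E = (p : ℂ) • hpr w p E := by
  obtain ⟨c, hc⟩ := nodal_dvd w p hp
  have h1 := congrArg (Polynomial.aeval E) hc
  rw [map_mul, map_mul, h.eig, zero_mul, map_sub, Polynomial.aeval_X, Polynomial.aeval_C,
    sub_mul, sub_eq_zero] at h1
  rw [hpr_eq, h1, Algebra.algebraMap_eq_smul_one, smul_mul_assoc, one_mul]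

/-- orthogonality of the types -/
lemma orth (h : IsHS w S E) {p q : ℕ} (hp : p ∈ Finset.range (w + 1))
    (hq : q ∈ Finset.range (w + 1)) (hpq : p ≠ q) : (hpr w p E)ᴴ * S * hpr w q E = 0 := by
  have h1 : (hpr w p E)ᴴ * S * (E * hpr w q E) = (q : ℂ) • ((hpr w p E)ᴴ * S * hpr w q E) := by
    rw [mul_hpr h hq, Matrix.mul_smul]
  have h2 : (hpr w p E)ᴴ * S * (E * hpr w q E) = (p : ℂ) • ((hpr w p E)ᴴ * S * hpr w q E) := by
    have h3 : (hpr w p E)ᴴ * S * (E * hpr w q E) = ((hpr w p E)ᴴ * (S * E)) * hpr w q E := by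
      simp only [Matrix.mul_assoc]
    have h4 : (hpr w p E)ᴴ * Eᴴ = (p : ℂ) • (hpr w p E)ᴴ := by
      rw [← Matrix.conjTranspose_mul, mul_hpr h hp, Matrix.conjTranspose_smul]
      simp
    rw [h3, h.adj, ← Matrix.mul_assoc, h4, Matrix.smul_mul, Matrix.smul_mul]
  have h5 : ((q : ℂ) - p) • ((hpr w p E)ᴴ * S * hpr w q E) = 0 := by
    rw [sub_smul, ← h1, ← h2, sub_self]
  rcases smul_eq_zero.mp h5 with h6 | h6
  · exfalso
    apply hpq
    have : (q : ℂ) = p := sub_eq_zero.mp h6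
    exact_mod_cast this.symm
  · exact h6

/-- the Hodge quadratic form -/
def hq (w : ℕ) (S E : Mt N) (v : Fin N → ℂ) : ℝ := (star v ⬝ᵥ (hodge w S E *ᵥ v)).re

lemma hodge_eq_sum (w : ℕ) (S E : Mt N) :
    hodge w S E = ∑ p ∈ Finset.range (w + 1), (-1 : ℂ) ^ p • (S * hpr w p E) := by
  simp only [hodge, weil, Finset.mul_sum, Matrix.mul_smul]

lemma hodge_diag (h : IsHS w S E) :
    hodge w S E = ∑ p ∈ Finset.range (w + 1), (-1 : ℂ) ^ p • ((hpr w p E)ᴴ * S * hpr w p E) := by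
  rw [hodge_eq_sum]
  refine Finset.sum_congr rfl fun p hp => ?_
  congr 1
  have h1 : S * hpr w p E = (∑ q ∈ Finset.range (w + 1), hpr w q E)ᴴ * (S * hpr w p E) := by
    rw [sum_hpr]; simp
  rw [h1, Matrix.conjTranspose_sum, Finset.sum_mul, Finset.sum_eq_single p]
  · rw [Matrix.mul_assoc]
  · intro q hq hqp
    rw [← Matrix.mul_assoc]
    exact orth h hq hp hqp
  · intro hn; exact absurd hp hn

lemma hq_eq_sum (h : IsHS w S E) (v : Fin N → ℂ) :
    hq w S E v = ∑ p ∈ Finset.range (w + 1),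
      (-1 : ℝ) ^ p * (star (hpr w p E *ᵥ v) ⬝ᵥ (S *ᵥ (hpr w p E *ᵥ v))).re := by
  unfold hq
  rw [hodge_diag h, Matrix.sum_mulVec, dotProduct_sum, Complex.re_sum]
  refine Finset.sum_congr rfl fun p _ => ?_
  rw [Matrix.smul_mulVec, dotProduct_smul, smul_eq_mul]
  have h1 : star v ⬝ᵥ (((hpr w p E)ᴴ * S * hpr w p E) *ᵥ v) =
      star (hpr w p E *ᵥ v) ⬝ᵥ (S *ᵥ (hpr w p E *ᵥ v)) := by
    rw [Matrix.star_mulVec, ← Matrix.dotProduct_mulVec, Matrix.mulVec_mulVec, Matrix.mulVec_mulVec,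
      Matrix.mul_assoc]
  rw [h1]
  have h2 : ((-1 : ℂ) ^ p) = (((-1 : ℝ) ^ p : ℝ) : ℂ) := by push_cast; ring
  rw [h2, Complex.re_ofReal_mul]

lemma hq_pos (h : IsHS w S E) {v : Fin N → ℂ} (hv : v ≠ 0) : 0 < hq w S E v := by
  rw [hq_eq_sum h]
  have hterm : ∀ p ∈ Finset.range (w + 1), ∀ u : Fin N → ℂ, u = hpr w p E *ᵥ v → u ≠ 0 →
      0 < (-1 : ℝ) ^ p * (star u ⬝ᵥ (S *ᵥ u)).re := by
    intro p hp u hu hu0
    refine h.pos p u (by have := Finset.mem_range.mp hp; omega) hu0 ?_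
    rw [hu, Matrix.mulVec_mulVec, mul_hpr h hp, Matrix.smul_mulVec]
  have hnn : ∀ p ∈ Finset.range (w + 1),
      0 ≤ (-1 : ℝ) ^ p * (star (hpr w p E *ᵥ v) ⬝ᵥ (S *ᵥ (hpr w p E *ᵥ v))).re := by
    intro p hp
    by_cases h0 : hpr w p E *ᵥ v = 0
    · simp [h0]
    · exact (hterm p hp _ rfl h0).le
  apply Finset.sum_pos' hnn
  by_contra hcon
  push Not at hcon
  apply hv
  have h0 : ∀ p ∈ Finset.range (w + 1), hpr w p E *ᵥ v = 0 := by
    intro p hp
    by_contra hne
    exact absurd (hterm p hp _ rfl hne) (not_lt.mpr (hcon p hp))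
  have h1 : (∑ p ∈ Finset.range (w + 1), hpr w p E) *ᵥ v = v := by rw [sum_hpr, one_mulVec]
  rw [← h1, Matrix.sum_mulVec]
  exact Finset.sum_eq_zero h0

/-! ### conjugation -/

lemma aeval_comm {A E E' : Mt N} (h : A * E' = E * A) (f : Polynomial ℂ) :
    A * Polynomial.aeval E' f = Polynomial.aeval E f * A := by
  induction f using Polynomial.induction_on' with
  | add f g hf hg => rw [map_add, map_add, mul_add, add_mul, hf, hg]
  | monomial n a =>
    rw [Polynomial.aeval_monomial, Polynomial.aeval_monomial, Algebra.algebraMap_eq_smul_one]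
    have : ∀ n : ℕ, A * E' ^ n = E ^ n * A := by
      intro n
      induction n with
      | zero => simp
      | succ k ih => rw [pow_succ, ← mul_assoc, ih, mul_assoc, h, ← mul_assoc, ← pow_succ]
    rw [smul_mul_assoc, one_mul, Matrix.mul_smul, this n, smul_mul_assoc, one_mul, Matrix.smul_mul]

lemma hpr_comm {A E E' : Mt N} (h : A * E' = E * A) (w p : ℕ) :
    A * hpr w p E' = hpr w p E * A := aeval_comm h _

lemma weil_comm {A E E' : Mt N} (h : A * E' = E * A) (w : ℕ) :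
    A * weil w E' = weil w E * A := by
  unfold weil
  rw [Finset.mul_sum, Finset.sum_mul]
  refine Finset.sum_congr rfl fun p _ => ?_
  rw [Matrix.mul_smul, Matrix.smul_mul, hpr_comm h]

/-- an intertwiner compatible with the polarisations is an isometry of the Hodge metrics -/
lemma hodge_conj {A S S' E E' : Mt N} (h : A * E' = E * A) (hS : Aᴴ * S * A = S') (w : ℕ) :
    hodge w S' E' = Aᴴ * hodge w S E * A := by
  unfold hodge
  rw [← hS, Matrix.mul_assoc (Aᴴ * S) A, weil_comm h]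
  simp only [Matrix.mul_assoc]

lemma hq_conj {A S S' E E' : Mt N} (h : A * E' = E * A) (hS : Aᴴ * S * A = S') (w : ℕ)
    (v : Fin N → ℂ) : hq w S' E' v = hq w S E (A *ᵥ v) := by
  unfold hq
  rw [hodge_conj h hS, Matrix.star_mulVec, ← Matrix.dotProduct_mulVec, Matrix.mulVec_mulVec,
    Matrix.mulVec_mulVec, Matrix.mul_assoc]

/-! ### continuity and bounds -/

lemma continuous_aeval (f : Polynomial ℂ) : Continuous fun E : Mt N => Polynomial.aeval E f := by
  induction f using Polynomial.induction_on' with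
  | add f g hf hg =>
    simp only [map_add]
    exact Continuous.add hf hg
  | monomial n a =>
    simp only [Polynomial.aeval_monomial]
    exact continuous_const.mul (continuous_pow n)

lemma continuous_hpr (w p : ℕ) : Continuous fun E : Mt N => hpr w p E := continuous_aeval _

lemma continuous_weil (w : ℕ) : Continuous fun E : Mt N => weil w E := by
  unfold weil
  refine continuous_finsetSum _ fun p _ => ?_
  exact Continuous.const_smul (continuous_hpr w p) ((-1 : ℂ) ^ p)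

lemma continuous_hodge (w : ℕ) : Continuous fun q : Mt N × Mt N => hodge w q.1 q.2 := by
  unfold hodge
  exact continuous_fst.mul ((continuous_weil w).comp continuous_snd)

lemma continuous_hq (w : ℕ) :
    Continuous fun q : (Mt N × Mt N) × (Fin N → ℂ) => hq w q.1.1 q.1.2 q.2 := by
  unfold hq
  apply Complex.continuous_re.comp
  apply Continuous.dotProduct
  · exact continuous_snd.star
  · exact ((continuous_hodge w).comp continuous_fst).matrix_mulVec continuous_snd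

lemma hq_smul (w : ℕ) (S E : Mt N) (t : ℝ) (v : Fin N → ℂ) :
    hq w S E (((t : ℂ)) • v) = t ^ 2 * hq w S E v := by
  unfold hq
  rw [Matrix.mulVec_smul, dotProduct_smul, star_smul, smul_dotProduct]
  simp only [smul_eq_mul, Complex.star_def, Complex.conj_ofReal]
  rw [Complex.re_ofReal_mul, Complex.re_ofReal_mul]
  ring

/-- compactness: a family of quadratic functions, positive at one parameter, is uniformly bounded below
and above near that parameter -/
lemma exists_bounds_aux {Y V : Type*} [TopologicalSpace Y] [NormedAddCommGroup V] [NormedSpace ℝ V]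
    [ProperSpace V] (f : Y → V → ℝ) (hf : Continuous fun q : Y × V => f q.1 q.2)
    (hs : ∀ y (t : ℝ) v, f y (t • v) = t ^ 2 * f y v) (y0 : Y) (h0 : ∀ v, v ≠ 0 → 0 < f y0 v) :
    ∃ c > 0, ∃ C > 0, ∀ᶠ y in 𝓝 y0, (∀ v, c * ‖v‖ ^ 2 ≤ f y v) ∧ ∀ v, f y v ≤ C * ‖v‖ ^ 2 := by
  have hz : ∀ y, f y 0 = 0 := fun y => by
    have := hs y 0 0
    simpa using this
  by_cases hne : (Metric.sphere (0 : V) 1).Nonempty
  swap
  · have h1 : ∀ v : V, v = 0 := by
      intro v
      by_contra hv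
      apply hne
      refine ⟨‖v‖⁻¹ • v, ?_⟩
      rw [mem_sphere_zero_iff_norm, norm_smul, norm_inv, norm_norm]
      exact inv_mul_cancel₀ (norm_pos_iff.mpr hv).ne'
    refine ⟨1, one_pos, 1, one_pos, Filter.Eventually.of_forall fun q => ⟨fun v => ?_, fun v => ?_⟩⟩
    · rw [h1 v, hz]; simp
    · rw [h1 v, hz]; simp
  have hK : IsCompact (Metric.sphere (0 : V) 1) := isCompact_sphere _ _
  have hc0 : ContinuousOn (fun v => f y0 v) (Metric.sphere (0 : V) 1) :=
    (hf.comp (Continuous.prodMk continuous_const continuous_id)).continuousOn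
  obtain ⟨v0, hv0, hmin⟩ := hK.exists_isMinOn hne hc0
  obtain ⟨v1, hv1, hmax⟩ := hK.exists_isMaxOn hne hc0
  have hv0' : v0 ≠ 0 := by
    intro h0; rw [h0] at hv0; simp at hv0
  have hpos : 0 < f y0 v0 := h0 v0 hv0'
  have hpos1 : 0 < f y0 v1 := lt_of_lt_of_le hpos (hmax hv0)
  refine ⟨f y0 v0 / 2, by positivity, 2 * f y0 v1, by positivity, ?_⟩
  have hev : ∀ᶠ q in 𝓝 y0, ∀ v ∈ Metric.sphere (0 : V) 1,
      f y0 v0 / 2 < f q v ∧ f q v < 2 * f y0 v1 := by
    apply hK.eventually_forall_of_forall_eventually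
    intro v hv
    have h1 : f y0 v0 / 2 < f y0 v :=
      lt_of_lt_of_le (by linarith) (hmin hv)
    have h2 : f y0 v < 2 * f y0 v1 :=
      lt_of_le_of_lt (hmax hv) (by linarith)
    have hcont : ContinuousAt (fun z : Y × V => f z.1 z.2) (y0, v) := hf.continuousAt
    exact (hcont.eventually (lt_mem_nhds h1)).and (hcont.eventually (gt_mem_nhds h2))
  filter_upwards [hev] with q hq'
  have key : ∀ v : V, v ≠ 0 → f y0 v0 / 2 * ‖v‖ ^ 2 ≤ f q v ∧
      f q v ≤ 2 * f y0 v1 * ‖v‖ ^ 2 := by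
    intro v hv
    have hn : 0 < ‖v‖ := norm_pos_iff.mpr hv
    have hu : ‖v‖⁻¹ • v ∈ Metric.sphere (0 : V) 1 := by
      rw [mem_sphere_zero_iff_norm, norm_smul, norm_inv, norm_norm]
      exact inv_mul_cancel₀ hn.ne'
    have h1 := hq' _ hu
    rw [hs] at h1
    have h2 : ‖v‖ ^ 2 * (‖v‖⁻¹ ^ 2 * f q v) = f q v := by
      field_simp
    constructor
    · have := mul_le_mul_of_nonneg_left h1.1.le (sq_nonneg ‖v‖)
      rw [h2] at this; linarith
    · have := mul_le_mul_of_nonneg_left h1.2.le (sq_nonneg ‖v‖)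
      rw [h2] at this; linarith
  constructor
  · intro v
    by_cases hv : v = 0
    · rw [hv, hz]; simp
    · exact (key v hv).1
  · intro v
    by_cases hv : v = 0
    · rw [hv, hz]; simp
    · exact (key v hv).2

/-- near a Hodge structure the Hodge metrics are uniformly bounded below and above -/
lemma exists_bounds {S0 E0 : Mt N} (h : IsHS w S0 E0) :
    ∃ c > 0, ∃ C > 0, ∀ᶠ q : Mt N × Mt N in 𝓝 (S0, E0),
      (∀ v, c * ‖v‖ ^ 2 ≤ hq w q.1 q.2 v) ∧ ∀ v, hq w q.1 q.2 v ≤ C * ‖v‖ ^ 2 := by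
  refine exists_bounds_aux (fun (q : Mt N × Mt N) (v : Fin N → ℂ) => hq w q.1 q.2 v)
    (continuous_hq w) ?_ (S0, E0) fun v hv => hq_pos h hv
  intro q t v
  have := hq_smul w q.1 q.2 t v
  rwa [Complex.coe_smul] at this

/-! ### finiteness of integral isometries -/

/-- the integral matrices with entries bounded by `n` -/
lemma finite_entries (n : ℕ) :
    {g : GL (Fin N) ℤ | ∀ i j, |(g : Matrix (Fin N) (Fin N) ℤ) i j| ≤ n}.Finite := by
  have h1 : (Set.pi Set.univ fun _ : Fin N => Set.pi Set.univ fun _ : Fin N =>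
      Set.Icc (-(n : ℤ)) n).Finite :=
    Set.Finite.pi fun _ => Set.Finite.pi fun _ => Set.finite_Icc _ _
  refine Set.Finite.of_finite_image (f := fun g : GL (Fin N) ℤ =>
    ((g : Matrix (Fin N) (Fin N) ℤ) : Fin N → Fin N → ℤ)) (h1.subset ?_) ?_
  · rintro _ ⟨g, hg, rfl⟩
    intro i _ j _
    exact abs_le.mp (hg i j)
  · intro g _ h _ e
    exact Units.ext e

/-- integral isometries between two families of bounded Hodge metrics form a finite set -/
lemma finite_isom (w : ℕ) (c C : ℝ) (hc : 0 < c) :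
    {g : GL (Fin N) ℤ | ∃ S E S' E' : Mt N, (∀ v, c * ‖v‖ ^ 2 ≤ hq w S E v) ∧
      (∀ v, hq w S' E' v ≤ C * ‖v‖ ^ 2) ∧ cm g * E' = E * cm g ∧
      (cm g)ᴴ * S * cm g = S'}.Finite := by
  refine (finite_entries ⌈Real.sqrt (C / c)⌉₊).subset ?_
  rintro g ⟨S, E, S', E', hlow, hup, hE, hS⟩
  intro i j
  have h1 : c * ‖cm g *ᵥ (Pi.single j 1)‖ ^ 2 ≤ C * 1 := by
    calc c * ‖cm g *ᵥ (Pi.single j 1)‖ ^ 2 ≤ hq w S E (cm g *ᵥ (Pi.single j 1)) := hlow _
      _ = hq w S' E' (Pi.single j 1) := (hq_conj hE hS w _).symm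
      _ ≤ C * ‖(Pi.single j 1 : Fin N → ℂ)‖ ^ 2 := hup _
      _ = C * 1 := by rw [Pi.norm_single]; simp
  have h2 : ‖cm g i j‖ ≤ ‖cm g *ᵥ (Pi.single j 1)‖ := by
    have := norm_le_pi_norm (cm g *ᵥ (Pi.single j 1)) i
    simpa [Matrix.mulVec_single_one] using this
  have h3 : ‖cm g i j‖ ^ 2 ≤ C / c := by
    rw [le_div_iff₀ hc]
    have h4 : ‖cm g i j‖ ^ 2 ≤ ‖cm g *ᵥ (Pi.single j 1)‖ ^ 2 :=
      pow_le_pow_left₀ (norm_nonneg _) h2 2
    nlinarith
  have h5 : ‖cm g i j‖ ≤ Real.sqrt (C / c) := Real.le_sqrt_of_sq_le h3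
  have h6 : ‖cm g i j‖ = |(((g : Matrix (Fin N) (Fin N) ℤ) i j : ℤ) : ℝ)| := by
    rw [cm_apply, Complex.norm_intCast]
  have h7 : ((|(g : Matrix (Fin N) (Fin N) ℤ) i j| : ℤ) : ℝ) ≤ (⌈Real.sqrt (C / c)⌉₊ : ℝ) := by
    push_cast
    rw [← h6]
    exact h5.trans (Nat.le_ceil _)
  exact_mod_cast h7

end Crest.Agent.R276.DiscA_651
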