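import Mathlib
import Crest.Agent.R276.IpcDefs_735
import Crest.Agent.R276.VCalcC_442

/-!
# Row 276, IPC: calculus of the frozen definitions (helper735)
-/

set_option autoImplicit false

noncomputable section

open Set Filter Topology MeasureTheory Matrix Polynomial
open Crest.Agent.R271.Ho51
open scoped ComplexOrder

namespace Crest.Agent.R276.Ipc735

/-! ### integral matrices as complex matrices -/

section cm

variable {N : ℕ}

@[simp] lemma cm_one : cm (1 : GL (Fin N) ℤ) = 1 := by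
  unfold cm
  simp [Matrix.map_one]

lemma cm_mul (g h : GL (Fin N) ℤ) : cm (g * h) = cm g * cm h := by
  unfold cm
  ext i j
  simp [Matrix.mul_apply]

@[simp] lemma cm_mul_cm_inv (g : GL (Fin N) ℤ) : cm g * cm g⁻¹ = 1 := by
  rw [← cm_mul, mul_inv_cancel, cm_one]

@[simp] lemma cm_inv_mul_cm (g : GL (Fin N) ℤ) : cm g⁻¹ * cm g = 1 := by
  rw [← cm_mul, inv_mul_cancel, cm_one]




@[simp] lemma cm_inv_mulVec (g : GL (Fin N) ℤ) (v : Fin N → ℂ) : cm g⁻¹ *ᵥ (cm g *ᵥ v) = v := by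
  rw [Matrix.mulVec_mulVec, cm_inv_mul_cm, Matrix.one_mulVec]

@[simp] lemma cm_mulVec_inv (g : GL (Fin N) ℤ) (v : Fin N → ℂ) : cm g *ᵥ (cm g⁻¹ *ᵥ v) = v := by
  rw [Matrix.mulVec_mulVec, cm_mul_cm_inv, Matrix.one_mulVec]

lemma cm_mulVec_injective (g : GL (Fin N) ℤ) : Function.Injective (cm g).mulVec := by
  intro v w h
  have := congrArg (cm g⁻¹ *ᵥ ·) h
  simpa using this

end cm

/-! ### projectors -/

section proj

variable {N w : ℕ} {S E : Matrix (Fin N) (Fin N) ℂ}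

lemma injOn_cast (s : Set ℕ) : Set.InjOn (fun q : ℕ => (q : ℂ)) s :=
  fun _ _ _ _ h => Nat.cast_injective h

lemma aeval_eq_zero (hE : Polynomial.aeval E (∏ p ∈ Finset.range (w + 1),
    (Polynomial.X - Polynomial.C (p : ℂ))) = 0) {f : ℂ[X]}
    (hf : ∀ p ≤ w, f.eval (p : ℂ) = 0) : aeval E f = 0 := by
  have h1 : (∏ p ∈ Finset.range (w + 1), (Polynomial.X - Polynomial.C (p : ℂ))) ∣ f := by
    refine Finset.prod_dvd_of_coprime ?_ ?_
    · intro p _ q _ hpq
      exact Polynomial.isCoprime_X_sub_C_of_isUnit_sub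
        (IsUnit.mk0 _ (sub_ne_zero.mpr (fun h => hpq (Nat.cast_injective h))))
    · intro p hp
      exact Polynomial.dvd_iff_isRoot.mpr (hf p (Nat.lt_succ_iff.mp (Finset.mem_range.mp hp)))
  obtain ⟨g, rfl⟩ := h1
  rw [map_mul, hE, zero_mul]

lemma aeval_congr (hE : Polynomial.aeval E (∏ p ∈ Finset.range (w + 1),
    (Polynomial.X - Polynomial.C (p : ℂ))) = 0) {f g : ℂ[X]}
    (hf : ∀ p ≤ w, f.eval (p : ℂ) = g.eval (p : ℂ)) : aeval E f = aeval E g := by
  rw [← sub_eq_zero, ← map_sub]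
  refine aeval_eq_zero hE fun p hp => ?_
  rw [eval_sub, hf p hp, sub_self]

/-- the Lagrange basis used in `hpr` -/
abbrev lb (w p : ℕ) : ℂ[X] := Lagrange.basis (Finset.range (w + 1)) (fun q : ℕ => (q : ℂ)) p

lemma hpr_eq (w p : ℕ) (E : Matrix (Fin N) (Fin N) ℂ) : hpr w p E = aeval E (lb w p) := rfl

lemma lb_eval {w p q : ℕ} (hp : p ≤ w) (hq : q ≤ w) :
    (lb w p).eval (q : ℂ) = if p = q then 1 else 0 := by
  split_ifs with h
  · subst h
    exact Lagrange.eval_basis_self (v := fun q : ℕ => (q : ℂ)) (injOn_cast _)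
      (Finset.mem_range.mpr (by omega))
  · exact Lagrange.eval_basis_of_ne (v := fun q : ℕ => (q : ℂ)) h (Finset.mem_range.mpr (by omega))

lemma sum_lb (w : ℕ) : ∑ p ∈ Finset.range (w + 1), lb w p = 1 :=
  Lagrange.sum_basis (v := fun q : ℕ => (q : ℂ)) (injOn_cast _) ⟨0, by simp⟩

lemma sum_hpr (w : ℕ) (E : Matrix (Fin N) (Fin N) ℂ) :
    ∑ p ∈ Finset.range (w + 1), hpr w p E = 1 := by
  simp only [hpr_eq]
  rw [← map_sum, sum_lb, map_one]

namespace IsHS

lemma hpr_mul_self (h : IsHS w S E) {p : ℕ} (hp : p ≤ w) : hpr w p E * hpr w p E = hpr w p E := by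
  rw [hpr_eq, ← map_mul]
  refine aeval_congr h.eig fun q hq => ?_
  rw [eval_mul, lb_eval hp hq]
  split_ifs <;> simp

lemma hpr_mul_of_ne (h : IsHS w S E) {p q : ℕ} (hp : p ≤ w) (hq : q ≤ w) (hpq : p ≠ q) :
    hpr w p E * hpr w q E = 0 := by
  rw [hpr_eq, hpr_eq, ← map_mul]
  refine aeval_eq_zero h.eig fun r hr => ?_
  rw [eval_mul, lb_eval hp hr, lb_eval hq hr]
  split_ifs with h1 h2
  · exact absurd (h1.trans h2.symm) hpq
  all_goals simp

lemma E_mul_hpr (h : IsHS w S E) {p : ℕ} (hp : p ≤ w) : E * hpr w p E = (p : ℂ) • hpr w p E := by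
  have h1 : E * hpr w p E = aeval E (X * lb w p) := by rw [map_mul, aeval_X, hpr_eq]
  have h2 : (p : ℂ) • hpr w p E = aeval E ((C (p : ℂ)) * lb w p) := by
    rw [map_mul, aeval_C, hpr_eq, Algebra.algebraMap_eq_smul_one, smul_mul_assoc, one_mul]
  rw [h1, h2]
  refine aeval_congr h.eig fun q hq => ?_
  rw [eval_mul, eval_mul, eval_X, eval_C, lb_eval hp hq]
  split_ifs with h3
  · rw [h3]
  · simp

lemma hpr_mul_E (h : IsHS w S E) {p : ℕ} (hp : p ≤ w) : hpr w p E * E = (p : ℂ) • hpr w p E := by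
  rw [← h.E_mul_hpr hp, hpr_eq]
  have h1 : E * aeval E (lb w p) = aeval E (X * lb w p) := by rw [map_mul, aeval_X]
  have h2 : aeval E (lb w p) * E = aeval E (lb w p * X) := by rw [map_mul, aeval_X]
  rw [h1, h2, mul_comm]

lemma sum_smul_hpr (h : IsHS w S E) :
    ∑ p ∈ Finset.range (w + 1), (p : ℂ) • hpr w p E = E := by
  calc ∑ p ∈ Finset.range (w + 1), (p : ℂ) • hpr w p E
      = ∑ p ∈ Finset.range (w + 1), E * hpr w p E :=
        Finset.sum_congr rfl fun p hp => (h.E_mul_hpr (by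
          have := Finset.mem_range.mp hp; omega)).symm
    _ = E := by rw [← Finset.mul_sum, sum_hpr, mul_one]

/-- eigenvectors are fixed by their projector -/
lemma hpr_mulVec_of_eig (h : IsHS w S E) {p : ℕ} (hp : p ≤ w) {v : Fin N → ℂ}
    (hv : E *ᵥ v = (p : ℂ) • v) {q : ℕ} (hq : q ≤ w) :
    hpr w q E *ᵥ v = if q = p then v else 0 := by
  have key : ∀ r ≤ w, r ≠ p → hpr w r E *ᵥ v = 0 := by
    intro r hr hrp
    have h1 : (hpr w r E * E) *ᵥ v = (p : ℂ) • (hpr w r E *ᵥ v) := by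
      rw [← Matrix.mulVec_mulVec, hv, Matrix.mulVec_smul]
    rw [h.hpr_mul_E hr, Matrix.smul_mulVec] at h1
    have h2 : ((r : ℂ) - p) • (hpr w r E *ᵥ v) = 0 := by rw [sub_smul, h1, sub_self]
    rcases smul_eq_zero.mp h2 with h3 | h3
    · exact absurd (Nat.cast_injective (sub_eq_zero.mp h3)) hrp
    · exact h3
  split_ifs with hqp
  · subst hqp
    have h1 : (∑ r ∈ Finset.range (w + 1), hpr w r E) *ᵥ v = v := by
      rw [sum_hpr, Matrix.one_mulVec]
    rw [Matrix.sum_mulVec, Finset.sum_eq_single q] at h1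
    · exact h1
    · intro r hr hrq
      exact key r (by have := Finset.mem_range.mp hr; omega) hrq
    · intro h2
      exact absurd (Finset.mem_range.mpr (by omega)) h2
  · exact key q hq hqp

lemma E_mulVec_hpr (h : IsHS w S E) {p : ℕ} (hp : p ≤ w) (v : Fin N → ℂ) :
    E *ᵥ (hpr w p E *ᵥ v) = (p : ℂ) • (hpr w p E *ᵥ v) := by
  rw [Matrix.mulVec_mulVec, h.E_mul_hpr hp, Matrix.smul_mulVec]

lemma S_aeval (h : IsHS w S E) (f : ℂ[X]) : S * aeval E f = aeval Eᴴ f * S := by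
  induction f using Polynomial.induction_on' with
  | add f g hf hg => rw [map_add, map_add, mul_add, add_mul, hf, hg]
  | monomial n a =>
    rw [aeval_monomial, aeval_monomial, Algebra.algebraMap_eq_smul_one, smul_mul_assoc,
      smul_mul_assoc, smul_mul_assoc, one_mul, one_mul, mul_smul_comm]
    congr 1
    induction n with
    | zero => simp
    | succ n ih => rw [pow_succ', pow_succ', ← mul_assoc, h.adj, mul_assoc, ih, ← mul_assoc]

end IsHS

lemma aeval_ct (E : Matrix (Fin N) (Fin N) ℂ) (f : ℂ[X]) :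
    (aeval E f)ᴴ = aeval Eᴴ (f.map (starRingEnd ℂ)) := by
  induction f using Polynomial.induction_on' with
  | add f g hf hg => rw [map_add, Matrix.conjTranspose_add, hf, hg, Polynomial.map_add, map_add]
  | monomial n a =>
    rw [Polynomial.map_monomial, aeval_monomial, aeval_monomial, Matrix.conjTranspose_mul,
      Matrix.conjTranspose_pow, Algebra.algebraMap_eq_smul_one, Algebra.algebraMap_eq_smul_one,
      Matrix.conjTranspose_smul, Matrix.conjTranspose_one, mul_smul_comm, smul_mul_assoc, mul_one,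
      one_mul]
    rfl

lemma lb_map (w p : ℕ) : (lb w p).map (starRingEnd ℂ) = lb w p := by
  simp only [lb, Lagrange.basis, Lagrange.basisDivisor, Polynomial.map_prod, Polynomial.map_mul,
    Polynomial.map_C, Polynomial.map_sub, Polynomial.map_X, map_inv₀, map_sub, map_natCast,
    Polynomial.map_natCast]

lemma hpr_ct (w p : ℕ) (E : Matrix (Fin N) (Fin N) ℂ) : (hpr w p E)ᴴ = hpr w p Eᴴ := by
  rw [hpr_eq, aeval_ct, lb_map, hpr_eq]


namespace IsHS

lemma S_hpr (h : IsHS w S E) (p : ℕ) : S * hpr w p E = (hpr w p E)ᴴ * S := by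
  rw [hpr_ct, hpr_eq, h.S_aeval]; rfl

lemma S_weil (h : IsHS w S E) : S * weil w E = (weil w E)ᴴ * S := by
  unfold weil
  rw [Matrix.conjTranspose_sum, Finset.mul_sum, Finset.sum_mul]
  refine Finset.sum_congr rfl fun p _ => ?_
  rw [Matrix.conjTranspose_smul, mul_smul_comm, smul_mul_assoc, h.S_hpr]
  simp

lemma weil_mul_hpr (h : IsHS w S E) {p : ℕ} (hp : p ≤ w) :
    weil w E * hpr w p E = (-1 : ℂ) ^ p • hpr w p E := by
  unfold weil
  rw [Finset.sum_mul, Finset.sum_eq_single p]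
  · rw [smul_mul_assoc, h.hpr_mul_self hp]
  · intro q hq hqp
    rw [smul_mul_assoc, h.hpr_mul_of_ne (by have := Finset.mem_range.mp hq; omega) hp hqp,
      smul_zero]
  · intro h2
    exact absurd (Finset.mem_range.mpr (by omega)) h2

lemma weil_mulVec_of_eig (h : IsHS w S E) {p : ℕ} (hp : p ≤ w) {v : Fin N → ℂ}
    (hv : E *ᵥ v = (p : ℂ) • v) : weil w E *ᵥ v = (-1 : ℂ) ^ p • v := by
  have h1 : hpr w p E *ᵥ v = v := by rw [h.hpr_mulVec_of_eig hp hv hp, if_pos rfl]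
  rw [← h1, Matrix.mulVec_mulVec, h.weil_mul_hpr hp, Matrix.smul_mulVec]

lemma herm_re (h : IsHS w S E) (v : Fin N → ℂ) : (star v ⬝ᵥ S *ᵥ v).im = 0 := by
  have h1 : star (star v ⬝ᵥ S *ᵥ v) = star v ⬝ᵥ S *ᵥ v := by
    rw [← Matrix.star_dotProduct_star, star_star, Matrix.star_mulVec, ← Matrix.dotProduct_mulVec,
      h.herm.eq]
  have h2 := congrArg Complex.im h1
  rw [Complex.star_def, Complex.conj_im] at h2
  linarith

lemma hodge_term (h : IsHS w S E) (v : Fin N → ℂ) :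
    star v ⬝ᵥ hodge w S E *ᵥ v = ∑ p ∈ Finset.range (w + 1),
      (-1 : ℂ) ^ p * (star (hpr w p E *ᵥ v) ⬝ᵥ S *ᵥ (hpr w p E *ᵥ v)) := by
  have h1 : hodge w S E *ᵥ v = ∑ p ∈ Finset.range (w + 1),
      (-1 : ℂ) ^ p • (((hpr w p E)ᴴ * S * hpr w p E) *ᵥ v) := by
    unfold hodge weil
    rw [Finset.mul_sum, Matrix.sum_mulVec]
    refine Finset.sum_congr rfl fun p hp => ?_
    have hp' : p ≤ w := by have := Finset.mem_range.mp hp; omega
    rw [mul_smul_comm, Matrix.smul_mulVec]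
    congr 2
    rw [← h.S_hpr, mul_assoc, h.hpr_mul_self hp']
  rw [h1, dotProduct_sum]
  refine Finset.sum_congr rfl fun p _ => ?_
  rw [dotProduct_smul, smul_eq_mul]
  congr 1
  rw [← Matrix.mulVec_mulVec, ← Matrix.mulVec_mulVec, Matrix.dotProduct_mulVec, Matrix.star_mulVec]

lemma hodge_isHermitian (h : IsHS w S E) : (hodge w S E).IsHermitian := by
  unfold hodge
  rw [Matrix.IsHermitian, Matrix.conjTranspose_mul, h.herm.eq, ← h.S_weil]

/-- the Hodge metric is positive definite -/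
lemma hodge_posDef (h : IsHS w S E) : (hodge w S E).PosDef := by
  refine Matrix.PosDef.of_dotProduct_mulVec_pos h.hodge_isHermitian fun v hv => ?_
  rw [h.hodge_term]
  have hterm : ∀ p ∈ Finset.range (w + 1),
      (-1 : ℂ) ^ p * (star (hpr w p E *ᵥ v) ⬝ᵥ S *ᵥ (hpr w p E *ᵥ v)) =
      (((-1 : ℝ) ^ p * (star (hpr w p E *ᵥ v) ⬝ᵥ S *ᵥ (hpr w p E *ᵥ v)).re : ℝ) : ℂ) := by
    intro p _
    push_cast
    congr 1
    exact Complex.ext rfl (by rw [h.herm_re, Complex.ofReal_im])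
  rw [Finset.sum_congr rfl hterm, ← Complex.ofReal_sum, Complex.zero_lt_real]
  have hnn : ∀ p ∈ Finset.range (w + 1),
      0 ≤ (-1 : ℝ) ^ p * (star (hpr w p E *ᵥ v) ⬝ᵥ S *ᵥ (hpr w p E *ᵥ v)).re := by
    intro p hp
    have hp' : p ≤ w := by have := Finset.mem_range.mp hp; omega
    by_cases h0 : hpr w p E *ᵥ v = 0
    · rw [h0]; simp
    · exact (h.pos p _ hp' h0 (h.E_mulVec_hpr hp' v)).le
  by_contra hcon
  have h0 : ∑ p ∈ Finset.range (w + 1),
      (-1 : ℝ) ^ p * (star (hpr w p E *ᵥ v) ⬝ᵥ S *ᵥ (hpr w p E *ᵥ v)).re = 0 :=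
    le_antisymm (not_lt.mp hcon) (Finset.sum_nonneg hnn)
  have h1 := (Finset.sum_eq_zero_iff_of_nonneg hnn).mp h0
  apply hv
  have h2 : v = (∑ p ∈ Finset.range (w + 1), hpr w p E) *ᵥ v := by
    rw [sum_hpr, Matrix.one_mulVec]
  rw [h2, Matrix.sum_mulVec]
  refine Finset.sum_eq_zero fun p hp => ?_
  by_contra h3
  have hp' : p ≤ w := by have := Finset.mem_range.mp hp; omega
  exact (h.pos p _ hp' h3 (h.E_mulVec_hpr hp' v)).ne' (h1 p hp)

lemma hodge_pos (h : IsHS w S E) {v : Fin N → ℂ} (hv : v ≠ 0) :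
    0 < (star v ⬝ᵥ hodge w S E *ᵥ v).re := by
  have := h.hodge_posDef.dotProduct_mulVec_pos hv
  exact (Complex.pos_iff.mp this).1

lemma hodge_nonneg (h : IsHS w S E) (v : Fin N → ℂ) :
    0 ≤ (star v ⬝ᵥ hodge w S E *ᵥ v).re := by
  by_cases hv : v = 0
  · rw [hv]; simp
  · exact (h.hodge_pos hv).le

lemma hodge_mulVec_of_eig (h : IsHS w S E) {p : ℕ} (hp : p ≤ w) {v : Fin N → ℂ}
    (hv : E *ᵥ v = (p : ℂ) • v) : hodge w S E *ᵥ v = (-1 : ℂ) ^ p • (S *ᵥ v) := by
  unfold hodge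
  rw [← Matrix.mulVec_mulVec, h.weil_mulVec_of_eig hp hv, Matrix.mulVec_smul]

end IsHS

/-! ### change of frame -/

section conj

variable {g g' : Matrix (Fin N) (Fin N) ℂ}

lemma aeval_conj (h1 : g * g' = 1) (h2 : g' * g = 1) (f : ℂ[X]) :
    aeval (g * E * g') f = g * aeval E f * g' := by
  induction f using Polynomial.induction_on' with
  | add f₁ f₂ hf hg => rw [map_add, map_add, mul_add, add_mul, hf, hg]
  | monomial n a =>
    rw [aeval_monomial, aeval_monomial, Algebra.algebraMap_eq_smul_one, smul_mul_assoc,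
      smul_mul_assoc, one_mul, one_mul, mul_smul_comm, smul_mul_assoc]
    congr 1
    induction n with
    | zero => simp [h1]
    | succ n ih =>
      rw [pow_succ, ih, pow_succ]
      calc g * E ^ n * g' * (g * E * g') = g * E ^ n * (g' * g) * E * g' := by noncomm_ring
        _ = _ := by rw [h2]; noncomm_ring

lemma hpr_conj (h1 : g * g' = 1) (h2 : g' * g = 1) (w p : ℕ) :
    hpr w p (g * E * g') = g * hpr w p E * g' := aeval_conj h1 h2 _

lemma weil_conj (h1 : g * g' = 1) (h2 : g' * g = 1) (w : ℕ) :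
    weil w (g * E * g') = g * weil w E * g' := by
  unfold weil
  rw [Finset.mul_sum, Finset.sum_mul]
  refine Finset.sum_congr rfl fun p _ => ?_
  rw [hpr_conj h1 h2, mul_smul_comm, smul_mul_assoc]

/-- `hodge` of the transported pair -/
lemma hodge_conj (h1 : g * g' = 1) (h2 : g' * g = 1) (w : ℕ) (S E : Matrix (Fin N) (Fin N) ℂ) :
    hodge w (g'ᴴ * S * g') (g * E * g') = g'ᴴ * hodge w S E * g' := by
  unfold hodge
  rw [weil_conj h1 h2]
  calc g'ᴴ * S * g' * (g * weil w E * g') = g'ᴴ * S * (g' * g) * weil w E * g' := by noncomm_ring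
    _ = _ := by rw [h2]; noncomm_ring

lemma IsHS.conj (h : IsHS w S E) (h1 : g * g' = 1) (h2 : g' * g = 1) :
    IsHS w (g'ᴴ * S * g') (g * E * g') where
  herm := by
    rw [Matrix.IsHermitian, Matrix.conjTranspose_mul, Matrix.conjTranspose_mul,
      Matrix.conjTranspose_conjTranspose, h.herm.eq, mul_assoc]
  adj := by
    have h3 : g'ᴴ * gᴴ = 1 := by rw [← Matrix.conjTranspose_mul, h1, Matrix.conjTranspose_one]
    have h4 : gᴴ * g'ᴴ = 1 := by rw [← Matrix.conjTranspose_mul, h2, Matrix.conjTranspose_one]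
    rw [Matrix.conjTranspose_mul, Matrix.conjTranspose_mul]
    calc g'ᴴ * S * g' * (g * E * g') = g'ᴴ * S * (g' * g) * E * g' := by noncomm_ring
      _ = g'ᴴ * (S * E) * g' := by rw [h2]; noncomm_ring
      _ = g'ᴴ * (Eᴴ * S) * g' := by rw [h.adj]
      _ = g'ᴴ * Eᴴ * 1 * S * g' := by noncomm_ring
      _ = g'ᴴ * Eᴴ * (gᴴ * g'ᴴ) * S * g' := by rw [h4]
      _ = _ := by noncomm_ring
  eig := by rw [aeval_conj h1 h2, h.eig]; simp
  pos := by
    intro p v hp hv hEv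
    have hv' : g' *ᵥ v ≠ 0 := by
      intro h0
      apply hv
      have : (g * g') *ᵥ v = 0 := by rw [← Matrix.mulVec_mulVec, h0, Matrix.mulVec_zero]
      rwa [h1, Matrix.one_mulVec] at this
    have hE' : E *ᵥ (g' *ᵥ v) = (p : ℂ) • (g' *ᵥ v) := by
      have h3 := congrArg (g' *ᵥ ·) hEv
      simp only [Matrix.mulVec_smul, Matrix.mulVec_mulVec] at h3
      rw [Matrix.mulVec_mulVec, ← h3]
      congr 1
      calc E * g' = 1 * (E * g') := by rw [one_mul]
        _ = _ := by rw [← h2]; noncomm_ring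
    have h4 := h.pos p _ hp hv' hE'
    have h5 : star v ⬝ᵥ (g'ᴴ * S * g') *ᵥ v = star (g' *ᵥ v) ⬝ᵥ S *ᵥ (g' *ᵥ v) := by
      rw [← Matrix.mulVec_mulVec, ← Matrix.mulVec_mulVec, Matrix.dotProduct_mulVec,
        Matrix.star_mulVec]
    rw [h5]
    exact h4

lemma hodge_conj_apply (h1 : g * g' = 1) (h2 : g' * g = 1) (w : ℕ)
    (S E : Matrix (Fin N) (Fin N) ℂ) (v : Fin N → ℂ) :
    star v ⬝ᵥ hodge w (g'ᴴ * S * g') (g * E * g') *ᵥ v =
      star (g' *ᵥ v) ⬝ᵥ hodge w S E *ᵥ (g' *ᵥ v) := by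
  rw [hodge_conj h1 h2, ← Matrix.mulVec_mulVec, ← Matrix.mulVec_mulVec, Matrix.dotProduct_mulVec,
    Matrix.star_mulVec]

end conj

end proj

end Crest.Agent.R276.Ipc735
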