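import Mathlib
import Crest.Agent.R276.IpcBasic_735

-- ▼ part R276/Top1_358
section

/-!
# (TOP1) Near-diagonal cocycles and homotopies

`NDC c` : `c : X → X → G` satisfies `c x y * c y w = c x w` near every point of the diagonal.
`NEq A c c'` : `c' x y = A x * c x y * (A y)⁻¹` near every point of the diagonal.

Main results:
* `exists_homotopy` : for a near-diagonal cocycle `c` on `X × [0,1]` there is
  `A : X × I → G`, `A (x,0) = 1`, with
  `c (x,t) (y,s) = A (x,t) * c (x,0) (y,0) * (A (y,s))⁻¹` near the diagonal;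
* `pull_homotopic` : pull-backs along homotopic maps are equivalent;
* `trivial_of_contractible`, `trivial_of_starConvex`, `trivial_on_starConvex`,
  `trivial_on_convex` : cocycles on contractible / star-shaped / convex sets are trivial;
* `NEq.unique` : on a preconnected space trivialisations are unique up to a constant.
-/

open Set Filter Topology unitInterval

namespace Crest.Agent.R276.Top1_358

variable {X Y Z : Type*} [TopologicalSpace X] [TopologicalSpace Y] [TopologicalSpace Z]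
  {G H : Type*} [Group G] [Group H]

/-- near-diagonal cocycle -/
def NDC (c : X → X → G) : Prop :=
  ∀ z, ∃ U ∈ 𝓝 z, ∀ x ∈ U, ∀ y ∈ U, ∀ w ∈ U, c x y * c y w = c x w

/-- equivalence (gauge transformation `A`) near the diagonal -/
def NEq (A : X → G) (c c' : X → X → G) : Prop :=
  ∀ z, ∃ U ∈ 𝓝 z, ∀ x ∈ U, ∀ y ∈ U, c' x y = A x * c x y * (A y)⁻¹

/-- the trivial cocycle -/
def one (X : Type*) (G : Type*) [Group G] : X → X → G := fun _ _ => 1

lemma NDC.diag {c : X → X → G} (hc : NDC c) (x : X) : c x x = 1 := by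
  obtain ⟨U, hU, h⟩ := hc x
  have hx := mem_of_mem_nhds hU
  have := h x hx x hx x hx
  simpa using this

lemma NDC.symm {c : X → X → G} (hc : NDC c) (z : X) :
    ∃ U ∈ 𝓝 z, ∀ x ∈ U, ∀ y ∈ U, c y x = (c x y)⁻¹ := by
  obtain ⟨U, hU, h⟩ := hc z
  refine ⟨U, hU, fun x hx y hy => ?_⟩
  have h1 := h y hy x hx y hy
  rw [hc.diag] at h1
  exact eq_inv_of_mul_eq_one_left h1

lemma NDC.comap {c : Y → Y → G} (hc : NDC c) {f : X → Y} (hf : Continuous f) :
    NDC (fun x y => c (f x) (f y)) := by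
  intro z
  obtain ⟨U, hU, h⟩ := hc (f z)
  exact ⟨f ⁻¹' U, hf.continuousAt hU, fun x hx y hy w hw => h _ hx _ hy _ hw⟩

lemma NDC.map {c : X → X → G} (hc : NDC c) (f : G →* H) : NDC (fun x y => f (c x y)) := by
  intro z
  obtain ⟨U, hU, h⟩ := hc z
  exact ⟨U, hU, fun x hx y hy w hw => by rw [← map_mul, h x hx y hy w hw]⟩

lemma NEq.refl (c : X → X → G) : NEq (fun _ => 1) c c :=
  fun z => ⟨univ, univ_mem, fun x _ y _ => by simp⟩

lemma NEq.symm {A : X → G} {c c' : X → X → G} (h : NEq A c c') :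
    NEq (fun x => (A x)⁻¹) c' c := by
  intro z
  obtain ⟨U, hU, h⟩ := h z
  refine ⟨U, hU, fun x hx y hy => ?_⟩
  rw [h x hx y hy]; group

lemma NEq.trans {A B : X → G} {c c' c'' : X → X → G} (h : NEq A c c') (h' : NEq B c' c'') :
    NEq (fun x => B x * A x) c c'' := by
  intro z
  obtain ⟨U, hU, h⟩ := h z
  obtain ⟨V, hV, h'⟩ := h' z
  refine ⟨U ∩ V, inter_mem hU hV, fun x hx y hy => ?_⟩
  rw [h' x hx.2 y hy.2, h x hx.1 y hy.1]; group

lemma NEq.comap {A : Y → G} {c c' : Y → Y → G} (h : NEq A c c') {f : X → Y}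
    (hf : Continuous f) :
    NEq (fun x => A (f x)) (fun x y => c (f x) (f y)) (fun x y => c' (f x) (f y)) := by
  intro z
  obtain ⟨U, hU, h⟩ := h (f z)
  exact ⟨f ⁻¹' U, hf.continuousAt hU, fun x hx y hy => h _ hx _ hy⟩

lemma NEq.map {A : X → G} {c c' : X → X → G} (h : NEq A c c') (f : G →* H) :
    NEq (fun x => f (A x)) (fun x y => f (c x y)) (fun x y => f (c' x y)) := by
  intro z
  obtain ⟨U, hU, h⟩ := h z
  exact ⟨U, hU, fun x hx y hy => by simp [h x hx y hy]⟩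

lemma NEq.ndc {A : X → G} {c c' : X → X → G} (h : NEq A c c') (hc : NDC c) : NDC c' := by
  intro z
  obtain ⟨U, hU, h⟩ := h z
  obtain ⟨V, hV, hc⟩ := hc z
  refine ⟨U ∩ V, inter_mem hU hV, fun x hx y hy w hw => ?_⟩
  rw [h x hx.1 y hy.1, h y hy.1 w hw.1, h x hx.1 w hw.1, ← hc x hx.2 y hy.2 w hw.2]; group

/-- A locally constant property on a preconnected space. -/
lemma prop_of_preconnected [PreconnectedSpace X] {P : X → Prop}
    (h : ∀ x, ∃ U ∈ 𝓝 x, ∀ y ∈ U, (P x ↔ P y)) {x : X} (hx : P x) (y : X) : P y := by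
  have hcl : IsClopen {z | P z} := by
    constructor
    · rw [← isOpen_compl_iff, isOpen_iff_mem_nhds]
      intro z hz
      obtain ⟨U, hU, h⟩ := h z
      exact mem_of_superset hU fun y hy hp => hz ((h y hy).2 hp)
    · rw [isOpen_iff_mem_nhds]
      intro z hz
      obtain ⟨U, hU, h⟩ := h z
      exact mem_of_superset hU fun y hy => (h y hy).1 hz
  have : {z | P z} = univ := hcl.eq_univ ⟨x, hx⟩
  exact (this ▸ mem_univ y : y ∈ {z | P z})

/-- Same on a preconnected set. -/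
lemma prop_of_isPreconnected {S : Set X} (hS : IsPreconnected S) {P : X → Prop}
    (h : ∀ x ∈ S, ∃ U ∈ 𝓝[S] x, ∀ y ∈ U, (P x ↔ P y)) {x y : X} (hxS : x ∈ S) (hx : P x)
    (hyS : y ∈ S) : P y := by
  have : PreconnectedSpace S := isPreconnected_iff_preconnectedSpace.1 hS
  refine prop_of_preconnected (X := S) (P := fun z => P z.1) ?_ (x := ⟨x, hxS⟩) hx ⟨y, hyS⟩
  intro z
  obtain ⟨U, hU, h⟩ := h z.1 z.2
  exact ⟨Subtype.val ⁻¹' U, mem_nhds_subtype_iff_nhdsWithin.2 (by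
    rw [Subtype.image_preimage_coe]
    exact inter_mem self_mem_nhdsWithin hU), fun y hy => h _ hy⟩

/-- two trivialisations differ by a constant -/
theorem NEq.unique [PreconnectedSpace X] {A B : X → G} {c : X → X → G}
    (hA : NEq A (one X G) c) (hB : NEq B (one X G) c) (x y : X) :
    (A x)⁻¹ * B x = (A y)⁻¹ * B y := by
  refine prop_of_preconnected (P := fun y => (A x)⁻¹ * B x = (A y)⁻¹ * B y) ?_ (x := x) rfl y
  intro z
  obtain ⟨U, hU, hA⟩ := hA z
  obtain ⟨V, hV, hB⟩ := hB z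
  refine ⟨U ∩ V, inter_mem hU hV, fun w hw => ?_⟩
  have h1 := hA z (mem_of_mem_nhds hU) w hw.1
  have h2 := hB z (mem_of_mem_nhds hV) w hw.2
  simp only [one, mul_one] at h1 h2
  have h3 : (A z)⁻¹ * B z = (A w)⁻¹ * B w := by
    have h4 : A z * (A w)⁻¹ = B z * (B w)⁻¹ := by rw [← h1, ← h2]
    have h5 : A z = B z * (B w)⁻¹ * A w := by rw [← h4]; group
    rw [h5]; group
  rw [h3]

/-- small preconnected order-connected neighbourhoods in `[0,1]` -/
lemma nhds_I {t : I} {U : Set I} (hU : U ∈ 𝓝 t) :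
    ∃ J : Set I, IsOpen J ∧ t ∈ J ∧ J ⊆ U ∧ IsPreconnected J ∧ J.OrdConnected := by
  obtain ⟨ε, hε, h⟩ := Metric.mem_nhds_iff.1 hU
  have hJ : (Subtype.val ⁻¹' Ioo ((t : ℝ) - ε) (t + ε) : Set I) = Metric.ball t ε := by
    ext s
    simp [Metric.mem_ball, Subtype.dist_eq, Real.dist_eq, abs_lt]
    constructor
    · rintro ⟨h1, h2⟩; constructor <;> linarith
    · rintro ⟨h1, h2⟩; constructor <;> linarith
  refine ⟨Subtype.val ⁻¹' Ioo ((t : ℝ) - ε) (t + ε), ?_, ?_, ?_, ?_, ?_⟩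
  · rw [hJ]; exact Metric.isOpen_ball
  · rw [hJ]; exact Metric.mem_ball_self hε
  · rw [hJ]; exact h
  · rw [← Topology.IsInducing.subtypeVal.isPreconnected_image, Subtype.image_preimage_coe]
    exact ((convex_Icc (0:ℝ) 1).inter (convex_Ioo _ _)).isPreconnected
  · constructor
    intro x hx y hy z hz
    exact ⟨lt_of_lt_of_le hx.1 hz.1, lt_of_le_of_lt hz.2 hy.2⟩

/-- existence on the interval -/
theorem trivial_I {c : I → I → G} (hc : NDC c) :
    ∃ a : I → G, a 0 = 1 ∧ NEq a (one I G) c := by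
  let P : I → Prop := fun s => ∃ a : I → G, a 0 = 1 ∧ ∀ z ≤ s, ∃ U ∈ 𝓝 z,
    ∀ x ∈ U, ∀ y ∈ U, x ≤ s → y ≤ s → c x y = a x * (a y)⁻¹
  have h0 : P 0 := by
    refine ⟨fun _ => 1, rfl, fun z hz => ⟨univ, univ_mem, fun x _ y _ hx hy => ?_⟩⟩
    have hx0 : x = 0 := le_antisymm hx x.2.1
    have hy0 : y = 0 := le_antisymm hy y.2.1
    rw [hx0, hy0, hc.diag]; simp
  have key : ∀ s₀ : I, ∃ J ∈ 𝓝 s₀, ∀ s₁ ∈ J, ∀ s ∈ J, P s₁ → P s := by
    intro s₀
    obtain ⟨U, hU, hUc⟩ := hc s₀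
    obtain ⟨J, hJo, hJm, hJU, -, hJc⟩ := nhds_I hU
    have hc3 : ∀ x ∈ J, ∀ y ∈ J, ∀ w ∈ J, c x y * c y w = c x w := fun x hx y hy w hw =>
      hUc x (hJU hx) y (hJU hy) w (hJU hw)
    have hc2 : ∀ x ∈ J, ∀ y ∈ J, c x y = (c y x)⁻¹ := fun x hx y hy =>
      eq_inv_of_mul_eq_one_left (by rw [hc3 x hx y hy x hx, hc.diag])
    refine ⟨J, hJo.mem_nhds hJm, fun s₁ hs₁ s hs => ?_⟩
    rintro ⟨a, ha0, ha⟩
    rcases le_or_gt s s₁ with hss | hss
    · refine ⟨a, ha0, fun z hz => ?_⟩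
      obtain ⟨V, hV, h⟩ := ha z (hz.trans hss)
      exact ⟨V, hV, fun x hx y hy hxs hys => h x hx y hy (hxs.trans hss) (hys.trans hss)⟩
    · refine ⟨fun t => if t ≤ s₁ then a t else c t s₁ * a s₁, ?_, fun z hz => ?_⟩
      · simp [ha0]
      rcases lt_trichotomy z s₁ with hz1 | hz1 | hz1
      · obtain ⟨V, hV, h⟩ := ha z hz1.le
        refine ⟨V ∩ Iio s₁, inter_mem hV (Iio_mem_nhds hz1), fun x hx y hy _ _ => ?_⟩
        have hx1 : x ≤ s₁ := le_of_lt hx.2
        have hy1 : y ≤ s₁ := le_of_lt hy.2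
        simp only [if_pos hx1, if_pos hy1]
        exact h x hx.1 y hy.1 hx1 hy1
      · subst hz1
        obtain ⟨V, hV, h⟩ := ha z le_rfl
        have hzV := mem_of_mem_nhds hV
        refine ⟨V ∩ J, inter_mem hV (hJo.mem_nhds hs₁), fun x hx y hy _ _ => ?_⟩
        by_cases hx1 : x ≤ z <;> by_cases hy1 : y ≤ z
        · simp only [if_pos hx1, if_pos hy1]
          exact h x hx.1 y hy.1 hx1 hy1
        · simp only [if_pos hx1, if_neg hy1]
          rw [← hc3 x hx.2 z hs₁ y hy.2, h x hx.1 z hzV hx1 le_rfl, hc2 z hs₁ y hy.2]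
          group
        · simp only [if_neg hx1, if_pos hy1]
          rw [← hc3 x hx.2 z hs₁ y hy.2, h z hzV y hy.1 le_rfl hy1]
          group
        · simp only [if_neg hx1, if_neg hy1]
          rw [← hc3 x hx.2 z hs₁ y hy.2, hc2 z hs₁ y hy.2]
          group
      · have hzJ : z ∈ J := hJc.out hs₁ hs ⟨hz1.le, hz⟩
        refine ⟨J ∩ Ioi s₁, inter_mem (hJo.mem_nhds hzJ) (Ioi_mem_nhds hz1),
          fun x hx y hy _ _ => ?_⟩
        have hx1 : ¬ x ≤ s₁ := not_le.2 hx.2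
        have hy1 : ¬ y ≤ s₁ := not_le.2 hy.2
        simp only [if_neg hx1, if_neg hy1]
        rw [← hc3 x hx.1 s₁ hs₁ y hy.1, hc2 s₁ hs₁ y hy.1]
        group
  have h1 : P 1 := prop_of_preconnected (P := P) (fun x => by
    obtain ⟨J, hJ, h⟩ := key x
    exact ⟨J, hJ, fun y hy => ⟨h x (mem_of_mem_nhds hJ) y hy, h y hy x (mem_of_mem_nhds hJ)⟩⟩) h0 1
  obtain ⟨a, ha, h⟩ := h1
  refine ⟨a, ha, fun z => ?_⟩
  obtain ⟨U, hU, h⟩ := h z z.2.2
  exact ⟨U, hU, fun x hx y hy => by simpa [one] using h x hx y hy x.2.2 y.2.2⟩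

/-- **Homotopy theorem** for near-diagonal cocycles. -/
theorem exists_homotopy {c : X × I → X × I → G} (hc : NDC c) :
    ∃ A : X × I → G, (∀ x, A (x, 0) = 1) ∧
      ∀ z, ∃ U ∈ 𝓝 z, ∀ p ∈ U, ∀ q ∈ U,
        c p q = A p * c (p.1, 0) (q.1, 0) * (A q)⁻¹ := by
  have hex : ∀ x : X, ∃ a : I → G, a 0 = 1 ∧ NEq a (one I G) (fun s t => c (x, s) (x, t)) :=
    fun x => trivial_I (hc.comap (f := fun t : I => (x, t)) (by fun_prop))
  choose a ha0 ha using hex
  have ha' : ∀ (x : X) (J : Set I), IsPreconnected J → ∀ W : Set (X × I),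
      (∀ p ∈ W, ∀ q ∈ W, ∀ r ∈ W, c p q * c q r = c p r) → (∀ t ∈ J, (x, t) ∈ W) →
      ∀ s ∈ J, ∀ t ∈ J, c (x, s) (x, t) = a x s * (a x t)⁻¹ := by
    intro x J hJ W hW hxW s hs t ht
    have h := prop_of_isPreconnected hJ
      (P := fun s => (a x s)⁻¹ * c (x, s) (x, t) = (a x t)⁻¹ * c (x, t) (x, t))
      (x := t) (y := s) ?_ ht rfl hs
    · rw [hc.diag, mul_one] at h
      rw [← h]; group
    · intro r hr
      obtain ⟨V, hV, hVa⟩ := ha x r
      refine ⟨V ∩ J, inter_mem (mem_nhdsWithin_of_mem_nhds hV) self_mem_nhdsWithin,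
        fun y hy => ?_⟩
      have h1 := hVa r (mem_of_mem_nhds hV) y hy.1
      simp only [one, mul_one] at h1
      have h2 := hW _ (hxW r hr) _ (hxW y hy.2) _ (hxW t ht)
      rw [← h2, h1]
      have : (a x r)⁻¹ * (a x r * (a x y)⁻¹ * c (x, y) (x, t)) = (a x y)⁻¹ * c (x, y) (x, t) := by
        group
      rw [this]
  -- formula (b) for fixed `t`
  have hb : ∀ (x₀ : X) (t : I), ∃ V ∈ 𝓝 x₀, ∀ x ∈ V, ∀ y ∈ V,
      c (x, t) (y, t) = a x t * c (x, 0) (y, 0) * (a y t)⁻¹ := by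
    intro x₀
    refine prop_of_preconnected (X := I) (P := fun t => ∃ V ∈ 𝓝 x₀, ∀ x ∈ V, ∀ y ∈ V,
      c (x, t) (y, t) = a x t * c (x, 0) (y, 0) * (a y t)⁻¹) ?_ (x := 0)
      ⟨univ, univ_mem, fun x _ y _ => by simp [ha0]⟩
    intro t₀
    obtain ⟨W, hW, hWc⟩ := hc (x₀, t₀)
    obtain ⟨W₁, hW₁, W₂, hW₂, hWW⟩ := mem_nhds_prod_iff.1 hW
    obtain ⟨J, hJo, hJm, hJU, hJp, -⟩ := nhds_I hW₂
    have key : ∀ t ∈ J, ∀ s ∈ J, (∃ V ∈ 𝓝 x₀, ∀ x ∈ V, ∀ y ∈ V,
      c (x, t) (y, t) = a x t * c (x, 0) (y, 0) * (a y t)⁻¹) → (∃ V ∈ 𝓝 x₀, ∀ x ∈ V, ∀ y ∈ V,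
      c (x, s) (y, s) = a x s * c (x, 0) (y, 0) * (a y s)⁻¹) := by
      rintro t ht s hs ⟨V, hV, h⟩
      refine ⟨V ∩ W₁, inter_mem hV hW₁, fun x hx y hy => ?_⟩
      have hm : ∀ x ∈ W₁, ∀ t ∈ J, (x, t) ∈ W := fun x hx t ht => hWW ⟨hx, hJU ht⟩
      have e1 := ha' x J hJp W hWc (fun t ht => hm x hx.2 t ht) s hs t ht
      have e2 := ha' y J hJp W hWc (fun t ht => hm y hy.2 t ht) t ht s hs
      have e3 := hWc _ (hm x hx.2 s hs) _ (hm x hx.2 t ht) _ (hm y hy.2 t ht)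
      have e4 := hWc _ (hm x hx.2 s hs) _ (hm y hy.2 t ht) _ (hm y hy.2 s hs)
      rw [← e4, ← e3, e1, e2, h x hx.1 y hy.1]
      group
    exact ⟨J, hJo.mem_nhds hJm, fun s hs => ⟨key _ hJm _ hs, key _ hs _ hJm⟩⟩
  refine ⟨fun p => a p.1 p.2, fun x => ha0 x, ?_⟩
  rintro ⟨x₀, t₀⟩
  obtain ⟨W, hW, hWc⟩ := hc (x₀, t₀)
  obtain ⟨W₁, hW₁, W₂, hW₂, hWW⟩ := mem_nhds_prod_iff.1 hW
  obtain ⟨J, hJo, hJm, hJU, hJp, -⟩ := nhds_I hW₂
  obtain ⟨V, hV, hVb⟩ := hb x₀ t₀
  refine ⟨(W₁ ∩ V) ×ˢ J, prod_mem_nhds (inter_mem hW₁ hV) (hJo.mem_nhds hJm), ?_⟩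
  rintro ⟨x, s⟩ ⟨hx, hs⟩ ⟨y, t⟩ ⟨hy, ht⟩
  have hm : ∀ x ∈ W₁, ∀ t ∈ J, (x, t) ∈ W := fun x hx t ht => hWW ⟨hx, hJU ht⟩
  have e1 := ha' x J hJp W hWc (fun t ht => hm x hx.1 t ht) s hs t₀ hJm
  have e2 := ha' y J hJp W hWc (fun t ht => hm y hy.1 t ht) t₀ hJm t ht
  have e3 := hWc _ (hm x hx.1 s hs) _ (hm x hx.1 t₀ hJm) _ (hm y hy.1 t₀ hJm)
  have e4 := hWc _ (hm x hx.1 s hs) _ (hm y hy.1 t₀ hJm) _ (hm y hy.1 t ht)
  have e5 := hVb x hx.2 y hy.2
  show c (x, s) (y, t) = a x s * c (x, 0) (y, 0) * (a y t)⁻¹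
  rw [← e4, ← e3, e1, e2, e5]
  group

/-- homotopic maps have equivalent pull-backs -/
theorem pull_homotopic {c : Y → Y → G} (hc : NDC c) (F : X × I → Y) (hF : Continuous F) :
    ∃ A : X → G, NEq A (fun x y => c (F (x, 0)) (F (y, 0))) (fun x y => c (F (x, 1)) (F (y, 1))) := by
  obtain ⟨A, hA0, hA⟩ := exists_homotopy (hc.comap hF)
  refine ⟨fun x => A (x, 1), fun z => ?_⟩
  obtain ⟨U, hU, h⟩ := hA (z, 1)
  refine ⟨(fun x : X => (x, (1 : I))) ⁻¹' U, ?_, fun x hx y hy => h _ hx _ hy⟩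
  exact (Continuous.prodMk_left (1 : I)).continuousAt.preimage_mem_nhds hU

theorem pull_homotopy {c : Y → Y → G} (hc : NDC c) {f g : C(X, Y)} (h : f.Homotopic g) :
    ∃ A : X → G, NEq A (fun x y => c (f x) (f y)) (fun x y => c (g x) (g y)) := by
  obtain ⟨F⟩ := h
  have := pull_homotopic hc (fun p : X × I => F (p.2, p.1)) (by fun_prop)
  simpa using this

/-- cocycles on contractible spaces are trivial -/
theorem trivial_of_contractible [ContractibleSpace X] {c : X → X → G} (hc : NDC c) :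
    ∃ A : X → G, NEq A (one X G) c := by
  obtain ⟨x₀, h⟩ := id_nullhomotopic X
  obtain ⟨A, hA⟩ := pull_homotopy hc h.symm
  refine ⟨A, fun z => ?_⟩
  obtain ⟨U, hU, h⟩ := hA z
  refine ⟨U, hU, fun x hx y hy => ?_⟩
  have := h x hx y hy
  simp only [ContinuousMap.const_apply, ContinuousMap.id_apply, hc.diag] at this
  simpa [one] using this

/-- normalisation at a point -/
theorem NEq.normalise {c : X → X → G} {A : X → G} (h : NEq A (one X G) c) (x₀ : X) :
    NEq (fun x => A x * (A x₀)⁻¹) (one X G) c := by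
  intro z
  obtain ⟨U, hU, h⟩ := h z
  refine ⟨U, hU, fun x hx y hy => ?_⟩
  rw [h x hx y hy]; simp [one]

theorem trivial_of_contractible' [ContractibleSpace X] {c : X → X → G} (hc : NDC c) (x₀ : X) :
    ∃ A : X → G, A x₀ = 1 ∧ NEq A (one X G) c := by
  obtain ⟨A, hA⟩ := trivial_of_contractible hc
  exact ⟨_, by simp, hA.normalise x₀⟩

section vector

variable {E : Type*} [AddCommGroup E] [Module ℝ E] [TopologicalSpace E]
  [ContinuousAdd E] [ContinuousSMul ℝ E]



/-- version for cocycles `c : X → X → G` that are cocycles near the points of `S` only -/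
theorem trivial_on_starConvex {S : Set E} {p : E} (hS : StarConvex ℝ p S) (hp : p ∈ S)
    {c : E → E → G}
    (hc : ∀ z ∈ S, ∃ U ∈ 𝓝 z, ∀ x ∈ U, ∀ y ∈ U, ∀ w ∈ U, x ∈ S → y ∈ S → w ∈ S →
      c x y * c y w = c x w) :
    ∃ A : E → G, A p = 1 ∧
      ∀ z ∈ S, ∃ U ∈ 𝓝 z, ∀ x ∈ U, ∀ y ∈ U, x ∈ S → y ∈ S → c x y = A x * (A y)⁻¹ := by
  classical
  have hc' : NDC (fun x y : S => c x y) := by
    intro z
    obtain ⟨U, hU, h⟩ := hc z.1 z.2
    exact ⟨Subtype.val ⁻¹' U, continuous_subtype_val.continuousAt hU,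
      fun x hx y hy w hw => h _ hx _ hy _ hw x.2 y.2 w.2⟩
  have : ContractibleSpace S := hS.contractibleSpace ⟨p, hp⟩
  obtain ⟨A, hA1, hA⟩ := trivial_of_contractible' hc' ⟨p, hp⟩
  refine ⟨fun x => if hx : x ∈ S then A ⟨x, hx⟩ else 1, by simp [hp, hA1], fun z hz => ?_⟩
  obtain ⟨U, hU, h⟩ := hA ⟨z, hz⟩
  rw [mem_nhds_subtype] at hU
  obtain ⟨V, hV, hVU⟩ := hU
  refine ⟨V, hV, fun x hx y hy hxS hyS => ?_⟩
  have := h ⟨x, hxS⟩ (hVU hx) ⟨y, hyS⟩ (hVU hy)
  simpa [one, hxS, hyS] using this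

theorem trivial_on_convex {S : Set E} (hS : Convex ℝ S) {c : E → E → G}
    (hc : ∀ z ∈ S, ∃ U ∈ 𝓝 z, ∀ x ∈ U, ∀ y ∈ U, ∀ w ∈ U, x ∈ S → y ∈ S → w ∈ S →
      c x y * c y w = c x w) :
    ∃ A : E → G,
      ∀ z ∈ S, ∃ U ∈ 𝓝 z, ∀ x ∈ U, ∀ y ∈ U, x ∈ S → y ∈ S → c x y = A x * (A y)⁻¹ := by
  rcases S.eq_empty_or_nonempty with h | ⟨p, hp⟩
  · exact ⟨fun _ => 1, fun z hz => absurd hz (by simp [h])⟩
  · obtain ⟨A, -, h⟩ := trivial_on_starConvex (hS.starConvex hp) hp hc
    exact ⟨A, h⟩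


end vector

/-! ### Flat sections -/

section flat

variable {V : Type*} [MulAction G V]

/-- flat sections of a near-diagonal cocycle -/
def Flat (c : X → X → G) (v : X → V) : Prop :=
  ∀ z, ∃ U ∈ 𝓝 z, ∀ x ∈ U, ∀ y ∈ U, v x = c x y • v y





end flat

end Crest.Agent.R276.Top1_358
namespace Crest.Agent.R276.Top1_358.Flat
end Crest.Agent.R276.Top1_358.Flat
end

-- ▼ part R276/IpcLoc_735

/-!
# Row 276, IPC: local form of the frozen definitions (helper735)

* change of centre of `lM`, `lV`;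
* a `PVHS` near a point, a `VHS` near a point and an `EndNF` are polarised VHS in the sense of
  `VCalc_442`.
-/

set_option autoImplicit false
set_option linter.unusedSectionVars false

noncomputable section

open Set Filter Topology MeasureTheory Matrix
open Crest.Agent.R271.Ho51
open scoped ContDiff

namespace Crest.Agent.R276.Ipc735

/-- Hodge projectors with value `0` above the weight -/
def hq {N : ℕ} (w : ℕ) (E : Matrix (Fin N) (Fin N) ℂ) (p : ℕ) : Matrix (Fin N) (Fin N) ℂ :=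
  if p ≤ w then hpr w p E else 0

section bridge

variable {N w : ℕ} {X : Type*} [NormedAddCommGroup X] [NormedSpace ℂ X]

lemma hq_of_le {E : Matrix (Fin N) (Fin N) ℂ} {p : ℕ} (hp : p ≤ w) : hq w E p = hpr w p E := by
  unfold hq; rw [if_pos hp]

lemma sum_hq {F : Type*} [AddCommMonoid F] (c : ℕ → Matrix (Fin N) (Fin N) ℂ → F)
    (E : Matrix (Fin N) (Fin N) ℂ) :
    ∑ p ∈ Finset.range (w + 1), c p (hq w E p) = ∑ p ∈ Finset.range (w + 1), c p (hpr w p E) :=
  Finset.sum_congr rfl fun p hp => by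
    rw [hq_of_le (by have := Finset.mem_range.mp hp; omega)]

lemma grOp_hq {S : Matrix (Fin N) (Fin N) ℂ} {E : X → Matrix (Fin N) (Fin N) ℂ} {x : X}
    (h : IsHS w S (E x)) : VCalc_442.grOp w (fun p x => hq w (E x) p) x = E x := by
  unfold VCalc_442.grOp
  rw [sum_hq (fun p M => (p : ℂ) • M), h.sum_smul_hpr]

lemma sgOp_hq (E : X → Matrix (Fin N) (Fin N) ℂ) (x : X) :
    VCalc_442.sgOp w (fun p x => hq w (E x) p) x = weil w (E x) := by
  unfold VCalc_442.sgOp
  rw [sum_hq (fun p M => (-1 : ℂ) ^ p • M)]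
  rfl

lemma contDiffOn_aeval {U : Set X} {E : X → Matrix (Fin N) (Fin N) ℂ}
    (hE : ∀ i j, ContDiffOn ℝ ∞ (fun x => E x i j) U) (f : Polynomial ℂ) (i j : Fin N) :
    ContDiffOn ℝ ∞ (fun x => Polynomial.aeval (E x) f i j) U := by
  have hpow : ∀ (n : ℕ) (i j : Fin N), ContDiffOn ℝ ∞ (fun x => (E x ^ n) i j) U := by
    intro n
    induction n with
    | zero =>
      intro i j
      simp only [pow_zero]
      exact contDiffOn_const
    | succ n ih =>
      intro i j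
      simp only [pow_succ, Matrix.mul_apply]
      exact ContDiffOn.sum fun l _ => (ih i l).mul (hE l j)
  induction f using Polynomial.induction_on' with
  | add f g hf hg =>
    simp only [map_add, Matrix.add_apply]
    exact hf.add hg
  | monomial n a =>
    simp only [Polynomial.aeval_monomial, Algebra.algebraMap_eq_smul_one, smul_mul_assoc, one_mul,
      Matrix.smul_apply, smul_eq_mul]
    exact contDiffOn_const.mul (hpow n i j)

/-- a smooth family of Hodge structures with horizontality is a VHS in the sense of `VCalc_442` -/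
theorem toVCalc {U : Set X} (hU : IsOpen U) {S : Matrix (Fin N) (Fin N) ℂ}
    {E : X → Matrix (Fin N) (Fin N) ℂ} (hs : ∀ x ∈ U, IsHS w S (E x))
    (sm : ∀ i j, ContDiffOn ℝ ∞ (fun x => E x i j) U)
    (hor : ∀ x ∈ U, ∀ v, E x * VCalc_442.mW E v x - VCalc_442.mW E v x * E x =
      - VCalc_442.mW E v x) (hS : Sᴴ = S) :
    VCalc_442.VHS w U S (fun p x => hq w (E x) p) where
  op := hU
  sm := by
    intro p i j
    by_cases hp : p ≤ w
    · simp only [hq_of_le hp, hpr_eq]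
      exact contDiffOn_aeval sm _ i j
    · simp only [hq, if_neg hp, Matrix.zero_apply]
      exact contDiffOn_const
  idem := by
    intro x hx p
    by_cases hp : p ≤ w
    · simp only [hq_of_le hp]; exact (hs x hx).hpr_mul_self hp
    · simp only [hq, if_neg hp, mul_zero]
  orth := by
    intro x hx p q hpq
    by_cases hp : p ≤ w
    · by_cases hq' : q ≤ w
      · simp only [hq_of_le hp, hq_of_le hq']; exact (hs x hx).hpr_mul_of_ne hp hq' hpq
      · simp only [hq, if_neg hq', mul_zero]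
    · simp only [hq, if_neg hp, zero_mul]
  top := by
    intro x _ p hp
    simp only [hq, if_neg (not_le.mpr hp)]
  sum := by
    intro x _
    rw [sum_hq (fun _ M => M), sum_hpr]
  herm := hS
  adj := by
    intro x hx p
    by_cases hp : p ≤ w
    · simp only [hq_of_le hp]; exact ((hs x hx).S_hpr p).symm
    · simp only [hq, if_neg hp, Matrix.conjTranspose_zero, mul_zero, zero_mul]
  pos := by
    intro x hx
    rw [sgOp_hq]
    exact (hs x hx).hodge_posDef
  hor := by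
    intro x hx v
    have h1 : VCalc_442.mW (VCalc_442.grOp w (fun p x => hq w (E x) p)) v x =
        VCalc_442.mW E v x := by
      ext i j
      simp only [VCalc_442.mW, Matrix.of_apply]
      refine VCalc_442.dW_congr ?_ v
      filter_upwards [hU.mem_nhds hx] with y hy
      rw [grOp_hq (hs y hy)]
    rw [h1, grOp_hq (hs x hx)]
    exact hor x hx v

end bridge

/-! ### one complex variable -/

section one

variable {N w : ℕ}

lemma dW_one (f : ℂ → ℂ) (x : ℂ) : VCalc_442.dW f 1 x = wz f x := by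
  unfold VCalc_442.dW wz
  simp

lemma dW_eq_wz (f : ℂ → ℂ) (v x : ℂ) : VCalc_442.dW f v x = v * wz f x := by
  have := VCalc_442.dW_smul_dir f x v 1
  rw [smul_eq_mul, mul_one, smul_eq_mul, dW_one] at this
  exact this

lemma mW_eq_wE (E : ℂ → Matrix (Fin N) (Fin N) ℂ) (v x : ℂ) :
    VCalc_442.mW E v x = v • wE E x := by
  ext i j
  simp only [VCalc_442.mW, wE, Matrix.of_apply, Matrix.smul_apply, smul_eq_mul]
  exact dW_eq_wz _ v x

/-- version of `toVCalc` in one variable -/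
theorem toVCalc_one {U : Set ℂ} (hU : IsOpen U) {S : Matrix (Fin N) (Fin N) ℂ}
    {E : ℂ → Matrix (Fin N) (Fin N) ℂ} (hs : ∀ x ∈ U, IsHS w S (E x))
    (sm : ∀ x ∈ U, ∀ i j, ContDiffAt ℝ (⊤ : ℕ∞) (fun x => E x i j) x)
    (hor : ∀ x ∈ U, E x * wE E x - wE E x * E x = - wE E x) (hS : Sᴴ = S) :
    VCalc_442.VHS w U S (fun p x => hq w (E x) p) := by
  refine toVCalc hU hs (fun i j x hx => (sm x hx i j).contDiffWithinAt) (fun x hx v => ?_) hS
  rw [mW_eq_wE, mul_smul_comm, smul_mul_assoc, ← smul_sub, hor x hx, smul_neg]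

/-- the normal form near an end is a polarised VHS -/
theorem EndNF.toVCalc {s0 : ℝ} (n : EndNF N w s0) :
    VCalc_442.VHS w {u : ℂ | u.re < -s0} n.S (fun p u => hq w (n.E u) p) := by
  have hU : IsOpen {u : ℂ | u.re < -s0} := isOpen_lt Complex.continuous_re continuous_const
  refine toVCalc_one hU (fun u hu => n.hs u hu) (fun u hu => n.smE u hu) (fun u hu => n.tr u hu) ?_
  have h1 : ((-s0 - 1 : ℝ) : ℂ).re < -s0 := by simp
  exact (n.hs _ h1).herm

end one

/-! ### change of centre -/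

section center

variable {X : Type*} [TopologicalSpace X] {N : ℕ}

lemma NDC.on {P : X → X → GL (Fin N) ℤ} (h : NDC P) (s : Set X) : NDCOn s P := fun z _ => h z

lemma NDCOn.diag {s : Set X} {P : X → X → GL (Fin N) ℤ} (h : NDCOn s P) {x : X} (hx : x ∈ s) :
    P x x = 1 := by
  obtain ⟨U, hU, h⟩ := h x hx
  have hx := mem_of_mem_nhds hU
  have := h x hx x hx x hx
  simpa using this



lemma lM_self {s : Set X} {P : X → X → GL (Fin N) ℤ} (h : NDCOn s P)
    (A : X → Matrix (Fin N) (Fin N) ℂ) {z : X} (hz : z ∈ s) : lM P A z z = A z := by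
  unfold lM
  rw [h.diag hz]; simp

lemma lV_self {s : Set X} {P : X → X → GL (Fin N) ℤ} (h : NDCOn s P)
    (φ : X → Fin N → ℂ) {z : X} (hz : z ∈ s) : lV P φ z z = φ z := by
  unfold lV
  rw [h.diag hz]; simp

lemma IsHS.lM {w : ℕ} {S E : X → Matrix (Fin N) (Fin N) ℂ} {P : X → X → GL (Fin N) ℤ} {z y : X}
    (h : IsHS w (S y) (E y)) (hS : S y = (cm (P z y))ᴴ * S z * cm (P z y)) :
    IsHS w (S z) (lM P E z y) := by
  have h1 := h.conj (cm_mul_cm_inv (P z y)) (cm_inv_mul_cm (P z y))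
  have h2 : (cm (P z y)⁻¹)ᴴ * S y * cm (P z y)⁻¹ = S z := by
    have h3 : (cm (P z y)⁻¹)ᴴ * (cm (P z y))ᴴ = 1 := by
      rw [← Matrix.conjTranspose_mul, cm_mul_cm_inv, Matrix.conjTranspose_one]
    rw [hS]
    calc (cm (P z y)⁻¹)ᴴ * ((cm (P z y))ᴴ * S z * cm (P z y)) * cm (P z y)⁻¹
        = ((cm (P z y)⁻¹)ᴴ * (cm (P z y))ᴴ) * S z * (cm (P z y) * cm (P z y)⁻¹) := by
          noncomm_ring
      _ = S z := by rw [h3, cm_mul_cm_inv]; simp
  rw [h2] at h1
  exact h1

/-- Hodge norm in the frame at `z` -/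
lemma hodge_lM {w : ℕ} {S E : X → Matrix (Fin N) (Fin N) ℂ} {P : X → X → GL (Fin N) ℤ} {z y : X}
    (hS : S y = (cm (P z y))ᴴ * S z * cm (P z y)) (φ : X → Fin N → ℂ) :
    star (lV P φ z y) ⬝ᵥ hodge w (S z) (Ipc735.lM P E z y) *ᵥ lV P φ z y =
      star (φ y) ⬝ᵥ hodge w (S y) (E y) *ᵥ φ y := by
  have h2 : (cm (P z y)⁻¹)ᴴ * S y * cm (P z y)⁻¹ = S z := by
    have h3 : (cm (P z y)⁻¹)ᴴ * (cm (P z y))ᴴ = 1 := by
      rw [← Matrix.conjTranspose_mul, cm_mul_cm_inv, Matrix.conjTranspose_one]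
    rw [hS]
    calc (cm (P z y)⁻¹)ᴴ * ((cm (P z y))ᴴ * S z * cm (P z y)) * cm (P z y)⁻¹
        = ((cm (P z y)⁻¹)ᴴ * (cm (P z y))ᴴ) * S z * (cm (P z y) * cm (P z y)⁻¹) := by
          noncomm_ring
      _ = S z := by rw [h3, cm_mul_cm_inv]; simp
  have h4 := hodge_conj_apply (cm_mul_cm_inv (P z y)) (cm_inv_mul_cm (P z y)) w (S y) (E y)
    (lV P φ z y)
  rw [h2] at h4
  unfold Ipc735.lM
  rw [h4]
  unfold lV
  rw [cm_inv_mulVec]

end center

/-! ### a `PVHS` near a point -/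

section pvhs

variable {A : Finset ℂ} {N w : ℕ} (V : PVHS A N w)

lemma wz_mulVec_entry (M M' : Matrix (Fin N) (Fin N) ℂ) {F : ℂ → Matrix (Fin N) (Fin N) ℂ} {z : ℂ}
    (hF : ∀ i j, DifferentiableAt ℝ (fun y => F y i j) z) :
    wE (fun y => M * F y * M') z = M * wE F z * M' := by
  have h1 : ∀ v : ℂ, ∀ i j, fderiv ℝ (fun y => (M * F y * M') i j) z v =
      ∑ l, ∑ k, M i k * fderiv ℝ (fun y => F y k l) z v * M' l j := by
    intro v i j
    have h2 : (fun y => (M * F y * M') i j) = fun y => ∑ l, ∑ k, M i k * F y k l * M' l j := by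
      funext y
      simp only [Matrix.mul_apply, Finset.sum_mul]
    rw [h2, fderiv_fun_sum (fun l _ => DifferentiableAt.fun_sum fun k _ =>
      ((hF k l).const_mul _).mul_const _)]
    rw [_root_.sum_apply]
    refine Finset.sum_congr rfl fun l _ => ?_
    rw [fderiv_fun_sum (fun k _ => ((hF k l).const_mul _).mul_const _),
      _root_.sum_apply]
    refine Finset.sum_congr rfl fun k _ => ?_
    rw [fderiv_mul_const ((hF k l).const_mul _), fderiv_const_mul (hF k l)]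
    simp only [_root_.smul_apply, smul_eq_mul]
    ring
  ext i j
  have h3 : wE (fun y => M * F y * M') z i j = (1 / 2 : ℂ) •
      (fderiv ℝ (fun y => (M * F y * M') i j) z 1 -
        Complex.I • fderiv ℝ (fun y => (M * F y * M') i j) z Complex.I) := rfl
  rw [h3, h1, h1]
  simp only [wE, wz, Matrix.of_apply, Matrix.mul_apply, smul_eq_mul]
  rw [Finset.mul_sum, ← Finset.sum_sub_distrib, Finset.mul_sum]
  refine Finset.sum_congr rfl fun l _ => ?_
  rw [Finset.mul_sum, ← Finset.sum_sub_distrib, Finset.mul_sum, Finset.sum_mul]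
  refine Finset.sum_congr rfl fun k _ => ?_
  ring

/-- A `PVHS` near a point `z`, in the frame at `z`, is a polarised VHS in the sense of
`VCalc_442`. -/
theorem PVHS.local {z : ℂ} (hz : z ∉ A) :
    ∃ U, IsOpen U ∧ z ∈ U ∧ (∀ x ∈ U, x ∉ A) ∧
      (∀ y ∈ U, ∀ x ∈ U, V.P z y * V.P y x = V.P z x) ∧
      (∀ y ∈ U, V.S y = (cm (V.P z y))ᴴ * V.S z * cm (V.P z y)) ∧
      VCalc_442.VHS w U (V.S z) (fun p x => hq w (lM V.P V.E z x) p) := by
  obtain ⟨U, hU, h⟩ := V.ndc z (by simpa using hz)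
  have hA : IsOpen ((A : Set ℂ)ᶜ) := A.finite_toSet.isClosed.isOpen_compl
  obtain ⟨W, hWU, hW, hzW⟩ := mem_nhds_iff.mp (Filter.inter_mem hU
    (Filter.inter_mem (V.flatS z hz) (hA.mem_nhds (by simpa using hz))))
  have hxA : ∀ x ∈ W, x ∉ A := fun x hx => by simpa using (hWU hx).2.2
  have hS : ∀ y ∈ W, V.S y = (cm (V.P z y))ᴴ * V.S z * cm (V.P z y) := fun y hy => (hWU hy).2.1
  have hP : ∀ y ∈ W, ∀ x ∈ W, V.P z y * V.P y x = V.P z x := fun y hy x hx =>
    h z (hWU hzW).1 y (hWU hy).1 x (hWU hx).1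
  have hM : ∀ y ∈ W, ∀ x ∈ W, lM V.P V.E z x =
      cm (V.P z y) * lM V.P V.E y x * cm (V.P z y)⁻¹ := by
    intro y hy x hx
    unfold lM
    rw [← hP y hy x hx, cm_mul, _root_.mul_inv_rev, cm_mul]
    noncomm_ring
  have hMev : ∀ y ∈ W, lM V.P V.E z =ᶠ[𝓝 y]
      fun x => cm (V.P z y) * lM V.P V.E y x * cm (V.P z y)⁻¹ := fun y hy => by
    filter_upwards [hW.mem_nhds hy] with x hx
    exact hM y hy x hx
  refine ⟨W, hW, hzW, hxA, hP, hS, ?_⟩
  refine toVCalc_one hW (fun x hx => (V.hs x (hxA x hx)).lM (hS x hx)) ?_ ?_ (V.hs z hz).herm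
  · intro y hy i j
    have h1 : (fun x => lM V.P V.E z x i j) =ᶠ[𝓝 y]
        fun x => ∑ l, (∑ k, cm (V.P z y) i k * lM V.P V.E y x k l) * cm (V.P z y)⁻¹ l j := by
      filter_upwards [hMev y hy] with x hx
      rw [hx]
      simp only [Matrix.mul_apply]
    refine ContDiffAt.congr_of_eventuallyEq ?_ h1
    refine ContDiffAt.sum fun l _ => (ContDiffAt.sum fun k _ => ?_).mul contDiffAt_const
    exact contDiffAt_const.mul (V.smE y (hxA y hy) k l)
  · intro y hy
    have h1 : wE (lM V.P V.E z) y = cm (V.P z y) * wM V.P V.E y * cm (V.P z y)⁻¹ := by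
      have h2 : wE (lM V.P V.E z) y =
          wE (fun x => cm (V.P z y) * lM V.P V.E y x * cm (V.P z y)⁻¹) y := by
        ext i j
        simp only [wE, wz, Matrix.of_apply]
        have h3 : (fun x => lM V.P V.E z x i j) =ᶠ[𝓝 y]
            fun x => (cm (V.P z y) * lM V.P V.E y x * cm (V.P z y)⁻¹) i j := by
          filter_upwards [hMev y hy] with x hx
          rw [hx]
        rw [h3.fderiv_eq]
      rw [h2, wz_mulVec_entry _ _ fun i j => (V.smE y (hxA y hy) i j).differentiableAt (by simp)]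
      rfl
    have h2 : lM V.P V.E z y = cm (V.P z y) * V.E y * cm (V.P z y)⁻¹ := rfl
    rw [h1, h2]
    have h3 := V.tr y (hxA y hy)
    have h4 : cm (V.P z y)⁻¹ * cm (V.P z y) = 1 := cm_inv_mul_cm _
    calc cm (V.P z y) * V.E y * cm (V.P z y)⁻¹ * (cm (V.P z y) * wM V.P V.E y * cm (V.P z y)⁻¹) -
          cm (V.P z y) * wM V.P V.E y * cm (V.P z y)⁻¹ * (cm (V.P z y) * V.E y * cm (V.P z y)⁻¹)
        = cm (V.P z y) * (V.E y * (cm (V.P z y)⁻¹ * cm (V.P z y)) * wM V.P V.E y -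
            wM V.P V.E y * (cm (V.P z y)⁻¹ * cm (V.P z y)) * V.E y) * cm (V.P z y)⁻¹ := by
          noncomm_ring
      _ = cm (V.P z y) * (V.E y * wM V.P V.E y - wM V.P V.E y * V.E y) * cm (V.P z y)⁻¹ := by
          rw [h4]; simp only [mul_one]
      _ = _ := by rw [h3]; noncomm_ring

end pvhs

/-! ### a `VHS` over a Riemann domain near a point -/

section mdim

variable {N w : ℕ}

lemma mW_conj {Y : Type*} [NormedAddCommGroup Y] [NormedSpace ℂ Y]
    (M M' : Matrix (Fin N) (Fin N) ℂ) {F : Y → Matrix (Fin N) (Fin N) ℂ} {z : Y}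
    (hF : ∀ i j, DifferentiableAt ℝ (fun y => F y i j) z) (u : Y) :
    VCalc_442.mW (fun y => M * F y * M') u z = M * VCalc_442.mW F u z * M' := by
  have h1 : ∀ v : Y, ∀ i j, fderiv ℝ (fun y => (M * F y * M') i j) z v =
      ∑ l, ∑ k, M i k * fderiv ℝ (fun y => F y k l) z v * M' l j := by
    intro v i j
    have h2 : (fun y => (M * F y * M') i j) = fun y => ∑ l, ∑ k, M i k * F y k l * M' l j := by
      funext y
      simp only [Matrix.mul_apply, Finset.sum_mul]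
    rw [h2, fderiv_fun_sum (fun l _ => DifferentiableAt.fun_sum fun k _ =>
      ((hF k l).const_mul _).mul_const _)]
    rw [_root_.sum_apply]
    refine Finset.sum_congr rfl fun l _ => ?_
    rw [fderiv_fun_sum (fun k _ => ((hF k l).const_mul _).mul_const _),
      _root_.sum_apply]
    refine Finset.sum_congr rfl fun k _ => ?_
    rw [fderiv_mul_const ((hF k l).const_mul _), fderiv_const_mul (hF k l)]
    simp only [_root_.smul_apply, smul_eq_mul]
    ring
  ext i j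
  have h3 : VCalc_442.mW (fun y => M * F y * M') u z i j = (1 / 2 : ℂ) •
      (fderiv ℝ (fun y => (M * F y * M') i j) z u -
        Complex.I • fderiv ℝ (fun y => (M * F y * M') i j) z (Complex.I • u)) := rfl
  rw [h3, h1, h1]
  simp only [VCalc_442.mW, VCalc_442.dW, Matrix.of_apply, Matrix.mul_apply, smul_eq_mul]
  rw [Finset.mul_sum, ← Finset.sum_sub_distrib, Finset.mul_sum]
  refine Finset.sum_congr rfl fun l _ => ?_
  rw [Finset.mul_sum, ← Finset.sum_sub_distrib, Finset.mul_sum, Finset.sum_mul]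
  refine Finset.sum_congr rfl fun k _ => ?_
  ring

variable {m : ℕ} {X : Type*} [TopologicalSpace X] [RDom m X]

lemma dW_sum_dir {f : (Fin m → ℂ) → ℂ} (v x : Fin m → ℂ) :
    VCalc_442.dW f v x = ∑ j, v j * VCalc_442.dW f (Pi.single j 1) x := by
  have h1 : v = ∑ j, v j • (Pi.single j (1 : ℂ) : Fin m → ℂ) := by
    rw [← pi_eq_sum_univ' v]
  have h2 : ∀ s : Finset (Fin m), VCalc_442.dW f (∑ j ∈ s, v j • (Pi.single j (1 : ℂ) : Fin m → ℂ)) x
      = ∑ j ∈ s, v j * VCalc_442.dW f (Pi.single j 1) x := by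
    intro s
    induction s using Finset.induction_on with
    | empty =>
      simp only [Finset.sum_empty]
      have := VCalc_442.dW_smul_dir f x 0 0
      simpa using this
    | insert j s hj ih =>
      rw [Finset.sum_insert hj, Finset.sum_insert hj, VCalc_442.dW_add_dir, ih,
        VCalc_442.dW_smul_dir, smul_eq_mul]
  conv_lhs => rw [h1]
  exact h2 _

lemma dz_eq_dW (j : Fin m) (f : X → ℂ) {e : OpenPartialHomeomorph X (Fin m → ℂ)} (he : IsCh e)
    {x : X} (hx : x ∈ e.source) :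
    dz j f x = VCalc_442.dW (f ∘ e.symm) (Pi.single j 1) (cp x) := by
  rw [dz_eq, D_eq he hx]
  unfold VCalc_442.dW
  have h1 : (Complex.I • (Pi.single j (1 : ℂ)) : Fin m → ℂ) = Pi.single j Complex.I := by
    rw [← Pi.single_smul', smul_eq_mul, mul_one]
  rw [h1]
  simp only [smul_eq_mul]

lemma db_eq_dB (j : Fin m) (f : X → ℂ) {e : OpenPartialHomeomorph X (Fin m → ℂ)} (he : IsCh e)
    {x : X} (hx : x ∈ e.source) :
    db j f x = VCalc_442.dB (f ∘ e.symm) (Pi.single j 1) (cp x) := by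
  rw [db_eq, D_eq he hx]
  unfold VCalc_442.dB
  have h1 : (Complex.I • (Pi.single j (1 : ℂ)) : Fin m → ℂ) = Pi.single j Complex.I := by
    rw [← Pi.single_smul', smul_eq_mul, mul_one]
  rw [h1]
  simp only [smul_eq_mul]

/-- smoothness at a point in another chart -/
lemma SmAt.congr_chart {G : Type*} [NormedAddCommGroup G] [NormedSpace ℝ G] {f : X → G} {z : X}
    (h : SmAt f z) {e : OpenPartialHomeomorph X (Fin m → ℂ)} (he : IsCh e) (hz : z ∈ e.source) :
    ContDiffAt ℝ (⊤ : ℕ∞) (f ∘ e.symm) (cp z) :=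
  ContDiffAt.congr_of_eventuallyEq h (comp_germ he (isCh_ch z) hz (mem_ch z) f)

lemma HolAt.congr_chart {G : Type*} [NormedAddCommGroup G] [NormedSpace ℂ G] {f : X → G} {z : X}
    (h : HolAt f z) {e : OpenPartialHomeomorph X (Fin m → ℂ)} (he : IsCh e) (hz : z ∈ e.source) :
    AnalyticAt ℂ (f ∘ e.symm) (cp z) :=
  AnalyticAt.congr h (by
    filter_upwards [(isCh_ch z).germ he (mem_ch z) hz] with c hc
    simp only [Function.comp_apply, hc])

lemma SmAt.congr {G : Type*} [NormedAddCommGroup G] [NormedSpace ℝ G] {f g : X → G} {z : X}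
    (h : SmAt f z) (hfg : f =ᶠ[𝓝 z] g) : SmAt g z := by
  refine ContDiffAt.congr_of_eventuallyEq h ?_
  have h1 : Tendsto (ch z).symm (𝓝 (cp z)) (𝓝 z) := by
    have := (ch z).symm.continuousAt (x := cp z) (by simpa using (isCh_ch z).cp_mem (mem_ch z))
    rwa [ContinuousAt, (isCh_ch z).symm_cp (mem_ch z)] at this
  filter_upwards [h1.eventually hfg] with c hc
  simpa using hc.symm

lemma HolAt.congr {G : Type*} [NormedAddCommGroup G] [NormedSpace ℂ G] {f g : X → G} {z : X}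
    (h : HolAt f z) (hfg : f =ᶠ[𝓝 z] g) : HolAt g z := by
  refine AnalyticAt.congr h ?_
  have h1 : Tendsto (ch z).symm (𝓝 (cp z)) (𝓝 z) := by
    have := (ch z).symm.continuousAt (x := cp z) (by simpa using (isCh_ch z).cp_mem (mem_ch z))
    rwa [ContinuousAt, (isCh_ch z).symm_cp (mem_ch z)] at this
  filter_upwards [h1.eventually hfg] with c hc
  simpa using hc

/-- entries of a conjugated field -/
lemma mul_mul_entry (M F M' : Matrix (Fin N) (Fin N) ℂ) (i j : Fin N) :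
    (M * F * M') i j = ∑ l, (∑ k, M i k * F k l) * M' l j := by
  simp only [Matrix.mul_apply]

/-- A `VHS` near a point `z`, in the frame at `z` and the chart at `z`, is a polarised VHS in the
sense of `VCalc_442`. -/
theorem VHS.local (V : VHS m X N w) (z : X) :
    ∃ U : Set (Fin m → ℂ), IsOpen U ∧ cp z ∈ U ∧ U ⊆ (ch z).target ∧
      (∀ c ∈ U, ∀ d ∈ U, V.P z ((ch z).symm c) * V.P ((ch z).symm c) ((ch z).symm d) =
        V.P z ((ch z).symm d)) ∧
      (∀ c ∈ U, V.S ((ch z).symm c) =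
        (cm (V.P z ((ch z).symm c)))ᴴ * V.S z * cm (V.P z ((ch z).symm c))) ∧
      VCalc_442.VHS w U (V.S z) (fun p c => hq w (lM V.P V.E z ((ch z).symm c)) p) := by
  set e := ch z with he_def
  have he : IsCh e := isCh_ch z
  have hze : z ∈ e.source := mem_ch z
  have ht : Tendsto e.symm (𝓝 (cp z)) (𝓝 z) := by
    have := e.symm.continuousAt (x := cp z) (by simpa using he.cp_mem hze)
    rwa [ContinuousAt, he.symm_cp hze] at this
  obtain ⟨U, hU, h⟩ := V.ndc z
  obtain ⟨W, hWU, hW, hzW⟩ := mem_nhds_iff.mp (Filter.inter_mem (ht.eventually_mem hU)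
    (Filter.inter_mem (ht.eventually (V.flatS z)) (e.open_target.mem_nhds (he.cp_mem hze))))
  have hW1 : ∀ c ∈ W, e.symm c ∈ U := fun c hc => (hWU hc).1
  have hWt : ∀ c ∈ W, c ∈ e.target := fun c hc => (hWU hc).2.2
  have hS : ∀ c ∈ W, V.S (e.symm c) =
      (cm (V.P z (e.symm c)))ᴴ * V.S z * cm (V.P z (e.symm c)) := fun c hc => (hWU hc).2.1
  have hzU : z ∈ U := mem_of_mem_nhds hU
  have hP : ∀ c ∈ W, ∀ d ∈ W, V.P z (e.symm c) * V.P (e.symm c) (e.symm d) = V.P z (e.symm d) :=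
    fun c hc d hd => h z hzU _ (hW1 c hc) _ (hW1 d hd)
  refine ⟨W, hW, hzW, hWt, hP, hS, ?_⟩
  have hM : ∀ c ∈ W, ∀ d ∈ W, lM V.P V.E z (e.symm d) =
      cm (V.P z (e.symm c)) * lM V.P V.E (e.symm c) (e.symm d) * cm (V.P z (e.symm c))⁻¹ := by
    intro c hc d hd
    unfold lM
    rw [← hP c hc d hd, cm_mul, _root_.mul_inv_rev, cm_mul]
    noncomm_ring
  have hsm : ∀ c ∈ W, ∀ i j,
      ContDiffAt ℝ (⊤ : ℕ∞) (fun d => lM V.P V.E (e.symm c) (e.symm d) i j) c := by
    intro c hc i j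
    have h1 := (V.smE (e.symm c) i j).congr_chart he (e.map_target (hWt c hc))
    rw [he.cp_symm (hWt c hc)] at h1
    exact h1
  refine toVCalc hW (fun c hc => (V.hs _).lM (hS c hc)) (fun i j c hc => ?_) ?_ (V.hs z).herm
  · have h1 : (fun d => lM V.P V.E z (e.symm d) i j) =ᶠ[𝓝 c]
        fun d => ∑ l, (∑ k, cm (V.P z (e.symm c)) i k * lM V.P V.E (e.symm c) (e.symm d) k l) *
          cm (V.P z (e.symm c))⁻¹ l j := by
      filter_upwards [hW.mem_nhds hc] with d hd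
      rw [hM c hc d hd, mul_mul_entry]
    refine (ContDiffAt.congr_of_eventuallyEq ?_ h1).contDiffWithinAt
    refine ContDiffAt.sum fun l _ => (ContDiffAt.sum fun k _ => ?_).mul contDiffAt_const
    exact contDiffAt_const.mul (hsm c hc k l)
  · intro c hc v
    have hW' : VCalc_442.mW (fun d => lM V.P V.E z (e.symm d)) v c =
        cm (V.P z (e.symm c)) * (∑ j, v j • dM V.P V.E j (e.symm c)) *
          cm (V.P z (e.symm c))⁻¹ := by
      have h2 : VCalc_442.mW (fun d => lM V.P V.E z (e.symm d)) v c =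
          VCalc_442.mW (fun d => cm (V.P z (e.symm c)) * lM V.P V.E (e.symm c) (e.symm d) *
            cm (V.P z (e.symm c))⁻¹) v c := by
        ext i j
        simp only [VCalc_442.mW, Matrix.of_apply]
        refine VCalc_442.dW_congr ?_ v
        filter_upwards [hW.mem_nhds hc] with d hd
        rw [hM c hc d hd]
      rw [h2, mW_conj _ _ fun i j => (hsm c hc i j).differentiableAt (by simp)]
      congr 2
      ext i k
      simp only [VCalc_442.mW, Matrix.of_apply, Matrix.sum_apply, Matrix.smul_apply, dM,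
        smul_eq_mul]
      rw [dW_sum_dir]
      refine Finset.sum_congr rfl fun j _ => ?_
      rw [dz_eq_dW j _ he (e.map_target (hWt c hc)), he.cp_symm (hWt c hc)]
      rfl
    have h2 : lM V.P V.E z (e.symm c) =
      cm (V.P z (e.symm c)) * V.E (e.symm c) * cm (V.P z (e.symm c))⁻¹ := rfl
    rw [hW', h2]
    set g := cm (V.P z (e.symm c)) with hg
    set g' := cm (V.P z (e.symm c))⁻¹ with hg'
    set B := ∑ j, v j • dM V.P V.E j (e.symm c) with hB
    have h4 : g' * g = 1 := cm_inv_mul_cm _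
    have h3 : V.E (e.symm c) * B - B * V.E (e.symm c) = - B := by
      rw [hB, Finset.mul_sum, Finset.sum_mul, ← Finset.sum_sub_distrib, ← Finset.sum_neg_distrib]
      refine Finset.sum_congr rfl fun j _ => ?_
      rw [mul_smul_comm, smul_mul_assoc, ← smul_sub, V.tr, smul_neg]
    calc g * V.E (e.symm c) * g' * (g * B * g') - g * B * g' * (g * V.E (e.symm c) * g')
        = g * (V.E (e.symm c) * (g' * g) * B - B * (g' * g) * V.E (e.symm c)) * g' := by
          noncomm_ring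
      _ = g * (V.E (e.symm c) * B - B * V.E (e.symm c)) * g' := by
          rw [h4]; simp only [mul_one]
      _ = _ := by rw [h3]; noncomm_ring

end mdim

end Crest.Agent.R276.Ipc735
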