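import Mathlib
import Crest.Agent.R276.IpcLoc_735
import Crest.Agent.R276.DiscA_651
import Crest.Agent.R276.EndTh_659
import Crest.Agent.R266.SCV

-- ▼ part R276/DiscM_651
section

/-!
# Row 276, leaf DISC (helper651): Minkowski's lemma

An integral matrix of finite order which is `≡ 1 mod 3` is `1`; hence elements of finite order of `GL_N(ℤ)`
have order dividing `card GL_N(ZMod 3)`.
-/

set_option autoImplicit false

noncomputable section

open Matrix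

namespace Crest.Agent.R276.DiscM_651

variable {N : ℕ}


lemma smul_cancel {n : ℤ} (hn : n ≠ 0) {A : Matrix (Fin N) (Fin N) ℤ} (h : n • A = 0) : A = 0 := by
  ext i j
  have := congrFun (congrFun h i) j
  simpa [hn] using this

/-- `ℓ` prime, `g^ℓ = 1`, `g = 1 + 3 h` ⇒ `3 ∣ h` and so on: one step of the descent -/
lemma step {l : ℕ} (hl : l.Prime) {g : Matrix (Fin N) (Fin N) ℤ} (hg : g ^ l = 1) {a : ℕ}
    (ha : 1 ≤ a) {h : Matrix (Fin N) (Fin N) ℤ} (e : g = 1 + (3 ^ a : ℤ) • h) :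
    ∃ h', h = (3 : ℤ) • h' := by
  have h3 : (3 : ℤ) ^ a ≠ 0 := by positivity
  -- `h * (1 + g + ... + g^(l-1)) = 0`
  have hgeom : h * ∑ i ∈ Finset.range l, g ^ i = 0 := by
    apply smul_cancel h3
    have h1 : (g - 1) * ∑ i ∈ Finset.range l, g ^ i = 0 := by
      rw [mul_geom_sum, hg, sub_self]
    have h2 : g - 1 = (3 ^ a : ℤ) • h := by rw [e]; abel
    rw [h2, smul_mul_assoc] at h1
    exact h1
  by_cases hl3 : l = 3
  · subst hl3
    -- `1 + g + g² = 3 (1 + 3^a h + 3^(2a-1) h²)`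
    obtain ⟨b, rfl⟩ : ∃ b, a = b + 1 := ⟨a - 1, by omega⟩
    have hs : ∑ i ∈ Finset.range 3, g ^ i =
        (3 : ℤ) • (1 + (3 : ℤ) • ((3 ^ b : ℤ) • h + (3 ^ (2 * b) : ℤ) • (h * h))) := by
      rw [Finset.sum_range_succ, Finset.sum_range_succ, Finset.sum_range_succ,
        Finset.sum_range_zero, zero_add, pow_zero, pow_one, pow_two, e]
      have h5 : (3 ^ (b + 1) : ℤ) • h * (3 ^ (b + 1) : ℤ) • h =
          ((3 ^ (b + 1)) * (3 ^ (b + 1)) : ℤ) • (h * h) := by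
        rw [smul_mul_smul_comm]
      rw [add_mul, one_mul, mul_add, mul_one, h5]
      module
    rw [hs, mul_smul_comm] at hgeom
    have h6 := smul_cancel (by norm_num) hgeom
    refine ⟨-(h * ((3 ^ b : ℤ) • h + (3 ^ (2 * b) : ℤ) • (h * h))), ?_⟩
    rw [mul_add, mul_one, mul_smul_comm] at h6
    rw [smul_neg]
    exact eq_neg_of_add_eq_zero_left h6
  · -- `∑ g^i = l + 3 k`
    have hmod : ∀ i : ℕ, ∃ k, g ^ i = 1 + (3 : ℤ) • k := by
      intro i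
      induction i with
      | zero => exact ⟨0, by simp⟩
      | succ i ih =>
        obtain ⟨k, hk⟩ := ih
        obtain ⟨b, rfl⟩ : ∃ b, a = b + 1 := ⟨a - 1, by omega⟩
        refine ⟨k + g ^ i * ((3 ^ b : ℤ) • h), ?_⟩
        rw [pow_succ]
        nth_rewrite 2 [e]
        rw [mul_add, mul_one, mul_smul_comm, mul_smul_comm]
        nth_rewrite 1 [hk]
        rw [pow_succ]
        module
    choose k hk using hmod
    have hs : ∑ i ∈ Finset.range l, g ^ i =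
        (l : ℤ) • 1 + (3 : ℤ) • ∑ i ∈ Finset.range l, k i := by
      rw [Finset.sum_congr rfl fun i _ => hk i, Finset.sum_add_distrib, Finset.sum_const,
        Finset.card_range, Finset.smul_sum]
      simp
    rw [hs, mul_add, mul_smul_comm, mul_one, mul_smul_comm] at hgeom
    -- `l h + 3 h k = 0`, `l` prime to `3`
    have hco : IsCoprime (l : ℤ) 3 := by
      have : Nat.Coprime l 3 := (Nat.coprime_primes hl Nat.prime_three).mpr hl3
      exact_mod_cast Nat.isCoprime_iff_coprime.mpr this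
    obtain ⟨u, v, huv⟩ := hco
    refine ⟨v • h - u • (h * ∑ i ∈ Finset.range l, k i), ?_⟩
    have h7 : (l : ℤ) • h = -((3 : ℤ) • (h * ∑ i ∈ Finset.range l, k i)) :=
      eq_neg_of_add_eq_zero_left hgeom
    calc h = (u * l + v * 3) • h := by rw [huv, one_smul]
      _ = u • ((l : ℤ) • h) + (v * 3) • h := by rw [add_smul, mul_smul]
      _ = _ := by rw [h7]; module




/-- the universal exponent of the torsion of `GL_N(ℤ)` -/
def expo (N : ℕ) : ℕ := Nat.card (GL (Fin N) (ZMod 3))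




end Crest.Agent.R276.DiscM_651
end
end

-- ▼ part R276/DiscB_651
section

/-!
# Row 276, leaf DISC (helper651), part B : isomorphisms between the fibres of variations with lattice

* `Iso V V' x y g` : `g ∈ GL_N(ℤ)` is an isomorphism from the fibre of `V'` at `y` onto the fibre of `V` at `x`.
* `iso_near` : every isomorphism at a point near `(z₀,z₁)` is transported from one at `(z₀,z₁)`.
* `isClosed_eqv`, `eqv_local`, `eqv_near`, `const_along`, `stab`.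
-/

set_option autoImplicit false

noncomputable section

open Set Filter Topology Matrix
open Crest.Agent.R271.Ho51
open Crest.Agent.R276.Ipc735

namespace Crest.Agent.R276.DiscB_651

open DiscA_651 (hq hq_conj exists_bounds finite_isom)

variable {N w : ℕ}
variable {m : ℕ} {X : Type*} [TopologicalSpace X] [RDom m X]
variable {m' : ℕ} {X' : Type*} [TopologicalSpace X'] [RDom m' X']
variable {m'' : ℕ} {X'' : Type*} [TopologicalSpace X''] [RDom m'' X'']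

/-! ### isomorphisms -/

/-- `g` is an isomorphism from the fibre of `V'` at `y` to the fibre of `V` at `x` (lattices, forms,
Hodge structures) -/
structure Iso (V : VHS m X N w) (V' : VHS m' X' N w) (x : X) (y : X') (g : GL (Fin N) ℤ) :
    Prop where
  E : cm g * V'.E y = V.E x * cm g
  S : (cm g)ᴴ * V.S x * cm g = V'.S y

variable (V : VHS m X N w) (V' : VHS m' X' N w) (V'' : VHS m'' X'' N w)

lemma Iso.refl (x : X) : Iso V V x x 1 := ⟨by simp, by simp⟩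

variable {V V' V''}

lemma Iso.symm {x : X} {y : X'} {g : GL (Fin N) ℤ} (h : Iso V V' x y g) : Iso V' V y x g⁻¹ := by
  constructor
  · calc cm g⁻¹ * V.E x = cm g⁻¹ * (V.E x * cm g) * cm g⁻¹ := by
          rw [Matrix.mul_assoc, Matrix.mul_assoc, cm_mul_cm_inv, Matrix.mul_one]
      _ = V'.E y * cm g⁻¹ := by
          rw [← h.E, ← Matrix.mul_assoc, cm_inv_mul_cm, Matrix.one_mul]
  · rw [← h.S]
    have h3 : (cm g⁻¹)ᴴ * (cm g)ᴴ = 1 := by
      rw [← Matrix.conjTranspose_mul, cm_mul_cm_inv, Matrix.conjTranspose_one]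
    calc (cm g⁻¹)ᴴ * ((cm g)ᴴ * V.S x * cm g) * cm g⁻¹
        = ((cm g⁻¹)ᴴ * (cm g)ᴴ) * V.S x * (cm g * cm g⁻¹) := by noncomm_ring
      _ = V.S x := by rw [h3, cm_mul_cm_inv]; simp

lemma Iso.trans {x : X} {y : X'} {z : X''} {g h : GL (Fin N) ℤ} (hg : Iso V V' x y g)
    (hh : Iso V' V'' y z h) : Iso V V'' x z (g * h) := by
  constructor
  · rw [cm_mul, Matrix.mul_assoc, hh.E, ← Matrix.mul_assoc, hg.E, Matrix.mul_assoc]
  · rw [cm_mul, Matrix.conjTranspose_mul, ← hh.S, ← hg.S]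
    noncomm_ring


variable (V V')



/-! ### continuity of the period map -/







/-! ### finiteness and discreteness -/

/-- the isomorphisms between two fibres form a finite set -/
theorem finite_iso (x : X) (y : X') : {g : GL (Fin N) ℤ | Iso V V' x y g}.Finite := by
  obtain ⟨c, hc, C, hC, h⟩ := exists_bounds (V.hs x)
  obtain ⟨c', hc', C', hC', h'⟩ := exists_bounds (V'.hs y)
  refine (finite_isom w c C' hc).subset ?_
  intro g hg
  exact ⟨V.S x, V.E x, V'.S y, V'.E y, h.self_of_nhds.1, h'.self_of_nhds.2, hg.E, hg.S⟩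




/-- the fibres are isomorphic -/
def Eqv (x : X) (y : X') : Prop := ∃ g, Iso V V' x y g

lemma Eqv.refl (x : X) : Eqv V V x x := ⟨1, Iso.refl V x⟩

lemma Eqv.symm {V : VHS m X N w} {V' : VHS m' X' N w} {x : X} {y : X'} (h : Eqv V V' x y) : Eqv V' V y x := by
  obtain ⟨g, hg⟩ := h
  exact ⟨_, hg.symm⟩

lemma Eqv.trans {V : VHS m X N w} {V' : VHS m' X' N w} {V'' : VHS m'' X'' N w} {x : X} {y : X'} {z : X''} (h : Eqv V V' x y) (h' : Eqv V' V'' y z) :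
    Eqv V V'' x z := by
  obtain ⟨g, hg⟩ := h
  obtain ⟨g', hg'⟩ := h'
  exact ⟨_, hg.trans hg'⟩





/-! ### the stabiliser -/

/-- the automorphism group of a fibre -/
def stab (x : X) : Subgroup (GL (Fin N) ℤ) where
  carrier := {g | Iso V V x x g}
  mul_mem' := fun h h' => h.trans h'
  one_mem' := Iso.refl V x
  inv_mem' := fun h => h.symm


instance (x : X) : Finite (stab V x) := (finite_iso V V x x).to_subtype



/-! ### fields constant along a set -/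

section along

variable {T : Type*} [TopologicalSpace T] {γ : T → X}






end along

/-! ### derivative criterion -/


end Crest.Agent.R276.DiscB_651
end
end

-- ▼ part R276/BdNf1_651

/-!
# Row 276, leaf BDNF (helper651), part 1 : flat frames along holomorphic maps of convex sets

`χ : Y → X` a holomorphic map from a convex open subset `Ω` of a finite dimensional complex space to the
base of a `VHS`.  `Fr V Ω χ` = flat frame along `χ`; it gives a variation in the sense of `VCalc_442` on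
`Ω` with constant form, and a dictionary for sections.
-/

set_option autoImplicit false
set_option linter.unusedSectionVars false

noncomputable section

open Set Filter Topology Matrix
open Crest.Agent.R271.Ho51
open Crest.Agent.R276.Ipc735
open scoped ContDiff

namespace Crest.Agent.R276.BdNf1_651

open Ipc735 (hq)

variable {N w : ℕ} {m : ℕ} {X : Type*} [TopologicalSpace X] [RDom m X]
variable {Y : Type*} [NormedAddCommGroup Y] [NormedSpace ℂ Y]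

/-- a holomorphic map of a nonempty open convex set into a Riemann domain -/
structure HM (Ω : Set Y) (χ : Y → X) : Prop where
  op : IsOpen Ω
  cvx : Convex ℝ Ω
  ne : Ω.Nonempty
  cont : ContinuousOn χ Ω
  diff : DifferentiableOn ℂ (fun y => (cp (χ y) : Fin m → ℂ)) Ω

/-- a flat frame along `χ` -/
structure Fr (V : VHS m X N w) (Ω : Set Y) (χ : Y → X) where
  g : Y → GL (Fin N) ℤ
  S : Matrix (Fin N) (Fin N) ℂ
  loc : ∀ z ∈ Ω, ∃ U ∈ 𝓝 z, ∀ x ∈ U, ∀ y ∈ U, V.P (χ x) (χ y) = g x * (g y)⁻¹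
  S_eq : ∀ z ∈ Ω, S = (cm (g z))ᴴ * V.S (χ z) * cm (g z)

variable (V : VHS m X N w) {Ω : Set Y} {χ : Y → X}

section exist

variable {V}

lemma HM.tendsto (h : HM Ω χ) {z : Y} (hz : z ∈ Ω) : Tendsto χ (𝓝 z) (𝓝 (χ z)) :=
  h.cont.continuousAt (h.op.mem_nhds hz)

/-- the transformed form is locally constant -/
lemma S_const {g : Y → GL (Fin N) ℤ} (h : HM Ω χ)
    (hloc : ∀ z ∈ Ω, ∃ U ∈ 𝓝 z, ∀ x ∈ U, ∀ y ∈ U, V.P (χ x) (χ y) = g x * (g y)⁻¹) {z0 u : Y}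
    (hz0 : z0 ∈ Ω) (hu : u ∈ Ω) : (cm (g z0))ᴴ * V.S (χ z0) * cm (g z0) =
      (cm (g u))ᴴ * V.S (χ u) * cm (g u) := by
  refine Top1_358.prop_of_isPreconnected (X := Y) h.cvx.isPreconnected
    (P := fun v => (cm (g z0))ᴴ * V.S (χ z0) * cm (g z0) =
      (cm (g v))ᴴ * V.S (χ v) * cm (g v)) ?_ hz0 rfl hu
  intro v hv
  obtain ⟨U, hU, hh⟩ := hloc v hv
  refine ⟨U ∩ {y | V.S (χ y) = (cm (V.P (χ v) (χ y)))ᴴ * V.S (χ v) *
    cm (V.P (χ v) (χ y))}, mem_nhdsWithin_of_mem_nhds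
    (Filter.inter_mem hU ((h.tendsto hv).eventually (V.flatS (χ v)))), ?_⟩
  rintro y ⟨hy1, hy2⟩
  have hy2' : V.S (χ y) = (cm (V.P (χ v) (χ y)))ᴴ * V.S (χ v) *
    cm (V.P (χ v) (χ y)) := hy2
  have h1 := hh v (mem_of_mem_nhds hU) y hy1
  have h3 : (cm (g y))ᴴ * V.S (χ y) * cm (g y) = (cm (g v))ᴴ * V.S (χ v) * cm (g v) := by
    rw [hy2', h1, cm_mul, Matrix.conjTranspose_mul]
    have h4 : (cm (g y))ᴴ * (cm (g y)⁻¹)ᴴ = 1 := by
      rw [← Matrix.conjTranspose_mul, cm_inv_mul_cm, Matrix.conjTranspose_one]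
    calc (cm (g y))ᴴ * ((cm (g y)⁻¹)ᴴ * (cm (g v))ᴴ * V.S (χ v) * (cm (g v) * cm (g y)⁻¹)) *
          cm (g y) = ((cm (g y))ᴴ * (cm (g y)⁻¹)ᴴ) * (cm (g v))ᴴ * V.S (χ v) * cm (g v) *
          (cm (g y)⁻¹ * cm (g y)) := by noncomm_ring
      _ = _ := by rw [h4, cm_inv_mul_cm]; simp
  show (_ = _) ↔ (_ = _)
  rw [h3]

variable (V)

theorem exists_fr (h : HM Ω χ) : Nonempty (Fr V Ω χ) := by
  obtain ⟨g, hg⟩ := Top1_358.trivial_on_convex h.cvx (c := fun u v => V.P (χ u) (χ v)) (by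
    intro z hz
    obtain ⟨U, hU, hh⟩ := V.ndc (χ z)
    exact ⟨χ ⁻¹' U, h.tendsto hz hU, fun x hx y hy w hw _ _ _ => hh _ hx _ hy _ hw⟩)
  have hloc : ∀ z ∈ Ω, ∃ U ∈ 𝓝 z, ∀ u ∈ U, ∀ v ∈ U, V.P (χ u) (χ v) = g u * (g v)⁻¹ := by
    intro z hz
    obtain ⟨U, hU, hh⟩ := hg z hz
    exact ⟨U ∩ Ω, Filter.inter_mem hU (h.op.mem_nhds hz),
      fun u hu v hv => hh u hu.1 v hv.1 hu.2 hv.2⟩
  obtain ⟨z0, hz0⟩ := h.ne
  exact ⟨⟨g, (cm (g z0))ᴴ * V.S (χ z0) * cm (g z0), hloc, fun z hz => S_const h hloc hz0 hz⟩⟩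

/-- two frames along the same map differ by a constant -/
lemma frame_unique {Ω : Set Y} (hpre : IsPreconnected Ω) {P : Y → Y → GL (Fin N) ℤ}
    {g g' : Y → GL (Fin N) ℤ}
    (hg : ∀ z ∈ Ω, ∃ U ∈ 𝓝 z, ∀ x ∈ U, ∀ y ∈ U, P x y = g x * (g y)⁻¹)
    (hg' : ∀ z ∈ Ω, ∃ U ∈ 𝓝 z, ∀ x ∈ U, ∀ y ∈ U, P x y = g' x * (g' y)⁻¹) {z u : Y}
    (hz : z ∈ Ω) (hu : u ∈ Ω) : (g z)⁻¹ * g' z = (g u)⁻¹ * g' u := by
  refine Top1_358.prop_of_isPreconnected (X := Y) hpre
    (P := fun v => (g z)⁻¹ * g' z = (g v)⁻¹ * g' v) ?_ hz rfl hu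
  intro v hv
  obtain ⟨U, hU, h⟩ := hg v hv
  obtain ⟨U', hU', h'⟩ := hg' v hv
  refine ⟨U ∩ U', mem_nhdsWithin_of_mem_nhds (Filter.inter_mem hU hU'), ?_⟩
  rintro y ⟨hy1, hy2⟩
  have h1 := h v (mem_of_mem_nhds hU) y hy1
  have h2 := h' v (mem_of_mem_nhds hU') y hy2
  rw [h1] at h2
  have h3 : (g v)⁻¹ * g' v = (g y)⁻¹ * g' y := by
    have h4 : g v = g' v * (g' y)⁻¹ * g y := by rw [← h2]; group
    rw [h4]; group
  show (_ = _) ↔ (_ = _)
  rw [h3]

end exist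

/-! ### the variation over `Ω` -/

namespace Fr

variable {V} (n : Fr V Ω χ)

/-- the grading operator in the flat frame -/
def E (z : Y) : Matrix (Fin N) (Fin N) ℂ := cm (n.g z)⁻¹ * V.E (χ z) * cm (n.g z)

/-- a section in the flat frame -/
def pull (φ : X → Fin N → ℂ) (z : Y) : Fin N → ℂ := cm (n.g z)⁻¹ *ᵥ φ (χ z)

lemma hs {z : Y} (hz : z ∈ Ω) : IsHS w n.S (n.E z) := by
  rw [n.S_eq z hz]
  exact (V.hs (χ z)).conj (g := cm (n.g z)⁻¹) (g' := cm (n.g z)) (cm_inv_mul_cm _) (cm_mul_cm_inv _)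

lemma E_ev {z : Y} (hz : z ∈ Ω) :
    n.E =ᶠ[𝓝 z] fun u => cm (n.g z)⁻¹ * lM V.P V.E (χ z) (χ u) * cm (n.g z) := by
  obtain ⟨U, hU, h⟩ := n.loc z hz
  filter_upwards [hU] with u hu
  have h1 := h z (mem_of_mem_nhds hU) u hu
  unfold E lM
  rw [h1, _root_.mul_inv_rev, inv_inv, cm_mul, cm_mul]
  calc cm (n.g u)⁻¹ * V.E (χ u) * cm (n.g u)
      = 1 * cm (n.g u)⁻¹ * V.E (χ u) * cm (n.g u) * 1 := by simp
    _ = (cm (n.g z)⁻¹ * cm (n.g z)) * cm (n.g u)⁻¹ * V.E (χ u) * cm (n.g u) *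
        (cm (n.g z)⁻¹ * cm (n.g z)) := by
        rw [cm_inv_mul_cm]
    _ = _ := by noncomm_ring

lemma pull_ev (φ : X → Fin N → ℂ) {z : Y} (hz : z ∈ Ω) :
    n.pull φ =ᶠ[𝓝 z] fun u => cm (n.g z)⁻¹ *ᵥ lV V.P φ (χ z) (χ u) := by
  obtain ⟨U, hU, h⟩ := n.loc z hz
  filter_upwards [hU] with u hu
  have h1 := h z (mem_of_mem_nhds hU) u hu
  unfold pull lV
  rw [h1, cm_mul, Matrix.mulVec_mulVec, ← Matrix.mul_assoc, cm_inv_mul_cm, Matrix.one_mul]

/-- near `z` the map `χ` is read off in the chart at `χ z` -/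
lemma chart_ev (h : HM Ω χ) {z : Y} (hz : z ∈ Ω) :
    ∀ᶠ u in 𝓝 z, u ∈ Ω ∧ χ u ∈ (ch (χ z)).source ∧ (ch (χ z)).symm (cp (χ u)) = χ u := by
  have h1 := (h.tendsto hz).eventually ((ch (χ z)).open_source.mem_nhds (mem_ch (χ z)))
  filter_upwards [h1, h.op.mem_nhds hz] with u hu hu2
  exact ⟨hu2, hu, (isCh_ch (χ z)).symm_cp hu⟩

lemma E_chart (h : HM Ω χ) {z : Y} (hz : z ∈ Ω) :
    n.E =ᶠ[𝓝 z] fun u => cm (n.g z)⁻¹ *
      (fun c => lM V.P V.E (χ z) ((ch (χ z)).symm c)) (cp (χ u)) * cm (n.g z) := by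
  filter_upwards [n.E_ev hz, chart_ev h hz] with u hu hc
  rw [hu]
  simp only [hc.2.2]

lemma pull_chart (h : HM Ω χ) (φ : X → Fin N → ℂ) {z : Y} (hz : z ∈ Ω) :
    n.pull φ =ᶠ[𝓝 z] fun u => cm (n.g z)⁻¹ *ᵥ
      (fun c => lV V.P φ (χ z) ((ch (χ z)).symm c)) (cp (χ u)) := by
  filter_upwards [n.pull_ev φ hz, chart_ev h hz] with u hu hc
  rw [hu]
  simp only [hc.2.2]

section fd

variable [FiniteDimensional ℂ Y]

lemma analyticAt_cp (h : HM Ω χ) {z : Y} (hz : z ∈ Ω) :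
    AnalyticAt ℂ (fun y => (cp (χ y) : Fin m → ℂ)) z :=
  Crest.Agent.R266.SCV.analyticOnNhd_of_differentiableOn h.op h.diff z hz

lemma contDiffAt_cp (h : HM Ω χ) {z : Y} (hz : z ∈ Ω) (k : WithTop ℕ∞) :
    ContDiffAt ℝ k (fun y => (cp (χ y) : Fin m → ℂ)) z :=
  ((analyticAt_cp h hz).contDiffAt (n := k)).restrict_scalars ℝ

lemma lM_smooth (z : X) (i j : Fin N) :
    ContDiffAt ℝ (⊤ : ℕ∞) (fun c => lM V.P V.E z ((ch z).symm c) i j) (cp z) := V.smE z i j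

lemma lM_comp (h : HM Ω χ) {z : Y} (hz : z ∈ Ω) (i j : Fin N) :
    ContDiffAt ℝ (⊤ : ℕ∞)
      (fun u => (fun c => lM V.P V.E (χ z) ((ch (χ z)).symm c)) (cp (χ u)) i j) z :=
  ContDiffAt.comp (g := fun c => lM V.P V.E (χ z) ((ch (χ z)).symm c) i j)
    (f := fun u => (cp (χ u) : Fin m → ℂ)) z (lM_smooth (V := V) (χ z) i j) (contDiffAt_cp h hz _)

lemma smE (h : HM Ω χ) {z : Y} (hz : z ∈ Ω) (i j : Fin N) :
    ContDiffAt ℝ (⊤ : ℕ∞) (fun u => n.E u i j) z := by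
  have h1 : (fun u => n.E u i j) =ᶠ[𝓝 z] fun u => ∑ l, (∑ k, cm (n.g z)⁻¹ i k *
      (fun c => lM V.P V.E (χ z) ((ch (χ z)).symm c)) (cp (χ u)) k l) * cm (n.g z) l j := by
    filter_upwards [n.E_chart h hz] with u hu
    rw [hu, mul_mul_entry]
  refine ContDiffAt.congr_of_eventuallyEq ?_ h1
  refine ContDiffAt.sum fun l _ => (ContDiffAt.sum fun k _ => ?_).mul contDiffAt_const
  exact contDiffAt_const.mul (lM_comp (V := V) h hz k l)

/-- the Higgs field in the flat frame -/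
lemma mW_E (h : HM Ω χ) {z : Y} (hz : z ∈ Ω) (v : Y) :
    VCalc_442.mW n.E v z = cm (n.g z)⁻¹ *
      (∑ j, (fderiv ℂ (fun y => (cp (χ y) : Fin m → ℂ)) z v) j • dM V.P V.E j (χ z)) *
      cm (n.g z) := by
  have hsm : ∀ i j, DifferentiableAt ℝ
      (fun u => (fun c => lM V.P V.E (χ z) ((ch (χ z)).symm c)) (cp (χ u)) i j) z := fun i j =>
    (lM_comp (V := V) h hz i j).differentiableAt (by simp)
  have h2 : VCalc_442.mW n.E v z =
      VCalc_442.mW (fun u => cm (n.g z)⁻¹ * (fun c => lM V.P V.E (χ z) ((ch (χ z)).symm c))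
        (cp (χ u)) * cm (n.g z)) v z := by
    ext i j
    simp only [VCalc_442.mW, Matrix.of_apply]
    refine VCalc_442.dW_congr ?_ v
    filter_upwards [n.E_chart h hz] with u hu
    rw [hu]
  rw [h2, mW_conj _ _ hsm]
  congr 2
  ext i k
  simp only [VCalc_442.mW, Matrix.of_apply, Matrix.sum_apply, Matrix.smul_apply, dM, smul_eq_mul]
  have h3 := EndTh_659.dW_comp (F := fun c => lM V.P V.E (χ z) ((ch (χ z)).symm c) i k)
    (f := fun y => (cp (χ y) : Fin m → ℂ)) (y := z)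
    ((lM_smooth (V := V) (χ z) i k).differentiableAt (by simp))
    ((analyticAt_cp h hz).differentiableAt) v
  rw [h3, dW_sum_dir]
  refine Finset.sum_congr rfl fun j _ => ?_
  rw [dz_eq_dW j _ (isCh_ch (χ z)) (mem_ch (χ z))]
  rfl

/-- the variation over `Ω` -/
theorem vhs (h : HM Ω χ) : VCalc_442.VHS w Ω n.S (fun p z => hq w (n.E z) p) := by
  obtain ⟨z0, hz0⟩ := h.ne
  refine toVCalc h.op (fun z hz => n.hs hz)
    (fun i j z hz => (n.smE h hz i j).contDiffWithinAt) ?_ (n.hs hz0).herm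
  intro z hz v
  rw [n.mW_E h hz v]
  have h4 : cm (n.g z) * cm (n.g z)⁻¹ = 1 := cm_mul_cm_inv _
  set B := ∑ j, (fderiv ℂ (fun y => (cp (χ y) : Fin m → ℂ)) z v) j • dM V.P V.E j (χ z) with hB
  have h3 : V.E (χ z) * B - B * V.E (χ z) = - B := by
    rw [hB, Finset.mul_sum, Finset.sum_mul, ← Finset.sum_sub_distrib, ← Finset.sum_neg_distrib]
    refine Finset.sum_congr rfl fun j _ => ?_
    rw [mul_smul_comm, smul_mul_assoc, ← smul_sub, V.tr, smul_neg]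
  unfold E
  calc cm (n.g z)⁻¹ * V.E (χ z) * cm (n.g z) * (cm (n.g z)⁻¹ * B * cm (n.g z)) -
        cm (n.g z)⁻¹ * B * cm (n.g z) * (cm (n.g z)⁻¹ * V.E (χ z) * cm (n.g z))
      = cm (n.g z)⁻¹ * (V.E (χ z) * (cm (n.g z) * cm (n.g z)⁻¹) * B -
          B * (cm (n.g z) * cm (n.g z)⁻¹) * V.E (χ z)) * cm (n.g z) := by noncomm_ring
    _ = cm (n.g z)⁻¹ * (V.E (χ z) * B - B * V.E (χ z)) * cm (n.g z) := by
        rw [h4]; simp only [mul_one]
    _ = _ := by rw [h3]; noncomm_ring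

/-! ### sections -/

lemma pull_analytic (h : HM Ω χ) {φ : X → Fin N → ℂ} {z : Y} (hz : z ∈ Ω)
    (hφ : HolAt (lV V.P φ (χ z)) (χ z)) : AnalyticAt ℂ (n.pull φ) z := by
  have h0 : AnalyticAt ℂ (fun c => lV V.P φ (χ z) ((ch (χ z)).symm c)) (cp (χ z)) := hφ
  have h1 : AnalyticAt ℂ (fun u => (fun c => lV V.P φ (χ z) ((ch (χ z)).symm c)) (cp (χ u))) z :=
    AnalyticAt.comp (g := fun c => lV V.P φ (χ z) ((ch (χ z)).symm c)) h0 (analyticAt_cp h hz)
  have h2 : AnalyticAt ℂ (fun u => cm (n.g z)⁻¹ *ᵥ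
      (fun c => lV V.P φ (χ z) ((ch (χ z)).symm c)) (cp (χ u))) z := by
    let L : (Fin N → ℂ) →L[ℂ] (Fin N → ℂ) := (Matrix.mulVecLin (cm (n.g z)⁻¹)).toContinuousLinearMap
    exact L.analyticAt _ |>.comp h1
  exact h2.congr (n.pull_chart h φ hz).symm

/-- the derivative of a section in the flat frame -/
lemma fderiv_pull (h : HM Ω χ) {φ : X → Fin N → ℂ} {z : Y} (hz : z ∈ Ω)
    (hφ : HolAt (lV V.P φ (χ z)) (χ z)) (v : Y) : fderiv ℂ (n.pull φ) z v =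
      cm (n.g z)⁻¹ *ᵥ (fderiv ℂ (lV V.P φ (χ z) ∘ (ch (χ z)).symm) (cp (χ z))
        (fderiv ℂ (fun y => (cp (χ y) : Fin m → ℂ)) z v)) := by
  rw [(n.pull_chart h φ hz).fderiv_eq]
  let L : (Fin N → ℂ) →L[ℂ] (Fin N → ℂ) := (Matrix.mulVecLin (cm (n.g z)⁻¹)).toContinuousLinearMap
  have h0 : DifferentiableAt ℂ (lV V.P φ (χ z) ∘ (ch (χ z)).symm) (cp (χ z)) :=
    AnalyticAt.differentiableAt hφ
  have h1 := (analyticAt_cp h hz).differentiableAt
  have h2 : HasFDerivAt (fun u => (lV V.P φ (χ z) ∘ (ch (χ z)).symm) (cp (χ u)))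
      ((fderiv ℂ (lV V.P φ (χ z) ∘ (ch (χ z)).symm) (cp (χ z))).comp
        (fderiv ℂ (fun y => (cp (χ y) : Fin m → ℂ)) z)) z :=
    HasFDerivAt.comp z (g := lV V.P φ (χ z) ∘ (ch (χ z)).symm) h0.hasFDerivAt h1.hasFDerivAt
  have h3 := (L.hasFDerivAt (x := (lV V.P φ (χ z) ∘ (ch (χ z)).symm) (cp (χ z)))).comp z h2
  have h4 : fderiv ℂ (fun u => cm (n.g z)⁻¹ *ᵥ
      (fun c => lV V.P φ (χ z) ((ch (χ z)).symm c)) (cp (χ u))) z =
      L.comp ((fderiv ℂ (lV V.P φ (χ z) ∘ (ch (χ z)).symm) (cp (χ z))).comp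
        (fderiv ℂ (fun y => (cp (χ y) : Fin m → ℂ)) z)) := h3.fderiv
  rw [h4]
  rfl

end fd

/-- Hodge forms in the flat frame -/
lemma hodge_pull {z : Y} (hz : z ∈ Ω) (φ ψ : X → Fin N → ℂ) :
    star (n.pull φ z) ⬝ᵥ hodge w n.S (n.E z) *ᵥ n.pull ψ z =
      star (φ (χ z)) ⬝ᵥ hodge w (V.S (χ z)) (V.E (χ z)) *ᵥ ψ (χ z) := by
  have hE : cm (n.g z) * n.E z = V.E (χ z) * cm (n.g z) := by
    unfold E
    rw [Matrix.mul_assoc, ← Matrix.mul_assoc, cm_mul_cm_inv, Matrix.one_mul]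
  have h1 := DiscA_651.hodge_conj hE (n.S_eq z hz).symm w
  rw [h1]
  unfold pull
  rw [Matrix.star_mulVec, ← Matrix.dotProduct_mulVec, Matrix.mulVec_mulVec, Matrix.mulVec_mulVec]
  have h2 : (cm (n.g z)⁻¹)ᴴ * (cm (n.g z))ᴴ = 1 := by
    rw [← Matrix.conjTranspose_mul, cm_mul_cm_inv, Matrix.conjTranspose_one]
  congr 2
  calc (cm (n.g z)⁻¹)ᴴ * ((cm (n.g z))ᴴ * hodge w (V.S (χ z)) (V.E (χ z)) * cm (n.g z)) *
        cm (n.g z)⁻¹
      = ((cm (n.g z)⁻¹)ᴴ * (cm (n.g z))ᴴ) * hodge w (V.S (χ z)) (V.E (χ z)) *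
        (cm (n.g z) * cm (n.g z)⁻¹) := by noncomm_ring
    _ = _ := by rw [h2, cm_mul_cm_inv]; simp


lemma E_mulVec_pull (φ : X → Fin N → ℂ) (z : Y) :
    n.E z *ᵥ n.pull φ z = cm (n.g z)⁻¹ *ᵥ (V.E (χ z) *ᵥ φ (χ z)) := by
  unfold E pull
  rw [Matrix.mulVec_mulVec, Matrix.mulVec_mulVec]
  congr 1
  rw [Matrix.mul_assoc, cm_mul_cm_inv, Matrix.mul_one]

lemma pull_eig {φ : X → Fin N → ℂ} {z : Y} {c : ℂ} (h : V.E (χ z) *ᵥ φ (χ z) = c • φ (χ z)) :
    n.E z *ᵥ n.pull φ z = c • n.pull φ z := by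
  rw [n.E_mulVec_pull, h, Matrix.mulVec_smul]; rfl

lemma pull_eq_zero_iff {φ : X → Fin N → ℂ} {z : Y} : n.pull φ z = 0 ↔ φ (χ z) = 0 := by
  unfold pull
  constructor
  · intro h
    have h1 := congrArg (fun v => cm (n.g z) *ᵥ v) h
    simp only [Matrix.mulVec_mulVec, cm_mul_cm_inv, Matrix.one_mulVec, Matrix.mulVec_zero] at h1
    exact h1
  · intro h; rw [h, Matrix.mulVec_zero]

end Fr

end Crest.Agent.R276.BdNf1_651
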