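import Mathlib
import Crest.Agent.R276.Ahl_25
import Crest.Agent.R276.Kro_25

/-!
# R276, leaf AHL4 (helper25): growth of flat sections, quasi-unipotence

`N w v` is the (squared) norm of the flat vector `v` at the point `w` of the half plane `Re w < 0`; the
hypothesis is `|d log N(v)| ≤ K / |Re w|` (this is what the Ahlfors-Schwarz lemma gives on the half plane).
-/

set_option autoImplicit false

open Set Filter Topology Metric InnerProductSpace Laplacian
open scoped ContDiff

namespace Crest.Agent.R276.Grow_25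

/-! ### one variable Gronwall -/

/-- `|N'| ≤ k(t) N`, `k = K'` : `log N - K` is antitone -/
theorem gronwall {N N' k κ : ℝ → ℝ} {a b : ℝ} (hab : a ≤ b)
    (hN : ∀ t ∈ Icc a b, 0 < N t) (hd : ∀ t ∈ Icc a b, HasDerivAt N (N' t) t)
    (hk : ∀ t ∈ Icc a b, HasDerivAt κ (k t) t)
    (h : ∀ t ∈ Icc a b, N' t ≤ k t * N t) : N b ≤ N a * Real.exp (κ b - κ a) := by
  have hanti : AntitoneOn (fun t => Real.log (N t) - κ t) (Icc a b) := by
    refine antitoneOn_of_hasDerivWithinAt_nonpos (f' := fun t => N' t / N t - k t) (convex_Icc a b)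
      ?_ ?_ ?_
    · intro t ht
      exact (((hd t ht).log (hN t ht).ne').sub (hk t ht)).continuousAt.continuousWithinAt
    · intro t ht
      have ht' := interior_subset ht
      exact (((hd t ht').log (hN t ht').ne').sub (hk t ht')).hasDerivWithinAt
    · intro t ht
      have ht' := interior_subset ht
      have h1 := h t ht'
      have h2 := hN t ht'
      have : N' t / N t ≤ k t := by rwa [div_le_iff₀ h2]
      show N' t / N t - k t ≤ 0
      linarith
  have h1 := hanti (left_mem_Icc.2 hab) (right_mem_Icc.2 hab) hab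
  have ha := hN a (left_mem_Icc.2 hab)
  have hb := hN b (right_mem_Icc.2 hab)
  have h2 : Real.log (N b) ≤ Real.log (N a) + (κ b - κ a) := by
    simp only at h1
    linarith
  have h3 := Real.exp_le_exp.2 h2
  rwa [Real.exp_log hb, Real.exp_add, Real.exp_log ha] at h3

/-- horizontal growth: along `w = s + i y`, `s : a → b < 0`, with `|∂ log N| ≤ K/|s|`.
Both directions. -/
theorem horizontal {f : ℂ → ℝ} {K y : ℝ} {a b : ℝ} (hab : a ≤ b) (hb : b < 0)
    (hpos : ∀ w : ℂ, w.re < 0 → 0 < f w) (hdiff : ∀ w : ℂ, w.re < 0 → DifferentiableAt ℝ f w)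
    (hK : ∀ w : ℂ, w.re < 0 → ‖fderiv ℝ f w‖ ≤ K / |w.re| * f w) :
    f (a + y * Complex.I) ≤ f (b + y * Complex.I) * (a / b) ^ K ∧
    f (b + y * Complex.I) ≤ f (a + y * Complex.I) * (a / b) ^ K := by
  have hre : ∀ t : ℝ, ((t : ℂ) + y * Complex.I).re = t := by intro t; simp
  have hline : ∀ t : ℝ, t < 0 → HasDerivAt (fun s : ℝ => f (s + y * Complex.I))
      (fderiv ℝ f (t + y * Complex.I) 1) t := by
    intro t ht
    have h1 : HasFDerivAt f (fderiv ℝ f (t + y * Complex.I)) ((t : ℂ) + y * Complex.I) :=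
      (hdiff _ (by rw [hre]; exact ht)).hasFDerivAt
    have h2 : HasDerivAt (fun s : ℝ => (s : ℂ) + y * Complex.I) 1 t :=
      Complex.ofRealCLM.hasDerivAt.add_const _
    exact h1.comp_hasDerivAt t h2
  have hbd : ∀ t : ℝ, t < 0 → |fderiv ℝ f (t + y * Complex.I) 1| ≤
      K / |t| * f (t + y * Complex.I) := by
    intro t ht
    have h1 := hK ((t : ℂ) + y * Complex.I) (by rw [hre]; exact ht)
    rw [hre] at h1
    have h2 := (fderiv ℝ f ((t : ℂ) + y * Complex.I)).le_opNorm 1
    rw [norm_one, mul_one, Real.norm_eq_abs] at h2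
    exact h2.trans h1
  have ha : a < 0 := lt_of_le_of_lt hab hb
  have hab' : 0 < a / b := div_pos_of_neg_of_neg ha hb
  have hrpow : (a / b) ^ K = Real.exp (K * Real.log (-a) - K * Real.log (-b)) := by
    rw [Real.rpow_def_of_pos hab', ← neg_div_neg_eq, Real.log_div (by linarith) (by linarith)]
    congr 1; ring
  have hlog : ∀ t : ℝ, t < 0 → HasDerivAt (fun s => K * Real.log (-s)) (K / t) t := by
    intro t ht
    have h1 := ((hasDerivAt_id t).neg.log (by simpa using ht.ne)).const_mul K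
    refine h1.congr_deriv ?_
    simp only [id, Pi.neg_apply]
    rw [neg_div_neg_eq]; ring
  constructor
  · -- reverse the direction
    have hg := gronwall (N := fun t => f ((-t : ℝ) + y * Complex.I))
      (N' := fun t => - fderiv ℝ f ((-t : ℝ) + y * Complex.I) 1) (κ := fun s => K * Real.log s)
      (k := fun t => K / t) (a := -b) (b := -a) (by linarith)
      (fun t ht => hpos _ (by rw [hre]; linarith [ht.1]))
      (fun t ht => by
        have := (hline (-t) (by linarith [ht.1])).scomp t ((hasDerivAt_id t).neg)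
        refine this.congr_deriv ?_
        simp)
      (fun t ht => by
        have ht0 : t ≠ 0 := by linarith [ht.1]
        have := (Real.hasDerivAt_log ht0).const_mul K
        exact this.congr_deriv (by rw [div_eq_mul_inv]))
      (fun t ht => by
        have h1 := hbd (-t) (by linarith [ht.1])
        rw [abs_neg, abs_of_pos (by linarith [ht.1] : (0:ℝ) < t)] at h1
        exact (neg_le_abs _).trans h1)
    simp only [neg_neg] at hg
    rw [hrpow]
    exact hg
  · have hg := gronwall (N := fun t => f ((t : ℝ) + y * Complex.I))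
      (N' := fun t => fderiv ℝ f ((t : ℝ) + y * Complex.I) 1) (κ := fun s => - (K * Real.log (-s)))
      (k := fun t => - (K / t)) (a := a) (b := b) hab
      (fun t ht => hpos _ (by rw [hre]; linarith [ht.2]))
      (fun t ht => hline t (by linarith [ht.2]))
      (fun t ht => (hlog t (by linarith [ht.2])).neg)
      (fun t ht => by
        have ht0 : t < 0 := by linarith [ht.2]
        have h1 := hbd t ht0
        rw [abs_of_neg ht0] at h1
        have h2 : K / -t = - (K / t) := by rw [div_neg]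
        rw [h2] at h1
        exact (le_abs_self _).trans h1)
    rw [hrpow]
    have h3 : -(K * Real.log (-b)) - -(K * Real.log (-a)) =
      K * Real.log (-a) - K * Real.log (-b) := by ring
    rw [h3] at hg
    exact hg

/-- vertical displacement: `f (x + i y') ≤ f (x + i y) exp (K |y' - y| / |x|)` -/
theorem vertical {f : ℂ → ℝ} {K x y y' : ℝ} (hx : x < 0)
    (hpos : ∀ w : ℂ, w.re < 0 → 0 < f w) (hdiff : ∀ w : ℂ, w.re < 0 → DifferentiableAt ℝ f w)
    (hK : ∀ w : ℂ, w.re < 0 → ‖fderiv ℝ f w‖ ≤ K / |w.re| * f w) :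
    f (x + y' * Complex.I) ≤ f (x + y * Complex.I) * Real.exp (K * |y' - y| / |x|) := by
  have hre : ∀ t : ℝ, ((x : ℂ) + t * Complex.I).re = x := by intro t; simp
  have hline : ∀ t : ℝ, HasDerivAt (fun s : ℝ => f (x + s * Complex.I))
      (fderiv ℝ f (x + t * Complex.I) Complex.I) t := by
    intro t
    have h1 : HasFDerivAt f (fderiv ℝ f (x + t * Complex.I)) ((x : ℂ) + t * Complex.I) :=
      (hdiff _ (by rw [hre]; exact hx)).hasFDerivAt
    have h2 : HasDerivAt (fun s : ℝ => (x : ℂ) + s * Complex.I) Complex.I t := by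
      have := (Complex.ofRealCLM.hasDerivAt (x := t)).mul_const Complex.I |>.const_add (x : ℂ)
      simpa using this
    exact h1.comp_hasDerivAt t h2
  have hbd : ∀ t : ℝ, |fderiv ℝ f (x + t * Complex.I) Complex.I| ≤
      K / |x| * f (x + t * Complex.I) := by
    intro t
    have h1 := hK ((x : ℂ) + t * Complex.I) (by rw [hre]; exact hx)
    rw [hre] at h1
    have h2 := (fderiv ℝ f ((x : ℂ) + t * Complex.I)).le_opNorm Complex.I
    rw [Complex.norm_I, mul_one, Real.norm_eq_abs] at h2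
    exact h2.trans h1
  have hlin : ∀ t : ℝ, HasDerivAt (fun s => K / |x| * s) (K / |x|) t := by
    intro t
    simpa using (hasDerivAt_id t).const_mul (K / |x|)
  rcases le_total y y' with h | h
  · have hg := gronwall (N := fun t => f (x + t * Complex.I))
      (N' := fun t => fderiv ℝ f (x + t * Complex.I) Complex.I) (κ := fun s => K / |x| * s)
      (k := fun _ => K / |x|) (a := y) (b := y') h
      (fun t _ => hpos _ (by rw [hre]; exact hx)) (fun t _ => hline t) (fun t _ => hlin t)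
      (fun t _ => (le_abs_self _).trans (hbd t))
    have h3 : K * |y' - y| / |x| = K / |x| * y' - K / |x| * y := by
      rw [abs_of_nonneg (by linarith)]; ring
    rw [h3]
    exact hg
  · have hg := gronwall (N := fun t => f (x + ((-t : ℝ) : ℂ) * Complex.I))
      (N' := fun t => - fderiv ℝ f (x + ((-t : ℝ) : ℂ) * Complex.I) Complex.I)
      (κ := fun s => K / |x| * s)
      (k := fun _ => K / |x|) (a := -y) (b := -y') (by linarith)
      (fun t _ => hpos _ (by rw [hre]; exact hx))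
      (fun t _ => by
        have := (hline (-t)).scomp t ((hasDerivAt_id t).neg)
        refine this.congr_deriv ?_
        simp)
      (fun t _ => hlin t)
      (fun t _ => (neg_le_abs _).trans (hbd (-t)))
    simp only [neg_neg] at hg
    have h3 : K * |y' - y| / |x| = K / |x| * -y' - K / |x| * -y := by
      rw [abs_of_nonpos (by linarith)]; ring
    rw [h3]
    exact hg

/-- **eigenvalues of the monodromy have modulus one** -/
theorem norm_eigenvalue {V : Type*} [AddCommGroup V] [Module ℂ V] {N : ℂ → V → ℝ} {T : V →ₗ[ℂ] V}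
    {p : ℕ} (hp : p ≠ 0) {K : ℝ}
    (hpos : ∀ w : ℂ, w.re < 0 → ∀ v, v ≠ 0 → 0 < N w v)
    (hsmul : ∀ w : ℂ, w.re < 0 → ∀ (μ : ℂ) v, N w (μ • v) = ‖μ‖ ^ p * N w v)
    (hdiff : ∀ w : ℂ, w.re < 0 → ∀ v, v ≠ 0 → DifferentiableAt ℝ (fun w => N w v) w)
    (hK : ∀ w : ℂ, w.re < 0 → ∀ v, v ≠ 0 → ‖fderiv ℝ (fun w => N w v) w‖ ≤ K / |w.re| * N w v)
    (hT : ∀ w : ℂ, w.re < 0 → ∀ v, N (w + 2 * Real.pi * Complex.I) v = N w (T v))
    {μ : ℂ} {v : V} (hv : v ≠ 0) (hμ : T v = μ • v) : ‖μ‖ = 1 := by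
  have h1 : ∀ x : ℝ, x < 0 → ‖μ‖ ^ p ≤ Real.exp (K * (2 * Real.pi) / |x|) ∧
      1 ≤ ‖μ‖ ^ p * Real.exp (K * (2 * Real.pi) / |x|) := by
    intro x hx
    have hN : 0 < N (x + (0 : ℝ) * Complex.I) v := hpos _ (by simpa using hx) v hv
    have h3 : N (x + (2 * Real.pi : ℝ) * Complex.I) v = ‖μ‖ ^ p * N (x + (0 : ℝ) * Complex.I) v := by
      rw [← hsmul _ (by simpa using hx), ← hμ, ← hT _ (by simpa using hx)]
      congr 1; push_cast; ring
    constructor
    · have h2 := vertical (f := fun w => N w v) (K := K) (y := 0) (y' := 2 * Real.pi) hx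
        (fun w hw => hpos w hw v hv) (fun w hw => hdiff w hw v hv) (fun w hw => hK w hw v hv)
      rw [sub_zero, abs_of_pos Real.two_pi_pos] at h2
      rw [h3, mul_comm (N _ v)] at h2
      exact le_of_mul_le_mul_right h2 hN
    · have h2 := vertical (f := fun w => N w v) (K := K) (y := 2 * Real.pi) (y' := 0) hx
        (fun w hw => hpos w hw v hv) (fun w hw => hdiff w hw v hv) (fun w hw => hK w hw v hv)
      rw [zero_sub, abs_neg, abs_of_pos Real.two_pi_pos] at h2
      rw [h3] at h2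
      have h4 : 1 * N (x + (0 : ℝ) * Complex.I) v ≤
          (‖μ‖ ^ p * Real.exp (K * (2 * Real.pi) / |x|)) * N (x + (0 : ℝ) * Complex.I) v := by
        rw [one_mul]
        refine h2.trans (le_of_eq ?_)
        ring
      exact le_of_mul_le_mul_right h4 hN
  have hlim : Tendsto (fun x : ℝ => Real.exp (K * (2 * Real.pi) / |x|)) atBot (𝓝 1) := by
    have h2 : Tendsto (fun x : ℝ => K * (2 * Real.pi) / |x|) atBot (𝓝 0) :=
      tendsto_const_nhds.div_atTop tendsto_abs_atBot_atTop
    have := (Real.continuous_exp.tendsto 0).comp h2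
    rw [Real.exp_zero] at this
    exact this
  have h5 : ‖μ‖ ^ p ≤ 1 := by
    refine ge_of_tendsto hlim ?_
    filter_upwards [eventually_lt_atBot (0 : ℝ)] with x hx using (h1 x hx).1
  have h6 : 1 ≤ ‖μ‖ ^ p := by
    have h7 : Tendsto (fun x : ℝ => ‖μ‖ ^ p * Real.exp (K * (2 * Real.pi) / |x|)) atBot
        (𝓝 (‖μ‖ ^ p * 1)) := hlim.const_mul _
    rw [mul_one] at h7
    refine ge_of_tendsto h7 ?_
    filter_upwards [eventually_lt_atBot (0 : ℝ)] with x hx using (h1 x hx).2
  exact (pow_eq_one_iff_of_nonneg (norm_nonneg _) hp).1 (le_antisymm h5 h6)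

/-- **quasi-unipotence** (Borel): if moreover `T` has integral characteristic polynomial, a power of `T`
is unipotent. -/
theorem quasi_unipotent {V : Type*} [AddCommGroup V] [Module ℂ V] [FiniteDimensional ℂ V]
    {N : ℂ → V → ℝ} {T : V →ₗ[ℂ] V}
    {p : ℕ} (hp : p ≠ 0) {K : ℝ}
    (hpos : ∀ w : ℂ, w.re < 0 → ∀ v, v ≠ 0 → 0 < N w v)
    (hsmul : ∀ w : ℂ, w.re < 0 → ∀ (μ : ℂ) v, N w (μ • v) = ‖μ‖ ^ p * N w v)
    (hdiff : ∀ w : ℂ, w.re < 0 → ∀ v, v ≠ 0 → DifferentiableAt ℝ (fun w => N w v) w)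
    (hK : ∀ w : ℂ, w.re < 0 → ∀ v, v ≠ 0 → ‖fderiv ℝ (fun w => N w v) w‖ ≤ K / |w.re| * N w v)
    (hT : ∀ w : ℂ, w.re < 0 → ∀ v, N (w + 2 * Real.pi * Complex.I) v = N w (T v))
    (q : Polynomial ℤ) (hq : T.charpoly = q.map (Int.castRingHom ℂ)) (hqm : q.Monic) :
    ∃ e, 0 < e ∧ IsNilpotent (T ^ e - 1) := by
  have key : ∀ (μ : ℂ), Module.End.HasEigenvalue T μ → ‖μ‖ = 1 := by
    intro μ hμ
    obtain ⟨v, hv⟩ := hμ.exists_hasEigenvector
    exact norm_eigenvalue hp hpos hsmul hdiff hK hT hv.2 hv.apply_eq_smul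
  refine Kro_25.exists_isNilpotent T q hq hqm (fun μ hμ => (key μ hμ).le) ?_
  rw [← LinearMap.ker_eq_bot, LinearMap.ker_eq_bot']
  intro v hv
  by_contra hv0
  have h0 : Module.End.HasEigenvalue T 0 := by
    refine Module.End.hasEigenvalue_of_hasEigenvector (x := v) ⟨?_, hv0⟩
    rw [Module.End.mem_eigenspace_iff, hv, zero_smul]
  have := key 0 h0
  simp at this

/-! ### from Ahlfors-Schwarz to the hypothesis of this file -/


/-- **polynomial growth** on the punctured disc seen from the half plane: for `Re w ≤ -1`, `|Im w| ≤ M`,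
`f w ≤ e^{K M} |Re w|^K · f(-1)` and `f w ≥ (e^{K M} |Re w|^K)⁻¹ f(-1)`. -/
theorem growth {f : ℂ → ℝ} {K M : ℝ} (hK0 : 0 ≤ K)
    (hpos : ∀ w : ℂ, w.re < 0 → 0 < f w) (hdiff : ∀ w : ℂ, w.re < 0 → DifferentiableAt ℝ f w)
    (hK : ∀ w : ℂ, w.re < 0 → ‖fderiv ℝ f w‖ ≤ K / |w.re| * f w)
    {w : ℂ} (hw : w.re ≤ -1) (hM : |w.im| ≤ M) :
    f w ≤ f (-1) * (Real.exp (K * M) * |w.re| ^ K) ∧
    f (-1) ≤ f w * (Real.exp (K * M) * |w.re| ^ K) := by
  have hM0 : 0 ≤ M := (abs_nonneg _).trans hM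
  have hw' : w = (w.re : ℂ) + w.im * Complex.I := (Complex.re_add_im w).symm
  have h1 := horizontal (f := f) (K := K) (y := w.im) hw (by norm_num : (-1 : ℝ) < 0) hpos hdiff hK
  have h2 := vertical (f := f) (K := K) (x := -1) (y := 0) (y' := w.im) (by norm_num) hpos hdiff hK
  have h3 := vertical (f := f) (K := K) (x := -1) (y := w.im) (y' := 0) (by norm_num) hpos hdiff hK
  have e1 : (((-1 : ℝ) : ℂ) + ((0 : ℝ) : ℂ) * Complex.I) = -1 := by simp
  have e2 : w.re / (-1 : ℝ) = |w.re| := by rw [abs_of_nonpos (by linarith)]; ring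
  rw [e2, ← hw'] at h1
  rw [e1, abs_neg, abs_one, div_one, sub_zero] at h2
  rw [e1, abs_neg, abs_one, div_one, zero_sub, abs_neg] at h3
  have h4 : Real.exp (K * |w.im|) ≤ Real.exp (K * M) :=
    Real.exp_le_exp.2 (mul_le_mul_of_nonneg_left hM hK0)
  have hre : (((-1 : ℝ) : ℂ) + w.im * Complex.I).re = -1 := by simp
  have hp1 : 0 < f (((-1 : ℝ) : ℂ) + w.im * Complex.I) := hpos _ (by rw [hre]; norm_num)
  have hp2 : 0 < f (-1) := hpos _ (by norm_num)
  have hpw : 0 < f w := hpos _ (by linarith)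
  have hrp : 0 ≤ |w.re| ^ K := Real.rpow_nonneg (abs_nonneg _) _
  constructor
  · calc f w ≤ f (((-1 : ℝ) : ℂ) + w.im * Complex.I) * |w.re| ^ K := h1.1
      _ ≤ (f (-1) * Real.exp (K * M)) * |w.re| ^ K :=
          mul_le_mul_of_nonneg_right (h2.trans (mul_le_mul_of_nonneg_left h4 hp2.le)) hrp
      _ = _ := by ring
  · calc f (-1) ≤ f (((-1 : ℝ) : ℂ) + w.im * Complex.I) * Real.exp (K * |w.im|) := h3
      _ ≤ f (((-1 : ℝ) : ℂ) + w.im * Complex.I) * Real.exp (K * M) :=
          mul_le_mul_of_nonneg_left h4 hp1.le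
      _ ≤ (f w * |w.re| ^ K) * Real.exp (K * M) :=
          mul_le_mul_of_nonneg_right h1.2 (Real.exp_pos _).le
      _ = _ := by ring

/-! ### several variables (AHL3): coordinate discs in a (punctured) polydisc -/


end Crest.Agent.R276.Grow_25
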