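import Crest.Agent.R276.VCalcH_442

/-!
# R276, leaf VCalc (helper442): holomorphic sections, the bottom line (C4), pull back

* `dW_sf`, `dB_sf`: derivatives of `α(y)ᴴ S β(y)`;
* for a holomorphic section `σ` of `F^w` : `VHS.dW_bot`, `VHS.dB_dW_bot`, `VHS.curv_bot`:
  `f ∂̄∂f - |∂f|² = - f |θ_v σ|²` if `P_w ∂_v σ ∈ ℂ σ` (line), `f = |σ|²`.
* `VHS.comp` : pull back along holomorphic maps.
-/

set_option autoImplicit false
set_option linter.unusedSectionVars false

open Set Filter Topology Matrix Finset InnerProductSpace Laplacian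
open scoped ContDiff ComplexConjugate ComplexOrder

namespace Crest.Agent.R276.VCalc_442

variable {X : Type*} [NormedAddCommGroup X] [NormedSpace ℂ X]
variable {Y : Type*} [NormedAddCommGroup Y] [NormedSpace ℂ Y]
variable {ι : Type*} [Fintype ι] [DecidableEq ι]

section comp

variable {A : Type*} [NormedAddCommGroup A] [NormedSpace ℂ A]

/-- chain rule with a holomorphic inner map -/
theorem dW_comp {f : X → A} {φ : Y → X} {y : Y} {φ' : Y →L[ℂ] X}
    (hf : DifferentiableAt ℝ f (φ y)) (hφ : HasFDerivAt φ φ' y) (v : Y) :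
    dW (fun z => f (φ z)) v y = dW f (φ' v) (φ y) := by
  have h1 := (hf.hasFDerivAt.comp y (hφ.restrictScalars ℝ)).fderiv
  have h2 : fderiv ℝ (fun z => f (φ z)) y = _ := h1
  unfold dW
  rw [h2]
  simp

theorem dB_comp {f : X → A} {φ : Y → X} {y : Y} {φ' : Y →L[ℂ] X}
    (hf : DifferentiableAt ℝ f (φ y)) (hφ : HasFDerivAt φ φ' y) (v : Y) :
    dB (fun z => f (φ z)) v y = dB f (φ' v) (φ y) := by
  have h1 := (hf.hasFDerivAt.comp y (hφ.restrictScalars ℝ)).fderiv
  have h2 : fderiv ℝ (fun z => f (φ z)) y = _ := h1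
  unfold dB
  rw [h2]
  simp

/-- a complex differentiable map has `∂̄ = 0` -/
theorem dB_of_diff {f : X → A} {x : X} (hf : DifferentiableAt ℂ f x) (v : X) : dB f v x = 0 := by
  have h1 : fderiv ℝ f x = (fderiv ℂ f x).restrictScalars ℝ :=
    (hf.hasFDerivAt.restrictScalars ℝ).fderiv
  unfold dB
  rw [h1]
  simp only [ContinuousLinearMap.coe_restrictScalars', map_smul, smul_smul, Complex.I_mul_I]
  module

theorem dW_of_diff {f : X → A} {x : X} (hf : DifferentiableAt ℂ f x) (v : X) :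
    dW f v x = fderiv ℂ f x v := by
  have h1 : fderiv ℝ f x = (fderiv ℂ f x).restrictScalars ℝ :=
    (hf.hasFDerivAt.restrictScalars ℝ).fderiv
  unfold dW
  rw [h1]
  simp only [ContinuousLinearMap.coe_restrictScalars', map_smul, smul_smul, Complex.I_mul_I]
  module

/-- `∂̄ = 0` implies complex differentiability -/
theorem diff_of_dB {f : X → A} {x : X} (hf : DifferentiableAt ℝ f x) (h0 : ∀ v, dB f v x = 0) :
    DifferentiableAt ℂ f x := by
  have h1 : ∀ v, fderiv ℝ f x (Complex.I • v) = Complex.I • fderiv ℝ f x v := by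
    intro v
    rw [fderiv_I_smul, fderiv_eq f v x, h0 v]
    simp
  have h2 : ∀ (c : ℂ) (v : X), fderiv ℝ f x (c • v) = c • fderiv ℝ f x v := by
    intro c v
    rw [fderiv_smul_dir, h1, smul_smul, ← add_smul, Complex.re_add_im]
  exact ⟨{ toFun := fderiv ℝ f x
           map_add' := fun a b => map_add _ a b
           map_smul' := fun c v => h2 c v
           cont := (fderiv ℝ f x).cont }, (hasFDerivAt_of_restrictScalars ℝ hf.hasFDerivAt rfl)⟩

end comp

section form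

/-- entries of a vector valued map -/
theorem dW_apply {f : X → ι → ℂ} {x : X} (hf : DifferentiableAt ℝ f x) (v : X) (i : ι) :
    dW (fun y => f y i) v x = dW f v x i :=
  dW_clm (ContinuousLinearMap.proj (R := ℂ) i) hf v

theorem dB_apply {f : X → ι → ℂ} {x : X} (hf : DifferentiableAt ℝ f x) (v : X) (i : ι) :
    dB (fun y => f y i) v x = dB f v x i :=
  dB_clm (ContinuousLinearMap.proj (R := ℂ) i) hf v

theorem sf_eq_sum (S : Matrix ι ι ℂ) (a b : ι → ℂ) :
    sf S a b = ∑ i, ∑ j, star (a i) * (S i j * b j) := by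
  unfold sf dotProduct mulVec dotProduct
  refine Finset.sum_congr rfl fun i _ => ?_
  rw [Finset.mul_sum]
  rfl

theorem dW_sf (S : Matrix ι ι ℂ) {α β : X → ι → ℂ} {x : X} (hα : DifferentiableAt ℝ α x)
    (hβ : DifferentiableAt ℝ β x) (v : X) :
    dW (fun y => sf S (α y) (β y)) v x = sf S (dB α v x) (β x) + sf S (α x) (dW β v x) := by
  have hαi : ∀ i, DifferentiableAt ℝ (fun y => α y i) x := differentiableAt_pi.1 hα
  have hβi : ∀ i, DifferentiableAt ℝ (fun y => β y i) x := differentiableAt_pi.1 hβ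
  simp only [sf_eq_sum]
  rw [dW_sum (f := fun i y => ∑ j, star (α y i) * (S i j * β y j)), ← Finset.sum_add_distrib]
  · refine Finset.sum_congr rfl fun i _ => ?_
    rw [dW_sum (f := fun j y => star (α y i) * (S i j * β y j)), ← Finset.sum_add_distrib]
    · refine Finset.sum_congr rfl fun j _ => ?_
      rw [dW_mul (diff_star (hαi i)) ((hβi j).const_mul (S i j)), dW_star (hαi i),
        dB_apply hα, dW_mul (differentiableAt_const _) (hβi j), dW_apply hβ]
      simp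
    · intro j _
      exact (diff_star (hαi i)).fun_mul ((hβi j).const_mul (S i j))
  · intro i _
    exact DifferentiableAt.fun_sum fun j _ => (diff_star (hαi i)).fun_mul ((hβi j).const_mul (S i j))

theorem dB_sf (S : Matrix ι ι ℂ) {α β : X → ι → ℂ} {x : X} (hα : DifferentiableAt ℝ α x)
    (hβ : DifferentiableAt ℝ β x) (v : X) :
    dB (fun y => sf S (α y) (β y)) v x = sf S (dW α v x) (β x) + sf S (α x) (dB β v x) := by
  have hαi : ∀ i, DifferentiableAt ℝ (fun y => α y i) x := differentiableAt_pi.1 hα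
  have hβi : ∀ i, DifferentiableAt ℝ (fun y => β y i) x := differentiableAt_pi.1 hβ
  simp only [sf_eq_sum]
  rw [dB_sum (f := fun i y => ∑ j, star (α y i) * (S i j * β y j)), ← Finset.sum_add_distrib]
  · refine Finset.sum_congr rfl fun i _ => ?_
    rw [dB_sum (f := fun j y => star (α y i) * (S i j * β y j)), ← Finset.sum_add_distrib]
    · refine Finset.sum_congr rfl fun j _ => ?_
      rw [dB_mul (diff_star (hαi i)) ((hβi j).const_mul (S i j)), dB_star (hαi i),
        dW_apply hα, dB_mul (differentiableAt_const _) (hβi j), dB_apply hβ]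
      simp
    · intro j _
      exact (diff_star (hαi i)).fun_mul ((hβi j).const_mul (S i j))
  · intro i _
    exact DifferentiableAt.fun_sum fun j _ => (diff_star (hαi i)).fun_mul ((hβi j).const_mul (S i j))

theorem sf_add_left (S : Matrix ι ι ℂ) (a b c : ι → ℂ) : sf S (a + b) c = sf S a c + sf S b c := by
  unfold sf
  rw [star_add, add_dotProduct]

theorem sf_add_right (S : Matrix ι ι ℂ) (a b c : ι → ℂ) : sf S a (b + c) = sf S a b + sf S a c := by
  unfold sf
  rw [Matrix.mulVec_add, dotProduct_add]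

theorem sf_smul_right (S : Matrix ι ι ℂ) (c : ℂ) (a b : ι → ℂ) : sf S a (c • b) = c * sf S a b := by
  unfold sf
  rw [Matrix.mulVec_smul, dotProduct_smul, smul_eq_mul]

theorem sf_smul_left (S : Matrix ι ι ℂ) (c : ℂ) (a b : ι → ℂ) :
    sf S (c • a) b = star c * sf S a b := by
  unfold sf
  rw [star_smul, smul_dotProduct, smul_eq_mul]

@[simp] theorem sf_zero_left (S : Matrix ι ι ℂ) (a : ι → ℂ) : sf S 0 a = 0 := by simp [sf]

@[simp] theorem sf_zero_right (S : Matrix ι ι ℂ) (a : ι → ℂ) : sf S a 0 = 0 := by simp [sf]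

end form

section nm

attribute [local instance] Matrix.linftyOpNormedRing Matrix.linftyOpNormedAlgebra

/-- derivative of `M(y) β(y)` -/
theorem dW_mulVec {M : X → Matrix ι ι ℂ} {β : X → ι → ℂ} {x : X} (hM : DifferentiableAt ℝ M x)
    (hβ : DifferentiableAt ℝ β x) (v : X) :
    dW (fun y => M y *ᵥ β y) v x = dW M v x *ᵥ β x + M x *ᵥ dW β v x := by
  have hMi := differentiableAt_matrix.1 hM
  have hβi : ∀ i, DifferentiableAt ℝ (fun y => β y i) x := differentiableAt_pi.1 hβ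
  have hd : DifferentiableAt ℝ (fun y => M y *ᵥ β y) x := by
    rw [differentiableAt_pi]
    intro i
    exact DifferentiableAt.fun_sum fun j _ => (hMi i j).fun_mul (hβi j)
  funext i
  rw [← dW_apply hd v i]
  have e : (fun y => (M y *ᵥ β y) i) = fun y => ∑ j, M y i j * β y j := rfl
  rw [e, dW_sum (f := fun j y => M y i j * β y j) _ (fun j _ => (hMi i j).fun_mul (hβi j))]
  have e2 : (dW M v x *ᵥ β x + M x *ᵥ dW β v x) i =
      ∑ j, (dW M v x i j * β x j + M x i j * dW β v x j) := by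
    rw [Pi.add_apply, Finset.sum_add_distrib]
    rfl
  rw [e2]
  refine Finset.sum_congr rfl fun j _ => ?_
  rw [dW_mul (hMi i j) (hβi j), dW_apply hβ]
  congr 2
  exact dW_clm (ent i j) hM v


/-- the squared Hodge norm of a section `σ` of the top piece -/
noncomputable def bn (w : ℕ) (S : Matrix ι ι ℂ) (σ : X → ι → ℂ) (x : X) : ℝ :=
  (((-1 : ℂ) ^ w) * sf S (σ x) (σ x)).re

/-- `σ` is a holomorphic section of `F^w` on `U` -/
structure Bot (w : ℕ) (U : Set X) (P : ℕ → X → Matrix ι ι ℂ) (σ : X → ι → ℂ) : Prop where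
  hol : DifferentiableOn ℂ σ U
  sm : ContDiffOn ℝ ∞ σ U
  mem : ∀ x ∈ U, P w x *ᵥ σ x = σ x

namespace VHS

variable {w : ℕ} {U : Set X} {S : Matrix ι ι ℂ} {P : ℕ → X → Matrix ι ι ℂ} {x : X}
variable {σ : X → ι → ℂ}

theorem bot_real (h : VHS w U S P) (hb : Bot w U P σ) (hx : x ∈ U) :
    ((-1 : ℂ) ^ w) * sf S (σ x) (σ x) = sf (hm w S P x) (σ x) (σ x) := by
  have h1 : sf (hm w S P x) (σ x) (σ x) = sf (hm w S P x) (σ x) (P w x *ᵥ σ x) := by
    rw [hb.mem x hx]
  rw [h1, ← sf_mul_right, h.hm_mul_P hx]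
  have h2 : sf (((-1 : ℂ) ^ w) • (S * P w x)) (σ x) (σ x) =
      ((-1 : ℂ) ^ w) * sf (S * P w x) (σ x) (σ x) := by
    unfold sf
    rw [Matrix.smul_mulVec, dotProduct_smul]
    rfl
  rw [h2, sf_mul_right, hb.mem x hx]

theorem bn_eq (h : VHS w U S P) (hb : Bot w U P σ) (hx : x ∈ U) :
    bn w S σ x = (sf (hm w S P x) (σ x) (σ x)).re := by
  unfold bn
  rw [h.bot_real hb hx]

theorem bn_cx (h : VHS w U S P) (hb : Bot w U P σ) (hx : x ∈ U) :
    cx (bn w S σ) x = ((-1 : ℂ) ^ w) * sf S (σ x) (σ x) := by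
  unfold cx
  rw [h.bn_eq hb hx, h.bot_real hb hx]
  exact (sf_self_real (h.hmPos hx) _).symm

theorem bn_pos (h : VHS w U S P) (hb : Bot w U P σ) (hx : x ∈ U) (h0 : σ x ≠ 0) :
    0 < bn w S σ x := by
  rw [h.bn_eq hb hx]
  exact sf_pos (h.hmPos hx) h0


theorem bot_d (h : VHS w U S P) (hb : Bot w U P σ) (hx : x ∈ U) : DifferentiableAt ℝ σ x :=
  diffAt h.op hb.sm hx

theorem bot_dC (h : VHS w U S P) (hb : Bot w U P σ) (hx : x ∈ U) : DifferentiableAt ℂ σ x :=
  (hb.hol x hx).differentiableAt (h.op.mem_nhds hx)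

theorem bot_dB (h : VHS w U S P) (hb : Bot w U P σ) (hx : x ∈ U) (v : X) : dB σ v x = 0 :=
  dB_of_diff (h.bot_dC hb hx) v

theorem dW_bn (h : VHS w U S P) (hb : Bot w U P σ) (hx : x ∈ U) (v : X) :
    dW (cx (bn w S σ)) v x = ((-1 : ℂ) ^ w) * sf S (σ x) (dW σ v x) := by
  have h1 : cx (bn w S σ) =ᶠ[𝓝 x] fun y => ((-1 : ℂ) ^ w) • sf S (σ y) (σ y) :=
    Filter.eventually_of_mem (h.op.mem_nhds hx) fun y hy => h.bn_cx hb hy
  have hd := h.bot_d hb hx
  have hds : DifferentiableAt ℝ (fun y => sf S (σ y) (σ y)) x := by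
    simp only [sf_eq_sum]
    have hi := differentiableAt_pi.1 hd
    exact DifferentiableAt.fun_sum fun i _ => DifferentiableAt.fun_sum fun j _ =>
      (diff_star (hi i)).fun_mul ((hi j).const_mul (S i j))
  rw [dW_congr h1 v, dW_const_smul _ hds, dW_sf S hd hd, h.bot_dB hb hx]
  simp

theorem dB_dW_bn (h : VHS w U S P) (hb : Bot w U P σ) (hx : x ∈ U) (v : X) :
    dB (dW (cx (bn w S σ)) v) v x = ((-1 : ℂ) ^ w) * sf S (dW σ v x) (dW σ v x) := by
  have h1 : dW (cx (bn w S σ)) v =ᶠ[𝓝 x] fun y => ((-1 : ℂ) ^ w) • sf S (σ y) (dW σ v y) :=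
    Filter.eventually_of_mem (h.op.mem_nhds hx) fun y hy => h.dW_bn hb hy v
  have hd := h.bot_d hb hx
  have hd2 : DifferentiableAt ℝ (dW σ v) x := diffAt h.op (contDiffOn_dW h.op hb.sm v) hx
  have hds : DifferentiableAt ℝ (fun y => sf S (σ y) (dW σ v y)) x := by
    simp only [sf_eq_sum]
    have hi := differentiableAt_pi.1 hd
    have hi2 := differentiableAt_pi.1 hd2
    exact DifferentiableAt.fun_sum fun i _ => DifferentiableAt.fun_sum fun j _ =>
      (diff_star (hi i)).fun_mul ((hi2 j).const_mul (S i j))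
  have h3 : dB (dW σ v) v x = 0 := by
    have hc2 : ContDiffAt ℝ 2 σ x := (hb.sm.contDiffAt (h.op.mem_nhds hx)).of_le ENat.LEInfty.out
    rw [← dW_dB hc2]
    have h4 : dB σ v =ᶠ[𝓝 x] fun _ => 0 :=
      Filter.eventually_of_mem (h.op.mem_nhds hx) fun y hy => h.bot_dB hb hy v
    rw [dW_congr h4 v, dW_const]
  rw [dB_congr h1 v, dB_const_smul _ hds, dB_sf S hd hd2, h3]
  simp

/-- `∂_v σ = θ_v σ + P_w ∂_v σ` -/
theorem dW_bot (h : VHS w U S P) (hb : Bot w U P σ) (hx : x ∈ U) (v : X) :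
    dW σ v x = dW (grOp w P) v x *ᵥ σ x + P w x *ᵥ dW σ v x := by
  have h1 : (fun y => P w y *ᵥ σ y) =ᶠ[𝓝 x] σ :=
    Filter.eventually_of_mem (h.op.mem_nhds hx) fun y hy => hb.mem y hy
  have h2 := dW_mulVec (h.dP w hx) (h.bot_d hb hx) v
  rw [dW_congr h1 v] at h2
  rw [h.dW_P hx, h.low_P hx (h.low_th hx v), h.top x hx (w + 1) (by omega), mul_zero,
    sub_zero, ← Matrix.mulVec_mulVec, hb.mem x hx] at h2
  exact h2

theorem bot_orth (h : VHS w U S P) (_hb : Bot w U P σ) (hx : x ∈ U) (v : X) :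
    P w x *ᵥ (dW (grOp w P) v x *ᵥ σ x) = 0 := by
  rw [Matrix.mulVec_mulVec, h.low_P hx (h.low_th hx v), h.top x hx (w + 1) (by omega)]
  simp

/-- the second derivative of `|σ|²`: `|P_w ∂_v σ|² - |θ_v σ|²` -/
theorem dB_dW_bn' (h : VHS w U S P) (hb : Bot w U P σ) (hx : x ∈ U) (v : X) :
    dB (dW (cx (bn w S σ)) v) v x =
      sf (hm w S P x) (P w x *ᵥ dW σ v x) (P w x *ᵥ dW σ v x) -
        sf (hm w S P x) (dW (grOp w P) v x *ᵥ σ x) (dW (grOp w P) v x *ᵥ σ x) := by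
  rw [h.dB_dW_bn hb hx]
  have hl := h.low_th hx v
  set a := dW (grOp w P) v x *ᵥ σ x with ha
  set b := P w x *ᵥ dW σ v x with hb'
  have e0 : dW σ v x = a + b := h.dW_bot hb hx v
  rw [e0]
  -- `S a = ± K a`, `S b = ± K b`
  have e1 : sgOp w P x *ᵥ σ x = ((-1 : ℂ) ^ w) • σ x := by
    rw [← hb.mem x hx, Matrix.mulVec_mulVec, h.C_mul_P hx, Matrix.smul_mulVec]
  have e2 : sgOp w P x *ᵥ a = -(((-1 : ℂ) ^ w) • a) := by
    rw [ha, Matrix.mulVec_mulVec, h.low_C hx hl, Matrix.neg_mulVec, ← Matrix.mulVec_mulVec, e1,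
      Matrix.mulVec_smul]
  have e3 : sgOp w P x *ᵥ b = ((-1 : ℂ) ^ w) • b := by
    rw [hb', Matrix.mulVec_mulVec, h.C_mul_P hx, Matrix.smul_mulVec]
  have e4 : ∀ c d : ι → ℂ, sf S c d = sf (hm w S P x) c (sgOp w P x *ᵥ d) := by
    intro c d
    rw [← sf_mul_right, ← h.S_eq hx]
  have hs : ((-1 : ℂ) ^ w) * ((-1 : ℂ) ^ w) = 1 := by
    rw [← pow_add, ← two_mul, pow_mul]; simp
  have o1 : sf (hm w S P x) a b = 0 := by
    rw [hb', h.sf_P_P hx, h.bot_orth hb hx, sf_zero_left]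
  have o2 : sf (hm w S P x) b a = 0 := by
    rw [sf_swap (h.hmPos hx), o1, star_zero]
  rw [sf_add_left, sf_add_right, sf_add_right, e4 a a, e4 a b, e4 b a, e4 b b, e2, e3]
  have e5 : ∀ c : ι → ℂ, sf (hm w S P x) c (-(((-1 : ℂ) ^ w) • a)) =
      - (((-1 : ℂ) ^ w) * sf (hm w S P x) c a) := by
    intro c
    rw [← smul_neg, sf_smul_right, ← neg_one_smul ℂ a, sf_smul_right]
    ring
  rw [e5, e5, sf_smul_right, sf_smul_right, o1, o2]
  linear_combination (sf (hm w S P x) b b - sf (hm w S P x) a a) * hs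

theorem dW_bn' (h : VHS w U S P) (hb : Bot w U P σ) (hx : x ∈ U) (v : X) :
    dW (cx (bn w S σ)) v x = sf (hm w S P x) (σ x) (P w x *ᵥ dW σ v x) := by
  rw [h.dW_bn hb hx]
  have h1 : sf (hm w S P x) (σ x) (P w x *ᵥ dW σ v x) =
      sf (hm w S P x * P w x) (σ x) (dW σ v x) := (sf_mul_right _ _ _ _).symm
  have h2 : sf (((-1 : ℂ) ^ w) • (S * P w x)) (σ x) (dW σ v x) =
      ((-1 : ℂ) ^ w) * sf (S * P w x) (σ x) (dW σ v x) := by
    unfold sf
    rw [Matrix.smul_mulVec, dotProduct_smul]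
    rfl
  rw [h1, h.hm_mul_P hx, h2]
  congr 1
  -- `S P_w` and `P_wᴴ S`
  have h3 : sf (S * P w x) (σ x) (dW σ v x) = sf S (P w x *ᵥ σ x) (dW σ v x) := by
    have := h.adj x hx w
    unfold sf
    rw [← this, ← Matrix.mulVec_mulVec, Matrix.star_mulVec, Matrix.dotProduct_mulVec]
  rw [h3, hb.mem x hx]


/-- **(C4)** curvature of the bottom line: if `P_w ∂_v σ = l σ` then
`f ∂̄∂f - |∂f|² = - f |θ_v σ|²` for `f = |σ|²` -/
theorem curv_bot (h : VHS w U S P) (hb : Bot w U P σ) (hx : x ∈ U) (v : X) {l : ℂ}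
    (hl : P w x *ᵥ dW σ v x = l • σ x) :
    bn w S σ x * (dB (dW (cx (bn w S σ)) v) v x).re - ‖dW (cx (bn w S σ)) v x‖ ^ 2 =
      - (bn w S σ x *
        (sf (hm w S P x) (dW (grOp w P) v x *ᵥ σ x) (dW (grOp w P) v x *ᵥ σ x)).re) := by
  rw [h.dW_bn' hb hx, h.dB_dW_bn' hb hx, h.bn_eq hb hx, Complex.sub_re, hl, sf_smul_right,
    sf_smul_right, sf_smul_left, norm_mul]
  have hr := sf_self_real (h.hmPos hx) (σ x)
  set r := (sf (hm w S P x) (σ x) (σ x)).re with hrdef
  have hr0 : 0 ≤ r := sf_self_nonneg (h.hmPos hx) (σ x)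
  rw [hr]
  have h1 : (l * (star l * (r : ℂ))).re = ‖l‖ ^ 2 * r := by
    rw [← mul_assoc, Complex.star_def, Complex.mul_conj, Complex.normSq_eq_norm_sq]
    rw [← Complex.ofReal_mul, Complex.ofReal_re]
  rw [h1, Complex.norm_real, Real.norm_eq_abs, abs_of_nonneg hr0]
  ring

end VHS

end nm

end Crest.Agent.R276.VCalc_442
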