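import Crest.Agent.R276.VCalcI_442

-- ▼ part R276/VCalcJ_442
section

/-!
# R276, leaf VCalc (helper442): the second derivative of a determinant

* `dW_det` (Jacobi), `dB_dW_det_one`: second derivative of `det G` at a point where `G = 1`;
* `Adj.bessel`, `Adj.sum_cs`.
-/

set_option autoImplicit false
set_option linter.unusedSectionVars false

open Set Filter Topology Matrix Finset InnerProductSpace Laplacian
open scoped ContDiff ComplexConjugate ComplexOrder

namespace Crest.Agent.R276.VCalc_442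

variable {X : Type*} [NormedAddCommGroup X] [NormedSpace ℂ X]
variable {ι : Type*} [Fintype ι] [DecidableEq ι]
variable {κ : Type*} [Fintype κ] [DecidableEq κ]

section det

theorem sum_adj_col (A : Matrix κ κ ℂ) (i : κ) (b : κ → ℂ) :
    (A.updateCol i b).det = ∑ j, A.adjugate i j * b j := by
  rw [← Matrix.cramer_apply, Matrix.cramer_eq_adjugate_mulVec]
  rfl

/-- Jacobi's formula (complex valued, real differentiable). -/
theorem hasFDerivAt_det {A : X → Matrix κ κ ℂ} {A' : κ → κ → X →L[ℝ] ℂ} {x : X}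
    (hA : ∀ i j, HasFDerivAt (fun y => A y i j) (A' i j) x) :
    HasFDerivAt (fun y => (A y).det) (∑ i, ∑ j, (A x).adjugate i j • A' j i) x := by
  have h1 : ∀ y, (A y).det = ∑ τ : Equiv.Perm κ, ((Equiv.Perm.sign τ : ℤ) : ℂ) *
      ∏ i, A y (τ i) i := by
    intro y; rw [Matrix.det_apply']
  simp_rw [h1]
  have h2 : HasFDerivAt (fun y => ∑ τ : Equiv.Perm κ, ((Equiv.Perm.sign τ : ℤ) : ℂ) *
      ∏ i, A y (τ i) i)
      (∑ τ : Equiv.Perm κ, ((Equiv.Perm.sign τ : ℤ) : ℂ) •
        ∑ i, (∏ j ∈ univ.erase i, A x (τ j) j) • A' (τ i) i) x := by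
    refine HasFDerivAt.fun_sum fun τ _ => ?_
    exact (HasFDerivAt.finsetProd (fun i _ => hA (τ i) i)).const_mul _
  refine h2.congr_fderiv ?_
  ext v
  simp only [_root_.sum_apply, _root_.smul_apply, smul_eq_mul]
  simp_rw [← sum_adj_col (A x) _ (fun j => A' j _ v), Matrix.det_apply']
  rw [Finset.sum_comm]
  refine Finset.sum_congr rfl fun τ _ => ?_
  rw [Finset.mul_sum]
  refine Finset.sum_congr rfl fun i _ => ?_
  congr 1
  rw [← Finset.mul_prod_erase univ _ (mem_univ i)]
  simp only [Matrix.updateCol_self]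
  rw [mul_comm]
  congr 1
  refine Finset.prod_congr rfl fun j hj => ?_
  rw [Matrix.updateCol_ne (ne_of_mem_erase hj)]

theorem diff_det {A : X → Matrix κ κ ℂ} {x : X}
    (hA : ∀ i j, DifferentiableAt ℝ (fun y => A y i j) x) :
    DifferentiableAt ℝ (fun y => (A y).det) x :=
  (hasFDerivAt_det (fun i j => (hA i j).hasFDerivAt)).differentiableAt

theorem dW_det {A : X → Matrix κ κ ℂ} {x : X}
    (hA : ∀ i j, DifferentiableAt ℝ (fun y => A y i j) x) (v : X) :
    dW (fun y => (A y).det) v x = ∑ i, ∑ j, (A x).adjugate i j * dW (fun y => A y j i) v x := by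
  have h := (hasFDerivAt_det (fun i j => (hA i j).hasFDerivAt)).fderiv
  unfold dW
  rw [h]
  simp only [_root_.sum_apply, _root_.smul_apply, smul_eq_mul, Finset.mul_sum,
    ← Finset.sum_sub_distrib]
  refine Finset.sum_congr rfl fun i _ => Finset.sum_congr rfl fun j _ => ?_
  ring

theorem dB_det {A : X → Matrix κ κ ℂ} {x : X}
    (hA : ∀ i j, DifferentiableAt ℝ (fun y => A y i j) x) (v : X) :
    dB (fun y => (A y).det) v x = ∑ i, ∑ j, (A x).adjugate i j * dB (fun y => A y j i) v x := by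
  have h := (hasFDerivAt_det (fun i j => (hA i j).hasFDerivAt)).fderiv
  unfold dB
  rw [h]
  simp only [_root_.sum_apply, _root_.smul_apply, smul_eq_mul, Finset.mul_sum,
    ← Finset.sum_add_distrib]
  refine Finset.sum_congr rfl fun i _ => Finset.sum_congr rfl fun j _ => ?_
  ring

theorem diff_adj {A : X → Matrix κ κ ℂ} {x : X}
    (hA : ∀ i j, DifferentiableAt ℝ (fun y => A y i j) x) (i j : κ) :
    DifferentiableAt ℝ (fun y => (A y).adjugate i j) x := by
  simp_rw [Matrix.adjugate_apply]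
  refine diff_det fun a b => ?_
  by_cases haj : a = j
  · subst haj
    simp only [Matrix.updateRow_self]
    exact differentiableAt_const _
  · simp only [Matrix.updateRow_ne haj]
    exact hA a b

theorem contDiffOn_det {A : X → Matrix κ κ ℂ} {U : Set X}
    (hA : ∀ i j, ContDiffOn ℝ ∞ (fun y => A y i j) U) :
    ContDiffOn ℝ ∞ (fun y => (A y).det) U := by
  simp_rw [Matrix.det_apply']
  refine ContDiffOn.sum fun τ _ => contDiffOn_const.mul ?_
  exact contDiffOn_prod fun i _ => hA _ _

/-- `∂̄_v` of the adjugate at a point where `G = 1` -/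
theorem dB_adj_one {A : X → Matrix κ κ ℂ} {x : X}
    (hA : ∀ i j, DifferentiableAt ℝ (fun y => A y i j) x) (h1 : A x = 1) (i j : κ) (v : X) :
    dB (fun y => (A y).adjugate i j) v x =
      (if i = j then ∑ k, dB (fun y => A y k k) v x else 0) - dB (fun y => A y i j) v x := by
  have hadj := diff_adj hA
  have e1 : (fun y => ∑ k, (A y).adjugate i k * A y k j) =
      fun y => (A y).det * (1 : Matrix κ κ ℂ) i j := by
    funext y
    have := congrFun (congrFun (Matrix.adjugate_mul (A y)) i) j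
    rw [Matrix.mul_apply] at this
    rw [this, Matrix.smul_apply, smul_eq_mul]
  have e2 : dB (fun y => ∑ k, (A y).adjugate i k * A y k j) v x =
      dB (fun y => (A y).det * (1 : Matrix κ κ ℂ) i j) v x := by rw [e1]
  rw [dB_sum (f := fun k y => (A y).adjugate i k * A y k j) _
    (fun k _ => (hadj i k).fun_mul (hA k j)), dB_mul (diff_det hA) (differentiableAt_const _),
    dB_const, mul_zero, add_zero, dB_det hA] at e2
  have e3 : ∀ k, dB (fun y => (A y).adjugate i k * A y k j) v x =
      dB (fun y => (A y).adjugate i k) v x * (1 : Matrix κ κ ℂ) k j +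
        (1 : Matrix κ κ ℂ) i k * dB (fun y => A y k j) v x := by
    intro k
    rw [dB_mul (hadj i k) (hA k j), h1, Matrix.adjugate_one]
  simp only [e3, Finset.sum_add_distrib] at e2
  rw [h1, Matrix.adjugate_one] at e2
  simp only [Matrix.one_apply, mul_ite, mul_one, mul_zero, ite_mul, one_mul, zero_mul,
    Finset.sum_ite_eq, Finset.sum_ite_eq', Finset.mem_univ, if_true] at e2
  rw [← e2]
  ring

/-- the second derivative of the determinant at a point where `G = 1` -/
theorem dB_dW_det_one {A : X → Matrix κ κ ℂ} {U : Set X} (hU : IsOpen U) {x : X} (hx : x ∈ U)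
    (hA : ∀ i j, ContDiffOn ℝ ∞ (fun y => A y i j) U) (h1 : A x = 1) (v : X) :
    dB (dW (fun y => (A y).det) v) v x =
      (∑ i, dB (fun y => A y i i) v x) * (∑ i, dW (fun y => A y i i) v x) -
        (∑ i, ∑ j, dB (fun y => A y i j) v x * dW (fun y => A y j i) v x) +
        ∑ i, dB (dW (fun y => A y i i) v) v x := by
  have hAd : ∀ {y}, y ∈ U → ∀ i j, DifferentiableAt ℝ (fun y => A y i j) y :=
    fun hy i j => diffAt hU (hA i j) hy
  have hAd2 : ∀ i j, DifferentiableAt ℝ (dW (fun y => A y i j) v) x :=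
    fun i j => diffAt hU (contDiffOn_dW hU (hA i j) v) hx
  have hadj := diff_adj (hAd hx)
  have e0 : dW (fun y => (A y).det) v =ᶠ[𝓝 x] fun y => ∑ i, ∑ j, (A y).adjugate i j *
      dW (fun y => A y j i) v y :=
    Filter.eventually_of_mem (hU.mem_nhds hx) fun y hy => dW_det (hAd hy) v
  rw [dB_congr e0 v]
  rw [dB_sum (f := fun i y => ∑ j, (A y).adjugate i j * dW (fun y => A y j i) v y) _
    (fun i _ => DifferentiableAt.fun_sum fun j _ => (hadj i j).fun_mul (hAd2 j i))]
  have e1 : ∀ i, dB (fun y => ∑ j, (A y).adjugate i j * dW (fun y => A y j i) v y) v x =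
      ∑ j, (((if i = j then ∑ k, dB (fun y => A y k k) v x else 0) -
        dB (fun y => A y i j) v x) * dW (fun y => A y j i) v x +
        (1 : Matrix κ κ ℂ) i j * dB (dW (fun y => A y j i) v) v x) := by
    intro i
    rw [dB_sum (f := fun j y => (A y).adjugate i j * dW (fun y => A y j i) v y) _
      (fun j _ => (hadj i j).fun_mul (hAd2 j i))]
    refine Finset.sum_congr rfl fun j _ => ?_
    rw [dB_mul (hadj i j) (hAd2 j i), dB_adj_one (hAd hx) h1, h1, Matrix.adjugate_one]
  rw [Finset.sum_congr rfl fun i _ => e1 i]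
  simp only [sub_mul, Finset.sum_add_distrib, Finset.sum_sub_distrib, Matrix.one_apply, ite_mul,
    one_mul, zero_mul, Finset.sum_ite_eq, Finset.mem_univ, if_true]
  rw [Finset.mul_sum]

theorem dW_det_one {A : X → Matrix κ κ ℂ} {x : X}
    (hA : ∀ i j, DifferentiableAt ℝ (fun y => A y i j) x) (h1 : A x = 1) (v : X) :
    dW (fun y => (A y).det) v x = ∑ i, dW (fun y => A y i i) v x := by
  rw [dW_det hA, h1, Matrix.adjugate_one]
  simp [Matrix.one_apply]

end det

section bessel

/-- Bessel's inequality for the Hilbert-Schmidt product -/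
theorem Adj.bessel {K : Matrix ι ι ℂ} (hK : K.PosDef) {t t' : κ → Matrix ι ι ℂ}
    (ht : ∀ i, Adj K (t i) (t' i)) (hon : ∀ i j, (t i * t' j).trace = if i = j then 1 else 0)
    {a a' : Matrix ι ι ℂ} (ha : Adj K a a') :
    ∑ j, ‖(a * t' j).trace‖ ^ 2 ≤ (a * a').trace.re := by
  set α : κ → ℂ := fun j => (a * t' j).trace with hα
  have hα' : ∀ j, (t j * a').trace = star (α j) := fun j => by
    rw [ha.trace_swap hK (ht j)]
  have h1 : Adj K (a - ∑ j, α j • t j) (a' - ∑ j, star (α j) • t' j) :=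
    ha.sub (Adj.sum _ fun j _ => (ht j).smul (α j))
  have h2 := h1.trace_re_nonneg hK
  have e1 : (a - ∑ j, α j • t j) * (a' - ∑ j, star (α j) • t' j) =
      a * a' - (∑ j, star (α j) • (a * t' j)) - (∑ j, α j • (t j * a')) +
        ∑ i, ∑ j, (α i * star (α j)) • (t i * t' j) := by
    have e2 : (∑ j, α j • t j) * (∑ j, star (α j) • t' j) =
        ∑ i, ∑ j, (α i * star (α j)) • (t i * t' j) := by
      rw [Finset.sum_mul_sum]
      refine Finset.sum_congr rfl fun i _ => Finset.sum_congr rfl fun j _ => ?_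
      rw [smul_mul_assoc, mul_smul_comm, smul_smul]
    have e3 : a * (∑ j, star (α j) • t' j) = ∑ j, star (α j) • (a * t' j) := by
      rw [Finset.mul_sum]
      exact Finset.sum_congr rfl fun j _ => by rw [mul_smul_comm]
    have e4 : (∑ j, α j • t j) * a' = ∑ j, α j • (t j * a') := by
      rw [Finset.sum_mul]
      exact Finset.sum_congr rfl fun j _ => by rw [smul_mul_assoc]
    rw [← e2, ← e3, ← e4]
    noncomm_ring
  have e5 : ((a - ∑ j, α j • t j) * (a' - ∑ j, star (α j) • t' j)).trace =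
      (a * a').trace - ∑ j, star (α j) * α j := by
    rw [e1]
    simp only [Matrix.trace_add, Matrix.trace_sub, Matrix.trace_sum, Matrix.trace_smul,
      smul_eq_mul, hon, hα']
    have e6 : ∑ i, ∑ j, α i * star (α j) * (if i = j then (1 : ℂ) else 0) =
        ∑ i, α i * star (α i) := by
      refine Finset.sum_congr rfl fun i _ => ?_
      simp
    rw [e6]
    ring
  rw [e5] at h2
  have e7 : (∑ j, star (α j) * α j : ℂ) = ((∑ j, ‖α j‖ ^ 2 : ℝ) : ℂ) := by
    push_cast
    refine Finset.sum_congr rfl fun j _ => ?_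
    rw [Complex.star_def, mul_comm, Complex.mul_conj, Complex.normSq_eq_norm_sq]
    push_cast
    ring
  rw [e7, Complex.sub_re, Complex.ofReal_re] at h2
  linarith

theorem hs_sum_le (a : κ → ℂ) (B : κ → Matrix ι ι ℂ) :
    hs (∑ i, a i • B i) ≤ (∑ i, ‖a i‖ ^ 2) * ∑ i, hs (B i) := by
  unfold hs
  have h1 : ∀ k l, ‖(∑ i, a i • B i) k l‖ ^ 2 ≤ (∑ i, ‖a i‖ ^ 2) * ∑ i, ‖B i k l‖ ^ 2 := by
    intro k l
    have h2 : ‖(∑ i, a i • B i) k l‖ ≤ ∑ i, ‖a i‖ * ‖B i k l‖ := by
      rw [Matrix.sum_apply]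
      refine (norm_sum_le _ _).trans (Finset.sum_le_sum fun i _ => ?_)
      simp
    exact (pow_le_pow_left₀ (norm_nonneg _) h2 2).trans (Finset.sum_mul_sq_le_sq_mul_sq _ _ _)
  calc ∑ k, ∑ l, ‖(∑ i, a i • B i) k l‖ ^ 2 ≤ ∑ k, ∑ l, (∑ i, ‖a i‖ ^ 2) * ∑ i, ‖B i k l‖ ^ 2 :=
        Finset.sum_le_sum fun k _ => Finset.sum_le_sum fun l _ => h1 k l
    _ = (∑ i, ‖a i‖ ^ 2) * ∑ i, ∑ k, ∑ l, ‖B i k l‖ ^ 2 := by
        simp only [← Finset.mul_sum]
        congr 1
        rw [Finset.sum_comm (s := (Finset.univ : Finset κ))]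
        refine Finset.sum_congr rfl fun k _ => ?_
        rw [Finset.sum_comm]

theorem Adj.sum_cs {K : Matrix ι ι ℂ} (hK : K.PosDef) {t t' : κ → Matrix ι ι ℂ}
    (ht : ∀ i, Adj K (t i) (t' i)) (a : κ → ℂ) :
    ((∑ i, a i • t i) * (∑ i, star (a i) • t' i)).trace.re ≤
      (∑ i, ‖a i‖ ^ 2) * ∑ i, (t i * t' i).trace.re := by
  obtain ⟨B, hB, hKB⟩ := exists_sqrt hK
  have h1 : Adj K (∑ i, a i • t i) (∑ i, star (a i) • t' i) :=
    Adj.sum _ fun i _ => (ht i).smul (a i)
  have e : ∀ {b b' : Matrix ι ι ℂ}, Adj K b b' → (b * b').trace.re = hs (B * b * B⁻¹) := by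
    intro b b' hb
    rw [← trace_conj hB, mul_conj hB, adj_conj hB hKB hb, trace_mul_conjTranspose_self]
    simp
  rw [e h1]
  have e2 : B * (∑ i, a i • t i) * B⁻¹ = ∑ i, a i • (B * t i * B⁻¹) := by
    rw [Finset.mul_sum, Finset.sum_mul]
    refine Finset.sum_congr rfl fun i _ => ?_
    rw [mul_smul_comm, smul_mul_assoc]
  rw [e2]
  have e3 : ∑ i, (t i * t' i).trace.re = ∑ i, hs (B * t i * B⁻¹) :=
    Finset.sum_congr rfl fun i _ => e (ht i)
  rw [e3]
  exact hs_sum_le a _

end bessel

end Crest.Agent.R276.VCalc_442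
end

-- ▼ part R276/VCalcK_442

/-!
# R276, leaf VCalc (helper442): (C2) the determinant of the Hodge metric

`gm w P e x` is the Gram matrix `tr (θ_{e_i} θ̄_{e_j})`.

* `VHS.gm_posSemidef`, `VHS.gm_posDef` (`θ_{e_i}` independent), `VHS.det_le` (Hadamard);
* `VHS.curv_det` : `0 ≤ F ∂̄∂F - |∂F|²`, `F = det gm`;
* `VHS.curv_det_span` : `c g_v F² ≤ F ∂̄∂F - |∂F|²` for `v` in the span of the frame;
* `exists_neg_det` : `c g_v ≤ Δ log det gm` along complex lines.
-/

set_option autoImplicit false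
set_option linter.unusedSectionVars false

open Set Filter Topology Matrix Finset InnerProductSpace Laplacian
open scoped ContDiff ComplexConjugate ComplexOrder

namespace Crest.Agent.R276.VCalc_442

variable {X : Type*} [NormedAddCommGroup X] [NormedSpace ℂ X]
variable {ι : Type*} [Fintype ι] [DecidableEq ι]
variable {κ : Type*} [Fintype κ] [DecidableEq κ]

section dir

variable {A : Type*} [NormedAddCommGroup A] [NormedSpace ℂ A]

theorem dW_sum_dir (f : X → A) (x : X) (s : Finset κ) (c : κ → ℂ) (e : κ → X) :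
    dW f (∑ k ∈ s, c k • e k) x = ∑ k ∈ s, c k • dW f (e k) x := by
  induction s using Finset.induction_on with
  | empty => simp [dW]
  | insert a s ha ih =>
    rw [Finset.sum_insert ha, Finset.sum_insert ha, dW_add_dir, dW_smul_dir, ih]

theorem dB_sum_dir (f : X → A) (x : X) (s : Finset κ) (c : κ → ℂ) (e : κ → X) :
    dB f (∑ k ∈ s, c k • e k) x = ∑ k ∈ s, star (c k) • dB f (e k) x := by
  induction s using Finset.induction_on with
  | empty => simp [dB]
  | insert a s ha ih =>
    rw [Finset.sum_insert ha, Finset.sum_insert ha, dB_add_dir, dB_smul_dir, ih]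
    rfl

end dir

/-- the Gram matrix of the Hodge metric in the frame `e` -/
noncomputable def gm (w : ℕ) (P : ℕ → X → Matrix ι ι ℂ) (e : κ → X) (x : X) : Matrix κ κ ℂ :=
  Matrix.of fun i j => gg w P (e i) (e j) x

section nm

attribute [local instance] Matrix.linftyOpNormedRing Matrix.linftyOpNormedAlgebra

namespace VHS

variable {w : ℕ} {U : Set X} {S : Matrix ι ι ℂ} {P : ℕ → X → Matrix ι ι ℂ} {x : X}

/-- the elements `[θ̄_v, θ_i]` -/
noncomputable def bb (w : ℕ) (P : ℕ → X → Matrix ι ι ℂ) (e v x : X) : Matrix ι ι ℂ :=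
  tb (grOp w P) v x * dW (grOp w P) e x - dW (grOp w P) e x * tb (grOp w P) v x

/-- their adjoints `[θ̄_i, θ_v]` -/
noncomputable def bc (w : ℕ) (P : ℕ → X → Matrix ι ι ℂ) (e v x : X) : Matrix ι ι ℂ :=
  tb (grOp w P) e x * dW (grOp w P) v x - dW (grOp w P) v x * tb (grOp w P) e x

theorem adj_bb (h : VHS w U S P) (hx : x ∈ U) (e v : X) :
    Adj (hm w S P x) (bb w P e v x) (bc w P e v x) := by
  have h1 := h.adj_th_tb hx e
  have h2 := (h.adj_th_tb hx v).symm (h.hmPos hx).1
  exact (h2.mul h1).sub (h1.mul h2)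

theorem curv_det_one (h : VHS w U S P) (hx : x ∈ U) (e : κ → X) (h1 : gm w P e x = 1) (v : X) :
    ∑ i, (bb w P (e i) v x * bc w P (e i) v x).trace.re ≤
      (dB (dW (fun y => (gm w P e y).det) v) v x).re -
        ‖dW (fun y => (gm w P e y).det) v x‖ ^ 2 := by
  have hK := h.hmPos hx
  have hA : ∀ i j, ContDiffOn ℝ ∞ (fun y => gm w P e y i j) U := fun i j => h.sm_gg (e i) (e j)
  have hAd : ∀ i j, DifferentiableAt ℝ (fun y => gm w P e y i j) x :=
    fun i j => diffAt h.op (hA i j) hx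
  rw [dB_dW_det_one h.op hx hA h1 v, dW_det_one hAd h1 v]
  set p : κ → κ → ℂ := fun i j => (dW (dW (grOp w P) (e i)) v x * tb (grOp w P) (e j) x).trace
    with hp
  have e1 : ∀ i j, dW (fun y => gm w P e y i j) v x = p i j := fun i j => h.dW_gg hx (e i) (e j) v
  have e2 : ∀ i j, dB (fun y => gm w P e y i j) v x = star (p j i) := fun i j =>
    (h.dB_gg hx (e i) (e j) v).trans
      ((h.adj_dth hx (e j) v).trace_swap hK (h.adj_th_tb hx (e i)))
  have e3 : ∀ i, dB (dW (fun y => gm w P e y i i) v) v x =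
      (bb w P (e i) v x * bc w P (e i) v x).trace +
        (dW (dW (grOp w P) (e i)) v x * dB (tb (grOp w P) (e i)) v x).trace :=
    fun i => h.dB_dW_gg hx (e i) (e i) v
  simp only [e1, e2, e3]
  have hon : ∀ i j, (dW (grOp w P) (e i) x * tb (grOp w P) (e j) x).trace =
      if i = j then 1 else 0 := by
    intro i j
    have := congrFun (congrFun h1 i) j
    rw [Matrix.one_apply] at this
    rw [← this]
    exact (h.gg_eq hx (e i) (e j)).symm
  have hbes : ∀ j, ∑ i, ‖p j i‖ ^ 2 ≤
      (dW (dW (grOp w P) (e j)) v x * dB (tb (grOp w P) (e j)) v x).trace.re := fun j =>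
    Adj.bessel hK (t := fun i => dW (grOp w P) (e i) x) (t' := fun i => tb (grOp w P) (e i) x)
      (fun i => h.adj_th_tb hx (e i)) hon (h.adj_dth hx (e j) v)
  have r1 : ((∑ i, star (p i i)) * ∑ i, p i i).re = ‖∑ i, p i i‖ ^ 2 := by
    rw [← star_sum, Complex.star_def, mul_comm, Complex.mul_conj, Complex.normSq_eq_norm_sq,
      Complex.ofReal_re]
  have r2 : (∑ i, ∑ j, star (p j i) * p j i).re = ∑ j, ∑ i, ‖p j i‖ ^ 2 := by
    rw [Finset.sum_comm]
    simp only [Complex.re_sum]
    refine Finset.sum_congr rfl fun i _ => Finset.sum_congr rfl fun j _ => ?_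
    rw [Complex.star_def, mul_comm, Complex.mul_conj, Complex.normSq_eq_norm_sq,
      Complex.ofReal_re]
  rw [Complex.add_re, Complex.sub_re, r1, r2, Finset.sum_add_distrib, Complex.add_re,
    Complex.re_sum, Complex.re_sum]
  have h5 := Finset.sum_le_sum fun j (_ : j ∈ Finset.univ) => hbes j
  linarith

theorem bb_span_one (h : VHS w U S P) {c : ℝ} (hc : ∀ K a a' : Matrix ι ι ℂ, K.PosDef →
    Adj K a a' → IsNilpotent a →
    c * (a * a').trace.re ^ 2 ≤ ((a' * a - a * a') * (a' * a - a * a')).trace.re)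
    (hx : x ∈ U) (e : κ → X) (h1 : gm w P e x = 1) (a : κ → ℂ) :
    c * gden w P (∑ i, a i • e i) x ≤
      ∑ i, (bb w P (e i) (∑ i, a i • e i) x * bc w P (e i) (∑ i, a i • e i) x).trace.re := by
  set v := ∑ i, a i • e i with hv
  have hK := h.hmPos hx
  have h2 := h.nil hc hx v
  have hadj : ∀ i, Adj (hm w S P x) (bb w P (e i) v x) (bc w P (e i) v x) :=
    fun i => h.adj_bb hx (e i) v
  have h3 := Adj.sum_cs hK hadj a
  have hon : ∀ i j, (dW (grOp w P) (e i) x * tb (grOp w P) (e j) x).trace =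
      if i = j then 1 else 0 := by
    intro i j
    have := congrFun (congrFun h1 i) j
    rw [Matrix.one_apply] at this
    rw [← this]
    exact (h.gg_eq hx (e i) (e j)).symm
  have t1 : dW (grOp w P) v x = ∑ i, a i • dW (grOp w P) (e i) x := dW_sum_dir _ _ _ _ _
  have t2 : tb (grOp w P) v x = ∑ i, star (a i) • tb (grOp w P) (e i) x := by
    unfold tb
    rw [hv, dB_sum_dir, ← Finset.sum_neg_distrib]
    exact Finset.sum_congr rfl fun i _ => by rw [smul_neg]
  have hb : ∑ i, a i • bb w P (e i) v x = bb w P v v x := by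
    unfold bb
    conv_rhs => rw [t1]
    rw [Finset.mul_sum, Finset.sum_mul, ← Finset.sum_sub_distrib]
    refine Finset.sum_congr rfl fun i _ => ?_
    rw [smul_sub, mul_smul_comm, smul_mul_assoc]
  have hb' : ∑ i, star (a i) • bc w P (e i) v x = bb w P v v x := by
    unfold bb bc
    conv_rhs => rw [t2]
    rw [Finset.mul_sum, Finset.sum_mul, ← Finset.sum_sub_distrib]
    refine Finset.sum_congr rfl fun i _ => ?_
    rw [smul_sub, mul_smul_comm, smul_mul_assoc]
  have hg : gden w P v x = ∑ i, ‖a i‖ ^ 2 := by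
    unfold gden
    rw [h.gg_eq hx]
    change (dW (grOp w P) v x * tb (grOp w P) v x).trace.re = _
    rw [t1, t2, Finset.sum_mul_sum]
    simp only [smul_mul_assoc, mul_smul_comm, Matrix.trace_sum, Matrix.trace_smul, smul_eq_mul,
      hon]
    simp only [mul_ite, mul_one, mul_zero, Finset.sum_ite_eq, Finset.mem_univ, if_true,
      Complex.re_sum]
    refine Finset.sum_congr rfl fun i _ => ?_
    rw [Complex.star_def, mul_comm, Complex.mul_conj, Complex.normSq_eq_norm_sq,
      Complex.ofReal_re]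
  rw [hb, hb', ← hg] at h3
  have h4 : c * gden w P v x ^ 2 ≤ gden w P v x *
      ∑ i, (bb w P (e i) v x * bc w P (e i) v x).trace.re := h2.trans h3
  have h5 := h.gden_nonneg hx v
  rcases h5.eq_or_lt with h6 | h6
  · rw [← h6, mul_zero]
    exact Finset.sum_nonneg fun i _ => (hadj i).trace_re_nonneg hK
  · have h7 : gden w P v x * (c * gden w P v x) ≤ gden w P v x *
      ∑ i, (bb w P (e i) v x * bc w P (e i) v x).trace.re := by nlinarith [h4]
    exact le_of_mul_le_mul_left h7 h6

/-- change of frame -/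
theorem gm_change (h : VHS w U S P) (hx : x ∈ U) (T : Matrix κ κ ℂ) (e : κ → X) :
    gm w P (fun i => ∑ j, T i j • e j) x = T * gm w P e x * Tᴴ := by
  ext i j
  have h0 : ∀ k l, gm w P e x k l = (dW (grOp w P) (e k) x * tb (grOp w P) (e l) x).trace :=
    fun k l => h.gg_eq hx (e k) (e l)
  have h1 : gm w P (fun i => ∑ j, T i j • e j) x i j =
      (dW (grOp w P) (∑ k, T i k • e k) x * tb (grOp w P) (∑ l, T j l • e l) x).trace :=
    h.gg_eq hx _ _
  have t2 : tb (grOp w P) (∑ l, T j l • e l) x =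
      ∑ l, star (T j l) • tb (grOp w P) (e l) x := by
    unfold tb
    rw [dB_sum_dir, ← Finset.sum_neg_distrib]
    exact Finset.sum_congr rfl fun i _ => by rw [smul_neg]
  rw [h1, dW_sum_dir, t2, Finset.sum_mul_sum]
  simp only [smul_mul_assoc, mul_smul_comm, Matrix.trace_sum, Matrix.trace_smul, smul_eq_mul,
    ← h0]
  rw [Matrix.mul_apply]
  simp only [Matrix.mul_apply, Matrix.conjTranspose_apply, Finset.sum_mul]
  rw [Finset.sum_comm]
  refine Finset.sum_congr rfl fun l _ => Finset.sum_congr rfl fun k _ => ?_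
  ring

theorem gm_posSemidef (h : VHS w U S P) (hx : x ∈ U) (e : κ → X) : (gm w P e x).PosSemidef := by
  have hK := h.hmPos hx
  have hq : ∀ a : κ → ℂ, star a ⬝ᵥ (gm w P e x *ᵥ a) =
      ((gden w P (∑ i, star (a i) • e i) x : ℝ) : ℂ) := by
    intro a
    rw [← h.gg_self hx]
    have h1 : gg w P (∑ i, star (a i) • e i) (∑ i, star (a i) • e i) x =
        (dW (grOp w P) (∑ i, star (a i) • e i) x *
          tb (grOp w P) (∑ i, star (a i) • e i) x).trace := h.gg_eq hx _ _
    have t2 : tb (grOp w P) (∑ i, star (a i) • e i) x =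
        ∑ l, a l • tb (grOp w P) (e l) x := by
      unfold tb
      rw [dB_sum_dir, ← Finset.sum_neg_distrib]
      exact Finset.sum_congr rfl fun i _ => by rw [star_star, smul_neg]
    have h0 : ∀ k l, gm w P e x k l = (dW (grOp w P) (e k) x * tb (grOp w P) (e l) x).trace :=
      fun k l => h.gg_eq hx (e k) (e l)
    rw [h1, dW_sum_dir, t2, Finset.sum_mul_sum]
    simp only [smul_mul_assoc, mul_smul_comm, Matrix.trace_sum, Matrix.trace_smul, smul_eq_mul,
      ← h0]
    unfold dotProduct mulVec dotProduct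
    refine Finset.sum_congr rfl fun i _ => ?_
    rw [Finset.mul_sum]
    refine Finset.sum_congr rfl fun j _ => ?_
    simp only [Pi.star_apply]
    ring
  refine Matrix.PosSemidef.of_dotProduct_mulVec_nonneg ?_ ?_
  · ext i j
    rw [Matrix.conjTranspose_apply]
    exact (h.gg_swap hx (e j) (e i)).symm
  · intro a
    rw [hq a]
    exact_mod_cast h.gden_nonneg hx _

/-- the Gram matrix is positive definite iff the `θ_{e_i}` are independent -/
theorem gm_posDef (h : VHS w U S P) (hx : x ∈ U) (e : κ → X)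
    (hli : LinearIndependent ℂ fun i => th w P (e i) x) : (gm w P e x).PosDef := by
  have hps := h.gm_posSemidef hx e
  refine Matrix.PosDef.of_dotProduct_mulVec_pos hps.1 ?_
  intro a ha
  have h0 := hps.dotProduct_mulVec_nonneg a
  refine lt_of_le_of_ne h0 fun hne => ha ?_
  have hq : star a ⬝ᵥ (gm w P e x *ᵥ a) =
      ((gden w P (∑ i, star (a i) • e i) x : ℝ) : ℂ) := by
    rw [← h.gg_self hx]
    have h1 : gg w P (∑ i, star (a i) • e i) (∑ i, star (a i) • e i) x =
        (dW (grOp w P) (∑ i, star (a i) • e i) x *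
          tb (grOp w P) (∑ i, star (a i) • e i) x).trace := h.gg_eq hx _ _
    have t2 : tb (grOp w P) (∑ i, star (a i) • e i) x =
        ∑ l, a l • tb (grOp w P) (e l) x := by
      unfold tb
      rw [dB_sum_dir, ← Finset.sum_neg_distrib]
      exact Finset.sum_congr rfl fun i _ => by rw [star_star, smul_neg]
    have h0 : ∀ k l, gm w P e x k l = (dW (grOp w P) (e k) x * tb (grOp w P) (e l) x).trace :=
      fun k l => h.gg_eq hx (e k) (e l)
    rw [h1, dW_sum_dir, t2, Finset.sum_mul_sum]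
    simp only [smul_mul_assoc, mul_smul_comm, Matrix.trace_sum, Matrix.trace_smul, smul_eq_mul,
      ← h0]
    unfold dotProduct mulVec dotProduct
    refine Finset.sum_congr rfl fun i _ => ?_
    rw [Finset.mul_sum]
    refine Finset.sum_congr rfl fun j _ => ?_
    simp only [Pi.star_apply]
    ring
  have h2 : gden w P (∑ i, star (a i) • e i) x = 0 := by
    have h3 := hne.symm.trans rfl
    rw [hq] at h3
    exact_mod_cast h3
  have h4 := h.gden_eq_zero hx h2
  rw [h.th_eq hx, dW_sum_dir] at h4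
  have h5 := Fintype.linearIndependent_iff.1 hli (fun i => star (a i)) (by
    simp only [h.th_eq hx]
    exact h4)
  funext i
  have h6 := h5 i
  simpa using congrArg star h6

/-- Hadamard's inequality -/
theorem det_le {m : ℕ} (h : VHS w U S P) (hx : x ∈ U) (e : Fin m → X) :
    (gm w P e x).det.re ≤ ∏ i, gden w P (e i) x :=
  Nil_840.det_le_prod_diag (h.gm_posSemidef hx e)

theorem sm_det (h : VHS w U S P) (e : κ → X) : ContDiffOn ℝ ∞ (fun y => (gm w P e y).det) U :=
  contDiffOn_det fun i j => h.sm_gg (e i) (e j)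

theorem det_real (h : VHS w U S P) (hx : x ∈ U) (e : κ → X) :
    (gm w P e x).det = ((gm w P e x).det.re : ℂ) := by
  have h1 : star (gm w P e x).det = (gm w P e x).det := by
    rw [← Matrix.det_conjTranspose, (h.gm_posSemidef hx e).1]
  exact (Complex.conj_eq_iff_re.1 h1).symm

theorem cx_det_ev (h : VHS w U S P) (hx : x ∈ U) (e : κ → X) :
    cx (fun y => (gm w P e y).det.re) =ᶠ[𝓝 x] fun y => (gm w P e y).det :=
  Filter.eventually_of_mem (h.op.mem_nhds hx) fun _ hy => (h.det_real hy e).symm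

/-- the general curvature inequality for `F = det gm`, `V = ∑ β_i` for a normalised frame -/
theorem curv_det_aux (h : VHS w U S P) (hx : x ∈ U) (e : κ → X) (hpos : (gm w P e x).PosDef)
    (v : X) : ∃ T : Matrix κ κ ℂ, IsUnit T ∧
      gm w P (fun i => ∑ j, T i j • e j) x = 1 ∧
      (gm w P e x).det.re ^ 2 *
        ∑ i, (bb w P (∑ j, T i j • e j) v x * bc w P (∑ j, T i j • e j) v x).trace.re ≤
      (gm w P e x).det.re * (dB (dW (fun y => (gm w P e y).det) v) v x).re -
        ‖dW (fun y => (gm w P e y).det) v x‖ ^ 2 := by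
  obtain ⟨B, hB, hGB⟩ := exists_sqrt hpos
  have hd : IsUnit B.det := (Matrix.isUnit_iff_isUnit_det B).1 hB
  set T : Matrix κ κ ℂ := (B⁻¹)ᴴ with hT
  have hTu : IsUnit T := by
    rw [Matrix.isUnit_iff_isUnit_det, hT, Matrix.det_conjTranspose]
    have h1 : IsUnit (B⁻¹).det := by
      rw [Matrix.det_nonsing_inv]
      exact hd.ringInverse
    exact h1.star
  have hone : gm w P (fun i => ∑ j, T i j • e j) x = 1 := by
    rw [h.gm_change hx, hGB, hT, Matrix.conjTranspose_conjTranspose]
    calc (B⁻¹)ᴴ * (Bᴴ * B) * B⁻¹ = ((B⁻¹)ᴴ * Bᴴ) * (B * B⁻¹) := by simp only [mul_assoc]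
      _ = 1 := by
        rw [← Matrix.conjTranspose_mul, Matrix.mul_nonsing_inv B hd, Matrix.conjTranspose_one,
          one_mul]
  refine ⟨T, hTu, hone, ?_⟩
  have h1 := h.curv_det_one hx (fun i => ∑ j, T i j • e j) hone v
  set t : ℝ := ‖T.det‖ ^ 2 with ht
  have htpos : 0 < t := by
    have : T.det ≠ 0 := ((Matrix.isUnit_iff_isUnit_det T).1 hTu).ne_zero
    positivity
  have hdet : ∀ y ∈ U, (gm w P (fun i => ∑ j, T i j • e j) y).det =
      (t : ℂ) • (gm w P e y).det := by
    intro y hy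
    have hT2 : (Tᴴ).det = star T.det := Matrix.det_conjTranspose T
    rw [h.gm_change hy, Matrix.det_mul, Matrix.det_mul, hT2, smul_eq_mul, ht]
    push_cast
    rw [← Complex.ofReal_pow, ← Complex.normSq_eq_norm_sq, ← Complex.mul_conj, Complex.star_def]
    ring
  have hF : ContDiffOn ℝ ∞ (fun y => (gm w P e y).det) U := h.sm_det e
  have hFx : DifferentiableAt ℝ (fun y => (gm w P e y).det) x := diffAt h.op hF hx
  have e1 : ∀ y ∈ U, dW (fun y => (gm w P (fun i => ∑ j, T i j • e j) y).det) v y =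
      (t : ℂ) • dW (fun y => (gm w P e y).det) v y := by
    intro y hy
    rw [dW_congr (Filter.eventually_of_mem (h.op.mem_nhds hy) hdet) v,
      dW_const_smul _ (diffAt h.op hF hy)]
  have e2 : dB (dW (fun y => (gm w P (fun i => ∑ j, T i j • e j) y).det) v) v x =
      (t : ℂ) • dB (dW (fun y => (gm w P e y).det) v) v x := by
    rw [dB_congr (Filter.eventually_of_mem (h.op.mem_nhds hx) e1) v]
    exact dB_const_smul _ (diffAt h.op (contDiffOn_dW h.op hF v) hx) v
  have e3 : t * (gm w P e x).det.re = 1 := by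
    have h2 := hdet x hx
    rw [hone, Matrix.det_one, h.det_real hx e, smul_eq_mul, ← Complex.ofReal_mul] at h2
    exact_mod_cast h2.symm
  rw [e1 x hx, e2, smul_eq_mul, smul_eq_mul, Complex.re_ofReal_mul, norm_mul, Complex.norm_real,
    Real.norm_eq_abs, abs_of_pos htpos] at h1
  set D := (gm w P e x).det.re
  have hD : 0 < D := by
    have : 0 < t * D := by rw [e3]; exact one_pos
    exact (pos_iff_pos_of_mul_pos this).1 htpos
  have h3 := mul_le_mul_of_nonneg_left h1 (sq_nonneg D)
  refine h3.trans (le_of_eq ?_)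
  have e4 : D ^ 2 * (t * (dB (dW (fun y => (gm w P e y).det) v) v x).re -
      (t * ‖dW (fun y => (gm w P e y).det) v x‖) ^ 2) =
      (t * D) * D * (dB (dW (fun y => (gm w P e y).det) v) v x).re -
        (t * D) ^ 2 * ‖dW (fun y => (gm w P e y).det) v x‖ ^ 2 := by ring
  rw [e4, e3]
  ring

/-- (C2) `log det gm` is psh where `gm` is positive definite -/
theorem curv_det (h : VHS w U S P) (hx : x ∈ U) (e : κ → X) (hpos : (gm w P e x).PosDef)
    (v : X) : ‖dW (fun y => (gm w P e y).det) v x‖ ^ 2 ≤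
      (gm w P e x).det.re * (dB (dW (fun y => (gm w P e y).det) v) v x).re := by
  obtain ⟨T, -, -, h2⟩ := h.curv_det_aux hx e hpos v
  have h3 : 0 ≤ ∑ i, (bb w P (∑ j, T i j • e j) v x * bc w P (∑ j, T i j • e j) v x).trace.re :=
    Finset.sum_nonneg fun i _ => (h.adj_bb hx _ v).trace_re_nonneg (h.hmPos hx)
  have h4 := mul_nonneg (sq_nonneg (gm w P e x).det.re) h3
  linarith

/-- (C2) with the lower bound in the directions of the frame -/
theorem curv_det_span (h : VHS w U S P) {c : ℝ} (hc : ∀ K a a' : Matrix ι ι ℂ, K.PosDef →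
    Adj K a a' → IsNilpotent a →
    c * (a * a').trace.re ^ 2 ≤ ((a' * a - a * a') * (a' * a - a * a')).trace.re)
    (hx : x ∈ U) (e : κ → X) (hpos : (gm w P e x).PosDef) {v : X}
    (hv : v ∈ Submodule.span ℂ (Set.range e)) :
    (gm w P e x).det.re ^ 2 * (c * gden w P v x) ≤
      (gm w P e x).det.re * (dB (dW (fun y => (gm w P e y).det) v) v x).re -
        ‖dW (fun y => (gm w P e y).det) v x‖ ^ 2 := by
  obtain ⟨T, hT, hone, h2⟩ := h.curv_det_aux hx e hpos v
  refine le_trans (mul_le_mul_of_nonneg_left ?_ (sq_nonneg _)) h2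
  obtain ⟨a, ha⟩ := (Submodule.mem_span_range_iff_exists_fun ℂ).1 hv
  -- `v = ∑ a_j e_j = ∑ (a T⁻¹)_i e'_i`
  have hTd : IsUnit T.det := (Matrix.isUnit_iff_isUnit_det T).1 hT
  have hv' : v = ∑ i, (a ᵥ* T⁻¹) i • ∑ j, T i j • e j := by
    have e1 : ∑ i, (a ᵥ* T⁻¹) i • ∑ j, T i j • e j = ∑ j, ((a ᵥ* T⁻¹) ᵥ* T) j • e j := by
      simp only [Finset.smul_sum, smul_smul]
      rw [Finset.sum_comm]
      refine Finset.sum_congr rfl fun j _ => ?_
      rw [← Finset.sum_smul]
      rfl
    rw [e1, Matrix.vecMul_vecMul, Matrix.nonsing_inv_mul T hTd, Matrix.vecMul_one, ha]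
  have h3 := h.bb_span_one hc hx (fun i => ∑ j, T i j • e j) hone (a ᵥ* T⁻¹)
  rw [← hv'] at h3
  exact h3

end VHS

end nm


end Crest.Agent.R276.VCalc_442
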