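import Crest.Agent.R276.BdNf1_651
import Crest.Agent.R276.CntDefs_857
import Crest.Agent.R276.BndA_563
import Crest.Agent.R276.Grow_25
import Crest.Agent.R276.Desc_327
import Crest.Agent.R276.VLevi2_327
import Crest.Agent.R275.FLSubA_884

-- ▼ part R276/BdNf2_651
section

/-!
# Row 276, leaf BDNF (helper651), part 2 : the half space over a punctured polydisc

`σ : PS d r → X` holomorphic; `HS d r` = universal cover of `PS d r`, `ex` the covering map,
`tw k` the deck transformation `z₀ ↦ z₀ + 2πik`, `Nf V σ r` = flat frame over `HS d r` with monodromy `T`.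
-/

set_option autoImplicit false
set_option linter.unusedSectionVars false

noncomputable section

open Set Filter Topology Matrix Metric
open Crest.Agent.R271.Ho51
open Crest.Agent.R276.Ipc735
open Crest.Agent.R276.BdNf1_651
open Crest.Agent.R276.CntDefs_857 (PS)
open scoped ContDiff

namespace Crest.Agent.R276.BdNf2_651

open Ipc735 (hq)

variable {d : ℕ} {r : ℝ}

/-- the half space over the punctured polydisc -/
def HS (d : ℕ) (r : ℝ) : Set (Fin (d + 1) → ℂ) :=
  {z | (z 0).re < Real.log r ∧ ∀ i : Fin d, ‖z i.succ‖ < r}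

/-- the covering map -/
def ex (z : Fin (d + 1) → ℂ) : Fin (d + 1) → ℂ := Fin.cons (Complex.exp (z 0)) (fun i => z i.succ)

@[simp] lemma ex_zero (z : Fin (d + 1) → ℂ) : ex z 0 = Complex.exp (z 0) := rfl

@[simp] lemma ex_succ (z : Fin (d + 1) → ℂ) (i : Fin d) : ex z i.succ = z i.succ := rfl

/-- the period -/
def per : ℂ := 2 * Real.pi * Complex.I



lemma int_per_re (k : ℤ) : ((k : ℂ) * per).re = 0 := by simp [per]

/-- deck transformations -/
def tw (k : ℤ) (z : Fin (d + 1) → ℂ) : Fin (d + 1) → ℂ :=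
  Fin.cons (z 0 + k * per) (fun i => z i.succ)

@[simp] lemma tw_apply_zero (k : ℤ) (z : Fin (d + 1) → ℂ) : tw k z 0 = z 0 + k * per := rfl

@[simp] lemma tw_succ (k : ℤ) (z : Fin (d + 1) → ℂ) (i : Fin d) : tw k z i.succ = z i.succ := rfl

lemma ext_cons {a b : Fin (d + 1) → ℂ} (h0 : a 0 = b 0) (h : ∀ i : Fin d, a i.succ = b i.succ) :
    a = b := by
  funext i
  refine Fin.cases h0 h i

@[simp] lemma tw_zero (z : Fin (d + 1) → ℂ) : tw 0 z = z := by
  apply ext_cons <;> simp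

lemma tw_tw (k l : ℤ) (z : Fin (d + 1) → ℂ) : tw k (tw l z) = tw (k + l) z := by
  apply ext_cons
  · simp; ring
  · intro i; simp

lemma exp_int_per (k : ℤ) : Complex.exp ((k : ℂ) * per) = 1 := by
  rw [per, Complex.exp_int_mul_two_pi_mul_I]

@[simp] lemma ex_tw (k : ℤ) (z : Fin (d + 1) → ℂ) : ex (tw k z) = ex z := by
  apply ext_cons
  · simp [Complex.exp_add, exp_int_per]
  · intro i; simp

lemma tw_mem (k : ℤ) {z : Fin (d + 1) → ℂ} : tw k z ∈ HS d r ↔ z ∈ HS d r := by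
  simp only [HS, mem_ofPred_eq, tw_apply_zero, tw_succ, Complex.add_re, int_per_re, add_zero]

lemma ex_mem (hr : 0 < r) {z : Fin (d + 1) → ℂ} (hz : z ∈ HS d r) : ex z ∈ PS d r := by
  refine ⟨Complex.exp_ne_zero _, fun i => ?_⟩
  refine Fin.cases ?_ (fun j => ?_) i
  · rw [ex_zero, Complex.norm_exp]
    calc Real.exp (z 0).re < Real.exp (Real.log r) := Real.exp_lt_exp.mpr hz.1
      _ = r := Real.exp_log hr
  · rw [ex_succ]; exact hz.2 j

lemma isOpen_HS (d : ℕ) (r : ℝ) : IsOpen (HS d r) := by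
  have h : HS d r = {z | (z 0).re < Real.log r} ∩ ⋂ i : Fin d, {z | ‖z i.succ‖ < r} := by
    ext z; simp [HS]
  rw [h]
  refine (isOpen_lt (by fun_prop) continuous_const).inter (isOpen_iInter_of_finite fun i => ?_)
  exact isOpen_lt (by fun_prop) continuous_const

lemma isOpen_PS (d : ℕ) (r : ℝ) : IsOpen (PS d r) := by
  have h : PS d r = {q | q 0 ≠ 0} ∩ ⋂ i : Fin (d + 1), {q | ‖q i‖ < r} := by
    ext z; simp [PS]
  rw [h]
  refine (isOpen_ne_fun (by fun_prop) continuous_const).inter (isOpen_iInter_of_finite fun i => ?_)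
  exact isOpen_lt (by fun_prop) continuous_const

lemma convex_HS (d : ℕ) (r : ℝ) : Convex ℝ (HS d r) := by
  rintro x ⟨hx0, hx⟩ y ⟨hy0, hy⟩ a b ha hb hab
  refine ⟨?_, fun i => ?_⟩
  · have h1 : ((a • x + b • y) 0).re = a * (x 0).re + b * (y 0).re := by simp
    rw [h1]
    rcases ha.eq_or_lt with h0 | h0
    · have hb1 : b = 1 := by linarith
      rw [← h0, hb1]; simpa using hy0
    · calc a * (x 0).re + b * (y 0).re < a * Real.log r + b * Real.log r := by
            have h2 : a * (x 0).re < a * Real.log r := mul_lt_mul_of_pos_left hx0 h0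
            have h3 : b * (y 0).re ≤ b * Real.log r := mul_le_mul_of_nonneg_left hy0.le hb
            linarith
        _ = Real.log r := by rw [← add_mul, hab, one_mul]
  · have h1 : (a • x + b • y) i.succ = a • x i.succ + b • y i.succ := rfl
    have h2 := convex_ball (0 : ℂ) r (mem_ball_zero_iff.mpr (hx i)) (mem_ball_zero_iff.mpr (hy i))
      ha hb hab
    rw [h1]
    exact mem_ball_zero_iff.mp h2

/-- base point -/
def bp (d : ℕ) (a : ℝ) : Fin (d + 1) → ℂ := Fin.cons (a : ℂ) (fun _ => 0)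

lemma bp_mem (hr : 0 < r) {a : ℝ} (ha : a < Real.log r) : bp d a ∈ HS d r := by
  refine ⟨?_, fun i => ?_⟩
  · show ((a : ℂ)).re < _; simpa using ha
  · show ‖(0 : ℂ)‖ < r; simpa using hr

lemma differentiable_ex : Differentiable ℂ (ex : (Fin (d + 1) → ℂ) → Fin (d + 1) → ℂ) := by
  rw [differentiable_pi]
  intro i
  refine Fin.cases ?_ (fun j => ?_) i
  · simp only [ex_zero]; fun_prop
  · simp only [ex_succ]; fun_prop

variable {N w : ℕ} {m : ℕ} {X : Type*} [TopologicalSpace X] [RDom m X]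
variable {σ : (Fin (d + 1) → ℂ) → X}

/-- holomorphic map of the punctured polydisc -/
structure HP (σ : (Fin (d + 1) → ℂ) → X) (r : ℝ) : Prop where
  hr : 0 < r
  cont : ContinuousOn σ (PS d r)
  diff : DifferentiableOn ℂ (fun q => (cp (σ q) : Fin m → ℂ)) (PS d r)

/-- the map on the half space -/
def lift (σ : (Fin (d + 1) → ℂ) → X) (z : Fin (d + 1) → ℂ) : X := σ (ex z)

lemma lift_tw (σ : (Fin (d + 1) → ℂ) → X) (k : ℤ) (z : Fin (d + 1) → ℂ) :
    lift σ (tw k z) = lift σ z := by unfold lift; rw [ex_tw]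

lemma HP.hm (h : HP σ r) : HM (HS d r) (lift σ) where
  op := isOpen_HS d r
  cvx := convex_HS d r
  ne := ⟨bp d (Real.log r - 1), bp_mem h.hr (by linarith)⟩
  cont := h.cont.comp differentiable_ex.continuous.continuousOn fun _ hz => ex_mem h.hr hz
  diff := h.diff.comp (f := ex) differentiable_ex.differentiableOn fun _ hz => ex_mem h.hr hz

/-- flat frame over the half space, with its monodromy -/
structure Nf (V : VHS m X N w) (σ : (Fin (d + 1) → ℂ) → X) (r : ℝ) where
  fr : Fr V (HS d r) (lift σ)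
  T : GL (Fin N) ℤ
  mono : ∀ z ∈ HS d r, fr.g (tw 1 z) = fr.g z * T⁻¹

theorem exists_nf (V : VHS m X N w) (h : HP σ r) : Nonempty (Nf V σ r) := by
  obtain ⟨n⟩ := exists_fr V h.hm
  have hcont : Continuous (tw 1 : (Fin (d + 1) → ℂ) → Fin (d + 1) → ℂ) := by
    rw [continuous_pi_iff]
    intro i
    refine Fin.cases ?_ (fun j => ?_) i
    · simp only [tw_apply_zero]; fun_prop
    · simp only [tw_succ]; fun_prop
  have hg' : ∀ z ∈ HS d r, ∃ U ∈ 𝓝 z, ∀ x ∈ U, ∀ y ∈ U,
      V.P (lift σ x) (lift σ y) = n.g (tw 1 x) * (n.g (tw 1 y))⁻¹ := by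
    intro z hz
    obtain ⟨U, hU, hh⟩ := n.loc (tw 1 z) ((tw_mem 1).mpr hz)
    refine ⟨tw 1 ⁻¹' U, hcont.continuousAt hU, fun x hx y hy => ?_⟩
    rw [← hh _ hx _ hy, lift_tw, lift_tw]
  have hb : bp d (Real.log r - 1) ∈ HS d r := bp_mem h.hr (by linarith)
  refine ⟨⟨n, ((n.g (bp d (Real.log r - 1)))⁻¹ * n.g (tw 1 (bp d (Real.log r - 1))))⁻¹, ?_⟩⟩
  intro z hz
  rw [inv_inv, frame_unique (convex_HS d r).isPreconnected n.loc hg' hb hz]
  group

namespace Nf

variable {V : VHS m X N w} (n : Nf V σ r)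

lemma mono_int (k : ℤ) {z : Fin (d + 1) → ℂ} (hz : z ∈ HS d r) :
    n.fr.g (tw k z) = n.fr.g z * n.T ^ (-k) := by
  induction k using Int.induction_on with
  | zero => simp
  | succ i ih =>
    have h1 : tw ((i : ℤ) + 1) z = tw 1 (tw i z) := by
      rw [tw_tw, add_comm (i : ℤ) 1]
    rw [h1, n.mono _ ((tw_mem _).mpr hz), ih, neg_add, _root_.zpow_add, _root_.zpow_neg_one,
      mul_assoc]
  | pred i ih =>
    have h1 : tw 1 (tw (-(i : ℤ) - 1) z) = tw (-(i : ℤ)) z := by
      rw [tw_tw]; congr 1; ring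
    have h2 := n.mono (tw (-(i : ℤ) - 1) z) ((tw_mem _).mpr hz)
    rw [h1, ih] at h2
    have h3 : n.fr.g (tw (-(i : ℤ) - 1) z) = n.fr.g z * n.T ^ (-(-(i : ℤ))) * n.T := by
      rw [h2]; group
    rw [h3, mul_assoc, ← _root_.zpow_add_one]
    congr 2
    ring

lemma E_tw (k : ℤ) {z : Fin (d + 1) → ℂ} (hz : z ∈ HS d r) :
    n.fr.E (tw k z) = cm (n.T ^ k) * n.fr.E z * cm (n.T ^ k)⁻¹ := by
  unfold Fr.E
  rw [n.mono_int k hz, lift_tw, _root_.mul_inv_rev, cm_mul, cm_mul, _root_.zpow_neg, inv_inv]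
  noncomm_ring

lemma pull_tw (φ : X → Fin N → ℂ) (k : ℤ) {z : Fin (d + 1) → ℂ} (hz : z ∈ HS d r) :
    n.fr.pull φ (tw k z) = cm (n.T ^ k) *ᵥ n.fr.pull φ z := by
  unfold Fr.pull
  rw [n.mono_int k hz, lift_tw, _root_.mul_inv_rev, cm_mul, _root_.zpow_neg, inv_inv, Matrix.mulVec_mulVec]

/-- the monodromy preserves the form -/
lemma TS (h : 0 < r) (k : ℤ) : (cm (n.T ^ k))ᴴ * n.fr.S * cm (n.T ^ k) = n.fr.S := by
  have hb : bp d (Real.log r - 1) ∈ HS d r := bp_mem h (by linarith)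
  have h1 := n.fr.S_eq (tw (-k) (bp d (Real.log r - 1))) ((tw_mem _).mpr hb)
  rw [n.mono_int (-k) hb, lift_tw, neg_neg, cm_mul, Matrix.conjTranspose_mul] at h1
  have h2 := n.fr.S_eq _ hb
  calc (cm (n.T ^ k))ᴴ * n.fr.S * cm (n.T ^ k)
      = (cm (n.T ^ k))ᴴ * ((cm (n.fr.g (bp d (Real.log r - 1))))ᴴ *
        V.S (lift σ (bp d (Real.log r - 1))) * cm (n.fr.g (bp d (Real.log r - 1)))) *
        cm (n.T ^ k) := by rw [← h2]
    _ = (cm (n.T ^ k))ᴴ * (cm (n.fr.g (bp d (Real.log r - 1))))ᴴ *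
        V.S (lift σ (bp d (Real.log r - 1))) * (cm (n.fr.g (bp d (Real.log r - 1))) *
        cm (n.T ^ k)) := by noncomm_ring
    _ = n.fr.S := h1.symm

end Nf

end Crest.Agent.R276.BdNf2_651
end
end

-- ▼ part R276/BdNf3_651
section

/-!
# Row 276, leaf BDNF (helper651), part 3 : Hodge norms over the half space, quasi-unipotence

`n.H z u` = Hodge norm square of the constant vector `u` at `z`.
All constants depend on the rank only.
-/

set_option autoImplicit false
set_option linter.unusedSectionVars false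

noncomputable section

open Set Filter Topology Matrix Metric
open Crest.Agent.R271.Ho51
open Crest.Agent.R276.Ipc735
open Crest.Agent.R276.BdNf1_651
open Crest.Agent.R276.BdNf2_651
open Crest.Agent.R276.CntDefs_857 (PS)
open scoped ContDiff

namespace Crest.Agent.R276.BdNf3_651

open Ipc735 (hq)

/-! ### a VHS along a complex line -/

section line

variable {E : Type*} [NormedAddCommGroup E] [NormedSpace ℂ E]
variable {ι : Type*} [Fintype ι] [DecidableEq ι]
variable {w : ℕ} {U : Set E} {S : Matrix ι ι ℂ} {P : ℕ → E → Matrix ι ι ℂ} {x : E}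

lemma gden_eq_gg (h : VCalc_442.VHS w U S P) (hx : x ∈ U) (v : E) :
    VCalc_442.gden w P v x = EndTh_659.gg w P v x := by
  rw [← BndA_563.gden_eq h hx v]
  unfold EndTh_659.gg
  rw [h.th_eq hx, h.thb_eq hx]

/-- the constant of the estimate of the derivative of Hodge norms -/
def KN (ι : Type*) [Fintype ι] [DecidableEq ι] : ℝ := 4 * Real.sqrt (EndTh_659.cst ι)

lemma KN_nonneg (ι : Type*) [Fintype ι] [DecidableEq ι] : 0 ≤ KN ι := by unfold KN; positivity

/-- derivative of the Hodge norm of a flat vector in the direction `v`, if the complex disc of radius `R`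
in this direction lies in `U` -/
lemma fderiv_line (h : VCalc_442.VHS w U S P) (v : E) {R : ℝ} (hR : 0 < R)
    (hm : ∀ t : ℂ, ‖t‖ < R → x + t • v ∈ U) (u : ι → ℂ) :
    DifferentiableAt ℝ (fun y => BndA_563.hn (VCalc_442.hm w S P y) u) x ∧
    |fderiv ℝ (fun y => BndA_563.hn (VCalc_442.hm w S P y) u) x v| ≤
      KN ι / R * BndA_563.hn (VCalc_442.hm w S P x) u := by
  have hx : x ∈ U := by simpa using hm 0 (by simpa using hR)
  obtain ⟨h1, h2⟩ := BndA_563.fderiv_hn h hx u v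
  refine ⟨h1, h2.trans ?_⟩
  have h3 : VCalc_442.gden w P v x ≤ EndTh_659.cst ι / R ^ 2 := by
    rw [gden_eq_gg h hx]
    exact EndTh_659.gg_le_line h hR hm
  have h4 : Real.sqrt (VCalc_442.gden w P v x) ≤ Real.sqrt (EndTh_659.cst ι) / R := by
    calc Real.sqrt (VCalc_442.gden w P v x) ≤ Real.sqrt (EndTh_659.cst ι / R ^ 2) :=
          Real.sqrt_le_sqrt h3
      _ = _ := by rw [Real.sqrt_div (EndTh_659.cst_pos ι).le, Real.sqrt_sq hR.le]
  have h5 := BndA_563.hn_nonneg (h.hmPos hx) u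
  calc 4 * Real.sqrt (VCalc_442.gden w P v x) * BndA_563.hn (VCalc_442.hm w S P x) u
      ≤ 4 * (Real.sqrt (EndTh_659.cst ι) / R) * BndA_563.hn (VCalc_442.hm w S P x) u := by gcongr
    _ = _ := by unfold KN; ring

end line

/-! ### universal exponent -/

/-- the universal exponent of quasi-unipotence in rank `N` -/
def eN (N : ℕ) : ℕ := (Desc_327.exists_exp_poly N).choose

lemma eN_pos (N : ℕ) : 0 < eN N := (Desc_327.exists_exp_poly N).choose_spec.1

/-- an integral matrix whose eigenvalues have modulus `≤ 1` is quasi-unipotent with exponent `eN N` -/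
theorem unip {N : ℕ} (g : GL (Fin N) ℤ)
    (h : ∀ (v : Fin N → ℂ) (μ : ℂ), v ≠ 0 → cm g *ᵥ v = μ • v → ‖μ‖ ≤ 1) :
    (cm g ^ eN N - 1) ^ N = 0 := by
  set A : Matrix (Fin N) (Fin N) ℤ := (g : Matrix (Fin N) (Fin N) ℤ) with hA
  set B : Matrix (Fin N) (Fin N) ℂ := A.map (Int.castRingHom ℂ) with hB
  have hBg : cm g = B := rfl
  have hcp : B.charpoly = A.charpoly.map (Int.castRingHom ℂ) := Matrix.charpoly_map A _
  have heig : ∀ z ∈ (A.charpoly.map (Int.castRingHom ℂ)).roots,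
      ∃ v : Fin N → ℂ, v ≠ 0 ∧ B *ᵥ v = z • v := by
    intro z hz
    have h1 : (Matrix.toLin' B).charpoly = A.charpoly.map (Int.castRingHom ℂ) := by
      rw [← hcp]; simp [Matrix.charpoly_toLin']
    rw [← h1] at hz
    have h2 : Module.End.HasEigenvalue (Matrix.toLin' B) z := by
      rw [Module.End.hasEigenvalue_iff_isRoot_charpoly]
      exact (Polynomial.mem_roots'.1 hz).2
    obtain ⟨v, hv⟩ := h2.exists_hasEigenvector
    refine ⟨v, hv.2, ?_⟩
    have := hv.apply_eq_smul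
    rwa [Matrix.toLin'_apply] at this
  have hone : ∀ z ∈ (A.charpoly.map (Int.castRingHom ℂ)).roots, z ^ eN N = 1 := by
    intro z hz
    refine (Desc_327.exists_exp_poly N).choose_spec.2 A.charpoly A.charpoly_monic ?_ ?_ z hz ?_
    · rw [Matrix.charpoly_natDegree_eq_dim]; simp
    · intro y hy
      obtain ⟨v, hv, hv'⟩ := heig y hy
      exact h v y hv hv'
    · rintro rfl
      obtain ⟨v, hv, hv'⟩ := heig 0 hz
      rw [zero_smul] at hv'
      apply hv
      have h3 : cm g⁻¹ *ᵥ (cm g *ᵥ v) = v := cm_inv_mulVec g v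
      rw [hBg, hv', Matrix.mulVec_zero] at h3
      exact h3.symm
  have hsplit : B.charpoly = (B.charpoly.roots.map (fun a => Polynomial.X - Polynomial.C a)).prod :=
    (IsAlgClosed.splits _).eq_prod_roots_of_monic (Matrix.charpoly_monic B)
  have hcard : Multiset.card B.charpoly.roots = N := by
    rw [Polynomial.splits_iff_card_roots.mp (IsAlgClosed.splits _),
      Matrix.charpoly_natDegree_eq_dim]
    simp
  have hdvd : B.charpoly ∣ (Polynomial.X ^ eN N - 1 : Polynomial ℂ) ^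
      (Multiset.card B.charpoly.roots) := by
    have h3 : ∀ s : Multiset ℂ, (∀ z ∈ s, z ^ eN N = 1) →
        (s.map (fun a => Polynomial.X - Polynomial.C a)).prod ∣
          (Polynomial.X ^ eN N - 1 : Polynomial ℂ) ^ (Multiset.card s) := by
      intro s
      induction s using Multiset.induction_on with
      | empty => simp
      | cons a s ih =>
        intro hs
        rw [Multiset.map_cons, Multiset.prod_cons, Multiset.card_cons, pow_succ, mul_comm]
        refine mul_dvd_mul (ih (fun z hz => hs z (Multiset.mem_cons_of_mem hz))) ?_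
        rw [Polynomial.dvd_iff_isRoot]
        simp [hs a (Multiset.mem_cons_self a s)]
    have h4 := h3 B.charpoly.roots (by rw [hcp]; exact hone)
    rwa [← hsplit] at h4
  obtain ⟨q, hq⟩ := hdvd
  rw [hcard] at hq
  have h5 : Polynomial.aeval B ((Polynomial.X ^ eN N - 1 : Polynomial ℂ) ^ N) = 0 := by
    rw [hq, map_mul, Matrix.aeval_self_charpoly, zero_mul]
  rw [hBg]
  simpa using h5

/-! ### norms over the half space -/

variable {d : ℕ} {r : ℝ} {N w : ℕ} {m : ℕ} {X : Type*} [TopologicalSpace X] [RDom m X]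
variable {σ : (Fin (d + 1) → ℂ) → X} {V : VHS m X N w}

/-- the Hodge norm square of the constant vector `u` at `z` -/
def H (n : Nf V σ r) (z : Fin (d + 1) → ℂ) (u : Fin N → ℂ) : ℝ :=
  (star u ⬝ᵥ hodge w n.fr.S (n.fr.E z) *ᵥ u).re

section

variable (n : Nf V σ r) (h : HP σ r)

/-- the variation over the half space -/
abbrev PP (n : Nf V σ r) : ℕ → (Fin (d + 1) → ℂ) → Matrix (Fin N) (Fin N) ℂ :=
  fun p z => hq w (n.fr.E z) p

include h in
lemma vhs : VCalc_442.VHS w (HS d r) n.fr.S (PP n) := n.fr.vhs h.hm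

lemma hm_eq (z : Fin (d + 1) → ℂ) :
    VCalc_442.hm w n.fr.S (PP n) z = hodge w n.fr.S (n.fr.E z) := by
  unfold VCalc_442.hm
  rw [sgOp_hq]
  rfl

lemma H_eq (z : Fin (d + 1) → ℂ) (u : Fin N → ℂ) :
    H n z u = BndA_563.hn (VCalc_442.hm w n.fr.S (PP n) z) u := by
  rw [hm_eq]; rfl

lemma H_pos {z : Fin (d + 1) → ℂ} (hz : z ∈ HS d r) {u : Fin N → ℂ} (hu : u ≠ 0) :
    0 < H n z u := (n.fr.hs hz).hodge_pos hu

lemma H_nonneg {z : Fin (d + 1) → ℂ} (hz : z ∈ HS d r) (u : Fin N → ℂ) : 0 ≤ H n z u :=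
  (n.fr.hs hz).hodge_nonneg u

lemma H_smul (z : Fin (d + 1) → ℂ) (c : ℂ) (u : Fin N → ℂ) :
    H n z (c • u) = ‖c‖ ^ 2 * H n z u := BndA_563.hn_smul _ c u

@[simp] lemma H_zero (z : Fin (d + 1) → ℂ) : H n z 0 = 0 := BndA_563.hn_zero _

/-- deck transformations -/
lemma H_tw (k : ℤ) (hr : 0 < r) {z : Fin (d + 1) → ℂ} (hz : z ∈ HS d r) (u : Fin N → ℂ) :
    H n (tw k z) (cm (n.T ^ k) *ᵥ u) = H n z u := by
  have h1 : cm (n.T ^ k) * n.fr.E z = n.fr.E (tw k z) * cm (n.T ^ k) := by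
    rw [n.E_tw k hz, Matrix.mul_assoc (_ * _), cm_inv_mul_cm, Matrix.mul_one]
  have h2 := DiscA_651.hq_conj h1 (n.TS hr k) w u
  exact h2.symm

/-- the slice in the variable `z₀` -/
abbrev cs (y : Fin d → ℂ) (t : ℂ) : Fin (d + 1) → ℂ := Fin.cons t y

lemma cs_mem {y : Fin d → ℂ} (hy : ∀ i, ‖y i‖ < r) {t : ℂ} (ht : t.re < Real.log r) :
    cs y t ∈ HS d r := ⟨ht, hy⟩


lemma tw_cs (k : ℤ) (y : Fin d → ℂ) (t : ℂ) : tw k (cs y t) = cs y (t + k * per) := rfl

/-- the inclusion of a slice as an affine map -/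
lemma hasFDerivAt_cs (y : Fin d → ℂ) (t : ℂ) :
    HasFDerivAt (𝕜 := ℝ) (cs y)
      ((ContinuousLinearMap.single ℝ (fun _ : Fin (d + 1) => ℂ) 0)) t := by
  have h1 : cs y = fun s => cs y 0 + ContinuousLinearMap.single ℝ (fun _ : Fin (d + 1) => ℂ) 0 s := by
    funext s
    apply ext_cons
    · simp [cs]
    · intro i; simp [cs]
  rw [h1]
  exact (ContinuousLinearMap.hasFDerivAt _).const_add _

/-- **the basic estimate** in the first variable -/
lemma fderiv_slice (hy : HP σ r) {y : Fin d → ℂ} (hyr : ∀ i, ‖y i‖ < r) {t : ℂ}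
    (ht : t.re < Real.log r) (u : Fin N → ℂ) :
    DifferentiableAt ℝ (fun s => H n (cs y s) u) t ∧
      ‖fderiv ℝ (fun s => H n (cs y s) u) t‖ ≤
        KN (Fin N) / (Real.log r - t.re) * H n (cs y t) u := by
  have hz : cs y t ∈ HS d r := cs_mem hyr ht
  have hs : 0 < Real.log r - t.re := by linarith
  have hd : DifferentiableAt ℝ (fun z => H n z u) (cs y t) := by
    have h1 := (BndA_563.fderiv_hn (vhs n hy) hz u 0).1
    simpa only [← H_eq] using h1
  have hcomp : HasFDerivAt (fun s => H n (cs y s) u)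
      ((fderiv ℝ (fun z => H n z u) (cs y t)).comp
        (ContinuousLinearMap.single ℝ (fun _ : Fin (d + 1) => ℂ) 0)) t :=
    hd.hasFDerivAt.comp t (hasFDerivAt_cs y t)
  refine ⟨hcomp.differentiableAt, ?_⟩
  have hH := H_nonneg n hz u
  refine ContinuousLinearMap.opNorm_le_bound _ (mul_nonneg (div_nonneg (KN_nonneg _) hs.le) hH)
    fun c => ?_
  rw [hcomp.fderiv]
  show ‖fderiv ℝ (fun z => H n z u) (cs y t) (Pi.single 0 c)‖ ≤ _
  by_cases hc : c = 0
  · rw [hc]; simp
  have hc' : 0 < ‖c‖ := norm_pos_iff.mpr hc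
  have hl := fderiv_line (vhs n hy) (x := cs y t) (Pi.single 0 c)
    (R := (Real.log r - t.re) / ‖c‖) (by positivity) (by
      intro τ hτ
      rw [lt_div_iff₀ hc'] at hτ
      have e : cs y t + τ • (Pi.single 0 c : Fin (d + 1) → ℂ) = cs y (t + τ * c) := by
        apply ext_cons
        · simp [cs]
        · intro i; simp [cs]
      rw [e]
      refine cs_mem hyr ?_
      rw [Complex.add_re]
      have h3 : (τ * c).re ≤ ‖τ * c‖ := Complex.re_le_norm _
      rw [norm_mul] at h3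
      linarith) u
  simp only [← H_eq] at hl
  rw [Real.norm_eq_abs]
  refine hl.2.trans (le_of_eq ?_)
  field_simp

/-- the slice shifted to the standard half plane -/
lemma slice_std (hσ : HP σ r) {y : Fin d → ℂ} (hyr : ∀ i, ‖y i‖ < r) (u : Fin N → ℂ) (t : ℂ)
    (ht : t.re < 0) :
    DifferentiableAt ℝ (fun s : ℂ => H n (cs y (s + Real.log r)) u) t ∧
      ‖fderiv ℝ (fun s : ℂ => H n (cs y (s + Real.log r)) u) t‖ ≤
        KN (Fin N) / |t.re| * H n (cs y (t + Real.log r)) u := by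
  have ht' : (t + Real.log r).re < Real.log r := by simpa using ht
  obtain ⟨h1, h2⟩ := fderiv_slice n hσ hyr ht' u
  have e : fderiv ℝ (fun s : ℂ => H n (cs y (s + Real.log r)) u) t =
      fderiv ℝ (fun s => H n (cs y s) u) (t + Real.log r) :=
    fderiv_comp_add_right (f := fun s => H n (cs y s) u) _
  refine ⟨DifferentiableAt.comp (g := fun s => H n (cs y s) u)
    (f := fun s : ℂ => s + (Real.log r : ℂ)) t h1 (by fun_prop), ?_⟩
  rw [e]
  refine h2.trans (le_of_eq ?_)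
  have e2 : Real.log r - (t + Real.log r : ℂ).re = |t.re| := by
    rw [abs_of_neg ht, Complex.add_re, Complex.ofReal_re]; ring
  rw [e2]

/-- eigenvalues of the monodromy have modulus one -/
theorem norm_eig (hσ : HP σ r) {v : Fin N → ℂ} {μ : ℂ} (hv : v ≠ 0)
    (hμ : cm n.T *ᵥ v = μ • v) : ‖μ‖ = 1 := by
  have hμ0 : μ ≠ 0 := by
    rintro rfl
    rw [zero_smul] at hμ
    apply hv
    have := cm_inv_mulVec n.T v
    rw [hμ, Matrix.mulVec_zero] at this
    exact this.symm
  have hy0 : ∀ i : Fin d, ‖(0 : Fin d → ℂ) i‖ < r := fun i => by simpa using hσ.hr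
  have hinv : Matrix.mulVecLin (cm n.T⁻¹) v = μ⁻¹ • v := by
    rw [Matrix.mulVecLin_apply]
    have h1 := cm_inv_mulVec n.T v
    rw [hμ, Matrix.mulVec_smul] at h1
    rw [← h1, smul_smul, inv_mul_cancel₀ hμ0, one_smul]
    rw [h1]
  have h1 := Grow_25.norm_eigenvalue (V := Fin N → ℂ)
    (N := fun t u => H n (cs 0 (t + Real.log r)) u) (T := Matrix.mulVecLin (cm n.T⁻¹))
    (p := 2) two_ne_zero (K := KN (Fin N))
    (fun t ht u hu => H_pos n (cs_mem hy0 (by simpa using ht)) hu)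
    (fun t _ c u => H_smul n _ c u)
    (fun t ht u _ => (slice_std n hσ hy0 u t ht).1)
    (fun t ht u _ => (slice_std n hσ hy0 u t ht).2)
    (by
      intro t ht u
      have hz : cs (0 : Fin d → ℂ) (t + Real.log r) ∈ HS d r := cs_mem hy0 (by simpa using ht)
      have h2 := H_tw n 1 hσ.hr hz (cm n.T⁻¹ *ᵥ u)
      rw [zpow_one, cm_mulVec_inv, tw_cs] at h2
      show H n (cs 0 (t + 2 * Real.pi * Complex.I + Real.log r)) u =
        H n (cs 0 (t + Real.log r)) (Matrix.mulVecLin (cm n.T⁻¹) u)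
      rw [Matrix.mulVecLin_apply, ← h2]
      congr 2
      simp only [per, Int.cast_one, one_mul]
      ring) hv hinv
  rw [norm_inv] at h1
  exact inv_eq_one.mp h1

/-- **quasi-unipotence** with the universal exponent -/
theorem quasi_unipotent (hσ : HP σ r) : (cm n.T ^ eN N - 1) ^ N = 0 :=
  unip n.T fun _ _ hv hμ => (norm_eig n hσ hv hμ).le

/-! ### comparison of norms, constants depending on the rank only -/



/-- growth along a strip relative to the point `log r - 1` -/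
theorem H_growth (hσ : HP σ r) {y : Fin d → ℂ} (hyr : ∀ i, ‖y i‖ < r) (u : Fin N → ℂ)
    {t : ℂ} {M : ℝ} (ht : t.re ≤ -1) (hM : |t.im| ≤ M) :
    H n (cs y (t + Real.log r)) u ≤
      H n (cs y (-1 + Real.log r)) u * (Real.exp (KN (Fin N) * M) * |t.re| ^ KN (Fin N)) ∧
    H n (cs y (-1 + Real.log r)) u ≤
      H n (cs y (t + Real.log r)) u * (Real.exp (KN (Fin N) * M) * |t.re| ^ KN (Fin N)) := by
  by_cases hu : u = 0
  · simp [hu]
  exact Grow_25.growth (f := fun t : ℂ => H n (cs y (t + Real.log r)) u) (KN_nonneg _)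
    (fun t ht => H_pos n (cs_mem hyr (by simpa using ht)) hu)
    (fun t ht => (slice_std n hσ hyr u t ht).1) (fun t ht => (slice_std n hσ hyr u t ht).2) ht hM

/-- comparison in the other variables, on the half ball -/
theorem H_radial (hσ : HP σ r) {y y' : Fin d → ℂ} (hy : ∀ i, ‖y i‖ < r / 2)
    (hy' : ∀ i, ‖y' i‖ < r / 2) {t : ℂ} (ht : t.re < Real.log r) (u : Fin N → ℂ) :
    H n (cs y t) u ≤ Real.exp (BndA_563.C0 (Fin N)) * H n (cs y' t) u := by
  have hr := hσ.hr
  have hf : ContDiffOn ℂ ∞ (fun y : Fin d → ℂ => cs y t) (ball 0 r) := by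
    apply ContDiff.contDiffOn
    rw [contDiff_pi]
    intro i
    refine Fin.cases ?_ (fun j => ?_) i
    · exact contDiff_const
    · exact contDiff_apply ℂ ℂ j
  have hmaps : MapsTo (fun y : Fin d → ℂ => cs y t) (ball 0 r) (HS d r) := by
    intro y hy
    refine cs_mem (fun i => ?_) ht
    exact lt_of_le_of_lt (norm_le_pi_norm y i) (mem_ball_zero_iff.mp hy)
  have hv := EndTh_659.pull (vhs n hσ) isOpen_ball hf hmaps
  have hmem : ∀ {y : Fin d → ℂ}, (∀ i, ‖y i‖ < r / 2) → y ∈ ball (0 : Fin d → ℂ) (r / 2) := by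
    intro y hy
    rw [mem_ball_zero_iff, pi_norm_lt_iff (by positivity)]
    exact hy
  have h1 := BndA_563.hn_le hv hr Subset.rfl u (hmem hy) (hmem hy')
  have e : ∀ y : Fin d → ℂ, BndA_563.hn (VCalc_442.hm w n.fr.S
      (fun p y => PP n p (cs y t)) y) u = H n (cs y t) u := by
    intro y
    rw [H_eq]; rfl
  rw [e, e] at h1
  exact h1


end

end Crest.Agent.R276.BdNf3_651
end
end

-- ▼ part R276/BdNf4_651

/-!
# Row 276, leaf BDNF (helper651), part 4 : the section `om` in the flat frame, sub-mean inequalities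

`Cy w U S P σ` : `σ` a nowhere vanishing holomorphic section of `F^w`, parallel in `F^w` modulo `ℂ σ`.
`-log |σ|²` has Laplacian in `[0, 4 cst / R²]` along complex discs of radius `R`.
-/

set_option autoImplicit false
set_option linter.unusedSectionVars false

noncomputable section

open Set Filter Topology Matrix Metric InnerProductSpace Laplacian
open Crest.Agent.R271.Ho51
open Crest.Agent.R276.Ipc735
open Crest.Agent.R276.BdNf1_651
open Crest.Agent.R276.BdNf2_651
open Crest.Agent.R276.BdNf3_651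
open Crest.Agent.R276.VLevi_327 (CYL)
open scoped ContDiff

namespace Crest.Agent.R276.BdNf4_651

open Ipc735 (hq)

/-! ### general variations over open sets of normed spaces -/

section gen

attribute [local instance] Matrix.linftyOpNormedRing Matrix.linftyOpNormedAlgebra

variable {E : Type*} [NormedAddCommGroup E] [NormedSpace ℂ E]
variable {ι : Type*} [Fintype ι] [DecidableEq ι]

/-- a nowhere zero holomorphic section of `F^w`, parallel in `F^w` modulo itself -/
structure Cy (w : ℕ) (U : Set E) (P : ℕ → E → Matrix ι ι ℂ) (σ : E → ι → ℂ) : Prop where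
  bot : VCalc_442.Bot w U P σ
  ne : ∀ x ∈ U, σ x ≠ 0
  line : ∀ x ∈ U, ∀ v, ∃ l : ℂ, P w x *ᵥ VCalc_442.dW σ v x = l • σ x

/-- the weight -/
def pp (w : ℕ) (S : Matrix ι ι ℂ) (σ : E → ι → ℂ) (x : E) : ℝ := - Real.log (VCalc_442.bn w S σ x)

variable {w : ℕ} {U : Set E} {S : Matrix ι ι ℂ} {P : ℕ → E → Matrix ι ι ℂ} {σ : E → ι → ℂ}

lemma sm_bn (hb : VCalc_442.Bot w U P σ) : ContDiffOn ℝ ∞ (VCalc_442.bn w S σ) U := by
  have h2 : VCalc_442.bn w S σ = fun x => (((-1 : ℂ) ^ w) * ∑ i, ∑ j,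
      star (σ x i) * (S i j * σ x j)).re := by
    funext x
    unfold VCalc_442.bn
    rw [VCalc_442.sf_eq_sum]
  rw [h2]
  have hi : ∀ i, ContDiffOn ℝ ∞ (fun x => σ x i) U := fun i => (contDiffOn_pi.1 hb.sm) i
  have h5 : ContDiffOn ℝ ∞ (fun x => ((-1 : ℂ) ^ w) * ∑ i, ∑ j,
      star (σ x i) * (S i j * σ x j)) U := by
    refine contDiffOn_const.mul (ContDiffOn.sum fun i _ => ContDiffOn.sum fun j _ => ?_)
    exact ((Complex.conjCLE.contDiff).comp_contDiffOn (hi i)).mul
      (contDiffOn_const.mul (hi j))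
  exact Complex.reCLM.contDiff.comp_contDiffOn h5

section
variable (hv : VCalc_442.VHS w U S P) (h : Cy w U P σ)
include hv h

lemma bn_pos {x : E} (hx : x ∈ U) : 0 < VCalc_442.bn w S σ x := hv.bn_pos h.bot hx (h.ne x hx)

lemma sm_pp : ContDiffOn ℝ ∞ (pp w S σ) U := fun _ hx =>
  (((sm_bn h.bot).contDiffWithinAt hx).log (bn_pos hv h hx).ne').neg

/-- the Laplacian of the weight along complex lines -/
theorem lap_pp {x v : E} {ζ : ℂ} (hx : x + ζ • v ∈ U) :
    (Δ (fun ξ : ℂ => pp w S σ (x + ξ • v))) ζ =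
      4 * ((VCalc_442.sf (VCalc_442.hm w S P (x + ζ • v))
        (VCalc_442.dW (VCalc_442.grOp w P) v (x + ζ • v) *ᵥ σ (x + ζ • v))
        (VCalc_442.dW (VCalc_442.grOp w P) v (x + ζ • v) *ᵥ σ (x + ζ • v))).re /
          VCalc_442.bn w S σ (x + ζ • v)) := by
  have hp := bn_pos hv h hx
  have h2 : ContDiffAt ℝ 2 (VCalc_442.bn w S σ) (x + ζ • v) :=
    ((sm_bn h.bot).contDiffAt (hv.op.mem_nhds hx)).of_le ENat.LEInfty.out
  have h1 := VCalc_442.lap_log_line h2 hp.ne'
  obtain ⟨l, hl⟩ := h.line _ hx v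
  have h3 := hv.curv_bot h.bot hx v hl
  rw [h3] at h1
  have e : (fun ξ : ℂ => pp w S σ (x + ξ • v)) =
      - fun ξ : ℂ => Real.log (VCalc_442.bn w S σ (x + ξ • v)) := rfl
  rw [e, laplacian_neg, Pi.neg_apply, h1]
  field_simp

theorem lap_nonneg {x v : E} {ζ : ℂ} (hx : x + ζ • v ∈ U) :
    0 ≤ (Δ (fun ξ : ℂ => pp w S σ (x + ξ • v))) ζ := by
  rw [lap_pp hv h hx]
  exact mul_nonneg (by norm_num) (div_nonneg (VCalc_442.sf_self_nonneg (hv.hmPos hx) _)
    (bn_pos hv h hx).le)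

theorem lap_le {x v : E} {ζ : ℂ} {R : ℝ} (hR : 0 < R)
    (hm : ∀ t : ℂ, ‖t‖ < R → x + (ζ + t) • v ∈ U) :
    (Δ (fun ξ : ℂ => pp w S σ (x + ξ • v))) ζ ≤ 4 * (EndTh_659.cst ι / R ^ 2) := by
  have hx : x + ζ • v ∈ U := by simpa using hm 0 (by simpa using hR)
  rw [lap_pp hv h hx]
  refine mul_le_mul_of_nonneg_left ?_ (by norm_num)
  have hp := bn_pos hv h hx
  rw [div_le_iff₀ hp, hv.bn_eq h.bot hx]
  have h1 := EndTh_659.nq_th_le hv hx v (σ (x + ζ • v))
  rw [hv.th_eq hx] at h1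
  refine h1.trans ?_
  refine mul_le_mul_of_nonneg_right ?_ (VCalc_442.sf_self_nonneg (hv.hmPos hx) _)
  refine EndTh_659.gg_le_line hv hR fun t ht => ?_
  have := hm t ht
  rwa [add_smul, ← add_assoc] at this

/-- **sub-mean property and its converse** -/
theorem avg {x v : E} {ρ R : ℝ} (hρ : 0 < ρ) (hR : ρ < R) (hm : ∀ t : ℂ, ‖t‖ < R → x + t • v ∈ U) :
    pp w S σ x ≤ Real.circleAverage (fun t : ℂ => pp w S σ (x + t • v)) 0 ρ ∧
    Real.circleAverage (fun t : ℂ => pp w S σ (x + t • v)) 0 ρ ≤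
      pp w S σ x + EndTh_659.cst ι * (ρ / (R - ρ)) ^ 2 := by
  have hRρ : 0 < R - ρ := by linarith
  -- rescaled function
  set ψ : ℂ → ℝ := fun z => pp w S σ (x + z • ((ρ : ℂ) • v)) with hψ
  have hmem : ∀ z : ℂ, ‖z‖ ≤ 1 → ∀ t : ℂ, ‖t‖ < (R - ρ) / ρ → x + (z + t) • ((ρ : ℂ) • v) ∈ U := by
    intro z hz t ht
    rw [smul_smul]
    refine hm _ ?_
    rw [norm_mul, Complex.norm_real, Real.norm_eq_abs, abs_of_pos hρ]
    rw [lt_div_iff₀ hρ] at ht
    calc ‖z + t‖ * ρ ≤ (‖z‖ + ‖t‖) * ρ := by gcongr; exact norm_add_le _ _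
      _ ≤ (1 + ‖t‖) * ρ := by gcongr
      _ < R := by nlinarith
  have hm0 : ∀ z : ℂ, ‖z‖ ≤ 1 → x + z • ((ρ : ℂ) • v) ∈ U := by
    intro z hz
    simpa using hmem z hz 0 (by simpa using div_pos hRρ hρ)
  have hsm : ∀ z ∈ closedBall (0 : ℂ) 1, ContDiffAt ℝ 2 ψ z := by
    intro z hz
    have hz' := hm0 z (by simpa using hz)
    have h1 : ContDiffAt ℝ 2 (pp w S σ) (x + z • ((ρ : ℂ) • v)) :=
      ((sm_pp hv h).contDiffAt (hv.op.mem_nhds hz')).of_le ENat.LEInfty.out
    have h2 : ContDiffAt ℝ 2 (fun z : ℂ => x + z • ((ρ : ℂ) • v)) z := by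
      have : ContDiff ℝ 2 (fun z : ℂ => x + z • ((ρ : ℂ) • v)) :=
        contDiff_const.add (contDiff_id.smul contDiff_const)
      exact this.contDiffAt
    exact ContDiffAt.comp (g := pp w S σ) (f := fun z : ℂ => x + z • ((ρ : ℂ) • v)) z h1 h2
  have havg : Real.circleAverage ψ 0 1 =
      Real.circleAverage (fun t : ℂ => pp w S σ (x + t • v)) 0 ρ := by
    rw [Real.circleAverage_def, Real.circleAverage_def]
    congr 2
    funext θ
    simp only [hψ, circleMap, zero_add, smul_smul]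
    congr 3
    push_cast
    ring
  have h0 : ψ 0 = pp w S σ x := by simp [hψ]
  constructor
  · have h1 := Crest.Agent.R275.FL884.le_circleAverage_of_contDiffAt hsm (c := 0) (by
      intro z hz
      have h2 := lap_nonneg hv h (x := x) (v := (ρ : ℂ) • v) (ζ := z) (hm0 z (by simpa using hz))
      rw [Ahl_25.lap_eq] at h2
      rw [mul_zero, neg_zero]
      exact h2)
    rw [havg, h0, add_zero] at h1
    exact h1
  · have hsm' : ∀ z ∈ closedBall (0 : ℂ) 1, ContDiffAt ℝ 2 (fun z => - ψ z) z :=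
      fun z hz => (hsm z hz).neg
    have h1 := Crest.Agent.R275.FL884.le_circleAverage_of_contDiffAt hsm'
      (c := EndTh_659.cst ι / ((R - ρ) / ρ) ^ 2) (by
      intro z hz
      have h2 := lap_le hv h (x := x) (v := (ρ : ℂ) • v) (ζ := z) (div_pos hRρ hρ)
        (hmem z (by simpa using hz))
      have h3 : (Δ (fun z => - ψ z)) z = - (Δ ψ) z := by
        have e : (fun z => - ψ z) = - ψ := rfl
        rw [e, laplacian_neg]; rfl
      have h4 : fderiv ℝ (fderiv ℝ (fun z => - ψ z)) z 1 1 +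
          fderiv ℝ (fderiv ℝ (fun z => - ψ z)) z Complex.I Complex.I = - (Δ ψ) z := by
        rw [← h3, Ahl_25.lap_eq]
      rw [h4]
      have h5 : (Δ ψ) z = (Δ (fun ξ : ℂ => pp w S σ (x + ξ • ((ρ : ℂ) • v)))) z := rfl
      rw [h5]
      linarith)
    have h2 : Real.circleAverage (fun z => - ψ z) 0 1 = - Real.circleAverage ψ 0 1 := by
      have := Real.circleAverage_fun_smul (a := (-1 : ℝ)) (f := ψ) (c := 0) (R := 1)
      simpa using this
    rw [h2, havg] at h1
    have h3 : EndTh_659.cst ι / ((R - ρ) / ρ) ^ 2 = EndTh_659.cst ι * (ρ / (R - ρ)) ^ 2 := by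
      rw [div_pow, div_pow]
      field_simp
    rw [h3, h0] at h1
    linarith

end

end gen

/-! ### from a variation over a Riemann domain to a flat frame -/

section fr

attribute [local instance] Matrix.linftyOpNormedRing Matrix.linftyOpNormedAlgebra

variable {N w : ℕ} {m : ℕ} {X : Type*} [TopologicalSpace X] [RDom m X]
variable {Y : Type*} [NormedAddCommGroup Y] [NormedSpace ℂ Y] [FiniteDimensional ℂ Y]
variable {V : VHS m X N w} {Ω : Set Y} {χ : Y → X} {om : X → Fin N → ℂ}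
variable (n : Fr V Ω χ) (h : HM Ω χ) (hc : CYL V om)

/-- the projectors in the flat frame -/
abbrev PF (n : Fr V Ω χ) : ℕ → Y → Matrix (Fin N) (Fin N) ℂ := fun p z => hq w (n.E z) p

include h

lemma dW_grOp {z : Y} (hz : z ∈ Ω) (v : Y) :
    VCalc_442.dW (VCalc_442.grOp w (PF n)) v z = cm (n.g z)⁻¹ *
      (∑ j, (fderiv ℂ (fun y => (cp (χ y) : Fin m → ℂ)) z v) j • dM V.P V.E j (χ z)) *
      cm (n.g z) := by
  have hd : DifferentiableAt ℝ (VCalc_442.grOp w (PF n)) z := (n.vhs h).dE hz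
  rw [← VCalc_442.mW_eq_dW hd, ← n.mW_E h hz v]
  ext i j
  simp only [VCalc_442.mW, Matrix.of_apply]
  refine VCalc_442.dW_congr ?_ v
  filter_upwards [h.op.mem_nhds hz] with y hy
  rw [grOp_hq (n.hs hy)]

include hc

lemma pull_an {z : Y} (hz : z ∈ Ω) : AnalyticAt ℂ (n.pull om) z :=
  n.pull_analytic h hz (hc.hol _)

/-- the derivative of the section -/
lemma dW_pull {z : Y} (hz : z ∈ Ω) (v : Y) : ∃ l : ℂ, VCalc_442.dW (n.pull om) v z =
    VCalc_442.dW (VCalc_442.grOp w (PF n)) v z *ᵥ n.pull om z + l • n.pull om z := by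
  choose c hcc using fun j => hc.par (χ z) j
  set a : Fin m → ℂ := fderiv ℂ (fun y => (cp (χ y) : Fin m → ℂ)) z v with ha
  refine ⟨∑ j, a j * c j, ?_⟩
  rw [VCalc_442.dW_of_diff (pull_an n h hc hz).differentiableAt, n.fderiv_pull h hz (hc.hol _) v,
    dW_grOp n h hz v, ← ha]
  have h1 : ∀ j, fderiv ℂ (lV V.P om (χ z) ∘ (ch (χ z)).symm) (cp (χ z)) (Pi.single j 1) =
      dM V.P V.E j (χ z) *ᵥ om (χ z) + c j • om (χ z) := by
    intro j
    have hd : DifferentiableAt ℂ (lV V.P om (χ z) ∘ (ch (χ z)).symm) (cp (χ z)) :=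
      AnalyticAt.differentiableAt (hc.hol (χ z))
    rw [← hcc j, ← VCalc_442.dW_of_diff hd]
    funext i
    rw [← VCalc_442.dW_apply (hd.restrictScalars ℝ), dz_eq_dW j _ (isCh_ch (χ z)) (mem_ch (χ z))]
    rfl
  have h2 : fderiv ℂ (lV V.P om (χ z) ∘ (ch (χ z)).symm) (cp (χ z)) a =
      (∑ j, a j • dM V.P V.E j (χ z)) *ᵥ om (χ z) + (∑ j, a j * c j) • om (χ z) := by
    conv_lhs => rw [pi_eq_sum_univ' a]
    rw [map_sum, Matrix.sum_mulVec, Finset.sum_smul, ← Finset.sum_add_distrib]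
    refine Finset.sum_congr rfl fun j _ => ?_
    rw [map_smul, h1 j, smul_add, Matrix.smul_mulVec, smul_smul]
  rw [h2, Matrix.mulVec_add, Matrix.mulVec_smul]
  unfold Fr.pull
  rw [Matrix.mulVec_mulVec, Matrix.mulVec_mulVec]
  congr 2
  rw [Matrix.mul_assoc, Matrix.mul_assoc, cm_mul_cm_inv, Matrix.mul_one]

/-- **the section in the flat frame** -/
theorem cy : Cy w Ω (PF n) (n.pull om) where
  bot :=
    { hol := fun z hz => (pull_an n h hc hz).differentiableAt.differentiableWithinAt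
      sm := fun z hz =>
        ((AnalyticAt.contDiffAt (pull_an n h hc hz)).restrict_scalars ℝ).contDiffWithinAt
      mem := fun z hz => by
        have h1 : n.E z *ᵥ n.pull om z = (w : ℂ) • n.pull om z := n.pull_eig (hc.eig _)
        show hq w (n.E z) w *ᵥ _ = _
        rw [hq_of_le le_rfl, (n.hs hz).hpr_mulVec_of_eig le_rfl h1 le_rfl, if_pos rfl] }
  ne := fun z _ h0 => hc.ne _ (n.pull_eq_zero_iff.mp h0)
  line := fun z hz v => by
    obtain ⟨l, hl⟩ := dW_pull n h hc hz v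
    refine ⟨l, ?_⟩
    have hb : hq w (n.E z) w *ᵥ n.pull om z = n.pull om z := by
      have h1 : n.E z *ᵥ n.pull om z = (w : ℂ) • n.pull om z := n.pull_eig (hc.eig _)
      rw [hq_of_le le_rfl, (n.hs hz).hpr_mulVec_of_eig le_rfl h1 le_rfl, if_pos rfl]
    have h3 : hq w (n.E z) w *ᵥ (VCalc_442.dW (VCalc_442.grOp w (PF n)) v z *ᵥ n.pull om z) = 0 := by
      have hv := n.vhs h
      rw [Matrix.mulVec_mulVec]
      have h4 := hv.low_P hz (hv.low_th hz v) w
      have h5 : PF n w z * VCalc_442.dW (VCalc_442.grOp w (PF n)) v z = 0 := by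
        rw [h4, hv.top z hz (w + 1) (by omega), mul_zero]
      have h6 : hq w (n.E z) w * VCalc_442.dW (VCalc_442.grOp w (PF n)) v z = 0 := h5
      rw [h6, Matrix.zero_mulVec]
    show hq w (n.E z) w *ᵥ _ = _
    rw [hl, Matrix.mulVec_add, h3, zero_add, Matrix.mulVec_smul, hb]



end fr

end Crest.Agent.R276.BdNf4_651
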