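import Mathlib
import Crest.Agent.R276.BndA_563
import Crest.Agent.R276.EndTh_659

-- ▼ part R276/GrA_217
section

/-!
# R276, leaf COUNT-GR, part A (helper217)

Operator bounds in Hermitian norms; exponentials of nilpotent matrices; the logarithm of a unipotent
matrix as a universal combination of its powers.
-/

set_option autoImplicit false
set_option linter.unusedSectionVars false

open Set Filter Topology Matrix
open scoped ComplexOrder

namespace Crest.Agent.R276.GrA_217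

open Crest.Agent.R276.BndA_563

variable {ι : Type*} [Fintype ι] [DecidableEq ι]

/-- the norm of `u` for the Hermitian form `K` -/
noncomputable def nrm (K : Matrix ι ι ℂ) (u : ι → ℂ) : ℝ := Real.sqrt (hn K u)

theorem nrm_nonneg (K : Matrix ι ι ℂ) (u : ι → ℂ) : 0 ≤ nrm K u := Real.sqrt_nonneg _

theorem nrm_sq {K : Matrix ι ι ℂ} (hK : K.PosDef) (u : ι → ℂ) : nrm K u ^ 2 = hn K u :=
  Real.sq_sqrt (hn_nonneg hK u)

theorem nrm_add_le {K : Matrix ι ι ℂ} (hK : K.PosDef) (u v : ι → ℂ) :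
    nrm K (u + v) ≤ nrm K u + nrm K v := sqrt_hn_add hK u v

theorem nrm_smul (K : Matrix ι ι ℂ) (c : ℂ) (u : ι → ℂ) : nrm K (c • u) = ‖c‖ * nrm K u := by
  unfold nrm
  rw [hn_smul, Real.sqrt_mul (sq_nonneg _), Real.sqrt_sq (norm_nonneg _)]

theorem nrm_zero (K : Matrix ι ι ℂ) : nrm K 0 = 0 := by simp [nrm, hn_zero]

/-- `A` is bounded by `c` in the norm `K` -/
def Ob (K A : Matrix ι ι ℂ) (c : ℝ) : Prop := ∀ u, nrm K (A *ᵥ u) ≤ c * nrm K u

theorem Ob.mono {K A : Matrix ι ι ℂ} {c c' : ℝ} (h : Ob K A c) (hc : c ≤ c') : Ob K A c' :=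
  fun u => (h u).trans (mul_le_mul_of_nonneg_right hc (nrm_nonneg K u))

theorem Ob.one (K : Matrix ι ι ℂ) : Ob K 1 1 := fun u => by simp

theorem Ob.zero (K : Matrix ι ι ℂ) : Ob K 0 0 := fun u => by simp [nrm_zero]

theorem Ob.mul {K A B : Matrix ι ι ℂ} {a b : ℝ} (ha : 0 ≤ a) (hA : Ob K A a) (hB : Ob K B b) :
    Ob K (A * B) (a * b) := fun u => by
  rw [← Matrix.mulVec_mulVec]
  calc nrm K (A *ᵥ (B *ᵥ u)) ≤ a * nrm K (B *ᵥ u) := hA _
    _ ≤ a * (b * nrm K u) := by gcongr; exact hB u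
    _ = _ := by ring

theorem Ob.add {K A B : Matrix ι ι ℂ} (hK : K.PosDef) {a b : ℝ} (hA : Ob K A a) (hB : Ob K B b) :
    Ob K (A + B) (a + b) := fun u => by
  rw [Matrix.add_mulVec]
  calc _ ≤ _ := nrm_add_le hK _ _
    _ ≤ a * nrm K u + b * nrm K u := add_le_add (hA u) (hB u)
    _ = _ := by ring

theorem Ob.smul {K A : Matrix ι ι ℂ} {a : ℝ} (hA : Ob K A a) (c : ℂ) :
    Ob K (c • A) (‖c‖ * a) := fun u => by
  rw [Matrix.smul_mulVec, nrm_smul, mul_assoc]
  exact mul_le_mul_of_nonneg_left (hA u) (norm_nonneg _)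

theorem Ob.pow {K A : Matrix ι ι ℂ} {a : ℝ} (ha : 0 ≤ a) (hA : Ob K A a) (n : ℕ) :
    Ob K (A ^ n) (a ^ n) := by
  induction n with
  | zero => simpa using Ob.one K
  | succ n ih =>
    rw [pow_succ, pow_succ]
    exact Ob.mul (by positivity) ih hA

theorem Ob.sum {K : Matrix ι ι ℂ} (hK : K.PosDef) {κ : Type*} (s : Finset κ)
    {A : κ → Matrix ι ι ℂ} {a : κ → ℝ} (h : ∀ i ∈ s, Ob K (A i) (a i)) :
    Ob K (∑ i ∈ s, A i) (∑ i ∈ s, a i) := by
  classical
  induction s using Finset.induction_on with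
  | empty => simpa using Ob.zero K
  | insert i s hi ih =>
    rw [Finset.sum_insert hi, Finset.sum_insert hi]
    exact Ob.add hK (h i (Finset.mem_insert_self i s))
      (ih fun j hj => h j (Finset.mem_insert_of_mem hj))

/-- a nilpotent matrix has `L ^ card = 0` -/
theorem pow_card {L : Matrix ι ι ℂ} (h : IsNilpotent L) : L ^ Fintype.card ι = 0 := by
  have h1 : IsNilpotent (Matrix.toLin' L) := by
    obtain ⟨k, hk⟩ := h
    refine ⟨k, ?_⟩
    rw [← Matrix.toLin'_pow, hk, map_zero]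
  have h2 := LinearMap.aeval_self_charpoly (Matrix.toLin' L)
  rw [h1.charpoly_eq_X_pow_finrank] at h2
  simp only [map_pow, Polynomial.aeval_X, Module.finrank_fintype_fun_eq_card] at h2
  rw [← Matrix.toLin'_pow] at h2
  exact (Matrix.toLin' (R := ℂ) (m := ι) (n := ι)).map_eq_zero_iff.1 h2

theorem pow_zero' {L : Matrix ι ι ℂ} (h : IsNilpotent L) {n : ℕ} (hn : Fintype.card ι ≤ n) :
    L ^ n = 0 := pow_eq_zero_of_le hn (pow_card h)

/-- the exponential as a complex sum -/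
theorem exp_eq {L : Matrix ι ι ℂ} (h : IsNilpotent L) {n : ℕ} (hn : Fintype.card ι ≤ n) (s : ℂ) :
    IsNilpotent.exp (s • L) = ∑ i ∈ Finset.range n, (s ^ i / (i.factorial : ℂ)) • L ^ i := by
  have h1 : (s • L) ^ n = 0 := by rw [smul_pow, pow_zero' h hn, smul_zero]
  rw [IsNilpotent.exp_eq_sum h1]
  refine Finset.sum_congr rfl fun i _ => ?_
  rw [smul_pow]
  ext a b
  simp only [Matrix.smul_apply, smul_eq_mul, Rat.smul_def]
  push_cast
  ring

theorem nil_smul {L : Matrix ι ι ℂ} (h : IsNilpotent L) (s : ℂ) : IsNilpotent (s • L) := by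
  obtain ⟨k, hk⟩ := h
  exact ⟨k, by rw [smul_pow, hk, smul_zero]⟩

/-- `E(s) = exp(sL)` -/
noncomputable def EE (L : Matrix ι ι ℂ) (s : ℂ) : Matrix ι ι ℂ := IsNilpotent.exp (s • L)

theorem EE_add {L : Matrix ι ι ℂ} (h : IsNilpotent L) (s t : ℂ) :
    EE L (s + t) = EE L s * EE L t := by
  unfold EE
  rw [add_smul]
  exact IsNilpotent.exp_add_of_commute ((Commute.refl L).smul_left s |>.smul_right t)
    (nil_smul h s) (nil_smul h t)

theorem EE_zero {L : Matrix ι ι ℂ} (h : IsNilpotent L) : EE L 0 = 1 := by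
  unfold EE
  rw [exp_eq h (n := Fintype.card ι + 1) (by omega), Finset.sum_range_succ']
  simp

theorem EE_neg {L : Matrix ι ι ℂ} (h : IsNilpotent L) (s : ℂ) : EE L s * EE L (-s) = 1 := by
  rw [← EE_add h, add_neg_cancel, EE_zero h]

theorem EE_neg' {L : Matrix ι ι ℂ} (h : IsNilpotent L) (s : ℂ) : EE L (-s) * EE L s = 1 := by
  rw [← EE_add h, neg_add_cancel, EE_zero h]

theorem EE_nat {L : Matrix ι ι ℂ} (h : IsNilpotent L) (j : ℕ) : EE L j = EE L 1 ^ j := by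
  induction j with
  | zero => simpa using EE_zero h
  | succ j ih => rw [Nat.cast_succ, EE_add h, ih, pow_succ]

theorem Ob.exp {K L : Matrix ι ι ℂ} (hK : K.PosDef) (h : IsNilpotent L) {c : ℝ} (hc : 0 ≤ c)
    (hL : Ob K L c) (s : ℂ) : Ob K (EE L s) (Real.exp (‖s‖ * c)) := by
  unfold EE
  rw [exp_eq h le_rfl]
  have h1 : Ob K (∑ i ∈ Finset.range (Fintype.card ι), (s ^ i / (i.factorial : ℂ)) • L ^ i)
      (∑ i ∈ Finset.range (Fintype.card ι), ‖s ^ i / (i.factorial : ℂ)‖ * c ^ i) :=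
    Ob.sum hK _ fun i _ => (hL.pow hc i).smul _
  refine h1.mono ?_
  have h2 := Real.sum_le_exp_of_nonneg (x := ‖s‖ * c) (by positivity) (Fintype.card ι)
  refine (le_of_eq ?_).trans h2
  refine Finset.sum_congr rfl fun i _ => ?_
  rw [norm_div, norm_pow, mul_pow, Complex.norm_natCast]
  ring

/-- the coefficients of the logarithm -/
theorem exists_coef (m : ℕ) : ∃ c : Fin (m + 2) → ℂ, ∀ i : Fin (m + 2),
    ∑ j, c j * (j : ℂ) ^ (i : ℕ) = if i = 1 then 1 else 0 := by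
  set V : Matrix (Fin (m + 2)) (Fin (m + 2)) ℂ :=
    Matrix.vandermonde (fun j : Fin (m + 2) => ((j : ℕ) : ℂ)) with hV
  have hdet : V.det ≠ 0 := by
    rw [hV, Matrix.det_vandermonde_ne_zero_iff]
    intro a b hab
    have hab' : ((a : ℕ) : ℂ) = ((b : ℕ) : ℂ) := hab
    exact Fin.ext (by exact_mod_cast hab')
  refine ⟨Pi.single 1 1 ᵥ* V⁻¹, fun i => ?_⟩
  have h1 : (Pi.single 1 1 ᵥ* V⁻¹) ᵥ* V = Pi.single (1 : Fin (m + 2)) (1 : ℂ) := by
    rw [Matrix.vecMul_vecMul, Matrix.nonsing_inv_mul _ (isUnit_iff_ne_zero.2 hdet),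
      Matrix.vecMul_one]
  have h2 := congrFun h1 i
  simp only [Matrix.vecMul, dotProduct, hV, Matrix.vandermonde_apply] at h2
  rw [Pi.single_apply] at h2
  exact h2

/-- the logarithm of a unipotent matrix is a universal combination of its powers -/
theorem log_comb (ι : Type*) [Fintype ι] [DecidableEq ι] :
    ∃ c : Fin (Fintype.card ι + 2) → ℂ, ∀ L : Matrix ι ι ℂ, IsNilpotent L →
      L = ∑ j, c j • EE L 1 ^ (j : ℕ) := by
  obtain ⟨c, hc⟩ := exists_coef (Fintype.card ι)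
  refine ⟨c, fun L hL => ?_⟩
  have h1 : ∀ j : Fin (Fintype.card ι + 2), EE L 1 ^ (j : ℕ) =
      ∑ i : Fin (Fintype.card ι + 2), (((j : ℕ) : ℂ) ^ (i : ℕ) / ((i : ℕ).factorial : ℂ)) •
        L ^ (i : ℕ) := by
    intro j
    rw [← EE_nat hL, EE, exp_eq hL (n := Fintype.card ι + 2) (by omega), Finset.sum_range]
  simp_rw [h1, Finset.smul_sum, smul_smul]
  rw [Finset.sum_comm]
  simp_rw [← Finset.sum_smul]
  have h2 : ∀ i : Fin (Fintype.card ι + 2),
      ∑ j : Fin (Fintype.card ι + 2), c j * (((j : ℕ) : ℂ) ^ (i : ℕ) / ((i : ℕ).factorial : ℂ)) =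
      if i = 1 then 1 else 0 := by
    intro i
    have : ∀ j : Fin (Fintype.card ι + 2),
        c j * (((j : ℕ) : ℂ) ^ (i : ℕ) / ((i : ℕ).factorial : ℂ)) =
        (c j * ((j : ℕ) : ℂ) ^ (i : ℕ)) / ((i : ℕ).factorial : ℂ) := fun j => by ring
    simp_rw [this]
    rw [← Finset.sum_div, hc i]
    split_ifs with h
    · rw [h]; simp
    · simp
  simp_rw [h2]
  simp

/-- bound of `L` from a bound of `exp L` -/
theorem exists_log_bound (ι : Type*) [Fintype ι] [DecidableEq ι] (a : ℝ) (ha : 0 ≤ a) :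
    ∃ b : ℝ, 0 ≤ b ∧ ∀ K L : Matrix ι ι ℂ, K.PosDef → IsNilpotent L → Ob K (EE L 1) a →
      Ob K L b := by
  obtain ⟨c, hc⟩ := log_comb ι
  refine ⟨∑ j, ‖c j‖ * a ^ (j : ℕ), Finset.sum_nonneg fun _ _ => by positivity, ?_⟩
  intro K L hK hL hE
  have h1 : Ob K (∑ j, c j • EE L 1 ^ (j : ℕ)) (∑ j, ‖c j‖ * a ^ (j : ℕ)) :=
    Ob.sum hK _ fun j _ => (hE.pow ha _).smul _
  intro u
  have h2 := h1 u
  rwa [← hc L hL] at h2

end Crest.Agent.R276.GrA_217
end

-- ▼ part R276/GrB_217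

/-!
# R276, leaf COUNT-GR, part B (helper217)

Comparison of Hodge norms on half space domains `{Re q₀ < a, ‖q_i‖ < R}`, with constants independent
of `a` and `R`.
-/

set_option autoImplicit false
set_option linter.unusedSectionVars false

open Set Filter Topology Matrix Metric
open scoped ComplexOrder ContDiff

namespace Crest.Agent.R276.GrB_217

open Crest.Agent.R276.BndA_563 Crest.Agent.R276.VCalc_442 Crest.Agent.R276.GrA_217

variable {ι : Type*} [Fintype ι] [DecidableEq ι]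

section lip

variable {X : Type*} [NormedAddCommGroup X] [NormedSpace ℂ X]
variable {w : ℕ} {U : Set X} {S : Matrix ι ι ℂ} {P : ℕ → X → Matrix ι ι ℂ}

/-- the logarithm of the Hodge norm is Lipschitz on a convex set at distance `ρ` from the boundary -/
theorem log_hn_lip' (h : VHS w U S P) {Q : Set X} (hQ : Convex ℝ Q) {ρ : ℝ} (hρ : 0 < ρ)
    (hsub : ∀ x ∈ Q, ball x ρ ⊆ U) {u : ι → ℂ} (hu : u ≠ 0) {y z : X} (hy : y ∈ Q) (hz : z ∈ Q) :
    |Real.log (hn (hm w S P y) u) - Real.log (hn (hm w S P z) u)| ≤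
      4 * Real.sqrt (CA ι) / ρ * ‖y - z‖ := by
  have hU : ∀ x ∈ Q, x ∈ U := fun x hx => hsub x hx (mem_ball_self hρ)
  have key : ∀ x ∈ Q, DifferentiableAt ℝ (fun y => Real.log (hn (hm w S P y) u)) x ∧
      ‖fderiv ℝ (fun y => Real.log (hn (hm w S P y) u)) x‖ ≤ 4 * Real.sqrt (CA ι) / ρ := by
    intro x hx
    have hpos : 0 < hn (hm w S P x) u := hn_pos (h.hmPos (hU x hx)) hu
    obtain ⟨d1, -⟩ := fderiv_hn h (hU x hx) u 0
    have d2 : DifferentiableAt ℝ (fun y => Real.log (hn (hm w S P y) u)) x := d1.log hpos.ne'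
    refine ⟨d2, ?_⟩
    refine ContinuousLinearMap.opNorm_le_bound _ (by positivity) fun v => ?_
    have e1 : fderiv ℝ (fun y => Real.log (hn (hm w S P y) u)) x v =
        (hn (hm w S P x) u)⁻¹ * fderiv ℝ (fun y => hn (hm w S P y) u) x v := by
      have := (d1.hasFDerivAt.log hpos.ne').fderiv
      rw [this]; rfl
    rw [e1, norm_mul, norm_inv, Real.norm_of_nonneg hpos.le, Real.norm_eq_abs]
    have h2 := (fderiv_hn h (hU x hx) u v).2
    have h3 := sqrt_gden_le h x v hρ (hsub x hx)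
    calc (hn (hm w S P x) u)⁻¹ * |fderiv ℝ (fun y => hn (hm w S P y) u) x v|
        ≤ (hn (hm w S P x) u)⁻¹ * (4 * Real.sqrt (gden w P v x) * hn (hm w S P x) u) := by gcongr
      _ = 4 * Real.sqrt (gden w P v x) := by field_simp
      _ ≤ 4 * (Real.sqrt (CA ι) * ‖v‖ / ρ) := by gcongr
      _ = 4 * Real.sqrt (CA ι) / ρ * ‖v‖ := by ring
  have := hQ.norm_image_sub_le_of_norm_fderiv_le (𝕜 := ℝ) (fun x hx => (key x hx).1)
    (fun x hx => (key x hx).2) hz hy
  rwa [Real.norm_eq_abs] at this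

end lip

variable {d : ℕ}

/-- `{Re q₀ < a, ‖q_i‖ < R}` -/
def HB (d : ℕ) (a R : ℝ) : Set (Fin (d + 1) → ℂ) :=
  {q | (q 0).re < a ∧ ∀ i : Fin d, ‖q i.succ‖ < R}

/-- `{Re q₀ ≤ a - 1/4, ‖q_i‖ ≤ R/2}` -/
def HQ (d : ℕ) (a R : ℝ) : Set (Fin (d + 1) → ℂ) :=
  {q | (q 0).re ≤ a - 1 / 4 ∧ ∀ i : Fin d, ‖q i.succ‖ ≤ R / 2}

theorem isOpen_HB (d : ℕ) (a R : ℝ) : IsOpen (HB d a R) := by
  unfold HB
  rw [ofPred_and, ofPred_forall]
  refine IsOpen.inter ?_ ?_
  · exact isOpen_lt (Complex.continuous_re.comp (continuous_apply 0)) continuous_const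
  · exact isOpen_iInter_of_finite fun i => isOpen_lt (continuous_apply _).norm continuous_const


theorem convex_HQ (d : ℕ) (a R : ℝ) : Convex ℝ (HQ d a R) := by
  unfold HQ
  rw [ofPred_and, ofPred_forall]
  refine Convex.inter ?_ ?_
  · have : Convex ℝ {z : ℂ | z.re ≤ a - 1 / 4} := convex_halfSpace_re_le _
    exact this.is_linear_preimage ((LinearMap.proj (R := ℝ) (φ := fun _ => ℂ) (0 : Fin (d + 1))).isLinear)
  · refine convex_iInter fun i => ?_
    have : Convex ℝ (closedBall (0 : ℂ) (R / 2)) := convex_closedBall 0 _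
    have h2 := this.is_linear_preimage
      ((LinearMap.proj (R := ℝ) (φ := fun _ => ℂ) (i.succ : Fin (d + 1))).isLinear)
    have e : {x : Fin (d + 1) → ℂ | ‖x i.succ‖ ≤ R / 2} =
        (LinearMap.proj (R := ℝ) (φ := fun _ => ℂ) (i.succ : Fin (d + 1))) ⁻¹'
          closedBall 0 (R / 2) := by
      ext q
      simp
    rw [e]
    exact h2

/-- the scaling `(q₀, R q_i)` -/
noncomputable def scl (R : ℝ) (q : Fin (d + 1) → ℂ) : Fin (d + 1) → ℂ :=
  Fin.cons (q 0) (fun i => (R : ℂ) * q i.succ)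

@[simp] theorem scl_zero (R : ℝ) (q : Fin (d + 1) → ℂ) : scl R q 0 = q 0 := rfl

@[simp] theorem scl_succ (R : ℝ) (q : Fin (d + 1) → ℂ) (i : Fin d) :
    scl R q i.succ = (R : ℂ) * q i.succ := rfl

theorem contDiff_scl (R : ℝ) : ContDiff ℂ ∞ (scl (d := d) R) := by
  rw [contDiff_pi]
  intro j
  refine Fin.cases ?_ (fun i => ?_) j
  · simpa using contDiff_apply ℂ ℂ (0 : Fin (d + 1))
  · simp only [scl_succ]
    exact contDiff_const.mul (contDiff_apply ℂ ℂ i.succ)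

theorem scl_inv {R : ℝ} (hR : 0 < R) (q : Fin (d + 1) → ℂ) : scl R (scl R⁻¹ q) = q := by
  funext j
  refine Fin.cases ?_ (fun i => ?_) j
  · simp
  · simp only [scl_succ]
    push_cast
    rw [← mul_assoc, mul_inv_cancel₀ (by exact_mod_cast hR.ne'), one_mul]

/-- the comparison constant -/
noncomputable def K0 (ι : Type*) [Fintype ι] [DecidableEq ι] : ℝ := 8 * Real.sqrt (CA ι)

theorem K0_nonneg : 0 ≤ K0 ι := by unfold K0; positivity

variable {w : ℕ} {S : Matrix ι ι ℂ} {P : ℕ → (Fin (d + 1) → ℂ) → Matrix ι ι ℂ}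

theorem HQ_sub {a R : ℝ} (hR : 0 < R) : HQ d a R ⊆ HB d a R := fun q hq =>
  ⟨by have := hq.1; linarith, fun i => by have := hq.2 i; linarith⟩

/-- **comparison of Hodge norms** -/
theorem nrm_le {a R : ℝ} (hR : 0 < R) (h : VHS w (HB d a R) S P) (u : ι → ℂ)
    {q q' : Fin (d + 1) → ℂ} (hq : q ∈ HQ d a R) (hq' : q' ∈ HQ d a R) :
    nrm (hm w S P q) u ≤ Real.exp (K0 ι * (1 + ‖q 0 - q' 0‖)) * nrm (hm w S P q') u := by
  by_cases hu : u = 0
  · rw [hu, nrm_zero, nrm_zero, mul_zero]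
  have h' : VHS w (HB d a 1) S (fun p q => P p (scl R q)) := by
    refine EndTh_659.pull h (isOpen_HB d a 1) (contDiff_scl R).contDiffOn fun q hq => ?_
    refine ⟨hq.1, fun i => ?_⟩
    rw [scl_succ, norm_mul, Complex.norm_real, Real.norm_of_nonneg hR.le]
    have := hq.2 i
    calc R * ‖q i.succ‖ < R * 1 := by gcongr
      _ = R := mul_one R
  have hs : ∀ {q : Fin (d + 1) → ℂ}, q ∈ HQ d a R → scl R⁻¹ q ∈ HQ d a 1 := by
    intro q hq
    refine ⟨hq.1, fun i => ?_⟩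
    rw [scl_succ, norm_mul, Complex.norm_real, norm_inv, Real.norm_of_nonneg hR.le,
      inv_mul_le_iff₀ hR]
    have := hq.2 i
    linarith
  have h1 := log_hn_lip' h' (convex_HQ d a 1) (ρ := 1 / 4) (by norm_num) (by
    intro x hx y hy
    rw [mem_ball, dist_eq_norm, pi_norm_lt_iff (by norm_num)] at hy
    refine ⟨?_, fun i => ?_⟩
    · have h2 := hy 0
      have h3 := (Complex.abs_re_le_norm ((y - x) 0)).trans_lt h2
      rw [Pi.sub_apply, Complex.sub_re] at h3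
      have h4 := (abs_lt.1 h3).2
      have h5 := hx.1
      linarith
    · have h2 := hy i.succ
      have h3 := hx.2 i
      have h4 : ‖y i.succ‖ ≤ ‖(y - x) i.succ‖ + ‖x i.succ‖ := by
        have := norm_add_le ((y - x) i.succ) (x i.succ)
        simpa using this
      linarith) hu (hs hq) (hs hq')
  have e1 : ∀ q, hm w S (fun p q => P p (scl R q)) (scl R⁻¹ q) = hm w S P q := by
    intro q
    have : hm w S (fun p q => P p (scl R q)) (scl R⁻¹ q) = hm w S P (scl R (scl R⁻¹ q)) := rfl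
    rw [this, scl_inv hR]
  rw [e1, e1] at h1
  have h2 : ‖scl R⁻¹ q - scl R⁻¹ q'‖ ≤ 1 + ‖q 0 - q' 0‖ := by
    rw [pi_norm_le_iff_of_nonneg (by positivity)]
    intro j
    refine Fin.cases ?_ (fun i => ?_) j
    · simp
    · rw [Pi.sub_apply, scl_succ, scl_succ, ← mul_sub, norm_mul, Complex.norm_real, norm_inv,
        Real.norm_of_nonneg hR.le]
      have h3 := hq.2 i
      have h4 := hq'.2 i
      have h5 := norm_sub_le (q i.succ) (q' i.succ)
      calc R⁻¹ * ‖q i.succ - q' i.succ‖ ≤ R⁻¹ * R := by gcongr; linarith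
        _ = 1 := inv_mul_cancel₀ hR.ne'
        _ ≤ 1 + ‖q 0 - q' 0‖ := by linarith [norm_nonneg (q 0 - q' 0)]
  have hy0 := hn_pos (h.hmPos (HQ_sub hR hq)) hu
  have hz0 := hn_pos (h.hmPos (HQ_sub hR hq')) hu
  have h3 : Real.log (hn (hm w S P q) u) ≤
      2 * (K0 ι * (1 + ‖q 0 - q' 0‖)) + Real.log (hn (hm w S P q') u) := by
    have h4 := (abs_le.1 h1).2
    have h5 : 4 * Real.sqrt (CA ι) / (1 / 4) * ‖scl R⁻¹ q - scl R⁻¹ q'‖ ≤
        2 * (K0 ι * (1 + ‖q 0 - q' 0‖)) := by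
      unfold K0
      calc 4 * Real.sqrt (CA ι) / (1 / 4) * ‖scl R⁻¹ q - scl R⁻¹ q'‖
          ≤ 4 * Real.sqrt (CA ι) / (1 / 4) * (1 + ‖q 0 - q' 0‖) := by gcongr
        _ = _ := by ring
    linarith
  have h6 : hn (hm w S P q) u ≤
      Real.exp (K0 ι * (1 + ‖q 0 - q' 0‖)) ^ 2 * hn (hm w S P q') u := by
    calc hn (hm w S P q) u = Real.exp (Real.log (hn (hm w S P q) u)) := (Real.exp_log hy0).symm
      _ ≤ Real.exp (2 * (K0 ι * (1 + ‖q 0 - q' 0‖)) + Real.log (hn (hm w S P q') u)) :=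
        Real.exp_le_exp.2 h3
      _ = _ := by rw [Real.exp_add, Real.exp_log hz0, ← Real.exp_nat_mul]; norm_num
  unfold nrm
  calc Real.sqrt (hn (hm w S P q) u)
      ≤ Real.sqrt (Real.exp (K0 ι * (1 + ‖q 0 - q' 0‖)) ^ 2 * hn (hm w S P q') u) :=
        Real.sqrt_le_sqrt h6
    _ = _ := by rw [Real.sqrt_mul (sq_nonneg _), Real.sqrt_sq (Real.exp_pos _).le]

end Crest.Agent.R276.GrB_217
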