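import Mathlib
import Crest.Agent.R276.GrB_217

/-!
# R276, leaf COUNT-GR, part C (helper217)

`LCh` : the normal form of a section of a variation in one boundary chart (logarithmic coordinates),
with unipotent logarithm and root of unity; comparison of base points with universal constants.
-/

set_option autoImplicit false
set_option linter.unusedSectionVars false

open Set Filter Topology Matrix Metric
open scoped ComplexOrder ContDiff

namespace Crest.Agent.R276.GrC_217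

open Crest.Agent.R276.BndA_563 Crest.Agent.R276.VCalc_442 Crest.Agent.R276.GrA_217
open Crest.Agent.R276.GrB_217

variable {ι : Type*} [Fintype ι] [DecidableEq ι] {d : ℕ}

/-- `2πi` -/
noncomputable def tpi : ℂ := 2 * (Real.pi : ℂ) * Complex.I


theorem norm_tpi : ‖tpi‖ = 2 * Real.pi := by
  unfold tpi
  simp [abs_of_pos Real.pi_pos]

/-- the normal form in one chart -/
structure LCh (w e : ℕ) (k : ℤ) (a R : ℝ) (S : Matrix ι ι ℂ)
    (P : ℕ → (Fin (d + 1) → ℂ) → Matrix ι ι ℂ) (T : Matrix ι ι ℂ) (z : ℂ) (L : Matrix ι ι ℂ)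
    (Om f : (Fin (d + 1) → ℂ) → ι → ℂ) : Prop where
  he : 0 < e
  hR : 0 < R
  vhs : VHS w (HB d a R) S P
  per : ∀ q ∈ HB d a R, ∀ p, P p (q + Pi.single 0 tpi) * T = T * P p q
  ST : Tᴴ * S * T = S
  hz : ‖z‖ = 1
  om_per : ∀ q ∈ HB d a R, Om (q + Pi.single 0 tpi) = z • (T *ᵥ Om q)
  nil : IsNilpotent L
  exp_eq : EE L 1 = (z • T) ^ e
  skew : Lᴴ * S = -(S * L)
  hf : DifferentiableOn ℂ f {q | ‖q 0‖ < Real.exp (a / e) ∧ ∀ i : Fin d, ‖q i.succ‖ < R}
  f_Om : ∀ q ∈ HB d a R, f (Fin.cons (Complex.exp (q 0 / e)) (Fin.tail q)) =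
    Complex.exp (-(k * q 0 / e)) • (EE L (-(q 0 / (tpi * e))) *ᵥ Om q)

namespace LCh

variable {w e : ℕ} {k : ℤ} {a R : ℝ} {S : Matrix ι ι ℂ}
  {P : ℕ → (Fin (d + 1) → ℂ) → Matrix ι ι ℂ} {T : Matrix ι ι ℂ} {z : ℂ} {L : Matrix ι ι ℂ}
  {Om f : (Fin (d + 1) → ℂ) → ι → ℂ}

theorem HB_shift {q : Fin (d + 1) → ℂ} (hq : q ∈ HB d a R) (j : ℕ) :
    q + Pi.single 0 ((j : ℂ) * tpi) ∈ HB d a R := by
  refine ⟨?_, fun i => ?_⟩
  · have : ((j : ℂ) * tpi).re = 0 := by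
      unfold tpi
      simp [Complex.mul_re, Complex.mul_im]
    simp only [Pi.add_apply, Pi.single_eq_same, Complex.add_re, this, add_zero]
    exact hq.1
  · have : (Pi.single 0 ((j : ℂ) * tpi) : Fin (d + 1) → ℂ) i.succ = 0 :=
      Pi.single_eq_of_ne (Fin.succ_ne_zero i) _
    rw [Pi.add_apply, this, add_zero]
    exact hq.2 i

theorem HQ_shift {q : Fin (d + 1) → ℂ} (hq : q ∈ HQ d a R) (j : ℕ) :
    q + Pi.single 0 ((j : ℂ) * tpi) ∈ HQ d a R := by
  refine ⟨?_, fun i => ?_⟩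
  · have : ((j : ℂ) * tpi).re = 0 := by
      unfold tpi
      simp [Complex.mul_re, Complex.mul_im]
    simp only [Pi.add_apply, Pi.single_eq_same, Complex.add_re, this, add_zero]
    exact hq.1
  · have : (Pi.single 0 ((j : ℂ) * tpi) : Fin (d + 1) → ℂ) i.succ = 0 :=
      Pi.single_eq_of_ne (Fin.succ_ne_zero i) _
    rw [Pi.add_apply, this, add_zero]
    exact hq.2 i

theorem shift_succ (q : Fin (d + 1) → ℂ) (j : ℕ) :
    q + Pi.single 0 (((j + 1 : ℕ) : ℂ) * tpi) =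
      (q + Pi.single 0 ((j : ℂ) * tpi)) + Pi.single 0 tpi := by
  rw [add_assoc, ← Pi.single_add]
  congr 2
  push_cast
  ring

theorem hm_per (h : LCh w e k a R S P T z L Om f) {q : Fin (d + 1) → ℂ} (hq : q ∈ HB d a R) :
    Tᴴ * hm w S P (q + Pi.single 0 tpi) * T = hm w S P q := by
  have h1 : sgOp w P (q + Pi.single 0 tpi) * T = T * sgOp w P q := by
    unfold sgOp
    rw [Finset.sum_mul, Finset.mul_sum]
    refine Finset.sum_congr rfl fun p _ => ?_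
    rw [Matrix.smul_mul, Matrix.mul_smul, h.per q hq p]
  unfold hm
  calc Tᴴ * (S * sgOp w P (q + Pi.single 0 tpi)) * T
      = Tᴴ * S * (sgOp w P (q + Pi.single 0 tpi) * T) := by noncomm_ring
    _ = (Tᴴ * S * T) * sgOp w P q := by rw [h1]; noncomm_ring
    _ = _ := by rw [h.ST]

theorem nrm_conj {K K' A : Matrix ι ι ℂ} (h : Aᴴ * K' * A = K) (u : ι → ℂ) :
    nrm K' (A *ᵥ u) = nrm K u := by
  unfold nrm hn
  rw [Matrix.star_mulVec, ← Matrix.dotProduct_mulVec, Matrix.mulVec_mulVec, Matrix.mulVec_mulVec,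
    h]

theorem nrm_per (h : LCh w e k a R S P T z L Om f) {q : Fin (d + 1) → ℂ} (hq : q ∈ HB d a R)
    (u : ι → ℂ) : nrm (hm w S P (q + Pi.single 0 tpi)) ((z • T) *ᵥ u) = nrm (hm w S P q) u := by
  rw [Matrix.smul_mulVec, nrm_smul, h.hz, one_mul, nrm_conj (h.hm_per hq)]

theorem nrm_per_nat (h : LCh w e k a R S P T z L Om f) {q : Fin (d + 1) → ℂ} (hq : q ∈ HB d a R)
    (u : ι → ℂ) (j : ℕ) : nrm (hm w S P (q + Pi.single 0 ((j : ℂ) * tpi))) ((z • T) ^ j *ᵥ u) =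
      nrm (hm w S P q) u := by
  induction j with
  | zero => simp
  | succ j ih =>
    rw [shift_succ, pow_succ', ← Matrix.mulVec_mulVec, h.nrm_per (HB_shift hq j), ih]

theorem om_per_nat (h : LCh w e k a R S P T z L Om f) {q : Fin (d + 1) → ℂ} (hq : q ∈ HB d a R)
    (j : ℕ) : Om (q + Pi.single 0 ((j : ℂ) * tpi)) = (z • T) ^ j *ᵥ Om q := by
  induction j with
  | zero => simp
  | succ j ih =>
    rw [shift_succ, h.om_per _ (HB_shift hq j), ih, pow_succ', ← Matrix.mulVec_mulVec,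
      Matrix.smul_mulVec]

/-- the Hodge norm of the section is periodic -/
theorem nrm_om_per (h : LCh w e k a R S P T z L Om f) {q : Fin (d + 1) → ℂ} (hq : q ∈ HB d a R)
    (j : ℕ) : nrm (hm w S P (q + Pi.single 0 ((j : ℂ) * tpi)))
      (Om (q + Pi.single 0 ((j : ℂ) * tpi))) = nrm (hm w S P q) (Om q) := by
  rw [h.om_per_nat hq, h.nrm_per_nat hq]

/-- universal bound of `L` -/
noncomputable def cL (ι : Type*) [Fintype ι] [DecidableEq ι] (e : ℕ) : ℝ :=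
  (exists_log_bound ι (Real.exp (K0 ι * (1 + 2 * Real.pi * e))) (Real.exp_pos _).le).choose

theorem cL_nonneg (ι : Type*) [Fintype ι] [DecidableEq ι] (e : ℕ) : 0 ≤ cL ι e :=
  (exists_log_bound ι (Real.exp (K0 ι * (1 + 2 * Real.pi * e))) (Real.exp_pos _).le).choose_spec.1

theorem ob_E1 (h : LCh w e k a R S P T z L Om f) {q : Fin (d + 1) → ℂ} (hq : q ∈ HQ d a R) :
    Ob (hm w S P q) (EE L 1) (Real.exp (K0 ι * (1 + 2 * Real.pi * e))) := by
  intro u
  rw [h.exp_eq]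
  have h1 := nrm_le h.hR h.vhs ((z • T) ^ e *ᵥ u) hq (HQ_shift hq e)
  rw [h.nrm_per_nat (HQ_sub h.hR hq)] at h1
  refine h1.trans (le_of_eq ?_)
  congr 3
  simp only [Pi.add_apply, Pi.single_eq_same, sub_add_cancel_left, norm_neg, norm_mul, norm_tpi,
    Complex.norm_natCast]
  ring

theorem ob_L (h : LCh w e k a R S P T z L Om f) {q : Fin (d + 1) → ℂ} (hq : q ∈ HQ d a R) :
    Ob (hm w S P q) L (cL ι e) :=
  (exists_log_bound ι (Real.exp (K0 ι * (1 + 2 * Real.pi * e))) (Real.exp_pos _).le).choose_spec.2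
    _ _ (h.vhs.hmPos (HQ_sub h.hR hq)) h.nil (h.ob_E1 hq)

theorem ob_E (h : LCh w e k a R S P T z L Om f) {q : Fin (d + 1) → ℂ} (hq : q ∈ HQ d a R)
    (s : ℂ) : Ob (hm w S P q) (EE L s) (Real.exp (‖s‖ * cL ι e)) :=
  Ob.exp (h.vhs.hmPos (HQ_sub h.hR hq)) h.nil (cL_nonneg ι e) (h.ob_L hq) s

/-- the constant of base change -/
noncomputable def cD (ι : Type*) [Fintype ι] [DecidableEq ι] (e : ℕ) (δ : ℝ) : ℝ :=
  Real.exp (K0 ι * (1 + δ) + δ / (2 * Real.pi * e) * cL ι e)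

theorem cD_pos (e : ℕ) (δ : ℝ) : 0 < cD ι e δ := Real.exp_pos _

theorem cD_mono (e : ℕ) {δ δ' : ℝ} (hδ : δ ≤ δ') : cD ι e δ ≤ cD ι e δ' := by
  unfold cD
  have h1 := K0_nonneg (ι := ι)
  have h2 := cL_nonneg ι e
  gcongr

/-- **change of base point** -/
theorem base_change (h : LCh w e k a R S P T z L Om f) {b b' : Fin (d + 1) → ℂ}
    (hb : b ∈ HQ d a R) (hb' : b' ∈ HQ d a R) (u : ι → ℂ) :
    nrm (hm w S P b') (EE L ((b' 0 - b 0) / (tpi * e)) *ᵥ u) ≤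
      cD ι e ‖b' 0 - b 0‖ * nrm (hm w S P b) u := by
  have h1 := h.ob_E hb' ((b' 0 - b 0) / (tpi * e)) u
  have h2 := nrm_le h.hR h.vhs u hb' hb
  have h3 : ‖(b' 0 - b 0) / (tpi * e)‖ = ‖b' 0 - b 0‖ / (2 * Real.pi * e) := by
    rw [norm_div, norm_mul, norm_tpi, Complex.norm_natCast]
  rw [h3] at h1
  calc _ ≤ _ := h1
    _ ≤ Real.exp (‖b' 0 - b 0‖ / (2 * Real.pi * e) * cL ι e) *
        (Real.exp (K0 ι * (1 + ‖b' 0 - b 0‖)) * nrm (hm w S P b) u) := by gcongr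
    _ = _ := by unfold cD; rw [Real.exp_add]; ring

/-- the section in terms of `f` -/
theorem Om_eq (h : LCh w e k a R S P T z L Om f) {q : Fin (d + 1) → ℂ} (hq : q ∈ HB d a R)
    (s : ℂ) : EE L s *ᵥ f (Fin.cons (Complex.exp (q 0 / e)) (Fin.tail q)) =
      Complex.exp (-(k * q 0 / e)) • (EE L (s - q 0 / (tpi * e)) *ᵥ Om q) := by
  rw [h.f_Om q hq, Matrix.mulVec_smul, Matrix.mulVec_mulVec, ← EE_add h.nil, sub_eq_add_neg]

/-- `‖exp(-(k q₀/e))‖` -/
theorem norm_exp_k (q0 : ℂ) : ‖Complex.exp (-(k * q0 / e))‖ = Real.exp (-(k * q0.re / e)) := by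
  rw [Complex.norm_exp]
  congr 1
  have h1 : -((k : ℂ) * q0 / (e : ℂ)) = ((-(k / e) : ℝ) : ℂ) * q0 := by push_cast; ring
  rw [h1, Complex.re_ofReal_mul]
  ring

/-- comparison of `Ω_b(u, v)` with the section at `q` -/
theorem omega_le (h : LCh w e k a R S P T z L Om f) {b q : Fin (d + 1) → ℂ}
    (hb : b ∈ HQ d a R) (hq : q ∈ HQ d a R) :
    nrm (hm w S P b) (EE L (b 0 / (tpi * e)) *ᵥ
      f (Fin.cons (Complex.exp (q 0 / e)) (Fin.tail q))) ≤
      Real.exp (-(k * (q 0).re / e)) * cD ι e ‖b 0 - q 0‖ * nrm (hm w S P q) (Om q) := by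
  rw [h.Om_eq (HQ_sub h.hR hq), nrm_smul, norm_exp_k, ← sub_div, mul_assoc]
  gcongr
  exact h.base_change hq hb _


end LCh

end Crest.Agent.R276.GrC_217
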