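import Mathlib
import Crest.Agent.R276.GrC_217
import Crest.Agent.R266.Osgood
import Crest.Agent.R276.CntDefs_857

-- ▼ part R276/GrD_217
section

/-!
# R276, leaf COUNT-GR, part D (helper217)

Descent of functions invariant under `u ↦ ζu` (`ζ^e = 1`) to `x = u^e`; the function `Λ` of a chart.
-/

set_option autoImplicit false
set_option linter.unusedSectionVars false

open Set Filter Topology Matrix Metric
open scoped ComplexOrder ContDiff

namespace Crest.Agent.R276.GrD_217

open Crest.Agent.R276.BndA_563 Crest.Agent.R276.VCalc_442 Crest.Agent.R276.GrA_217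
open Crest.Agent.R276.GrB_217 Crest.Agent.R276.GrC_217

section root

variable {d : ℕ}

/-- `{‖q₀‖ < ρ, ‖q_i‖ < R}` -/
def PD (d : ℕ) (ρ R : ℝ) : Set (Fin (d + 1) → ℂ) := {q | ‖q 0‖ < ρ ∧ ∀ i : Fin d, ‖q i.succ‖ < R}

theorem isOpen_PD (d : ℕ) (ρ R : ℝ) : IsOpen (PD d ρ R) := by
  unfold PD
  rw [ofPred_and, ofPred_forall]
  refine IsOpen.inter ?_ ?_
  · exact isOpen_lt (continuous_apply 0).norm continuous_const
  · exact isOpen_iInter_of_finite fun i => isOpen_lt (continuous_apply _).norm continuous_const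

/-- the root of `x`: `u^e = x`, `‖u‖ = ‖x‖^{1/e}` -/
noncomputable def rt (e : ℕ) (x : ℂ) : ℂ := x ^ ((e : ℂ)⁻¹)

theorem rt_pow {e : ℕ} (he : 0 < e) (x : ℂ) : rt e x ^ e = x :=
  Complex.cpow_nat_inv_pow x he.ne'

theorem norm_lt_of_pow {e : ℕ} (he : 0 < e) {u x : ℂ} (hu : u ^ e = x) {ρ a : ℝ}
    (hρ : Real.exp (a / e) = ρ) (hx : ‖x‖ < Real.exp a) : ‖u‖ < ρ := by
  have h1 : ‖u‖ ^ e < ρ ^ e := by
    rw [← norm_pow, hu, ← hρ, ← Real.exp_nat_mul]
    have : (e : ℝ) * (a / e) = a := by field_simp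
    rwa [this]
  exact lt_of_pow_lt_pow_left₀ e (by rw [← hρ]; positivity) h1

theorem cons_PD {e : ℕ} (he : 0 < e) {a R : ℝ} {q : Fin (d + 1) → ℂ}
    (hq : q ∈ PD d (Real.exp a) R) {u : ℂ} (hu : u ^ e = q 0) :
    (Fin.cons u (Fin.tail q) : Fin (d + 1) → ℂ) ∈ PD d (Real.exp (a / e)) R := by
  refine ⟨?_, fun i => ?_⟩
  · rw [Fin.cons_zero]
    exact norm_lt_of_pow he hu rfl hq.1
  · rw [Fin.cons_succ]
    exact hq.2 i

theorem differentiableAt_cons {E : Type*} [NormedAddCommGroup E] [NormedSpace ℂ E] {φ : E → ℂ}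
    {ψ : E → Fin d → ℂ} {x : E} (hφ : DifferentiableAt ℂ φ x) (hψ : DifferentiableAt ℂ ψ x) :
    DifferentiableAt ℂ (fun y => (Fin.cons (φ y) (ψ y) : Fin (d + 1) → ℂ)) x := by
  rw [differentiableAt_pi]
  intro i
  refine Fin.cases ?_ (fun j => ?_) i
  · simpa using hφ
  · simpa using (differentiableAt_pi.1 hψ j)

theorem differentiableAt_tail (x : Fin (d + 1) → ℂ) :
    DifferentiableAt ℂ (fun q : Fin (d + 1) → ℂ => Fin.tail q) x := by
  rw [differentiableAt_pi]
  intro i
  unfold Fin.tail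
  fun_prop

/-- **root descent** -/
theorem root_desc {e : ℕ} (he : 0 < e) {a R : ℝ} {F : (Fin (d + 1) → ℂ) → ℂ}
    (hF : DifferentiableOn ℂ F (PD d (Real.exp (a / e)) R))
    (hinv : ∀ (u u' : ℂ) (v : Fin d → ℂ), u ^ e = u' ^ e → F (Fin.cons u v) = F (Fin.cons u' v)) :
    DifferentiableOn ℂ (fun q => F (Fin.cons (rt e (q 0)) (Fin.tail q))) (PD d (Real.exp a) R) := by
  set G : (Fin (d + 1) → ℂ) → ℂ := fun q => F (Fin.cons (rt e (q 0)) (Fin.tail q)) with hG
  have he' : (e : ℂ) ≠ 0 := by exact_mod_cast he.ne'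
  have hFat : ∀ q ∈ PD d (Real.exp a) R, ∀ u : ℂ, u ^ e = q 0 →
      DifferentiableAt ℂ F (Fin.cons u (Fin.tail q)) := fun q hq u hu =>
    hF.differentiableAt ((isOpen_PD d _ R).mem_nhds (cons_PD he hq hu))
  -- differentiability off `q 0 = 0`
  have h1 : ∀ q ∈ PD d (Real.exp a) R, q 0 ≠ 0 → DifferentiableAt ℂ G q := by
    intro q hq hq0
    by_cases hs : q 0 ∈ Complex.slitPlane
    · have h2 : DifferentiableAt ℂ (fun p : Fin (d + 1) → ℂ => rt e (p 0)) q := by
        unfold rt
        exact (differentiableAt_apply (0 : Fin (d + 1)) q).cpow_const hs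
      exact (hFat q hq _ (rt_pow he _)).comp q (differentiableAt_cons h2 (differentiableAt_tail q))
    · have hs' : -q 0 ∈ Complex.slitPlane := by
        rw [Complex.mem_slitPlane_iff] at hs ⊢
        push Not at hs
        rw [Complex.neg_re, Complex.neg_im]
        by_cases h3 : (q 0).im = 0
        · left
          have h4 : (q 0).re ≠ 0 := fun h5 => hq0 (Complex.ext h5 h3)
          have := lt_of_le_of_ne hs.1 h4
          linarith
        · exact absurd hs.2 h3
      set η : ℂ := Complex.exp (Real.pi * Complex.I / e) with hη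
      have hηe : η ^ e = -1 := by
        rw [hη, ← Complex.exp_nat_mul]
        have : (e : ℂ) * (Real.pi * Complex.I / e) = Real.pi * Complex.I := by field_simp
        rw [this, Complex.exp_pi_mul_I]
      have h2 : DifferentiableAt ℂ (fun p : Fin (d + 1) → ℂ => η * rt e (-(p 0))) q := by
        unfold rt
        have h0 : DifferentiableAt ℂ (fun p : Fin (d + 1) → ℂ => -(p 0)) q := by fun_prop
        exact (h0.cpow_const hs').const_mul η
      have hpow : ∀ x : ℂ, (η * rt e (-x)) ^ e = x := by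
        intro x
        rw [mul_pow, hηe, rt_pow he]
        ring
      have h3 : G = fun p => F (Fin.cons (η * rt e (-(p 0))) (Fin.tail p)) := by
        funext p
        exact hinv _ _ _ (by rw [rt_pow he, hpow])
      rw [h3]
      exact (hFat q hq _ (hpow _)).comp q (differentiableAt_cons h2 (differentiableAt_tail q))
  -- continuity
  have h2 : ContinuousOn G (PD d (Real.exp a) R) := by
    intro q hq
    refine ContinuousAt.continuousWithinAt ?_
    by_cases hq0 : q 0 = 0
    · have h3 : ContinuousAt (fun p : Fin (d + 1) → ℂ => rt e (p 0)) q := by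
        have h4 : Continuous (fun x : ℂ => ‖x‖ ^ ((e : ℝ)⁻¹)) :=
          continuous_norm.rpow_const (fun _ => Or.inr (by positivity))
        have h5 : ∀ x : ℂ, ‖rt e x‖ = ‖x‖ ^ ((e : ℝ)⁻¹) := by
          intro x
          have h6 : ‖rt e x‖ ^ e = ‖x‖ := by rw [← norm_pow, rt_pow he]
          rw [← h6, Real.pow_rpow_inv_natCast (norm_nonneg _) he.ne']
        have h7 : rt e (q 0) = 0 := by
          have := rt_pow he (q 0)
          rw [hq0] at this ⊢
          exact pow_eq_zero_iff he.ne' |>.1 this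
        rw [ContinuousAt, h7, tendsto_zero_iff_norm_tendsto_zero]
        simp_rw [h5]
        have h8 := (h4.comp (continuous_apply (0 : Fin (d + 1)))).continuousAt (x := q)
        rw [ContinuousAt, Function.comp_apply, hq0] at h8
        rw [norm_zero, Real.zero_rpow (inv_ne_zero (by exact_mod_cast he.ne' : (e : ℝ) ≠ 0))] at h8
        exact h8
      have h4 : ContinuousAt (fun p : Fin (d + 1) → ℂ =>
          (Fin.cons (rt e (p 0)) (Fin.tail p) : Fin (d + 1) → ℂ)) q := by
        rw [continuousAt_pi]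
        intro i
        refine Fin.cases ?_ (fun j => ?_) i
        · simpa using h3
        · simp only [Fin.cons_succ]
          exact (continuous_apply j.succ).continuousAt
      exact ContinuousAt.comp (x := q) (f := fun p : Fin (d + 1) → ℂ =>
          (Fin.cons (rt e (p 0)) (Fin.tail p) : Fin (d + 1) → ℂ))
        (hFat q hq _ (rt_pow he _)).continuousAt h4
    · exact (h1 q hq hq0).continuousAt
  have h3 : AnalyticOnNhd ℂ G (PD d (Real.exp a) R) := by
    refine Crest.Agent.R266.SCV.osgood_pi (d + 1) G (isOpen_PD d _ R) h2 ?_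
    intro x hx i
    by_cases hx0 : x 0 = 0
    · refine Fin.cases ?_ (fun j => ?_) i
      · -- first variable
        have hcont : Continuous (fun t : ℂ => Function.update x 0 t) :=
          continuous_const.update 0 continuous_id
        have hopen : IsOpen ((fun t : ℂ => Function.update x 0 t) ⁻¹' (PD d (Real.exp a) R)) :=
          (isOpen_PD d _ R).preimage hcont
        have hmem : x 0 ∈ (fun t : ℂ => Function.update x 0 t) ⁻¹' (PD d (Real.exp a) R) := by
          rw [mem_preimage, Function.update_eq_self]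
          exact hx
        refine (Complex.analyticAt_of_differentiable_on_punctured_nhds_of_continuousAt
          ?_ ?_).differentiableAt
        · rw [eventually_nhdsWithin_iff]
          filter_upwards [hopen.mem_nhds hmem] with t ht ht0
          have h4 : (Function.update x 0 t) 0 ≠ 0 := by
            rw [Function.update_self]
            intro h5
            exact ht0 (by rw [mem_singleton_iff, h5, hx0])
          have h6 : DifferentiableAt ℂ (fun t : ℂ => Function.update x 0 t) t := by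
            rw [differentiableAt_pi]
            intro j
            by_cases hj : j = 0
            · subst hj
              simp
            · simp [Function.update_of_ne hj]
          exact (h1 _ ht h4).comp t h6
        · have h5 : ContinuousAt G (Function.update x 0 (x 0)) := by
            rw [Function.update_eq_self]
            exact h2.continuousAt ((isOpen_PD d _ R).mem_nhds hx)
          exact ContinuousAt.comp (x := x 0) (f := fun t : ℂ => Function.update x 0 t) h5
            hcont.continuousAt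
      · -- other variables
        have h4 : (fun t : ℂ => G (Function.update x j.succ t)) =
            fun t : ℂ => F (Fin.cons (rt e (x 0)) (Fin.tail (Function.update x j.succ t))) := by
          funext t
          simp only [hG]
          rw [Function.update_of_ne (Fin.succ_ne_zero j).symm]
        rw [h4]
        have h5 : DifferentiableAt ℂ (fun t : ℂ => (Fin.cons (rt e (x 0))
            (Fin.tail (Function.update x j.succ t)) : Fin (d + 1) → ℂ)) (x j.succ) := by
          refine differentiableAt_cons (differentiableAt_const _) ?_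
          rw [differentiableAt_pi]
          intro l
          unfold Fin.tail
          by_cases hl : l = j
          · subst hl
            simp
          · have : l.succ ≠ j.succ := fun h => hl (Fin.succ_injective _ h)
            simp [Function.update_of_ne this]
        have h6 := hFat x hx _ (rt_pow he (x 0))
        have h7 : DifferentiableAt ℂ F (Fin.cons (rt e (x 0))
            (Fin.tail (Function.update x j.succ (x j.succ)))) := by
          rw [Function.update_eq_self]
          exact h6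
        exact h7.comp (x j.succ) h5
    · have h4 := h1 x hx hx0
      have h6 : DifferentiableAt ℂ (fun t : ℂ => Function.update x i t) (x i) := by
        rw [differentiableAt_pi]
        intro j
        by_cases hj : j = i
        · subst hj
          simp
        · simp [Function.update_of_ne hj]
      have h7 : DifferentiableAt ℂ G (Function.update x i (x i)) := by
        rw [Function.update_eq_self]
        exact h4
      exact h7.comp (x i) h6
  exact h3.differentiableOn

end root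

section fun_

variable {ι : Type*} [Fintype ι] [DecidableEq ι]

/-- supporting functional -/
theorem exists_fun {K : Matrix ι ι ℂ} (hK : K.PosDef) (v : ι → ℂ) :
    ∃ l : (ι → ℂ) →ₗ[ℂ] ℂ, (∀ u, ‖l u‖ ≤ nrm K u) ∧ ‖l v‖ = nrm K v := by
  by_cases hv : v = 0
  · refine ⟨0, fun u => ?_, ?_⟩
    · simpa using nrm_nonneg K u
    · rw [hv, nrm_zero]
      simp
  have hpos := hn_pos hK hv
  have hn0 : 0 < nrm K v := Real.sqrt_pos.2 hpos
  refine ⟨((nrm K v : ℂ)⁻¹) • ((dotProductBilin ℂ ℂ (star v)).comp (Matrix.toLin' K)), ?_, ?_⟩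
  · intro u
    have h1 := norm_dot_K_le hK v u
    have h2 : ‖star v ⬝ᵥ K *ᵥ u‖ ≤ nrm K v * nrm K u := by
      unfold nrm
      rw [← Real.sqrt_mul (hn_nonneg hK v)]
      exact Real.le_sqrt_of_sq_le h1
    have h3 : ‖(((nrm K v : ℂ)⁻¹) • ((dotProductBilin ℂ ℂ (star v)).comp (Matrix.toLin' K))) u‖ =
        (nrm K v)⁻¹ * ‖star v ⬝ᵥ K *ᵥ u‖ := by
      simp [abs_of_pos hn0]
    rw [h3, inv_mul_le_iff₀ hn0]
    exact h2
  · have h3 : ‖(((nrm K v : ℂ)⁻¹) • ((dotProductBilin ℂ ℂ (star v)).comp (Matrix.toLin' K))) v‖ =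
        (nrm K v)⁻¹ * ‖star v ⬝ᵥ K *ᵥ v‖ := by
      simp [abs_of_pos hn0]
    have h4 : ‖star v ⬝ᵥ K *ᵥ v‖ = nrm K v ^ 2 := by
      rw [nrm_sq hK]
      have h5 : star v ⬝ᵥ K *ᵥ v = ((hn K v : ℝ) : ℂ) := by
        have h6 := hK.isHermitian.im_star_dotProduct_mulVec_self v
        apply Complex.ext
        · simp [hn]
        · simpa using h6
      rw [h5, Complex.norm_real, Real.norm_of_nonneg hpos.le]
    rw [h3, h4]
    field_simp

end fun_

end Crest.Agent.R276.GrD_217
end

-- ▼ part R276/GrE_217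
section

/-!
# R276, leaf COUNT-GR, part E (helper217)

The functions `Λ` and `l` of one chart.
-/

set_option autoImplicit false
set_option linter.unusedSectionVars false

open Set Filter Topology Matrix Metric
open scoped ComplexOrder ContDiff

namespace Crest.Agent.R276.GrE_217

open Crest.Agent.R276.BndA_563 Crest.Agent.R276.VCalc_442 Crest.Agent.R276.GrA_217
open Crest.Agent.R276.GrB_217 Crest.Agent.R276.GrC_217 Crest.Agent.R276.GrC_217.LCh
open Crest.Agent.R276.GrD_217

variable {ι : Type*} [Fintype ι] [DecidableEq ι] {d : ℕ}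

variable {w e : ℕ} {k : ℤ} {a R : ℝ} {S : Matrix ι ι ℂ}
  {P : ℕ → (Fin (d + 1) → ℂ) → Matrix ι ι ℂ} {T : Matrix ι ι ℂ} {z : ℂ} {L : Matrix ι ι ℂ}
  {Om f : (Fin (d + 1) → ℂ) → ι → ℂ}

theorem nrm_om_nat (h : LCh w e k a R S P T z L Om f) {q q' : Fin (d + 1) → ℂ}
    (hq : q ∈ HB d a R) (n : ℕ) (hn : q' 0 = q 0 + n * tpi)
    (ht : Fin.tail q' = Fin.tail q) :
    nrm (hm w S P q') (Om q') = nrm (hm w S P q) (Om q) := by
  have h1 : q' = q + Pi.single 0 ((n : ℂ) * tpi) := by
    funext j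
    refine Fin.cases ?_ (fun i => ?_) j
    · simp [hn]
    · have h2 := congrFun ht i
      simp only [Fin.tail] at h2
      simp [h2]
  rw [h1, h.nrm_om_per hq]

theorem nrm_om_congr (h : LCh w e k a R S P T z L Om f) {q q' : Fin (d + 1) → ℂ}
    (hq : q ∈ HB d a R) (hq' : q' ∈ HB d a R) (h0 : Complex.exp (q' 0) = Complex.exp (q 0))
    (ht : Fin.tail q' = Fin.tail q) :
    nrm (hm w S P q') (Om q') = nrm (hm w S P q) (Om q) := by
  obtain ⟨n, hn⟩ := Complex.exp_eq_exp_iff_exists_int.1 h0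
  rcases Int.eq_nat_or_neg n with ⟨m, rfl | rfl⟩
  · exact nrm_om_nat h hq m (by rw [hn]; simp [tpi]) ht
  · refine (nrm_om_nat h hq' m ?_ ht.symm).symm
    rw [hn]
    push_cast
    unfold tpi
    ring

/-- the vector `Ω_b = exp(b₀ L / 2πie) f` -/
noncomputable def Omb (e : ℕ) (L : Matrix ι ι ℂ) (f : (Fin (d + 1) → ℂ) → ι → ℂ) (b0 : ℂ)
    (q : Fin (d + 1) → ℂ) : ι → ℂ := EE L (b0 / (tpi * e)) *ᵥ f q

theorem lin_diff (l : (ι → ℂ) →ₗ[ℂ] ℂ) {E : Type*} [NormedAddCommGroup E] [NormedSpace ℂ E]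
    {g : E → ι → ℂ} {s : Set E} (hg : DifferentiableOn ℂ g s) :
    DifferentiableOn ℂ (fun x => l (g x)) s :=
  (LinearMap.toContinuousLinearMap l).differentiable.comp_differentiableOn hg

theorem mulVec_diff (A : Matrix ι ι ℂ) {E : Type*} [NormedAddCommGroup E] [NormedSpace ℂ E]
    {g : E → ι → ℂ} {s : Set E} (hg : DifferentiableOn ℂ g s) :
    DifferentiableOn ℂ (fun x => A *ᵥ g x) s :=
  (LinearMap.toContinuousLinearMap (Matrix.toLin' A)).differentiable.comp_differentiableOn hg

theorem Omb_diff (h : LCh w e k a R S P T z L Om f) (b0 : ℂ) :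
    DifferentiableOn ℂ (Omb e L f b0) (PD d (Real.exp (a / e)) R) :=
  mulVec_diff _ h.hf

/-- **the function `Λ`** -/
theorem exists_Lam (h : LCh w e k a R S P T z L Om f) {b : Fin (d + 1) → ℂ}
    (hb : b ∈ HQ d a R) :
    ∃ (l : (ι → ℂ) →ₗ[ℂ] ℂ) (Λ : (Fin (d + 1) → ℂ) → ℂ),
      (∀ u, ‖l u‖ ≤ nrm (hm w S P b) u) ∧
      ‖l (Omb e L f (b 0) 0)‖ = nrm (hm w S P b) (Omb e L f (b 0) 0) ∧
      DifferentiableOn ℂ Λ (PD d (Real.exp a) R) ∧
      (∀ v : Fin d → ℂ, Λ (Fin.cons 0 v) = l (Omb e L f (b 0) (Fin.cons 0 v)) ^ e) ∧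
      ∀ q ∈ HQ d a R, ‖Λ (Fin.cons (Complex.exp (q 0)) (Fin.tail q))‖ ≤
        Real.exp (-(k * (q 0).re)) *
          cD ι e (|(b 0).re - (q 0).re| + (|(b 0).im| + Real.pi * e)) ^ e *
          nrm (hm w S P q) (Om q) ^ e := by
  classical
  have he := h.he
  have he0 : (e : ℂ) ≠ 0 := by exact_mod_cast he.ne'
  have heR : (0 : ℝ) < e := by exact_mod_cast he
  obtain ⟨l, hl1, hl2⟩ := exists_fun (h.vhs.hmPos (HQ_sub h.hR hb)) (Omb e L f (b 0) 0)
  set Z : Finset ℂ := Polynomial.nthRootsFinset e (1 : ℂ) with hZ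
  have hcard : Z.card = e := (Complex.isPrimitiveRoot_exp e he.ne').card_nthRootsFinset
  have hmem : ∀ ζ, ζ ∈ Z ↔ ζ ^ e = 1 := fun ζ => Polynomial.mem_nthRootsFinset he 1
  set g : (Fin (d + 1) → ℂ) → ℂ := fun q => l (Omb e L f (b 0) q) with hg
  have hgd : DifferentiableOn ℂ g (PD d (Real.exp (a / e)) R) := lin_diff l (Omb_diff h (b 0))
  set F : (Fin (d + 1) → ℂ) → ℂ := fun q => ∏ ζ ∈ Z, g (Fin.cons (ζ * q 0) (Fin.tail q)) with hF
  have hnz : ∀ ζ ∈ Z, ‖ζ‖ = 1 := fun ζ hζ =>
    Complex.norm_eq_one_of_pow_eq_one ((hmem ζ).1 hζ) he.ne'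
  have hFd : DifferentiableOn ℂ F (PD d (Real.exp (a / e)) R) := by
    have hone : ∀ ζ ∈ Z, DifferentiableOn ℂ
        (fun q : Fin (d + 1) → ℂ => g (Fin.cons (ζ * q 0) (Fin.tail q)))
        (PD d (Real.exp (a / e)) R) := ?_
    · intro q hq
      exact (HasFDerivWithinAt.finsetProd fun ζ hζ =>
        (hone ζ hζ q hq).hasFDerivWithinAt).differentiableWithinAt
    intro ζ hζ
    refine hgd.comp (fun q _ => (differentiableAt_cons (by fun_prop)
      (differentiableAt_tail q)).differentiableWithinAt) fun q hq => ⟨?_, fun i => hq.2 i⟩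
    rw [Fin.cons_zero, norm_mul, hnz ζ hζ, one_mul]
    exact hq.1
  have hinv : ∀ (u u' : ℂ) (v : Fin d → ℂ), u ^ e = u' ^ e →
      F (Fin.cons u v) = F (Fin.cons u' v) := by
    intro u u' v huu
    simp only [hF, Fin.cons_zero, Fin.tail_cons]
    by_cases hu : u = 0
    · have hu' : u' = 0 := by
        rw [hu, zero_pow he.ne'] at huu
        exact pow_eq_zero_iff he.ne' |>.1 huu.symm
      rw [hu, hu']
    have hu' : u' ≠ 0 := by
      rintro rfl
      rw [zero_pow he.ne'] at huu
      exact hu (pow_eq_zero_iff he.ne' |>.1 huu)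
    refine Finset.prod_nbij' (fun ζ => ζ * (u / u')) (fun ζ => ζ * (u' / u)) ?_ ?_ ?_ ?_ ?_
    · intro ζ hζ
      rw [hmem] at hζ ⊢
      rw [mul_pow, hζ, div_pow, huu, div_self (pow_ne_zero _ hu'), one_mul]
    · intro ζ hζ
      rw [hmem] at hζ ⊢
      rw [mul_pow, hζ, div_pow, huu, div_self (pow_ne_zero _ hu'), one_mul]
    · intro ζ _
      field_simp
    · intro ζ _
      field_simp
    · intro ζ _
      have : ζ * (u / u') * u' = ζ * u := by field_simp
      rw [this]
  refine ⟨l, fun q => F (Fin.cons (rt e (q 0)) (Fin.tail q)), hl1, hl2, root_desc he hFd hinv,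
    ?_, ?_⟩
  · intro v
    have h7 : rt e 0 = 0 := pow_eq_zero_iff he.ne' |>.1 (rt_pow he 0)
    simp only [hF, Fin.cons_zero, Fin.tail_cons, h7, mul_zero, Finset.prod_const, hcard]
    rfl
  · intro q hq
    set u : ℂ := rt e (Complex.exp (q 0)) with hu
    have hue : u ^ e = Complex.exp (q 0) := rt_pow he _
    have hu0 : u ≠ 0 := by
      rintro h0
      rw [h0, zero_pow he.ne'] at hue
      exact Complex.exp_ne_zero _ hue.symm
    have key : ∀ ζ ∈ Z, ‖g (Fin.cons (ζ * u) (Fin.tail q))‖ ≤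
        Real.exp (-(k * (q 0).re / e)) *
          cD ι e (|(b 0).re - (q 0).re| + (|(b 0).im| + Real.pi * e)) *
          nrm (hm w S P q) (Om q) := by
      intro ζ hζ
      have hζ0 : ζ ≠ 0 := by
        intro h0
        have := hnz ζ hζ
        rw [h0, norm_zero] at this
        exact zero_ne_one this
      have hζu : ζ * u ≠ 0 := mul_ne_zero hζ0 hu0
      set s : ℂ := Complex.log (ζ * u) with hs
      have hexp : Complex.exp s = ζ * u := Complex.exp_log hζu
      set q' : Fin (d + 1) → ℂ := Fin.cons ((e : ℂ) * s) (Fin.tail q) with hq'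
      have hq'0 : q' 0 = e * s := rfl
      have h1 : Complex.exp (q' 0) = Complex.exp (q 0) := by
        rw [hq'0, Complex.exp_nat_mul, hexp, mul_pow, (hmem ζ).1 hζ, one_mul, hue]
      have hre : (q' 0).re = (q 0).re := by
        have h2 := congrArg norm h1
        rw [Complex.norm_exp, Complex.norm_exp] at h2
        exact Real.exp_injective h2
      have hq'Q : q' ∈ HQ d a R := ⟨by rw [hre]; exact hq.1, fun i => hq.2 i⟩
      have him : |(q' 0).im| ≤ Real.pi * e := by
        rw [hq'0]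
        have : ((e : ℂ) * s).im = e * s.im := by simp [Complex.mul_im]
        rw [this, abs_mul, abs_of_pos heR, mul_comm]
        gcongr
        rw [hs, Complex.log_im]
        exact Complex.abs_arg_le_pi _
      have h3 := h.omega_le hb hq'Q
      have h4 : Complex.exp (q' 0 / e) = ζ * u := by
        rw [hq'0, mul_div_cancel_left₀ _ he0, hexp]
      have h5 : Fin.tail q' = Fin.tail q := by rw [hq', Fin.tail_cons]
      rw [h4, h5, nrm_om_congr h (HQ_sub h.hR hq) (HQ_sub h.hR hq'Q) h1 h5, hre] at h3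
      refine (hl1 _).trans (h3.trans ?_)
      have h6 : ‖b 0 - q' 0‖ ≤ |(b 0).re - (q 0).re| + (|(b 0).im| + Real.pi * e) := by
        refine (Complex.norm_le_abs_re_add_abs_im _).trans ?_
        rw [Complex.sub_re, Complex.sub_im, hre]
        gcongr
        refine (abs_sub _ _).trans ?_
        gcongr
      have h7 := cD_mono (ι := ι) e h6
      have h8 := nrm_nonneg (hm w S P q) (Om q)
      gcongr
    have h1 : ‖F (Fin.cons u (Fin.tail q))‖ ≤ (Real.exp (-(k * (q 0).re / e)) *
          cD ι e (|(b 0).re - (q 0).re| + (|(b 0).im| + Real.pi * e)) *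
          nrm (hm w S P q) (Om q)) ^ e := by
      simp only [hF, Fin.cons_zero, Fin.tail_cons]
      rw [norm_prod]
      calc _ ≤ ∏ _ζ ∈ Z, (Real.exp (-(k * (q 0).re / e)) *
          cD ι e (|(b 0).re - (q 0).re| + (|(b 0).im| + Real.pi * e)) *
          nrm (hm w S P q) (Om q)) := Finset.prod_le_prod (fun _ _ => norm_nonneg _) key
        _ = _ := by rw [Finset.prod_const, hcard]
    simp only [Fin.cons_zero, Fin.tail_cons]
    refine h1.trans (le_of_eq ?_)
    rw [mul_pow, mul_pow, ← Real.exp_nat_mul]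
    congr 3
    field_simp

end Crest.Agent.R276.GrE_217
end

-- ▼ part R276/GrF_217

/-!
# R276, leaf COUNT-GR, part F (helper217)

The radius function `radf` varies by a bounded factor on half of its own ball.
-/

set_option autoImplicit false
set_option linter.unusedSectionVars false

open Set Filter Topology Metric

namespace Crest.Agent.R276.GrF_217

open Crest.Agent.R276.CntDefs_857

/-- a polynomial without zeros in `‖t‖ < 2` -/
theorem poly_cmp {p : Polynomial ℂ} {D : ℕ} (hD : p.natDegree ≤ D)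
    (hp : ∀ t : ℂ, ‖t‖ < 2 → p.eval t ≠ 0) :
    ‖p.eval 1‖ ≤ 2 ^ D * ‖p.eval 0‖ ∧ ‖p.eval 0‖ ≤ 2 ^ D * ‖p.eval 1‖ := by
  have hs := IsAlgClosed.splits p
  have hroot : ∀ ρ ∈ p.roots, 2 ≤ ‖ρ‖ := by
    intro ρ hρ
    by_contra h1
    exact hp ρ (not_le.1 h1) (Polynomial.isRoot_of_mem_roots hρ)
  have hcard : p.roots.card ≤ D := (Polynomial.card_roots' p).trans hD
  have key : ∀ s : Multiset ℂ, (∀ ρ ∈ s, 2 ≤ ‖ρ‖) →
      ‖(s.map fun ρ => (1 : ℂ) - ρ).prod‖ ≤ 2 ^ s.card * ‖(s.map fun ρ => (0 : ℂ) - ρ).prod‖ ∧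
      ‖(s.map fun ρ => (0 : ℂ) - ρ).prod‖ ≤ 2 ^ s.card * ‖(s.map fun ρ => (1 : ℂ) - ρ).prod‖ := by
    intro s
    induction s using Multiset.induction_on with
    | empty => intro _; simp
    | cons ρ s ih =>
      intro hs
      obtain ⟨i1, i2⟩ := ih fun x hx => hs x (Multiset.mem_cons_of_mem hx)
      have h2 := hs ρ (Multiset.mem_cons_self ρ s)
      simp only [Multiset.map_cons, Multiset.prod_cons, norm_mul, Multiset.card_cons, zero_sub,
        norm_neg] at i1 i2 ⊢
      have h3 : ‖(1 : ℂ) - ρ‖ ≤ 2 * ‖ρ‖ := by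
        have := norm_sub_le (1 : ℂ) ρ
        rw [norm_one] at this
        linarith
      have h4 : ‖ρ‖ ≤ 2 * ‖(1 : ℂ) - ρ‖ := by
        have := norm_sub_norm_le ρ 1
        rw [norm_one, norm_sub_rev] at this
        linarith
      constructor
      · calc _ ≤ (2 * ‖ρ‖) * (2 ^ s.card * ‖(s.map fun ρ => -ρ).prod‖) := by gcongr
          _ = _ := by ring
      · calc _ ≤ (2 * ‖(1 : ℂ) - ρ‖) * (2 ^ s.card * ‖(s.map fun ρ => 1 - ρ).prod‖) := by gcongr
          _ = _ := by ring
  obtain ⟨k1, k2⟩ := key p.roots hroot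
  have h2D : (2 : ℝ) ^ p.roots.card ≤ 2 ^ D := pow_le_pow_right₀ (by norm_num) hcard
  rw [hs.eval_eq_prod_roots, hs.eval_eq_prod_roots, norm_mul, norm_mul]
  constructor
  · calc _ ≤ ‖p.leadingCoeff‖ * (2 ^ D * ‖(p.roots.map fun ρ => (0 : ℂ) - ρ).prod‖) := by
          gcongr
          exact k1.trans (by gcongr)
      _ = _ := by ring
  · calc _ ≤ ‖p.leadingCoeff‖ * (2 ^ D * ‖(p.roots.map fun ρ => (1 : ℂ) - ρ).prod‖) := by
          gcongr
          exact k2.trans (by gcongr)
      _ = _ := by ring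

variable {d : ℕ}

/-- restriction of a polynomial to a line -/
noncomputable def lin (h : MvPolynomial (Fin d) ℂ) (z v : Fin d → ℂ) : Polynomial ℂ :=
  MvPolynomial.aeval (fun i => Polynomial.C (z i) + Polynomial.C (v i) * Polynomial.X) h

theorem lin_eval (h : MvPolynomial (Fin d) ℂ) (z v : Fin d → ℂ) (t : ℂ) :
    (lin h z v).eval t = MvPolynomial.eval (z + t • v) h := by
  unfold lin
  induction h using MvPolynomial.induction_on with
  | C a => simp [MvPolynomial.algebraMap_eq]
  | add p q hp hq => rw [map_add, Polynomial.eval_add, hp, hq, map_add]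
  | mul_X p i hp =>
    rw [map_mul, Polynomial.eval_mul, hp, map_mul, MvPolynomial.aeval_X, MvPolynomial.eval_X]
    simp only [Polynomial.eval_add, Polynomial.eval_mul, Polynomial.eval_C, Polynomial.eval_X,
      Pi.add_apply, Pi.smul_apply, smul_eq_mul]
    ring

theorem lin_deg (h : MvPolynomial (Fin d) ℂ) (z v : Fin d → ℂ) :
    (lin h z v).natDegree ≤ h.totalDegree := by
  have h1 := MvPolynomial.aeval_natDegree_le h le_rfl
    (fun i => Polynomial.C (z i) + Polynomial.C (v i) * Polynomial.X) (n := 1) (fun i => by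
      rw [add_comm]
      exact Polynomial.natDegree_linear_le)
  rwa [mul_one] at h1

theorem h_cmp (h : MvPolynomial (Fin d) ℂ) {z z' : Fin d → ℂ} {r : ℝ}
    (hz : ∀ w ∈ ball z r, MvPolynomial.eval w h ≠ 0) (hz' : ‖z' - z‖ < r / 2) :
    ‖MvPolynomial.eval z' h‖ ≤ 2 ^ h.totalDegree * ‖MvPolynomial.eval z h‖ ∧
    ‖MvPolynomial.eval z h‖ ≤ 2 ^ h.totalDegree * ‖MvPolynomial.eval z' h‖ := by
  have h1 := poly_cmp (lin_deg h z (z' - z)) fun t ht => by
    rw [lin_eval]
    apply hz
    rw [mem_ball, dist_eq_norm, add_sub_cancel_left, norm_smul]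
    rcases (norm_nonneg t).eq_or_lt with h0 | h0
    · rw [← h0, zero_mul]
      linarith [norm_nonneg (z' - z)]
    · calc ‖t‖ * ‖z' - z‖ < ‖t‖ * (r / 2) := by gcongr
        _ ≤ 2 * (r / 2) := by
          have : 0 ≤ r / 2 := (norm_nonneg _).trans hz'.le
          gcongr
        _ = r := by ring
  rw [lin_eval, lin_eval, one_smul, zero_smul, add_zero, add_sub_cancel] at h1
  exact h1

theorem min_le {x y M : ℝ} (hM : 1 ≤ M) (hy : 0 ≤ y) (h : x ≤ M * y) :
    min 1 x ≤ M * min 1 y := by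
  rcases le_total 1 y with h1 | h1
  · rw [min_eq_left h1, mul_one]
    exact (min_le_left _ _).trans hM
  · rw [min_eq_right h1]
    exact (min_le_right _ _).trans h

theorem radf_pos {h : MvPolynomial (Fin d) ℂ} {c : ℝ} (hc : 0 < c) {κ : ℕ} {z : Fin d → ℂ}
    (hz : MvPolynomial.eval z h ≠ 0) : 0 < radf h c κ z := by
  unfold radf
  have h1 : 0 < min 1 ‖MvPolynomial.eval z h‖ := lt_min one_pos (norm_pos_iff.2 hz)
  have h2 : 0 < 1 + ‖z‖ := by positivity
  positivity

theorem radf_le_one {h : MvPolynomial (Fin d) ℂ} {c : ℝ} (hc : 0 < c) (hc1 : c ≤ 1) {κ : ℕ}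
    {z : Fin d → ℂ} : radf h c κ z ≤ 1 := by
  unfold radf
  have h1 : 0 ≤ min 1 ‖MvPolynomial.eval z h‖ := le_min zero_le_one (norm_nonneg _)
  have h2 : min 1 ‖MvPolynomial.eval z h‖ / (1 + ‖z‖) ≤ 1 := by
    rw [div_le_one (by positivity)]
    exact (min_le_left _ _).trans (by linarith [norm_nonneg z])
  have h3 : (min 1 ‖MvPolynomial.eval z h‖ / (1 + ‖z‖)) ^ κ ≤ 1 :=
    pow_le_one₀ (by positivity) h2
  nlinarith

/-- **comparability of the radius** -/
theorem radf_cmp (h : MvPolynomial (Fin d) ℂ) {c : ℝ} (hc : 0 < c) (hc1 : c ≤ 1) (κ : ℕ)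
    {z z' : Fin d → ℂ} (hz : ∀ w ∈ ball z (radf h c κ z), MvPolynomial.eval w h ≠ 0)
    (hz' : ‖z' - z‖ < radf h c κ z / 2) :
    radf h c κ z' ≤ (2 ^ (h.totalDegree + 1)) ^ κ * radf h c κ z ∧
    radf h c κ z ≤ (2 ^ (h.totalDegree + 1)) ^ κ * radf h c κ z' := by
  obtain ⟨h1, h2⟩ := h_cmp h hz hz'
  have hr1 := radf_le_one (h := h) hc hc1 (κ := κ) (z := z)
  have h2D : (1 : ℝ) ≤ 2 ^ h.totalDegree := one_le_pow₀ (by norm_num)
  have m1 := min_le h2D (norm_nonneg _) h1
  have m2 := min_le h2D (norm_nonneg _) h2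
  have n1 : ‖z'‖ ≤ ‖z‖ + 1 / 2 := by
    have := norm_add_le z (z' - z)
    rw [add_sub_cancel] at this
    linarith
  have n2 : ‖z‖ ≤ ‖z'‖ + 1 / 2 := by
    have := norm_sub_le z' (z' - z)
    rw [sub_sub_cancel] at this
    linarith
  have hn := norm_nonneg z
  have hn' := norm_nonneg z'
  have p0 : 0 ≤ min 1 ‖MvPolynomial.eval z h‖ := le_min zero_le_one (norm_nonneg _)
  have p0' : 0 ≤ min 1 ‖MvPolynomial.eval z' h‖ := le_min zero_le_one (norm_nonneg _)
  have q1 : min 1 ‖MvPolynomial.eval z' h‖ / (1 + ‖z'‖) ≤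
      2 ^ (h.totalDegree + 1) * (min 1 ‖MvPolynomial.eval z h‖ / (1 + ‖z‖)) := by
    rw [← mul_div_assoc, div_le_div_iff₀ (by positivity) (by positivity), pow_succ]
    calc min 1 ‖MvPolynomial.eval z' h‖ * (1 + ‖z‖)
        ≤ (2 ^ h.totalDegree * min 1 ‖MvPolynomial.eval z h‖) * (2 * (1 + ‖z'‖)) := by
          gcongr
          linarith
      _ = _ := by ring
  have q2 : min 1 ‖MvPolynomial.eval z h‖ / (1 + ‖z‖) ≤
      2 ^ (h.totalDegree + 1) * (min 1 ‖MvPolynomial.eval z' h‖ / (1 + ‖z'‖)) := by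
    rw [← mul_div_assoc, div_le_div_iff₀ (by positivity) (by positivity), pow_succ]
    calc min 1 ‖MvPolynomial.eval z h‖ * (1 + ‖z'‖)
        ≤ (2 ^ h.totalDegree * min 1 ‖MvPolynomial.eval z' h‖) * (2 * (1 + ‖z‖)) := by
          gcongr
          linarith
      _ = _ := by ring
  unfold radf
  constructor
  · calc c * (min 1 ‖MvPolynomial.eval z' h‖ / (1 + ‖z'‖)) ^ κ
        ≤ c * (2 ^ (h.totalDegree + 1) * (min 1 ‖MvPolynomial.eval z h‖ / (1 + ‖z‖))) ^ κ := by
          gcongr
      _ = _ := by rw [mul_pow]; ring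
  · calc c * (min 1 ‖MvPolynomial.eval z h‖ / (1 + ‖z‖)) ^ κ
        ≤ c * (2 ^ (h.totalDegree + 1) * (min 1 ‖MvPolynomial.eval z' h‖ / (1 + ‖z'‖))) ^ κ := by
          gcongr
      _ = _ := by rw [mul_pow]; ring

/-- logarithmic form -/
theorem log_radf_cmp (h : MvPolynomial (Fin d) ℂ) {c : ℝ} (hc : 0 < c) (hc1 : c ≤ 1) (κ : ℕ)
    {z z' : Fin d → ℂ} (hz : ∀ w ∈ ball z (radf h c κ z), MvPolynomial.eval w h ≠ 0)
    (hz0 : MvPolynomial.eval z h ≠ 0)
    (hz' : ‖z' - z‖ < radf h c κ z / 2) :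
    |Real.log (radf h c κ z') - Real.log (radf h c κ z)| ≤
      κ * ((h.totalDegree + 1) * Real.log 2) := by
  obtain ⟨h1, h2⟩ := radf_cmp h hc hc1 κ hz hz'
  have hr := radf_pos (κ := κ) hc hz0
  have hr' : 0 < radf h c κ z' := radf_pos hc (hz z' (by
    rw [mem_ball, dist_eq_norm]; linarith))
  have e1 : Real.log ((2 ^ (h.totalDegree + 1)) ^ κ) = κ * ((h.totalDegree + 1) * Real.log 2) := by
    rw [Real.log_pow, Real.log_pow]
    push_cast
    ring
  have g1 := Real.log_le_log hr' h1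
  have g2 := Real.log_le_log hr h2
  rw [Real.log_mul (by positivity) hr.ne', e1] at g1
  rw [Real.log_mul (by positivity) hr'.ne', e1] at g2
  rw [abs_le]
  constructor <;> linarith

end Crest.Agent.R276.GrF_217
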