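import Crest.Agent.R276.VCalcG_442

/-!
# R276, leaf VCalc (helper442): components of flat sections (C3')

`tc S P p u x = |P_p u|²`.  If `P_{p+1} u = 0` on `U` then `log |P_p u|²` is psh
(`VHS.curv_tc`), with the exact second derivative `VHS.dB_dW_tc`.
-/

set_option autoImplicit false
set_option linter.unusedSectionVars false

open Set Filter Topology Matrix Finset InnerProductSpace Laplacian
open scoped ContDiff ComplexConjugate ComplexOrder

namespace Crest.Agent.R276.VCalc_442

variable {X : Type*} [NormedAddCommGroup X] [NormedSpace ℂ X]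
variable {ι : Type*} [Fintype ι] [DecidableEq ι]

section nm

attribute [local instance] Matrix.linftyOpNormedRing Matrix.linftyOpNormedAlgebra

namespace VHS

variable {w : ℕ} {U : Set X} {S : Matrix ι ι ℂ} {P : ℕ → X → Matrix ι ι ℂ} {x : X}

theorem C_comm_P (h : VHS w U S P) (hx : x ∈ U) (p : ℕ) :
    sgOp w P x * P p x = P p x * sgOp w P x := by
  rw [h.C_mul_P hx, h.P_mul_C hx]

theorem hm_mul_P (h : VHS w U S P) (hx : x ∈ U) (p : ℕ) :
    hm w S P x * P p x = ((-1 : ℂ) ^ p) • (S * P p x) := by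
  unfold hm
  rw [mul_assoc, h.C_mul_P hx, mul_smul_comm]

theorem S_eq (h : VHS w U S P) (hx : x ∈ U) : S = hm w S P x * sgOp w P x := by
  unfold hm
  rw [mul_assoc, h.C_mul_C hx, mul_one]

/-- the projectors are self-adjoint for the Hodge metric -/
theorem adj_P (h : VHS w U S P) (hx : x ∈ U) (p : ℕ) : Adj (hm w S P x) (P p x) (P p x) := by
  unfold Adj hm
  rw [← mul_assoc, h.adj x hx, mul_assoc, mul_assoc, h.C_comm_P hx]





theorem sf_P_P (h : VHS w U S P) (hx : x ∈ U) (p : ℕ) (a b : ι → ℂ) :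
    sf (hm w S P x) a (P p x *ᵥ b) = sf (hm w S P x) (P p x *ᵥ a) (P p x *ᵥ b) := by
  have l1 : sf (hm w S P x) a (P p x *ᵥ b) = sf (hm w S P x * P p x) a b :=
    (sf_mul_right _ _ _ _).symm
  have l2 : sf (hm w S P x * P p x) a (P p x *ᵥ b) = sf (hm w S P x * P p x * P p x) a b :=
    (sf_mul_right _ _ _ _).symm
  rw [l1, ← (h.adj_P hx p).sf_left, l2, mul_assoc, h.idem x hx]


/-- the matrix of the form `(-1)^p S P_p` -/
noncomputable def mp (S : Matrix ι ι ℂ) (P : ℕ → X → Matrix ι ι ℂ) (p : ℕ) (y : X) :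
    Matrix ι ι ℂ := ((-1 : ℂ) ^ p) • (S * P p y)











end VHS

end nm

end Crest.Agent.R276.VCalc_442
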