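import Mathlib
import Crest.Agent.R276.GrF_217_Mg
import Crest.Agent.R276.VCalcH_442

-- ▼ part R276/GrG_217
section

/-!
# R276, leaf COUNT-GR, part G (helper217)

Transition between the normal forms at two points of the divisor; the inequality behind `tau_le`.
-/

set_option autoImplicit false
set_option linter.unusedSectionVars false

open Set Filter Topology Matrix Metric
open scoped ComplexOrder ContDiff

namespace Crest.Agent.R276.GrG_217

open Crest.Agent.R276.BndA_563 Crest.Agent.R276.VCalc_442 Crest.Agent.R276.GrA_217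
open Crest.Agent.R276.GrB_217 Crest.Agent.R276.GrC_217 Crest.Agent.R276.GrC_217.LCh
open Crest.Agent.R276.GrD_217 Crest.Agent.R276.GrE_217

variable {ι : Type*} [Fintype ι] [DecidableEq ι] {d : ℕ}

/-- transition from the normal form at `y` to the one at `y'`; `v0 = cp y' - cp y` -/
structure Tr (a R a' R' : ℝ) (S S' : Matrix ι ι ℂ)
    (P P' : ℕ → (Fin (d + 1) → ℂ) → Matrix ι ι ℂ) (L L' : Matrix ι ι ℂ)
    (Om Om' : (Fin (d + 1) → ℂ) → ι → ℂ) (v0 : Fin d → ℂ) (A : Matrix ι ι ℂ) (c : ℂ) : Prop where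
  hc : ‖c‖ = 1
  S_eq : Aᴴ * S' * A = S
  L_eq : L' * A = A * L
  P_eq : ∀ q ∈ HB d a' R', q + Fin.cons 0 v0 ∈ HB d a R → ∀ p,
    P' p q * A = A * P p (q + Fin.cons 0 v0)
  Om_eq : ∀ q ∈ HB d a' R', q + Fin.cons 0 v0 ∈ HB d a R →
    Om' q = c • (A *ᵥ Om (q + Fin.cons 0 v0))

variable {w e : ℕ} {k : ℤ} {a R a' R' : ℝ} {S S' : Matrix ι ι ℂ}
  {P P' : ℕ → (Fin (d + 1) → ℂ) → Matrix ι ι ℂ} {T T' : Matrix ι ι ℂ} {z z' : ℂ}
  {L L' : Matrix ι ι ℂ} {Om f Om' f' : (Fin (d + 1) → ℂ) → ι → ℂ} {v0 : Fin d → ℂ}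
  {A : Matrix ι ι ℂ} {c : ℂ}

/-- `exp` intertwines -/
theorem EE_comm (hL : IsNilpotent L) (hL' : IsNilpotent L') (h : L' * A = A * L) (s : ℂ) :
    EE L' s * A = A * EE L s := by
  have hp : ∀ n : ℕ, L' ^ n * A = A * L ^ n := by
    intro n
    induction n with
    | zero => simp
    | succ n ih => rw [pow_succ, mul_assoc, h, ← mul_assoc, ih, mul_assoc, pow_succ]
  unfold EE
  rw [exp_eq hL le_rfl, exp_eq hL' le_rfl, Finset.sum_mul, Finset.mul_sum]
  refine Finset.sum_congr rfl fun n _ => ?_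
  rw [Matrix.smul_mul, Matrix.mul_smul, hp]

theorem Tr.nrmA (h : Tr a R a' R' S S' P P' L L' Om Om' v0 A c) {q : Fin (d + 1) → ℂ}
    (hq : q ∈ HB d a' R') (hq' : q + Fin.cons 0 v0 ∈ HB d a R) (u : ι → ℂ) :
    nrm (hm w S' P' q) (A *ᵥ u) = nrm (hm w S P (q + Fin.cons 0 v0)) u := by
  refine nrm_conj ?_ u
  have h1 : sgOp w P' q * A = A * sgOp w P (q + Fin.cons 0 v0) := by
    unfold sgOp
    rw [Finset.sum_mul, Finset.mul_sum]
    refine Finset.sum_congr rfl fun p _ => ?_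
    rw [Matrix.smul_mul, Matrix.mul_smul, h.P_eq q hq hq' p]
  unfold hm
  calc Aᴴ * (S' * sgOp w P' q) * A = Aᴴ * S' * (sgOp w P' q * A) := by noncomm_ring
    _ = (Aᴴ * S' * A) * sgOp w P (q + Fin.cons 0 v0) := by rw [h1]; noncomm_ring
    _ = _ := by rw [h.S_eq]

theorem cons_zero_mem {ρ R : ℝ} (hρ : 0 < ρ) {v : Fin d → ℂ} (hv : ∀ i, ‖v i‖ < R) :
    (Fin.cons 0 v : Fin (d + 1) → ℂ) ∈ PD d ρ R :=
  ⟨by simpa using hρ, fun i => by simpa using hv i⟩

theorem cons_cont (v : Fin d → ℂ) :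
    Continuous (fun u : ℂ => (Fin.cons u v : Fin (d + 1) → ℂ)) := by
  rw [continuous_pi_iff]
  intro i
  refine Fin.cases ?_ (fun j => ?_) i
  · simp only [Fin.cons_zero]
    exact continuous_id
  · simp only [Fin.cons_succ]
    exact continuous_const

/-- transition of `f` at `u = 0` -/
theorem Tr.f_eq (ht : Tr a R a' R' S S' P P' L L' Om Om' v0 A c)
    (h : LCh w e k a R S P T z L Om f) (h' : LCh w e k a' R' S' P' T' z' L' Om' f')
    (hv : ∀ i, ‖v0 i‖ < R) :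
    f' 0 = c • (A *ᵥ f (Fin.cons 0 v0)) := by
  have he0 : (e : ℂ) ≠ 0 := by exact_mod_cast h.he.ne'
  have heR : (0 : ℝ) < e := by exact_mod_cast h.he
  set F1 : ℂ → ι → ℂ := fun u => f' (Fin.cons u 0) with hF1
  set F2 : ℂ → ι → ℂ := fun u => c • (A *ᵥ f (Fin.cons u v0)) with hF2
  have c1 : ContinuousAt F1 0 := by
    have h1 : ContinuousAt f' ((fun u : ℂ => (Fin.cons u 0 : Fin (d + 1) → ℂ)) 0) :=
      (h'.hf.differentiableAt ((isOpen_PD d _ R').mem_nhds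
        (cons_zero_mem (Real.exp_pos _) fun i => by simpa using h'.hR))).continuousAt
    exact ContinuousAt.comp (f := fun u : ℂ => (Fin.cons u 0 : Fin (d + 1) → ℂ)) h1
      (cons_cont 0).continuousAt
  have c2 : ContinuousAt F2 0 := by
    have h1 : ContinuousAt f ((fun u : ℂ => (Fin.cons u v0 : Fin (d + 1) → ℂ)) 0) :=
      (h.hf.differentiableAt ((isOpen_PD d _ R).mem_nhds
        (cons_zero_mem (Real.exp_pos _) hv))).continuousAt
    have h2 : ContinuousAt (fun u : ℂ => f (Fin.cons u v0)) 0 :=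
      ContinuousAt.comp (f := fun u : ℂ => (Fin.cons u v0 : Fin (d + 1) → ℂ)) h1
        (cons_cont v0).continuousAt
    have h3 : Continuous fun x : ι → ℂ => c • (A *ᵥ x) :=
      (LinearMap.toContinuousLinearMap (c • Matrix.toLin' A)).continuous
    exact h3.continuousAt.comp h2
  have hev : F1 =ᶠ[𝓝[≠] 0] F2 := by
    set ρ : ℝ := min (Real.exp (a / e)) (Real.exp (a' / e)) with hρ
    have hρ0 : 0 < ρ := lt_min (Real.exp_pos _) (Real.exp_pos _)
    rw [Filter.EventuallyEq, eventually_nhdsWithin_iff]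
    filter_upwards [ball_mem_nhds (0 : ℂ) hρ0] with u hu hu0
    have hu0' : u ≠ 0 := hu0
    rw [mem_ball_zero_iff] at hu
    have hlt : ∀ b : ℝ, ‖u‖ < Real.exp (b / e) → ((e : ℂ) * Complex.log u).re < b := by
      intro b hb
      have h1 : ((e : ℂ) * Complex.log u).re = e * Real.log ‖u‖ := by
        simp [Complex.mul_re, Complex.log_re]
      rw [h1]
      have h2 : Real.log ‖u‖ < b / e := by
        rw [Real.log_lt_iff_lt_exp (norm_pos_iff.2 hu0')]
        exact hb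
      rw [lt_div_iff₀ heR] at h2
      linarith
    set q : Fin (d + 1) → ℂ := Fin.cons ((e : ℂ) * Complex.log u) 0 with hq
    have hqm : q ∈ HB d a' R' := ⟨hlt a' (hu.trans_le (min_le_right _ _)), fun i => by
      simpa [hq] using h'.hR⟩
    have hqa : q + Fin.cons 0 v0 = Fin.cons ((e : ℂ) * Complex.log u) v0 := by
      funext i
      refine Fin.cases ?_ (fun j => ?_) i
      · simp [hq]
      · simp [hq]
    have hqm' : q + Fin.cons 0 v0 ∈ HB d a R := by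
      rw [hqa]
      exact ⟨hlt a (hu.trans_le (min_le_left _ _)), fun i => by simpa using hv i⟩
    have hexp : Complex.exp ((e : ℂ) * Complex.log u / e) = u := by
      rw [mul_div_cancel_left₀ _ he0, Complex.exp_log hu0']
    have g1 := h'.f_Om q hqm
    have g2 := h.f_Om _ hqm'
    have q0 : q 0 = (e : ℂ) * Complex.log u := rfl
    have q1 : Fin.tail q = 0 := by rw [hq, Fin.tail_cons]
    rw [q0, q1, hexp, ht.Om_eq q hqm hqm'] at g1
    rw [hqa, Fin.cons_zero, hexp, Fin.tail_cons] at g2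
    simp only [hF1, hF2]
    rw [g1, g2, hqa, Matrix.mulVec_smul, Matrix.mulVec_mulVec, EE_comm h.nil h'.nil ht.L_eq,
      Matrix.mulVec_smul, Matrix.mulVec_mulVec, smul_comm]
  have l1 : Tendsto F1 (𝓝[≠] 0) (𝓝 (F1 0)) := c1.tendsto.mono_left nhdsWithin_le_nhds
  have l2 : Tendsto F2 (𝓝[≠] 0) (𝓝 (F2 0)) := c2.tendsto.mono_left nhdsWithin_le_nhds
  have l3 := tendsto_nhds_unique (l1.congr' hev) l2
  have h0 : (0 : Fin (d + 1) → ℂ) = Fin.cons 0 0 := by
    funext i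
    refine Fin.cases ?_ (fun j => ?_) i <;> simp
  rw [h0]
  exact l3

/-- **comparison of `Ω` at two points of the divisor** -/
theorem Tr.tau_le (ht : Tr a R a' R' S S' P P' L L' Om Om' v0 A c)
    (h : LCh w e k a R S P T z L Om f) (h' : LCh w e k a' R' S' P' T' z' L' Om' f')
    (hv : ∀ i, ‖v0 i‖ < R / 2) {t t' : ℝ} (hta : t ≤ a - 1 / 4) (hta' : t' ≤ a' - 1 / 4) :
    nrm (hm w S P (Fin.cons (t : ℂ) 0)) (Omb e L f t (Fin.cons 0 v0)) ≤
      cD ι e |t - t'| ^ 2 *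
        nrm (hm w S' P' (Fin.cons (t' : ℂ) 0)) (Omb e L' f' t' 0) := by
  set t0 : ℝ := min t t' with ht0
  have hR := h.hR
  have hR' := h'.hR
  have m1 : (Fin.cons (t : ℂ) 0 : Fin (d + 1) → ℂ) ∈ HQ d a R :=
    ⟨by simpa using hta, fun i => by simp; positivity⟩
  have m2 : (Fin.cons (t0 : ℂ) v0 : Fin (d + 1) → ℂ) ∈ HQ d a R :=
    ⟨by rw [Fin.cons_zero, Complex.ofReal_re]; exact (min_le_left t t').trans hta,
      fun i => by simpa using (hv i).le⟩
  have m3 : (Fin.cons (t0 : ℂ) 0 : Fin (d + 1) → ℂ) ∈ HQ d a' R' :=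
    ⟨by rw [Fin.cons_zero, Complex.ofReal_re]; exact (min_le_right t t').trans hta',
      fun i => by simp; positivity⟩
  have m4 : (Fin.cons (t' : ℂ) 0 : Fin (d + 1) → ℂ) ∈ HQ d a' R' :=
    ⟨by simpa using hta', fun i => by simp; positivity⟩
  have b1 := h.base_change m2 m1 (Omb e L f t0 (Fin.cons 0 v0))
  have b2 := h'.base_change m4 m3 (Omb e L' f' t' 0)
  have hadd : (Fin.cons (t0 : ℂ) 0 : Fin (d + 1) → ℂ) + Fin.cons 0 v0 = Fin.cons (t0 : ℂ) v0 := by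
    funext i
    refine Fin.cases ?_ (fun j => ?_) i <;> simp
  have e1 : EE L (((t : ℂ) - t0) / (tpi * e)) *ᵥ Omb e L f t0 (Fin.cons 0 v0) =
      Omb e L f t (Fin.cons 0 v0) := by
    unfold Omb
    rw [Matrix.mulVec_mulVec, ← EE_add h.nil]
    congr 2
    ring
  have e2 : EE L' (((t0 : ℂ) - t') / (tpi * e)) *ᵥ Omb e L' f' t' 0 = Omb e L' f' t0 0 := by
    unfold Omb
    rw [Matrix.mulVec_mulVec, ← EE_add h'.nil]
    congr 2
    ring
  have e3 : nrm (hm w S P (Fin.cons (t0 : ℂ) v0)) (Omb e L f t0 (Fin.cons 0 v0)) =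
      nrm (hm w S' P' (Fin.cons (t0 : ℂ) 0)) (Omb e L' f' t0 0) := by
    have g1 := ht.nrmA (w := w) (HQ_sub hR' m3) (by rw [hadd]; exact HQ_sub hR m2)
      (Omb e L f t0 (Fin.cons 0 v0))
    rw [hadd] at g1
    rw [← g1]
    have g2 := ht.f_eq h h' fun i => (hv i).trans (by linarith)
    have g3 : Omb e L' f' t0 0 = c • (A *ᵥ Omb e L f t0 (Fin.cons 0 v0)) := by
      unfold Omb
      rw [g2, Matrix.mulVec_smul, Matrix.mulVec_mulVec, EE_comm h.nil h'.nil ht.L_eq,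
        ← Matrix.mulVec_mulVec]
    rw [g3, nrm_smul, ht.hc, one_mul]
  simp only [Fin.cons_zero] at b1 b2
  rw [e1, e3] at b1
  rw [e2] at b2
  have n1 : ‖(t : ℂ) - t0‖ ≤ |t - t'| := by
    rw [← Complex.ofReal_sub, Complex.norm_real, Real.norm_eq_abs]
    rcases le_total t t' with h1 | h1
    · rw [ht0, min_eq_left h1, sub_self, abs_zero]
      exact abs_nonneg _
    · rw [ht0, min_eq_right h1]
  have n2 : ‖(t0 : ℂ) - t'‖ ≤ |t - t'| := by
    rw [← Complex.ofReal_sub, Complex.norm_real, Real.norm_eq_abs]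
    rcases le_total t t' with h1 | h1
    · rw [ht0, min_eq_left h1]
    · rw [ht0, min_eq_right h1, sub_self, abs_zero]
      exact abs_nonneg _
  have c1 := cD_mono (ι := ι) e n1
  have c2 := cD_mono (ι := ι) e n2
  have c0 := cD_pos (ι := ι) e |t - t'|
  have c3 := nrm_nonneg (hm w S' P' (Fin.cons (t' : ℂ) 0)) (Omb e L' f' t' 0)
  have c4 := nrm_nonneg (hm w S' P' (Fin.cons (t0 : ℂ) 0)) (Omb e L' f' t0 0)
  calc _ ≤ _ := b1
    _ ≤ cD ι e |t - t'| * nrm (hm w S' P' (Fin.cons (t0 : ℂ) 0)) (Omb e L' f' t0 0) := by gcongr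
    _ ≤ cD ι e |t - t'| * (cD ι e |t - t'| *
        nrm (hm w S' P' (Fin.cons (t' : ℂ) 0)) (Omb e L' f' t' 0)) := by
        gcongr
        exact b2.trans (by gcongr)
    _ = _ := by ring

/-! ### the coefficients of the limit metric -/

/-- Cauchy-Schwarz for the indefinite form -/
theorem norm_sf_le {X : Type*} [NormedAddCommGroup X] [NormedSpace ℂ X] {U : Set X}
    {P : ℕ → X → Matrix ι ι ℂ} (h : VHS w U S P) {x : X} (hx : x ∈ U) (u v : ι → ℂ) :
    ‖sf S u v‖ ≤ nrm (hm w S P x) u * nrm (hm w S P x) v := by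
  have h1 : S = hm w S P x * sgOp w P x := h.S_eq hx
  have h2 : sf S u v = star u ⬝ᵥ hm w S P x *ᵥ (sgOp w P x *ᵥ v) := by
    unfold sf
    conv_lhs => rw [h1]
    rw [Matrix.mulVec_mulVec]
  have h3 : nrm (hm w S P x) (sgOp w P x *ᵥ v) = nrm (hm w S P x) v := by
    refine nrm_conj ?_ v
    unfold hm
    calc (sgOp w P x)ᴴ * (S * sgOp w P x) * sgOp w P x
        = ((sgOp w P x)ᴴ * S) * (sgOp w P x * sgOp w P x) := by noncomm_ring
      _ = _ := by rw [h.C_mul_C hx, h.adjC hx, mul_one]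
  rw [h2, ← h3]
  unfold nrm
  rw [← Real.sqrt_mul (hn_nonneg (h.hmPos hx) u)]
  exact Real.le_sqrt_of_sq_le (norm_dot_K_le (h.hmPos hx) u _)

theorem EE_skew {L : Matrix ι ι ℂ} (hL : IsNilpotent L) (hs : Lᴴ * S = -(S * L)) (s : ℂ) :
    (EE L s)ᴴ * S = S * EE L (-(star s)) := by
  have hp : ∀ n : ℕ, (L ^ n)ᴴ * S = ((-1 : ℂ) ^ n) • (S * L ^ n) := by
    intro n
    induction n with
    | zero => simp
    | succ n ih =>
      rw [pow_succ, Matrix.conjTranspose_mul, mul_assoc, ih, Matrix.mul_smul, ← mul_assoc, hs,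
        neg_mul, smul_neg, mul_assoc, ← pow_succ', pow_succ (-1 : ℂ), mul_smul, ← pow_succ]
      simp
  unfold EE
  rw [exp_eq hL le_rfl, exp_eq hL le_rfl, Matrix.conjTranspose_sum, Finset.sum_mul,
    Finset.mul_sum]
  refine Finset.sum_congr rfl fun n _ => ?_
  rw [Matrix.conjTranspose_smul, Matrix.smul_mul, hp, smul_smul, Matrix.mul_smul]
  congr 1
  rw [neg_pow, star_div₀, star_pow, star_natCast]
  ring

/-- the top coefficient does not change under `exp(sL)` -/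
theorem sf_EE {L : Matrix ι ι ℂ} (hL : IsNilpotent L) (hs : Lᴴ * S = -(S * L)) {u : ι → ℂ}
    {κ : ℕ} (hvan : ∀ j, κ < j → sf S u (L ^ j *ᵥ u) = 0) (s : ℂ) :
    sf S (EE L s *ᵥ u) (L ^ κ *ᵥ (EE L s *ᵥ u)) = sf S u (L ^ κ *ᵥ u) := by
  have h1 : sf S (EE L s *ᵥ u) (L ^ κ *ᵥ (EE L s *ᵥ u)) =
      sf S u ((L ^ κ * EE L (s - star s)) *ᵥ u) := by
    unfold sf
    rw [Matrix.star_mulVec, ← Matrix.dotProduct_mulVec, Matrix.mulVec_mulVec,
      Matrix.mulVec_mulVec, Matrix.mulVec_mulVec, Matrix.mulVec_mulVec, EE_skew hL hs]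
    have hcomm : EE L (-(star s)) * L ^ κ = L ^ κ * EE L (-(star s)) := by
      unfold EE
      rw [exp_eq hL le_rfl, Finset.sum_mul, Finset.mul_sum]
      refine Finset.sum_congr rfl fun n _ => ?_
      rw [Matrix.smul_mul, Matrix.mul_smul, ← pow_add, ← pow_add, add_comm]
    have h2 : S * EE L (-(star s)) * L ^ κ * EE L s = S * (L ^ κ * EE L (s - star s)) := by
      rw [mul_assoc S, hcomm, mul_assoc S, mul_assoc (L ^ κ), ← EE_add hL]
      congr 3
      ring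
    rw [h2]
  rw [h1]
  unfold EE
  rw [exp_eq hL (n := Fintype.card ι + 1) (by omega), Finset.sum_range_succ', mul_add,
    Finset.mul_sum, Matrix.add_mulVec, Matrix.sum_mulVec]
  have h3 : ∀ x y : ι → ℂ, sf S u (x + y) = sf S u x + sf S u y := by
    intro x y
    unfold sf
    rw [Matrix.mulVec_add, dotProduct_add]
  have h4 : ∀ (t : Finset ℕ) (x : ℕ → ι → ℂ), sf S u (∑ i ∈ t, x i) = ∑ i ∈ t, sf S u (x i) := by
    intro t x
    unfold sf
    rw [Matrix.mulVec_sum, dotProduct_sum]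
  rw [h3, h4, Finset.sum_eq_zero, zero_add]
  · simp
  · intro i _
    have h5 : ∀ (c : ℂ) (x : ι → ℂ), sf S u (c • x) = c * sf S u x := by
      intro c x
      unfold sf
      rw [Matrix.mulVec_smul, dotProduct_smul, smul_eq_mul]
    rw [Matrix.mul_smul, Matrix.smul_mulVec, h5, ← pow_add, hvan _ (by omega), mul_zero]

/-- **the inequality behind `tau_le`** -/
theorem tau_core (h : LCh w e k a R S P T z L Om f) {b : Fin (d + 1) → ℂ} (hb : b ∈ HQ d a R)
    {q : Fin (d + 1) → ℂ} {κ : ℕ} (hvan : ∀ j, κ < j → sf S (f q) (L ^ j *ᵥ f q) = 0) :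
    ‖sf S (f q) (L ^ κ *ᵥ f q)‖ ≤ cL ι e ^ κ * nrm (hm w S P b) (Omb e L f (b 0) q) ^ 2 := by
  have h1 := sf_EE h.nil h.skew hvan (b 0 / (tpi * e))
  have h2 := norm_sf_le h.vhs (HQ_sub h.hR hb) (Omb e L f (b 0) q)
    (L ^ κ *ᵥ (Omb e L f (b 0) q))
  unfold Omb at h2 ⊢
  rw [h1] at h2
  have h3 := (h.ob_L hb).pow (cL_nonneg ι e) κ (EE L (b 0 / (tpi * e)) *ᵥ f q)
  calc _ ≤ _ := h2
    _ ≤ nrm (hm w S P b) (EE L (b 0 / (tpi * e)) *ᵥ f q) * (cL ι e ^ κ *
        nrm (hm w S P b) (EE L (b 0 / (tpi * e)) *ᵥ f q)) :=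
        mul_le_mul_of_nonneg_left h3 (nrm_nonneg _ _)
    _ = _ := by ring

end Crest.Agent.R276.GrG_217
end

-- ▼ part R276/GrH_217

/-!
# R276, leaf COUNT-GR, part H (helper217)

The fields `Lam`, `lam` of `Full` (and the inequality for `tau_le`) from a family of normal forms.
-/

set_option autoImplicit false
set_option linter.unusedSectionVars false

open Set Filter Topology Matrix Metric MeasureTheory
open scoped ComplexOrder ContDiff

namespace Crest.Agent.R276.GrH_217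

open Crest.Agent.R271.Ho51
open Crest.Agent.R276.BndA_563 Crest.Agent.R276.VCalc_442 Crest.Agent.R276.GrA_217
open Crest.Agent.R276.GrB_217 Crest.Agent.R276.GrC_217 Crest.Agent.R276.GrC_217.LCh
open Crest.Agent.R276.GrD_217 Crest.Agent.R276.GrE_217 Crest.Agent.R276.GrG_217
open Crest.Agent.R276.CntDefs_857 Crest.Agent.R276.GrF_217

variable {ι : Type*} [Fintype ι] [DecidableEq ι] {d : ℕ}
variable {M E : Type*} [TopologicalSpace M] [RDom (d + 1) M] [MeasurableSpace M]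
    {μ : Measure M} [TopologicalSpace E] [RDom d E]

/-- family of normal forms along the divisor; `e^{-ψ₀} = |Om|²` -/
structure LFam (ι : Type*) [Fintype ι] [DecidableEq ι] (D : DChart M E μ) (w e : ℕ) (k : ℤ)
    (ψ₀ : M → ℝ) where
  S : E → Matrix ι ι ℂ
  P : E → ℕ → (Fin (d + 1) → ℂ) → Matrix ι ι ℂ
  T : E → Matrix ι ι ℂ
  z : E → ℂ
  L : E → Matrix ι ι ℂ
  Om : E → (Fin (d + 1) → ℂ) → ι → ℂ
  f : E → (Fin (d + 1) → ℂ) → ι → ℂ
  lch : ∀ y, LCh w e k (Real.log (D.r y)) (D.r y) (S y) (P y) (T y) (z y) (L y) (Om y) (f y)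
  f0 : ∀ y, f y 0 ≠ 0
  psi : ∀ y, ∀ q ∈ HB d (Real.log (D.r y)) (D.r y),
    Real.exp (-ψ₀ (D.σ y (Fin.cons (Complex.exp (q 0)) (Fin.tail q)))) =
      hn (hm w (S y) (P y) q) (Om y q)
  tr : ∀ (y : E) (g : OpenPartialHomeomorph E (Fin d → ℂ)), IsCh g → y ∈ g.source →
    g.target = ball (cp y) (D.r y) → ∀ y' ∈ g.source, ‖(cp y' : Fin d → ℂ) - cp y‖ < D.r y / 2 →
    ∃ (A : Matrix ι ι ℂ) (c : ℂ), Tr (Real.log (D.r y)) (D.r y) (Real.log (D.r y')) (D.r y')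
      (S y) (S y') (P y) (P y') (L y) (L y') (Om y) (Om y') (cp y' - cp y) A c

/-- the base point `(log (r/2), 0)` -/
noncomputable def tt (D : DChart M E μ) (y : E) : ℝ := Real.log (D.r y / 2)

theorem r_pos (D : DChart M E μ) (y : E) : 0 < D.r y :=
  radf_pos D.hc0 (D.cov.hne y)

theorem tt_eq (D : DChart M E μ) (y : E) : tt D y = Real.log (D.r y) - Real.log 2 := by
  unfold tt
  rw [Real.log_div (r_pos D y).ne' (by norm_num)]

theorem log_two_gt : (1 : ℝ) / 4 < Real.log 2 := by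
  have := Real.log_two_gt_d9
  linarith

theorem log_two_lt : Real.log 2 < 1 := by
  have := Real.log_two_lt_d9
  linarith

theorem tt_le (D : DChart M E μ) (y : E) : tt D y ≤ Real.log (D.r y) - 1 / 4 := by
  rw [tt_eq]
  linarith [log_two_gt]

theorem bb_mem (D : DChart M E μ) (y : E) :
    (Fin.cons ((tt D y : ℝ) : ℂ) 0 : Fin (d + 1) → ℂ) ∈ HQ d (Real.log (D.r y)) (D.r y) := by
  have := r_pos D y
  exact ⟨by simpa using tt_le D y, fun i => by simp; positivity⟩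

namespace LFam

variable {D : DChart M E μ} {w e : ℕ} {k : ℤ} {ψ₀ : M → ℝ}

/-- the norm of `Ω(0)` at the base point -/
noncomputable def nu (F : LFam ι D w e k ψ₀) (y : E) : ℝ :=
  nrm (hm w (F.S y) (F.P y) (Fin.cons ((tt D y : ℝ) : ℂ) 0)) (Omb e (F.L y) (F.f y) (tt D y) 0)

theorem nu_pos (F : LFam ι D w e k ψ₀) (y : E) : 0 < F.nu y := by
  unfold nu nrm
  refine Real.sqrt_pos.2 (hn_pos ((F.lch y).vhs.hmPos (HQ_sub (r_pos D y) (bb_mem D y))) ?_)
  intro h0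
  apply F.f0 y
  have h1 : EE (F.L y) (-((tt D y : ℂ) / (tpi * e))) *ᵥ Omb e (F.L y) (F.f y) (tt D y) 0 =
      F.f y 0 := by
    unfold Omb
    rw [Matrix.mulVec_mulVec, EE_neg' (F.lch y).nil, Matrix.one_mulVec]
  rw [← h1, h0, Matrix.mulVec_zero]

/-- the weight `τ` of `Full` -/
noncomputable def tau (F : LFam ι D w e k ψ₀) (n : ℕ) (y : E) : ℝ :=
  -(2 * ((e * n : ℕ) : ℝ) * Real.log (F.nu y))

theorem exp_tau (F : LFam ι D w e k ψ₀) (n : ℕ) (y : E) :
    Real.exp (-F.tau n y) = (F.nu y ^ (e * n)) ^ 2 := by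
  unfold tau
  rw [neg_neg]
  have h1 : 2 * ((e * n : ℕ) : ℝ) * Real.log (F.nu y) =
      ((e * n * 2 : ℕ) : ℝ) * Real.log (F.nu y) := by push_cast; ring
  rw [h1, Real.exp_nat_mul, Real.exp_log (F.nu_pos y), pow_mul]

/-- the constant for `Lam` -/
noncomputable def CL (ι : Type*) [Fintype ι] [DecidableEq ι] (e n : ℕ) : ℝ :=
  ((cD ι e (1 + Real.pi * e)) ^ (e * n)) ^ 2

theorem ball_sub_PD {r : ℝ} (hr : 0 < r) :
    ball (0 : Fin (d + 1) → ℂ) r ⊆ PD d (Real.exp (Real.log r)) r := by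
  intro q hq
  rw [mem_ball_zero_iff, pi_norm_lt_iff hr] at hq
  rw [Real.exp_log hr]
  exact ⟨hq 0, fun i => hq i.succ⟩

theorem cons_zero_zero : (Fin.cons 0 0 : Fin (d + 1) → ℂ) = 0 := by
  funext i
  refine Fin.cases ?_ (fun j => ?_) i <;> simp

/-- both functions of the chart at `y` -/
theorem exists_fun (F : LFam ι D w e k ψ₀) (n : ℕ) (y : E) :
    ∃ (l : (Fin d → ℂ) → ℂ) (Λ : (Fin (d + 1) → ℂ) → ℂ),
      DifferentiableOn ℂ Λ (ball 0 (D.r y)) ∧
      (∀ q ∈ Sh d (D.r y), ‖Λ q‖ ^ 2 ≤ CL ι e n *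
        Real.exp (-D.psI (fun x => ((e * n : ℕ) : ℝ) * ψ₀ x) (n * k) y q)) ∧
      Real.exp (-F.tau n y) = ‖Λ 0‖ ^ 2 ∧
      DifferentiableOn ℂ l (ball 0 (D.r y)) ∧
      (∀ v, ‖l v‖ ≤ nrm (hm w (F.S y) (F.P y) (Fin.cons ((tt D y : ℝ) : ℂ) 0))
        (Omb e (F.L y) (F.f y) (tt D y) (Fin.cons 0 v)) ^ (e * n)) ∧
      Real.exp (-F.tau n y) = ‖l 0‖ ^ 2 := by
  have hr := r_pos D y
  have h := F.lch y
  obtain ⟨l, Λ, hl1, hl2, hΛ1, hΛ2, hΛ3⟩ := exists_Lam h (bb_mem D y)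
  rw [Fin.cons_zero] at hl2 hΛ3
  simp only [Fin.cons_zero] at hΛ2
  have hΛ0 : Λ 0 = l (Omb e (F.L y) (F.f y) (tt D y) 0) ^ e := by
    have := hΛ2 0
    rwa [cons_zero_zero] at this
  refine ⟨fun v => (l (Omb e (F.L y) (F.f y) (tt D y) (Fin.cons 0 v)) ^ e) ^ n,
    fun q => Λ q ^ n, (hΛ1.mono (ball_sub_PD hr)).pow n, ?_, ?_, ?_, ?_, ?_⟩
  · intro q hq
    obtain ⟨hq1, hq2, hq3⟩ := hq
    have hq0 : q 0 ≠ 0 := by
      intro h0
      rw [h0, norm_zero] at hq1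
      linarith
    have hn0 : 0 < ‖q 0‖ := norm_pos_iff.2 hq0
    set p : Fin (d + 1) → ℂ := Fin.cons (Complex.log (q 0)) (Fin.tail q) with hp
    have hre : (p 0).re = Real.log ‖q 0‖ := by rw [hp, Fin.cons_zero, Complex.log_re]
    have hup : Real.log ‖q 0‖ ≤ Real.log (D.r y) - 1 / 4 := by
      have h1 : Real.log ‖q 0‖ ≤ Real.log (3 * D.r y / 4) := Real.log_le_log hn0 hq2.le
      have h2 : 3 * D.r y / 4 ≤ D.r y * Real.exp (-(1 / 4)) := by
        have := Real.add_one_le_exp (-(1 / 4 : ℝ))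
        nlinarith
      have h3 := Real.log_le_log (by positivity) h2
      rw [Real.log_mul hr.ne' (Real.exp_pos _).ne', Real.log_exp] at h3
      linarith
    have hpQ : p ∈ HQ d (Real.log (D.r y)) (D.r y) :=
      ⟨by rw [hre]; exact hup, fun i => (hq3 i).le⟩
    have hpq : (Fin.cons (Complex.exp (p 0)) (Fin.tail p) : Fin (d + 1) → ℂ) = q := by
      rw [hp, Fin.cons_zero, Complex.exp_log hq0, Fin.tail_cons, Fin.cons_self_tail]
    have g1 := hΛ3 p hpQ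
    have g2 := F.psi y p (HQ_sub hr hpQ)
    rw [hpq] at g1 g2
    rw [hre, Complex.ofReal_re, Complex.ofReal_im, abs_zero, zero_add] at g1
    have hab : |tt D y - Real.log ‖q 0‖| ≤ 1 := by
      have h1 : Real.log (D.r y / 4) ≤ Real.log ‖q 0‖ := Real.log_le_log (by positivity) hq1.le
      have h2 : Real.log ‖q 0‖ ≤ Real.log (D.r y) := by linarith
      have h3 : Real.log (D.r y / 4) = Real.log (D.r y) - 2 * Real.log 2 := by
        rw [Real.log_div hr.ne' (by norm_num)]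
        have : (4 : ℝ) = 2 ^ 2 := by norm_num
        rw [this, Real.log_pow]
        norm_num
      rw [tt_eq, abs_le]
      have := log_two_lt
      constructor <;> linarith
    have g3 : ‖Λ q‖ ≤ Real.exp (-(k * Real.log ‖q 0‖)) * cD ι e (1 + Real.pi * e) ^ e *
        nrm (hm w (F.S y) (F.P y) p) (F.Om y p) ^ e := by
      refine g1.trans ?_
      have c1 := cD_mono (ι := ι) e (add_le_add_left hab (Real.pi * e))
      have c2 := cD_pos (ι := ι) e (|tt D y - Real.log ‖q 0‖| + Real.pi * e)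
      have c3 := nrm_nonneg (hm w (F.S y) (F.P y) p) (F.Om y p)
      gcongr
    have e1 : Real.exp (-D.psI (fun x => ((e * n : ℕ) : ℝ) * ψ₀ x) (n * k) y q) =
        (Real.exp (-(k * Real.log ‖q 0‖)) * nrm (hm w (F.S y) (F.P y) p) (F.Om y p) ^ e) ^
          (n * 2) := by
      unfold DChart.psI
      have a1 : -(((e * n : ℕ) : ℝ) * ψ₀ (D.σ y q) + (((n : ℤ) * k : ℤ) : ℝ) *
          Real.log (‖q 0‖ ^ 2)) = ((e * n : ℕ) : ℝ) * (-ψ₀ (D.σ y q)) +
          ((n * 2 : ℕ) : ℝ) * (-(k * Real.log ‖q 0‖)) := by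
        rw [Real.log_pow]
        push_cast
        ring
      rw [a1, Real.exp_add, Real.exp_nat_mul, Real.exp_nat_mul, g2,
        ← nrm_sq (h.vhs.hmPos (HQ_sub hr hpQ)), mul_pow]
      ring
    rw [e1, norm_pow, ← pow_mul]
    calc ‖Λ q‖ ^ (n * 2) ≤ (Real.exp (-(k * Real.log ‖q 0‖)) * cD ι e (1 + Real.pi * e) ^ e *
        nrm (hm w (F.S y) (F.P y) p) (F.Om y p) ^ e) ^ (n * 2) := by gcongr
      _ = _ := by
        unfold CL
        ring
  · rw [exp_tau]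
    simp only [hΛ0, norm_pow]
    rw [hl2]
    unfold nu
    rw [← pow_mul _ e n]
  · refine DifferentiableOn.pow (DifferentiableOn.pow ?_ e) n
    have h1 : DifferentiableOn ℂ (fun v : Fin d → ℂ => (Fin.cons 0 v : Fin (d + 1) → ℂ))
        (ball 0 (D.r y)) := fun v _ =>
      (differentiableAt_cons (differentiableAt_const _) differentiableAt_id).differentiableWithinAt
    refine (lin_diff l (Omb_diff h (tt D y))).comp h1 ?_
    intro v hv
    rw [mem_ball_zero_iff, pi_norm_lt_iff hr] at hv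
    exact cons_zero_mem (Real.exp_pos _) hv
  · intro v
    rw [norm_pow, norm_pow, ← pow_mul]
    exact pow_le_pow_left₀ (norm_nonneg _) (hl1 _) _
  · rw [exp_tau]
    simp only [cons_zero_zero, norm_pow]
    rw [hl2]
    unfold nu
    rw [← pow_mul _ e n]

/-- **`Full.Lam`** -/
theorem Lam (F : LFam ι D w e k ψ₀) (n : ℕ) (y : E) :
    ∃ Λ : (Fin (d + 1) → ℂ) → ℂ, DifferentiableOn ℂ Λ (ball 0 (D.r y)) ∧
      (∀ q ∈ Sh d (D.r y), ‖Λ q‖ ^ 2 ≤ CL ι e n *
        Real.exp (-D.psI (fun x => ((e * n : ℕ) : ℝ) * ψ₀ x) (n * k) y q)) ∧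
      Real.exp (-F.tau n y) ≤ 1 * ‖Λ 0‖ ^ 2 := by
  obtain ⟨l, Λ, h1, h2, h3, -⟩ := F.exists_fun n y
  exact ⟨Λ, h1, h2, by rw [one_mul]; exact h3.le⟩

/-- bound of the logarithm of the ratio of the radii -/
noncomputable def B (D : DChart M E μ) : ℝ :=
  D.κ * ((D.cov.h.totalDegree + 1) * Real.log 2)

theorem tt_cmp {y y' : E} (h : ‖(cp y' : Fin d → ℂ) - cp y‖ < D.r y / 2) :
    |tt D y - tt D y'| ≤ B D := by
  have h1 := log_radf_cmp D.cov.h D.hc0 D.hc1 D.κ (z := cp y) (z' := cp y') (D.hball y)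
    (D.cov.hne y) h
  rw [tt_eq, tt_eq, abs_sub_comm]
  have : Real.log (D.r y') - Real.log 2 - (Real.log (D.r y) - Real.log 2) =
      Real.log (D.r y') - Real.log (D.r y) := by ring
  rw [this]
  exact h1

/-- the constant for `lam` -/
noncomputable def Cl (ι : Type*) [Fintype ι] [DecidableEq ι] (D : DChart M E μ) (e n : ℕ) : ℝ :=
  ((cD ι e (B D) ^ 2) ^ (e * n)) ^ 2

/-- **`Full.lam`** -/
theorem lam (F : LFam ι D w e k ψ₀) (n : ℕ) (y : E) :
    ∃ l : (Fin d → ℂ) → ℂ, DifferentiableOn ℂ l (ball 0 (D.r y)) ∧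
      (∀ g : OpenPartialHomeomorph E (Fin d → ℂ), IsCh g → y ∈ g.source →
        g.target = ball (cp y) (D.r y) → ∀ y' ∈ g.source,
        ‖(cp y' : Fin d → ℂ) - cp y‖ < D.r y / 2 →
        ‖l (cp y' - cp y)‖ ^ 2 ≤ Cl ι D e n * Real.exp (-F.tau n y')) ∧
      Real.exp (-F.tau n y) ≤ 1 * ‖l 0‖ ^ 2 := by
  obtain ⟨l, Λ, -, -, -, h4, h5, h6⟩ := F.exists_fun n y
  refine ⟨l, h4, ?_, by rw [one_mul]; exact h6.le⟩
  intro g hg hy hgt y' hy' hd
  obtain ⟨A, c, ht⟩ := F.tr y g hg hy hgt y' hy' hd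
  have hr := r_pos D y
  have hv : ∀ i, ‖((cp y' : Fin d → ℂ) - cp y) i‖ < D.r y / 2 :=
    (pi_norm_lt_iff (by positivity)).1 hd
  have h7 := ht.tau_le (F.lch y) (F.lch y') hv (tt_le D y) (tt_le D y')
  have h8 := cD_mono (ι := ι) e (tt_cmp (D := D) hd)
  have h9 := cD_pos (ι := ι) e |tt D y - tt D y'|
  have h10 : nrm (hm w (F.S y) (F.P y) (Fin.cons ((tt D y : ℝ) : ℂ) 0))
      (Omb e (F.L y) (F.f y) (tt D y) (Fin.cons 0 (cp y' - cp y))) ≤
      cD ι e (B D) ^ 2 * F.nu y' := by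
    refine h7.trans ?_
    have := (F.nu_pos y').le
    unfold nu at this ⊢
    gcongr
  rw [exp_tau]
  calc ‖l (cp y' - cp y)‖ ^ 2 ≤ ((cD ι e (B D) ^ 2 * F.nu y') ^ (e * n)) ^ 2 := by
        refine pow_le_pow_left₀ (norm_nonneg _) ((h5 _).trans ?_) 2
        exact pow_le_pow_left₀ (nrm_nonneg _ _) h10 _
    _ = _ := by
        unfold Cl
        ring

/-- **the inequality behind `Full.tau_le`** -/
theorem tau_le (F : LFam ι D w e k ψ₀) (n : ℕ) (y : E) {κ : ℕ}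
    (hvan : ∀ j, κ < j → sf (F.S y) (F.f y 0) (F.L y ^ j *ᵥ F.f y 0) = 0)
    (hpos : sf (F.S y) (F.f y 0) (F.L y ^ κ *ᵥ F.f y 0) ≠ 0) :
    F.tau n y ≤ -(((e * n : ℕ) : ℝ) *
      Real.log ‖sf (F.S y) (F.f y 0) (F.L y ^ κ *ᵥ F.f y 0)‖) +
      ((e * n : ℕ) : ℝ) * (κ * Real.log (cL ι e + 1)) := by
  have h1 := tau_core (F.lch y) (bb_mem D y) (q := 0) hvan
  have hc := cL_nonneg ι e
  have hν := F.nu_pos y
  have h2 : ‖sf (F.S y) (F.f y 0) (F.L y ^ κ *ᵥ F.f y 0)‖ ≤ (cL ι e + 1) ^ κ * F.nu y ^ 2 := by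
    refine h1.trans ?_
    unfold nu
    rw [Fin.cons_zero]
    gcongr
    linarith
  have h3 := Real.log_le_log (norm_pos_iff.2 hpos) h2
  rw [Real.log_mul (by positivity) (by positivity), Real.log_pow, Real.log_pow] at h3
  unfold tau
  push_cast at h3 ⊢
  have h4 : (0 : ℝ) ≤ e * n := by positivity
  nlinarith [mul_le_mul_of_nonneg_left h3 h4]

end LFam

end Crest.Agent.R276.GrH_217
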