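import Crest.Agent.R276.BdyE_767
import Crest.Agent.R276.BdNf5_651
import Crest.Agent.R276.GrC_217
import Crest.Agent.R276.LftDefs_327
import Crest.Agent.R276.GrH_217

-- ▼ part R276/Twist_767
section

/-!
# R276, leaf TWIST (helper767): the normal form of a twisted periodic holomorphic section of
moderate growth on a half space
-/

set_option autoImplicit false
set_option linter.unusedSectionVars false

open Set Filter Topology Metric Complex MeasureTheory
open scoped Real ContDiff ComplexConjugate Nat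

noncomputable section

namespace Crest.Agent.R276.Twist_767

open Div_767 Bdy_767

variable {V : Type*} [NormedAddCommGroup V] [NormedSpace ℂ V] [CompleteSpace V]
variable {E : Type*} [NormedAddCommGroup E] [NormedSpace ℂ E] [FiniteDimensional ℂ E]

/-! ### Riemann extension with parameters -/

/-- **Riemann extension** in the variable `u`, holomorphic in the parameters; the bound is only
needed for each value of the parameters separately. -/
theorem exists_ext {h : ℂ × E → V} {R : ℝ} {W : Set E} (hR : 0 < R) (hW : IsOpen W)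
    (hh : AnalyticOnNhd ℂ h ((ball 0 R \ {0}) ×ˢ W))
    (hb : ∀ y ∈ W, ∃ C : ℝ, ∀ᶠ u in 𝓝[≠] (0 : ℂ), ‖h (u, y)‖ ≤ C) :
    ∃ g : ℂ × E → V, AnalyticOnNhd ℂ g (ball 0 R ×ˢ W) ∧
      ∀ u ∈ ball (0 : ℂ) R, u ≠ 0 → ∀ y ∈ W, g (u, y) = h (u, y) := by
  classical
  set ρ : ℝ := R / 2 with hρ
  have hρ0 : 0 < ρ := by positivity
  have hρR : ρ < R := by rw [hρ]; linarith
  -- the Cauchy integral
  set g0 : ℂ × E → V := fun p => (2 * π * I : ℂ)⁻¹ •
    ∫ θ in (0 : ℝ)..2 * π, (circleMap 0 ρ θ * I) •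
      ((circleMap 0 ρ θ - p.1)⁻¹ • h (circleMap 0 ρ θ, p.2)) with hg0
  have hcm : ∀ θ : ℝ, circleMap 0 ρ θ ∈ ball (0 : ℂ) R \ {0} := by
    intro θ
    refine ⟨?_, ?_⟩
    · rw [mem_ball_zero_iff, norm_circleMap_zero, abs_of_pos hρ0]
      exact hρR
    · exact circleMap_ne_center hρ0.ne'
  have hne : ∀ θ : ℝ, ∀ u ∈ ball (0 : ℂ) ρ, circleMap 0 ρ θ - u ≠ 0 := by
    intro θ u hu h0
    rw [sub_eq_zero] at h0
    rw [mem_ball_zero_iff, ← h0, norm_circleMap_zero, abs_of_pos hρ0] at hu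
    exact lt_irrefl _ hu
  have hg0a : AnalyticOnNhd ℂ g0 (ball 0 ρ ×ˢ W) := by
    refine analyticOnNhd_const.smul ?_
    refine R266.SCV.analyticOnNhd_intervalIntegral
      (f := fun q : (ℂ × E) × ℝ => (circleMap 0 ρ q.2 * I) •
        ((circleMap 0 ρ q.2 - q.1.1)⁻¹ • h (circleMap 0 ρ q.2, q.1.2))) (isOpen_ball.prod hW) ?_ ?_
    · have h1 : ContinuousOn (fun q : (ℂ × E) × ℝ => h (circleMap 0 ρ q.2, q.1.2))
          ((ball 0 ρ ×ˢ W) ×ˢ uIcc 0 (2 * π)) := by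
        refine hh.continuousOn.comp ?_ ?_
        · exact Continuous.continuousOn (by
            have := continuous_circleMap (0 : ℂ) ρ
            fun_prop)
        · rintro ⟨⟨u, y⟩, θ⟩ ⟨⟨_, hy⟩, _⟩
          exact ⟨hcm θ, hy⟩
      have h2 : ContinuousOn (fun q : (ℂ × E) × ℝ => (circleMap 0 ρ q.2 - q.1.1)⁻¹)
          ((ball 0 ρ ×ˢ W) ×ˢ uIcc 0 (2 * π)) := by
        refine ContinuousOn.inv₀ ?_ ?_
        · exact Continuous.continuousOn (by
            have := continuous_circleMap (0 : ℂ) ρ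
            fun_prop)
        · rintro ⟨⟨u, y⟩, θ⟩ ⟨⟨hu, _⟩, _⟩
          exact hne θ u hu
      have h3 : ContinuousOn (fun q : (ℂ × E) × ℝ => circleMap 0 ρ q.2 * I)
          ((ball 0 ρ ×ˢ W) ×ˢ uIcc 0 (2 * π)) :=
        Continuous.continuousOn (by
            have := continuous_circleMap (0 : ℂ) ρ
            fun_prop)
      exact h3.smul (h2.smul h1)
    · intro θ _
      have h1 : DifferentiableOn ℂ (fun x : ℂ × E => (circleMap 0 ρ θ - x.1)⁻¹)
          (ball 0 ρ ×ˢ W) := by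
        refine DifferentiableOn.inv (by fun_prop) ?_
        rintro ⟨u, y⟩ ⟨hu, _⟩
        exact hne θ u hu
      have h2 : DifferentiableOn ℂ (fun x : ℂ × E => h (circleMap 0 ρ θ, x.2))
          (ball 0 ρ ×ˢ W) := by
        refine hh.differentiableOn.comp (by fun_prop) ?_
        rintro ⟨u, y⟩ ⟨_, hy⟩
        exact ⟨hcm θ, hy⟩
      exact (h1.smul h2).const_smul (circleMap 0 ρ θ * I)
  -- pointwise identity
  have key : ∀ y ∈ W, ∀ u ∈ ball (0 : ℂ) ρ, u ≠ 0 → g0 (u, y) = h (u, y) := by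
    intro y hy u hu hu0
    obtain ⟨C, hC⟩ := hb y hy
    set k : ℂ → V := fun z => h (z, y) with hk
    have hkd : ∀ z ∈ ball (0 : ℂ) R \ {0}, DifferentiableAt ℂ k z := by
      intro z hz
      have h1 : DifferentiableAt ℂ h (z, y) := (hh (z, y) ⟨hz, hy⟩).differentiableAt
      exact h1.comp z (f := fun z : ℂ => (z, y)) (by fun_prop)
    obtain ⟨L, hL⟩ : ∃ L, Tendsto k (𝓝[≠] 0) (𝓝 L) := by
      refine ⟨_, tendsto_limUnder_of_differentiable_on_punctured_nhds_of_bounded_under ?_ ?_⟩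
      · rw [eventually_nhdsWithin_iff]
        filter_upwards [isOpen_ball.mem_nhds (mem_ball_self hR)] with z hz hz0
        exact hkd z ⟨hz, hz0⟩
      · refine isBoundedUnder_of_eventually_le (a := C + ‖k 0‖) ?_
        filter_upwards [hC] with z hz
        exact (norm_sub_le _ _).trans (by gcongr)
    set K : ℂ → V := Function.update k 0 L with hK
    have hKne : ∀ z, z ≠ 0 → K z = k z := fun z hz => Function.update_of_ne hz _ _
    have hKc : ContinuousOn K (closedBall 0 ρ) := by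
      intro z hz
      rcases eq_or_ne z 0 with rfl | hz0
      · exact (continuousAt_update_same.2 hL).continuousWithinAt
      · have h1 : K =ᶠ[𝓝 z] k := by
          filter_upwards [isOpen_ne.mem_nhds hz0] with x hx using hKne x hx
        refine ContinuousAt.continuousWithinAt ?_
        refine ((hkd z ⟨?_, hz0⟩).continuousAt).congr h1.symm
        exact closedBall_subset_ball hρR hz
    have h2 := two_pi_I_inv_smul_circleIntegral_sub_inv_smul_of_differentiable_on_off_countable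
      (s := {(0 : ℂ)}) (countable_singleton _) hu hKc (fun z hz => by
        have hz0 : z ≠ 0 := hz.2
        have h1 : K =ᶠ[𝓝 z] k := by
          filter_upwards [isOpen_ne.mem_nhds hz0] with x hx using hKne x hx
        exact (hkd z ⟨ball_subset_ball hρR.le hz.1, hz0⟩).congr_of_eventuallyEq h1)
    rw [hKne u hu0] at h2
    rw [← show k u = h (u, y) from rfl, ← h2]
    simp only [hg0, circleIntegral]
    congr 1
    refine intervalIntegral.integral_congr fun θ _ => ?_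
    simp only [deriv_circleMap]
    rw [hKne _ (hcm θ).2]
  -- glue
  refine ⟨fun p => if p.1 ∈ ball (0 : ℂ) ρ then g0 p else h p, ?_, ?_⟩
  · rintro ⟨u, y⟩ ⟨hu, hy⟩
    by_cases hu1 : u ∈ ball (0 : ℂ) ρ
    · refine (hg0a (u, y) ⟨hu1, hy⟩).congr ?_
      filter_upwards [(isOpen_ball.preimage continuous_fst).mem_nhds
        (show (u, y) ∈ Prod.fst ⁻¹' ball (0 : ℂ) ρ from hu1)] with p hp
      rw [if_pos (show p.1 ∈ ball (0 : ℂ) ρ from hp)]
    · have hu0 : u ≠ 0 := fun h0 => hu1 (by rw [h0]; exact mem_ball_self hρ0)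
      refine (hh (u, y) ⟨⟨hu, hu0⟩, hy⟩).congr ?_
      filter_upwards [((isOpen_ne (x := (0 : ℂ))).preimage continuous_fst).mem_nhds
        (show (u, y) ∈ Prod.fst ⁻¹' {z : ℂ | z ≠ 0} from hu0),
        (hW.preimage continuous_snd).mem_nhds (show (u, y) ∈ Prod.snd ⁻¹' W from hy)] with p hp hp2
      by_cases hp1 : p.1 ∈ ball (0 : ℂ) ρ
      · rw [if_pos hp1]
        exact (key p.2 hp2 p.1 hp1 hp).symm
      · rw [if_neg hp1]
  · intro u hu hu0 y hy
    by_cases hu1 : u ∈ ball (0 : ℂ) ρ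
    · simp only [if_pos hu1]
      exact key y hy u hu1 hu0
    · simp only [if_neg hu1]

/-! ### the order along `u = 0` is locally constant -/

/-- the order of the pole at the parameter value `y` is at most `m` -/
def Q (h : ℂ × E → V) (m : ℕ) (y : E) : Prop :=
  ∃ C : ℝ, ∀ᶠ u in 𝓝[≠] (0 : ℂ), ‖u ^ m • h (u, y)‖ ≤ C

theorem Q.mono {h : ℂ × E → V} {m n : ℕ} {y : E} (hmn : m ≤ n) (hq : Q h m y) : Q h n y := by
  obtain ⟨C, hC⟩ := hq
  refine ⟨C, ?_⟩
  have h1 : ∀ᶠ u in 𝓝[≠] (0 : ℂ), u ∈ ball (0 : ℂ) 1 :=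
    nhdsWithin_le_nhds (ball_mem_nhds _ one_pos)
  filter_upwards [hC, h1] with u hu hu1
  rw [mem_ball_zero_iff] at hu1
  obtain ⟨j, rfl⟩ := Nat.exists_eq_add_of_le hmn
  rw [pow_add, mul_comm, mul_smul, norm_smul, norm_pow]
  calc ‖u‖ ^ j * ‖u ^ m • h (u, y)‖ ≤ 1 * ‖u ^ m • h (u, y)‖ := by
        gcongr
        exact pow_le_one₀ (norm_nonneg _) hu1.le
    _ ≤ C := by rw [one_mul]; exact hu

theorem exists_ext_pow {h : ℂ × E → V} {R : ℝ} {W : Set E} (hR : 0 < R) (hW : IsOpen W)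
    (hh : AnalyticOnNhd ℂ h ((ball 0 R \ {0}) ×ˢ W)) {m : ℕ} (hq : ∀ y ∈ W, Q h m y) :
    ∃ g : ℂ × E → V, AnalyticOnNhd ℂ g (ball 0 R ×ˢ W) ∧
      ∀ u ∈ ball (0 : ℂ) R, u ≠ 0 → ∀ y ∈ W, g (u, y) = u ^ m • h (u, y) := by
  refine exists_ext (h := fun p => p.1 ^ m • h p) hR hW ?_ hq
  exact fun p hp => (analyticAt_fst.pow m).smul (hh p hp)

theorem Q_pred {h : ℂ × E → V} {R : ℝ} {W : Set E} (hR : 0 < R) (hW : IsOpen W)
    (hWc : IsPreconnected W) (hh : AnalyticOnNhd ℂ h ((ball 0 R \ {0}) ×ˢ W)) {m : ℕ}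
    (hq : ∀ y ∈ W, Q h (m + 1) y) {y1 : E} (hy1 : y1 ∈ W) (hq1 : ∀ᶠ y in 𝓝 y1, Q h m y) :
    ∀ y ∈ W, Q h m y := by
  obtain ⟨g, hg, hgh⟩ := exists_ext_pow hR hW hh hq
  have hsl : ∀ {G : ℂ × E → V}, AnalyticOnNhd ℂ G (ball 0 R ×ˢ W) → ∀ y ∈ W,
      ContinuousAt (fun z : ℂ => G (z, y)) 0 := by
    intro G hG y hy
    have h1 : ContinuousAt G ((0 : ℂ), y) := (hG (0, y) ⟨mem_ball_self hR, hy⟩).continuousAt
    exact ContinuousAt.comp (f := fun z : ℂ => (z, y)) h1 (by fun_prop)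
  have hball : ∀ᶠ u in 𝓝[≠] (0 : ℂ), u ∈ ball (0 : ℂ) R ∧ u ≠ 0 :=
    inter_mem (nhdsWithin_le_nhds (ball_mem_nhds _ hR)) self_mem_nhdsWithin
  have hz1 : ∀ᶠ y in 𝓝 y1, g (0, y) = 0 := by
    filter_upwards [hq1, hW.mem_nhds hy1] with y hy hyW
    obtain ⟨C, hC⟩ := hy
    have h1 : Tendsto (fun z : ℂ => g (z, y)) (𝓝[≠] 0) (𝓝 (g (0, y))) :=
      (hsl hg y hyW).tendsto.mono_left nhdsWithin_le_nhds
    have h2 : Tendsto (fun z : ℂ => g (z, y)) (𝓝[≠] 0) (𝓝 0) := by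
      rw [tendsto_zero_iff_norm_tendsto_zero]
      have h3 : Tendsto (fun z : ℂ => ‖z‖ * C) (𝓝[≠] 0) (𝓝 0) := by
        have h4 : Tendsto (fun z : ℂ => ‖z‖ * C) (𝓝 0) (𝓝 (‖(0 : ℂ)‖ * C)) :=
          (continuous_norm.mul_const C).tendsto 0
        rw [norm_zero, zero_mul] at h4
        exact h4.mono_left nhdsWithin_le_nhds
      refine squeeze_zero' (Eventually.of_forall fun _ => norm_nonneg _) ?_ h3
      filter_upwards [hC, hball] with z hz hzb
      rw [hgh z hzb.1 hzb.2 y hyW, pow_succ', mul_smul, norm_smul]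
      gcongr
    exact tendsto_nhds_unique h1 h2
  have hz : ∀ y ∈ W, g (0, y) = 0 := by
    have ha : AnalyticOnNhd ℂ (fun y : E => g (0, y)) W := by
      intro y hy
      exact (hg (0, y) ⟨mem_ball_self hR, hy⟩).comp_of_eq (analyticAt_const.prod analyticAt_id) rfl
    exact ha.eqOn_zero_of_preconnected_of_eventuallyEq_zero hWc hy1 hz1
  obtain ⟨G, hG, hgG⟩ := exists_div hW hg hz
  intro y hy
  refine ⟨‖G (0, y)‖ + 1, ?_⟩
  have h1 : ∀ᶠ z in 𝓝[≠] (0 : ℂ), ‖G (z, y)‖ < ‖G (0, y)‖ + 1 :=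
    nhdsWithin_le_nhds ((hsl hG y hy).norm.eventually (gt_mem_nhds (lt_add_one _)))
  filter_upwards [h1, hball] with z hz hzb
  have h2 : z ^ m • h (z, y) = G (z, y) := by
    have h3 := hgh z hzb.1 hzb.2 y hy
    rw [hgG (z, y) ⟨hzb.1, hy⟩, pow_succ', mul_smul] at h3
    exact (smul_right_injective V hzb.2 h3).symm
  rw [h2]
  exact hz.le

theorem Q_reduce {h : ℂ × E → V} {R : ℝ} {W : Set E} (hR : 0 < R) (hW : IsOpen W)
    (hWc : IsPreconnected W) (hh : AnalyticOnNhd ℂ h ((ball 0 R \ {0}) ×ˢ W)) {m : ℕ}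
    {y1 : E} (hy1 : y1 ∈ W) (hq1 : ∀ᶠ y in 𝓝 y1, Q h m y) :
    ∀ n : ℕ, (∀ y ∈ W, Q h n y) → ∀ y ∈ W, Q h m y := by
  intro n
  induction n with
  | zero => exact fun hq y hy => (hq y hy).mono (Nat.zero_le _)
  | succ n ih =>
    intro hq
    by_cases hnm : n + 1 ≤ m
    · exact fun y hy => (hq y hy).mono hnm
    · refine ih (Q_pred hR hW hWc hh hq hy1 ?_)
      exact hq1.mono fun y hy => hy.mono (by omega)

theorem exists_unif {h : ℂ × E → V} {R : ℝ} {U : Set E} (hR : 0 < R) (hU : IsOpen U)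
    (hUc : IsPreconnected U) (hh : AnalyticOnNhd ℂ h ((ball 0 R \ {0}) ×ˢ U))
    (hb : ∀ y ∈ U, ∃ m : ℕ, ∀ᶠ y' in 𝓝 y, Q h m y') : ∃ m : ℕ, ∀ y ∈ U, Q h m y := by
  rcases U.eq_empty_or_nonempty with rfl | ⟨y0, hy0⟩
  · exact ⟨0, fun y hy => hy.elim⟩
  obtain ⟨m, hm⟩ := hb y0 hy0
  refine ⟨m, ?_⟩
  set A : Set E := {y | ∀ᶠ y' in 𝓝 y, Q h m y'} with hA
  have hAo : IsOpen A := isOpen_iff_mem_nhds.2 fun y hy => hy.eventually_nhds
  have hsub : U ⊆ A := by
    refine hUc.subset_of_closure_inter_subset hAo ⟨y0, hy0, hm⟩ ?_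
    rintro y ⟨hyc, hyU⟩
    obtain ⟨n, hn⟩ := hb y hyU
    obtain ⟨ε, hε, hball⟩ := Metric.mem_nhds_iff.1 (inter_mem (hU.mem_nhds hyU) hn)
    obtain ⟨y1, hy1, hy1b⟩ := (mem_closure_iff_nhds.1 hyc) (ball y ε) (ball_mem_nhds y hε)
    have h1 := Q_reduce (W := ball y ε) hR isOpen_ball (convex_ball y ε).isPreconnected
      (hh.mono (prod_mono_right fun z hz => (hball hz).1)) hy1 hy1b n
      (fun z hz => (hball hz).2)
    exact mem_of_superset (ball_mem_nhds y hε) h1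
  exact fun y hy => (hsub hy).self_of_nhds

/-- **the normal form** `h = u ^ k f` with `f (0, ·)` not identically zero -/
theorem exists_order {h : ℂ × E → V} {R : ℝ} {U : Set E} (hR : 0 < R) (hU : IsOpen U)
    (hUc : IsPreconnected U) (hh : AnalyticOnNhd ℂ h ((ball 0 R \ {0}) ×ˢ U))
    (hb : ∀ y ∈ U, ∃ m : ℕ, ∀ᶠ y' in 𝓝 y, Q h m y')
    (hne : ∃ u ∈ ball (0 : ℂ) R, u ≠ 0 ∧ ∃ y ∈ U, h (u, y) ≠ 0) :
    ∃ (k : ℤ) (f : ℂ × E → V), AnalyticOnNhd ℂ f (ball 0 R ×ˢ U) ∧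
      (∀ u ∈ ball (0 : ℂ) R, u ≠ 0 → ∀ y ∈ U, h (u, y) = u ^ k • f (u, y)) ∧
      ∃ y ∈ U, f (0, y) ≠ 0 := by
  classical
  obtain ⟨m, hm⟩ := exists_unif hR hU hUc hh hb
  obtain ⟨g, hg, hgh⟩ := exists_ext_pow hR hU hh hm
  obtain ⟨u0, hu0, hu00, y0, hy0, hhne⟩ := hne
  have hgne : ¬ ∀ p ∈ ball (0 : ℂ) R ×ˢ U, g p = 0 := by
    intro hz
    have h1 := hz (u0, y0) ⟨hu0, hy0⟩
    rw [hgh u0 hu0 hu00 y0 hy0] at h1
    exact hhne ((smul_eq_zero.1 h1).resolve_left (pow_ne_zero _ hu00))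
  have hex : ∃ n : ℕ, ¬ ∃ G : ℂ × E → V, AnalyticOnNhd ℂ G (ball 0 R ×ˢ U) ∧
      ∀ p ∈ ball (0 : ℂ) R ×ˢ U, g p = p.1 ^ n • G p := by
    by_contra hcon
    push Not at hcon
    exact hgne (eq_zero_of_div hg hcon)
  set n := Nat.find hex with hn
  have hn0 : n ≠ 0 := by
    intro h0
    have h1 := Nat.find_spec hex
    rw [← hn, h0] at h1
    exact h1 ⟨g, hg, fun p _ => by rw [pow_zero, one_smul]⟩
  obtain ⟨n', hn'⟩ := Nat.exists_eq_succ_of_ne_zero hn0
  obtain ⟨f, hf, hgf⟩ := not_not.1 (Nat.find_min hex (m := n') (by omega))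
  refine ⟨(n' : ℤ) - m, f, hf, ?_, ?_⟩
  · intro u hu hu0 y hy
    have h1 := hgh u hu hu0 y hy
    rw [hgf (u, y) ⟨hu, hy⟩] at h1
    rw [zpow_sub₀ hu0, zpow_natCast, zpow_natCast, div_eq_inv_mul, mul_smul]
    simp only at h1
    rw [h1, ← mul_smul, inv_mul_cancel₀ (pow_ne_zero _ hu0), one_smul]
  · by_contra hcon
    push Not at hcon
    obtain ⟨F, hF, hfF⟩ := exists_div hU hf hcon
    refine Nat.find_spec hex ⟨F, hF, fun p hp => ?_⟩
    rw [← hn, hn', hgf p hp, hfF p hp, pow_succ, mul_smul]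

/-! ### the twisted periodic section -/

/-- the untwisted section -/
def Fw (N : V →L[ℂ] V) (G : ℂ × E → V) (q : ℂ × E) : V := ex N (-(q.1 / (2 * π * I))) (G q)

theorem norm_pow_apply_le (N : V →L[ℂ] V) (n : ℕ) (v : V) : ‖(N ^ n) v‖ ≤ ‖N‖ ^ n * ‖v‖ := by
  induction n with
  | zero => simp
  | succ n ih =>
    rw [pow_succ', pow_succ', mul_assoc]
    exact (N.le_opNorm _).trans (mul_le_mul_of_nonneg_left ih (norm_nonneg _))

theorem norm_ex_le' (N : V →L[ℂ] V) (c : ℂ) : ‖ex N c‖ ≤ Real.exp (‖c‖ * ‖N‖) := by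
  refine ContinuousLinearMap.opNorm_le_bound _ (Real.exp_pos _).le fun v => ?_
  have h1 : HasSum (fun n : ℕ => (‖c‖ * ‖N‖) ^ n / (n ! : ℝ)) (Real.exp (‖c‖ * ‖N‖)) := by
    rw [Real.exp_eq_exp_ℝ]
    exact NormedSpace.expSeries_div_hasSum_exp (‖c‖ * ‖N‖)
  refine (ex_hasSum N c v).norm_le_of_bounded (h1.mul_right ‖v‖) fun n => ?_
  rw [norm_smul, norm_mul, norm_inv, norm_pow, Complex.norm_natCast]
  calc (n ! : ℝ)⁻¹ * ‖c‖ ^ n * ‖(N ^ n) v‖ ≤ (n ! : ℝ)⁻¹ * ‖c‖ ^ n * (‖N‖ ^ n * ‖v‖) := by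
        gcongr
        exact norm_pow_apply_le N n v
    _ = (‖c‖ * ‖N‖) ^ n / (n ! : ℝ) * ‖v‖ := by
        rw [mul_pow]
        ring

theorem Fw_per {N : V →L[ℂ] V} {R : ℝ} {U : Set E} {G : ℂ × E → V}
    (hper : ∀ q : ℂ × E, q.1.re < Real.log R → q.2 ∈ U →
      G (q.1 + 2 * π * I, q.2) = ex N 1 (G q)) {q : ℂ × E} (hq : q.1.re < Real.log R)
    (hq2 : q.2 ∈ U) (n : ℤ) : Fw N G (q.1 + n * (2 * π * I), q.2) = Fw N G q := by
  have hre : ∀ n : ℤ, (q.1 + n * (2 * π * I)).re = q.1.re := by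
    intro n
    have : ((n : ℂ) * (2 * π * I)).re = 0 := by simp [mul_re, mul_im]
    rw [add_re, this, add_zero]
  have step : ∀ n : ℤ, Fw N G (q.1 + (n + 1 : ℤ) * (2 * π * I), q.2) =
      Fw N G (q.1 + n * (2 * π * I), q.2) := by
    intro n
    have h1 := hper (q.1 + n * (2 * π * I), q.2) (by simp only; rw [hre]; exact hq) hq2
    have h2 : q.1 + ((n + 1 : ℤ) : ℂ) * (2 * π * I) = q.1 + n * (2 * π * I) + 2 * π * I := by
      push_cast
      ring
    simp only [Fw]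
    rw [h2]
    simp only at h1
    rw [h1, ← ex_add_apply]
    congr 2
    field_simp
    ring
  induction n using Int.induction_on with
  | zero => simp
  | succ n ih => rw [step]; exact ih
  | pred n ih =>
    rw [← ih]
    have h1 := step (-(n : ℤ) - 1)
    rw [sub_add_cancel] at h1
    exact h1.symm

/-- **TWIST**: a holomorphic section on the half space with `G (w + 2 π i, y) = exp (N) G (w, y)`
and of moderate growth is `e ^ {k w} exp ((w / 2 π i) N) f (e ^ w, y)` with `f` holomorphic up to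
`u = 0` and `f (0, ·)` not identically zero -/
theorem exists_twist {N : V →L[ℂ] V} {R : ℝ} {U : Set E} {G : ℂ × E → V} (hR : 0 < R)
    (hU : IsOpen U) (hUc : IsPreconnected U)
    (hG : DifferentiableOn ℂ G {q | q.1.re < Real.log R ∧ q.2 ∈ U})
    (hper : ∀ q : ℂ × E, q.1.re < Real.log R → q.2 ∈ U →
      G (q.1 + 2 * π * I, q.2) = ex N 1 (G q))
    (hgro : ∀ y0 ∈ U, ∃ C A : ℝ, ∀ᶠ y in 𝓝 y0, ∀ w : ℂ, w.re ≤ Real.log R - 1 →
      0 ≤ w.im → w.im ≤ 2 * π → ‖G (w, y)‖ ≤ C * Real.exp (-A * w.re))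
    (hne : ∃ q : ℂ × E, q.1.re < Real.log R ∧ q.2 ∈ U ∧ G q ≠ 0) :
    ∃ (k : ℤ) (f : ℂ × E → V), AnalyticOnNhd ℂ f (ball 0 R ×ˢ U) ∧
      (∀ q : ℂ × E, q.1.re < Real.log R → q.2 ∈ U →
        G q = Complex.exp (k * q.1) • om N f q) ∧
      ∃ y ∈ U, f (0, y) ≠ 0 := by
  have h2pi : (2 * π * I : ℂ) ≠ 0 := two_pi_I_ne_zero
  set h : ℂ × E → V := fun p => Fw N G (Complex.log p.1, p.2) with hh
  have key1 : ∀ w : ℂ, ∀ y ∈ U, w.re < Real.log R → h (Complex.exp w, y) = Fw N G (w, y) := by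
    intro w y hy hw
    have h1 : Complex.exp (Complex.log (Complex.exp w)) = Complex.exp w :=
      Complex.exp_log (Complex.exp_ne_zero _)
    obtain ⟨n, hn⟩ := Complex.exp_eq_exp_iff_exists_int.1 h1
    simp only [hh]
    rw [hn]
    exact Fw_per (q := (w, y)) hper hw hy n
  have hHP : IsOpen {q : ℂ × E | q.1.re < Real.log R ∧ q.2 ∈ U} :=
    (isOpen_lt (continuous_re.comp continuous_fst) continuous_const).inter
      (hU.preimage continuous_snd)
  have hFa : AnalyticOnNhd ℂ (Fw N G) {q : ℂ × E | q.1.re < Real.log R ∧ q.2 ∈ U} := by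
    refine R266.SCV.analyticOnNhd_of_differentiableOn hHP ?_
    have h1 : DifferentiableOn ℂ (fun q : ℂ × E => ex N (-(q.1 / (2 * π * I))))
        {q : ℂ × E | q.1.re < Real.log R ∧ q.2 ∈ U} := by
      have h2 : Differentiable ℂ (fun q : ℂ × E => -(q.1 / (2 * π * I))) := by fun_prop
      exact ((differentiable_ex N).comp h2).differentiableOn
    exact h1.clm_apply hG
  have hlogR : ∀ u : ℂ, u ≠ 0 → ‖u‖ < R → Real.log ‖u‖ < Real.log R := fun u hu0 hu =>
    Real.log_lt_log (norm_pos_iff.2 hu0) hu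
  have hha : AnalyticOnNhd ℂ h ((ball 0 R \ {0}) ×ˢ U) := by
    rintro ⟨u0, y0⟩ ⟨⟨hu0, hu00⟩, hy0⟩
    have hu00' : u0 ≠ 0 := hu00
    set l : ℂ → ℂ := fun u => Complex.log (u / u0) + Complex.log u0 with hl
    have hlexp : ∀ u : ℂ, u ≠ 0 → Complex.exp (l u) = u := by
      intro u hu
      rw [hl]
      simp only
      rw [Complex.exp_add, Complex.exp_log (div_ne_zero hu hu00'), Complex.exp_log hu00',
        div_mul_cancel₀ _ hu00']
    have hlre : ∀ u : ℂ, u ≠ 0 → (l u).re = Real.log ‖u‖ := by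
      intro u hu
      have h1 : ‖Complex.exp (l u)‖ = ‖u‖ := by rw [hlexp u hu]
      rw [Complex.norm_exp] at h1
      rw [← h1, Real.log_exp]
    have hl0 : l u0 = Complex.log u0 := by
      simp only [hl]
      rw [div_self hu00', Complex.log_one, zero_add]
    have hla : AnalyticAt ℂ (fun p : ℂ × E => (l p.1, p.2)) (u0, y0) := by
      refine AnalyticAt.prod ?_ analyticAt_snd
      have h1 : AnalyticAt ℂ l u0 := by
        refine AnalyticAt.add ?_ analyticAt_const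
        refine AnalyticAt.clog (analyticAt_id.div analyticAt_const hu00') ?_
        rw [div_self hu00']
        exact Complex.one_mem_slitPlane
      exact h1.comp_of_eq analyticAt_fst rfl
    have hk : AnalyticAt ℂ (fun p : ℂ × E => Fw N G (l p.1, p.2)) (u0, y0) := by
      refine AnalyticAt.comp_of_eq (hFa (l u0, y0) ⟨?_, hy0⟩) hla rfl
      rw [hlre u0 hu00']
      exact hlogR u0 hu00' (mem_ball_zero_iff.1 hu0)
    refine hk.congr ?_
    filter_upwards [((isOpen_ne (x := (0 : ℂ))).preimage continuous_fst).mem_nhds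
        (show (u0, y0) ∈ Prod.fst ⁻¹' {z : ℂ | z ≠ 0} from hu00'),
      ((isOpen_ball (x := (0 : ℂ)) (ε := R)).preimage continuous_fst).mem_nhds
        (show (u0, y0) ∈ Prod.fst ⁻¹' ball (0 : ℂ) R from hu0),
      (hU.preimage continuous_snd).mem_nhds (show (u0, y0) ∈ Prod.snd ⁻¹' U from hy0)]
      with p hp0 hpR hpU
    have hp0' : p.1 ≠ 0 := hp0
    have h1 := key1 (l p.1) p.2 hpU (by
      rw [hlre _ hp0']
      exact hlogR _ hp0' (mem_ball_zero_iff.1 hpR))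
    rw [hlexp _ hp0'] at h1
    exact h1.symm
  have hb : ∀ y0 ∈ U, ∃ m : ℕ, ∀ᶠ y in 𝓝 y0, Q h m y := by
    intro y0 hy0
    obtain ⟨C, A, hCA⟩ := hgro y0 hy0
    obtain ⟨m, hm⟩ := exists_nat_ge (A + ‖N‖)
    refine ⟨m, ?_⟩
    filter_upwards [hCA, hU.mem_nhds hy0] with y hy hyU
    refine ⟨|C| * Real.exp ‖N‖, ?_⟩
    have hsm : ∀ᶠ u in 𝓝[≠] (0 : ℂ), u ∈ ball (0 : ℂ) (min 1 (R * Real.exp (-1))) ∧ u ≠ 0 :=
      inter_mem (nhdsWithin_le_nhds (ball_mem_nhds _ (by positivity))) self_mem_nhdsWithin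
    filter_upwards [hsm] with u hu
    obtain ⟨hu, hu0⟩ := hu
    rw [mem_ball_zero_iff, lt_min_iff] at hu
    have hupos : 0 < ‖u‖ := norm_pos_iff.2 hu0
    obtain ⟨w, hwe, hwi0, hwi⟩ : ∃ w : ℂ, Complex.exp w = u ∧ 0 ≤ w.im ∧ w.im ≤ 2 * π := by
      rcases le_or_gt 0 (Complex.log u).im with h0 | h0
      · exact ⟨Complex.log u, Complex.exp_log hu0, h0,
          (Complex.log_im_le_pi u).trans (by linarith [Real.pi_pos])⟩
      · refine ⟨Complex.log u + 2 * π * I, ?_, ?_, ?_⟩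
        · rw [Complex.exp_add, Complex.exp_log hu0, Complex.exp_two_pi_mul_I, mul_one]
        · have := Complex.neg_pi_lt_log_im u
          simp
          linarith [Real.pi_pos]
        · simp
          linarith [Real.pi_pos]
    have hwre : w.re = Real.log ‖u‖ := by
      have h1 : ‖Complex.exp w‖ = ‖u‖ := by rw [hwe]
      rw [Complex.norm_exp] at h1
      rw [← h1, Real.log_exp]
    have hexpre : Real.exp w.re = ‖u‖ := by rw [hwre, Real.exp_log hupos]
    have hwre0 : w.re ≤ 0 := by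
      rw [hwre]
      exact Real.log_nonpos hupos.le hu.1.le
    have hwreR : w.re ≤ Real.log R - 1 := by
      rw [hwre]
      have h1 : Real.log ‖u‖ ≤ Real.log (R * Real.exp (-1)) :=
        Real.log_le_log hupos hu.2.le
      rw [Real.log_mul hR.ne' (Real.exp_pos _).ne', Real.log_exp] at h1
      linarith
    have h1 : h (u, y) = Fw N G (w, y) := by
      rw [← hwe]
      exact key1 w y hyU (by linarith)
    rw [h1, norm_smul, norm_pow, ← hexpre, ← Real.exp_nat_mul]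
    have h2 : ‖Fw N G (w, y)‖ ≤ Real.exp ((-w.re + 1) * ‖N‖) * (|C| * Real.exp (-A * w.re)) := by
      have h3 : ‖-(w / (2 * π * I))‖ ≤ -w.re + 1 := by
        rw [norm_neg, norm_div]
        have h4 : ‖(2 * π * I : ℂ)‖ = 2 * π := by
          simp [abs_of_pos Real.pi_pos]
        rw [h4, div_le_iff₀ (by positivity)]
        have h5 : ‖w‖ ≤ |w.re| + |w.im| := Complex.norm_le_abs_re_add_abs_im w
        rw [abs_of_nonpos hwre0, abs_of_nonneg hwi0] at h5
        have h6 : 1 ≤ 2 * π := by linarith [Real.pi_gt_three]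
        nlinarith
      calc ‖Fw N G (w, y)‖ ≤ ‖ex N (-(w / (2 * π * I)))‖ * ‖G (w, y)‖ :=
            (ex N (-(w / (2 * π * I)))).le_opNorm _
        _ ≤ Real.exp (‖-(w / (2 * π * I))‖ * ‖N‖) * (C * Real.exp (-A * w.re)) := by
            gcongr
            · exact norm_ex_le' N _
            · exact hy w hwreR hwi0 hwi
        _ ≤ Real.exp ((-w.re + 1) * ‖N‖) * (|C| * Real.exp (-A * w.re)) := by
            have h7 : C * Real.exp (-A * w.re) ≤ |C| * Real.exp (-A * w.re) := by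
              gcongr
              exact le_abs_self C
            have h8 : 0 ≤ |C| * Real.exp (-A * w.re) := by positivity
            have h9 : Real.exp (‖-(w / (2 * π * I))‖ * ‖N‖) ≤
                Real.exp ((-w.re + 1) * ‖N‖) := by
              gcongr
            calc _ ≤ Real.exp (‖-(w / (2 * π * I))‖ * ‖N‖) * (|C| * Real.exp (-A * w.re)) := by
                  gcongr
              _ ≤ _ := by gcongr
    calc Real.exp (m * w.re) * ‖Fw N G (w, y)‖
        ≤ Real.exp (m * w.re) *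
          (Real.exp ((-w.re + 1) * ‖N‖) * (|C| * Real.exp (-A * w.re))) := by gcongr
      _ = |C| * Real.exp (m * w.re + ((-w.re + 1) * ‖N‖ + -A * w.re)) := by
          rw [Real.exp_add, Real.exp_add]
          ring
      _ ≤ |C| * Real.exp ‖N‖ := by
          gcongr
          nlinarith
  have hne' : ∃ u ∈ ball (0 : ℂ) R, u ≠ 0 ∧ ∃ y ∈ U, h (u, y) ≠ 0 := by
    obtain ⟨⟨w, y⟩, hw, hy, hG0⟩ := hne
    refine ⟨Complex.exp w, ?_, Complex.exp_ne_zero _, y, hy, ?_⟩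
    · rw [mem_ball_zero_iff, Complex.norm_exp]
      calc Real.exp w.re < Real.exp (Real.log R) := Real.exp_lt_exp.2 hw
        _ = R := Real.exp_log hR
    · rw [key1 w y hy hw]
      intro h0
      exact hG0 (ex_inj N _ (h0.trans (map_zero _).symm))
  obtain ⟨k, f, hf, hhf, hf0⟩ := exists_order hR hU hUc hha hb hne'
  refine ⟨k, f, hf, ?_, hf0⟩
  rintro ⟨w, y⟩ hw hy
  have h1 := key1 w y hy hw
  have h2 : Complex.exp w ∈ ball (0 : ℂ) R := by
    rw [mem_ball_zero_iff, Complex.norm_exp]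
    calc Real.exp w.re < Real.exp (Real.log R) := Real.exp_lt_exp.2 hw
      _ = R := Real.exp_log hR
  rw [hhf _ h2 (Complex.exp_ne_zero _) y hy] at h1
  have h3 : G (w, y) = ex N (w / (2 * π * I)) (Fw N G (w, y)) := by
    simp only [Fw]
    rw [ex_apply_neg]
  rw [h3, ← h1, map_smul, om, ← Complex.exp_int_mul]


end Crest.Agent.R276.Twist_767
end
end

-- ▼ part R276/BdNf6_651
section

/-!
# Row 276, leaf BDNF (helper651), part 6 : normal form in one boundary chart (`LCh` of helper217)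
-/

set_option autoImplicit false
set_option linter.unusedSectionVars false

noncomputable section

open Set Filter Topology Matrix Metric
open Crest.Agent.R271.Ho51
open Crest.Agent.R276.Ipc735
open Crest.Agent.R276.BdNf1_651
open Crest.Agent.R276.BdNf2_651
open Crest.Agent.R276.BdNf3_651
open Crest.Agent.R276.BdNf4_651
open Crest.Agent.R276.BdNf5_651
open Crest.Agent.R276.VLevi_327 (CYL)
open Crest.Agent.R276.CntDefs_857 (PS)
open Crest.Agent.R276.GrA_217 (EE)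
open Crest.Agent.R276.GrC_217 (LCh tpi)
open Crest.Agent.R276.Bdy_767 (ex_sum)
open scoped ContDiff

namespace Crest.Agent.R276.BdNf6_651

open Ipc735 (hq)


/-- a matrix as a continuous linear map -/
def cl {N : ℕ} (L : Matrix (Fin N) (Fin N) ℂ) : (Fin N → ℂ) →L[ℂ] (Fin N → ℂ) :=
  (Matrix.mulVecLin L).toContinuousLinearMap

@[simp] lemma cl_apply {N : ℕ} (L : Matrix (Fin N) (Fin N) ℂ) (v : Fin N → ℂ) : cl L v = L *ᵥ v := rfl

lemma cl_pow_apply {N : ℕ} (L : Matrix (Fin N) (Fin N) ℂ) (j : ℕ) (v : Fin N → ℂ) :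
    (cl L ^ j) v = (L ^ j) *ᵥ v := by
  induction j generalizing v with
  | zero => simp
  | succ j ih =>
    have h1 : (cl L ^ (j + 1)) v = (cl L ^ j) (cl L v) := by rw [pow_succ]; rfl
    rw [h1, ih, cl_apply, pow_succ, ← Matrix.mulVec_mulVec]

lemma cl_pow_zero {N n : ℕ} {L : Matrix (Fin N) (Fin N) ℂ} (hL : L ^ n = 0) : cl L ^ n = 0 := by
  ext v
  rw [cl_pow_apply, hL]
  simp

/-- comparison of the exponentials -/
theorem ex_eq {N n : ℕ} {L : Matrix (Fin N) (Fin N) ℂ} (hL : L ^ n = 0) (c : ℂ) (v : Fin N → ℂ) :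
    Bdy_767.ex (cl L) c v = EE L c *ᵥ v := by
  have hnil : IsNilpotent L := ⟨n, hL⟩
  set m := max n (Fintype.card (Fin N)) with hm
  have hLm : L ^ m = 0 := pow_eq_zero_of_le (le_max_left _ _) hL
  rw [ex_sum (cl_pow_zero hLm)]
  unfold EE
  rw [GrA_217.exp_eq hnil (n := m) (le_max_right _ _), Matrix.sum_mulVec]
  refine Finset.sum_congr rfl fun j _ => ?_
  rw [cl_pow_apply, Matrix.smul_mulVec, div_eq_inv_mul]

/-! ### unipotent powers -/

lemma cm_pow_nat {N : ℕ} (g : GL (Fin N) ℤ) (k : ℕ) : cm (g ^ k) = cm g ^ k := by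
  induction k with
  | zero => simp
  | succ k ih => rw [pow_succ, cm_mul, ih, pow_succ]

lemma unip_mul {N n : ℕ} {A : Matrix (Fin N) (Fin N) ℂ} (h : (A - 1) ^ n = 0) (k : ℕ) :
    (A ^ k - 1) ^ n = 0 := by
  have h1 : A ^ k - 1 = (A - 1) * ∑ i ∈ Finset.range k, A ^ i := (mul_geom_sum A k).symm
  have hc : Commute (A - 1) (∑ i ∈ Finset.range k, A ^ i) :=
    Commute.sum_right _ _ _ fun i _ => ((Commute.refl A).sub_left (Commute.one_left A)).pow_right i
  rw [h1, hc.mul_pow, h, zero_mul]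

variable {d : ℕ} {r : ℝ} {N w : ℕ} {m : ℕ} {X : Type*} [TopologicalSpace X] [RDom m X]
variable {σ : (Fin (d + 1) → ℂ) → X} {V : VHS m X N w}

/-- the logarithm of the unipotent power of the monodromy -/
def LL (n : Nf V σ r) (e : ℕ) : Matrix (Fin N) (Fin N) ℂ := Log_25.lg N (cm n.T ^ e - 1)

section

variable (n : Nf V σ r) (h : HP σ r) (M0 : ℕ)

include h in
lemma unip_T : (cm n.T ^ (eN N * M0) - 1) ^ N = 0 := by
  rw [pow_mul]
  exact unip_mul (quasi_unipotent n h) M0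

include h in
lemma LL_pow : (LL n (eN N * M0)) ^ N = 0 := Log_25.lg_pow (unip_T n h M0)


include h in
lemma exp_LL : EE (LL n (eN N * M0)) 1 = cm n.T ^ (eN N * M0) := by
  unfold EE
  rw [one_smul]
  unfold LL
  rw [Log_25.exp_lg (unip_T n h M0), add_sub_cancel]

include h in
lemma LL_skew : (LL n (eN N * M0))ᴴ * n.fr.S = -(n.fr.S * LL n (eN N * M0)) := by
  refine Log_25.lg_skew (unip_T n h M0) ?_
  have h1 := n.TS h.hr (eN N * M0 : ℕ)
  rw [_root_.zpow_natCast, cm_pow_nat] at h1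
  exact h1

lemma tw_nat_add (k : ℤ) (q : Fin (d + 1) → ℂ) : tw k q = q + Pi.single 0 (k * tpi) := by
  apply ext_cons
  · rw [tw_apply_zero, Pi.add_apply, Pi.single_eq_same]; rfl
  · intro i
    rw [tw_succ, Pi.add_apply, Pi.single_eq_of_ne (Fin.succ_ne_zero i), add_zero]

lemma tw_one_add (q : Fin (d + 1) → ℂ) : tw 1 q = q + Pi.single 0 tpi := by
  rw [tw_nat_add]; simp

/-- the projectors are equivariant -/
lemma PP_tw {q : Fin (d + 1) → ℂ} (hq : q ∈ HS d r) (p : ℕ) :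
    PP n p (tw 1 q) * cm n.T = cm n.T * PP n p q := by
  show Ipc735.hq w (n.fr.E (tw 1 q)) p * cm n.T = cm n.T * Ipc735.hq w (n.fr.E q) p
  have h1 := n.E_tw 1 hq
  rw [_root_.zpow_one] at h1
  have h2 : cm n.T * n.fr.E q = n.fr.E (tw 1 q) * cm n.T := by
    rw [h1, Matrix.mul_assoc (_ * _), cm_inv_mul_cm, Matrix.mul_one]
  unfold Ipc735.hq
  split_ifs
  · unfold hpr
    exact (DiscA_651.aeval_comm h2 _).symm
  · simp

end

/-! ### the chart -/

lemma zpow_pow_one {z : ℂ} {M0 : ℕ} (hz : z ^ M0 = 1) (k : ℕ) : z ^ (k * M0) = 1 := by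
  rw [mul_comm, pow_mul, hz, one_pow]

/-- **the normal form in one chart** -/
theorem exists_lch (n : Nf V σ r) (h : HP σ r) {M0 : ℕ} (hM : 0 < M0) {z : ℂ}
    (hz : ‖z‖ = 1) (hz0 : z ^ M0 = 1) {Q : (Fin (d + 1) → ℂ) → Fin N → ℂ}
    (hcy : Cy w (HS d r) (PP n) Q)
    (hper : ∀ (k : ℤ), ∀ q ∈ HS d r, Q (tw k q) = (z ^ k) • (cm (n.T ^ k) *ᵥ Q q))
    {A C : ℝ} (hC : 0 ≤ C) (hgr : ∀ q ∈ HS d r, H n q (Q q) ≤ C * Real.exp (-A * (q 0).re)) :
    ∃ (k : ℤ) (f : (Fin (d + 1) → ℂ) → Fin N → ℂ),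
      LCh w (eN N * M0) k (Real.log r) r n.fr.S (PP n) (cm n.T) z (LL n (eN N * M0)) Q f ∧
      ∃ y : Fin d → ℂ, (∀ i, ‖y i‖ < r) ∧ f (Fin.cons 0 y) ≠ 0 := by
  set e : ℕ := eN N * M0 with he
  have he0 : 0 < e := Nat.mul_pos (eN_pos N) hM
  have heR : (0 : ℝ) < e := by exact_mod_cast he0
  have heC : (e : ℂ) ≠ 0 := by exact_mod_cast he0.ne'
  have hr := h.hr
  have hze : z ^ e = 1 := zpow_pow_one hz0 _
  have hTe : (z • cm n.T) ^ e = cm n.T ^ e := by rw [smul_pow, hze, one_smul]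
  set L := LL n e with hL
  have hLN : L ^ N = 0 := LL_pow n h M0
  have hnil : IsNilpotent L := ⟨N, hLN⟩
  have hexp : EE L 1 = cm n.T ^ e := exp_LL n h M0
  -- the half plane
  set R : ℝ := Real.exp (Real.log r / e) with hR
  have hR0 : 0 < R := Real.exp_pos _
  have hlogR : Real.log R = Real.log r / e := Real.log_exp _
  set U : Set (Fin d → ℂ) := {y | ∀ i, ‖y i‖ < r} with hU
  have hUo : IsOpen U := by
    rw [hU, ofPred_forall]
    exact isOpen_iInter_of_finite fun i => isOpen_lt (by fun_prop) continuous_const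
  have hUb : U = ball 0 r := by
    ext y
    rw [mem_ball_zero_iff, pi_norm_lt_iff hr]
    rfl
  have hUc : IsPreconnected U := by rw [hUb]; exact (convex_ball 0 r).isPreconnected
  set G : ℂ × (Fin d → ℂ) → Fin N → ℂ := fun q => Q (cs q.2 (e * q.1)) with hG
  have hmem : ∀ q : ℂ × (Fin d → ℂ), q.1.re < Real.log R → q.2 ∈ U →
      cs q.2 ((e : ℂ) * q.1) ∈ HS d r := by
    intro q hq1 hq2
    refine cs_mem hq2 ?_
    rw [hlogR, lt_div_iff₀ heR] at hq1
    have : ((e : ℂ) * q.1).re = e * q.1.re := by simp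
    rw [this]; linarith
  have hGd : DifferentiableOn ℂ G {q | q.1.re < Real.log R ∧ q.2 ∈ U} := by
    have h1 : Differentiable ℂ (fun q : ℂ × (Fin d → ℂ) => cs q.2 ((e : ℂ) * q.1)) := by
      rw [differentiable_pi]
      intro i
      refine Fin.cases ?_ (fun j => ?_) i
      · show Differentiable ℂ (fun q : ℂ × (Fin d → ℂ) => (e : ℂ) * q.1)
        fun_prop
      · show Differentiable ℂ (fun q : ℂ × (Fin d → ℂ) => q.2 j)
        fun_prop
    exact hcy.bot.hol.comp h1.differentiableOn fun q hq => hmem q hq.1 hq.2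
  have hGper : ∀ q : ℂ × (Fin d → ℂ), q.1.re < Real.log R → q.2 ∈ U →
      G (q.1 + 2 * Real.pi * Complex.I, q.2) = Bdy_767.ex (cl L) 1 (G q) := by
    intro q hq1 hq2
    have h1 : cs q.2 ((e : ℂ) * (q.1 + 2 * Real.pi * Complex.I)) =
        tw (e : ℤ) (cs q.2 ((e : ℂ) * q.1)) := by
      rw [tw_cs]
      congr 1
      unfold per
      push_cast
      ring
    show Q (cs q.2 ((e : ℂ) * (q.1 + 2 * Real.pi * Complex.I))) = _
    rw [h1, hper _ _ (hmem q hq1 hq2), ex_eq hLN, hexp, _root_.zpow_natCast, _root_.zpow_natCast,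
      hze, one_smul, cm_pow_nat]
  have hGgr : ∀ y0 ∈ U, ∃ C' A' : ℝ, ∀ᶠ y in 𝓝 y0, ∀ t : ℂ, t.re ≤ Real.log R - 1 →
      0 ≤ t.im → t.im ≤ 2 * Real.pi → ‖G (t, y)‖ ≤ C' * Real.exp (-A' * t.re) := by
    intro y0 hy0
    obtain ⟨C', hC', hev⟩ := growth n h hC hgr hy0 (M := 2 * Real.pi * e)
    refine ⟨C', (A + KN (Fin N)) / 2 * e, ?_⟩
    filter_upwards [hev] with y hy t ht ht0 ht1
    have h1 := hy.2 ((e : ℂ) * t) (by
      have h2 : ((e : ℂ) * t).re = e * t.re := by simp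
      rw [h2]
      have h3 : t.re * e ≤ (Real.log r / e - 1) * e := by
        rw [← hlogR]; exact mul_le_mul_of_nonneg_right ht heR.le
      have h4 : (Real.log r / e - 1) * e = Real.log r - e := by field_simp
      have h5 : (1 : ℝ) ≤ e := by exact_mod_cast he0
      rw [h4] at h3
      linarith) (by
      have h2 : ((e : ℂ) * t).im = e * t.im := by simp
      rw [h2, abs_of_nonneg (by positivity)]
      nlinarith)
    refine h1.trans (le_of_eq ?_)
    have h2 : ((e : ℂ) * t).re = e * t.re := by simp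
    rw [h2]
    congr 2
    ring
  have hGne : ∃ q : ℂ × (Fin d → ℂ), q.1.re < Real.log R ∧ q.2 ∈ U ∧ G q ≠ 0 := by
    refine ⟨(((Real.log R - 1 : ℝ) : ℂ), 0), by simp, by simpa [hU] using fun _ => hr, ?_⟩
    exact hcy.ne _ (hmem _ (by simp) (by simpa [hU] using fun _ => hr))
  obtain ⟨k, F, hFa, hFe, y1, hy1, hF0⟩ :=
    Twist_767.exists_twist hR0 hUo hUc hGd hGper hGgr hGne
  refine ⟨k, fun q => F (q 0, Fin.tail q), ?_, y1, hy1, ?_⟩
  swap
  · have e1 : ((Fin.cons 0 y1 : Fin (d + 1) → ℂ) 0, Fin.tail (Fin.cons 0 y1 : Fin (d + 1) → ℂ)) =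
        ((0 : ℂ), y1) := by simp [Fin.tail_cons]
    show F ((Fin.cons 0 y1 : Fin (d + 1) → ℂ) 0, Fin.tail (Fin.cons 0 y1 : Fin (d + 1) → ℂ)) ≠ 0
    rw [e1]; exact hF0
  refine ⟨he0, hr, vhs n h, ?_, ?_, hz, ?_, hnil, ?_, LL_skew n h M0, ?_, ?_⟩
  · intro q hq p
    have hq' : q ∈ HS d r := hq
    rw [← tw_one_add]
    exact PP_tw n hq' p
  · have := n.TS hr 1
    rwa [_root_.zpow_one] at this
  · intro q hq
    have hq' : q ∈ HS d r := hq
    have := hper 1 q hq'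
    rw [_root_.zpow_one, _root_.zpow_one] at this
    rw [← tw_one_add]; exact this
  · rw [hexp, hTe]
  · -- differentiability
    have h1 : DifferentiableOn ℂ F (ball 0 R ×ˢ U) := hFa.differentiableOn
    have h2 : Differentiable ℂ (fun q : Fin (d + 1) → ℂ => (q 0, Fin.tail q)) := by
      refine Differentiable.prodMk (by fun_prop) ?_
      rw [differentiable_pi]
      intro i
      show Differentiable ℂ (fun q : Fin (d + 1) → ℂ => q i.succ)
      fun_prop
    refine h1.comp h2.differentiableOn fun q hq => ?_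
    exact ⟨mem_ball_zero_iff.mpr hq.1, fun i => hq.2 i⟩
  · intro q hq
    have hq' : q ∈ HS d r := hq
    have hq1 : (q 0 / (e : ℂ)).re < Real.log R := by
      rw [hlogR, Complex.div_natCast_re]
      exact div_lt_div_of_pos_right hq'.1 heR
    have hq2 : Fin.tail q ∈ U := fun i => hq'.2 i
    have h1 := hFe (q 0 / e, Fin.tail q) hq1 hq2
    have h2 : G (q 0 / e, Fin.tail q) = Q q := by
      show Q (cs (Fin.tail q) ((e : ℂ) * (q 0 / e))) = Q q
      rw [mul_div_cancel₀ _ heC]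
      congr 1
      exact Fin.cons_self_tail q
    rw [h2] at h1
    have h3 : Bdy_767.om (cl L) F (q 0 / e, Fin.tail q) =
        EE L (q 0 / e / (2 * Real.pi * Complex.I)) *ᵥ F (Complex.exp (q 0 / e), Fin.tail q) := by
      unfold Bdy_767.om
      rw [ex_eq hLN]
    rw [h3] at h1
    have e1 : ((Fin.cons (Complex.exp (q 0 / e)) (Fin.tail q) : Fin (d + 1) → ℂ) 0,
        Fin.tail (Fin.cons (Complex.exp (q 0 / e)) (Fin.tail q) : Fin (d + 1) → ℂ)) =
        (Complex.exp (q 0 / e), Fin.tail q) := by simp [Fin.tail_cons]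
    show F ((Fin.cons (Complex.exp (q 0 / e)) (Fin.tail q) : Fin (d + 1) → ℂ) 0,
        Fin.tail (Fin.cons (Complex.exp (q 0 / e)) (Fin.tail q) : Fin (d + 1) → ℂ)) = _
    rw [e1, h1, Matrix.mulVec_smul, smul_smul, Matrix.mulVec_mulVec, ← Complex.exp_add]
    have e2 : -(↑k * q 0 / ↑e) + ↑k * (q 0 / ↑e, Fin.tail q).1 = 0 := by
      show -((k : ℂ) * q 0 / e) + k * (q 0 / e) = 0
      ring
    have e3 : EE L (-(q 0 / (tpi * e))) * EE L (q 0 / e / (2 * Real.pi * Complex.I)) = 1 := by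
      have e4 : q 0 / e / (2 * Real.pi * Complex.I) = q 0 / (tpi * e) := by
        unfold tpi
        rw [div_div, mul_comm (e : ℂ)]
      rw [e4]
      exact GrA_217.EE_neg' hnil _
    rw [e2, Complex.exp_zero, one_smul, e3, Matrix.one_mulVec]

end Crest.Agent.R276.BdNf6_651
end
end

-- ▼ part R276/BdNf7_651
section

/-!
# Row 276, leaf BDNF (helper651), part 7 : comparison of two boundary charts

`σ' q = σ (q + (0, a))` on the overlap: the frames differ by a constant `A ∈ GL_N(ℤ)`; the monodromies,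
logarithms, sections correspond; the order `k` is the same.
-/

set_option autoImplicit false
set_option linter.unusedSectionVars false

noncomputable section

open Set Filter Topology Matrix Metric
open Crest.Agent.R271.Ho51
open Crest.Agent.R276.Ipc735
open Crest.Agent.R276.BdNf1_651
open Crest.Agent.R276.BdNf2_651
open Crest.Agent.R276.BdNf3_651
open Crest.Agent.R276.BdNf4_651
open Crest.Agent.R276.BdNf5_651
open Crest.Agent.R276.BdNf6_651
open Crest.Agent.R276.VLevi_327 (CYL)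
open Crest.Agent.R276.CntDefs_857 (PS)
open Crest.Agent.R276.GrA_217 (EE)
open Crest.Agent.R276.GrC_217 (LCh tpi)
open scoped ContDiff

namespace Crest.Agent.R276.BdNf7_651

open Ipc735 (hq)

variable {d : ℕ} {N w : ℕ} {m : ℕ} {X : Type*} [TopologicalSpace X] [RDom m X]
variable {r r' : ℝ} {σ σ' : (Fin (d + 1) → ℂ) → X} {V : VHS m X N w}

/-- translation vector -/
abbrev ca (a : Fin d → ℂ) : Fin (d + 1) → ℂ := Fin.cons 0 a



lemma ca_neg (a : Fin d → ℂ) : ca (-a) = - ca a := by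
  apply ext_cons
  · simp [ca]
  · intro i; simp [ca]

lemma ex_add_ca (q : Fin (d + 1) → ℂ) (a : Fin d → ℂ) : ex (q + ca a) = ex q + ca a := by
  apply ext_cons
  · simp [ca]
  · intro i; simp [ca]

lemma tw_add_ca (k : ℤ) (q : Fin (d + 1) → ℂ) (a : Fin d → ℂ) : tw k (q + ca a) = tw k q + ca a := by
  apply ext_cons
  · simp [ca]
  · intro i; simp [ca]

/-- the overlap -/
def Ov (d : ℕ) (r r' : ℝ) (a : Fin d → ℂ) : Set (Fin (d + 1) → ℂ) :=
  {q | q ∈ HS d r' ∧ q + ca a ∈ HS d r}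

lemma tw_mem_Ov (k : ℤ) {a : Fin d → ℂ} {q : Fin (d + 1) → ℂ} (hq : q ∈ Ov d r r' a) :
    tw k q ∈ Ov d r r' a := by
  refine ⟨(tw_mem k).mpr hq.1, ?_⟩
  rw [← tw_add_ca]
  exact (tw_mem k).mpr hq.2

lemma convex_Ov (r r' : ℝ) (a : Fin d → ℂ) : Convex ℝ (Ov d r r' a) := by
  have h1 : Ov d r r' a = HS d r' ∩ (fun q => q + ca a) ⁻¹' HS d r := rfl
  rw [h1]
  refine (convex_HS d r').inter ?_
  have h2 : (fun q : Fin (d + 1) → ℂ => q + ca a) = fun q => ca a + q := by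
    funext q; exact add_comm q (ca a)
  rw [h2]
  exact (convex_HS d r).translate_preimage_right (ca a)

lemma isOpen_Ov (r r' : ℝ) (a : Fin d → ℂ) : IsOpen (Ov d r r' a) :=
  (isOpen_HS d r').inter ((isOpen_HS d r).preimage (by fun_prop))

lemma Ov_nonempty (hr' : 0 < r') {a : Fin d → ℂ} (ha : ∀ i, ‖a i‖ < r) :
    bp d (min (Real.log r) (Real.log r') - 1) ∈ Ov d r r' a := by
  refine ⟨bp_mem hr' (by linarith [min_le_right (Real.log r) (Real.log r')]), ?_, ?_⟩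
  · show ((bp d (min (Real.log r) (Real.log r') - 1) + ca a) 0).re < _
    have : (bp d (min (Real.log r) (Real.log r') - 1) + ca a) 0 =
        ((min (Real.log r) (Real.log r') - 1 : ℝ) : ℂ) := by simp [bp, ca]
    rw [this, Complex.ofReal_re]
    linarith [min_le_left (Real.log r) (Real.log r')]
  · intro i
    have : (bp d (min (Real.log r) (Real.log r') - 1) + ca a) i.succ = a i := by simp [bp, ca]
    rw [this]; exact ha i

/-- the two charts correspond on the overlap -/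
def Cpt (σ σ' : (Fin (d + 1) → ℂ) → X) (r r' : ℝ) (a : Fin d → ℂ) : Prop :=
  ∀ q ∈ PS d r', q + ca a ∈ PS d r → σ' q = σ (q + ca a)

lemma Cpt.lift {a : Fin d → ℂ} (h : Cpt σ σ' r r' a) (hr : 0 < r) (hr' : 0 < r') {q : Fin (d + 1) → ℂ}
    (hq : q ∈ Ov d r r' a) : lift σ' q = lift σ (q + ca a) := by
  unfold BdNf2_651.lift
  rw [ex_add_ca]
  refine h _ (ex_mem hr' hq.1) ?_
  rw [← ex_add_ca]
  exact ex_mem hr hq.2

lemma Cpt.symm {a : Fin d → ℂ} (h : Cpt σ σ' r r' a) : Cpt σ' σ r' r (-a) := by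
  intro q hq hq'
  have h1 := h (q + ca (-a)) hq' (by rw [ca_neg]; simpa using hq)
  rw [h1, ca_neg]
  simp

/-- the frames correspond -/
structure Fc (n : Nf V σ r) (n' : Nf V σ' r') (a : Fin d → ℂ) (A : GL (Fin N) ℤ) : Prop where
  lft : ∀ q ∈ Ov d r r' a, lift σ' q = lift σ (q + ca a)
  g : ∀ q ∈ Ov d r r' a, n.fr.g (q + ca a) = n'.fr.g q * A

theorem exists_fc (n : Nf V σ r) (n' : Nf V σ' r') (hr : 0 < r) (hr' : 0 < r') {a : Fin d → ℂ}
    (ha : ∀ i, ‖a i‖ < r) (h : Cpt σ σ' r r' a) : ∃ A : GL (Fin N) ℤ, Fc n n' a A := by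
  set b := bp d (min (Real.log r) (Real.log r') - 1) with hb
  have hbm : b ∈ Ov d r r' a := Ov_nonempty hr' ha
  have hloc : ∀ z ∈ Ov d r r' a, ∃ U ∈ 𝓝 z, ∀ x ∈ U, ∀ y ∈ U,
      V.P (lift σ' x) (lift σ' y) = n'.fr.g x * (n'.fr.g y)⁻¹ := fun z hz => n'.fr.loc z hz.1
  have hloc' : ∀ z ∈ Ov d r r' a, ∃ U ∈ 𝓝 z, ∀ x ∈ U, ∀ y ∈ U,
      V.P (lift σ' x) (lift σ' y) = n.fr.g (x + ca a) * (n.fr.g (y + ca a))⁻¹ := by
    intro z hz
    obtain ⟨U, hU, hh⟩ := n.fr.loc (z + ca a) hz.2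
    have hc : Continuous fun q : Fin (d + 1) → ℂ => q + ca a := by fun_prop
    refine ⟨(fun q => q + ca a) ⁻¹' U ∩ Ov d r r' a,
      inter_mem (hc.continuousAt hU) ((isOpen_Ov r r' a).mem_nhds hz), fun x hx y hy => ?_⟩
    rw [h.lift hr hr' hx.2, h.lift hr hr' hy.2]
    exact hh _ hx.1 _ hy.1
  refine ⟨(n'.fr.g b)⁻¹ * n.fr.g (b + ca a), fun q hq => h.lift hr hr' hq, fun q hq => ?_⟩
  have h1 := frame_unique (convex_Ov r r' a).isPreconnected hloc hloc' hq hbm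
  rw [← h1]
  group

namespace Fc

variable {n : Nf V σ r} {n' : Nf V σ' r'} {a : Fin d → ℂ} {A : GL (Fin N) ℤ}

lemma symm (h : Fc n n' a A) : Fc n' n (-a) A⁻¹ := by
  have h1 : ∀ q ∈ Ov d r' r (-a), q + ca (-a) ∈ Ov d r r' a := by
    intro q hq
    refine ⟨hq.2, ?_⟩
    have : q + ca (-a) + ca a = q := by rw [ca_neg]; abel
    rw [this]; exact hq.1
  constructor
  · intro q hq
    have h2 := h.lft _ (h1 q hq)
    have : q + ca (-a) + ca a = q := by rw [ca_neg]; abel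
    rw [this] at h2
    exact h2.symm
  · intro q hq
    have h2 := h.g _ (h1 q hq)
    have : q + ca (-a) + ca a = q := by rw [ca_neg]; abel
    rw [this] at h2
    rw [h2]
    group

lemma E_eq (h : Fc n n' a A) {q : Fin (d + 1) → ℂ} (hq : q ∈ Ov d r r' a) :
    cm A * n.fr.E (q + ca a) = n'.fr.E q * cm A := by
  unfold Fr.E
  rw [h.g q hq, h.lft q hq, _root_.mul_inv_rev, cm_mul, cm_mul]
  have h1 : cm A * cm A⁻¹ = 1 := cm_mul_cm_inv _
  calc cm A * (cm A⁻¹ * cm (n'.fr.g q)⁻¹ * V.E (lift σ (q + ca a)) * (cm (n'.fr.g q) * cm A))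
      = (cm A * cm A⁻¹) * (cm (n'.fr.g q)⁻¹ * V.E (lift σ (q + ca a)) * cm (n'.fr.g q)) * cm A := by
        noncomm_ring
    _ = _ := by rw [h1, Matrix.one_mul]

lemma P_eq (h : Fc n n' a A) {q : Fin (d + 1) → ℂ} (hq : q ∈ Ov d r r' a) (p : ℕ) :
    PP n' p q * cm A = cm A * PP n p (q + ca a) := by
  show Ipc735.hq w (n'.fr.E q) p * cm A = cm A * Ipc735.hq w (n.fr.E (q + ca a)) p
  unfold Ipc735.hq
  split_ifs
  · exact (DiscA_651.hpr_comm (h.E_eq hq) w p).symm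
  · simp

lemma pull_eq (h : Fc n n' a A) (φ : X → Fin N → ℂ) {q : Fin (d + 1) → ℂ}
    (hq : q ∈ Ov d r r' a) : n'.fr.pull φ q = cm A *ᵥ n.fr.pull φ (q + ca a) := by
  unfold Fr.pull
  rw [h.g q hq, h.lft q hq, _root_.mul_inv_rev, cm_mul, Matrix.mulVec_mulVec, ← Matrix.mul_assoc,
    cm_mul_cm_inv, Matrix.one_mul]

lemma S_eq (h : Fc n n' a A) (hne : (Ov d r r' a).Nonempty) :
    n.fr.S = (cm A)ᴴ * n'.fr.S * cm A := by
  obtain ⟨q, hq⟩ := hne
  rw [n.fr.S_eq _ hq.2, n'.fr.S_eq _ hq.1, h.g q hq, ← h.lft q hq, cm_mul,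
    Matrix.conjTranspose_mul]
  noncomm_ring

lemma T_eq (h : Fc n n' a A) (hne : (Ov d r r' a).Nonempty) : n'.T * A = A * n.T := by
  obtain ⟨q, hq⟩ := hne
  have h1 := h.g _ (tw_mem_Ov 1 hq)
  rw [← tw_add_ca, n.mono _ hq.2, n'.mono _ hq.1, h.g q hq] at h1
  have h2 : A * n.T⁻¹ = n'.T⁻¹ * A := by
    have h3 : n'.fr.g q * (A * n.T⁻¹) = n'.fr.g q * (n'.T⁻¹ * A) := by
      rw [← mul_assoc, ← mul_assoc]; exact h1
    exact mul_left_cancel h3
  calc n'.T * A = n'.T * (A * n.T⁻¹) * n.T := by group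
    _ = A * n.T := by rw [h2]; group

lemma cmT_eq (h : Fc n n' a A) (hne : (Ov d r r' a).Nonempty) :
    cm n'.T * cm A = cm A * cm n.T := by
  rw [← cm_mul, ← cm_mul, h.T_eq hne]

lemma cmTpow_eq (h : Fc n n' a A) (hne : (Ov d r r' a).Nonempty) (e : ℕ) :
    cm n'.T ^ e * cm A = cm A * cm n.T ^ e := by
  induction e with
  | zero => simp
  | succ e ih => rw [pow_succ, Matrix.mul_assoc, h.cmT_eq hne, ← Matrix.mul_assoc, ih,
      Matrix.mul_assoc, ← pow_succ]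

/-- an intertwiner also intertwines polynomials -/
lemma aeval_int {B Y Y' : Matrix (Fin N) (Fin N) ℂ} (h : Y' * B = B * Y) (p : Polynomial ℚ) :
    Polynomial.aeval Y' p * B = B * Polynomial.aeval Y p := by
  induction p using Polynomial.induction_on' with
  | add f g hf hg => rw [map_add, map_add, mul_add, add_mul, hf, hg]
  | monomial k c =>
    rw [Polynomial.aeval_monomial, Polynomial.aeval_monomial]
    have h1 : ∀ k : ℕ, Y' ^ k * B = B * Y ^ k := by
      intro k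
      induction k with
      | zero => simp
      | succ k ih => rw [pow_succ, Matrix.mul_assoc, h, ← Matrix.mul_assoc, ih, Matrix.mul_assoc,
          ← pow_succ]
    have h2 : algebraMap ℚ (Matrix (Fin N) (Fin N) ℂ) c * B =
        B * algebraMap ℚ (Matrix (Fin N) (Fin N) ℂ) c := Algebra.commutes _ _
    rw [Matrix.mul_assoc, h1, ← Matrix.mul_assoc, h2, Matrix.mul_assoc]

lemma LL_eq (h : Fc n n' a A) (hne : (Ov d r r' a).Nonempty) (e : ℕ) :
    LL n' e * cm A = cm A * LL n e := by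
  unfold LL Log_25.lg
  refine aeval_int ?_ _
  rw [Matrix.sub_mul, Matrix.mul_sub, h.cmTpow_eq hne, Matrix.one_mul, Matrix.mul_one]

/-- the exponentials correspond -/
lemma EE_eq {B L L' : Matrix (Fin N) (Fin N) ℂ} (hL : IsNilpotent L) (hL' : IsNilpotent L')
    (h : L' * B = B * L) (s : ℂ) : EE L' s * B = B * EE L s := by
  unfold EE
  rw [GrA_217.exp_eq hL (n := Fintype.card (Fin N)) le_rfl,
    GrA_217.exp_eq hL' (n := Fintype.card (Fin N)) le_rfl, Finset.sum_mul, Finset.mul_sum]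
  refine Finset.sum_congr rfl fun j _ => ?_
  have h1 : ∀ k : ℕ, L' ^ k * B = B * L ^ k := by
    intro k
    induction k with
    | zero => simp
    | succ k ih => rw [pow_succ, Matrix.mul_assoc, h, ← Matrix.mul_assoc, ih, Matrix.mul_assoc,
        ← pow_succ]
  rw [Matrix.smul_mul, Matrix.mul_smul, h1]


end Fc

/-! ### the order along the divisor -/

section ord

variable {n : Nf V σ r} {n' : Nf V σ' r'} {a : Fin d → ℂ} {A : GL (Fin N) ℤ}

/-- the holomorphic extensions on the overlap of the polydiscs -/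
lemma ext_rel {e : ℕ} {k k' : ℤ} {z : ℂ} {Q f Q' f' : (Fin (d + 1) → ℂ) → Fin N → ℂ}
    (h : Fc n n' a A)
    (hl : LCh w e k (Real.log r) r n.fr.S (PP n) (cm n.T) z (LL n e) Q f)
    (hl' : LCh w e k' (Real.log r') r' n'.fr.S (PP n') (cm n'.T) z (LL n' e) Q' f')
    {c0 : ℂ} (hQ : ∀ q ∈ Ov d r r' a, Q' q = c0 • (cm A *ᵥ Q (q + ca a)))
    {u : ℂ} (hu0 : u ≠ 0) (hu : ‖u‖ < Real.exp (Real.log r / e))
    (hu' : ‖u‖ < Real.exp (Real.log r' / e)) {v : Fin d → ℂ} (hv' : ∀ i, ‖v i‖ < r')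
    (hv : ∀ i, ‖v i + a i‖ < r) :
    u ^ k' • f' (Fin.cons u v) = c0 • (cm A *ᵥ (u ^ k • f (Fin.cons u (v + a)))) := by
  have he := hl.he
  have heR : (0 : ℝ) < e := by exact_mod_cast he
  have heC : (e : ℂ) ≠ 0 := by exact_mod_cast he.ne'
  set q : Fin (d + 1) → ℂ := Fin.cons ((e : ℂ) * Complex.log u) v with hq
  have hq0 : q 0 / e = Complex.log u := by
    show (e : ℂ) * Complex.log u / e = _
    field_simp
  have hexp : Complex.exp (q 0 / e) = u := by rw [hq0, Complex.exp_log hu0]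
  have hre : ∀ {ρ : ℝ}, ‖u‖ < Real.exp (Real.log ρ / e) → (q 0).re < Real.log ρ := by
    intro ρ hρ
    have h1 : (q 0).re = e * Real.log ‖u‖ := by
      show ((e : ℂ) * Complex.log u).re = _
      simp [Complex.log_re]
    rw [h1]
    have h2 : Real.log ‖u‖ < Real.log ρ / e := by
      rw [Real.log_lt_iff_lt_exp (norm_pos_iff.mpr hu0)]; exact hρ
    rw [lt_div_iff₀ heR] at h2
    linarith
  have hqO : q ∈ Ov d r r' a := by
    refine ⟨⟨hre hu', hv'⟩, ?_, ?_⟩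
    · show (q 0 + 0).re < _
      rw [add_zero]; exact hre hu
    · exact hv
  have hqc0 : (q + ca a) 0 = q 0 := by
    show q 0 + 0 = q 0
    rw [add_zero]
  have htail : Fin.tail (q + ca a) = v + a := by
    funext i; rfl
  have h1 := hl'.f_Om q hqO.1
  have h2 := hl.f_Om (q + ca a) hqO.2
  rw [hexp] at h1
  rw [hqc0, hexp, htail] at h2
  have ht : Fin.tail q = v := by funext i; rfl
  rw [ht] at h1
  have hk : ∀ k : ℤ, u ^ k * Complex.exp (-(k * q 0 / e)) = 1 := by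
    intro k
    have e1 : u ^ k = Complex.exp (k * (q 0 / e)) := by
      rw [Complex.exp_int_mul, hexp]
    rw [e1, ← Complex.exp_add]
    have e2 : (k : ℂ) * (q 0 / e) + -(k * q 0 / e) = 0 := by ring
    rw [e2, Complex.exp_zero]
  have hEE := Fc.EE_eq hl.nil hl'.nil (h.LL_eq ⟨q, hqO⟩ e) (-(q 0 / (tpi * e)))
  rw [h1, h2, smul_smul, smul_smul, hk, hk, one_smul, one_smul, hQ q hqO, Matrix.mulVec_smul,
    Matrix.mulVec_mulVec, Matrix.mulVec_mulVec, hEE]

/-- the extension is analytic -/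
lemma f_an {e : ℕ} {k : ℤ} {z : ℂ} {ρ : ℝ} {S : Matrix (Fin N) (Fin N) ℂ}
    {P : ℕ → (Fin (d + 1) → ℂ) → Matrix (Fin N) (Fin N) ℂ} {T L : Matrix (Fin N) (Fin N) ℂ}
    {Q f : (Fin (d + 1) → ℂ) → Fin N → ℂ} {b : ℝ}
    (hl : LCh w e k b ρ S P T z L Q f) :
    AnalyticOnNhd ℂ f {q | ‖q 0‖ < Real.exp (b / e) ∧ ∀ i : Fin d, ‖q i.succ‖ < ρ} := by
  refine Crest.Agent.R266.SCV.analyticOnNhd_of_differentiableOn ?_ hl.hf
  have h : {q : Fin (d + 1) → ℂ | ‖q 0‖ < Real.exp (b / e) ∧ ∀ i : Fin d, ‖q i.succ‖ < ρ} =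
      {q | ‖q 0‖ < Real.exp (b / e)} ∩ ⋂ i : Fin d, {q | ‖q i.succ‖ < ρ} := by
    ext q; simp
  rw [h]
  refine (isOpen_lt (by fun_prop) continuous_const).inter (isOpen_iInter_of_finite fun i => ?_)
  exact isOpen_lt (by fun_prop) continuous_const

lemma cons_an (u : ℂ) (v : Fin d → ℂ) :
    AnalyticAt ℂ (fun v : Fin d → ℂ => (Fin.cons u v : Fin (d + 1) → ℂ)) v := by
  rw [analyticAt_pi_iff]
  intro i
  refine Fin.cases ?_ (fun j => ?_) i
  · exact analyticAt_const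
  · exact (ContinuousLinearMap.proj (R := ℂ) (φ := fun _ : Fin d => ℂ) j).analyticAt v

/-- the order of the second chart is at most the order of the first -/
lemma ord_le {e : ℕ} {k k' : ℤ} {z : ℂ} {Q f Q' f' : (Fin (d + 1) → ℂ) → Fin N → ℂ}
    (h : Fc n n' a A) (hr : 0 < r) {v0 : Fin d → ℂ} (hv0' : ∀ i, ‖v0 i‖ < r')
    (hv0 : ∀ i, ‖v0 i + a i‖ < r)
    (hl : LCh w e k (Real.log r) r n.fr.S (PP n) (cm n.T) z (LL n e) Q f)
    (hl' : LCh w e k' (Real.log r') r' n'.fr.S (PP n') (cm n'.T) z (LL n' e) Q' f')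
    {c0 : ℂ} (hc0 : c0 ≠ 0) (hQ : ∀ q ∈ Ov d r r' a, Q' q = c0 • (cm A *ᵥ Q (q + ca a)))
    (hne : ∃ y : Fin d → ℂ, (∀ i, ‖y i‖ < r) ∧ f (Fin.cons 0 y) ≠ 0) : k' ≤ k := by
  by_contra hlt
  rw [not_le] at hlt
  obtain ⟨j, hj⟩ : ∃ j : ℕ, k' = k + (j + 1) := by
    refine ⟨(k' - k - 1).toNat, ?_⟩
    rw [Int.toNat_of_nonneg (by omega)]; ring
  -- `f (0, ·)` vanishes on the overlap
  have hcons : ∀ (g : (Fin (d + 1) → ℂ) → Fin N → ℂ) (v : Fin d → ℂ),
      ContinuousAt g (Fin.cons 0 v) → ContinuousAt (fun u : ℂ => g (Fin.cons u v)) 0 := by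
    intro g v hg
    have h1 : ContinuousAt (fun u : ℂ => (Fin.cons u v : Fin (d + 1) → ℂ)) 0 := by
      rw [continuousAt_pi]
      intro i
      refine Fin.cases ?_ (fun j => ?_) i
      · exact continuousAt_id
      · exact continuousAt_const
    exact ContinuousAt.comp (g := g) (f := fun u : ℂ => (Fin.cons u v : Fin (d + 1) → ℂ)) hg h1
  have hz : ∀ v : Fin d → ℂ, (∀ i, ‖v i‖ < r') → (∀ i, ‖v i + a i‖ < r) →
      f (Fin.cons 0 (v + a)) = 0 := by
    intro v hv' hv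
    have hc : ContinuousAt (fun u : ℂ => f (Fin.cons u (v + a))) 0 :=
      hcons f (v + a) (f_an hl _ ⟨by simp [Real.exp_pos], hv⟩).continuousAt
    have hc' : ContinuousAt (fun u : ℂ => f' (Fin.cons u v)) 0 :=
      hcons f' v (f_an hl' _ ⟨by simp [Real.exp_pos], hv'⟩).continuousAt
    have h1 : Tendsto (fun u : ℂ => c0 • (cm A *ᵥ f (Fin.cons u (v + a)))) (𝓝[≠] 0)
        (𝓝 (c0 • (cm A *ᵥ f (Fin.cons 0 (v + a))))) := by
      have h2 : ContinuousAt (fun u : ℂ => c0 • (cm A *ᵥ f (Fin.cons u (v + a)))) 0 := by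
        have h3 : ContinuousAt (fun u : ℂ => cl (cm A) (f (Fin.cons u (v + a)))) 0 :=
          (cl (cm A)).continuous.continuousAt.comp hc
        exact h3.const_smul c0
      exact h2.tendsto.mono_left nhdsWithin_le_nhds
    have h2 : Tendsto (fun u : ℂ => u ^ (j + 1) • f' (Fin.cons u v)) (𝓝[≠] 0) (𝓝 0) := by
      have h3 : ContinuousAt (fun u : ℂ => u ^ (j + 1) • f' (Fin.cons u v)) 0 :=
        (continuousAt_id.pow (j + 1)).smul hc'
      have h4 := h3.tendsto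
      simp only [ne_eq, Nat.add_eq_zero_iff, one_ne_zero, and_false, not_false_eq_true, zero_pow,
        zero_smul] at h4
      exact h4.mono_left nhdsWithin_le_nhds
    have h3 : (fun u : ℂ => c0 • (cm A *ᵥ f (Fin.cons u (v + a)))) =ᶠ[𝓝[≠] 0]
        fun u : ℂ => u ^ (j + 1) • f' (Fin.cons u v) := by
      have h4 : ∀ᶠ u : ℂ in 𝓝[≠] 0, ‖u‖ < Real.exp (Real.log r / e) ∧
          ‖u‖ < Real.exp (Real.log r' / e) := by
        have h5 : ∀ ρ : ℝ, 0 < ρ → ∀ᶠ u : ℂ in 𝓝[≠] 0, ‖u‖ < ρ := by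
          intro ρ hρ
          refine nhdsWithin_le_nhds ?_
          filter_upwards [ball_mem_nhds (0 : ℂ) hρ] with u hu
          exact mem_ball_zero_iff.mp hu
        exact (h5 _ (Real.exp_pos _)).and (h5 _ (Real.exp_pos _))
      filter_upwards [h4, self_mem_nhdsWithin] with u hu hu0
      have hu0' : u ≠ 0 := hu0
      have h5 := ext_rel h hl hl' hQ hu0' hu.1 hu.2 hv' hv
      rw [hj, Matrix.mulVec_smul, smul_comm c0, _root_.zpow_add₀ hu0', mul_smul] at h5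
      have h6 := smul_right_injective (Fin N → ℂ) (zpow_ne_zero k hu0') h5
      rw [← h6]
      congr 1
    have h4 := tendsto_nhds_unique (h1.congr' h3) h2
    have h5 : cm A *ᵥ f (Fin.cons 0 (v + a)) = 0 := (smul_eq_zero.1 h4).resolve_left hc0
    have h6 := congrArg (fun x => cm A⁻¹ *ᵥ x) h5
    simp only [Matrix.mulVec_mulVec, cm_inv_mul_cm, Matrix.one_mulVec, Matrix.mulVec_zero] at h6
    exact h6
  -- identity theorem
  obtain ⟨y, hy, hy0⟩ := hne
  apply hy0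
  set U : Set (Fin d → ℂ) := {v | ∀ i, ‖v i‖ < r} with hU
  have hUb : U = ball 0 r := by
    ext y
    rw [mem_ball_zero_iff, pi_norm_lt_iff hr]
    rfl
  have hUc : IsPreconnected U := by rw [hUb]; exact (convex_ball 0 r).isPreconnected
  have ha2 : AnalyticOnNhd ℂ (fun v : Fin d → ℂ => f (Fin.cons 0 v)) U := by
    intro v hv
    exact (f_an hl (Fin.cons 0 v) ⟨by simp [Real.exp_pos], hv⟩).comp (cons_an 0 v)
  have hev : (fun v : Fin d → ℂ => f (Fin.cons 0 v)) =ᶠ[𝓝 (v0 + a)] 0 := by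
    have h1 : ∀ᶠ v in 𝓝 (v0 + a), (∀ i, ‖v i‖ < r) ∧ ∀ i, ‖(v - a) i‖ < r' := by
      have hop : IsOpen {v : Fin d → ℂ | (∀ i, ‖v i‖ < r) ∧ ∀ i, ‖(v - a) i‖ < r'} := by
        have e1 : {v : Fin d → ℂ | (∀ i, ‖v i‖ < r) ∧ ∀ i, ‖(v - a) i‖ < r'} =
            (⋂ i : Fin d, {v | ‖v i‖ < r}) ∩ ⋂ i : Fin d, {v | ‖(v - a) i‖ < r'} := by
          ext v; simp
        rw [e1]
        refine (isOpen_iInter_of_finite fun i => ?_).inter (isOpen_iInter_of_finite fun i => ?_)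
        · exact isOpen_lt (by fun_prop) continuous_const
        · exact isOpen_lt (by fun_prop) continuous_const
      refine hop.mem_nhds ⟨hv0, fun i => ?_⟩
      rw [add_sub_cancel_right]
      exact hv0' i
    filter_upwards [h1] with v hv
    have h2 := hz (v - a) hv.2 (by intro i; simpa using hv.1 i)
    rw [sub_add_cancel] at h2
    exact h2
  exact ha2.eqOn_zero_of_preconnected_of_eventuallyEq_zero hUc hv0 hev hy

end ord

end Crest.Agent.R276.BdNf7_651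
end
end

-- ▼ part R276/BdNf8_651

/-!
# Row 276, leaf BDNF (helper651), part 8 : the family of normal forms along a divisor
-/

set_option autoImplicit false
set_option linter.unusedSectionVars false

noncomputable section

open Set Filter Topology Matrix Metric MeasureTheory
open Crest.Agent.R271.Ho51
open Crest.Agent.R276.Ipc735
open Crest.Agent.R276.BdNf1_651
open Crest.Agent.R276.BdNf2_651
open Crest.Agent.R276.BdNf3_651
open Crest.Agent.R276.BdNf4_651
open Crest.Agent.R276.BdNf5_651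
open Crest.Agent.R276.BdNf6_651
open Crest.Agent.R276.BdNf7_651
open Crest.Agent.R276.VLevi_327 (CYL)
open Crest.Agent.R276.CntDefs_857 (PS DChart)
open Crest.Agent.R276.LftDefs_327 (WD LD)
open Crest.Agent.R276.GrA_217 (EE)
open Crest.Agent.R276.GrC_217 (LCh tpi)
open scoped ContDiff

namespace Crest.Agent.R276.BdNf8_651

open Ipc735 (hq)

/-! ### the sections correspond -/

section cmp

variable {d : ℕ} {N w : ℕ} {m : ℕ} {X : Type*} [TopologicalSpace X] [RDom m X]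
variable {r r' : ℝ} {σ σ' : (Fin (d + 1) → ℂ) → X} {V : VHS m X N w} {om : X → Fin N → ℂ}
variable {n : Nf V σ r} {n' : Nf V σ' r'} {a : Fin d → ℂ} {A : GL (Fin N) ℤ}

lemma ex_sub_int {x y : ℂ} (h : Complex.exp x = Complex.exp y) : ∃ k : ℤ, x - y = k * per := by
  obtain ⟨k, hk⟩ := Complex.exp_eq_exp_iff_exists_int.1 h
  exact ⟨k, by rw [hk]; unfold per; ring⟩

/-- two logarithms differ by a constant on the overlap -/
lemma log_const {O : Set (Fin (d + 1) → ℂ)} (hO : IsPreconnected O) {p p' : (Fin (d + 1) → ℂ) → ℂ}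
    (hp : ContinuousOn p O) (hp' : ContinuousOn p' O)
    (h : ∀ q ∈ O, Complex.exp (p' q) = Complex.exp (p q)) {q q1 : Fin (d + 1) → ℂ} (hq : q ∈ O)
    (hq1 : q1 ∈ O) : p' q - p q = p' q1 - p q1 := by
  refine Top1_358.prop_of_isPreconnected (X := Fin (d + 1) → ℂ) hO
    (P := fun x => p' q - p q = p' x - p x) ?_ hq rfl hq1
  intro x hx
  have hc : ContinuousWithinAt (fun y => p' y - p y) O x := (hp' x hx).sub (hp x hx)
  have h1 : ∀ᶠ y in 𝓝[O] x, ‖(p' y - p y) - (p' x - p x)‖ < 1 := by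
    have h2 := hc.tendsto
    have h3 := Metric.tendsto_nhds.1 h2 1 one_pos
    filter_upwards [h3] with y hy
    rwa [dist_eq_norm] at hy
  refine ⟨{y | ‖(p' y - p y) - (p' x - p x)‖ < 1} ∩ O, inter_mem h1 self_mem_nhdsWithin, ?_⟩
  rintro y ⟨hy, hyO⟩
  obtain ⟨k1, hk1⟩ := ex_sub_int (h x hx)
  obtain ⟨k2, hk2⟩ := ex_sub_int (h y hyO)
  have h4 : p' y - p y = p' x - p x := by
    have h5 : ‖(p' y - p y) - (p' x - p x)‖ = |(k2 - k1 : ℤ)| * (2 * Real.pi) := by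
      rw [hk1, hk2, ← sub_mul, norm_mul]
      have h6 : ‖per‖ = 2 * Real.pi := by
        unfold per
        simp [abs_of_pos Real.pi_pos]
      have h7 : ‖((k2 : ℂ) - k1)‖ = |((k2 - k1 : ℤ) : ℝ)| := by
        have : ((k2 : ℂ) - k1) = ((k2 - k1 : ℤ) : ℂ) := by push_cast; ring
        rw [this, Complex.norm_intCast]
      rw [h6, h7]
      push_cast
      ring
    have hy' : ‖(p' y - p y) - (p' x - p x)‖ < 1 := hy
    rw [h5] at hy'
    have h8 : k2 - k1 = 0 := by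
      by_contra hne
      have h9 : (1 : ℝ) ≤ (|(k2 - k1 : ℤ)| : ℤ) := by
        exact_mod_cast Int.one_le_abs hne
      have h10 := Real.pi_gt_three
      nlinarith
    have h11 : k2 = k1 := by omega
    rw [hk1, hk2, h11]
  show (_ = _) ↔ (_ = _)
  rw [h4]

/-- the twisted sections correspond -/
theorem Om_cmp (h : Fc n n' a A) (hr : 0 < r) (hr' : 0 < r') (hne : (Ov d r r' a).Nonempty) (ku : ℤ)
    {M0 : ℕ} (hM : 0 < M0) {g g' : (Fin (d + 1) → ℂ) → ℂ}
    (hg : DifferentiableOn ℂ g (ball 0 r)) (hg' : DifferentiableOn ℂ g' (ball 0 r'))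
    (hexp : ∀ q ∈ Ov d r r' a, Complex.exp (g' (ex q)) = Complex.exp (g (ex (q + ca a)))) :
    ∃ c : ℂ, ‖c‖ = 1 ∧ c ^ M0 = 1 ∧ ∀ q ∈ Ov d r r' a,
      Om n' om ku M0 g' q = c • (cm A *ᵥ Om n om ku M0 g (q + ca a)) := by
  have hsub : ∀ {ρ : ℝ}, 0 < ρ → PS d ρ ⊆ ball 0 ρ := by
    intro ρ hρ q hq
    rw [mem_ball_zero_iff, pi_norm_lt_iff hρ]
    exact hq.2
  have hc1 : ContinuousOn (fun q => g' (ex q)) (Ov d r r' a) :=
    hg'.continuousOn.comp differentiable_ex.continuous.continuousOn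
      fun q hq => hsub hr' (ex_mem hr' hq.1)
  have hc2 : ContinuousOn (fun q => g (ex (q + ca a))) (Ov d r r' a) :=
    hg.continuousOn.comp (differentiable_ex.continuous.comp (by fun_prop)).continuousOn
      fun q hq => hsub hr (ex_mem hr hq.2)
  obtain ⟨b, hb⟩ := hne
  obtain ⟨j, hj⟩ := ex_sub_int (hexp b hb)
  refine ⟨Complex.exp (j * per / M0), norm_zM j M0, zM_pow j hM, fun q hq => ?_⟩
  have h1 := log_const (convex_Ov r r' a).isPreconnected hc2 hc1 hexp hq hb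
  rw [hj] at h1
  unfold Om
  rw [h.pull_eq om hq, Matrix.mulVec_smul, smul_smul]
  congr 1
  unfold fac
  rw [← Complex.exp_add]
  congr 1
  have h2 : (q + ca a) 0 = q 0 := by show q 0 + 0 = q 0; rw [add_zero]
  rw [h2]
  have h3 : g' (ex q) = g (ex (q + ca a)) + j * per := by rw [← h1]; ring
  rw [h3]
  ring

end cmp

/-! ### the family -/

section fam

variable {d m N w : ℕ} {M E X : Type*} [TopologicalSpace M] [RDom (d + 1) M]
    [MeasurableSpace M] {μ : Measure M} [TopologicalSpace E] [RDom d E] [TopologicalSpace X]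
    [RDom m X] {D : DChart M E μ} {V : VHS m X N w} {om : X → Fin N → ℂ} {u : X → ℂ}
    {f : X → M}

lemma r_le_one (D : DChart M E μ) (y : E) : D.r y ≤ 1 := GrF_217.radf_le_one D.hc0 D.hc1

/-- the maps of the boundary charts -/
lemma hp (l : LD D V om u f) (y : E) : HP (l.s y) (D.r y) :=
  ⟨GrH_217.r_pos D y, l.cont y, l.hol y⟩

/-- family of normal forms along the divisor -/
structure BFam (l : LD D V om u f) (M0 : ℕ) (ψ : M → ℝ) where
  n : ∀ y, Nf V (l.s y) (D.r y)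
  g : E → (Fin (d + 1) → ℂ) → ℂ
  hg : ∀ y, DifferentiableOn ℂ (g y) (ball 0 (D.r y))
  ug : ∀ y, ∀ q ∈ PS d (D.r y), u (l.s y q) = q 0 ^ l.ku * Complex.exp (g y q)
  k : ℤ
  F : E → (Fin (d + 1) → ℂ) → Fin N → ℂ
  lch : ∀ y, LCh w (eN N * M0) k (Real.log (D.r y)) (D.r y) (n y).fr.S (PP (n y)) (cm (n y).T)
    (zM l.ku M0) (LL (n y) (eN N * M0)) (Om (n y) om l.ku M0 (g y)) (F y)
  cy : ∀ y, Cy w (HS d (D.r y)) (PP (n y)) (Om (n y) om l.ku M0 (g y))
  ne : ∀ y, ∃ v : Fin d → ℂ, (∀ i, ‖v i‖ < D.r y) ∧ F y (Fin.cons 0 v) ≠ 0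
  psi : ∀ y, ∀ q ∈ HS d (D.r y),
    H (n y) q (Om (n y) om l.ku M0 (g y) q) = Real.exp (-ψ (D.σ y (ex q)))
  tr : ∀ (y : E) (ε : OpenPartialHomeomorph E (Fin d → ℂ)), IsCh ε → y ∈ ε.source →
    ε.target = ball (cp y) (D.r y) → ∀ y' ∈ ε.source,
    ∃ (A : GL (Fin N) ℤ) (c : ℂ), Fc (n y) (n y') (cp y' - cp y) A ∧ ‖c‖ = 1 ∧ c ^ M0 = 1 ∧
      (Ov d (D.r y) (D.r y') (cp y' - cp y)).Nonempty ∧
      ∀ q ∈ Ov d (D.r y) (D.r y') (cp y' - cp y), Om (n y') om l.ku M0 (g y') q =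
        c • (cm A *ᵥ Om (n y) om l.ku M0 (g y) (q + ca (cp y' - cp y)))

/-- points of the chart ball -/
lemma cp_sub_lt {y y' : E} {ε : OpenPartialHomeomorph E (Fin d → ℂ)} (hε : IsCh ε)
    (ht : ε.target = ball (cp y) (D.r y)) (hy' : y' ∈ ε.source) (i : Fin d) :
    ‖((cp y' : Fin d → ℂ) - cp y) i‖ < D.r y := by
  have h1 : (cp y' : Fin d → ℂ) ∈ ball (cp y) (D.r y) := by
    rw [← ht]; exact hε.cp_mem hy'
  rw [mem_ball, dist_eq_norm] at h1
  exact lt_of_le_of_lt (norm_le_pi_norm _ i) h1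

/-- the growth of the twisted section -/
lemma growth_Om (l : LD D V om u f) (hc : CYL V om) (M0 : ℕ) (y : E) (n : Nf V (l.s y) (D.r y))
    {g G : (Fin (d + 1) → ℂ) → ℂ}
    (hG : ∀ q ∈ ball (0 : Fin (d + 1) → ℂ) (D.r y), G q ≠ 0 ∧
      |Real.log ‖G q‖| ≤ l.C * (1 + Real.log (1 / D.r y)))
    (hu : ∀ q ∈ PS d (D.r y), u (l.s y q) = q 0 ^ l.ku * G q)
    (hgG : ∀ q ∈ ball (0 : Fin (d + 1) → ℂ) (D.r y), Complex.exp (g q) = G q) :
    ∃ A C : ℝ, 0 ≤ C ∧ ∀ q ∈ HS d (D.r y), H n q (Om n om l.ku M0 g q) ≤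
      C * Real.exp (-A * (q 0).re) := by
  have hr := GrH_217.r_pos D y
  have hr1 := r_le_one D y
  set B : ℝ := l.C * (1 + Real.log (1 / D.r y)) with hB
  refine ⟨l.C + 2 * |(l.ku : ℝ)| / M0, Real.exp (B + 2 / M0 * B), (Real.exp_pos _).le,
    fun q hq => ?_⟩
  have hqP : ex q ∈ PS d (D.r y) := ex_mem hr hq
  have hqb : ex q ∈ ball (0 : Fin (d + 1) → ℂ) (D.r y) := by
    rw [mem_ball_zero_iff, pi_norm_lt_iff hr]; exact hqP.2
  rw [H_Om_eq n hc l.ku M0 hq (hgG _ hqb) (hu _ hqP), ← Real.exp_add]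
  apply Real.exp_le_exp.2
  have h1 := l.psi_le y _ hqP
  have hn0 : ‖ex q 0‖ = Real.exp (q 0).re := by rw [ex_zero, Complex.norm_exp]
  have hlog : Real.log (1 / ‖ex q 0‖) = -(q 0).re := by
    rw [hn0, one_div, Real.log_inv, Real.log_exp]
  have hre : (q 0).re ≤ 0 := by
    have : Real.log (D.r y) ≤ 0 := Real.log_nonpos hr.le hr1
    have h2 : (q 0).re < Real.log (D.r y) := hq.1
    linarith
  rw [hlog] at h1
  obtain ⟨hG0, hGb⟩ := hG _ hqb
  have h2 : Real.log (‖u (l.s y (ex q))‖ ^ 2) = 2 * (l.ku * (q 0).re + Real.log ‖G (ex q)‖) := by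
    rw [hu _ hqP, norm_mul, norm_zpow, hn0, Real.log_pow, Real.log_mul
      (zpow_ne_zero _ (Real.exp_pos _).ne') (norm_ne_zero_iff.mpr hG0), Real.log_zpow,
      Real.log_exp]
    push_cast
    ring
  rw [h2]
  have h3 := (abs_le.1 h1).1
  have h4 := (abs_le.1 hGb).2
  have h5 : (l.ku : ℝ) * (q 0).re ≤ |(l.ku : ℝ)| * (-(q 0).re) := by
    calc (l.ku : ℝ) * (q 0).re ≤ |(l.ku : ℝ) * (q 0).re| := le_abs_self _
      _ = |(l.ku : ℝ)| * (-(q 0).re) := by rw [abs_mul, abs_of_nonpos hre]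
  have h6 : (1 : ℝ) / M0 * (2 * (l.ku * (q 0).re + Real.log ‖G (ex q)‖)) ≤
      1 / M0 * (2 * (|(l.ku : ℝ)| * (-(q 0).re) + B)) := by
    refine mul_le_mul_of_nonneg_left ?_ (by positivity)
    linarith
  have h7 : (1 : ℝ) / M0 * (2 * (|(l.ku : ℝ)| * (-(q 0).re) + B)) =
      2 * |(l.ku : ℝ)| / M0 * (-(q 0).re) + 2 / M0 * B := by ring
  rw [h7] at h6
  have h8 : l.C * (1 + Real.log (1 / D.r y) + -(q 0).re) = B + l.C * (-(q 0).re) := by
    rw [hB]; ring
  rw [h8] at h3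
  nlinarith

/-- a chart ball around every point of the divisor -/
lemma exists_chart (D : DChart M E μ) (y : E) : ∃ ε : OpenPartialHomeomorph E (Fin d → ℂ),
    IsCh ε ∧ y ∈ ε.source ∧ ε.target = ball (cp y) (D.r y) := by
  obtain ⟨s, h1, -, h3⟩ := D.cov.ev (cp y) (D.r y) (GrH_217.r_pos D y) (D.hball y)
  have hy : y ∈ (cp ⁻¹' ball (cp y) (D.r y) : Set E) := mem_ball_self (GrH_217.r_pos D y)
  rw [h3] at hy
  obtain ⟨i, hi⟩ := mem_iUnion.mp hy
  exact ⟨s i, (h1 i).1, hi, (h1 i).2⟩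

/-- **BDNF**: the family of normal forms along the divisor -/
theorem exists_bfam {φ ψ : M → ℝ} {M0 : ℕ} {ι : Fin (d + 1) → Fin m}
    (hw : WD V om u M0 f ι φ ψ) (l : LD D V om u f) : Nonempty (BFam l M0 ψ) := by
  classical
  have hc := hw.cyl
  have hM := hw.hM
  -- frames
  obtain ⟨n⟩ : Nonempty (∀ y, Nf V (l.s y) (D.r y)) :=
    ⟨fun y => (exists_nf V (hp l y)).some⟩
  -- logarithms
  have hlog : ∀ y, ∃ (g G : (Fin (d + 1) → ℂ) → ℂ), DifferentiableOn ℂ g (ball 0 (D.r y)) ∧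
      (∀ q ∈ ball (0 : Fin (d + 1) → ℂ) (D.r y), Complex.exp (g q) = G q) ∧
      (∀ q ∈ ball (0 : Fin (d + 1) → ℂ) (D.r y), G q ≠ 0 ∧
        |Real.log ‖G q‖| ≤ l.C * (1 + Real.log (1 / D.r y))) ∧
      ∀ q ∈ PS d (D.r y), u (l.s y q) = q 0 ^ l.ku * G q := by
    intro y
    obtain ⟨G, hG, hG0, hu⟩ := l.unit y
    obtain ⟨g, hg, hgG⟩ := exists_hlog (convex_ball _ _) isOpen_ball
      ⟨0, mem_ball_self (GrH_217.r_pos D y)⟩ hG fun q hq => (hG0 q hq).1
    exact ⟨g, G, hg, hgG, hG0, hu⟩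
  choose g G hg hgG hG hu using hlog
  have hsub : ∀ y, PS d (D.r y) ⊆ ball (0 : Fin (d + 1) → ℂ) (D.r y) := by
    intro y q hq
    rw [mem_ball_zero_iff, pi_norm_lt_iff (GrH_217.r_pos D y)]
    exact hq.2
  have ug : ∀ y, ∀ q ∈ PS d (D.r y), u (l.s y q) = q 0 ^ l.ku * Complex.exp (g y q) := by
    intro y q hq
    rw [hgG y q (hsub y hq), hu y q hq]
  have hcy : ∀ y, Cy w (HS d (D.r y)) (PP (n y)) (Om (n y) om l.ku M0 (g y)) := fun y =>
    cy_Om (n y) (hp l y) hc l.ku M0 ((hg y).mono (hsub y))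
  -- the normal forms
  have hL : ∀ y, ∃ (k : ℤ) (F : (Fin (d + 1) → ℂ) → Fin N → ℂ),
      LCh w (eN N * M0) k (Real.log (D.r y)) (D.r y) (n y).fr.S (PP (n y)) (cm (n y).T)
        (zM l.ku M0) (LL (n y) (eN N * M0)) (Om (n y) om l.ku M0 (g y)) F ∧
      ∃ v : Fin d → ℂ, (∀ i, ‖v i‖ < D.r y) ∧ F (Fin.cons 0 v) ≠ 0 := by
    intro y
    obtain ⟨A, C, hC, hgr⟩ := growth_Om l hc M0 y (n y) (hG y) (hu y) (hgG y)
    exact exists_lch (n y) (hp l y) hM (norm_zM _ _) (zM_pow _ hM) (hcy y)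
      (fun k q hq => Om_tw (n y) l.ku M0 (g y) k hq) hC hgr
  choose k F hlch hne using hL
  -- transitions
  have htr : ∀ (y : E) (ε : OpenPartialHomeomorph E (Fin d → ℂ)), IsCh ε → y ∈ ε.source →
    ε.target = ball (cp y) (D.r y) → ∀ y' ∈ ε.source,
    ∃ (A : GL (Fin N) ℤ) (c : ℂ), Fc (n y) (n y') (cp y' - cp y) A ∧ ‖c‖ = 1 ∧ c ^ M0 = 1 ∧
      (Ov d (D.r y) (D.r y') (cp y' - cp y)).Nonempty ∧
      ∀ q ∈ Ov d (D.r y) (D.r y') (cp y' - cp y), Om (n y') om l.ku M0 (g y') q =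
        c • (cm A *ᵥ Om (n y) om l.ku M0 (g y) (q + ca (cp y' - cp y))) := by
    intro y ε hε hy ht y' hy'
    have hr := GrH_217.r_pos D y
    have hr' := GrH_217.r_pos D y'
    set a : Fin d → ℂ := cp y' - cp y with ha
    have han : ∀ i, ‖a i‖ < D.r y := fun i => cp_sub_lt hε ht hy' i
    have hcpt : Cpt (l.s y) (l.s y') (D.r y) (D.r y') a := fun q hq hq' =>
      l.compat y ε hε hy ht y' hy' q hq hq'
    have hOv : (Ov d (D.r y) (D.r y') a).Nonempty := ⟨_, Ov_nonempty hr' han⟩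
    obtain ⟨A, hA⟩ := exists_fc (n y) (n y') hr hr' han hcpt
    have hexp : ∀ q ∈ Ov d (D.r y) (D.r y') a,
        Complex.exp (g y' (ex q)) = Complex.exp (g y (ex (q + ca a))) := by
      intro q hq
      have h1 := ug y' _ (ex_mem hr' hq.1)
      have h2 := ug y _ (ex_mem hr hq.2)
      have h3 : l.s y' (ex q) = l.s y (ex (q + ca a)) := hA.lft q hq
      have h4 : ex (q + ca a) 0 = ex q 0 := by
        show Complex.exp (q 0 + 0) = Complex.exp (q 0)
        rw [add_zero]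
      rw [h3, h2, h4] at h1
      exact (mul_left_cancel₀ (zpow_ne_zero _ (Complex.exp_ne_zero _)) h1).symm
    obtain ⟨c, hc1, hc2, hc3⟩ := Om_cmp (om := om) hA hr hr' hOv l.ku hM (hg y) (hg y') hexp
    exact ⟨A, c, hA, hc1, hc2, hOv, hc3⟩
  -- the order is locally constant
  have hkloc : ∀ y y' : E, (∃ ε : OpenPartialHomeomorph E (Fin d → ℂ), IsCh ε ∧ y ∈ ε.source ∧
      ε.target = ball (cp y) (D.r y) ∧ y' ∈ ε.source) → k y' = k y := by
    rintro y y' ⟨ε, hε, hy, ht, hy'⟩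
    have hr := GrH_217.r_pos D y
    have hr' := GrH_217.r_pos D y'
    obtain ⟨A, c, hA, hc1, -, hOv, hQ⟩ := htr y ε hε hy ht y' hy'
    set a : Fin d → ℂ := cp y' - cp y with ha
    have han : ∀ i, ‖a i‖ < D.r y := fun i => cp_sub_lt hε ht hy' i
    have hc0 : c ≠ 0 := by rintro rfl; simp at hc1
    apply le_antisymm
    · exact ord_le hA hr (v0 := 0) (by simpa using fun _ => hr') (by simpa using han)
        (hlch y) (hlch y') hc0 hQ (hne y)
    · refine ord_le (c0 := c⁻¹) hA.symm hr' (v0 := a) han (by simpa using fun _ => hr')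
        (hlch y') (hlch y) (inv_ne_zero hc0) ?_ (hne y')
      intro q hq
      have hq' : q + ca (-a) ∈ Ov d (D.r y) (D.r y') a := by
        refine ⟨hq.2, ?_⟩
        have : q + ca (-a) + ca a = q := by rw [ca_neg]; abel
        rw [this]; exact hq.1
      have h1 := hQ _ hq'
      have h2 : q + ca (-a) + ca a = q := by rw [ca_neg]; abel
      rw [h2] at h1
      rw [h1, Matrix.mulVec_smul, Matrix.mulVec_mulVec, cm_inv_mul_cm, Matrix.one_mulVec,
        smul_smul, inv_mul_cancel₀ hc0, one_smul]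
  have hlc : IsLocallyConstant k := by
    rw [IsLocallyConstant.iff_eventually_eq]
    intro y
    obtain ⟨ε, hε, hy, ht⟩ := exists_chart D y
    filter_upwards [ε.open_source.mem_nhds hy] with y' hy'
    exact hkloc y y' ⟨ε, hε, hy, ht, hy'⟩
  rcases isEmpty_or_nonempty E with hE | ⟨⟨y0⟩⟩
  · exact ⟨⟨n, g, hg, ug, 0, F, fun y => (hE.false y).elim, hcy, fun y => (hE.false y).elim,
      fun y => (hE.false y).elim, htr⟩⟩
  · have hk : ∀ y, k y = k y0 := fun y =>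
      hlc.apply_eq_of_isPreconnected D.conn (mem_univ y) (mem_univ y0)
    refine ⟨⟨n, g, hg, ug, k y0, F, fun y => ?_, hcy, hne, fun y q hq => ?_, htr⟩⟩
    · rw [← hk y]; exact hlch y
    · have hqP : ex q ∈ PS d (D.r y) := ex_mem (GrH_217.r_pos D y) hq
      rw [H_Om_eq (n y) hc l.ku M0 hq (G := fun q => Complex.exp (g y q)) rfl (ug y _ hqP),
        ← l.fs y _ hqP, hw.hψ]

namespace BFam

variable {l : LD D V om u f} {M0 : ℕ} {ψ : M → ℝ}

/-- helper217's family, given that `f (0, ·)` has no zeros -/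
def toLFam (B : BFam l M0 ψ) (h0 : ∀ y, B.F y 0 ≠ 0) :
    GrH_217.LFam (Fin N) D w (eN N * M0) B.k ψ where
  S := fun y => (B.n y).fr.S
  P := fun y => PP (B.n y)
  T := fun y => cm (B.n y).T
  z := fun _ => zM l.ku M0
  L := fun y => LL (B.n y) (eN N * M0)
  Om := fun y => Om (B.n y) om l.ku M0 (B.g y)
  f := B.F
  lch := B.lch
  f0 := h0
  psi := fun y q hq => by
    have h1 := B.psi y q hq
    rw [H_eq] at h1
    exact h1.symm
  tr := fun y ε hε hy ht y' hy' _ => by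
    obtain ⟨A, c, hA, hc1, -, hOv, hQ⟩ := B.tr y ε hε hy ht y' hy'
    exact ⟨cm A, c, hc1, (hA.S_eq hOv).symm, hA.LL_eq hOv _, fun q hq hq' p => hA.P_eq ⟨hq, hq'⟩ p,
      fun q hq hq' => hQ q ⟨hq, hq'⟩⟩

end BFam

end fam

end Crest.Agent.R276.BdNf8_651
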