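import Crest.Agent.R276.Div_767

-- ▼ part R276/Bdy_767
section

/-!
# R276, leaf B-767 (helper767): the limit metric on a boundary divisor and the rank drop

`f (u, y)` (`= om0`) is the holomorphic extension over `u = 0` of the untwisted section
`exp (-(w / 2 π i) N) om (w, y)`, `u = e ^ w`; `S` is the polarisation (conjugate linear in the
first slot), `N` the logarithm of the unipotent part of the monodromy (`S (N u) v = - S u (N v)`),
`K = i N` is self adjoint.  `hc k (0, y) = π ^ (-k) / k! * S (f (0, y)) (K ^ k (f (0, y)))` is the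
limit metric when `k` is the largest index for which it is not identically zero.
-/

set_option autoImplicit false
set_option linter.unusedSectionVars false

open Set Filter Topology Metric Complex MeasureTheory
open scoped Real ContDiff ComplexConjugate

noncomputable section

namespace Crest.Agent.R276.Bdy_767

open Div_767

variable {V : Type*} [NormedAddCommGroup V] [NormedSpace ℂ V]
variable {E : Type*} [NormedAddCommGroup E] [NormedSpace ℂ E]

/-- boundary data -/
structure Bd (S : V →L⋆[ℂ] V →L[ℂ] ℂ) (N : V →L[ℂ] V) (r : ℝ) (U : Set E)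
    (f : ℂ × E → V) : Prop where
  hr : 0 < r
  hU : IsOpen U
  herm : ∀ u v, S u v = conj (S v u)
  skew : ∀ u v, S (N u) v = - S u (N v)
  nil : IsNilpotent N
  an : AnalyticOnNhd ℂ f (ball 0 r ×ˢ U)

/-- `K = i N` -/
def KK (N : V →L[ℂ] V) : V →L[ℂ] V := I • N

theorem KK_apply (N : V →L[ℂ] V) (v : V) : KK N v = I • N v := rfl

/-- the covariant derivative `(N / 2 π i + u ∂_u) f` in the untwisted frame -/
def XX (N : V →L[ℂ] V) (f : ℂ × E → V) (p : ℂ × E) : V :=
  (2 * π * I : ℂ)⁻¹ • N (f p) + p.1 • fderiv ℂ f p ((1 : ℂ), (0 : E))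

/-- the vectors `f, ∂_{e i} f` -/
def mm {ι : Type*} (f : ℂ × E → V) (e : ι → E) (j : Option ι) (p : ℂ × E) : V :=
  j.elim (f p) (fun i => fderiv ℂ f p ((0 : ℂ), e i))

@[simp] theorem mm_none {ι : Type*} (f : ℂ × E → V) (e : ι → E) (p : ℂ × E) :
    mm f e none p = f p := rfl

@[simp] theorem mm_some {ι : Type*} (f : ℂ × E → V) (e : ι → E) (i : ι) (p : ℂ × E) :
    mm f e (some i) p = fderiv ℂ f p ((0 : ℂ), e i) := rfl

/-- the Gram matrix of two families with respect to `S (·) (L ·)` -/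
def gram {κ : Type*} (S : V →L⋆[ℂ] V →L[ℂ] ℂ) (L : V →L[ℂ] V) (a b : κ → V) : Matrix κ κ ℂ :=
  fun i j => S (a i) (L (b j))

/-! ### algebra -/

section alg

variable {S : V →L⋆[ℂ] V →L[ℂ] ℂ} {N : V →L[ℂ] V}

theorem KK_adj (hs : ∀ u v, S (N u) v = - S u (N v)) (u v : V) :
    S (KK N u) v = S u (KK N v) := by
  simp only [KK_apply, map_smulₛₗ, smul_apply, hs, smul_eq_mul,
    conj_I, RingHom.id_apply]
  ring

theorem KKpow_adj (hs : ∀ u v, S (N u) v = - S u (N v)) (k : ℕ) (u v : V) :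
    S ((KK N ^ k) u) v = S u ((KK N ^ k) v) := by
  induction k generalizing u v with
  | zero => simp
  | succ k ih =>
    have h1 : (KK N ^ (k + 1)) u = (KK N ^ k) (KK N u) := by
      rw [pow_succ]; rfl
    have h2 : (KK N ^ (k + 1)) v = KK N ((KK N ^ k) v) := by
      rw [pow_succ']; rfl
    rw [h1, h2, ih, KK_adj hs]

theorem KKpow_herm (hh : ∀ u v, S u v = conj (S v u)) (hs : ∀ u v, S (N u) v = - S u (N v))
    (k : ℕ) (u v : V) : S u ((KK N ^ k) v) = conj (S v ((KK N ^ k) u)) := by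
  rw [hh, KKpow_adj hs]

theorem KKpow_real (hh : ∀ u v, S u v = conj (S v u)) (hs : ∀ u v, S (N u) v = - S u (N v))
    (k : ℕ) (u : V) : (S u ((KK N ^ k) u)).im = 0 := by
  have h := KKpow_herm hh hs k u u
  have h2 := congrArg Complex.im h
  rw [Complex.conj_im] at h2
  linarith

theorem KK_nil (h : IsNilpotent N) : IsNilpotent (KK N) := by
  obtain ⟨n, hn⟩ := h
  refine ⟨n, ?_⟩
  rw [KK, smul_pow, hn, smul_zero]

end alg

/-! ### analyticity of determinants -/

theorem analyticAt_det {κ : Type*} [Fintype κ] [DecidableEq κ] {X : Type*}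
    [NormedAddCommGroup X] [NormedSpace ℂ X] {A : X → Matrix κ κ ℂ} {x : X}
    (h : ∀ i j, AnalyticAt ℂ (fun z => A z i j) x) : AnalyticAt ℂ (fun z => (A z).det) x := by
  simp only [Matrix.det_apply]
  refine Finset.analyticAt_fun_sum _ (fun σ _ => ?_)
  have h1 : AnalyticAt ℂ (fun z => ∏ i, A z (σ i) i) x :=
    Finset.analyticAt_fun_prod _ (fun i _ => h _ _)
  have h2 : (fun z => Equiv.Perm.sign σ • ∏ i, A z (σ i) i) =
      fun z => ((Equiv.Perm.sign σ : ℤ) : ℂ) * ∏ i, A z (σ i) i := by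
    ext z
    rw [Units.smul_def, zsmul_eq_mul]
  rw [h2]
  exact analyticAt_const.mul h1

/-- **Cramer with holomorphic coefficients**: if `X p` is a combination of the `m j p` for `p ≠`
special, and the Gram matrix of `m j p` against fixed functionals is invertible at `p0`, then the
coefficients are holomorphic near `p0`. -/
theorem cramer {κ : Type*} [Fintype κ] [DecidableEq κ] {X : Type*}
    [NormedAddCommGroup X] [NormedSpace ℂ X] {Z : X → V} {m : κ → X → V} {l : κ → V →L[ℂ] ℂ}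
    {p0 : X} (hZ : AnalyticAt ℂ Z p0) (hm : ∀ j, AnalyticAt ℂ (m j) p0)
    (hdet : (Matrix.of fun i j => l i (m j p0)).det ≠ 0) :
    ∃ x : κ → X → ℂ, (∀ j, AnalyticAt ℂ (x j) p0) ∧
      ∀ᶠ p in 𝓝 p0, ∀ c : κ → ℂ, Z p = ∑ j, c j • m j p → ∀ j, x j p = c j := by
  set G : X → Matrix κ κ ℂ := fun p => Matrix.of fun i j => l i (m j p) with hG
  set b : X → κ → ℂ := fun p i => l i (Z p) with hb
  have hGa : ∀ i j, AnalyticAt ℂ (fun p => G p i j) p0 := by
    intro i j
    exact ((l i).analyticAt _).comp (hm j)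
  have hba : ∀ i, AnalyticAt ℂ (fun p => b p i) p0 := by
    intro i
    exact ((l i).analyticAt _).comp hZ
  have hd : AnalyticAt ℂ (fun p => (G p).det) p0 := analyticAt_det hGa
  have hcr : ∀ j, AnalyticAt ℂ (fun p => (G p).cramer (b p) j) p0 := by
    intro j
    simp only [Matrix.cramer_apply]
    refine analyticAt_det (fun i i' => ?_)
    simp only [Matrix.updateCol_apply]
    split_ifs
    · exact hba i
    · exact hGa i i'
  refine ⟨fun j p => (G p).cramer (b p) j / (G p).det, fun j => (hcr j).div hd hdet, ?_⟩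
  filter_upwards [hd.continuousAt.eventually_ne hdet] with p hp c hc j
  have h1 : b p = (G p).mulVec c := by
    ext i
    simp only [hb, hG, Matrix.mulVec, dotProduct, Matrix.of_apply]
    rw [hc, map_sum]
    refine Finset.sum_congr rfl fun j _ => ?_
    rw [map_smul, smul_eq_mul, mul_comm]
  have h2 : (G p).cramer (b p) = (G p).det • c := by
    rw [Matrix.cramer_eq_adjugate_mulVec, h1, Matrix.mulVec_mulVec, Matrix.adjugate_mul,
      Matrix.smul_mulVec, Matrix.one_mulVec]
  rw [h2, Pi.smul_apply, smul_eq_mul, mul_div_cancel_left₀ _ hp]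

/-! ### the vanishing of `H'` -/

/-- differentiate `S (g y) (L (g y)) = 0` in the directions `v` and `i v` -/
theorem deriv_zero {S : V →L⋆[ℂ] V →L[ℂ] ℂ} {L : V →L[ℂ] V} {g : E → V} {y : E}
    (hg : DifferentiableAt ℂ g y) (h : ∀ᶠ z in 𝓝 y, S (g z) (L (g z)) = 0) (v : E) :
    S (fderiv ℂ g y v) (L (g y)) = 0 ∧ S (g y) (L (fderiv ℂ g y v)) = 0 := by
  have key : ∀ v : E, S (fderiv ℂ g y v) (L (g y)) + S (g y) (L (fderiv ℂ g y v)) = 0 := by
    intro v
    have hline : HasDerivAt (fun t : ℝ => y + t • v) v 0 := by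
      simpa using ((hasDerivAt_id (0 : ℝ)).smul_const v).const_add y
    have h1 : HasDerivAt (fun t : ℝ => g (y + t • v)) (fderiv ℂ g y v) 0 := by
      have h2 : HasFDerivAt g ((fderiv ℂ g y).restrictScalars ℝ) (y + (0 : ℝ) • v) := by
        simpa using hg.hasFDerivAt.restrictScalars ℝ
      exact h2.comp_hasDerivAt (0 : ℝ) hline
    -- the real bilinear map
    have h3 : HasDerivAt (fun t : ℝ => S (g (y + t • v)) (L (g (y + t • v))))
        (S (fderiv ℂ g y v) (L (g y)) + S (g y) (L (fderiv ℂ g y v))) 0 := by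
      set B : V →L[ℝ] V →L[ℝ] ℂ :=
        LinearMap.mkContinuous₂ (LinearMap.mk₂ ℝ (fun a b => S a b)
          (fun a a' b => by simp) (fun c a b => by
            have : (c • a : V) = (c : ℂ) • a := rfl
            rw [this, map_smulₛₗ]
            simp)
          (fun a b b' => by simp) (fun c a b => by
            have : (c • b : V) = (c : ℂ) • b := rfl
            rw [this, map_smul]
            simp)) ‖S‖ (fun a b => by
              simpa using S.le_opNorm₂ a b) with hB
      have hBa : ∀ a b, B a b = S a b := fun a b => rfl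
      have h4 : HasDerivAt (fun t : ℝ => L (g (y + t • v))) (L (fderiv ℂ g y v)) 0 := by
        have := (L.restrictScalars ℝ).hasFDerivAt.comp_hasDerivAt (0 : ℝ) h1
        exact this
      have h5 := B.hasDerivAt_of_bilinear (fun _ => h1) (fun _ => h4)
      simp only [zero_smul, add_zero, hBa] at h5
      rw [add_comm]
      exact h5
    have h6 : (fun t : ℝ => S (g (y + t • v)) (L (g (y + t • v)))) =ᶠ[𝓝 0] fun _ => 0 := by
      have h7 : Tendsto (fun t : ℝ => y + t • v) (𝓝 0) (𝓝 y) := by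
        have := hline.continuousAt.tendsto
        simpa using this
      exact h7 h
    exact (h3.congr_of_eventuallyEq h6.symm).unique (hasDerivAt_const _ _)
  have h1 := key v
  have h2 := key (I • v)
  simp only [map_smul, map_smulₛₗ, smul_apply, smul_eq_mul, conj_I] at h2
  have hI : (I : ℂ) ≠ 0 := I_ne_zero
  have h3 : S (fderiv ℂ g y v) (L (g y)) = S (g y) (L (fderiv ℂ g y v)) := by
    have : I * (S (g y) (L (fderiv ℂ g y v)) - S (fderiv ℂ g y v) (L (g y))) = 0 := by
      linear_combination h2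
    have h4 := (mul_eq_zero.1 this).resolve_left hI
    exact (sub_eq_zero.1 h4).symm
  have h4 : S (g y) (L (fderiv ℂ g y v)) = 0 := by
    rw [h3] at h1
    have : (2 : ℂ) * S (g y) (L (fderiv ℂ g y v)) = 0 := by linear_combination h1
    exact (mul_eq_zero.1 this).resolve_left two_ne_zero
  exact ⟨by rw [h3, h4], h4⟩

/-! ### the local rank drop -/

section drop

variable [FiniteDimensional ℂ V] [FiniteDimensional ℂ E]
variable {S : V →L⋆[ℂ] V →L[ℂ] ℂ} {N : V →L[ℂ] V} {r : ℝ} {U : Set E} {f : ℂ × E → V}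

theorem an_fd [CompleteSpace V] {r : ℝ} {U : Set E} {f : ℂ × E → V}
    (h : AnalyticOnNhd ℂ f (ball 0 r ×ˢ U)) (v : ℂ × E) :
    AnalyticOnNhd ℂ (fun p => fderiv ℂ f p v) (ball 0 r ×ˢ U) := by
  intro p hp
  have h1 : AnalyticAt ℂ (fderiv ℂ f) p := (h p hp).fderiv
  exact ((ContinuousLinearMap.apply ℂ V v).analyticAt _).comp h1

theorem an_XX [CompleteSpace V] {r : ℝ} {U : Set E} {f : ℂ × E → V}
    (h : AnalyticOnNhd ℂ f (ball 0 r ×ˢ U)) (N : V →L[ℂ] V) :
    AnalyticOnNhd ℂ (XX N f) (ball 0 r ×ˢ U) := by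
  intro p hp
  have h1 : AnalyticAt ℂ (fun p => N (f p)) p := (N.analyticAt _).comp (h p hp)
  have h2 : AnalyticAt ℂ (fun p : ℂ × E => p.1 • fderiv ℂ f p ((1 : ℂ), (0 : E))) p :=
    analyticAt_fst.smul (an_fd h _ p hp)
  exact (analyticAt_const.smul h1).add h2

theorem an_mm [CompleteSpace V] {ι : Type*} {r : ℝ} {U : Set E} {f : ℂ × E → V}
    (h : AnalyticOnNhd ℂ f (ball 0 r ×ˢ U)) (e : ι → E) (j : Option ι) :
    AnalyticOnNhd ℂ (mm f e j) (ball 0 r ×ˢ U) := by
  cases j with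
  | none => exact h
  | some i => exact an_fd h _

/-- slices of a neighbourhood in a product -/
theorem exists_box {W : Set (ℂ × E)} {y0 : E} (hW : W ∈ 𝓝 ((0 : ℂ), y0)) :
    ∃ r' > 0, ∃ U' : Set E, IsOpen U' ∧ y0 ∈ U' ∧ ball (0 : ℂ) r' ×ˢ U' ⊆ W := by
  rw [nhds_prod_eq] at hW
  obtain ⟨A, hA, B, hB, hAB⟩ := Filter.mem_prod_iff.1 hW
  obtain ⟨r', hr', hA'⟩ := Metric.mem_nhds_iff.1 hA
  obtain ⟨U', hU', hU'o, hy0⟩ := _root_.mem_nhds_iff.1 hB
  exact ⟨r', hr', U', hU'o, hy0, (prod_mono hA' hU').trans hAB⟩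

/-- a continuous function vanishing for `u ≠ 0` vanishes -/
theorem zero_of_punctured {Z : ℂ × E → V} {W : Set (ℂ × E)} (hW : IsOpen W)
    (hZ : ContinuousOn Z W) (h : ∀ p ∈ W, p.1 ≠ 0 → Z p = 0) : ∀ p ∈ W, Z p = 0 := by
  rintro ⟨u, y⟩ hp
  rcases eq_or_ne u 0 with rfl | hu
  · have hcont : Tendsto (fun t : ℂ => ((t, y) : ℂ × E)) (𝓝[≠] 0) (𝓝 (0, y)) :=
      (Continuous.tendsto (by fun_prop : Continuous fun t : ℂ => ((t, y) : ℂ × E)) 0).mono_left
        nhdsWithin_le_nhds
    have h1 := ((hZ.continuousAt (hW.mem_nhds hp)).tendsto).comp hcont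
    have h2 : (Z ∘ fun t : ℂ => ((t, y) : ℂ × E)) =ᶠ[𝓝[≠] 0] fun _ => (0 : V) := by
      filter_upwards [hcont (hW.mem_nhds hp), self_mem_nhdsWithin] with t ht ht0
      exact h (t, y) ht ht0
    exact tendsto_nhds_unique (h1.congr' h2) tendsto_const_nhds |>.symm ▸ rfl
  · exact h _ hp hu

/-- **rank drop, local form**: if `X = (N / 2 π i + u ∂_u) f` lies in the span of `f, ∂_{e i} f`
for `u ≠ 0`, the Gram matrix of these vectors for `H = S (·) (K ^ k ·)` is invertible at
`(0, y0)` and `S (f) (K ^ (k+1) f) = 0` on `u = 0`, then `N f = 0` near `(0, y0)` and every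
endomorphism fixing `f (0, ·)` fixes `f` near `(0, y0)`. -/
theorem local_drop (h : Bd S N r U f) {k : ℕ}
    (hk : ∀ y ∈ U, S (f (0, y)) ((KK N ^ (k + 1)) (f (0, y))) = 0) {y0 : E} (hy0 : y0 ∈ U)
    {ι : Type*} [Fintype ι] [DecidableEq ι] (e : ι → E)
    (hdet : (gram S (KK N ^ k) (fun j => mm f e j (0, y0)) (fun j => mm f e j (0, y0))).det ≠ 0)
    (hR : ∀ᶠ p in 𝓝 ((0 : ℂ), y0), p.1 ≠ 0 →
      XX N f p ∈ Submodule.span ℂ (range fun j => mm f e j p)) :
    (∀ᶠ p in 𝓝 ((0 : ℂ), y0), N (f p) = 0) ∧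
      ∀ T : V →L[ℂ] V, (∀ y ∈ U, T (f (0, y)) = f (0, y)) →
        ∀ᶠ p in 𝓝 ((0 : ℂ), y0), T (f p) = f p := by
  have : CompleteSpace V := FiniteDimensional.complete ℂ V
  have hopen : IsOpen (ball (0 : ℂ) r ×ˢ U) := isOpen_ball.prod h.hU
  have hp0 : ((0 : ℂ), y0) ∈ ball (0 : ℂ) r ×ˢ U := ⟨mem_ball_self h.hr, hy0⟩
  -- holomorphic coefficients
  obtain ⟨x, hx, hxc⟩ := cramer (Z := XX N f) (m := fun j => mm f e j)
    (l := fun i => (S (mm f e i (0, y0))).comp (KK N ^ k)) (p0 := ((0 : ℂ), y0))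
    (an_XX h.an N _ hp0) (fun j => an_mm h.an e j _ hp0) hdet
  have hxev : ∀ᶠ p in 𝓝 ((0 : ℂ), y0), ∀ j, AnalyticAt ℂ (x j) p :=
    eventually_all.2 fun j => (hx j).eventually_analyticAt
  -- Gram matrix on `u = 0`
  have hGc : ContinuousAt (fun p : ℂ × E =>
      (gram S (KK N ^ k) (fun j => mm f e j p) (fun j => mm f e j p)).det) (0, y0) := by
    have hcm : ∀ j, ContinuousAt (mm f e j) (0, y0) := fun j => (an_mm h.an e j _ hp0).continuousAt
    have : ContinuousAt (fun p : ℂ × E =>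
      gram S (KK N ^ k) (fun j => mm f e j p) (fun j => mm f e j p)) (0, y0) := by
      refine continuousAt_pi.2 fun i => continuousAt_pi.2 fun j => ?_
      have h1 : ContinuousAt (fun p => S (mm f e i p)) (0, y0) :=
        S.continuous.continuousAt.comp (hcm i)
      have h2 : ContinuousAt (fun p => (KK N ^ k) (mm f e j p)) (0, y0) :=
        (KK N ^ k).continuous.continuousAt.comp (hcm j)
      exact h1.clm_apply h2
    exact (Continuous.matrix_det continuous_id).continuousAt.comp this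
  have hGev := hGc.eventually_ne hdet
  obtain ⟨r', hr', U', hU', hy0', hsub⟩ := exists_box
    (Filter.inter_mem (Filter.inter_mem (hopen.mem_nhds hp0) (Filter.inter_mem hxev hGev))
      (Filter.inter_mem hxc hR))
  have hopen' : IsOpen (ball (0 : ℂ) r' ×ˢ U') := isOpen_ball.prod hU'
  have hnhds : ball (0 : ℂ) r' ×ˢ U' ∈ 𝓝 ((0 : ℂ), y0) :=
    hopen'.mem_nhds ⟨mem_ball_self hr', hy0'⟩
  have hsubU : ball (0 : ℂ) r' ×ˢ U' ⊆ ball (0 : ℂ) r ×ˢ U := fun p hp => (hsub hp).1.1
  have hxa : ∀ j, AnalyticOnNhd ℂ (x j) (ball (0 : ℂ) r' ×ˢ U') := fun j p hp =>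
    (hsub hp).1.2.1 j
  have hG : ∀ p ∈ ball (0 : ℂ) r' ×ˢ U',
      (gram S (KK N ^ k) (fun j => mm f e j p) (fun j => mm f e j p)).det ≠ 0 :=
    fun p hp => (hsub hp).1.2.2
  have hfa : AnalyticOnNhd ℂ f (ball (0 : ℂ) r' ×ˢ U') := h.an.mono hsubU
  -- `X = Σ x_j m_j`
  have hX : ∀ p ∈ ball (0 : ℂ) r' ×ˢ U', XX N f p = ∑ j, x j p • mm f e j p := by
    have h1 := zero_of_punctured (Z := fun p => XX N f p - ∑ j, x j p • mm f e j p) hopen'
      (ContinuousOn.sub ((an_XX hfa N).continuousOn)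
        (continuousOn_finsetSum _ fun j _ =>
          (hxa j).continuousOn.smul (an_mm hfa e j).continuousOn)) ?_
    · intro p hp
      exact sub_eq_zero.1 (h1 p hp)
    · intro p hp hp0
      have h2 := (hsub hp).2.2 hp0
      obtain ⟨c, hc⟩ := (Submodule.mem_span_range_iff_exists_fun ℂ).1 h2
      have h3 := (hsub hp).2.1 c hc.symm
      simp only [h3]
      rw [sub_eq_zero, hc]
  -- vanishing at `u = 0`
  have hx0 : ∀ j, ∀ y ∈ U', x j (0, y) = 0 := by
    intro j y hy
    have hpy : ((0 : ℂ), y) ∈ ball (0 : ℂ) r' ×ˢ U' := ⟨mem_ball_self hr', hy⟩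
    have hyU : y ∈ U := (hsubU hpy).2
    -- `H'` vanishes
    have hH' : ∀ i, S (mm f e i (0, y)) ((KK N ^ (k + 1)) (f (0, y))) = 0 := by
      intro i
      cases i with
      | none => exact hk y hyU
      | some i =>
        have hg : HasFDerivAt (fun z : E => f (0, z))
            ((fderiv ℂ f (0, y)).comp (ContinuousLinearMap.inr ℂ ℂ E)) y := by
          have h1 : HasFDerivAt f (fderiv ℂ f (0, y)) (0, y) :=
            (hfa _ hpy).differentiableAt.hasFDerivAt
          exact h1.comp y (hasFDerivAt_prodMk_right (0 : ℂ) y)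
        have h2 := deriv_zero (S := S) (L := KK N ^ (k + 1)) (g := fun z : E => f (0, z)) (y := y)
          hg.differentiableAt ?_ (e i)
        · have h3 := h2.1
          rw [hg.fderiv] at h3
          simpa using h3
        · filter_upwards [h.hU.mem_nhds hyU] with z hz using hk z hz
    -- orthogonality
    have h4 : (gram S (KK N ^ k) (fun j => mm f e j (0, y)) (fun j => mm f e j (0, y))).mulVec
        (fun j => x j (0, y)) = 0 := by
      ext i
      have h5 := hX _ hpy
      have h6 : S (mm f e i (0, y)) ((KK N ^ k) (XX N f (0, y))) = 0 := by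
        have h7 : XX N f (0, y) = (-(2 * (π : ℂ))⁻¹) • KK N (f (0, y)) := by
          simp only [XX, KK_apply, zero_smul, add_zero, smul_smul]
          congr 1
          rw [mul_inv_rev, Complex.inv_I]
          ring
        have h8 : (KK N ^ k) (KK N (f (0, y))) = (KK N ^ (k + 1)) (f (0, y)) := by
          rw [pow_succ]; rfl
        rw [h7, map_smul, map_smul, h8, hH' i, smul_zero]
      rw [h5, map_sum, map_sum] at h6
      simp only [Matrix.mulVec, dotProduct, gram, Pi.zero_apply]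
      refine Eq.trans (Finset.sum_congr rfl fun j _ => ?_) h6
      rw [map_smul, map_smul, smul_eq_mul, mul_comm]
    exact congrFun (Matrix.eq_zero_of_mulVec_eq_zero (hG _ hpy) h4) j
  -- divide by `u`
  choose x' hx' hxx' using fun j => exists_div hU' (hxa j) (hx0 j)
  have hmain : ∀ p ∈ ball (0 : ℂ) r' ×ˢ U', XX N f p =
      p.1 • (fderiv ℂ f p ((0 : ℂ), ∑ i, x' (some i) p • e i) + x' none p • f p) := by
    intro p hp
    rw [hX p hp, Fintype.sum_option]
    simp only [hxx' _ p hp, mm_none, mm_some, smul_eq_mul]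
    have h1 : ((0 : ℂ), ∑ i, x' (some i) p • e i) = ∑ i, x' (some i) p • ((0 : ℂ), e i) := by
      refine Prod.ext ?_ ?_
      · simp [Prod.fst_sum]
      · simp [Prod.snd_sum]
    rw [h1, map_sum, smul_add, Finset.smul_sum, add_comm]
    congr 1
    · refine Finset.sum_congr rfl fun i _ => ?_
      rw [map_smul, smul_smul]
    · rw [smul_smul]
  have ha : ContinuousOn (fun p => ∑ i, x' (some i) p • e i) (ball (0 : ℂ) r' ×ˢ U') :=
    continuousOn_finsetSum _ fun i _ => (hx' _).continuousOn.smul continuousOn_const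
  have hb : ContinuousOn (x' none) (ball (0 : ℂ) r' ×ˢ U') := (hx' _).continuousOn
  have hfL : ∀ (L : V →L[ℂ] V), ∀ p ∈ ball (0 : ℂ) r' ×ˢ U', ∀ v,
      fderiv ℂ (fun q => L (f q)) p v = L (fderiv ℂ f p v) := by
    intro L p hp v
    have h1 : HasFDerivAt (fun q => L (f q)) (L.comp (fderiv ℂ f p)) p :=
      L.hasFDerivAt.comp p (hfa p hp).differentiableAt.hasFDerivAt
    rw [h1.fderiv]
    rfl
  -- `N f = 0`
  have hNf : ∀ p ∈ ball (0 : ℂ) r' ×ˢ U', N (f p) = 0 := by
    refine unique hr' hU' (g := fun p => N (f p)) (fun p hp => (N.analyticAt _).comp (hfa p hp)) ?_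
      ((2 * π * I : ℂ)⁻¹ • N) ?_ _ _ ha hb ?_
    · intro y hy
      have hpy : ((0 : ℂ), y) ∈ ball (0 : ℂ) r' ×ˢ U' := ⟨mem_ball_self hr', hy⟩
      have h1 := hmain _ hpy
      simp only [XX, zero_smul, add_zero] at h1
      have h2 : (2 * π * I : ℂ)⁻¹ ≠ 0 := inv_ne_zero (by
        simp [Real.pi_ne_zero, I_ne_zero])
      exact (smul_eq_zero.1 h1).resolve_left h2
    · intro n hn v hv
      exact nil_inj h.nil _ n hn v hv
    · intro p hp _
      have h1 := congrArg N (hmain p hp)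
      rw [hfL N p hp, hfL N p hp]
      simp only [XX, map_add, map_smul] at h1
      simpa using h1
  refine ⟨?_, ?_⟩
  · filter_upwards [hnhds] with p hp using hNf p hp
  · intro T hT
    set T1 : V →L[ℂ] V := T - ContinuousLinearMap.id ℂ V with hT1
    have h1 : ∀ p ∈ ball (0 : ℂ) r' ×ˢ U', T1 (f p) = 0 := by
      refine unique hr' hU' (g := fun p => T1 (f p))
        (fun p hp => (T1.analyticAt _).comp (hfa p hp)) ?_ 0 ?_ _ _ ha hb ?_
      · intro y hy
        have hpy : ((0 : ℂ), y) ∈ ball (0 : ℂ) r' ×ˢ U' := ⟨mem_ball_self hr', hy⟩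
        have h2 := hT y (hsubU hpy).2
        simp [hT1, h2]
      · intro n hn v hv
        have hn0 : (n : ℂ) ≠ 0 := by exact_mod_cast (by omega : n ≠ 0)
        simpa [hn0] using hv
      · intro p hp _
        have h2 := congrArg T1 (hmain p hp)
        rw [hfL T1 p hp, hfL T1 p hp]
        have h3 : XX N f p = p.1 • fderiv ℂ f p ((1 : ℂ), (0 : E)) := by
          simp only [XX, hNf p hp, smul_zero, zero_add]
        rw [h3] at h2
        simp only [map_add, map_smul] at h2
        simpa using h2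
    filter_upwards [hnhds] with p hp
    have h2 := h1 p hp
    simpa [hT1, sub_eq_zero] using h2

end drop

/-! ### the null space of the Levi form of the limit metric -/

section null

variable {S : V →L⋆[ℂ] V →L[ℂ] ℂ} {L : V →L[ℂ] V}

/-- the Levi form of `log S (g) (L g)` times the square of `S (g) (L g)` -/
def BB (S : V →L⋆[ℂ] V →L[ℂ] ℂ) (L : V →L[ℂ] V) (g : V) (D : E →L[ℂ] V) (w v : E) : ℂ :=
  S g (L g) * S (D w) (L (D v)) - S (D w) (L g) * S g (L (D v))

/-- its null space -/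
def nul (S : V →L⋆[ℂ] V →L[ℂ] ℂ) (L : V →L[ℂ] V) (g : V) (D : E →L[ℂ] V) : Submodule ℂ E where
  carrier := {v | ∀ w, BB S L g D w v = 0}
  add_mem' := by
    intro a b ha hb w
    have h1 := ha w
    have h2 := hb w
    simp only [BB, map_add] at h1 h2 ⊢
    linear_combination h1 + h2
  zero_mem' := by
    intro w
    simp [BB]
  smul_mem' := by
    intro c a ha w
    have h1 := ha w
    simp only [BB, map_smul, smul_eq_mul] at h1 ⊢
    linear_combination c * h1


theorem BB_conj (hL : ∀ a b, S a (L b) = conj (S b (L a))) (g : V) (D : E →L[ℂ] V) (w v : E) :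
    BB S L g D w v = conj (BB S L g D v w) := by
  simp only [BB, map_sub, map_mul]
  rw [← hL g g, ← hL (D w) (D v), ← hL g (D v), ← hL (D w) g]
  ring

/-- the Gram matrix of `g, D (e i)` is invertible if the `e i` are a basis of a complement of the
null space -/
theorem gram_det_ne_zero (hL : ∀ a b, S a (L b) = conj (S b (L a))) {g : V}
    (hg : S g (L g) ≠ 0) {D : E →L[ℂ] V} {ι : Type*} [Fintype ι] [DecidableEq ι] {e : ι → E}
    (hli : LinearIndependent ℂ e)
    (hdis : Disjoint (Submodule.span ℂ (range e)) (nul S L g D))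
    (hsup : Submodule.span ℂ (range e) ⊔ nul S L g D = ⊤) :
    (gram S L (fun j : Option ι => j.elim g (fun i => D (e i)))
      (fun j : Option ι => j.elim g (fun i => D (e i)))).det ≠ 0 := by
  intro hdet
  obtain ⟨c, hc0, hc⟩ := Matrix.exists_mulVec_eq_zero_iff.2 hdet
  apply hc0
  set v : E := ∑ i, c (some i) • e i with hv
  have hrow : ∀ a : V, ∑ j : Option ι, S a (L (j.elim g (fun i => D (e i)))) * c j =
      c none * S a (L g) + S a (L (D v)) := by
    intro a
    rw [Fintype.sum_option, hv, map_sum, map_sum, map_sum]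
    simp only [Option.elim_none, Option.elim_some]
    rw [mul_comm]
    congr 1
    refine Finset.sum_congr rfl fun i _ => ?_
    rw [map_smul, map_smul, map_smul, smul_eq_mul, mul_comm]
  have h0 : c none * S g (L g) + S g (L (D v)) = 0 := by
    rw [← hrow g]
    exact congrFun hc none
  have h1 : ∀ i, c none * S (D (e i)) (L g) + S (D (e i)) (L (D v)) = 0 := by
    intro i
    rw [← hrow (D (e i))]
    exact congrFun hc (some i)
  have h2 : ∀ i, BB S L g D (e i) v = 0 := by
    intro i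
    simp only [BB]
    linear_combination (S g (L g)) * h1 i - S (D (e i)) (L g) * h0
  have hvC : v ∈ Submodule.span ℂ (range e) := by
    refine Submodule.sum_mem _ fun i _ => Submodule.smul_mem _ _ (Submodule.subset_span ⟨i, rfl⟩)
  have h3 : v ∈ nul S L g D := by
    intro w
    have hw : w ∈ Submodule.span ℂ (range e) ⊔ nul S L g D := by rw [hsup]; trivial
    obtain ⟨w1, hw1, w2, hw2, rfl⟩ := Submodule.mem_sup.1 hw
    have h4 : BB S L g D w2 v = 0 := by
      rw [BB_conj hL, hw2 v, map_zero]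
    have h5 : BB S L g D w1 v = 0 := by
      rw [BB_conj hL]
      have h6 : ∀ x ∈ Submodule.span ℂ (range e), BB S L g D v x = 0 := by
        intro x hx
        induction hx using Submodule.span_induction with
        | mem x hx =>
          obtain ⟨i, rfl⟩ := hx
          rw [BB_conj hL, h2 i, map_zero]
        | zero => simp [BB]
        | add x y _ _ hx hy =>
          simp only [BB, map_add] at hx hy ⊢
          linear_combination hx + hy
        | smul a x _ hx =>
          simp only [BB, map_smul, smul_eq_mul] at hx ⊢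
          linear_combination a * hx
      rw [h6 w1 hw1, map_zero]
    have h6 : BB S L g D (w1 + w2) v = BB S L g D w1 v + BB S L g D w2 v := by
      simp only [BB, map_add, add_apply]
      ring
    rw [h6, h4, h5, add_zero]
  have hv0 : v = 0 := by
    have := Submodule.disjoint_def.1 hdis v hvC h3
    exact this
  have hcs : ∀ i, c (some i) = 0 := by
    have := Fintype.linearIndependent_iff.1 hli (fun i => c (some i)) (by rw [← hv, hv0])
    exact this
  have hcn : c none = 0 := by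
    rw [hv0, map_zero, map_zero, map_zero, add_zero] at h0
    exact (mul_eq_zero.1 h0).resolve_right hg
  funext j
  cases j with
  | none => exact hcn
  | some i => exact hcs i

end null

/-! ### the global rank drop -/

section main

variable [FiniteDimensional ℂ V] [FiniteDimensional ℂ E]
variable {S : V →L⋆[ℂ] V →L[ℂ] ℂ} {N : V →L[ℂ] V} {r : ℝ} {U : Set E} {f : ℂ × E → V}

/-- the derivative of `f (0, ·)` -/
def D0 (f : ℂ × E → V) (p : ℂ × E) : E →L[ℂ] V :=
  (fderiv ℂ f p).comp (ContinuousLinearMap.inr ℂ ℂ E)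


/-- span of the section and its covariant derivatives in the untwisted frame -/
def spn (N : V →L[ℂ] V) (f : ℂ × E → V) (p : ℂ × E) : Submodule ℂ V :=
  Submodule.span ℂ ({f p, XX N f p} ∪ range (D0 f p))

/-- **rank drop** (BND): the total span has dimension `≤ ν + 1` for `u ≠ 0`; if the monodromy is
not trivial on the span of `f` then the null space of the Levi form of the logarithm of the limit
metric has dimension `≥ dim E + 1 - ν` at every point where the limit metric is not zero. -/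
theorem rank_drop (h : Bd S N r U f) (hUc : IsPreconnected U) {k ν : ℕ}
    (hk : ∀ y ∈ U, S (f (0, y)) ((KK N ^ (k + 1)) (f (0, y))) = 0)
    (hν : ∀ p ∈ ball (0 : ℂ) r ×ˢ U, p.1 ≠ 0 → Module.finrank ℂ (spn N f p) ≤ ν + 1)
    (T : V →L[ℂ] V) (hT : ∀ y ∈ U, T (f (0, y)) = f (0, y))
    (hne : ¬ ∀ p ∈ ball (0 : ℂ) r ×ˢ U, N (f p) = 0 ∧ T (f p) = f p)
    {y : E} (hy : y ∈ U) (hη : S (f (0, y)) ((KK N ^ k) (f (0, y))) ≠ 0) :
    Module.finrank ℂ E + 1 ≤
      Module.finrank ℂ (nul S (KK N ^ k) (f (0, y)) (D0 f (0, y))) + ν := by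
  have : CompleteSpace V := FiniteDimensional.complete ℂ V
  by_contra hcon
  push Not at hcon
  apply hne
  set K0 := nul S (KK N ^ k) (f (0, y)) (D0 f (0, y)) with hK0
  obtain ⟨C, hC⟩ := Submodule.exists_isCompl K0
  have hrank : Module.finrank ℂ C + Module.finrank ℂ K0 = Module.finrank ℂ E := by
    rw [add_comm]
    exact Submodule.finrank_add_eq_of_isCompl hC
  set b := Module.finBasis ℂ C with hb
  set e : Fin (Module.finrank ℂ C) → E := fun i => (b i : E) with he
  have hspan : Submodule.span ℂ (range e) = C := by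
    have h1 : range e = C.subtype '' range b := by
      rw [← range_comp]; rfl
    rw [h1, Submodule.span_image, b.span_eq, Submodule.map_top, Submodule.range_subtype]
  have hli : LinearIndependent ℂ e := by
    have := b.linearIndependent.map' C.subtype (Submodule.ker_subtype C)
    exact this
  have hdet := gram_det_ne_zero (S := S) (L := KK N ^ k) (KKpow_herm h.herm h.skew k) hη
    (D := D0 f (0, y)) hli (by rw [hspan]; exact hC.symm.disjoint)
    (by rw [hspan]; exact hC.symm.sup_eq_top)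
  have hmm : (fun j : Option (Fin (Module.finrank ℂ C)) =>
      j.elim (f (0, y)) (fun i => D0 f (0, y) (e i))) = fun j => mm f e j (0, y) := by
    funext j
    cases j <;> rfl
  rw [hmm] at hdet
  have hopen : IsOpen (ball (0 : ℂ) r ×ˢ U) := isOpen_ball.prod h.hU
  have hp0 : ((0 : ℂ), y) ∈ ball (0 : ℂ) r ×ˢ U := ⟨mem_ball_self h.hr, hy⟩
  -- the span is spanned by the `m j`
  have hR : ∀ᶠ p in 𝓝 ((0 : ℂ), y), p.1 ≠ 0 →
      XX N f p ∈ Submodule.span ℂ (range fun j => mm f e j p) := by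
    have hGc : ContinuousAt (fun p : ℂ × E =>
        (gram S (KK N ^ k) (fun j => mm f e j (0, y)) (fun j => mm f e j p)).det) (0, y) := by
      have : ContinuousAt (fun p : ℂ × E =>
        gram S (KK N ^ k) (fun j => mm f e j (0, y)) (fun j => mm f e j p)) (0, y) := by
        refine continuousAt_pi.2 fun i => continuousAt_pi.2 fun j => ?_
        have h2 : ContinuousAt (fun p => (KK N ^ k) (mm f e j p)) (0, y) :=
          (KK N ^ k).continuous.continuousAt.comp (an_mm h.an e j _ hp0).continuousAt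
        exact (S (mm f e i (0, y))).continuous.continuousAt.comp h2
      exact (Continuous.matrix_det continuous_id).continuousAt.comp this
    filter_upwards [hGc.eventually_ne hdet, hopen.mem_nhds hp0] with p hp hpm hp0'
    have hlin : LinearIndependent ℂ fun j => mm f e j p := by
      rw [Fintype.linearIndependent_iff]
      intro c hc
      by_contra hcn
      push Not at hcn
      obtain ⟨i0, hi0⟩ := hcn
      apply hp
      rw [← Matrix.exists_mulVec_eq_zero_iff]
      refine ⟨c, fun h0 => hi0 (congrFun h0 i0), ?_⟩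
      ext i
      simp only [Matrix.mulVec, dotProduct, gram, Pi.zero_apply]
      have h1 : S (mm f e i (0, y)) ((KK N ^ k) (∑ j, c j • mm f e j p)) = 0 := by
        rw [hc]; simp
      rw [map_sum, map_sum] at h1
      refine Eq.trans (Finset.sum_congr rfl fun j _ => ?_) h1
      rw [map_smul, map_smul, smul_eq_mul, mul_comm]
    have hsub : Submodule.span ℂ (range fun j => mm f e j p) ≤ spn N f p := by
      rw [Submodule.span_le]
      rintro _ ⟨j, rfl⟩
      refine Submodule.subset_span ?_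
      cases j with
      | none => exact Or.inl (by simp)
      | some i => exact Or.inr ⟨e i, rfl⟩
    have hfr : Module.finrank ℂ (Submodule.span ℂ (range fun j => mm f e j p)) =
        Module.finrank ℂ C + 1 := by
      rw [finrank_span_eq_card hlin]
      simp
    have heq : Submodule.span ℂ (range fun j => mm f e j p) = spn N f p := by
      refine Submodule.eq_of_le_of_finrank_le hsub ?_
      rw [hfr]
      have := hν p hpm hp0'
      omega
    rw [heq]
    exact Submodule.subset_span (Or.inl (by simp))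
  have hld := local_drop h hk hy e hdet hR
  have hconn : IsPreconnected (ball (0 : ℂ) r ×ˢ U) := (convex_ball 0 r).isPreconnected.prod hUc
  have hNa : AnalyticOnNhd ℂ (fun p => N (f p)) (ball (0 : ℂ) r ×ˢ U) := fun p hp =>
    (N.analyticAt _).comp (h.an p hp)
  have hTa : AnalyticOnNhd ℂ (fun p => T (f p)) (ball (0 : ℂ) r ×ˢ U) := fun p hp =>
    (T.analyticAt _).comp (h.an p hp)
  have h1 := hNa.eqOn_zero_of_preconnected_of_eventuallyEq_zero hconn hp0
    (hld.1.mono fun p hp => hp)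
  have h2 := hTa.eqOn_of_preconnected_of_eventuallyEq h.an hconn hp0 ((hld.2 T hT).mono
    fun p hp => hp)
  exact fun p hp => ⟨h1 hp, h2 hp⟩

end main

end Crest.Agent.R276.Bdy_767
end
end

-- ▼ part R276/BdyE_767

/-!
# R276, leaf B-767, part 2 (helper767): the twisted section `om (w, y) = exp (w N / 2 π i) f (e ^ w, y)`,
its norm `S (om) (om) = ∑ s ^ j c_j (e ^ w, y)` (`s = - Re w`), the limit metric, and the rank drop in
terms of `om`.
-/

set_option autoImplicit false
set_option linter.unusedSectionVars false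

open Set Filter Topology Metric Complex MeasureTheory
open scoped Real ContDiff ComplexConjugate Nat

noncomputable section

namespace Crest.Agent.R276.Bdy_767

open Div_767

variable {V : Type*} [NormedAddCommGroup V] [NormedSpace ℂ V]
variable {E : Type*} [NormedAddCommGroup E] [NormedSpace ℂ E]

section expo

variable [CompleteSpace V]

/-- the flow `exp (c N)` -/
def ex (N : V →L[ℂ] V) (c : ℂ) : V →L[ℂ] V := NormedSpace.exp (c • N)

theorem ex_add (N : V →L[ℂ] V) (c d : ℂ) : ex N (c + d) = ex N c * ex N d := by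
  let _ : NormedAlgebra ℚ (V →L[ℂ] V) := NormedAlgebra.restrictScalars ℚ ℂ _
  unfold ex
  rw [add_smul, NormedSpace.exp_add_of_commute]
  exact ((Commute.refl N).smul_left c).smul_right d

theorem ex_zero (N : V →L[ℂ] V) : ex N 0 = 1 := by
  unfold ex
  rw [zero_smul, NormedSpace.exp_zero]



theorem ex_add_apply (N : V →L[ℂ] V) (c d : ℂ) (v : V) : ex N (c + d) v = ex N c (ex N d v) := by
  rw [ex_add]; rfl

theorem ex_neg_apply (N : V →L[ℂ] V) (c : ℂ) (v : V) : ex N (-c) (ex N c v) = v := by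
  rw [← ex_add_apply, neg_add_cancel, ex_zero]; rfl

theorem ex_apply_neg (N : V →L[ℂ] V) (c : ℂ) (v : V) : ex N c (ex N (-c) v) = v := by
  rw [← ex_add_apply, add_neg_cancel, ex_zero]; rfl

theorem hasDerivAt_ex (N : V →L[ℂ] V) (c : ℂ) : HasDerivAt (ex N) (ex N c * N) c :=
  hasDerivAt_exp_smul_const N c




theorem differentiable_ex (N : V →L[ℂ] V) : Differentiable ℂ (ex N) := fun c =>
  (hasDerivAt_ex N c).differentiableAt

theorem ex_inj (N : V →L[ℂ] V) (c : ℂ) : Function.Injective (ex N c) := fun a b hab => by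
  rw [← ex_neg_apply N c a, hab, ex_neg_apply]

theorem ex_hasSum (N : V →L[ℂ] V) (c : ℂ) (v : V) :
    HasSum (fun n : ℕ => ((n ! : ℂ)⁻¹ * c ^ n) • (N ^ n) v) (ex N c v) := by
  have h1 : HasSum (fun n : ℕ => ((n ! : ℂ)⁻¹) • (c • N) ^ n) (NormedSpace.exp (c • N)) :=
    NormedSpace.exp_series_hasSum_exp' (𝕂 := ℂ) (c • N)
  have h2 := (ContinuousLinearMap.apply ℂ V v).hasSum h1
  refine h2.congr_fun ?_ |> fun h => h
  intro n
  simp [smul_pow, smul_smul]

theorem ex_sum {N : V →L[ℂ] V} {n : ℕ} (hN : N ^ n = 0) (c : ℂ) (v : V) :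
    ex N c v = ∑ j ∈ Finset.range n, ((j ! : ℂ)⁻¹ * c ^ j) • (N ^ j) v := by
  refine (ex_hasSum N c v).unique (hasSum_sum_of_ne_finset_zero ?_)
  intro j hj
  rw [Finset.mem_range, not_lt] at hj
  obtain ⟨m, rfl⟩ := Nat.exists_eq_add_of_le hj
  have h0 : N ^ (n + m) = 0 := by rw [pow_add, hN, zero_mul]
  rw [h0]
  simp

/-- `exp (c N)` and the form `S` -/
theorem ex_adj {S : V →L⋆[ℂ] V →L[ℂ] ℂ} {N : V →L[ℂ] V}
    (hs : ∀ u v, S (N u) v = - S u (N v)) (c : ℂ) (u v : V) :
    S (ex N c u) v = S u (ex N (-conj c) v) := by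
  have h1 := ex_hasSum N c u
  have h2 := ex_hasSum N (-conj c) v
  have h3 : HasSum (fun n : ℕ => S u (((n ! : ℂ)⁻¹ * (-conj c) ^ n) • (N ^ n) v))
      (S u (ex N (-conj c) v)) := (S u).hasSum h2
  have h4 : HasSum (fun n : ℕ => S (((n ! : ℂ)⁻¹ * c ^ n) • (N ^ n) u) v) (S (ex N c u) v) := by
    have h5 := S.hasSum h1
    exact (ContinuousLinearMap.apply ℂ ℂ v).hasSum h5
  refine h4.unique (h3.congr_fun ?_ |> fun h => h)
  intro n
  have h6 : ∀ (n : ℕ) (a b : V), S ((N ^ n) a) b = (-1) ^ n * S a ((N ^ n) b) := by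
    intro n
    induction n with
    | zero => intro a b; simp
    | succ n ih =>
      intro a b
      have e1 : (N ^ (n + 1)) a = (N ^ n) (N a) := by rw [pow_succ]; rfl
      have e2 : (N ^ (n + 1)) b = N ((N ^ n) b) := by rw [pow_succ']; rfl
      rw [e1, e2, ih, hs, pow_succ]
      ring
  rw [map_smulₛₗ, map_smul, smul_apply, h6]
  simp only [map_mul, map_inv₀, map_natCast, map_pow, smul_eq_mul]
  rw [neg_pow (conj c) n]
  ring

end expo

/-! ### the twisted section -/

section om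

variable [CompleteSpace V]
variable {S : V →L⋆[ℂ] V →L[ℂ] ℂ} {N : V →L[ℂ] V} {r : ℝ} {U : Set E} {f : ℂ × E → V}

/-- the twisted section on the half plane -/
def om (N : V →L[ℂ] V) (f : ℂ × E → V) (q : ℂ × E) : V :=
  ex N (q.1 / (2 * π * I)) (f (Complex.exp q.1, q.2))

/-- the coefficients `c_j = π ^ (-j) / j! * S (f) (K ^ j f)` -/
def cc (S : V →L⋆[ℂ] V →L[ℂ] ℂ) (N : V →L[ℂ] V) (f : ℂ × E → V) (j : ℕ) (p : ℂ × E) : ℝ :=
  (π ^ j * (j ! : ℝ))⁻¹ * (S (f p) ((KK N ^ j) (f p))).re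

theorem cc_eq (hh : ∀ u v, S u v = conj (S v u)) (hs : ∀ u v, S (N u) v = - S u (N v))
    (f : ℂ × E → V) (j : ℕ) (p : ℂ × E) :
    ((cc S N f j p : ℝ) : ℂ) = ((π : ℂ) ^ j * (j ! : ℂ))⁻¹ * S (f p) ((KK N ^ j) (f p)) := by
  have h1 : ((S (f p) ((KK N ^ j) (f p))).re : ℂ) = S (f p) ((KK N ^ j) (f p)) := by
    apply Complex.ext
    · rw [Complex.ofReal_re]
    · rw [Complex.ofReal_im, KKpow_real hh hs]
  rw [cc]
  simp only [Complex.ofReal_mul, Complex.ofReal_inv, Complex.ofReal_pow, Complex.ofReal_natCast]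
  rw [h1]

/-- `S (om) (om) = ∑ s ^ j c_j`, `s = - Re w` -/
theorem S_om (hh : ∀ u v, S u v = conj (S v u)) (hs : ∀ u v, S (N u) v = - S u (N v))
    {n : ℕ} (hN : N ^ n = 0) (f : ℂ × E → V) (q : ℂ × E) :
    S (om N f q) (om N f q) =
      ((∑ j ∈ Finset.range n, (-q.1.re) ^ j * cc S N f j (Complex.exp q.1, q.2) : ℝ) : ℂ) := by
  set g := f (Complex.exp q.1, q.2) with hg
  set c : ℂ := q.1 / (2 * π * I) with hc
  have h1 : S (om N f q) (om N f q) = S g (ex N (-conj c + c) g) := by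
    rw [om, ← hg, ← hc, ex_adj hs, ex_add_apply]
  have h2 : -conj c + c = ((-q.1.re / π : ℝ) : ℂ) * I := by
    have hpi : (π : ℂ) ≠ 0 := by exact_mod_cast Real.pi_ne_zero
    have e1 : c = -(q.1 * I) / (2 * π) := by
      rw [hc]
      field_simp
      rw [Complex.I_sq]
      ring
    have e2 : conj c = (conj q.1 * I) / (2 * π) := by
      rw [e1]
      simp only [map_div₀, map_neg, map_mul, conj_I, map_ofNat, Complex.conj_ofReal]
      ring
    have e3 : (q.1 : ℂ) + conj q.1 = (2 * q.1.re : ℝ) := by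
      rw [Complex.add_conj]
    rw [e2, e1]
    have e4 : -(conj q.1 * I / (2 * π)) + -(q.1 * I) / (2 * π) = -((q.1 + conj q.1) * I) / (2 * π) := by
      ring
    rw [e4, e3]
    push_cast
    field_simp
  rw [h1, h2, ex_sum hN, map_sum, Complex.ofReal_sum]
  refine Finset.sum_congr rfl fun j _ => ?_
  have h3 : (KK N ^ j) g = I ^ j • (N ^ j) g := by
    rw [KK, smul_pow]; rfl
  have h4 := cc_eq hh hs f j (Complex.exp q.1, q.2)
  rw [Complex.ofReal_mul, h4, ← hg, h3, map_smul, map_smul, smul_eq_mul, smul_eq_mul]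
  rw [mul_pow, Complex.ofReal_div, div_pow, mul_inv, Complex.ofReal_pow]
  ring

/-- derivative of `om` -/
theorem hasFDerivAt_om {q : ℂ × E} (hf : DifferentiableAt ℂ f (Complex.exp q.1, q.2)) :
    ∃ D : ℂ × E →L[ℂ] V, HasFDerivAt (om N f) D q ∧ ∀ a : ℂ, ∀ ξ : E,
      D (a, ξ) = ex N (q.1 / (2 * π * I))
        (a • XX N f (Complex.exp q.1, q.2) + D0 f (Complex.exp q.1, q.2) ξ) := by
  set p : ℂ × E := (Complex.exp q.1, q.2) with hp
  have hexp : HasFDerivAt (fun q : ℂ × E => Complex.exp q.1)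
      (Complex.exp q.1 • ContinuousLinearMap.fst ℂ ℂ E) q :=
    (Complex.hasDerivAt_exp q.1).comp_hasFDerivAt q hasFDerivAt_fst
  have h1 : HasFDerivAt (fun q : ℂ × E => (Complex.exp q.1, q.2))
      ((Complex.exp q.1 • ContinuousLinearMap.fst ℂ ℂ E).prod (ContinuousLinearMap.snd ℂ ℂ E)) q :=
    hexp.prodMk hasFDerivAt_snd
  have h2 : HasFDerivAt (fun q : ℂ × E => f (Complex.exp q.1, q.2))
      ((fderiv ℂ f p).comp
        ((Complex.exp q.1 • ContinuousLinearMap.fst ℂ ℂ E).prod (ContinuousLinearMap.snd ℂ ℂ E))) q :=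
    HasFDerivAt.comp q (g := f) (f := fun q : ℂ × E => (Complex.exp q.1, q.2)) hf.hasFDerivAt h1
  have h3 : HasFDerivAt (fun q : ℂ × E => q.1 / (2 * π * I))
      ((2 * π * I : ℂ)⁻¹ • ContinuousLinearMap.fst ℂ ℂ E) q := by
    have := (hasFDerivAt_fst (𝕜 := ℂ) (p := q)).const_smul ((2 * π * I : ℂ)⁻¹)
    refine this.congr_of_eventuallyEq (Eventually.of_forall fun z => ?_)
    simp only [Pi.smul_apply, smul_eq_mul]
    rw [div_eq_inv_mul]
  have h4 := HasFDerivAt.comp q (g := ex N) (f := fun q : ℂ × E => q.1 / (2 * π * I))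
    (hasDerivAt_ex N (q.1 / (2 * π * I))).hasFDerivAt h3
  have h5 := h4.clm_apply h2
  refine ⟨_, h5, fun a ξ => ?_⟩
  have h6 : ((Complex.exp q.1 * a, ξ) : ℂ × E) = (Complex.exp q.1 * a) • ((1 : ℂ), (0 : E)) +
      ((0 : ℂ), ξ) := by simp
  have h7 : ex N (q.1 / (2 * π * I)) (fderiv ℂ f p (Complex.exp q.1 * a, ξ)) +
      ((2 * π * I : ℂ)⁻¹ * a) • ex N (q.1 / (2 * π * I)) (N (f p)) =
      ex N (q.1 / (2 * π * I)) (a • XX N f p + D0 f p ξ) := by
    have hD0 : D0 f p ξ = fderiv ℂ f p ((0 : ℂ), ξ) := rfl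
    have hX : XX N f p = (2 * π * I : ℂ)⁻¹ • N (f p) +
      Complex.exp q.1 • fderiv ℂ f p ((1 : ℂ), (0 : E)) := rfl
    rw [h6, hD0, hX, map_add, map_smul]
    generalize fderiv ℂ f p ((1 : ℂ), (0 : E)) = A
    generalize fderiv ℂ f p ((0 : ℂ), ξ) = B
    generalize N (f p) = C
    generalize ex N (q.1 / (2 * π * I)) = F
    generalize (2 * π * I : ℂ)⁻¹ = c
    simp only [map_add, map_smul, smul_add, smul_smul]
    module
  rw [← h7]
  rfl

/-- the span of `om` and its derivatives corresponds to `spn` -/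
theorem span_om {q : ℂ × E} (hf : DifferentiableAt ℂ f (Complex.exp q.1, q.2)) :
    Submodule.span ℂ ({om N f q} ∪ range (fderiv ℂ (om N f) q)) =
      (spn N f (Complex.exp q.1, q.2)).map (ex N (q.1 / (2 * π * I))).toLinearMap := by
  obtain ⟨D, hD, hDa⟩ := hasFDerivAt_om (N := N) hf
  rw [hD.fderiv, spn, Submodule.map_span]
  apply le_antisymm
  · rw [Submodule.span_le]
    rintro _ (rfl | ⟨⟨a, ξ⟩, rfl⟩)
    · refine Submodule.subset_span ⟨f (Complex.exp q.1, q.2), Or.inl (by simp), rfl⟩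
    · rw [hDa, map_add, map_smul]
      refine Submodule.add_mem _ (Submodule.smul_mem _ _ (Submodule.subset_span ?_))
        (Submodule.subset_span ?_)
      · exact ⟨_, Or.inl (by simp), rfl⟩
      · exact ⟨_, Or.inr ⟨ξ, rfl⟩, rfl⟩
  · rw [Submodule.span_le]
    rintro _ ⟨v, (hv | ⟨ξ, rfl⟩), rfl⟩
    · rcases hv with rfl | hv
      · exact Submodule.subset_span (Or.inl rfl)
      · rw [mem_singleton_iff] at hv
        subst hv
        refine Submodule.subset_span (Or.inr ⟨((1 : ℂ), (0 : E)), ?_⟩)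
        rw [hDa]
        simp
    · refine Submodule.subset_span (Or.inr ⟨((0 : ℂ), ξ), ?_⟩)
      rw [hDa]
      simp

theorem finrank_span_om [FiniteDimensional ℂ V] {q : ℂ × E}
    (hf : DifferentiableAt ℂ f (Complex.exp q.1, q.2)) :
    Module.finrank ℂ (Submodule.span ℂ ({om N f q} ∪ range (fderiv ℂ (om N f) q))) =
      Module.finrank ℂ (spn N f (Complex.exp q.1, q.2)) := by
  rw [span_om hf]
  exact (LinearEquiv.finrank_eq (Submodule.equivMapOfInjective _ (ex_inj N _) _)).symm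

end om

/-! ### the index of the limit metric, limits -/

section lim

variable [CompleteSpace V]
variable {S : V →L⋆[ℂ] V →L[ℂ] ℂ} {N : V →L[ℂ] V} {r : ℝ} {U : Set E} {f : ℂ × E → V}


theorem cc_zero {j : ℕ} {p : ℂ × E} (h : S (f p) ((KK N ^ j) (f p)) = 0) : cc S N f j p = 0 := by
  rw [cc, h, Complex.zero_re, mul_zero]

theorem cc_ne_zero (hh : ∀ u v, S u v = conj (S v u)) (hs : ∀ u v, S (N u) v = - S u (N v))
    {j : ℕ} {p : ℂ × E} (h : S (f p) ((KK N ^ j) (f p)) ≠ 0) : cc S N f j p ≠ 0 := by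
  intro h0
  have h1 := cc_eq hh hs f j p
  rw [h0, Complex.ofReal_zero] at h1
  have h2 : ((π : ℂ) ^ j * (j ! : ℂ))⁻¹ ≠ 0 := by
    refine inv_ne_zero (mul_ne_zero (pow_ne_zero _ ?_) ?_)
    · exact_mod_cast Real.pi_ne_zero
    · exact_mod_cast Nat.factorial_ne_zero j
  exact h ((mul_eq_zero.1 h1.symm).resolve_left h2)

theorem cc_continuousOn {W : Set (ℂ × E)} (hf : ContinuousOn f W) (j : ℕ) :
    ContinuousOn (cc S N f j) W := by
  have h1 : ContinuousOn (fun p => S (f p) ((KK N ^ j) (f p))) W :=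
    (S.continuous.comp_continuousOn hf).clm_apply ((KK N ^ j).continuous.comp_continuousOn hf)
  exact continuousOn_const.mul (Complex.continuous_re.comp_continuousOn h1)

/-- `|c_j (u, y) - c_j (0, y)| ≤ C |u|` for `|u| ≤ r / 2`, locally uniformly in `y` -/
theorem cc_lip (hf : AnalyticOnNhd ℂ f (ball 0 r ×ˢ U)) (hr : 0 < r) (j : ℕ)
    {Q : Set E} (hQ : IsCompact Q) (hQU : Q ⊆ U) :
    ∃ C : ℝ, 0 ≤ C ∧ ∀ u : ℂ, ‖u‖ ≤ r / 2 → ∀ y ∈ Q,
      |cc S N f j (u, y) - cc S N f j (0, y)| ≤ C * ‖u‖ := by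
  set ρ := r / 2 with hρ
  have hρ0 : 0 < ρ := by positivity
  have hρr : ρ < r := by rw [hρ]; linarith
  have hball : closedBall (0 : ℂ) ρ ⊆ ball 0 r := closedBall_subset_ball hρr
  have hcomp : IsCompact (closedBall (0 : ℂ) ρ ×ˢ Q) := (isCompact_closedBall 0 ρ).prod hQ
  have hsub : closedBall (0 : ℂ) ρ ×ˢ Q ⊆ ball 0 r ×ˢ U := prod_mono hball hQU
  -- bounds of `f` and of its derivative
  have hfc : ContinuousOn f (closedBall (0 : ℂ) ρ ×ˢ Q) := hf.continuousOn.mono hsub
  have hdc : ContinuousOn (fderiv ℂ f) (closedBall (0 : ℂ) ρ ×ˢ Q) :=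
    (hf.fderiv.continuousOn).mono hsub
  obtain ⟨M1, hM1⟩ := hcomp.exists_bound_of_continuousOn hfc
  obtain ⟨M2, hM2⟩ := hcomp.exists_bound_of_continuousOn hdc
  have hL : ∀ u : ℂ, ‖u‖ ≤ ρ → ∀ y ∈ Q, ‖f (u, y) - f (0, y)‖ ≤ M2 * ‖u‖ := by
    intro u hu y hy
    have hseg : ∀ z ∈ closedBall (0 : ℂ) ρ, HasFDerivWithinAt (fun z : ℂ => f (z, y))
        ((fderiv ℂ f (z, y)).comp (ContinuousLinearMap.inl ℂ ℂ E)) (closedBall (0 : ℂ) ρ) z := by
      intro z hz
      have h1 : HasFDerivAt f (fderiv ℂ f (z, y)) (z, y) :=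
        (hf _ (hsub ⟨hz, hy⟩)).differentiableAt.hasFDerivAt
      exact (HasFDerivAt.comp z (g := f) (f := fun z : ℂ => (z, y)) h1
        (hasFDerivAt_prodMk_left z y)).hasFDerivWithinAt
    have hbd : ∀ z ∈ closedBall (0 : ℂ) ρ,
        ‖(fderiv ℂ f (z, y)).comp (ContinuousLinearMap.inl ℂ ℂ E)‖ ≤ M2 := by
      intro z hz
      refine (ContinuousLinearMap.opNorm_comp_le _ _).trans ?_
      have h1 := hM2 (z, y) ⟨hz, hy⟩
      have h2 : ‖ContinuousLinearMap.inl ℂ ℂ E‖ ≤ 1 := by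
        refine ContinuousLinearMap.opNorm_le_bound _ zero_le_one fun x => ?_
        simp [Prod.norm_def]
      calc ‖fderiv ℂ f (z, y)‖ * ‖ContinuousLinearMap.inl ℂ ℂ E‖ ≤ M2 * 1 :=
            mul_le_mul h1 h2 (norm_nonneg _) ((norm_nonneg _).trans h1)
        _ = M2 := mul_one _
    have h3 := (convex_closedBall (0 : ℂ) ρ).norm_image_sub_le_of_norm_hasFDerivWithin_le
      hseg hbd (mem_closedBall_self hρ0.le) (mem_closedBall_zero_iff.2 hu)
    simpa using h3
  refine ⟨|(π ^ j * (j ! : ℝ))⁻¹| * (2 * (‖S‖ * ‖KK N ^ j‖ * |M1| * |M2|)), by positivity,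
    fun u hu y hy => ?_⟩
  set a := f (u, y) with ha
  set b := f (0, y) with hb
  set L := KK N ^ j with hL'
  have e1 : cc S N f j (u, y) - cc S N f j (0, y) =
      (π ^ j * (j ! : ℝ))⁻¹ * ((S (a - b) (L a) + S b (L (a - b))).re) := by
    simp only [cc, ← ha, ← hb, ← hL']
    rw [← mul_sub, ← Complex.sub_re]
    congr 2
    simp only [map_sub, sub_apply]
    ring
  have ha1 : ‖a‖ ≤ |M1| := (hM1 _ ⟨mem_closedBall_zero_iff.2 hu, hy⟩).trans (le_abs_self _)
  have hb1 : ‖b‖ ≤ |M1| := (hM1 _ ⟨mem_closedBall_self hρ0.le, hy⟩).trans (le_abs_self _)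
  have hab : ‖a - b‖ ≤ |M2| * ‖u‖ :=
    (hL u hu y hy).trans (mul_le_mul_of_nonneg_right (le_abs_self _) (norm_nonneg _))
  have e2 : ‖S (a - b) (L a)‖ ≤ ‖S‖ * ‖L‖ * |M1| * |M2| * ‖u‖ := by
    calc ‖S (a - b) (L a)‖ ≤ ‖S‖ * ‖a - b‖ * ‖L a‖ := S.le_opNorm₂ _ _
      _ ≤ ‖S‖ * (|M2| * ‖u‖) * (‖L‖ * |M1|) := by
          gcongr
          exact (L.le_opNorm a).trans (mul_le_mul_of_nonneg_left ha1 (norm_nonneg _))
      _ = _ := by ring
  have e3 : ‖S b (L (a - b))‖ ≤ ‖S‖ * ‖L‖ * |M1| * |M2| * ‖u‖ := by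
    calc ‖S b (L (a - b))‖ ≤ ‖S‖ * ‖b‖ * ‖L (a - b)‖ := S.le_opNorm₂ _ _
      _ ≤ ‖S‖ * |M1| * (‖L‖ * (|M2| * ‖u‖)) := by
          gcongr
          exact (L.le_opNorm _).trans (mul_le_mul_of_nonneg_left hab (norm_nonneg _))
      _ = _ := by ring
  rw [e1, abs_mul]
  calc |(π ^ j * (j ! : ℝ))⁻¹| * |(S (a - b) (L a) + S b (L (a - b))).re|
      ≤ |(π ^ j * (j ! : ℝ))⁻¹| * (‖S (a - b) (L a)‖ + ‖S b (L (a - b))‖) := by
        refine mul_le_mul_of_nonneg_left ?_ (abs_nonneg _)
        exact (Complex.abs_re_le_norm _).trans (norm_add_le _ _)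
    _ ≤ |(π ^ j * (j ! : ℝ))⁻¹| * (‖S‖ * ‖L‖ * |M1| * |M2| * ‖u‖ + ‖S‖ * ‖L‖ * |M1| * |M2| * ‖u‖) := by
        gcongr
    _ = _ := by ring

/-- the norm of `om` divided by `s ^ k` tends to the limit metric, locally uniformly in `y`;
version where the higher coefficients vanish only on the compact set -/
theorem tendsto_unifQ (h : Bd S N r U f) {k : ℕ} {Q : Set E}
    (hk : ∀ j, k < j → ∀ y ∈ Q, S (f (0, y)) ((KK N ^ j) (f (0, y))) = 0)
    (hQ : IsCompact Q) (hQU : Q ⊆ U) {ε : ℝ} (hε : 0 < ε) :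
    ∃ A : ℝ, ∀ w : ℂ, w.re < A → ∀ y ∈ Q,
      |(S (om N f (w, y)) (om N f (w, y))).re / (-w.re) ^ k - cc S N f k (0, y)| ≤ ε := by
  obtain ⟨n, hnk, hNn⟩ : ∃ n, k + 1 ≤ n ∧ N ^ n = 0 := by
    obtain ⟨n0, hn0⟩ := h.nil
    exact ⟨n0 + k + 1, by omega, by rw [add_assoc, pow_add, hn0, zero_mul]⟩
  choose C hC0 hC using fun j => cc_lip (S := S) (N := N) h.an h.hr j hQ hQU
  have hM : ∀ j, ∃ M : ℝ, ∀ y ∈ Q, |cc S N f j (0, y)| ≤ M := by
    intro j
    have h1 : ContinuousOn (fun y : E => cc S N f j (0, y)) Q := by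
      refine (cc_continuousOn h.an.continuousOn j).comp (by fun_prop) ?_
      intro y hy
      exact ⟨mem_ball_self h.hr, hQU hy⟩
    exact hQ.exists_bound_of_continuousOn h1
  choose M hM using hM
  -- the bound
  have hlim : Tendsto (fun s : ℝ => ∑ j ∈ Finset.range n, C j * (s ^ j * Real.exp (-s)) +
      ∑ j ∈ Finset.range k, |M j| * (s ^ j / s ^ k)) atTop (𝓝 0) := by
    have h1 : Tendsto (fun s : ℝ => ∑ j ∈ Finset.range n, C j * (s ^ j * Real.exp (-s))) atTop
        (𝓝 (∑ j ∈ Finset.range n, C j * 0)) :=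
      tendsto_finsetSum _ fun j _ =>
        (Real.tendsto_pow_mul_exp_neg_atTop_nhds_zero j).const_mul _
    have h2 : Tendsto (fun s : ℝ => ∑ j ∈ Finset.range k, |M j| * (s ^ j / s ^ k)) atTop
        (𝓝 (∑ j ∈ Finset.range k, |M j| * 0)) :=
      tendsto_finsetSum _ fun j hj =>
        (tendsto_pow_div_pow_atTop_zero (Finset.mem_range.1 hj)).const_mul _
    simpa using h1.add h2
  have hev := ((hlim.eventually (gt_mem_nhds hε)).and (eventually_ge_atTop (1 : ℝ))).and
    (eventually_ge_atTop (-Real.log (r / 2)))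
  obtain ⟨A, hA⟩ := eventually_atTop.1 hev
  refine ⟨-A, fun w hw y hy => ?_⟩
  set s : ℝ := -w.re with hs
  obtain ⟨⟨hb, hs1⟩, hs2⟩ := hA s (by linarith)
  have hs0 : 0 < s := by linarith
  have hu : ‖Complex.exp w‖ = Real.exp (-s) := by rw [Complex.norm_exp, hs, neg_neg]
  have hu2 : ‖Complex.exp w‖ ≤ r / 2 := by
    rw [hu]
    have hr2 : 0 < r / 2 := by have := h.hr; positivity
    calc Real.exp (-s) ≤ Real.exp (Real.log (r / 2)) := Real.exp_le_exp.2 (by linarith)
      _ = r / 2 := Real.exp_log hr2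
  rw [S_om h.herm h.skew hNn, Complex.ofReal_re]
  simp only [← hs]
  have hsk : 0 < s ^ k := pow_pos hs0 k
  -- split
  have hsplit : (∑ j ∈ Finset.range n, s ^ j * cc S N f j (Complex.exp w, y)) / s ^ k -
      cc S N f k (0, y) = (∑ j ∈ Finset.range n,
        s ^ j * (cc S N f j (Complex.exp w, y) - cc S N f j (0, y))) / s ^ k +
      ∑ j ∈ Finset.range k, s ^ j / s ^ k * cc S N f j (0, y) := by
    have h1 : ∑ j ∈ Finset.range n, s ^ j * cc S N f j (Complex.exp w, y) =
        ∑ j ∈ Finset.range n, s ^ j * (cc S N f j (Complex.exp w, y) - cc S N f j (0, y)) +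
        ∑ j ∈ Finset.range n, s ^ j * cc S N f j (0, y) := by
      rw [← Finset.sum_add_distrib]
      refine Finset.sum_congr rfl fun j _ => by ring
    have h2 : ∑ j ∈ Finset.range n, s ^ j * cc S N f j (0, y) =
        ∑ j ∈ Finset.range (k + 1), s ^ j * cc S N f j (0, y) := by
      symm
      refine Finset.sum_subset (Finset.range_mono (by omega)) fun j _ hj => ?_
      rw [Finset.mem_range, not_lt] at hj
      rw [cc_zero (hk j (by omega) y hy), mul_zero]
    have h3 : (∑ j ∈ Finset.range k, s ^ j * cc S N f j (0, y)) / s ^ k =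
        ∑ j ∈ Finset.range k, s ^ j / s ^ k * cc S N f j (0, y) := by
      rw [Finset.sum_div]
      exact Finset.sum_congr rfl fun j _ => by ring
    rw [h1, h2, Finset.sum_range_succ, add_div, add_div, mul_div_cancel_left₀ _ hsk.ne', h3]
    ring
  rw [hsplit]
  refine (abs_add_le _ _).trans (le_trans (add_le_add ?_ ?_) hb.le)
  · rw [abs_div, abs_of_pos hsk]
    have h1 : |∑ j ∈ Finset.range n, s ^ j * (cc S N f j (Complex.exp w, y) -
        cc S N f j (0, y))| ≤ ∑ j ∈ Finset.range n, C j * (s ^ j * Real.exp (-s)) := by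
      refine (Finset.abs_sum_le_sum_abs _ _).trans (Finset.sum_le_sum fun j _ => ?_)
      rw [abs_mul, abs_of_nonneg (pow_nonneg hs0.le j)]
      have h2 := hC j (Complex.exp w) hu2 y hy
      rw [hu] at h2
      calc s ^ j * |cc S N f j (Complex.exp w, y) - cc S N f j (0, y)|
          ≤ s ^ j * (C j * Real.exp (-s)) := mul_le_mul_of_nonneg_left h2 (pow_nonneg hs0.le j)
        _ = _ := by ring
    have h3 : 0 ≤ ∑ j ∈ Finset.range n, C j * (s ^ j * Real.exp (-s)) :=
      Finset.sum_nonneg fun j _ => mul_nonneg (hC0 j) (mul_nonneg (pow_nonneg hs0.le j)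
        (Real.exp_pos _).le)
    calc |∑ j ∈ Finset.range n, s ^ j * (cc S N f j (Complex.exp w, y) -
        cc S N f j (0, y))| / s ^ k ≤ (∑ j ∈ Finset.range n, C j * (s ^ j * Real.exp (-s))) / s ^ k :=
          div_le_div_of_nonneg_right h1 hsk.le
      _ ≤ _ := div_le_self h3 (one_le_pow₀ hs1)
  · refine (Finset.abs_sum_le_sum_abs _ _).trans (Finset.sum_le_sum fun j _ => ?_)
    rw [abs_mul, abs_of_nonneg (div_nonneg (pow_nonneg hs0.le j) hsk.le), mul_comm]
    exact mul_le_mul_of_nonneg_right ((hM j y hy).trans (le_abs_self _))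
      (div_nonneg (pow_nonneg hs0.le j) hsk.le)

/-- the norm of `om` divided by `s ^ k` tends to the limit metric, locally uniformly in `y` -/
theorem tendsto_unif (h : Bd S N r U f) {k : ℕ}
    (hk : ∀ j, k < j → ∀ y ∈ U, S (f (0, y)) ((KK N ^ j) (f (0, y))) = 0)
    {Q : Set E} (hQ : IsCompact Q) (hQU : Q ⊆ U) {ε : ℝ} (hε : 0 < ε) :
    ∃ A : ℝ, ∀ w : ℂ, w.re < A → ∀ y ∈ Q,
      |(S (om N f (w, y)) (om N f (w, y))).re / (-w.re) ^ k - cc S N f k (0, y)| ≤ ε :=
  tendsto_unifQ h (fun j hj y hy => hk j hj y (hQU hy)) hQ hQU hε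


theorem norm_ex_le {N : V →L[ℂ] V} {n : ℕ} (hN : N ^ n = 0) (c : ℂ) :
    ‖ex N c‖ ≤ ∑ j ∈ Finset.range n, ‖c‖ ^ j * ‖N ^ j‖ := by
  refine ContinuousLinearMap.opNorm_le_bound _ (Finset.sum_nonneg fun j _ => by positivity)
    fun v => ?_
  rw [ex_sum hN, Finset.sum_mul]
  refine (norm_sum_le _ _).trans (Finset.sum_le_sum fun j _ => ?_)
  rw [norm_smul, norm_mul, norm_inv, norm_pow, Complex.norm_natCast]
  have h1 : ((j ! : ℝ))⁻¹ ≤ 1 := inv_le_one_of_one_le₀ (by exact_mod_cast Nat.factorial_pos j)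
  calc (j ! : ℝ)⁻¹ * ‖c‖ ^ j * ‖(N ^ j) v‖ ≤ 1 * ‖c‖ ^ j * (‖N ^ j‖ * ‖v‖) := by
        gcongr
        exact (N ^ j).le_opNorm v
    _ = _ := by ring

/-- **moderate growth** (the norm `S (om) (om)` is not much smaller than `‖om‖ ^ 2`) implies that the
limit metric exists: some `c_j (0, y) ≠ 0`. -/
theorem exists_ne_of_growth (h : Bd S N r U f) {y : E} (hy : y ∈ U) (hfy : f (0, y) ≠ 0)
    {c : ℝ} (hc : 0 < c) {A : ℕ}
    (hMG : ∀ᶠ s : ℝ in atTop, c * ‖om N f (-(s : ℂ), y)‖ ^ 2 ≤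
      s ^ A * (S (om N f (-(s : ℂ), y)) (om N f (-(s : ℂ), y))).re) :
    ∃ j, S (f (0, y)) ((KK N ^ j) (f (0, y))) ≠ 0 := by
  by_contra hcon
  push Not at hcon
  obtain ⟨n, hn⟩ := h.nil
  choose C hC0 hC using fun j => cc_lip (S := S) (N := N) h.an h.hr j
    (isCompact_singleton (x := y)) (singleton_subset_iff.2 hy)
  -- polynomial bound
  set P : Polynomial ℝ := (∑ j ∈ Finset.range n, Polynomial.C ‖N ^ j‖ * Polynomial.X ^ j) ^ 2 *
    Polynomial.X ^ A * ∑ j ∈ Finset.range n, Polynomial.C (C j) * Polynomial.X ^ j with hP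
  have hPev : ∀ s : ℝ, P.eval s = (∑ j ∈ Finset.range n, ‖N ^ j‖ * s ^ j) ^ 2 * s ^ A *
      ∑ j ∈ Finset.range n, C j * s ^ j := by
    intro s
    simp [hP, Polynomial.eval_finsetSum]
  have hlim := Polynomial.tendsto_div_exp_atTop P
  have hf0 : Tendsto (fun s : ℝ => c * ‖f (Complex.exp (-(s : ℂ)), y)‖ ^ 2) atTop
      (𝓝 (c * ‖f (0, y)‖ ^ 2)) := by
    have h1 : Tendsto (fun s : ℝ => Complex.exp (-(s : ℂ))) atTop (𝓝 0) := by
      rw [tendsto_zero_iff_norm_tendsto_zero]
      have : (fun s : ℝ => ‖Complex.exp (-(s : ℂ))‖) = fun s => Real.exp (-s) := by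
        ext s
        rw [Complex.norm_exp]
        simp
      rw [this]
      exact Real.tendsto_exp_neg_atTop_nhds_zero
    have h2 : ContinuousAt f (0, y) := (h.an _ ⟨mem_ball_self h.hr, hy⟩).continuousAt
    have h3 : Tendsto (fun s : ℝ => (Complex.exp (-(s : ℂ)), y)) atTop (𝓝 ((0 : ℂ), y)) :=
      h1.prodMk_nhds tendsto_const_nhds
    exact ((h2.tendsto.comp h3).norm.pow 2).const_mul c
  have hle : ∀ᶠ s : ℝ in atTop, c * ‖f (Complex.exp (-(s : ℂ)), y)‖ ^ 2 ≤ P.eval s / Real.exp s := by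
    filter_upwards [hMG, eventually_ge_atTop (1 : ℝ), eventually_ge_atTop (-Real.log (r / 2))]
      with s hs hs1 hs2
    have hs0 : 0 < s := by linarith
    set w : ℂ := -(s : ℂ) with hw
    have hwre : -w.re = s := by simp [hw]
    have hu : ‖Complex.exp w‖ = Real.exp (-s) := by rw [Complex.norm_exp]; simp [hw]
    have hu2 : ‖Complex.exp w‖ ≤ r / 2 := by
      rw [hu]
      have hr2 : 0 < r / 2 := by have := h.hr; positivity
      calc Real.exp (-s) ≤ Real.exp (Real.log (r / 2)) := Real.exp_le_exp.2 (by linarith)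
        _ = r / 2 := Real.exp_log hr2
    -- `f` in terms of `om`
    set d : ℂ := w / (2 * π * I) with hd
    have hdn : ‖-d‖ ≤ s := by
      rw [norm_neg, hd, norm_div, norm_mul, norm_mul, Complex.norm_I, mul_one, Complex.norm_real,
        Real.norm_eq_abs, abs_of_pos Real.pi_pos, hw, norm_neg, Complex.norm_real,
        Real.norm_eq_abs, abs_of_pos hs0]
      have h2 : ‖(2 : ℂ)‖ = 2 := by simp
      rw [h2]
      refine div_le_self hs0.le ?_
      nlinarith [Real.pi_gt_three]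
    have hfom : f (Complex.exp w, y) = ex N (-d) (om N f (w, y)) := by
      rw [om, ex_neg_apply]
    have h1 : ‖f (Complex.exp w, y)‖ ≤ (∑ j ∈ Finset.range n, ‖N ^ j‖ * s ^ j) *
        ‖om N f (w, y)‖ := by
      rw [hfom]
      refine ((ex N (-d)).le_opNorm _).trans (mul_le_mul_of_nonneg_right ?_ (norm_nonneg _))
      refine (norm_ex_le hn _).trans (Finset.sum_le_sum fun j _ => ?_)
      rw [mul_comm]
      exact mul_le_mul_of_nonneg_left (pow_le_pow_left₀ (norm_nonneg _) hdn j) (norm_nonneg _)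
    have h2 : (S (om N f (w, y)) (om N f (w, y))).re ≤
        (∑ j ∈ Finset.range n, C j * s ^ j) * Real.exp (-s) := by
      rw [S_om h.herm h.skew hn, Complex.ofReal_re]
      simp only [hwre]
      rw [Finset.sum_mul]
      refine Finset.sum_le_sum fun j _ => ?_
      have h3 := hC j (Complex.exp w) hu2 y rfl
      rw [cc_zero (hcon j), sub_zero, hu] at h3
      have h4 := (le_abs_self _).trans h3
      calc s ^ j * cc S N f j (Complex.exp w, y) ≤ s ^ j * (C j * Real.exp (-s)) :=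
            mul_le_mul_of_nonneg_left h4 (pow_nonneg hs0.le j)
        _ = _ := by ring
    have hB0 : 0 ≤ ∑ j ∈ Finset.range n, ‖N ^ j‖ * s ^ j :=
      Finset.sum_nonneg fun j _ => mul_nonneg (norm_nonneg _) (pow_nonneg hs0.le j)
    rw [hPev, div_eq_mul_inv, ← Real.exp_neg]
    calc c * ‖f (Complex.exp w, y)‖ ^ 2
        ≤ c * ((∑ j ∈ Finset.range n, ‖N ^ j‖ * s ^ j) * ‖om N f (w, y)‖) ^ 2 := by
          gcongr
      _ = (∑ j ∈ Finset.range n, ‖N ^ j‖ * s ^ j) ^ 2 * (c * ‖om N f (w, y)‖ ^ 2) := by ring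
      _ ≤ (∑ j ∈ Finset.range n, ‖N ^ j‖ * s ^ j) ^ 2 *
          (s ^ A * (S (om N f (w, y)) (om N f (w, y))).re) :=
          mul_le_mul_of_nonneg_left hs (by positivity)
      _ ≤ (∑ j ∈ Finset.range n, ‖N ^ j‖ * s ^ j) ^ 2 *
          (s ^ A * ((∑ j ∈ Finset.range n, C j * s ^ j) * Real.exp (-s))) := by
          gcongr
      _ = _ := by ring
  have h5 := le_of_tendsto_of_tendsto hf0 hlim hle
  have h6 : 0 < ‖f (0, y)‖ := norm_pos_iff.2 hfy
  have h7 : 0 < c * ‖f (0, y)‖ ^ 2 := by positivity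
  linarith

end lim

/-! ### the rank drop in terms of `om` -/

section main

variable [FiniteDimensional ℂ V] [FiniteDimensional ℂ E] [CompleteSpace V]
variable {S : V →L⋆[ℂ] V →L[ℂ] ℂ} {N : V →L[ℂ] V} {r : ℝ} {U : Set E} {f : ℂ × E → V}

/-- the monodromy `T` (`om (w + 2 π i / e) = T om (w)`) gives an endomorphism fixing `f (0, ·)` -/
theorem fix_of_deck (h : Bd S N r U f) {T : V →L[ℂ] V} (hTN : ∀ v, T (N v) = N (T v)) {e : ℕ}
    (he : 0 < e)
    (hT : ∀ w : ℂ, w.re < Real.log r → ∀ y ∈ U,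
      om N f (w + 2 * π * I / e, y) = T (om N f (w, y))) :
    ∀ y ∈ U, (ex N (-(e : ℂ)⁻¹) * T) (f (0, y)) = f (0, y) := by
  intro y hy
  have hTex : ∀ c : ℂ, ∀ v, T (ex N c v) = ex N c (T v) := by
    intro c v
    have h1 := T.hasSum (ex_hasSum N c v)
    have h2 := ex_hasSum N c (T v)
    refine h1.unique (h2.congr_fun ?_ |> fun h => h)
    intro n
    have h3 : ∀ n : ℕ, ∀ v, T ((N ^ n) v) = (N ^ n) (T v) := by
      intro n
      induction n with
      | zero => intro v; simp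
      | succ n ih =>
        intro v
        have e1 : (N ^ (n + 1)) v = N ((N ^ n) v) := by rw [pow_succ']; rfl
        have e2 : (N ^ (n + 1)) (T v) = N ((N ^ n) (T v)) := by rw [pow_succ']; rfl
        rw [e1, e2, hTN, ih]
    rw [map_smul, h3]
  have he0 : (e : ℂ) ≠ 0 := by exact_mod_cast he.ne'
  set ζ : ℂ := Complex.exp (2 * π * I / e) with hζ
  -- the identity for `u ≠ 0`
  have key : ∀ w : ℂ, w.re < Real.log r →
      f (Complex.exp w * ζ, y) = (ex N (-(e : ℂ)⁻¹) * T) (f (Complex.exp w, y)) := by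
    intro w hw
    have h1 := hT w hw y hy
    rw [om, om, hTex] at h1
    simp only at h1
    rw [Complex.exp_add, ← hζ] at h1
    have h2 : (w + 2 * π * I / e) / (2 * π * I) = w / (2 * π * I) + (e : ℂ)⁻¹ := by
      have hpi : (2 * π * I : ℂ) ≠ 0 := by simp [Real.pi_ne_zero, I_ne_zero]
      field_simp
    rw [h2, ex_add_apply] at h1
    have h3 := ex_inj N _ h1
    have h4 : (ex N (-(e : ℂ)⁻¹) * T) (f (Complex.exp w, y)) =
        ex N (-(e : ℂ)⁻¹) (T (f (Complex.exp w, y))) := rfl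
    rw [h4, ← h3, ex_neg_apply]
  -- pass to the limit
  have hcont : ContinuousAt f (0, y) := (h.an _ ⟨mem_ball_self h.hr, hy⟩).continuousAt
  have hexp : Tendsto (fun s : ℝ => Complex.exp (-(s : ℂ))) atTop (𝓝 0) := by
    rw [tendsto_zero_iff_norm_tendsto_zero]
    have : (fun s : ℝ => ‖Complex.exp (-(s : ℂ))‖) = fun s => Real.exp (-s) := by
      ext s
      rw [Complex.norm_exp]
      simp
    rw [this]
    exact Real.tendsto_exp_neg_atTop_nhds_zero
  have t1 : Tendsto (fun s : ℝ => f (Complex.exp (-(s : ℂ)) * ζ, y)) atTop (𝓝 (f (0, y))) := by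
    have h1 : Tendsto (fun s : ℝ => (Complex.exp (-(s : ℂ)) * ζ, y)) atTop (𝓝 ((0 : ℂ), y)) := by
      have := hexp.mul_const ζ
      rw [zero_mul] at this
      exact this.prodMk_nhds tendsto_const_nhds
    exact hcont.tendsto.comp h1
  have t2 : Tendsto (fun s : ℝ => (ex N (-(e : ℂ)⁻¹) * T) (f (Complex.exp (-(s : ℂ)), y))) atTop
      (𝓝 ((ex N (-(e : ℂ)⁻¹) * T) (f (0, y)))) := by
    have h1 : Tendsto (fun s : ℝ => (Complex.exp (-(s : ℂ)), y)) atTop (𝓝 ((0 : ℂ), y)) :=
      hexp.prodMk_nhds tendsto_const_nhds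
    exact ((ex N (-(e : ℂ)⁻¹) * T).continuous.tendsto _).comp (hcont.tendsto.comp h1)
  have t3 := t1.congr' (f₂ := fun s : ℝ =>
    (ex N (-(e : ℂ)⁻¹) * T) (f (Complex.exp (-(s : ℂ)), y))) (by
      filter_upwards [eventually_gt_atTop (-Real.log r)] with s hs
      exact key _ (by simp; linarith))
  exact tendsto_nhds_unique t2 t3

/-- **rank drop in terms of the twisted section and the monodromy**.  If the span of `om` and its
derivatives has dimension `≤ ν + 1` everywhere and the monodromy `T` is not the identity on `om`,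
then at every point with limit metric `≠ 0` the null space of the Levi form of its logarithm has
dimension `≥ dim E + 1 - ν`. -/
theorem rank_drop_om (h : Bd S N r U f) (hUc : IsPreconnected U) {k ν : ℕ}
    (hk : ∀ y ∈ U, S (f (0, y)) ((KK N ^ (k + 1)) (f (0, y))) = 0)
    (hν : ∀ w : ℂ, w.re < Real.log r → ∀ y ∈ U, Module.finrank ℂ
      (Submodule.span ℂ ({om N f (w, y)} ∪ range (fderiv ℂ (om N f) (w, y)))) ≤ ν + 1)
    {T : V →L[ℂ] V} (hTN : ∀ v, T (N v) = N (T v)) {e : ℕ} (he : 0 < e)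
    (hT : ∀ w : ℂ, w.re < Real.log r → ∀ y ∈ U,
      om N f (w + 2 * π * I / e, y) = T (om N f (w, y)))
    (hne : ∃ w : ℂ, w.re < Real.log r ∧ ∃ y ∈ U, T (om N f (w, y)) ≠ om N f (w, y))
    {y : E} (hy : y ∈ U) (hη : S (f (0, y)) ((KK N ^ k) (f (0, y))) ≠ 0) :
    Module.finrank ℂ E + 1 ≤
      Module.finrank ℂ (nul S (KK N ^ k) (f (0, y)) (D0 f (0, y))) + ν := by
  have hmem : ∀ w : ℂ, w.re < Real.log r → ∀ y ∈ U,
      (Complex.exp w, y) ∈ ball (0 : ℂ) r ×ˢ U := by
    intro w hw y hy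
    refine ⟨?_, hy⟩
    rw [mem_ball_zero_iff, Complex.norm_exp]
    calc Real.exp w.re < Real.exp (Real.log r) := Real.exp_lt_exp.2 hw
      _ = r := Real.exp_log h.hr
  refine rank_drop h hUc hk ?_ (ex N (-(e : ℂ)⁻¹) * T) (fix_of_deck h hTN he hT) ?_ hy hη
  · intro p hp hp0
    have h1 : ‖p.1‖ < r := by simpa using hp.1
    have h2 : (Complex.log p.1).re < Real.log r := by
      rw [Complex.log_re]
      exact Real.log_lt_log (norm_pos_iff.2 hp0) h1
    have h3 := hν (Complex.log p.1) h2 p.2 hp.2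
    have h4 : (Complex.exp (Complex.log p.1), p.2) = p := by
      rw [Complex.exp_log hp0]
    rw [finrank_span_om (q := (Complex.log p.1, p.2)) (by
      simp only
      rw [h4]
      exact (h.an p hp).differentiableAt)] at h3
    simp only at h3
    rwa [h4] at h3
  · intro hall
    obtain ⟨w, hw, y, hy, hne⟩ := hne
    apply hne
    obtain ⟨h1, h2⟩ := hall _ (hmem w hw y hy)
    have hex : ∀ c : ℂ, ∀ v, N v = 0 → ex N c v = v := by
      intro c v hv
      have h3 := ex_hasSum N c v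
      have h4 : HasSum (fun n : ℕ => ((n ! : ℂ)⁻¹ * c ^ n) • (N ^ n) v) v := by
        have h5 := hasSum_single (f := fun n : ℕ => ((n ! : ℂ)⁻¹ * c ^ n) • (N ^ n) v) 0 ?_
        · simpa using h5
        · intro n hn
          obtain ⟨m, rfl⟩ := Nat.exists_eq_succ_of_ne_zero hn
          have e1 : (N ^ (m + 1)) v = (N ^ m) (N v) := by rw [pow_succ]; rfl
          simp only [Nat.succ_eq_add_one]
          rw [e1, hv, map_zero, smul_zero]
      exact h3.unique h4
    have h3 : om N f (w, y) = f (Complex.exp w, y) := hex _ _ h1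
    rw [h3]
    have h4 : T (f (Complex.exp w, y)) = ex N ((e : ℂ)⁻¹) (f (Complex.exp w, y)) := by
      have h5 : ex N (-(e : ℂ)⁻¹) (T (f (Complex.exp w, y))) = f (Complex.exp w, y) := h2
      rw [← h5, ex_apply_neg, h5]
    rw [h4, hex _ _ h1]

end main

end Crest.Agent.R276.Bdy_767
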