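import Crest.Agent.R276.BdyE_767
import Crest.Agent.R276.VCalc_442

/-!
# R276, leaf B-767, part 3 (helper767): the Levi form of the logarithm of the limit metric, and of
`log S (om) (om)`, in the Wirtinger calculus of `VCalc_442`.
-/

set_option autoImplicit false
set_option linter.unusedSectionVars false

open Set Filter Topology Metric Complex MeasureTheory
open scoped Real ContDiff ComplexConjugate Nat

noncomputable section

namespace Crest.Agent.R276.Bdy_767

open Div_767 VCalc_442

variable {V : Type*} [NormedAddCommGroup V] [NormedSpace ℂ V]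
variable {X : Type*} [NormedAddCommGroup X] [NormedSpace ℂ X]

/-- the form `S` as a real bilinear map -/
def SR (S : V →L⋆[ℂ] V →L[ℂ] ℂ) : V →L[ℝ] V →L[ℝ] ℂ :=
  LinearMap.mkContinuous₂ (LinearMap.mk₂ ℝ (fun a b => S a b)
    (fun a a' b => by simp) (fun c a b => by
      have : (c • a : V) = (c : ℂ) • a := rfl
      rw [this, map_smulₛₗ]
      simp)
    (fun a b b' => by simp) (fun c a b => by
      have : (c • b : V) = (c : ℂ) • b := rfl
      rw [this, map_smul]
      simp)) ‖S‖ (fun a b => by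
        simpa using S.le_opNorm₂ a b)


theorem fderiv_S {S : V →L⋆[ℂ] V →L[ℂ] ℂ} {a b : X → V} {x : X} (ha : DifferentiableAt ℂ a x)
    (hb : DifferentiableAt ℂ b x) :
    DifferentiableAt ℝ (fun z => S (a z) (b z)) x ∧ ∀ v,
      fderiv ℝ (fun z => S (a z) (b z)) x v = S (fderiv ℂ a x v) (b x) + S (a x) (fderiv ℂ b x v) := by
  have h1 := (SR S).hasFDerivAt_of_bilinear (ha.hasFDerivAt.restrictScalars ℝ)
    (hb.hasFDerivAt.restrictScalars ℝ)
  have h2 : HasFDerivAt (fun z => S (a z) (b z)) _ x := h1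
  refine ⟨h2.differentiableAt, fun v => ?_⟩
  rw [h2.fderiv, add_comm]
  rfl

theorem dW_S {S : V →L⋆[ℂ] V →L[ℂ] ℂ} {a b : X → V} {x : X} (ha : DifferentiableAt ℂ a x)
    (hb : DifferentiableAt ℂ b x) (v : X) :
    dW (fun z => S (a z) (b z)) v x = S (a x) (fderiv ℂ b x v) := by
  obtain ⟨-, h⟩ := fderiv_S (S := S) ha hb
  rw [dW, h, h]
  simp only [map_smul, map_smulₛₗ, smul_apply, smul_eq_mul, conj_I]
  linear_combination (1 / 2 * S (fderiv ℂ a x v) (b x) - 1 / 2 * S (a x) (fderiv ℂ b x v)) * Complex.I_mul_I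

theorem dB_S {S : V →L⋆[ℂ] V →L[ℂ] ℂ} {a b : X → V} {x : X} (ha : DifferentiableAt ℂ a x)
    (hb : DifferentiableAt ℂ b x) (v : X) :
    dB (fun z => S (a z) (b z)) v x = S (fderiv ℂ a x v) (b x) := by
  obtain ⟨-, h⟩ := fderiv_S (S := S) ha hb
  rw [dB, h, h]
  simp only [map_smul, map_smulₛₗ, smul_apply, smul_eq_mul, conj_I]
  linear_combination (-1 / 2 * S (fderiv ℂ a x v) (b x) + 1 / 2 * S (a x) (fderiv ℂ b x v)) * Complex.I_mul_I

/-- **Levi form of the logarithm of a hermitian norm of a holomorphic section**: for `g`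
holomorphic near `x`, `η = c S (g) (L g) > 0` -/
theorem levi_log [FiniteDimensional ℂ X] [CompleteSpace V] {S : V →L⋆[ℂ] V →L[ℂ] ℂ} {L : V →L[ℂ] V}
    (hL : ∀ a b, S a (L b) = conj (S b (L a))) {g : X → V} {x : X} (hg : AnalyticAt ℂ g x)
    {c : ℝ} (hc : c ≠ 0) (hne : S (g x) (L (g x)) ≠ 0) (v w : X) :
    dW (fun z => dB (fun z => ((Real.log (c * (S (g z) (L (g z))).re) : ℝ) : ℂ)) v z) w x =
      BB S L (g x) (fderiv ℂ g x) v w / (S (g x) (L (g x))) ^ 2 := by
  -- reality
  have hreal : ∀ z, (((S (g z) (L (g z))).re : ℝ) : ℂ) = S (g z) (L (g z)) := by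
    intro z
    apply Complex.ext
    · rw [Complex.ofReal_re]
    · rw [Complex.ofReal_im]
      have h := congrArg Complex.im (hL (g z) (g z))
      rw [Complex.conj_im] at h
      linarith
  have hcont : ContinuousAt (fun z => S (g z) (L (g z))) x :=
    (S.continuous.continuousAt.comp hg.continuousAt).clm_apply
      (L.continuous.continuousAt.comp hg.continuousAt)
  have hLg : ∀ z, DifferentiableAt ℂ g z → HasFDerivAt (fun z => L (g z)) (L.comp (fderiv ℂ g z)) z :=
    fun z hz => L.hasFDerivAt.comp z hz.hasFDerivAt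
  -- first derivative near `x`
  have hev : (fun z => dB (fun z => ((Real.log (c * (S (g z) (L (g z))).re) : ℝ) : ℂ)) v z)
      =ᶠ[𝓝 x] fun z => S (fderiv ℂ g z v) (L (g z)) / S (g z) (L (g z)) := by
    filter_upwards [hg.eventually_analyticAt, hcont.eventually_ne hne] with z hz hz0
    have hzd := hz.differentiableAt
    have hre : (S (g z) (L (g z))).re ≠ 0 := by
      intro h0
      apply hz0
      rw [← hreal z, h0, Complex.ofReal_zero]
    obtain ⟨hd, hfd⟩ := fderiv_S (S := S) hzd (hLg z hzd).differentiableAt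
    have h1 : HasFDerivAt (fun z => (S (g z) (L (g z))).re)
        (Complex.reCLM.comp (fderiv ℝ (fun z => S (g z) (L (g z))) z)) z :=
      Complex.reCLM.hasFDerivAt.comp z hd.hasFDerivAt
    have h2 : HasFDerivAt (fun z => Real.log (c * (S (g z) (L (g z))).re))
        ((c * (S (g z) (L (g z))).re)⁻¹ • (c • (Complex.reCLM.comp
          (fderiv ℝ (fun z => S (g z) (L (g z))) z)))) z :=
      (h1.const_mul c).log (mul_ne_zero hc hre)
    have h3 : HasFDerivAt (fun z => ((Real.log (c * (S (g z) (L (g z))).re) : ℝ) : ℂ))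
        (Complex.ofRealCLM.comp ((c * (S (g z) (L (g z))).re)⁻¹ • (c • (Complex.reCLM.comp
          (fderiv ℝ (fun z => S (g z) (L (g z))) z))))) z :=
      Complex.ofRealCLM.hasFDerivAt.comp z h2
    have h4 : ∀ v, fderiv ℝ (fun z => ((Real.log (c * (S (g z) (L (g z))).re) : ℝ) : ℂ)) z v =
        fderiv ℝ (fun z => S (g z) (L (g z))) z v / S (g z) (L (g z)) := by
      intro v
      rw [h3.fderiv]
      have hreal' : (((fderiv ℝ (fun z => S (g z) (L (g z))) z v).re : ℝ) : ℂ) =
          fderiv ℝ (fun z => S (g z) (L (g z))) z v := by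
        apply Complex.ext
        · rw [Complex.ofReal_re]
        · rw [Complex.ofReal_im, hfd v, (hLg z hzd).fderiv]
          have e1 := hL (g z) (fderiv ℂ g z v)
          have e2 : ((L.comp (fderiv ℂ g z)) v) = L (fderiv ℂ g z v) := rfl
          rw [e2, e1, Complex.add_im, Complex.conj_im]
          ring
      simp only [ContinuousLinearMap.comp_apply, smul_apply, Complex.ofRealCLM_apply,
        Complex.reCLM_apply, smul_eq_mul, Complex.ofReal_mul, Complex.ofReal_inv]
      rw [hreal', hreal z]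
      have hc' : (c : ℂ) ≠ 0 := by exact_mod_cast hc
      field_simp
    have h5 : dB (fun z => ((Real.log (c * (S (g z) (L (g z))).re) : ℝ) : ℂ)) v z =
        dB (fun z => S (g z) (L (g z))) v z / S (g z) (L (g z)) := by
      simp only [dB, h4, smul_eq_mul]
      ring
    rw [h5, dB_S hzd (hLg z hzd).differentiableAt]
  rw [dW_congr hev]
  -- second derivative
  have hgd := hg.differentiableAt
  have hDv : DifferentiableAt ℂ (fun z => fderiv ℂ g z v) x := by
    have h1 : AnalyticAt ℂ (fderiv ℂ g) x := hg.fderiv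
    exact (((ContinuousLinearMap.apply ℂ V v).analyticAt _).comp h1).differentiableAt
  have hA := fderiv_S (S := S) hDv (hLg x hgd).differentiableAt
  have hB := fderiv_S (S := S) hgd (hLg x hgd).differentiableAt
  have hQ : DifferentiableAt ℝ (fun z => S (fderiv ℂ g z v) (L (g z)) / S (g z) (L (g z))) x := by
    simp only [div_eq_mul_inv]
    exact hA.1.fun_mul (DifferentiableAt.inv (h := fun z => S (g z) (L (g z))) hB.1 hne)
  have hprod : (fun z => (S (fderiv ℂ g z v) (L (g z)) / S (g z) (L (g z))) * S (g z) (L (g z)))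
      =ᶠ[𝓝 x] fun z => S (fderiv ℂ g z v) (L (g z)) := by
    filter_upwards [hcont.eventually_ne hne] with z hz0
    rw [div_mul_cancel₀ _ hz0]
  have h6 := dW_congr hprod w
  have h7 := dW_mul (f := fun z => S (fderiv ℂ g z v) (L (g z)) / S (g z) (L (g z)))
    (g := fun z => S (g z) (L (g z))) hQ hB.1 w
  rw [h6] at h7
  rw [dW_S hDv (hLg x hgd).differentiableAt, dW_S hgd (hLg x hgd).differentiableAt,
    (hLg x hgd).fderiv] at h7
  have e2 : ((L.comp (fderiv ℂ g x)) w) = L (fderiv ℂ g x w) := rfl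
  rw [e2] at h7
  rw [BB]
  field_simp
  field_simp at h7
  linear_combination -h7

/-! ### the limit metric -/

section limit

variable {E : Type*} [NormedAddCommGroup E] [NormedSpace ℂ E]
variable [FiniteDimensional ℂ E] [CompleteSpace V]
variable {S : V →L⋆[ℂ] V →L[ℂ] ℂ} {N : V →L[ℂ] V} {r : ℝ} {U : Set E} {f : ℂ × E → V}

theorem an_f0 (h : Bd S N r U f) {y : E} (hy : y ∈ U) : AnalyticAt ℂ (fun z : E => f (0, z)) y :=
  (h.an (0, y) ⟨mem_ball_self h.hr, hy⟩).comp_of_eq (analyticAt_const.prod analyticAt_id) rfl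

theorem fderiv_f0 (h : Bd S N r U f) {y : E} (hy : y ∈ U) :
    fderiv ℂ (fun z : E => f (0, z)) y = D0 f (0, y) := by
  have h1 : HasFDerivAt f (fderiv ℂ f (0, y)) (0, y) :=
    (h.an (0, y) ⟨mem_ball_self h.hr, hy⟩).differentiableAt.hasFDerivAt
  exact (h1.comp y (hasFDerivAt_prodMk_right (0 : ℂ) y)).fderiv

/-- the Levi form of the logarithm of the limit metric `c_k (0, ·)` -/
theorem levi_cc (h : Bd S N r U f) {k : ℕ} {y : E} (hy : y ∈ U)
    (hη : S (f (0, y)) ((KK N ^ k) (f (0, y))) ≠ 0) (v w : E) :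
    dW (fun z => dB (fun z => ((Real.log (cc S N f k (0, z)) : ℝ) : ℂ)) v z) w y =
      BB S (KK N ^ k) (f (0, y)) (D0 f (0, y)) v w /
        (S (f (0, y)) ((KK N ^ k) (f (0, y)))) ^ 2 := by
  have hc : (π ^ k * (k ! : ℝ))⁻¹ ≠ 0 := by
    refine inv_ne_zero (mul_ne_zero (pow_ne_zero _ Real.pi_ne_zero) ?_)
    exact_mod_cast Nat.factorial_ne_zero k
  have h1 := levi_log (S := S) (L := KK N ^ k) (KKpow_herm h.herm h.skew k) (an_f0 h hy) hc hη v w
  rw [fderiv_f0 h hy] at h1
  exact h1

/-- on the null space the mixed derivatives of the logarithm of the limit metric vanish -/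
theorem levi_cc_null (h : Bd S N r U f) {k : ℕ} {y : E} (hy : y ∈ U)
    (hη : S (f (0, y)) ((KK N ^ k) (f (0, y))) ≠ 0) {v : E}
    (hv : v ∈ nul S (KK N ^ k) (f (0, y)) (D0 f (0, y))) (w : E) :
    dW (fun z => dB (fun z => ((Real.log (cc S N f k (0, z)) : ℝ) : ℂ)) v z) w y = 0 ∧
    dW (fun z => dB (fun z => ((Real.log (cc S N f k (0, z)) : ℝ) : ℂ)) w z) v y = 0 := by
  rw [levi_cc h hy hη, levi_cc h hy hη]
  have h1 := hv w
  have h2 : BB S (KK N ^ k) (f (0, y)) (D0 f (0, y)) v w = 0 := by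
    rw [BB_conj (KKpow_herm h.herm h.skew k), h1, map_zero]
  rw [h1, h2, zero_div, and_self]

end limit

/-! ### the rank of the Levi form of `log S (g) (g)` -/

section rank

variable {E : Type*} [NormedAddCommGroup E] [NormedSpace ℂ E]
variable [FiniteDimensional ℂ E] [FiniteDimensional ℂ V]



end rank

end Crest.Agent.R276.Bdy_767
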