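import Crest.Agent.R276.VCalc_442

/-!
# R276, leaf IPC-PSI (helper563): the horizontal trivialisation of a family of punctured planes

`a : Fin k → ℂ` distinct points, `χ_i` bump functions with disjoint supports, `χ_i = 1` near `a_i`.
For `b : Fin k → ℂ` small, `Ψ_b x = x + ∑ i, χ_i x * b_i` is a diffeomorphism of `ℂ`, complex affine
in `b`, equal to the translation by `b_i` near `a_i`, equal to the identity near infinity.

* `exists_bumps`  : existence of the bump functions.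
* `Bumps.bij`, `Bumps.contDiffOn_inv` : `Ψ_b` is bijective, jointly smooth with jointly smooth inverse.
* `Bumps.P`, `Bumps.Q` : Wirtinger derivatives of `Ψ_b`; `‖P - 1‖ + ‖Q‖ ≤ 1 / 2`.
* `lintegral_comp`, `integral_comp` : change of variables.
* `pull` : pull-back of one-forms `α dx + β dx̄` (coefficients), wedge and norm formulas.
-/

set_option autoImplicit false

open Set Filter Topology Metric MeasureTheory
open scoped ContDiff ComplexConjugate NNReal ENNReal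

namespace Crest.Agent.R276.Psi_563

open Crest.Agent.R276.VCalc_442

/-- `k` points with bump functions -/
structure Bumps (k : ℕ) where
  a : Fin k → ℂ
  ρ : ℝ
  χ : Fin k → ℂ → ℝ
  ρ_pos : 0 < ρ
  smooth : ∀ i, ContDiff ℝ ∞ (χ i)
  nonneg : ∀ i x, 0 ≤ χ i x
  le_one : ∀ i x, χ i x ≤ 1
  compact : ∀ i, HasCompactSupport (χ i)
  one : ∀ i, ∀ x ∈ ball (a i) ρ, χ i x = 1
  disj : ∀ i j, i ≠ j → Disjoint (tsupport (χ i)) (tsupport (χ j))

/-- bump functions exist for every finite family of distinct points; the supports can be taken in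
arbitrarily small discs -/
theorem exists_bumps {k : ℕ} (a : Fin k → ℂ) (ha : Function.Injective a) {r : ℝ} (hr : 0 < r) :
    ∃ B : Bumps k, B.a = a ∧ ∀ i, tsupport (B.χ i) ⊆ ball (a i) r := by
  classical
  -- minimal distance
  obtain ⟨d, hd0, hd⟩ : ∃ d : ℝ, 0 < d ∧ ∀ i j, i ≠ j → d ≤ dist (a i) (a j) := by
    have hfin : (Set.univ : Set (Fin k × Fin k)).Finite := Set.toFinite _
    let S : Finset (Fin k × Fin k) := Finset.univ.filter (fun p => p.1 ≠ p.2)
    by_cases hS : S.Nonempty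
    · obtain ⟨p, hp, hmin⟩ := S.exists_min_image (fun p => dist (a p.1) (a p.2)) hS
      refine ⟨dist (a p.1) (a p.2), ?_, ?_⟩
      · have hne : p.1 ≠ p.2 := by simpa [S] using hp
        exact dist_pos.2 fun h => hne (ha h)
      · intro i j hij
        exact hmin (i, j) (by simpa [S] using hij)
    · refine ⟨1, one_pos, ?_⟩
      intro i j hij
      exact absurd ⟨(i, j), by simpa [S] using hij⟩ hS
  set e : ℝ := min (d / 5) (r / 3) with he
  have he0 : 0 < e := lt_min (by positivity) (by positivity)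
  have hed : e ≤ d / 5 := min_le_left _ _
  have her : e ≤ r / 3 := min_le_right _ _
  let f : ∀ i : Fin k, ContDiffBump (a i) := fun i => ⟨e, 2 * e, he0, by linarith⟩
  refine ⟨{ a := a
            ρ := e
            χ := fun i => f i
            ρ_pos := he0
            smooth := fun i => (f i).contDiff
            nonneg := fun i x => (f i).nonneg
            le_one := fun i x => (f i).le_one
            compact := fun i => (f i).hasCompactSupport
            one := fun i x hx => (f i).one_of_mem_closedBall (ball_subset_closedBall hx)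
            disj := ?_ }, rfl, ?_⟩
  · intro i j hij
    have h1 : tsupport (f i) = closedBall (a i) (2 * e) := (f i).tsupport_eq
    have h2 : tsupport (f j) = closedBall (a j) (2 * e) := (f j).tsupport_eq
    rw [h1, h2]
    refine closedBall_disjoint_closedBall ?_
    have := hd i j hij
    linarith
  · intro i
    have h1 : tsupport (f i) = closedBall (a i) (2 * e) := (f i).tsupport_eq
    show tsupport (f i) ⊆ _
    rw [h1]
    exact closedBall_subset_ball (by linarith)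

namespace Bumps

variable {k : ℕ} (B : Bumps k)

/-- the displacement -/
noncomputable def w (b : Fin k → ℂ) (x : ℂ) : ℂ := ∑ i, (B.χ i x : ℂ) * b i

/-- the trivialising map -/
noncomputable def psi (b : Fin k → ℂ) (x : ℂ) : ℂ := x + B.w b x

/-- the inverse -/
noncomputable def inv (b : Fin k → ℂ) (y : ℂ) : ℂ := Function.invFun (B.psi b) y

theorem w_zero (x : ℂ) : B.w 0 x = 0 := by simp [w]

theorem psi_zero (x : ℂ) : B.psi 0 x = x := by simp [psi, w_zero]


theorem w_sub (b c : Fin k → ℂ) (x : ℂ) : B.w (b - c) x = B.w b x - B.w c x := by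
  simp [w, mul_sub, Finset.sum_sub_distrib]


/-- `b ↦ w b x` as a complex linear map -/
noncomputable def wL (x : ℂ) : (Fin k → ℂ) →L[ℂ] ℂ :=
  ∑ i, (B.χ i x : ℂ) • ContinuousLinearMap.proj (R := ℂ) (φ := fun _ : Fin k => ℂ) i

theorem wL_apply (x : ℂ) (b : Fin k → ℂ) : B.wL x b = B.w b x := by
  simp [wL, w]

theorem chi_eq_zero {i j : Fin k} (hij : i ≠ j) {x : ℂ} (hx : B.χ i x ≠ 0) : B.χ j x = 0 := by
  by_contra h
  exact (Set.disjoint_left.1 (B.disj i j hij)) (subset_tsupport _ hx) (subset_tsupport _ h)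

theorem w_eq_of_ne_zero {i : Fin k} {x : ℂ} (hx : B.χ i x ≠ 0) (b : Fin k → ℂ) :
    B.w b x = B.χ i x * b i := by
  unfold w
  refine Finset.sum_eq_single i (fun j _ hj => ?_) (fun h => absurd (Finset.mem_univ i) h)
  rw [B.chi_eq_zero (Ne.symm hj) hx]; simp

theorem norm_w_le (b : Fin k → ℂ) (x : ℂ) : ‖B.w b x‖ ≤ ‖b‖ := by
  by_cases h : ∃ i, B.χ i x ≠ 0
  · obtain ⟨i, hi⟩ := h
    rw [B.w_eq_of_ne_zero hi, norm_mul, Complex.norm_real, Real.norm_of_nonneg (B.nonneg i x)]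
    calc B.χ i x * ‖b i‖ ≤ 1 * ‖b‖ := by
          gcongr
          · exact B.le_one i x
          · exact norm_le_pi_norm b i
      _ = ‖b‖ := one_mul _
  · push Not at h
    simp [w, h]

theorem w_eq_on_ball {i : Fin k} {x : ℂ} (hx : x ∈ ball (B.a i) B.ρ) (b : Fin k → ℂ) :
    B.w b x = b i := by
  have h1 := B.one i x hx
  rw [B.w_eq_of_ne_zero (i := i) (by rw [h1]; exact one_ne_zero), h1]
  simp

theorem psi_eq_on_ball {i : Fin k} {x : ℂ} (hx : x ∈ ball (B.a i) B.ρ) (b : Fin k → ℂ) :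
    B.psi b x = x + b i := by
  rw [psi, B.w_eq_on_ball hx]

theorem psi_a (i : Fin k) (b : Fin k → ℂ) : B.psi b (B.a i) = B.a i + b i :=
  B.psi_eq_on_ball (mem_ball_self B.ρ_pos) b

/-- the union of the supports -/
def K : Set ℂ := ⋃ i, tsupport (B.χ i)

theorem isCompact_K : IsCompact B.K := isCompact_iUnion fun i => B.compact i

theorem w_eq_zero_off {x : ℂ} (hx : x ∉ B.K) (b : Fin k → ℂ) : B.w b x = 0 := by
  have : ∀ i, B.χ i x = 0 := fun i => by
    by_contra h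
    exact hx (mem_iUnion.2 ⟨i, subset_tsupport _ h⟩)
  simp [w, this]

theorem psi_eq_off {x : ℂ} (hx : x ∉ B.K) (b : Fin k → ℂ) : B.psi b x = x := by
  rw [psi, B.w_eq_zero_off hx, add_zero]


/-! ### smoothness -/

theorem contDiff_w : ContDiff ℝ ∞ (fun p : (Fin k → ℂ) × ℂ => B.w p.1 p.2) := by
  unfold w
  refine ContDiff.sum fun i _ => ?_
  refine ContDiff.mul ?_ ?_
  · exact (Complex.ofRealCLM.contDiff).comp ((B.smooth i).comp contDiff_snd)
  · exact (contDiff_apply ℝ ℂ i).comp contDiff_fst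

theorem contDiff_psi : ContDiff ℝ ∞ (fun p : (Fin k → ℂ) × ℂ => B.psi p.1 p.2) :=
  contDiff_snd.add B.contDiff_w


theorem contDiff_psi_right (b : Fin k → ℂ) : ContDiff ℝ ∞ (B.psi b) :=
  B.contDiff_psi.comp (contDiff_const.prodMk contDiff_id)

theorem continuous_psi (b : Fin k → ℂ) : Continuous (B.psi b) := (B.contDiff_psi_right b).continuous

/-- Lipschitz constant -/
theorem exists_lip : ∃ L : ℝ, 0 ≤ L ∧ ∀ b x y, ‖B.w b x - B.w b y‖ ≤ L * ‖b‖ * ‖x - y‖ := by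
  have h1 : ∀ i, ∃ C : ℝ≥0, LipschitzWith C (B.χ i) := fun i =>
    ContDiff.lipschitzWith_of_hasCompactSupport (B.compact i) (B.smooth i) (by simp)
  choose C hC using h1
  refine ⟨∑ i, (C i : ℝ), by positivity, fun b x y => ?_⟩
  have h2 : B.w b x - B.w b y = ∑ i, ((B.χ i x - B.χ i y : ℝ) : ℂ) * b i := by
    unfold w
    rw [← Finset.sum_sub_distrib]
    refine Finset.sum_congr rfl fun i _ => ?_
    push_cast; ring
  rw [h2, Finset.sum_mul, Finset.sum_mul]
  refine (norm_sum_le _ _).trans (Finset.sum_le_sum fun i _ => ?_)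
  rw [norm_mul, Complex.norm_real]
  have h3 : ‖B.χ i x - B.χ i y‖ ≤ C i * ‖x - y‖ := by
    have := (hC i).dist_le_mul x y
    rwa [dist_eq_norm, dist_eq_norm] at this
  calc ‖B.χ i x - B.χ i y‖ * ‖b i‖ ≤ (C i * ‖x - y‖) * ‖b‖ := by
        gcongr
        exact norm_le_pi_norm b i
    _ = C i * ‖b‖ * ‖x - y‖ := by ring

/-- the Lipschitz constant -/
noncomputable def L : ℝ := B.exists_lip.choose

theorem L_nonneg : 0 ≤ B.L := B.exists_lip.choose_spec.1

theorem lip (b : Fin k → ℂ) (x y : ℂ) : ‖B.w b x - B.w b y‖ ≤ B.L * ‖b‖ * ‖x - y‖ :=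
  B.exists_lip.choose_spec.2 b x y

/-- the radius of the parameter ball -/
noncomputable def δ : ℝ := 1 / (2 * (B.L + 1))

theorem δ_pos : 0 < B.δ := by
  have := B.L_nonneg
  unfold δ; positivity

theorem L_mul_le {b : Fin k → ℂ} (hb : ‖b‖ < B.δ) : B.L * ‖b‖ ≤ 1 / 2 := by
  have h0 := B.L_nonneg
  have h1 : B.L * ‖b‖ ≤ (B.L + 1) * B.δ := by
    have := norm_nonneg b
    nlinarith [B.δ_pos]
  have h2 : (B.L + 1) * B.δ = 1 / 2 := by
    unfold δ; field_simp
  linarith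

theorem lip_half {b : Fin k → ℂ} (hb : ‖b‖ < B.δ) (x y : ℂ) :
    ‖B.w b x - B.w b y‖ ≤ 1 / 2 * ‖x - y‖ :=
  (B.lip b x y).trans (by gcongr; exact B.L_mul_le hb)

theorem psi_lower {b : Fin k → ℂ} (hb : ‖b‖ < B.δ) (x y : ℂ) :
    1 / 2 * ‖x - y‖ ≤ ‖B.psi b x - B.psi b y‖ := by
  have h1 : x - y = (B.psi b x - B.psi b y) - (B.w b x - B.w b y) := by unfold psi; ring
  have h2 : ‖x - y‖ ≤ ‖B.psi b x - B.psi b y‖ + ‖B.w b x - B.w b y‖ := by
    conv_lhs => rw [h1]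
    exact norm_sub_le _ _
  have h3 := B.lip_half hb x y
  linarith


theorem injective {b : Fin k → ℂ} (hb : ‖b‖ < B.δ) : Function.Injective (B.psi b) := by
  intro x y h
  have h1 := B.psi_lower hb x y
  rw [h, sub_self, norm_zero] at h1
  have : ‖x - y‖ ≤ 0 := by linarith
  exact sub_eq_zero.1 (norm_le_zero_iff.1 this)

theorem surjective {b : Fin k → ℂ} (hb : ‖b‖ < B.δ) : Function.Surjective (B.psi b) := by
  have h : ApproximatesLinearOn (B.psi b)
      ((ContinuousLinearEquiv.refl ℝ ℂ : ℂ ≃L[ℝ] ℂ) : ℂ →L[ℝ] ℂ) univ (1 / 2 : ℝ≥0) := by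
    intro x _ y _
    have h1 : B.psi b x - B.psi b y -
        ((ContinuousLinearEquiv.refl ℝ ℂ : ℂ ≃L[ℝ] ℂ) : ℂ →L[ℝ] ℂ) (x - y)
        = B.w b x - B.w b y := by
      simp only [psi, ContinuousLinearEquiv.coe_refl, ContinuousLinearMap.coe_id', id_eq]
      ring
    rw [h1]
    have := B.lip_half hb x y
    simpa using this
  refine h.surjective (Or.inr ?_)
  have hn : ‖((ContinuousLinearEquiv.refl ℝ ℂ).symm : ℂ →L[ℝ] ℂ)‖₊ = 1 := by
    have : ((ContinuousLinearEquiv.refl ℝ ℂ).symm : ℂ →L[ℝ] ℂ) = ContinuousLinearMap.id ℝ ℂ := rfl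
    rw [this]
    exact ContinuousLinearMap.nnnorm_id
  rw [hn, inv_one]
  exact half_lt_self one_pos

theorem bij {b : Fin k → ℂ} (hb : ‖b‖ < B.δ) : Function.Bijective (B.psi b) :=
  ⟨B.injective hb, B.surjective hb⟩

theorem inv_psi {b : Fin k → ℂ} (hb : ‖b‖ < B.δ) (x : ℂ) : B.inv b (B.psi b x) = x :=
  Function.leftInverse_invFun (B.injective hb) x

theorem psi_inv {b : Fin k → ℂ} (hb : ‖b‖ < B.δ) (y : ℂ) : B.psi b (B.inv b y) = y :=
  Function.rightInverse_invFun (B.surjective hb) y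


/-- the inverse is Lipschitz jointly in `(b, y)` -/
theorem inv_lip {b b' : Fin k → ℂ} (hb : ‖b‖ < B.δ) (hb' : ‖b'‖ < B.δ) (y y' : ℂ) :
    ‖B.inv b y - B.inv b' y'‖ ≤ 2 * (‖y - y'‖ + ‖b - b'‖) := by
  set x := B.inv b y with hx
  set x' := B.inv b' y' with hx'
  have h1 : B.psi b x = y := B.psi_inv hb y
  have h2 : B.psi b' x' = y' := B.psi_inv hb' y'
  have h3 := B.psi_lower hb x x'
  have h4 : B.psi b x - B.psi b x' = (y - y') - B.w (b - b') x' := by
    rw [w_sub, ← h1, ← h2]; unfold psi; ring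
  have h5 : ‖B.psi b x - B.psi b x'‖ ≤ ‖y - y'‖ + ‖b - b'‖ := by
    rw [h4]
    exact (norm_sub_le _ _).trans (by gcongr; exact B.norm_w_le _ _)
  linarith

/-! ### the punctured planes -/

/-- the complement of the punctures `a_i + b_i` -/
def C (b : Fin k → ℂ) : Set ℂ := {x | ∀ i, x ≠ B.a i + b i}



theorem psi_mem_iff {b : Fin k → ℂ} (hb : ‖b‖ < B.δ) {x : ℂ} : B.psi b x ∈ B.C b ↔ x ∈ B.C 0 := by
  simp only [C, mem_ofPred_eq, Pi.zero_apply, add_zero]
  refine forall_congr' fun i => not_congr ?_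
  rw [← B.psi_a i b]
  exact (B.injective hb).eq_iff





/-! ### homeomorphism, joint smoothness of the inverse -/

theorem continuous_inv {b : Fin k → ℂ} (hb : ‖b‖ < B.δ) : Continuous (B.inv b) := by
  rw [Metric.continuous_iff]
  intro y ε hε
  refine ⟨ε / 2, by positivity, fun z hz => ?_⟩
  rw [dist_eq_norm] at hz ⊢
  have h := B.inv_lip hb hb z y
  rw [sub_self, norm_zero, add_zero] at h
  linarith

/-- the homeomorphism `Ψ_b` -/
noncomputable def homeo {b : Fin k → ℂ} (hb : ‖b‖ < B.δ) : ℂ ≃ₜ ℂ where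
  toFun := B.psi b
  invFun := B.inv b
  left_inv := B.inv_psi hb
  right_inv := B.psi_inv hb
  continuous_toFun := B.continuous_psi b
  continuous_invFun := B.continuous_inv hb

theorem isCompact_preimage {b : Fin k → ℂ} (hb : ‖b‖ < B.δ) {K : Set ℂ} (hK : IsCompact K) :
    IsCompact (B.psi b ⁻¹' K) := (B.homeo hb).isCompact_preimage.2 hK


end Bumps

/-! ### Wirtinger coefficients of a real differentiable map of the plane -/

section planar

variable {A : Type*} [NormedAddCommGroup A] [NormedSpace ℂ A]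

theorem fderiv_eq_W (f : ℂ → A) (x v : ℂ) :
    fderiv ℝ f x v = v • dW f 1 x + conj v • dB f 1 x := by
  have h1 : dW f v x = v • dW f 1 x := by
    have := dW_smul_dir (f := f) (x := x) v 1
    simpa using this
  have h2 : dB f v x = (conj v) • dB f 1 x := by
    have := dB_smul_dir (f := f) (x := x) v 1
    simpa using this
  rw [VCalc_442.fderiv_eq, h1, h2]

/-- `v ↦ p * v + q * conj v` -/
noncomputable def wir (p q : ℂ) : ℂ →L[ℝ] ℂ :=
  (ContinuousLinearMap.mul ℝ ℂ p) + (ContinuousLinearMap.mul ℝ ℂ q).comp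
    (Complex.conjCLE : ℂ →L[ℝ] ℂ)

@[simp] theorem wir_apply (p q v : ℂ) : wir p q v = p * v + q * conj v := by simp [wir]

theorem fderiv_eq_wir (f : ℂ → ℂ) (x : ℂ) : fderiv ℝ f x = wir (dW f 1 x) (dB f 1 x) := by
  ext1 v
  rw [fderiv_eq_W, wir_apply]
  simp only [smul_eq_mul]
  ring

theorem det_wir (p q : ℂ) : (wir p q).det = ‖p‖ ^ 2 - ‖q‖ ^ 2 := by
  have h1 : (wir p q).det = LinearMap.det ((wir p q : ℂ →L[ℝ] ℂ) : ℂ →ₗ[ℝ] ℂ) := rfl
  rw [h1, ← LinearMap.det_toMatrix Complex.basisOneI, Matrix.det_fin_two]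
  simp only [LinearMap.toMatrix_apply, Complex.coe_basisOneI_repr, Complex.coe_basisOneI,
    Matrix.cons_val_zero, Matrix.cons_val_one, ContinuousLinearMap.coe_coe, wir_apply,
    Complex.sq_norm, Complex.normSq_apply]
  simp
  ring

theorem norm_add_norm_le_of (p q : ℂ) {c : ℝ} (h : ∀ v : ℂ, ‖p * v + q * conj v‖ ≤ c * ‖v‖) :
    ‖p‖ + ‖q‖ ≤ c := by
  by_cases hp : p = 0
  · have := h 1
    simpa [hp] using this
  by_cases hq : q = 0
  · have := h 1
    simpa [hq] using this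
  have hp' : (‖p‖ : ℂ) ≠ 0 := by exact_mod_cast norm_ne_zero_iff.2 hp
  have hq' : (‖q‖ : ℂ) ≠ 0 := by exact_mod_cast norm_ne_zero_iff.2 hq
  obtain ⟨v, hv⟩ := IsAlgClosed.exists_pow_nat_eq (conj p * q / (‖p‖ * ‖q‖) : ℂ) (n := 2) two_pos
  have hv1 : ‖v‖ = 1 := by
    have h2 : ‖v‖ ^ 2 = 1 := by
      rw [← norm_pow, hv, norm_div, norm_mul, norm_mul, Complex.norm_conj, Complex.norm_real,
        Complex.norm_real, norm_norm, norm_norm]
      have : ‖p‖ * ‖q‖ ≠ 0 := mul_ne_zero (norm_ne_zero_iff.2 hp) (norm_ne_zero_iff.2 hq)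
      exact div_self this
    have := norm_nonneg v
    nlinarith
  have hv0 : v ≠ 0 := by
    intro h0; rw [h0, norm_zero] at hv1; exact zero_ne_one hv1
  have hcv : conj v = v⁻¹ := by
    rw [Complex.inv_def, Complex.normSq_eq_norm_sq, hv1]; simp
  have hkey : p * v + q * conj v = q * ((‖p‖ : ℂ) / ‖q‖ + 1) * v⁻¹ := by
    have h3 : p * v ^ 2 = ‖p‖ * q / ‖q‖ := by
      rw [hv]
      have h4 : p * conj p = (‖p‖ : ℂ) ^ 2 := Complex.mul_conj' p
      field_simp
      rw [h4]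
    rw [hcv]
    field_simp
    rw [h3]
    field_simp
  have h5 := h v
  rw [hkey, hv1, mul_one, norm_mul, norm_mul, norm_inv, hv1, inv_one, mul_one] at h5
  have h6 : ‖(‖p‖ : ℂ) / ‖q‖ + 1‖ = ‖p‖ / ‖q‖ + 1 := by
    have : ((‖p‖ : ℂ) / ‖q‖ + 1) = ((‖p‖ / ‖q‖ + 1 : ℝ) : ℂ) := by push_cast; ring
    rw [this, Complex.norm_real, Real.norm_of_nonneg (by positivity)]
  rw [h6] at h5
  have h7 : ‖q‖ * (‖p‖ / ‖q‖ + 1) = ‖p‖ + ‖q‖ := by
    have := norm_ne_zero_iff.2 hq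
    field_simp
  linarith

end planar

namespace Bumps

variable {k : ℕ} (B : Bumps k)

/-- `∂Ψ_b` -/
noncomputable def P (b : Fin k → ℂ) (x : ℂ) : ℂ := dW (B.psi b) 1 x

/-- `∂̄Ψ_b` -/
noncomputable def Q (b : Fin k → ℂ) (x : ℂ) : ℂ := dB (B.psi b) 1 x

/-- the Jacobian -/
noncomputable def J (b : Fin k → ℂ) (x : ℂ) : ℝ := ‖B.P b x‖ ^ 2 - ‖B.Q b x‖ ^ 2

/-- `∂χ_i` -/
noncomputable def p (i : Fin k) (x : ℂ) : ℂ := dW (fun y => (B.χ i y : ℂ)) 1 x

/-- `∂̄χ_i` -/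
noncomputable def q (i : Fin k) (x : ℂ) : ℂ := dB (fun y => (B.χ i y : ℂ)) 1 x

theorem contDiff_chiC (i : Fin k) : ContDiff ℝ ∞ (fun y => (B.χ i y : ℂ)) :=
  Complex.ofRealCLM.contDiff.comp (B.smooth i)

theorem differentiable_psi (b : Fin k → ℂ) : Differentiable ℝ (B.psi b) :=
  (B.contDiff_psi_right b).differentiable (by simp)

theorem differentiable_chiC (i : Fin k) : Differentiable ℝ (fun y => (B.χ i y : ℂ)) :=
  (B.contDiff_chiC i).differentiable (by simp)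

theorem fderiv_psi (b : Fin k → ℂ) (x : ℂ) : fderiv ℝ (B.psi b) x = wir (B.P b x) (B.Q b x) :=
  fderiv_eq_wir _ _

theorem hasFDerivAt_psi (b : Fin k → ℂ) (x : ℂ) :
    HasFDerivAt (B.psi b) (wir (B.P b x) (B.Q b x)) x := by
  rw [← B.fderiv_psi]
  exact (B.differentiable_psi b x).hasFDerivAt

theorem fderiv_psi_eq (b : Fin k → ℂ) (x v : ℂ) :
    fderiv ℝ (B.psi b) x v = v + ∑ i, b i * fderiv ℝ (fun y => (B.χ i y : ℂ)) x v := by
  have h : HasFDerivAt (B.psi b)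
      (ContinuousLinearMap.id ℝ ℂ + ∑ i, b i • fderiv ℝ (fun y => (B.χ i y : ℂ)) x) x := by
    unfold psi w
    refine (hasFDerivAt_id x).add (HasFDerivAt.fun_sum fun i _ => ?_)
    have := ((B.differentiable_chiC i x).hasFDerivAt).mul_const (b i)
    simpa [mul_comm] using this
  rw [h.fderiv]
  simp

theorem P_eq (b : Fin k → ℂ) (x : ℂ) : B.P b x = 1 + ∑ i, b i * B.p i x := by
  unfold P p dW
  rw [fderiv_psi_eq, fderiv_psi_eq]
  simp only [smul_eq_mul, mul_one, mul_add, mul_sub, Finset.mul_sum, Finset.sum_sub_distrib]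
  have hI : Complex.I * Complex.I = -1 := Complex.I_mul_I
  have h1 : (1 / 2 : ℂ) * (Complex.I * Complex.I) = - (1 / 2) := by rw [hI]; ring
  rw [h1]
  have h2 : ∀ i, (1 / 2 : ℂ) * (b i * fderiv ℝ (fun y => (B.χ i y : ℂ)) x 1)
      = b i * (1 / 2 * fderiv ℝ (fun y => (B.χ i y : ℂ)) x 1) := fun i => by ring
  have h3 : ∀ i, (1 / 2 : ℂ) * (Complex.I * (b i * fderiv ℝ (fun y => (B.χ i y : ℂ)) x Complex.I))
      = b i * (1 / 2 * (Complex.I * fderiv ℝ (fun y => (B.χ i y : ℂ)) x Complex.I)) :=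
    fun i => by ring
  simp only [h2, h3]
  ring

theorem Q_eq (b : Fin k → ℂ) (x : ℂ) : B.Q b x = ∑ i, b i * B.q i x := by
  unfold Q q dB
  rw [fderiv_psi_eq, fderiv_psi_eq]
  simp only [smul_eq_mul, mul_one, mul_add, Finset.mul_sum, Finset.sum_add_distrib]
  have hI : Complex.I * Complex.I = -1 := Complex.I_mul_I
  have h1 : (1 / 2 : ℂ) * (Complex.I * Complex.I) = - (1 / 2) := by rw [hI]; ring
  rw [h1]
  have h2 : ∀ i, (1 / 2 : ℂ) * (b i * fderiv ℝ (fun y => (B.χ i y : ℂ)) x 1)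
      = b i * (1 / 2 * fderiv ℝ (fun y => (B.χ i y : ℂ)) x 1) := fun i => by ring
  have h3 : ∀ i, (1 / 2 : ℂ) * (Complex.I * (b i * fderiv ℝ (fun y => (B.χ i y : ℂ)) x Complex.I))
      = b i * (1 / 2 * (Complex.I * fderiv ℝ (fun y => (B.χ i y : ℂ)) x Complex.I)) :=
    fun i => by ring
  simp only [h2, h3]
  ring

theorem contDiff_p (i : Fin k) : ContDiff ℝ ∞ (B.p i) := by
  rw [← contDiffOn_univ]
  exact contDiffOn_dW isOpen_univ (B.contDiff_chiC i).contDiffOn 1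

theorem contDiff_q (i : Fin k) : ContDiff ℝ ∞ (B.q i) := by
  rw [← contDiffOn_univ]
  exact contDiffOn_dB isOpen_univ (B.contDiff_chiC i).contDiffOn 1

theorem contDiff_P : ContDiff ℝ ∞ (fun z : (Fin k → ℂ) × ℂ => B.P z.1 z.2) := by
  simp only [P_eq]
  refine contDiff_const.add (ContDiff.sum fun i _ => ?_)
  exact ((contDiff_apply ℝ ℂ i).comp contDiff_fst).mul ((B.contDiff_p i).comp contDiff_snd)

theorem contDiff_Q : ContDiff ℝ ∞ (fun z : (Fin k → ℂ) × ℂ => B.Q z.1 z.2) := by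
  simp only [Q_eq]
  refine ContDiff.sum fun i _ => ?_
  exact ((contDiff_apply ℝ ℂ i).comp contDiff_fst).mul ((B.contDiff_q i).comp contDiff_snd)



theorem P_zero (x : ℂ) : B.P 0 x = 1 := by
  rw [P_eq, Finset.sum_eq_zero (fun i _ => by rw [Pi.zero_apply, zero_mul]), add_zero]

theorem Q_zero (x : ℂ) : B.Q 0 x = 0 := by
  rw [Q_eq, Finset.sum_eq_zero (fun i _ => by rw [Pi.zero_apply, zero_mul])]

/-- `‖∂Ψ - 1‖ + ‖∂̄Ψ‖ ≤ 1 / 2` -/
theorem P_Q_le {b : Fin k → ℂ} (hb : ‖b‖ < B.δ) (x : ℂ) :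
    ‖B.P b x - 1‖ + ‖B.Q b x‖ ≤ 1 / 2 := by
  refine norm_add_norm_le_of _ _ fun v => ?_
  have h1 : HasFDerivAt (B.w b) (wir (B.P b x) (B.Q b x) - ContinuousLinearMap.id ℝ ℂ) x := by
    have h2 : B.w b = fun y => B.psi b y - y := by
      funext y; unfold psi; ring
    rw [h2]
    exact (B.hasFDerivAt_psi b x).sub (hasFDerivAt_id x)
  have h3 : ‖wir (B.P b x) (B.Q b x) - ContinuousLinearMap.id ℝ ℂ‖ ≤ 1 / 2 := by
    have hL : LipschitzWith (1 / 2 : ℝ≥0) (B.w b) := LipschitzWith.of_dist_le_mul fun y z => by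
      rw [dist_eq_norm, dist_eq_norm]
      simpa using B.lip_half hb y z
    have := h1.le_of_lipschitz hL
    simpa using this
  have h4 := ContinuousLinearMap.le_opNorm
    (wir (B.P b x) (B.Q b x) - ContinuousLinearMap.id ℝ ℂ) v
  have h5 : (wir (B.P b x) (B.Q b x) - ContinuousLinearMap.id ℝ ℂ) v
      = (B.P b x - 1) * v + B.Q b x * conj v := by
    simp only [sub_apply, wir_apply, ContinuousLinearMap.coe_id', id_eq]
    ring
  rw [h5] at h4
  exact h4.trans (by gcongr)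

theorem norm_P_sub_norm_Q_ge {b : Fin k → ℂ} (hb : ‖b‖ < B.δ) (x : ℂ) :
    1 / 2 ≤ ‖B.P b x‖ - ‖B.Q b x‖ := by
  have h1 := B.P_Q_le hb x
  have h2 : (1 : ℝ) ≤ ‖B.P b x‖ + ‖B.P b x - 1‖ := by
    calc (1 : ℝ) = ‖(1 : ℂ)‖ := by simp
      _ = ‖B.P b x - (B.P b x - 1)‖ := by congr 1; ring
      _ ≤ _ := norm_sub_le _ _
  linarith


theorem norm_Q_le {b : Fin k → ℂ} (hb : ‖b‖ < B.δ) (x : ℂ) : ‖B.Q b x‖ ≤ 1 / 2 := by
  have h1 := B.P_Q_le hb x
  have := norm_nonneg (B.P b x - 1)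
  linarith

theorem norm_P_ge {b : Fin k → ℂ} (hb : ‖b‖ < B.δ) (x : ℂ) : 1 / 2 ≤ ‖B.P b x‖ := by
  have h1 := B.norm_P_sub_norm_Q_ge hb x
  have := norm_nonneg (B.Q b x)
  linarith

theorem J_ge {b : Fin k → ℂ} (hb : ‖b‖ < B.δ) (x : ℂ) : 1 / 4 ≤ B.J b x := by
  have h1 := B.norm_P_sub_norm_Q_ge hb x
  have h2 := B.norm_P_ge hb x
  have := norm_nonneg (B.Q b x)
  unfold J; nlinarith

theorem J_pos {b : Fin k → ℂ} (hb : ‖b‖ < B.δ) (x : ℂ) : 0 < B.J b x :=
  lt_of_lt_of_le (by norm_num) (B.J_ge hb x)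




/-! ### joint smoothness of the inverse -/

/-- `(b, x) ↦ (b, Ψ_b x)` as a local homeomorphism -/
noncomputable def opH : OpenPartialHomeomorph ((Fin k → ℂ) × ℂ) ((Fin k → ℂ) × ℂ) where
  toFun z := (z.1, B.psi z.1 z.2)
  invFun z := (z.1, B.inv z.1 z.2)
  source := ball 0 B.δ ×ˢ univ
  target := ball 0 B.δ ×ˢ univ
  map_source' z hz := ⟨hz.1, mem_univ _⟩
  map_target' z hz := ⟨hz.1, mem_univ _⟩
  left_inv' z hz := by
    have : ‖z.1‖ < B.δ := by simpa using hz.1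
    exact Prod.ext rfl (B.inv_psi this z.2)
  right_inv' z hz := by
    have : ‖z.1‖ < B.δ := by simpa using hz.1
    exact Prod.ext rfl (B.psi_inv this z.2)
  open_source := isOpen_ball.prod isOpen_univ
  open_target := isOpen_ball.prod isOpen_univ
  continuousOn_toFun :=
    (continuous_fst.prodMk B.contDiff_psi.continuous).continuousOn
  continuousOn_invFun := by
    refine continuousOn_fst.prodMk ?_
    intro z hz
    have hz1 : ‖z.1‖ < B.δ := by simpa using hz.1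
    rw [Metric.continuousWithinAt_iff]
    intro ε hε
    refine ⟨ε / 4, by positivity, fun u hu hd => ?_⟩
    have hu1 : ‖u.1‖ < B.δ := by simpa using hu.1
    have h1 := B.inv_lip hu1 hz1 u.2 z.2
    have h2 : ‖u.2 - z.2‖ ≤ dist u z := by
      rw [← dist_eq_norm, Prod.dist_eq]; exact le_max_right _ _
    have h3 : ‖u.1 - z.1‖ ≤ dist u z := by
      rw [← dist_eq_norm, Prod.dist_eq]; exact le_max_left _ _
    rw [dist_eq_norm]
    linarith

theorem wir_injective {p q : ℂ} (h : ‖q‖ < ‖p‖) : Function.Injective (wir p q) := by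
  rw [injective_iff_map_eq_zero]
  intro v hv
  rw [wir_apply] at hv
  by_contra hv0
  have h1 : p * v = - (q * conj v) := by linear_combination hv
  have h2 : ‖p‖ * ‖v‖ = ‖q‖ * ‖v‖ := by
    rw [← norm_mul, h1, norm_neg, norm_mul, Complex.norm_conj]
  have h3 : ‖p‖ = ‖q‖ := mul_right_cancel₀ (norm_ne_zero_iff.2 hv0) h2
  exact absurd h3 (ne_of_gt h)

/-- joint smoothness of the inverse on the parameter ball -/
theorem contDiffAt_inv {z : (Fin k → ℂ) × ℂ} (hz : ‖z.1‖ < B.δ) :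
    ContDiffAt ℝ ∞ (fun z : (Fin k → ℂ) × ℂ => B.inv z.1 z.2) z := by
  have htar : z ∈ B.opH.target := ⟨by simpa using hz, mem_univ _⟩
  have hsm : ContDiff ℝ ∞ (fun z : (Fin k → ℂ) × ℂ => (z.1, B.psi z.1 z.2)) :=
    contDiff_fst.prodMk B.contDiff_psi
  set u : (Fin k → ℂ) × ℂ := (z.1, B.inv z.1 z.2) with hu
  -- derivative at `u`
  let D : ((Fin k → ℂ) × ℂ) →L[ℝ] ((Fin k → ℂ) × ℂ) :=
    fderiv ℝ (fun z : (Fin k → ℂ) × ℂ => (z.1, B.psi z.1 z.2)) u
  have hD : HasFDerivAt (fun z : (Fin k → ℂ) × ℂ => (z.1, B.psi z.1 z.2)) D u :=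
    (hsm.differentiable (by simp) u).hasFDerivAt
  have hD1 : ∀ v, (D v).1 = v.1 := by
    intro v
    have h1 : HasFDerivAt (fun z : (Fin k → ℂ) × ℂ => z.1)
        ((ContinuousLinearMap.fst ℝ (Fin k → ℂ) ℂ).comp D) u := hD.fst
    have h2 : HasFDerivAt (fun z : (Fin k → ℂ) × ℂ => z.1)
        (ContinuousLinearMap.fst ℝ (Fin k → ℂ) ℂ) u := hasFDerivAt_fst
    have h3 := h1.unique h2
    have := congrArg (fun T : ((Fin k → ℂ) × ℂ) →L[ℝ] (Fin k → ℂ) => T v) h3
    simpa using this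
  have hD2 : ∀ ξ : ℂ, (D (0, ξ)).2 = wir (B.P z.1 u.2) (B.Q z.1 u.2) ξ := by
    intro ξ
    have h1 : HasFDerivAt (fun z : (Fin k → ℂ) × ℂ => B.psi z.1 z.2)
        ((ContinuousLinearMap.snd ℝ (Fin k → ℂ) ℂ).comp D) u := hD.snd
    have h2 : HasFDerivAt (fun x : ℂ => ((z.1, x) : (Fin k → ℂ) × ℂ))
        (ContinuousLinearMap.inr ℝ (Fin k → ℂ) ℂ) u.2 :=
      hasFDerivAt_prodMk_right z.1 u.2
    have h3 : HasFDerivAt (fun x : ℂ => B.psi z.1 x)
        (((ContinuousLinearMap.snd ℝ (Fin k → ℂ) ℂ).comp D).comp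
          (ContinuousLinearMap.inr ℝ (Fin k → ℂ) ℂ)) u.2 := by
      have h1' : HasFDerivAt (fun z : (Fin k → ℂ) × ℂ => B.psi z.1 z.2)
        ((ContinuousLinearMap.snd ℝ (Fin k → ℂ) ℂ).comp D)
        ((fun x : ℂ => ((z.1, x) : (Fin k → ℂ) × ℂ)) u.2) := h1
      exact h1'.comp u.2 h2
    have h4 := h3.unique (B.hasFDerivAt_psi z.1 u.2)
    have := congrArg (fun T : ℂ →L[ℝ] ℂ => T ξ) h4
    simpa using this
  have hinj : Function.Injective D := by
    rw [injective_iff_map_eq_zero]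
    intro v hv
    have h1 : v.1 = 0 := by rw [← hD1 v, hv]; rfl
    have h2 : v = (0, v.2) := Prod.ext h1 rfl
    have h3 : wir (B.P z.1 u.2) (B.Q z.1 u.2) v.2 = 0 := by
      rw [← hD2, ← h2, hv]; rfl
    have h4 : ‖B.Q z.1 u.2‖ < ‖B.P z.1 u.2‖ := by
      have := B.norm_P_sub_norm_Q_ge hz u.2
      linarith
    have h5 : v.2 = 0 := (injective_iff_map_eq_zero _).1 (wir_injective h4) _ h3
    rw [h2, h5]; rfl
  let De : ((Fin k → ℂ) × ℂ) ≃L[ℝ] ((Fin k → ℂ) × ℂ) :=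
    (LinearEquiv.ofInjectiveEndo (D : ((Fin k → ℂ) × ℂ) →ₗ[ℝ] ((Fin k → ℂ) × ℂ))
      hinj).toContinuousLinearEquiv
  have hDe : (De : ((Fin k → ℂ) × ℂ) →L[ℝ] ((Fin k → ℂ) × ℂ)) = D := by
    ext v <;> rfl
  have key : ContDiffAt ℝ ∞ B.opH.symm z :=
    OpenPartialHomeomorph.contDiffAt_symm B.opH (f₀' := De) htar
      (by rw [hDe]; exact hD) hsm.contDiffAt
  exact contDiff_snd.contDiffAt.comp z key


theorem contDiff_inv_right {b : Fin k → ℂ} (hb : ‖b‖ < B.δ) : ContDiff ℝ ∞ (B.inv b) := by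
  rw [contDiff_iff_contDiffAt]
  intro y
  have h1 : ContDiffAt ℝ ∞ (fun z : (Fin k → ℂ) × ℂ => B.inv z.1 z.2) (b, y) :=
    B.contDiffAt_inv (z := (b, y)) hb
  have h2 : ContDiffAt ℝ ∞ (fun y : ℂ => ((b, y) : (Fin k → ℂ) × ℂ)) y :=
    (contDiff_const.prodMk contDiff_id).contDiffAt
  have h3 : ContDiffAt ℝ ∞ ((fun z : (Fin k → ℂ) × ℂ => B.inv z.1 z.2) ∘
      (fun y : ℂ => ((b, y) : (Fin k → ℂ) × ℂ))) y := ContDiffAt.comp y (by exact h1) h2
  exact h3

/-! ### change of variables -/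




section integral

variable {F : Type*} [NormedAddCommGroup F] [NormedSpace ℝ F]

theorem integral_image {b : Fin k → ℂ} (hb : ‖b‖ < B.δ) {s : Set ℂ} (hs : MeasurableSet s)
    (g : ℂ → F) :
    ∫ y in B.psi b '' s, g y = ∫ x in s, B.J b x • g (B.psi b x) := by
  rw [integral_image_eq_integral_abs_det_fderiv_smul volume hs
    (fun x _ => (B.hasFDerivAt_psi b x).hasFDerivWithinAt) (B.injective hb).injOn]
  simp_rw [det_wir]
  refine integral_congr_ae (Eventually.of_forall fun x => ?_)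
  have h1 : |‖B.P b x‖ ^ 2 - ‖B.Q b x‖ ^ 2| = B.J b x := abs_of_pos (B.J_pos hb x)
  simp only [h1]


theorem integral_comp {b : Fin k → ℂ} (hb : ‖b‖ < B.δ) (g : ℂ → F) :
    ∫ y, g y = ∫ x, B.J b x • g (B.psi b x) := by
  have h := B.integral_image hb MeasurableSet.univ g
  rwa [image_univ, (B.surjective hb).range_eq, Measure.restrict_univ] at h

theorem integrableOn_image {b : Fin k → ℂ} (hb : ‖b‖ < B.δ) {s : Set ℂ} (hs : MeasurableSet s)
    (g : ℂ → F) :
    IntegrableOn g (B.psi b '' s) ↔ IntegrableOn (fun x => B.J b x • g (B.psi b x)) s := by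
  rw [integrableOn_image_iff_integrableOn_abs_det_fderiv_smul volume hs
    (fun x _ => (B.hasFDerivAt_psi b x).hasFDerivWithinAt) (B.injective hb).injOn]
  simp_rw [det_wir]
  have h1 : ∀ x, |‖B.P b x‖ ^ 2 - ‖B.Q b x‖ ^ 2| = B.J b x := fun x => abs_of_pos (B.J_pos hb x)
  simp only [h1]


end integral





/-! ### discs at fixed offset -/

/-- the trivialisation of the family of punctured planes over a set `U` on which the punctures
`a s = B.a + (a s - B.a)` move by less than `δ` -/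
theorem mem_fibre {X : Type*} {U : Set X} {α : X → Fin k → ℂ}
    (hU : ∀ s ∈ U, ‖α s - B.a‖ < B.δ) {s : X} (hs : s ∈ U) {x : ℂ} :
    (∀ i, B.psi (α s - B.a) x ≠ α s i) ↔ ∀ i, x ≠ B.a i := by
  have h := B.psi_mem_iff (hU s hs) (x := x)
  simp only [C, mem_ofPred_eq, Pi.zero_apply, add_zero, Pi.sub_apply, add_sub_cancel] at h
  exact h

section hol

variable {X : Type*} [NormedAddCommGroup X] [NormedSpace ℂ X]

/-- `s ↦ Ψ_{α s - a} x` is holomorphic -/
theorem differentiableAt_psi {α : X → Fin k → ℂ} {s : X} (hα : DifferentiableAt ℂ α s)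
    (b₀ : Fin k → ℂ) (x : ℂ) : DifferentiableAt ℂ (fun s => B.psi (α s - b₀) x) s := by
  have h1 : (fun s => B.psi (α s - b₀) x) = fun s => x + B.wL x (α s - b₀) := by
    funext s; rw [B.wL_apply]; rfl
  rw [h1]
  exact (differentiableAt_const x).add
    ((B.wL x).differentiableAt.comp s (hα.sub_const b₀))


end hol

end Bumps

/-! ### pull-back of one-forms

The one-form `α dx + β dx̄` is the pair `(α, β)`.  Its pull-back by a map with Wirtinger
derivatives `p = ∂Ψ`, `q = ∂̄Ψ` is the pair `(p α + q̄ β, q α + p̄ β)`. -/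

section pull

variable {F : Type*} [AddCommGroup F] [Module ℂ F]

/-- pull-back of the coefficients of a one-form -/
def pull (p q : ℂ) (η : F × F) : F × F :=
  (p • η.1 + (conj q) • η.2, q • η.1 + (conj p) • η.2)

theorem pull_one_zero (η : F × F) : pull 1 0 η = η := by
  simp [pull]



/-- functoriality: pull-back by a composition -/
theorem pull_pull (p q p' q' : ℂ) (η : F × F) :
    pull p' q' (pull p q η) = pull (p * p' + q * conj q') (p * q' + q * conj p') η := by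
  ext
  · simp only [pull, smul_add, smul_smul, map_add, map_mul, Complex.conj_conj, add_smul]
    rw [mul_comm p' p, mul_comm (conj q') q, mul_comm p' (conj q), mul_comm (conj q') (conj p)]
    abel
  · simp only [pull, smul_add, smul_smul, map_add, map_mul, Complex.conj_conj, add_smul]
    rw [mul_comm q' p, mul_comm (conj p') q, mul_comm q' (conj q), mul_comm (conj p') (conj p)]
    abel

/-- the inverse of the pull-back -/
theorem pull_inv {p q : ℂ} (h : ‖q‖ < ‖p‖) (η : F × F) :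
    pull (conj p / (‖p‖ ^ 2 - ‖q‖ ^ 2 : ℝ)) (- q / (‖p‖ ^ 2 - ‖q‖ ^ 2 : ℝ)) (pull p q η) = η := by
  have hJ : ((‖p‖ ^ 2 - ‖q‖ ^ 2 : ℝ) : ℂ) ≠ 0 := by
    have h0 := norm_nonneg q
    have : 0 < ‖p‖ ^ 2 - ‖q‖ ^ 2 := by nlinarith
    exact_mod_cast this.ne'
  set D : ℝ := ‖p‖ ^ 2 - ‖q‖ ^ 2 with hD
  have hDD : (D : ℂ) = p * conj p - q * conj q := by
    rw [Complex.mul_conj', Complex.mul_conj', hD]; push_cast; ring
  rw [pull_pull]
  have h1 : p * (conj p / (D : ℂ)) + q * conj (- q / (D : ℂ)) = 1 := by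
    rw [map_div₀, map_neg, Complex.conj_ofReal]
    field_simp
    rw [hDD]; ring
  have h2 : p * (- q / (D : ℂ)) + q * conj (conj p / (D : ℂ)) = 0 := by
    rw [map_div₀, Complex.conj_conj, Complex.conj_ofReal]
    field_simp
    ring
  rw [h1, h2, pull_one_zero]




end pull

/-- chain rule: the coefficients of `d(φ ∘ Ψ)` are the pull-back of the coefficients of `dφ` -/
theorem pull_chain {A : Type*} [NormedAddCommGroup A] [NormedSpace ℂ A] {φ : ℂ → A} {Ψ : ℂ → ℂ}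
    {x : ℂ} (hφ : DifferentiableAt ℝ φ (Ψ x)) (hΨ : DifferentiableAt ℝ Ψ x) :
    (dW (φ ∘ Ψ) 1 x, dB (φ ∘ Ψ) 1 x)
      = pull (dW Ψ 1 x) (dB Ψ 1 x) (dW φ 1 (Ψ x), dB φ 1 (Ψ x)) := by
  have hc : ∀ v : ℂ, fderiv ℝ (φ ∘ Ψ) x v
      = (fderiv ℝ Ψ x v) • dW φ 1 (Ψ x) + conj (fderiv ℝ Ψ x v) • dB φ 1 (Ψ x) := by
    intro v
    rw [fderiv_comp x hφ hΨ, ContinuousLinearMap.comp_apply, fderiv_eq_W]
  have hv : ∀ v : ℂ, fderiv ℝ Ψ x v = v * dW Ψ 1 x + conj v * dB Ψ 1 x := by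
    intro v; rw [fderiv_eq_W]; rfl
  have hI : Complex.I * Complex.I = -1 := Complex.I_mul_I
  generalize hp : dW Ψ 1 x = p at *
  generalize hq : dB Ψ 1 x = q at *
  generalize hu : dW φ 1 (Ψ x) = u at *
  generalize hw : dB φ 1 (Ψ x) = w at *
  have h1 : fderiv ℝ (φ ∘ Ψ) x 1 = (p + q) • u + (conj p + conj q) • w := by
    rw [hc, hv]; simp
  have h2 : fderiv ℝ (φ ∘ Ψ) x (Complex.I • 1)
      = (Complex.I * p - Complex.I * q) • u
        + (- Complex.I * conj p + Complex.I * conj q) • w := by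
    rw [hc, hv]; simp [sub_eq_add_neg]
  ext
  · show (1 / 2 : ℂ) • (fderiv ℝ (φ ∘ Ψ) x 1 - Complex.I • fderiv ℝ (φ ∘ Ψ) x (Complex.I • 1)) =
      p • u + (conj q) • w
    rw [h1, h2]
    match_scalars
    · linear_combination (- 1 / 2 * p + 1 / 2 * q) * hI
    · linear_combination (1 / 2 * conj p - 1 / 2 * conj q) * hI
  · show (1 / 2 : ℂ) • (fderiv ℝ (φ ∘ Ψ) x 1 + Complex.I • fderiv ℝ (φ ∘ Ψ) x (Complex.I • 1)) =
      q • u + (conj p) • w
    rw [h1, h2]
    match_scalars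
    · linear_combination (1 / 2 * p - 1 / 2 * q) * hI
    · linear_combination (- 1 / 2 * conj p + 1 / 2 * conj q) * hI


namespace Bumps

variable {k : ℕ} (B : Bumps k)

theorem dilatation_le {b : Fin k → ℂ} (hb : ‖b‖ < B.δ) (x : ℂ) :
    (‖B.P b x‖ + ‖B.Q b x‖) ^ 2 ≤ 3 * B.J b x := by
  have h1 := B.norm_P_sub_norm_Q_ge hb x
  have h2 := B.norm_Q_le hb x
  have h3 := norm_nonneg (B.Q b x)
  unfold J
  nlinarith

theorem norm_Q_lt_norm_P {b : Fin k → ℂ} (hb : ‖b‖ < B.δ) (x : ℂ) : ‖B.Q b x‖ < ‖B.P b x‖ := by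
  have h1 := B.norm_P_sub_norm_Q_ge hb x
  linarith

/-- the inverse pull-back has the same dilatation bound -/
theorem dilatation_inv_le {b : Fin k → ℂ} (hb : ‖b‖ < B.δ) (x : ℂ) :
    (‖conj (B.P b x) / ((‖B.P b x‖ ^ 2 - ‖B.Q b x‖ ^ 2 : ℝ) : ℂ)‖ +
      ‖- B.Q b x / ((‖B.P b x‖ ^ 2 - ‖B.Q b x‖ ^ 2 : ℝ) : ℂ)‖) ^ 2 ≤ 3 * (B.J b x)⁻¹ := by
  have hJ := B.J_pos hb x
  have h0 := B.dilatation_le hb x
  have hn : ‖((‖B.P b x‖ ^ 2 - ‖B.Q b x‖ ^ 2 : ℝ) : ℂ)‖ = B.J b x := by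
    rw [Complex.norm_real]; exact Real.norm_of_nonneg hJ.le
  rw [norm_div, norm_div, hn, Complex.norm_conj, norm_neg, ← add_div, div_pow]
  rw [div_le_iff₀ (by positivity)]
  calc _ ≤ 3 * B.J b x := h0
    _ = 3 * (B.J b x)⁻¹ * B.J b x ^ 2 := by field_simp



end Bumps

end Crest.Agent.R276.Psi_563
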