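import Crest.Agent.R276.BndA_563
import Crest.Agent.R276.Psi_563

/-!
# R276, leaf IPC-BND (helper563), part B: tensor products, total types

* `tP P Q` : the Hodge projectors of the tensor product; `VHS.tensor`.
* `w1 p q` : the weight one VHS with `F¹ = ℂ (p, q)` and form `|b|² - |a|²` (`p, q` holomorphic,
  `|q| < |p|`): the total types of one-forms pulled back by a map with Wirtinger derivatives `p, q`.
* `tot` : the VHS of total types on pairs `(α, β) = α dx + β dx̄`.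
-/

set_option autoImplicit false
set_option linter.unusedSectionVars false

open Set Filter Topology Matrix Finset Metric
open scoped ContDiff ComplexConjugate ComplexOrder Kronecker

namespace Crest.Agent.R276.BndB_563

open Crest.Agent.R276.VCalc_442 Crest.Agent.R276.BndA_563

variable {X : Type*} [NormedAddCommGroup X] [NormedSpace ℂ X]
variable {ι : Type*} [Fintype ι] [DecidableEq ι]
variable {κ : Type*} [Fintype κ] [DecidableEq κ]

/-! ### tensor products -/

/-- Hodge projectors of the tensor product -/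
noncomputable def tP (P : ℕ → X → Matrix κ κ ℂ) (Q : ℕ → X → Matrix ι ι ℂ) (n : ℕ) (x : X) :
    Matrix (κ × ι) (κ × ι) ℂ :=
  ∑ ij ∈ Finset.HasAntidiagonal.antidiagonal n, P ij.1 x ⊗ₖ Q ij.2 x

theorem sum_antidiag {M : Type*} [AddCommMonoid M] (w₁ w₂ : ℕ) (g : ℕ × ℕ → M)
    (hg : ∀ p, (w₁ < p.1 ∨ w₂ < p.2) → g p = 0) :
    ∑ n ∈ Finset.range (w₁ + w₂ + 1), ∑ p ∈ Finset.HasAntidiagonal.antidiagonal n, g p =
      ∑ p ∈ Finset.range (w₁ + 1) ×ˢ Finset.range (w₂ + 1), g p := by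
  have h1 : ∀ p ∈ Finset.range (w₁ + 1) ×ˢ Finset.range (w₂ + 1),
      p.1 + p.2 ∈ Finset.range (w₁ + w₂ + 1) := by
    intro p hp
    rw [Finset.mem_product, Finset.mem_range, Finset.mem_range] at hp
    rw [Finset.mem_range]
    omega
  rw [← Finset.sum_fiberwise_of_maps_to h1]
  refine Finset.sum_congr rfl fun n _ => ?_
  symm
  refine Finset.sum_subset ?_ ?_
  · intro p hp
    rw [Finset.mem_filter] at hp
    rw [Finset.HasAntidiagonal.mem_antidiagonal]
    exact hp.2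
  · intro p hp hnp
    rw [Finset.HasAntidiagonal.mem_antidiagonal] at hp
    rw [Finset.mem_filter, not_and] at hnp
    apply hg
    by_contra hcon
    push Not at hcon
    exact hnp (Finset.mem_product.2 ⟨Finset.mem_range.2 (by omega), Finset.mem_range.2 (by omega)⟩) hp

section tensor

variable {w₁ w₂ : ℕ} {U : Set X} {S₁ : Matrix κ κ ℂ} {P : ℕ → X → Matrix κ κ ℂ}
  {S₂ : Matrix ι ι ℂ} {Q : ℕ → X → Matrix ι ι ℂ} {x : X}

theorem P_mul_P (h : VHS w₁ U S₁ P) (hx : x ∈ U) (i j : ℕ) :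
    P i x * P j x = if i = j then P i x else 0 := by
  split_ifs with hij
  · rw [hij]; exact h.idem x hx j
  · exact h.orth x hx i j hij

theorem gr_tP (h₁ : VHS w₁ U S₁ P) (h₂ : VHS w₂ U S₂ Q) (hx : x ∈ U) (c : ℕ → ℂ) :
    ∑ n ∈ Finset.range (w₁ + w₂ + 1), c n • tP P Q n x =
      ∑ i ∈ Finset.range (w₁ + 1), ∑ j ∈ Finset.range (w₂ + 1), c (i + j) • (P i x ⊗ₖ Q j x) := by
  rw [← Finset.sum_product']
  rw [← sum_antidiag w₁ w₂ (fun p => c (p.1 + p.2) • (P p.1 x ⊗ₖ Q p.2 x))]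
  · refine Finset.sum_congr rfl fun n _ => ?_
    unfold tP
    rw [Finset.smul_sum]
    refine Finset.sum_congr rfl fun p hp => ?_
    rw [Finset.HasAntidiagonal.mem_antidiagonal.1 hp]
  · rintro p (hp | hp)
    · rw [h₁.top x hx _ hp, Matrix.zero_kronecker, smul_zero]
    · rw [h₂.top x hx _ hp, Matrix.kronecker_zero, smul_zero]

theorem sum_kron {α : Type*} (s : Finset α) (f : α → Matrix κ κ ℂ) (B : Matrix ι ι ℂ) :
    (∑ a ∈ s, f a) ⊗ₖ B = ∑ a ∈ s, f a ⊗ₖ B := by
  classical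
  induction s using Finset.induction_on with
  | empty => simp
  | insert a s ha ih => rw [Finset.sum_insert ha, Finset.sum_insert ha, Matrix.add_kronecker, ih]

theorem kron_sum {α : Type*} (s : Finset α) (f : α → Matrix ι ι ℂ) (B : Matrix κ κ ℂ) :
    B ⊗ₖ (∑ a ∈ s, f a) = ∑ a ∈ s, B ⊗ₖ f a := by
  classical
  induction s using Finset.induction_on with
  | empty => simp
  | insert a s ha ih => rw [Finset.sum_insert ha, Finset.sum_insert ha, Matrix.kronecker_add, ih]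

theorem grOp_tP (h₁ : VHS w₁ U S₁ P) (h₂ : VHS w₂ U S₂ Q) (hx : x ∈ U) :
    grOp (w₁ + w₂) (tP P Q) x = grOp w₁ P x ⊗ₖ 1 + 1 ⊗ₖ grOp w₂ Q x := by
  have h := gr_tP h₁ h₂ hx (fun n => (n : ℂ))
  unfold grOp at h ⊢
  rw [h]
  have e1 : (∑ p ∈ Finset.range (w₁ + 1), (p : ℂ) • P p x) ⊗ₖ (1 : Matrix ι ι ℂ) =
      ∑ i ∈ Finset.range (w₁ + 1), ∑ j ∈ Finset.range (w₂ + 1), (i : ℂ) • (P i x ⊗ₖ Q j x) := by
    rw [← h₂.sum x hx, sum_kron]
    refine Finset.sum_congr rfl fun i _ => ?_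
    rw [kron_sum]
    refine Finset.sum_congr rfl fun j _ => ?_
    rw [Matrix.smul_kronecker]
  have e2 : (1 : Matrix κ κ ℂ) ⊗ₖ (∑ p ∈ Finset.range (w₂ + 1), (p : ℂ) • Q p x) =
      ∑ i ∈ Finset.range (w₁ + 1), ∑ j ∈ Finset.range (w₂ + 1), (j : ℂ) • (P i x ⊗ₖ Q j x) := by
    rw [← h₁.sum x hx, sum_kron]
    refine Finset.sum_congr rfl fun i _ => ?_
    rw [kron_sum]
    refine Finset.sum_congr rfl fun j _ => ?_
    rw [Matrix.kronecker_smul]
  rw [e1, e2, ← Finset.sum_add_distrib]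
  refine Finset.sum_congr rfl fun i _ => ?_
  rw [← Finset.sum_add_distrib]
  refine Finset.sum_congr rfl fun j _ => ?_
  rw [← add_smul]
  push_cast
  rfl

theorem sgOp_tP (h₁ : VHS w₁ U S₁ P) (h₂ : VHS w₂ U S₂ Q) (hx : x ∈ U) :
    sgOp (w₁ + w₂) (tP P Q) x = sgOp w₁ P x ⊗ₖ sgOp w₂ Q x := by
  have h := gr_tP h₁ h₂ hx (fun n => (-1 : ℂ) ^ n)
  unfold sgOp at h ⊢
  rw [h, sum_kron]
  refine Finset.sum_congr rfl fun i _ => ?_
  rw [kron_sum]
  refine Finset.sum_congr rfl fun j _ => ?_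
  rw [Matrix.smul_kronecker, Matrix.kronecker_smul, smul_smul, pow_add]

theorem tP_mul_tP (h₁ : VHS w₁ U S₁ P) (h₂ : VHS w₂ U S₂ Q) (hx : x ∈ U) (m n : ℕ) :
    tP P Q m x * tP P Q n x = if m = n then tP P Q m x else 0 := by
  have hmul : tP P Q m x * tP P Q n x = ∑ a ∈ Finset.HasAntidiagonal.antidiagonal m, ∑ b ∈ Finset.HasAntidiagonal.antidiagonal n,
      if a = b then P a.1 x ⊗ₖ Q a.2 x else 0 := by
    unfold tP
    rw [Finset.sum_mul]
    refine Finset.sum_congr rfl fun a _ => ?_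
    rw [Finset.mul_sum]
    refine Finset.sum_congr rfl fun b _ => ?_
    rw [← Matrix.mul_kronecker_mul, P_mul_P h₁ hx, P_mul_P h₂ hx]
    by_cases hab : a = b
    · subst hab; simp
    · rw [if_neg hab]
      by_cases h1 : a.1 = b.1
      · have h2 : a.2 ≠ b.2 := fun h2 => hab (Prod.ext h1 h2)
        rw [if_neg h2, Matrix.kronecker_zero]
      · rw [if_neg h1, Matrix.zero_kronecker]
  rw [hmul]
  split_ifs with hmn
  · subst hmn
    unfold tP
    refine Finset.sum_congr rfl fun a ha => ?_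
    rw [Finset.sum_ite_eq, if_pos ha]
  · refine Finset.sum_eq_zero fun a ha => Finset.sum_eq_zero fun b hb => ?_
    rw [if_neg]
    intro hab
    apply hmn
    rw [Finset.HasAntidiagonal.mem_antidiagonal] at ha hb
    rw [← ha, ← hb, hab]

theorem mW_kron_const {A : X → Matrix κ κ ℂ} (B : Matrix ι ι ℂ) (v : X)
    (hA : ∀ i j, DifferentiableAt ℝ (fun y => A y i j) x) :
    mW (fun y => A y ⊗ₖ B) v x = mW A v x ⊗ₖ B := by
  ext ⟨a, i⟩ ⟨b, j⟩
  show dW (fun y => A y a b * B i j) v x = dW (fun y => A y a b) v x * B i j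
  have h1 : (fun y => A y a b * B i j) = fun y => (B i j) • A y a b := by
    funext y; rw [smul_eq_mul, mul_comm]
  rw [h1, dW_const_smul (B i j) (hA a b), smul_eq_mul, mul_comm]

theorem mW_const_kron {A : X → Matrix ι ι ℂ} (B : Matrix κ κ ℂ) (v : X)
    (hA : ∀ i j, DifferentiableAt ℝ (fun y => A y i j) x) :
    mW (fun y => B ⊗ₖ A y) v x = B ⊗ₖ mW A v x := by
  ext ⟨a, i⟩ ⟨b, j⟩
  show dW (fun y => B a b * A y i j) v x = B a b * dW (fun y => A y i j) v x
  have h1 : (fun y => B a b * A y i j) = fun y => (B a b) • A y i j := by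
    funext y; rw [smul_eq_mul]
  rw [h1, dW_const_smul (B a b) (hA i j), smul_eq_mul]

theorem mW_add' {A B : X → Matrix ι ι ℂ} (v : X)
    (hA : ∀ i j, DifferentiableAt ℝ (fun y => A y i j) x)
    (hB : ∀ i j, DifferentiableAt ℝ (fun y => B y i j) x) :
    mW (fun y => A y + B y) v x = mW A v x + mW B v x := by
  ext i j
  exact dW_add (hA i j) (hB i j) v

theorem mW_congr' {A B : X → Matrix ι ι ℂ} (v : X) (h : A =ᶠ[𝓝 x] B) : mW A v x = mW B v x := by
  ext i j
  refine dW_congr ?_ v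
  filter_upwards [h] with y hy
  rw [hy]

theorem diff_grOp (h : VHS w₂ U S₂ Q) (hx : x ∈ U) (i j : ι) :
    DifferentiableAt ℝ (fun y => grOp w₂ Q y i j) x := by
  have h1 : ∀ p, DifferentiableAt ℝ (fun y => Q p y i j) x := fun p =>
    (((h.sm p i j).contDiffAt (h.op.mem_nhds hx)).differentiableAt (by simp))
  have h2 : (fun y => grOp w₂ Q y i j) = fun y => ∑ p ∈ Finset.range (w₂ + 1), (p : ℂ) * Q p y i j := by
    funext y
    unfold grOp
    rw [Matrix.sum_apply]
    rfl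
  rw [h2]
  exact DifferentiableAt.fun_sum fun p _ => (h1 p).const_mul _

/-- **tensor product of VHS** -/
theorem VHS.tensor (h₁ : VHS w₁ U S₁ P) (h₂ : VHS w₂ U S₂ Q) :
    VHS (w₁ + w₂) U (S₁ ⊗ₖ S₂) (tP P Q) where
  op := h₁.op
  sm := by
    intro n a b
    have : (fun x => tP P Q n x a b) =
        fun x => ∑ ij ∈ Finset.HasAntidiagonal.antidiagonal n, P ij.1 x a.1 b.1 * Q ij.2 x a.2 b.2 := by
      funext x
      unfold tP
      rw [Matrix.sum_apply]
      rfl
    rw [this]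
    exact ContDiffOn.sum fun ij _ => (h₁.sm _ _ _).mul (h₂.sm _ _ _)
  idem := fun x hx n => by rw [tP_mul_tP h₁ h₂ hx, if_pos rfl]
  orth := fun x hx m n hmn => by rw [tP_mul_tP h₁ h₂ hx, if_neg hmn]
  top := by
    intro x hx n hn
    unfold tP
    refine Finset.sum_eq_zero fun p hp => ?_
    rw [Finset.HasAntidiagonal.mem_antidiagonal] at hp
    by_cases h : w₁ < p.1
    · rw [h₁.top x hx _ h, Matrix.zero_kronecker]
    · rw [h₂.top x hx _ (by omega), Matrix.kronecker_zero]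
  sum := by
    intro x hx
    have h := gr_tP h₁ h₂ hx (fun _ => (1 : ℂ))
    simp only [one_smul] at h
    rw [h, ← Matrix.one_kronecker_one, ← h₁.sum x hx, ← h₂.sum x hx, sum_kron]
    refine Finset.sum_congr rfl fun i _ => ?_
    rw [kron_sum]
  herm := by rw [Matrix.conjTranspose_kronecker, h₁.herm, h₂.herm]
  adj := by
    intro x hx n
    unfold tP
    rw [Matrix.conjTranspose_sum, Finset.sum_mul, Finset.mul_sum]
    refine Finset.sum_congr rfl fun p _ => ?_
    rw [Matrix.conjTranspose_kronecker, ← Matrix.mul_kronecker_mul, ← Matrix.mul_kronecker_mul,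
      h₁.adj x hx, h₂.adj x hx]
  pos := by
    intro x hx
    rw [sgOp_tP h₁ h₂ hx, ← Matrix.mul_kronecker_mul]
    exact (h₁.pos x hx).kronecker (h₂.pos x hx)
  hor := by
    intro x hx v
    have hev : grOp (w₁ + w₂) (tP P Q) =ᶠ[𝓝 x]
        fun y => grOp w₁ P y ⊗ₖ (1 : Matrix ι ι ℂ) + (1 : Matrix κ κ ℂ) ⊗ₖ grOp w₂ Q y :=
      Filter.eventually_of_mem (h₁.op.mem_nhds hx) fun y hy => grOp_tP h₁ h₂ hy
    have d1 := diff_grOp h₁ hx
    have d2 := diff_grOp h₂ hx
    have e1 : mW (grOp (w₁ + w₂) (tP P Q)) v x =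
        mW (grOp w₁ P) v x ⊗ₖ (1 : Matrix ι ι ℂ) + (1 : Matrix κ κ ℂ) ⊗ₖ mW (grOp w₂ Q) v x := by
      rw [mW_congr' v hev, mW_add', mW_kron_const _ _ d1, mW_const_kron _ _ d2]
      · rintro ⟨a, i⟩ ⟨b, j⟩
        exact (d1 a b).mul_const _
      · rintro ⟨a, i⟩ ⟨b, j⟩
        exact (d2 i j).const_mul _
    rw [e1, grOp_tP h₁ h₂ hx]
    have k1 := h₁.hor x hx v
    have k2 := h₂.hor x hx v
    set E₁ := grOp w₁ P x
    set E₂ := grOp w₂ Q x
    set D₁ := mW (grOp w₁ P) v x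
    set D₂ := mW (grOp w₂ Q) v x
    have e2 : (E₁ ⊗ₖ (1 : Matrix ι ι ℂ) + (1 : Matrix κ κ ℂ) ⊗ₖ E₂) *
        (D₁ ⊗ₖ (1 : Matrix ι ι ℂ) + (1 : Matrix κ κ ℂ) ⊗ₖ D₂) =
        (E₁ * D₁) ⊗ₖ 1 + E₁ ⊗ₖ D₂ + D₁ ⊗ₖ E₂ + 1 ⊗ₖ (E₂ * D₂) := by
      rw [add_mul, mul_add, mul_add, ← Matrix.mul_kronecker_mul, ← Matrix.mul_kronecker_mul,
        ← Matrix.mul_kronecker_mul, ← Matrix.mul_kronecker_mul]
      simp only [mul_one, one_mul]
      abel
    have e3 : (D₁ ⊗ₖ (1 : Matrix ι ι ℂ) + (1 : Matrix κ κ ℂ) ⊗ₖ D₂) *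
        (E₁ ⊗ₖ (1 : Matrix ι ι ℂ) + (1 : Matrix κ κ ℂ) ⊗ₖ E₂) =
        (D₁ * E₁) ⊗ₖ 1 + E₁ ⊗ₖ D₂ + D₁ ⊗ₖ E₂ + 1 ⊗ₖ (D₂ * E₂) := by
      rw [add_mul, mul_add, mul_add, ← Matrix.mul_kronecker_mul, ← Matrix.mul_kronecker_mul,
        ← Matrix.mul_kronecker_mul, ← Matrix.mul_kronecker_mul]
      simp only [mul_one, one_mul]
      abel
    rw [e2, e3]
    have e4 : (E₁ * D₁) ⊗ₖ (1 : Matrix ι ι ℂ) = (D₁ * E₁) ⊗ₖ (1 : Matrix ι ι ℂ) - D₁ ⊗ₖ 1 := by
      have : E₁ * D₁ = D₁ * E₁ + (-1 : ℂ) • D₁ := by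
        rw [neg_one_smul, ← k1]; abel
      rw [this, Matrix.add_kronecker, Matrix.smul_kronecker, neg_one_smul, sub_eq_add_neg]
    have e5 : (1 : Matrix κ κ ℂ) ⊗ₖ (E₂ * D₂) = (1 : Matrix κ κ ℂ) ⊗ₖ (D₂ * E₂) - 1 ⊗ₖ D₂ := by
      have : E₂ * D₂ = D₂ * E₂ + (-1 : ℂ) • D₂ := by
        rw [neg_one_smul, ← k2]; abel
      rw [this, Matrix.kronecker_add, Matrix.kronecker_smul, neg_one_smul, sub_eq_add_neg]
    rw [e4, e5]
    abel

end tensor

/-! ### the weight one VHS of one-forms -/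

section weightOne

/-- holomorphic pair `(p, q)` with `|q| < |p|` -/
structure Pair (U : Set X) (p q : X → ℂ) : Prop where
  op : IsOpen U
  smp : ContDiffOn ℝ ∞ p U
  smq : ContDiffOn ℝ ∞ q U
  hp : ∀ x ∈ U, ∀ v, dB p v x = 0
  hq : ∀ x ∈ U, ∀ v, dB q v x = 0
  lt : ∀ x ∈ U, ‖q x‖ < ‖p x‖

/-- `|p|² - |q|²` as a complex number -/
noncomputable def JJ (p q : ℂ) : ℂ := p * conj p - q * conj q

theorem JJ_eq (p q : ℂ) : JJ p q = ((‖p‖ ^ 2 - ‖q‖ ^ 2 : ℝ) : ℂ) := by
  unfold JJ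
  rw [Complex.mul_conj', Complex.mul_conj']; push_cast; ring

theorem JJ_pos {p q : ℂ} (h : ‖q‖ < ‖p‖) : 0 < ‖p‖ ^ 2 - ‖q‖ ^ 2 := by
  have := norm_nonneg q
  nlinarith

theorem JJ_ne {p q : ℂ} (h : ‖q‖ < ‖p‖) : JJ p q ≠ 0 := by
  rw [JJ_eq]
  exact_mod_cast (JJ_pos h).ne'

theorem conj_JJ (p q : ℂ) : conj (JJ p q) = JJ p q := by
  rw [JJ_eq, Complex.conj_ofReal]

/-- the projector on `ℂ (p, q)` along `ℂ (q̄, p̄)` -/
noncomputable def e1 (p q : ℂ) : Matrix (Fin 2) (Fin 2) ℂ :=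
  !![p * conj p / JJ p q, - (p * conj q) / JJ p q; q * conj p / JJ p q, - (q * conj q) / JJ p q]

/-- projectors of the weight one VHS -/
noncomputable def w1 (p q : X → ℂ) (n : ℕ) (x : X) : Matrix (Fin 2) (Fin 2) ℂ :=
  if n = 0 then 1 - e1 (p x) (q x) else if n = 1 then e1 (p x) (q x) else 0

/-- the form `|b|² - |a|²` -/
noncomputable def s1 : Matrix (Fin 2) (Fin 2) ℂ := !![-1, 0; 0, 1]

theorem w1_zero (p q : X → ℂ) (x : X) : w1 p q 0 x = 1 - e1 (p x) (q x) := by simp [w1]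

theorem w1_one (p q : X → ℂ) (x : X) : w1 p q 1 x = e1 (p x) (q x) := by simp [w1]

theorem w1_of_gt (p q : X → ℂ) (x : X) {n : ℕ} (hn : 1 < n) : w1 p q n x = 0 := by
  unfold w1
  rw [if_neg (by omega), if_neg (by omega)]

theorem e1_sq {p q : ℂ} (h : ‖q‖ < ‖p‖) : e1 p q * e1 p q = e1 p q := by
  have hJ := JJ_ne h
  have hd : JJ p q = p * conj p - q * conj q := rfl
  ext i j
  fin_cases i <;> fin_cases j <;>
    simp only [e1, Matrix.mul_apply, Fin.sum_univ_two, Matrix.of_apply, Matrix.cons_val', Matrix.cons_val_zero,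
      Matrix.cons_val_one, Matrix.cons_val_fin_one, Fin.zero_eta, Fin.mk_one, Fin.isValue] <;>
    field_simp <;> rw [hd] <;> ring

theorem grOp_w1 (p q : X → ℂ) (x : X) : grOp 1 (w1 p q) x = e1 (p x) (q x) := by
  unfold grOp
  rw [Finset.sum_range_succ, Finset.sum_range_one, w1_zero, w1_one]
  simp

theorem sgOp_w1 (p q : X → ℂ) (x : X) : sgOp 1 (w1 p q) x = 1 - (2 : ℂ) • e1 (p x) (q x) := by
  unfold sgOp
  rw [Finset.sum_range_succ, Finset.sum_range_one, w1_zero, w1_one, pow_zero, pow_one, one_smul,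
    two_smul]
  simp only [neg_one_smul]
  abel

/-- the inverse of the pull-back matrix -/
noncomputable def mi (p q : ℂ) : Matrix (Fin 2) (Fin 2) ℂ := !![conj p, - conj q; - q, p]

/-- the pull-back matrix -/
noncomputable def mp (p q : ℂ) : Matrix (Fin 2) (Fin 2) ℂ := !![p, conj q; q, conj p]



theorem s1_C (p q : ℂ) (h : ‖q‖ < ‖p‖) :
    s1 * (1 - (2 : ℂ) • e1 p q) = (JJ p q)⁻¹ • ((mi p q)ᴴ * mi p q) := by
  have hJ := JJ_ne h
  have hd : JJ p q = p * conj p - q * conj q := rfl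
  ext i j
  fin_cases i <;> fin_cases j <;>
    simp only [s1, e1, mi, Matrix.mul_apply, Fin.sum_univ_two, Matrix.of_apply, Matrix.cons_val', Matrix.cons_val_zero,
      Matrix.cons_val_one, Matrix.cons_val_fin_one, Fin.zero_eta, Fin.mk_one, Fin.isValue,
      Matrix.sub_apply, Matrix.smul_apply, Matrix.one_apply, Matrix.conjTranspose_apply, smul_eq_mul,
      RCLike.star_def, Complex.conj_conj, zero_mul, neg_mul, one_mul, add_zero, zero_add,
      if_true, if_false, zero_ne_one, one_ne_zero, map_neg] <;>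
    field_simp <;> rw [hd] <;> ring

theorem s1_pos {p q : ℂ} (h : ‖q‖ < ‖p‖) : (s1 * (1 - (2 : ℂ) • e1 p q)).PosDef := by
  rw [s1_C p q h]
  have hJ := JJ_pos h
  have h1 : ((mi p q)ᴴ * mi p q).PosDef := by
    refine Matrix.PosDef.conjTranspose_mul_self _ ?_
    have hu : IsUnit (mi p q).det := by
      rw [isUnit_iff_ne_zero]
      have hdet : (mi p q).det = JJ p q := by
        rw [mi, Matrix.det_fin_two_of]; unfold JJ; ring
      rw [hdet]; exact JJ_ne h
    exact Matrix.mulVec_injective_of_isUnit ((Matrix.isUnit_iff_isUnit_det _).2 hu)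
  have h2 : (0 : ℂ) < (JJ p q)⁻¹ := by
    rw [JJ_eq, ← Complex.ofReal_inv]
    exact_mod_cast inv_pos.2 hJ
  exact h1.smul h2

theorem e1_adj {p q : ℂ} (h : ‖q‖ < ‖p‖) : (e1 p q)ᴴ * s1 = s1 * e1 p q := by
  have hJ := JJ_ne h
  ext i j
  fin_cases i <;> fin_cases j <;>
    simp [s1, e1, Matrix.mul_apply, Fin.sum_univ_two, conj_JJ] <;> ring

theorem s1_herm : s1ᴴ = s1 := by
  ext i j
  fin_cases i <;> fin_cases j <;> simp [s1]

variable {U : Set X} {p q : X → ℂ} {x : X}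

theorem Pair.smJ (h : Pair U p q) : ContDiffOn ℝ ∞ (fun x => JJ (p x) (q x)) U := by
  have h1 : ContDiffOn ℝ ∞ (fun x => conj (p x)) U := Complex.conjCLE.contDiff.comp_contDiffOn h.smp
  have h2 : ContDiffOn ℝ ∞ (fun x => conj (q x)) U := Complex.conjCLE.contDiff.comp_contDiffOn h.smq
  exact (h.smp.mul h1).sub (h.smq.mul h2)

theorem Pair.sm_e1 (h : Pair U p q) (i j : Fin 2) :
    ContDiffOn ℝ ∞ (fun x => e1 (p x) (q x) i j) U := by
  have h1 : ContDiffOn ℝ ∞ (fun x => conj (p x)) U := Complex.conjCLE.contDiff.comp_contDiffOn h.smp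
  have h2 : ContDiffOn ℝ ∞ (fun x => conj (q x)) U := Complex.conjCLE.contDiff.comp_contDiffOn h.smq
  have hJ := h.smJ
  have hne : ∀ x ∈ U, JJ (p x) (q x) ≠ 0 := fun x hx => JJ_ne (h.lt x hx)
  have hJi : ContDiffOn ℝ ∞ (fun x => (JJ (p x) (q x))⁻¹) U := hJ.inv hne
  fin_cases i <;> fin_cases j
  · exact ((h.smp.mul h1).mul hJi).congr fun y _ => div_eq_mul_inv _ _
  · exact ((h.smp.mul h2).neg.mul hJi).congr fun y _ => div_eq_mul_inv _ _
  · exact ((h.smq.mul h1).mul hJi).congr fun y _ => div_eq_mul_inv _ _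
  · exact ((h.smq.mul h2).neg.mul hJi).congr fun y _ => div_eq_mul_inv _ _

theorem dW_conj_hol {f : X → ℂ} (hf : DifferentiableAt ℝ f x) {v : X} (h : dB f v x = 0) :
    dW (fun y => conj (f y)) v x = 0 := by
  have h1 := dW_star hf v
  rw [h, star_zero] at h1
  exact h1

/-- `[E₁, ∂_v E₁] = - ∂_v E₁` -/
theorem Pair.hor (h : Pair U p q) (hx : x ∈ U) (v : X) :
    e1 (p x) (q x) * mW (fun y => e1 (p y) (q y)) v x -
      mW (fun y => e1 (p y) (q y)) v x * e1 (p x) (q x) = - mW (fun y => e1 (p y) (q y)) v x := by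
  have dp : DifferentiableAt ℝ p x := diffAt h.op h.smp hx
  have dq : DifferentiableAt ℝ q x := diffAt h.op h.smq hx
  have dcp : DifferentiableAt ℝ (fun y => conj (p y)) x := diff_star dp
  have dcq : DifferentiableAt ℝ (fun y => conj (q y)) x := diff_star dq
  have wcp := dW_conj_hol dp (h.hp x hx v)
  have wcq := dW_conj_hol dq (h.hq x hx v)
  have hJ := JJ_ne (h.lt x hx)
  have hd : JJ (p x) (q x) = p x * conj (p x) - q x * conj (q x) := rfl
  have dJ : DifferentiableAt ℝ (fun y => JJ (p y) (q y)) x := diffAt h.op h.smJ hx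
  have wJ : dW (fun y => JJ (p y) (q y)) v x = dW p v x * conj (p x) - dW q v x * conj (q x) := by
    have e : dW (fun y => JJ (p y) (q y)) v x =
        dW (fun y => p y * conj (p y)) v x - dW (fun y => q y * conj (q y)) v x :=
      dW_sub (f := fun y => p y * conj (p y)) (g := fun y => q y * conj (q y))
        (dp.mul dcp) (dq.mul dcq) v
    rw [e, dW_mul dp dcp, dW_mul dq dcq, wcp, wcq]
    ring
  -- derivative of a quotient `g / J`
  have hquot : ∀ (g : X → ℂ), DifferentiableAt ℝ g x → ∀ g', dW g v x = g' →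
      dW (fun y => g y / JJ (p y) (q y)) v x =
        (g' * JJ (p x) (q x) - g x * (dW p v x * conj (p x) - dW q v x * conj (q x))) /
          JJ (p x) (q x) ^ 2 := by
    intro g hg g' hg'
    have dquo : DifferentiableAt ℝ (fun y => g y / JJ (p y) (q y)) x := by
      have d1 : DifferentiableAt ℝ (fun y => (JJ (p y) (q y))⁻¹) x := dJ.inv hJ
      have d2 : DifferentiableAt ℝ (fun y => g y * (JJ (p y) (q y))⁻¹) x := hg.mul d1
      exact d2
    have e : (fun y => (g y / JJ (p y) (q y)) * JJ (p y) (q y)) =ᶠ[𝓝 x] g := by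
      filter_upwards [h.op.mem_nhds hx] with y hy
      exact div_mul_cancel₀ _ (JJ_ne (h.lt y hy))
    have e2 := dW_congr e v
    rw [dW_mul dquo dJ, wJ, hg'] at e2
    have e3 : dW (fun y => g y / JJ (p y) (q y)) v x * JJ (p x) (q x) =
        g' - g x / JJ (p x) (q x) * (dW p v x * conj (p x) - dW q v x * conj (q x)) := by
      rw [← e2]; ring
    field_simp at e3 ⊢
    linear_combination e3
  have a11 := hquot (fun y => p y * conj (p y)) (dp.mul dcp) (dW p v x * conj (p x))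
    (by rw [dW_mul dp dcp, wcp]; ring)
  have a12 := hquot (fun y => - (p y * conj (q y))) (dp.mul dcq).neg (- (dW p v x * conj (q x)))
    (by rw [dW_neg, dW_mul dp dcq, wcq]; ring)
  have a21 := hquot (fun y => q y * conj (p y)) (dq.mul dcp) (dW q v x * conj (p x))
    (by rw [dW_mul dq dcp, wcp]; ring)
  have a22 := hquot (fun y => - (q y * conj (q y))) (dq.mul dcq).neg (- (dW q v x * conj (q x)))
    (by rw [dW_neg, dW_mul dq dcq, wcq]; ring)
  set D := mW (fun y => e1 (p y) (q y)) v x with hD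
  have d11 : D 0 0 = (dW p v x * conj (p x) * JJ (p x) (q x) - p x * conj (p x) *
      (dW p v x * conj (p x) - dW q v x * conj (q x))) / JJ (p x) (q x) ^ 2 := a11
  have d12 : D 0 1 = (- (dW p v x * conj (q x)) * JJ (p x) (q x) - - (p x * conj (q x)) *
      (dW p v x * conj (p x) - dW q v x * conj (q x))) / JJ (p x) (q x) ^ 2 := a12
  have d21 : D 1 0 = (dW q v x * conj (p x) * JJ (p x) (q x) - q x * conj (p x) *
      (dW p v x * conj (p x) - dW q v x * conj (q x))) / JJ (p x) (q x) ^ 2 := a21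
  have d22 : D 1 1 = (- (dW q v x * conj (q x)) * JJ (p x) (q x) - - (q x * conj (q x)) *
      (dW p v x * conj (p x) - dW q v x * conj (q x))) / JJ (p x) (q x) ^ 2 := a22
  generalize dW p v x = p' at *
  generalize dW q v x = q' at *
  generalize hP : p x = P at *
  generalize hQ : q x = Q at *
  ext i j
  fin_cases i <;> fin_cases j <;>
    simp only [e1, Matrix.mul_apply, Fin.sum_univ_two, Matrix.of_apply, Matrix.cons_val', Matrix.cons_val_zero,
      Matrix.cons_val_one, Matrix.cons_val_fin_one, Fin.zero_eta, Fin.mk_one, Fin.isValue,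
      Matrix.sub_apply, Matrix.neg_apply, d11, d12, d21, d22] <;>
    field_simp <;> rw [hd] <;> ring

/-- **the weight one VHS** -/
theorem Pair.vhs (h : Pair U p q) : VHS 1 U s1 (w1 p q) where
  op := h.op
  sm := by
    intro n i j
    rcases Nat.lt_or_ge 1 n with hn | hn
    · have : (fun x => w1 p q n x i j) = fun _ => (0 : ℂ) := by
        funext y; rw [w1_of_gt p q y hn]; rfl
      rw [this]; exact contDiffOn_const
    · interval_cases n
      · have : (fun x => w1 p q 0 x i j) =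
            fun x => (1 : Matrix (Fin 2) (Fin 2) ℂ) i j - e1 (p x) (q x) i j := by
          funext y; rw [w1_zero]; rfl
        rw [this]
        exact contDiffOn_const.sub (h.sm_e1 i j)
      · have : (fun x => w1 p q 1 x i j) = fun x => e1 (p x) (q x) i j := by
          funext y; rw [w1_one]
        rw [this]
        exact h.sm_e1 i j
  idem := by
    intro x hx n
    have hs := e1_sq (h.lt x hx)
    rcases Nat.lt_or_ge 1 n with hn | hn
    · rw [w1_of_gt p q x hn, mul_zero]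
    · interval_cases n
      · rw [w1_zero, mul_sub, sub_mul, sub_mul, hs]; simp
      · rw [w1_one, hs]
  orth := by
    intro x hx m n hmn
    have hs := e1_sq (h.lt x hx)
    rcases Nat.lt_or_ge 1 n with hn | hn
    · rw [w1_of_gt p q x hn, mul_zero]
    rcases Nat.lt_or_ge 1 m with hm | hm
    · rw [w1_of_gt p q x hm, zero_mul]
    interval_cases n <;> interval_cases m
    · exact absurd rfl hmn
    · rw [w1_zero, w1_one, mul_sub, mul_one, hs, sub_self]
    · rw [w1_zero, w1_one, sub_mul, one_mul, hs, sub_self]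
    · exact absurd rfl hmn
  top := fun x _ n hn => w1_of_gt p q x hn
  sum := by
    intro x _
    rw [Finset.sum_range_succ, Finset.sum_range_one, w1_zero, w1_one]
    abel
  herm := s1_herm
  adj := by
    intro x hx n
    have hs := e1_adj (h.lt x hx)
    rcases Nat.lt_or_ge 1 n with hn | hn
    · rw [w1_of_gt p q x hn]; simp
    · interval_cases n
      · rw [w1_zero, Matrix.conjTranspose_sub, sub_mul, mul_sub, hs]; simp
      · rw [w1_one, hs]
  pos := by
    intro x hx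
    rw [sgOp_w1]
    exact s1_pos (h.lt x hx)
  hor := by
    intro x hx v
    have e : grOp 1 (w1 p q) = fun y => e1 (p y) (q y) := funext (grOp_w1 p q)
    rw [e]
    exact h.hor hx v

end weightOne

/-! ### total types -/

/-- the pair `(α, β)` as a vector -/
def vp (α β : ι → ℂ) : Fin 2 × ι → ℂ := fun k => if k.1 = 0 then α k.2 else β k.2

theorem kron_vp (m : Matrix (Fin 2) (Fin 2) ℂ) (B : Matrix ι ι ℂ) (α β : ι → ℂ) :
    (m ⊗ₖ B) *ᵥ vp α β =
      vp (m 0 0 • (B *ᵥ α) + m 0 1 • (B *ᵥ β)) (m 1 0 • (B *ᵥ α) + m 1 1 • (B *ᵥ β)) := by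
  ext ⟨k, i⟩
  simp only [Matrix.mulVec, dotProduct, Fintype.sum_prod_type, Fin.sum_univ_two, vp,
    Matrix.kroneckerMap_apply, Pi.add_apply, Pi.smul_apply, smul_eq_mul, Finset.mul_sum]
  fin_cases k <;> simp [mul_assoc]

theorem vp_add (α β α' β' : ι → ℂ) : vp α β + vp α' β' = vp (α + α') (β + β') := by
  ext ⟨k, i⟩
  fin_cases k <;> simp [vp]

theorem vp_smul (c : ℂ) (α β : ι → ℂ) : c • vp α β = vp (c • α) (c • β) := by
  ext ⟨k, i⟩
  fin_cases k <;> simp [vp]

theorem star_vp_dot (α β α' β' : ι → ℂ) :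
    star (vp α β) ⬝ᵥ vp α' β' = star α ⬝ᵥ α' + star β ⬝ᵥ β' := by
  simp only [dotProduct, Fintype.sum_prod_type, Fin.sum_univ_two, vp, Pi.star_apply]
  simp

/-- projectors on total types -/
noncomputable def tot (p q : X → ℂ) (P : ℕ → X → Matrix ι ι ℂ) : ℕ → X → Matrix (Fin 2 × ι) (Fin 2 × ι) ℂ :=
  tP (w1 p q) P

/-- **total types form a VHS of weight `1 + w`** -/
theorem tot_vhs {U : Set X} {p q : X → ℂ} (h : Pair U p q) {w : ℕ} {S : Matrix ι ι ℂ}
    {P : ℕ → X → Matrix ι ι ℂ} (hV : VHS w U S P) : VHS (1 + w) U (s1 ⊗ₖ S) (tot p q P) :=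
  VHS.tensor h.vhs hV

/-- the Hodge projector with shifted index (`0` in degree `-1`) -/
def shiftP (P : ℕ → X → Matrix ι ι ℂ) (n : ℕ) (x : X) : Matrix ι ι ℂ :=
  match n with
  | 0 => 0
  | n + 1 => P n x

theorem tot_eq (p q : X → ℂ) (P : ℕ → X → Matrix ι ι ℂ) (n : ℕ) (x : X) :
    tot p q P n x = e1 (p x) (q x) ⊗ₖ shiftP P n x + (1 - e1 (p x) (q x)) ⊗ₖ P n x := by
  unfold tot tP
  rcases n with _ | n
  · have : Finset.HasAntidiagonal.antidiagonal 0 = {((0 : ℕ), (0 : ℕ))} := by decide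
    rw [this, Finset.sum_singleton, w1_zero]
    simp [shiftP]
  · rw [Finset.Nat.sum_antidiagonal_succ (n := n) (f := fun ij => w1 p q ij.1 x ⊗ₖ P ij.2 x)]
    rw [w1_zero]
    have h1 : ∑ ij ∈ Finset.HasAntidiagonal.antidiagonal n, w1 p q (ij.1 + 1) x ⊗ₖ P ij.2 x =
        e1 (p x) (q x) ⊗ₖ P n x := by
      rw [Finset.sum_eq_single (0, n)]
      · show w1 p q (0 + 1) x ⊗ₖ P n x = _
        rw [zero_add, w1_one]
      · rintro ⟨i, j⟩ hb hne
        rw [Finset.HasAntidiagonal.mem_antidiagonal] at hb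
        have hi : 1 < i + 1 := by
          rcases Nat.eq_zero_or_pos i with h0 | h0
          · exfalso; apply hne
            subst h0
            simp only [zero_add] at hb
            rw [hb]
          · omega
        show w1 p q (i + 1) x ⊗ₖ P j x = 0
        rw [w1_of_gt p q x hi, Matrix.zero_kronecker]
      · intro h
        exact absurd (Finset.HasAntidiagonal.mem_antidiagonal.2 (by simp)) h
    rw [h1]
    simp only [shiftP]
    abel

theorem e1_mp_left {p q : ℂ} (h : ‖q‖ < ‖p‖) (a b : ℂ) :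
    e1 p q *ᵥ ![p * a + conj q * b, q * a + conj p * b] = ![p * a, q * a] := by
  have hJ := JJ_ne h
  have hd : JJ p q = p * conj p - q * conj q := rfl
  ext i
  fin_cases i <;>
    simp only [e1, Matrix.mulVec, dotProduct, Fin.sum_univ_two, Matrix.of_apply, Matrix.cons_val', Matrix.cons_val_zero,
      Matrix.cons_val_one, Matrix.cons_val_fin_one, Fin.zero_eta, Fin.mk_one, Fin.isValue] <;>
    field_simp <;> rw [hd] <;> ring

open Psi_563 in
/-- **the total types of the pull-back** : `pull` intertwines `(P_{n-1}, P_n)` with the projector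
on total type `n` -/
theorem tot_pull {U : Set X} {p q : X → ℂ} (h : Pair U p q) {x : X} (hx : x ∈ U)
    (P : ℕ → X → Matrix ι ι ℂ) (n : ℕ) (α β : ι → ℂ) :
    tot p q P n x *ᵥ vp (pull (p x) (q x) (α, β)).1 (pull (p x) (q x) (α, β)).2 =
      vp (pull (p x) (q x) (shiftP P n x *ᵥ α, P n x *ᵥ β)).1
        (pull (p x) (q x) (shiftP P n x *ᵥ α, P n x *ᵥ β)).2 := by
  rw [tot_eq, Matrix.add_mulVec, kron_vp, kron_vp, vp_add]
  have key : ∀ a b : ℂ, e1 (p x) (q x) *ᵥ ![p x * a + conj (q x) * b, q x * a + conj (p x) * b] =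
    ![p x * a, q x * a] := e1_mp_left (h.lt x hx)
  have k0 : ∀ a b : ℂ, e1 (p x) (q x) 0 0 * (p x * a + conj (q x) * b) +
      e1 (p x) (q x) 0 1 * (q x * a + conj (p x) * b) = p x * a := by
    intro a b
    have := congrFun (key a b) 0
    simpa [Matrix.mulVec, dotProduct, Fin.sum_univ_two] using this
  have k1 : ∀ a b : ℂ, e1 (p x) (q x) 1 0 * (p x * a + conj (q x) * b) +
      e1 (p x) (q x) 1 1 * (q x * a + conj (p x) * b) = q x * a := by
    intro a b
    have := congrFun (key a b) 1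
    simpa [Matrix.mulVec, dotProduct, Fin.sum_univ_two] using this
  congr 1
  · ext i
    simp only [pull, Matrix.mulVec_add, Matrix.mulVec_smul, Pi.add_apply, Pi.smul_apply, smul_eq_mul,
      Matrix.sub_apply, Matrix.one_apply, if_true, zero_ne_one, if_false]
    have e1' := k0 ((shiftP P n x *ᵥ α) i) ((shiftP P n x *ᵥ β) i)
    have e2' := k0 ((P n x *ᵥ α) i) ((P n x *ᵥ β) i)
    linear_combination e1' - e2'
  · ext i
    simp only [pull, Matrix.mulVec_add, Matrix.mulVec_smul, Pi.add_apply, Pi.smul_apply, smul_eq_mul,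
      Matrix.sub_apply, Matrix.one_apply, if_true, one_ne_zero, if_false]
    have e1' := k1 ((shiftP P n x *ᵥ α) i) ((shiftP P n x *ᵥ β) i)
    have e2' := k1 ((P n x *ᵥ α) i) ((P n x *ᵥ β) i)
    linear_combination e1' - e2'

theorem hm_tot {U : Set X} {p q : X → ℂ} (h : Pair U p q) {w : ℕ} {S : Matrix ι ι ℂ}
    {P : ℕ → X → Matrix ι ι ℂ} (hV : VHS w U S P) {x : X} (hx : x ∈ U) :
    hm (1 + w) (s1 ⊗ₖ S) (tot p q P) x =
      ((JJ (p x) (q x))⁻¹ • ((mi (p x) (q x))ᴴ * mi (p x) (q x))) ⊗ₖ hm w S P x := by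
  unfold hm tot
  rw [sgOp_tP h.vhs hV hx, ← Matrix.mul_kronecker_mul, sgOp_w1, s1_C _ _ (h.lt x hx)]


end Crest.Agent.R276.BndB_563
private theorem rz_965603130a : type_of% @_root_.Crest.Agent.R276.BndB_563.shiftP.eq_1 := @_root_.Crest.Agent.R276.BndB_563.shiftP.eq_1 -- L622
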