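import Mathlib
import Crest.Agent.R271.Bd_741
import Crest.Agent.R271.RExt2_747
import Crest.Agent.R276.AcOpen_89
import Crest.Agent.R276.BR3_590
import Crest.Agent.R276.Sub_185

-- ▼ part R276/C1bdA_986
section

/-!
# Row 276 (helper986), W1-BD part A: general lemmas

* `fibre_ge` : change of variables `∫_Ω g(s ζ) |det φ'|² ≤ ∫ (∑ over the fibre of g)` on an arbitrary
  finite dimensional complex space (generalisation of 741's `lintegral_fibre_ge`);
* `ext_bdd` : Riemann extension theorem for locally bounded functions on such a space.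
-/

set_option autoImplicit false

open scoped ENNReal NNReal Topology BigOperators
open MeasureTheory Set Metric Filter

noncomputable section

namespace Crest.Agent.R276.C1bd_986

open Crest.Agent.R271.Bd741

/-- real determinant of a complex linear map -/
theorem abs_det_real' {E : Type*} [NormedAddCommGroup E] [NormedSpace ℂ E]
    [FiniteDimensional ℂ E] (L : E →L[ℂ] E) :
    |(L.restrictScalars ℝ).det| = ‖L.det‖ ^ 2 := by
  have h : (L.restrictScalars ℝ).det = Algebra.norm ℝ L.det := by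
    simp only [ContinuousLinearMap.det]
    exact LinearMap.det_restrictScalars (R := ℝ) (S := ℂ) (f := (L : E →ₗ[ℂ] E))
  rw [h, Algebra.norm_complex_apply, Complex.normSq_eq_norm_sq, abs_of_nonneg (by positivity)]

/-- **change of variables**, fibre form -/
theorem fibre_ge {E : Type*} [NormedAddCommGroup E] [NormedSpace ℂ E] [FiniteDimensional ℂ E]
    [MeasurableSpace E] [BorelSpace E] (μ : Measure E) [μ.IsAddHaarMeasure]
    {M : Type*} (p : M → E) (Ω : Set E)
    (hΩ : IsOpen Ω) (s : E → M) (hs : InjOn s Ω) (φ' : E → (E →L[ℂ] E))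
    (hφ : ∀ ζ ∈ Ω, HasStrictFDerivAt (fun ζ => p (s ζ)) (φ' ζ) ζ)
    (hdet : ∀ ζ ∈ Ω, (φ' ζ).det ≠ 0) (g : M → ℝ≥0∞) :
    ∫⁻ ζ in Ω, g (s ζ) * ENNReal.ofReal (‖(φ' ζ).det‖ ^ 2) ∂μ ≤
      ∫⁻ ζ : E, ∑' y : {y : M // p y = ζ}, g y.1 ∂μ := by
  classical
  have hfd : FiniteDimensional ℝ E := FiniteDimensional.complexToReal E
  have hcomp : CompleteSpace E := FiniteDimensional.complete ℂ E
  have hsec : SecondCountableTopology E := by
    have : ProperSpace E := FiniteDimensional.proper ℂ E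
    infer_instance
  set φ : E → E := fun ζ => p (s ζ) with hφdef
  -- local injectivity
  have hloc : ∀ ζ ∈ Ω, ∃ U : Set E, IsOpen U ∧ ζ ∈ U ∧ U ⊆ Ω ∧ InjOn φ U := by
    intro ζ hζ
    let e := (φ' ζ).toContinuousLinearEquivOfDetNeZero (hdet ζ hζ)
    have he : (e : E →L[ℂ] E) = φ' ζ :=
      ContinuousLinearMap.coe_toContinuousLinearEquivOfDetNeZero _ _
    have hd : HasStrictFDerivAt φ (e : E →L[ℂ] E) ζ := by
      rw [he]; exact hφ ζ hζ
    refine ⟨(hd.toOpenPartialHomeomorph φ).source ∩ Ω,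
      (hd.toOpenPartialHomeomorph φ).open_source.inter hΩ,
      ⟨hd.mem_toOpenPartialHomeomorph_source, hζ⟩, inter_subset_right, ?_⟩
    have := (hd.toOpenPartialHomeomorph φ).injOn
    rw [hd.toOpenPartialHomeomorph_coe] at this
    exact this.mono inter_subset_left
  choose! U hUo hUm hUs hUi using hloc
  -- countable subcover
  obtain ⟨T, hTΩ, hTc, hTcov⟩ : ∃ T ⊆ Ω, T.Countable ∧ Ω ⊆ ⋃ x ∈ T, U x :=
    TopologicalSpace.countable_cover_nhdsWithin
      (f := U) (s := Ω) (fun x hx => mem_nhdsWithin_of_mem_nhds ((hUo x hx).mem_nhds (hUm x hx)))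
  rcases T.eq_empty_or_nonempty with hTe | hTne
  · have : Ω = ∅ := by
      apply Set.eq_empty_of_subset_empty
      simpa [hTe] using hTcov
    simp [this]
  obtain ⟨u, hu⟩ := hTc.exists_eq_range hTne
  have huT : ∀ i, u i ∈ Ω := fun i => hTΩ (hu ▸ mem_range_self i)
  set F : ℕ → Set E := disjointed fun i => U (u i) with hF
  have hFm : ∀ i, MeasurableSet (F i) := fun i =>
    MeasurableSet.disjointed (fun i => (hUo _ (huT i)).measurableSet) i
  have hFU : ∀ i, F i ⊆ U (u i) := fun i => disjointed_subset _ i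
  have hFd : Pairwise (Function.onFun Disjoint F) := disjoint_disjointed _
  have hFun : ⋃ i, F i = Ω := by
    rw [hF, iUnion_disjointed]
    apply Subset.antisymm
    · exact iUnion_subset fun i => hUs _ (huT i)
    · intro x hx
      have := hTcov hx
      simp only [mem_iUnion] at this
      obtain ⟨y, hy, hxy⟩ := this
      rw [hu] at hy
      obtain ⟨i, rfl⟩ := hy
      exact mem_iUnion.2 ⟨i, hxy⟩
  let G : ℕ → E → ℝ≥0∞ := fun i ξ =>
    if h : ∃ x ∈ F i, φ x = ξ then g (s h.choose) else 0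
  have hG : ∀ i, ∀ x ∈ F i, G i (φ x) = g (s x) := by
    intro i x hx
    have h : ∃ x' ∈ F i, φ x' = φ x := ⟨x, hx, rfl⟩
    have hc := h.choose_spec
    have : h.choose = x := hUi _ (huT i) (hFU i hc.1) (hFU i hx) hc.2
    simp only [G, dif_pos h, this]
  have step1 : ∀ i, ∫⁻ ζ in F i, g (s ζ) * ENNReal.ofReal (‖(φ' ζ).det‖ ^ 2) ∂μ =
      ∫⁻ ξ in φ '' (F i), G i ξ ∂μ := by
    intro i
    have hder : ∀ x ∈ F i, HasFDerivWithinAt φ ((φ' x).restrictScalars ℝ) (F i) x := by
      intro x hx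
      have hxΩ : x ∈ Ω := hUs _ (huT i) (hFU i hx)
      exact ((hφ x hxΩ).hasFDerivAt.restrictScalars ℝ).hasFDerivWithinAt
    rw [lintegral_image_eq_lintegral_abs_det_fderiv_mul μ (hFm i) hder
      ((hUi _ (huT i)).mono (hFU i)) (G i)]
    refine setLIntegral_congr_fun (hFm i) ?_
    intro x hx
    simp only
    rw [hG i x hx, abs_det_real', mul_comm]
  calc ∫⁻ ζ in Ω, g (s ζ) * ENNReal.ofReal (‖(φ' ζ).det‖ ^ 2) ∂μ
      = ∑' i, ∫⁻ ζ in F i, g (s ζ) * ENNReal.ofReal (‖(φ' ζ).det‖ ^ 2) ∂μ := by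
        rw [← hFun, lintegral_iUnion hFm hFd]
    _ = ∑' i, ∫⁻ ξ in φ '' (F i), G i ξ ∂μ := by simp_rw [step1]
    _ ≤ ∑' i, ∫⁻ ξ, G i ξ ∂μ := ENNReal.tsum_le_tsum fun i => setLIntegral_le_lintegral _ _
    _ ≤ ∫⁻ ξ, ∑' i, G i ξ ∂μ := tsum_lintegral_le _ _
    _ ≤ ∫⁻ ζ : E, ∑' y : {y : M // p y = ζ}, g y.1 ∂μ := by
        refine lintegral_mono fun ξ => ?_
        simp only
        -- indices with a preimage
        let I : Set ℕ := {i | ∃ x ∈ F i, φ x = ξ}
        have hsupp : Function.support (fun i => G i ξ) ⊆ I := by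
          intro i hi
          by_contra h
          apply hi
          simp only [I, mem_ofPred_eq] at h
          simp only [G, dif_neg h]
        rw [← tsum_subtype_eq_of_support_subset hsupp]
        let j : I → {y : M // p y = ξ} := fun i => ⟨s i.2.choose, i.2.choose_spec.2⟩
        have hj : Function.Injective j := by
          intro a b hab
          have h1 : s a.2.choose = s b.2.choose := congrArg Subtype.val hab
          have ha := a.2.choose_spec.1
          have hb := b.2.choose_spec.1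
          have haΩ : a.2.choose ∈ Ω := hUs _ (huT a.1) (hFU a.1 ha)
          have hbΩ : b.2.choose ∈ Ω := hUs _ (huT b.1) (hFU b.1 hb)
          have h2 := hs haΩ hbΩ h1
          by_contra hne
          have hne' : (a : ℕ) ≠ b := fun h => hne (Subtype.ext h)
          have hdisj := hFd hne'
          rw [Function.onFun, Set.disjoint_left] at hdisj
          exact hdisj ha (h2 ▸ hb)
        calc ∑' i : I, G i ξ = ∑' i : I, g (j i).1 := by
              refine tsum_congr fun i => ?_
              have h : ∃ x ∈ F i.1, φ x = ξ := i.2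
              simp only [G, dif_pos h, j]
          _ ≤ ∑' y : {y : M // p y = ξ}, g y.1 :=
              ENNReal.tsum_comp_le_tsum_of_injective hj (fun y => g y.1)

/-- **Riemann extension theorem**: `D` analytic on an open set `U`, not locally zero anywhere on
`U`; `f` holomorphic on `U ∩ {D ≠ 0}` and locally bounded near every point of `U`. -/
theorem ext_bdd {E : Type*} [NormedAddCommGroup E] [NormedSpace ℂ E] [FiniteDimensional ℂ E]
    {f D : E → ℂ} {U : Set E} (hU : IsOpen U)
    (hD : AnalyticOnNhd ℂ D U) (hne : ∀ a ∈ U, ¬ (∀ᶠ z in 𝓝 a, D z = 0))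
    (hf : DifferentiableOn ℂ f (U ∩ {z | D z ≠ 0}))
    (hL : ∀ a ∈ U, ∃ W ∈ 𝓝 a, ∃ C : ℝ, ∀ z ∈ W, z ∈ U → D z ≠ 0 → ‖f z‖ ≤ C) :
    ∃ g : E → ℂ, DifferentiableOn ℂ g U ∧ ∀ z ∈ U, D z ≠ 0 → g z = f z := by
  classical
  set n := Module.finrank ℂ E with hn
  let e : E ≃L[ℂ] (Fin n → ℂ) := ContinuousLinearEquiv.ofFinrankEq (by simp [hn])
  set U' : Set (Fin n → ℂ) := e.symm ⁻¹' U with hU'
  have hU'o : IsOpen U' := hU.preimage e.symm.continuous
  have h1 := Crest.Agent.R271.RExt747.riemann_ext (f := f ∘ e.symm) (D := D ∘ e.symm) hU'o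
    (fun z hz => by
      have ha : AnalyticAt ℂ (e.symm : (Fin n → ℂ) → E) z :=
        (e.symm : (Fin n → ℂ) →L[ℂ] E).analyticAt z
      exact (hD (e.symm z) hz).comp ha)
    (fun a ha hev => by
      refine hne (e.symm a) ha ?_
      have h2 : ∀ᶠ y in 𝓝 (e.symm a), D (e.symm (e y)) = 0 := by
        have h3 : Tendsto e (𝓝 (e.symm a)) (𝓝 a) := by
          have := e.continuous.tendsto (e.symm a)
          rwa [e.apply_symm_apply] at this
        exact h3.eventually hev
      filter_upwards [h2] with y hy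
      rwa [e.symm_apply_apply] at hy)
    (by
      refine hf.comp e.symm.differentiable.differentiableOn ?_
      rintro z ⟨hz1, hz2⟩
      exact ⟨hz1, hz2⟩)
    (fun a ha => by
      obtain ⟨W, hW, C, hC⟩ := hL (e.symm a) ha
      obtain ⟨ρ, hρ, hρW⟩ := Metric.mem_nhds_iff.1
        (e.symm.continuous.continuousAt.preimage_mem_nhds
          (Filter.inter_mem hW (hU.mem_nhds ha)))
      have hDc : ContinuousOn (D ∘ e.symm) (ball a ρ) :=
        hD.continuousOn.comp e.symm.continuous.continuousOn fun z hz => (hρW hz).2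
      have hopen : IsOpen (ball a ρ ∩ {z | (D ∘ e.symm) z ≠ 0}) :=
        hDc.isOpen_inter_preimage isOpen_ball isOpen_ne
      refine ⟨ball a ρ, ball_mem_nhds _ hρ, ?_⟩
      calc ∫⁻ z in ball a ρ ∩ {z | (D ∘ e.symm) z ≠ 0}, ‖(f ∘ e.symm) z‖ₑ ^ 2
          ≤ ∫⁻ z in ball a ρ ∩ {z | (D ∘ e.symm) z ≠ 0}, ENNReal.ofReal (max C 0) ^ 2 := by
            refine setLIntegral_mono' hopen.measurableSet fun z hz => ?_
            have h2 := hC (e.symm z) (hρW hz.1).1 (hρW hz.1).2 hz.2
            have h3 : ‖(f ∘ e.symm) z‖ₑ ≤ ENNReal.ofReal (max C 0) := by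
              rw [← ofReal_norm]
              exact ENNReal.ofReal_le_ofReal (h2.trans (le_max_left _ _))
            gcongr
        _ = ENNReal.ofReal (max C 0) ^ 2 * volume (ball a ρ ∩ {z | (D ∘ e.symm) z ≠ 0}) := by
            rw [lintegral_const, Measure.restrict_apply_univ]
        _ ≤ ENNReal.ofReal (max C 0) ^ 2 * volume (ball a ρ) := by
            gcongr
            exact inter_subset_left
        _ < ⊤ := ENNReal.mul_lt_top (ENNReal.pow_lt_top ENNReal.ofReal_lt_top)
            measure_ball_lt_top)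
  obtain ⟨g, hg, hgf⟩ := h1
  refine ⟨g ∘ e, ?_, fun z hz hDz => ?_⟩
  · refine hg.comp e.differentiable.differentiableOn fun z hz => ?_
    show e.symm (e z) ∈ U
    rwa [e.symm_apply_apply]
  · have := hgf (e z) (show e.symm (e z) ∈ U by rwa [e.symm_apply_apply]) (by
      simpa using hDz)
    simpa using this

end Crest.Agent.R276.C1bd_986
end
end

-- ▼ part R276/C1bdB_986

/-!
# Row 276 (helper986), W1-BD part B: leaves of a chart of `M_K` adapted to `M_K → M_L`

* `jL X ζ` : fibre Jacobian of the chart `X : AC MK δ (some i₀)` (`= TChart.jF`);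
* `Lf` : domain of a leaf; `Ls` : `s`-fold product of a leaf;
* `fintS_ge` : `∫_{Ls} g(Σ x) |∏ jL|² ≤ H.fintS s z g`;
* `HolFS` : holomorphic functions on the `s`-fold fibre product, `HolFS.comp`;
* `core` : the weighted sub-mean value estimate.
-/

set_option autoImplicit false
set_option linter.unusedSectionVars false

open Set Filter Topology MeasureTheory Metric
open scoped ENNReal BigOperators

noncomputable section

namespace Crest.Agent.R276.C1bd_986

open Crest.Agent.R271 Crest.Agent.R271.Defs710 Crest.Agent.R271.Rd692 Crest.Agent.R271.Ho51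
open Crest.Agent.R276.Mod1_987 Crest.Agent.R276.SkelDefs_220
open Crest.Agent.R276.AcOpen_89 Crest.Agent.R276.BR_590

variable {L K : Type} [Field L] [Field K] [Algebra ℂ L] [Algebra ℂ K] [Algebra L K]
  [IsScalarTower ℂ L K] {m r : ℕ} {ML : Mdl L m} {MK : Mdl K (m + r)} {δ : ℝ}
  {i₀ : Option (Fin (m + r))}

/-- fibre coordinates of a point -/
def fc (y : MK.Pts) : Cn r := fun j => MK.pz y (Fin.natAdd m j)

/-- fibre Jacobian of the chart -/
def jL (X : AC MK δ i₀) (ζ : Cn (m + r)) : ℂ :=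
  (fderiv ℂ (fun (x : Cn r) (j : Fin r) =>
    MK.pz (X.s (Fin.append (fun i => ζ (Fin.castAdd r i)) x)) (Fin.natAdd m j))
    (fun j => ζ (Fin.natAdd m j))).det

variable (δ i₀) in
/-- domain of the leaf over `b` -/
def Lf (b : Cn m) : Set (Cn r) := {x | cat b x ∈ PD δ i₀}

lemma isOpen_Lf (b : Cn m) : IsOpen (Lf δ i₀ b) := (isOpen_PD δ i₀).preimage (continuous_cat b)

/-- the fibre coordinates in the leaf -/
def Xb (X : AC MK δ i₀) (b : Cn m) (x : Cn r) : Cn r := fc (X.s (cat b x))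

lemma analyticAt_Xb (X : AC MK δ i₀) {b : Cn m} {x : Cn r} (hx : x ∈ Lf δ i₀ b) :
    AnalyticAt ℂ (Xb X b) x := by
  refine analyticAt_pi_iff.2 fun j => ?_
  exact (X.anal (MK.z (Fin.natAdd m j)) (cat b x) hx).comp (analyticAt_cat b x)

lemma jL_cat (X : AC MK δ i₀) (b : Cn m) (x : Cn r) :
    jL X (cat b x) = (fderiv ℂ (Xb X b) x).det := by
  have h1 : (fun i => cat b x (Fin.castAdd r i)) = b := bs_cat b x
  have h2 : (fun j => cat b x (Fin.natAdd m j)) = x := fb_cat b x
  unfold jL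
  rw [h1, h2]
  rfl

lemma analyticAt_jL_cat (X : AC MK δ i₀) {b : Cn m} {x : Cn r} (hx : x ∈ Lf δ i₀ b) :
    AnalyticAt ℂ (fun x => jL X (cat b x)) x := by
  have h1 : (fun x => jL X (cat b x)) = fun x => (fderiv ℂ (Xb X b) x).det := by
    funext x; exact jL_cat X b x
  rw [h1]
  exact analyticAt_det_fderiv (analyticAt_Xb X hx)

/-! ### `s`-fold products -/

variable {s : ℕ}

variable (δ i₀ s) in
/-- the `s`-fold product of the leaf over `b` -/
def Ls (b : Cn m) : Set (Fin s → Cn r) := {x | ∀ i, x i ∈ Lf δ i₀ b}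

lemma isOpen_Ls (b : Cn m) : IsOpen (Ls δ i₀ s b) := by
  have : Ls δ i₀ s b = ⋂ i, (fun x : Fin s → Cn r => x i) ⁻¹' Lf δ i₀ b := by
    ext x; simp [Ls]
  rw [this]
  exact isOpen_iInter_of_finite fun i => (isOpen_Lf b).preimage (continuous_apply i)

/-- the product of the charts of the leaf -/
def Sg (X : AC MK δ i₀) (b : Cn m) (x : Fin s → Cn r) : Fin s → MK.Pts :=
  fun i => X.s (cat b (x i))

/-- the product of the fibre Jacobians -/
def JS (X : AC MK δ i₀) (b : Cn m) (x : Fin s → Cn r) : ℂ := ∏ i, jL X (cat b (x i))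

lemma Sg_injOn (X : AC MK δ i₀) (b : Cn m) : InjOn (Sg (s := s) X b) (Ls δ i₀ s b) := by
  intro x hx y hy hxy
  funext i
  have h1 := X.inj (hx i) (hy i) (congrFun hxy i)
  have h2 := congrArg fb h1
  simpa using h2

/-- derivative of the product -/
def DS (X : AC MK δ i₀) (b : Cn m) (x : Fin s → Cn r) : (Fin s → Cn r) →L[ℂ] (Fin s → Cn r) :=
  ContinuousLinearMap.pi fun i => (fderiv ℂ (Xb X b) (x i)).comp (ContinuousLinearMap.proj i)

lemma hasStrict_Sg (X : AC MK δ i₀) {b : Cn m} {x : Fin s → Cn r} (hx : x ∈ Ls δ i₀ s b) :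
    HasStrictFDerivAt (fun x => fun i => fc (Sg X b x i)) (DS X b x) x := by
  refine hasStrictFDerivAt_pi.2 fun i => ?_
  have h1 := (analyticAt_Xb X (hx i)).hasStrictFDerivAt
  exact h1.comp x (ContinuousLinearMap.proj (R := ℂ) (φ := fun _ : Fin s => Cn r) i).hasStrictFDerivAt

lemma det_DS (X : AC MK δ i₀) (b : Cn m) (x : Fin s → Cn r) : (DS X b x).det = JS X b x := by
  unfold DS JS
  rw [ContinuousLinearMap.det_pi]
  exact Finset.prod_congr rfl fun i _ => (jL_cat X b (x i)).symm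

instance haar_pi (s r : ℕ) : (volume : Measure (Fin s → Cn r)).IsAddHaarMeasure := by
  have h1 : (volume : Measure (Cn r)).IsAddHaarMeasure := by
    show (Measure.pi fun _ : Fin r => (volume : Measure ℂ)).IsAddHaarMeasure
    infer_instance
  have h2 : ∀ _ : Fin s, (volume : Measure (Cn r)).IsAddHaarMeasure := fun _ => h1
  exact Measure.pi.isAddHaarMeasure (fun _ : Fin s => (volume : Measure (Cn r)))

/-- **change of variables on the `s`-fold fibre product** -/
theorem fintS_ge (H : Rel ML MK) (X : AC MK δ i₀) {b : Cn m} {z : ML.Pts}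
    (hz : ∀ x ∈ Lf δ i₀ b, H.f (X.s (cat b x)) = z)
    (hJ : ∀ x ∈ Lf δ i₀ b, jL X (cat b x) ≠ 0) (g : (Fin s → MK.Pts) → ℝ≥0∞) :
    ∫⁻ x in Ls δ i₀ s b, g (Sg X b x) * ‖JS X b x‖ₑ ^ 2 ≤ H.fintS s z g := by
  classical
  set F : Set (Fin s → MK.Pts) := {y | ∀ i, H.f (y i) = z} with hF
  have h1 := fibre_ge (E := Fin s → Cn r) volume (M := Fin s → MK.Pts)
    (fun y i => fc (y i)) (Ls δ i₀ s b) (isOpen_Ls b) (Sg X b) (Sg_injOn X b) (DS X b)
    (fun x hx => hasStrict_Sg X hx)
    (fun x hx => by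
      rw [det_DS]
      exact Finset.prod_ne_zero_iff.2 fun i _ => hJ _ (hx i)) (F.indicator g)
  have h2 : ∫⁻ x in Ls δ i₀ s b, g (Sg X b x) * ‖JS X b x‖ₑ ^ 2 =
      ∫⁻ x in Ls δ i₀ s b, (F.indicator g) (Sg X b x) * ENNReal.ofReal (‖(DS X b x).det‖ ^ 2) := by
    refine setLIntegral_congr_fun (isOpen_Ls b).measurableSet fun x hx => ?_
    have h3 : Sg X b x ∈ F := fun i => hz _ (hx i)
    simp only [indicator_of_mem h3, det_DS]
    rw [← ofReal_norm, ENNReal.ofReal_pow (norm_nonneg _)]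
  rw [h2]
  refine h1.trans (le_of_eq ?_)
  unfold Rel.fintS
  refine lintegral_congr fun x => ?_
  have e1 := tsum_subtype {y : Fin s → MK.Pts | (fun i => fc (y i)) = x} (F.indicator g)
  have e2 := tsum_subtype {y : Fin s → MK.Pts | (∀ i, H.f (y i) = z) ∧
    ∀ i, (fun j => MK.pz (y i) (Fin.natAdd m j)) = x i} g
  refine e1.trans (Eq.trans ?_ e2.symm)
  refine tsum_congr fun y => ?_
  by_cases ha : (fun i => fc (y i)) = x
  · rw [indicator_of_mem (show y ∈ {y : Fin s → MK.Pts | (fun i => fc (y i)) = x} from ha)]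
    by_cases hb : y ∈ F
    · rw [indicator_of_mem hb, indicator_of_mem]
      exact ⟨hb, fun i => congrFun ha i⟩
    · rw [indicator_of_notMem hb, indicator_of_notMem]
      exact fun h => hb h.1
  · rw [indicator_of_notMem (show y ∉ {y : Fin s → MK.Pts | (fun i => fc (y i)) = x} from ha),
      indicator_of_notMem]
    exact fun h => ha (funext h.2)

/-! ### holomorphic functions on the `s`-fold fibre product -/

/-- holomorphic on the `s`-fold product of the fibre over `z` -/
def HolFS (H : Rel ML MK) (s : ℕ) (z : ML.Pts) (τ : (Fin s → MK.Pts) → ℂ) : Prop :=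
  ∀ y : Fin s → MK.Pts, (∀ i, H.f (y i) = z) →
    AnalyticAt ℂ (fun x : Fin s → Cn r => τ fun i => (ch (y i)).symm (Fin.append (ML.pz z) (x i)))
      fun i => fc (y i)

lemma pz_f (H : Rel ML MK) (y : MK.Pts) (i : Fin m) :
    ML.pz (H.f y) i = MK.pz y (Fin.castAdd r i) := by
  show y (H.incl (ML.z i)) = y (MK.z (Fin.castAdd r i))
  congr 1
  apply Subtype.ext
  exact (H.coord i).symm

lemma append_fc (H : Rel ML MK) (y : MK.Pts) : Fin.append (ML.pz (H.f y)) (fc y) = MK.pz y := by
  funext i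
  refine Fin.addCases (fun i => ?_) (fun i => ?_) i
  · rw [Fin.append_left, pz_f]
  · rw [Fin.append_right]; rfl

/-- a holomorphic function on the `s`-fold fibre product is analytic in the leaf coordinates -/
theorem HolFS.comp {H : Rel ML MK} {X : AC MK δ i₀} {b : Cn m} {z : ML.Pts}
    (hz : ∀ x ∈ Lf δ i₀ b, H.f (X.s (cat b x)) = z) {τ : (Fin s → MK.Pts) → ℂ}
    (hτ : HolFS H s z τ) {x : Fin s → Cn r} (hx : x ∈ Ls δ i₀ s b) :
    AnalyticAt ℂ (fun x => τ (Sg X b x)) x := by
  have h1 := hτ (Sg X b x) (fun i => hz _ (hx i))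
  have h2 : AnalyticAt ℂ (fun x' : Fin s → Cn r => fun i => fc (Sg X b x' i)) x := by
    refine analyticAt_pi_iff.2 fun i => ?_
    exact AnalyticAt.comp (g := Xb X b) (f := fun x' : Fin s → Cn r => x' i)
      (analyticAt_Xb X (hx i))
      ((ContinuousLinearMap.proj (R := ℂ) (φ := fun _ : Fin s => Cn r) i).analyticAt x)
  have h3 := AnalyticAt.comp (g := fun x' : Fin s → Cn r =>
      τ fun i => (ch (Sg X b x i)).symm (Fin.append (ML.pz z) (x' i)))
    (f := fun x' : Fin s → Cn r => fun i => fc (Sg X b x' i)) h1 h2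
  refine h3.congr ?_
  have h4 : ∀ i : Fin s, ∀ᶠ x' : Fin s → Cn r in 𝓝 x,
      X.s (cat b (x' i)) = (ch (X.s (cat b (x i)))).symm (MK.pz (X.s (cat b (x' i)))) := by
    intro i
    have h5 : Tendsto (fun x' : Fin s → Cn r => cat b (x' i)) (𝓝 x) (𝓝 (cat b (x i))) :=
      ((continuous_cat b).comp (continuous_apply i)).continuousAt
    exact h5.eventually (eventually_ch X (hx i))
  filter_upwards [eventually_all.2 h4, (isOpen_Ls b).mem_nhds hx] with x' h6 h7
  show τ (fun i => (ch (Sg X b x i)).symm (Fin.append (ML.pz z) (fc (Sg X b x' i)))) = _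
  congr 1
  funext i
  have h8 : H.f (X.s (cat b (x' i))) = z := hz _ (h7 i)
  have h9 := append_fc H (X.s (cat b (x' i)))
  rw [h8] at h9
  show (ch (X.s (cat b (x i)))).symm (Fin.append (ML.pz z) (fc (X.s (cat b (x' i))))) =
    X.s (cat b (x' i))
  rw [h9]
  exact (h6 i).symm

end Crest.Agent.R276.C1bd_986
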