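import Mathlib
import Crest.Agent.R276.C1bdB_986

-- ▼ part R276/C1bdC_986
section

/-!
# Row 276 (helper986), W1-BD part C: the weighted sub-mean value estimate on a leaf
-/

set_option autoImplicit false
set_option linter.unusedSectionVars false

open Set Filter Topology MeasureTheory Metric
open scoped ENNReal BigOperators

noncomputable section

namespace Crest.Agent.R276.C1bd_986

open Crest.Agent.R271 Crest.Agent.R271.Defs710 Crest.Agent.R271.Rd692 Crest.Agent.R271.Ho51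
open Crest.Agent.R276.Mod1_987 Crest.Agent.R276.SkelDefs_220
open Crest.Agent.R276.AcOpen_89 Crest.Agent.R276.BR_590

/-- `‖A J^N‖^(2/N) = ‖A‖^(2/N) ‖J‖²` -/
lemma enorm_pow_rpow {A J : ℂ} {N : ℕ} (hN : 0 < N) :
    ‖A * J ^ N‖ₑ ^ (2 / (N : ℝ)) = ‖A‖ₑ ^ (2 / (N : ℝ)) * ‖J‖ₑ ^ 2 := by
  have hN0 : (N : ℝ) ≠ 0 := by positivity
  rw [enorm_mul, enorm_pow, ENNReal.mul_rpow_of_nonneg _ _ (by positivity),
    ← ENNReal.rpow_natCast, ← ENNReal.rpow_mul, mul_div_cancel₀ _ hN0,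
    ← ENNReal.rpow_natCast ‖J‖ₑ 2]
  norm_num

/-- exponents of the weighted estimate -/
lemma enorm_weight {T A J : ℂ} (hJ : J ≠ 0) {N N' N₁ : ℕ} (hN' : 0 < N') {ε : ℝ}
    (hN₁ : (N₁ : ℝ) = N' * (1 + ε * N)) :
    ‖T * J ^ N₁‖ₑ ^ (2 / (N' : ℝ)) * ‖A * J ^ N‖ₑ ^ (-(2 * ε)) =
      ‖T‖ₑ ^ (2 / (N' : ℝ)) * ‖A‖ₑ ^ (-(2 * ε)) * ‖J‖ₑ ^ 2 := by
  have hN0 : (N' : ℝ) ≠ 0 := by positivity
  have hJ0 : ‖J‖ₑ ≠ 0 := by simpa using hJ
  have hJt : ‖J‖ₑ ≠ ∞ := enorm_ne_top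
  have e1 : ‖T * J ^ N₁‖ₑ ^ (2 / (N' : ℝ)) = ‖T‖ₑ ^ (2 / (N' : ℝ)) * ‖J‖ₑ ^ (2 * (1 + ε * N)) := by
    rw [enorm_mul, enorm_pow, ENNReal.mul_rpow_of_nonneg _ _ (by positivity),
      ← ENNReal.rpow_natCast, ← ENNReal.rpow_mul, hN₁]
    congr 2
    field_simp
  have e2 : ‖A * J ^ N‖ₑ ^ (-(2 * ε)) = ‖A‖ₑ ^ (-(2 * ε)) * ‖J‖ₑ ^ (-(2 * ε * N)) := by
    rw [enorm_mul, enorm_pow, ENNReal.mul_rpow_of_ne_top enorm_ne_top
      (ENNReal.pow_ne_top enorm_ne_top), ← ENNReal.rpow_natCast, ← ENNReal.rpow_mul]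
    congr 2
    ring
  rw [e1, e2]
  have e3 : ‖J‖ₑ ^ (2 * (1 + ε * N)) * ‖J‖ₑ ^ (-(2 * ε * N)) = ‖J‖ₑ ^ 2 := by
    rw [← ENNReal.rpow_add _ _ hJ0 hJt, ← ENNReal.rpow_natCast ‖J‖ₑ 2]
    congr 1
    push_cast
    ring
  rw [← e3]
  ring

variable {L K : Type} [Field L] [Field K] [Algebra ℂ L] [Algebra ℂ K] [Algebra L K]
  [IsScalarTower ℂ L K] {m r : ℕ} {ML : Mdl L m} {MK : Mdl K (m + r)} {δ : ℝ}
  {i₀ : Option (Fin (m + r))} {s : ℕ}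

/-- **the estimate on one leaf** -/
theorem core (H : Rel ML MK) (X : AC MK δ i₀) {b : Cn m} {z : ML.Pts}
    (hz : ∀ x ∈ Lf δ i₀ b, H.f (X.s (cat b x)) = z)
    (hJ : ∀ x ∈ Lf δ i₀ b, jL X (cat b x) ≠ 0) {N N' N₁ : ℕ} (hN : 0 < N) (hN' : 0 < N')
    {ε : ℝ} (hε : 0 ≤ ε) (hN₁ : (N₁ : ℝ) = N' * (1 + ε * N)) (u : Fin s → MK.B) {Dz : ℝ≥0∞}
    (hD0 : Dz ≠ 0) (hDt : Dz ≠ ∞)
    (hD : H.fintS s z (fun y => ‖dl u y‖ₑ ^ (2 / (N : ℝ))) ≤ Dz)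
    {τ : (Fin s → MK.Pts) → ℂ} {c : Fin s → Cn r} {ρ : ℝ} (hρ : 0 < ρ) (hc : c ∈ Ls δ i₀ s b)
    (hnull : volume (ball c (2 * ρ) \ Ls δ i₀ s b) = 0)
    {f g : (Fin s → Cn r) → ℂ} (hf : DifferentiableOn ℂ f (ball c (2 * ρ)))
    (hg : DifferentiableOn ℂ g (ball c (2 * ρ)))
    (hfe : ∀ x ∈ ball c (2 * ρ), x ∈ Ls δ i₀ s b → f x = τ (Sg X b x) * JS X b x ^ N₁)
    (hge : ∀ x ∈ ball c (2 * ρ), x ∈ Ls δ i₀ s b → g x = dl u (Sg X b x) * JS X b x ^ N) :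
    ‖τ (Sg X b c) * JS X b c ^ N₁‖ₑ ^ (2 / (N' : ℝ)) *
        (volume (ball (0 : Fin s → Cn r) ρ) * volume (ball (0 : Fin s → Cn r) ρ) ^ (ε * N)) ≤
      Dz ^ (ε * N) *
        H.fintS s z (fun y => ‖τ y‖ₑ ^ (2 / (N' : ℝ)) * ‖dl u y‖ₑ ^ (-(2 * ε))) := by
  have hN0 : (0 : ℝ) < N := by positivity
  have hN'0 : (0 : ℝ) < N' := by positivity
  have hae : ∀ (A : Set (Fin s → Cn r)) (G : (Fin s → Cn r) → ℝ≥0∞), MeasurableSet A →
      A ⊆ ball c (2 * ρ) → ∫⁻ x in A, G x = ∫⁻ x in A ∩ Ls δ i₀ s b, G x := by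
    intro A G hA hAs
    refine (setLIntegral_congr ?_).symm
    refine (ae_eq_set).2 ⟨?_, ?_⟩
    · refine measure_mono_null (fun x hx => ?_) (measure_empty (μ := volume))
      exact absurd hx.1.1 hx.2
    · refine measure_mono_null (fun x hx => ?_) hnull
      exact ⟨hAs hx.1, fun h => hx.2 ⟨hx.1, h⟩⟩
  have hJS : ∀ x ∈ Ls δ i₀ s b, JS X b x ≠ 0 := fun x hx =>
    Finset.prod_ne_zero_iff.2 fun i _ => hJ _ (hx i)
  have hcb : c ∈ ball c (2 * ρ) := mem_ball_self (by positivity)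
  have hsub : ball c ρ ⊆ ball c (2 * ρ) := ball_subset_ball (by linarith)
  -- the integral of `g`
  have hD' : ∫⁻ w in ball c (2 * ρ), ‖g w‖ₑ ^ (2 / (N : ℝ)) ≤ Dz := by
    rw [hae _ _ measurableSet_ball Subset.rfl]
    calc ∫⁻ w in ball c (2 * ρ) ∩ Ls δ i₀ s b, ‖g w‖ₑ ^ (2 / (N : ℝ))
        = ∫⁻ w in ball c (2 * ρ) ∩ Ls δ i₀ s b,
            ‖dl u (Sg X b w)‖ₑ ^ (2 / (N : ℝ)) * ‖JS X b w‖ₑ ^ 2 := by
          refine setLIntegral_congr_fun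
            (measurableSet_ball.inter (isOpen_Ls b).measurableSet) fun w hw => ?_
          rw [hge w hw.1 hw.2, enorm_pow_rpow hN]
      _ ≤ ∫⁻ w in Ls δ i₀ s b, ‖dl u (Sg X b w)‖ₑ ^ (2 / (N : ℝ)) * ‖JS X b w‖ₑ ^ 2 :=
          lintegral_mono_set inter_subset_right
      _ ≤ H.fintS s z (fun y => ‖dl u y‖ₑ ^ (2 / (N : ℝ))) := fintS_ge H X hz hJ _
      _ ≤ Dz := hD
  have key := Crest.Agent.R276.Sub_185.weighted (volume : Measure (Fin s → Cn r))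
    (f := f) (g := g) (z := c) (ρ := ρ) (hf.mono hsub) hg (p := 2 / (N' : ℝ)) (a := 2 * ε)
    (b := 2 / (N : ℝ)) (by positivity) (by positivity) (by positivity) hD0 hDt hD'
  have hab : 2 * ε / (2 / (N : ℝ)) = ε * N := by field_simp
  rw [hab, hfe c hcb hc] at key
  refine key.trans ?_
  refine mul_le_mul_right ?_ _
  rw [hae _ _ measurableSet_ball hsub]
  calc ∫⁻ w in ball c ρ ∩ Ls δ i₀ s b, ‖f w‖ₑ ^ (2 / (N' : ℝ)) * ‖g w‖ₑ ^ (-(2 * ε))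
      = ∫⁻ w in ball c ρ ∩ Ls δ i₀ s b, (‖τ (Sg X b w)‖ₑ ^ (2 / (N' : ℝ)) *
          ‖dl u (Sg X b w)‖ₑ ^ (-(2 * ε))) * ‖JS X b w‖ₑ ^ 2 := by
        refine setLIntegral_congr_fun
          (measurableSet_ball.inter (isOpen_Ls b).measurableSet) fun w hw => ?_
        rw [hfe w (hsub hw.1) hw.2, hge w (hsub hw.1) hw.2,
          enorm_weight (hJS w hw.2) hN' hN₁]
    _ ≤ ∫⁻ w in Ls δ i₀ s b, (‖τ (Sg X b w)‖ₑ ^ (2 / (N' : ℝ)) *
          ‖dl u (Sg X b w)‖ₑ ^ (-(2 * ε))) * ‖JS X b w‖ₑ ^ 2 :=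
        lintegral_mono_set inter_subset_right
    _ ≤ _ := fintS_ge H X hz hJ
        (fun y => ‖τ y‖ₑ ^ (2 / (N' : ℝ)) * ‖dl u y‖ₑ ^ (-(2 * ε)))

/-- analyticity of the product of the Jacobians -/
lemma analyticAt_JS (X : AC MK δ i₀) {b : Cn m} {x : Fin s → Cn r} (hx : x ∈ Ls δ i₀ s b) :
    AnalyticAt ℂ (JS X b) x := by
  refine Finset.analyticAt_fun_prod _ fun i _ => ?_
  exact AnalyticAt.comp (g := fun x => jL X (cat b x)) (f := fun x' : Fin s → Cn r => x' i)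
    (analyticAt_jL_cat X (hx i))
    ((ContinuousLinearMap.proj (R := ℂ) (φ := fun _ : Fin s => Cn r) i).analyticAt x)

/-- evaluation of an element on a factor -/
lemma analyticAt_ev (X : AC MK δ i₀) {b : Cn m} {x : Fin s → Cn r} (hx : x ∈ Ls δ i₀ s b)
    (v : MK.B) (i : Fin s) : AnalyticAt ℂ (fun x => Sg X b x i v) x := by
  have h1 : AnalyticAt ℂ (fun x : Cn r => X.s (cat b x) v) (x i) :=
    (X.anal v (cat b (x i)) (hx i)).comp (analyticAt_cat b (x i))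
  exact AnalyticAt.comp (g := fun x => X.s (cat b x) v) (f := fun x' : Fin s → Cn r => x' i) h1
    ((ContinuousLinearMap.proj (R := ℂ) (φ := fun _ : Fin s => Cn r) i).analyticAt x)

/-- analyticity of `δ` -/
lemma analyticAt_dl (X : AC MK δ i₀) {b : Cn m} {x : Fin s → Cn r} (hx : x ∈ Ls δ i₀ s b)
    (u : Fin s → MK.B) : AnalyticAt ℂ (fun x => dl u (Sg X b x)) x := by
  unfold dl
  exact analyticAt_det fun i j => analyticAt_ev X hx (u i) j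

end Crest.Agent.R276.C1bd_986
end
end

-- ▼ part R276/C1bdD_986

/-!
# Row 276 (helper986), W1-BD part D: the uniform bound on a chart of `M_K` adapted to `M_K → M_L`,
divisor coordinate in the base (`bd_vert`) or in the fibre (`bd_hor`)
-/

set_option autoImplicit false
set_option linter.unusedSectionVars false

open Set Filter Topology MeasureTheory Metric
open scoped ENNReal BigOperators

noncomputable section

namespace Crest.Agent.R276.C1bd_986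

open Crest.Agent.R271 Crest.Agent.R271.Defs710 Crest.Agent.R271.Rd692 Crest.Agent.R271.Ho51
open Crest.Agent.R276.Mod1_987 Crest.Agent.R276.SkelDefs_220
open Crest.Agent.R276.AcOpen_89 Crest.Agent.R276.BR_590

/-- hyperplanes are null sets -/
lemma null_hyper {s r : ℕ} (i : Fin s) (j : Fin r) :
    volume {x : Fin s → Cn r | x i j = 0} = 0 := by
  set l : (Fin s → Cn r) →ₗ[ℝ] ℂ :=
    (LinearMap.proj (R := ℝ) (φ := fun _ : Fin r => ℂ) j) ∘ₗ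
      (LinearMap.proj (R := ℝ) (φ := fun _ : Fin s => Cn r) i) with hl
  have h1 : {x : Fin s → Cn r | x i j = 0} = (LinearMap.ker l : Set (Fin s → Cn r)) := by
    ext x
    simp [hl]
  rw [h1]
  refine Measure.addHaar_submodule volume (LinearMap.ker l) fun h => ?_
  have h2 : (fun _ _ => (1 : ℂ) : Fin s → Cn r) ∈ LinearMap.ker l := by rw [h]; trivial
  rw [LinearMap.mem_ker] at h2
  simp [hl] at h2

variable {L K : Type} [Field L] [Field K] [Algebra ℂ L] [Algebra ℂ K] [Algebra L K]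
  [IsScalarTower ℂ L K] {m r : ℕ} {ML : Mdl L m} {MK : Mdl K (m + r)} {δ : ℝ}

/-- the class of the norm: `|τ|² ≤ C ∏ⱼ ∑ᵢ |yⱼ(vᵢ)|²` on the `s`-fold fibre -/
def Cls (H : Rel ML MK) {q : ℕ} (v : Fin q → MK.B) (s : ℕ) (z : ML.Pts)
    (τ : (Fin s → MK.Pts) → ℂ) : Prop :=
  ∃ C : ℝ, ∀ y : Fin s → MK.Pts, (∀ i, H.f (y i) = z) →
    ‖τ y‖ ^ 2 ≤ C * ∏ j, ∑ i, ‖y j (v i)‖ ^ 2

/-- the point `Σ` at the centre -/
lemma Sg_diag {i₀ : Option (Fin (m + r))} {s : ℕ} (X : AC MK δ i₀) (ζ : Cn (m + r)) :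
    Sg (s := s) X (bs ζ) (fun _ => fb ζ) = fun _ => X.s ζ := by
  funext i
  show X.s (cat (bs ζ) (fb ζ)) = X.s ζ
  rw [cat_bs_fb]

lemma JS_diag {i₀ : Option (Fin (m + r))} {s : ℕ} (X : AC MK δ i₀) (ζ : Cn (m + r)) :
    JS (s := s) X (bs ζ) (fun _ => fb ζ) = jL X ζ ^ s := by
  unfold JS
  simp [cat_bs_fb]

/-- exponents at the centre -/
lemma enorm_diag {T J : ℂ} {s N N' N₁ : ℕ} (hN' : 0 < N') {ε : ℝ} (hε : 0 ≤ ε)
    (hN₁ : (N₁ : ℝ) = N' * (1 + ε * N)) :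
    ‖T * (J ^ s) ^ N₁‖ₑ ^ (2 / (N' : ℝ)) =
      ‖T‖ₑ ^ (2 / (N' : ℝ)) * ‖J‖ₑ ^ (2 * s * (1 + ε * N)) := by
  have hN0 : (N' : ℝ) ≠ 0 := by positivity
  rw [enorm_mul, ENNReal.mul_rpow_of_nonneg _ _ (by positivity), ← pow_mul, enorm_pow,
    ← ENNReal.rpow_natCast, ← ENNReal.rpow_mul]
  congr 2
  push_cast
  rw [hN₁]
  field_simp

/-- from the leaf estimate to the final form -/
lemma finish {s : ℕ} {A V W : ℝ≥0∞} {ρ : ℝ} (hρ : 0 < ρ) {r : ℕ} {e : ℝ} (he : 0 ≤ e)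
    (h : A * (volume (ball (0 : Fin s → Cn r) ρ) * volume (ball (0 : Fin s → Cn r) ρ) ^ e) ≤
      V * W) :
    A ≤ ENNReal.ofReal ((volume (ball (0 : Fin s → Cn r) ρ) *
      volume (ball (0 : Fin s → Cn r) ρ) ^ e)⁻¹).toReal * V * W := by
  set B := volume (ball (0 : Fin s → Cn r) ρ) with hB
  have hB0 : B ≠ 0 := (measure_ball_pos volume _ hρ).ne'
  have hBt : B ≠ ∞ := measure_ball_lt_top.ne
  have hBe0 : B ^ e ≠ 0 := by
    rw [Ne, ENNReal.rpow_eq_zero_iff]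
    rintro (h1 | h1)
    · exact hB0 h1.1
    · exact hBt h1.1
  have hBet : B ^ e ≠ ∞ := ENNReal.rpow_ne_top_of_nonneg he hBt
  have hM0 : B * B ^ e ≠ 0 := mul_ne_zero hB0 hBe0
  have hMt : B * B ^ e ≠ ∞ := ENNReal.mul_ne_top hBt hBet
  rw [ENNReal.ofReal_toReal (ENNReal.inv_ne_top.2 hM0)]
  calc A = A * (B * B ^ e) * (B * B ^ e)⁻¹ := by
        rw [mul_assoc, ENNReal.mul_inv_cancel hM0 hMt, mul_one]
    _ ≤ V * W * (B * B ^ e)⁻¹ := by gcongr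
    _ = _ := by ring

section vert

variable {i₀ : Option (Fin (m + r))}

/-- **vertical case** (the removed hyperplane is in the base coordinates, or nothing is removed) -/
theorem bd_vert (H : Rel ML MK) (X : AC MK δ i₀)
    (hi : ∀ i, i₀ = some i → ∃ i₁ : Fin m, i = Fin.castAdd r i₁)
    (hfib : ∀ ζ ∈ PD δ i₀, ∀ ζ' ∈ PD δ i₀, bs ζ = bs ζ' → H.f (X.s ζ) = H.f (X.s ζ'))
    (hJ : ∀ ζ ∈ PD δ i₀, jL X ζ ≠ 0) {s N N' N₁ : ℕ} (hN : 0 < N) (hN' : 0 < N')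
    {ε : ℝ} (hε : 0 ≤ ε) (hN₁ : (N₁ : ℝ) = N' * (1 + ε * N)) (u : Fin s → MK.B)
    {D : ML.Pts → ℝ} (hD : IsCY H N u D) {δ' : ℝ} (hδ' : δ' < δ) :
    ∃ C : ℝ, ∀ ζ ∈ PD δ' i₀, ∀ τ : (Fin s → MK.Pts) → ℂ, HolFS H s (H.f (X.s ζ)) τ →
      ‖τ (fun _ => X.s ζ)‖ₑ ^ (2 / (N' : ℝ)) * ‖jL X ζ‖ₑ ^ (2 * s * (1 + ε * N)) ≤
        ENNReal.ofReal C * ENNReal.ofReal (D (H.f (X.s ζ))) ^ (ε * N) *
          H.fintS s (H.f (X.s ζ))
            (fun y => ‖τ y‖ₑ ^ (2 / (N' : ℝ)) * ‖dl u y‖ₑ ^ (-(2 * ε))) := by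
  set ρ : ℝ := (δ - δ') / 2 with hρ
  have hρ0 : 0 < ρ := by rw [hρ]; linarith
  refine ⟨((volume (ball (0 : Fin s → Cn r) ρ) *
      volume (ball (0 : Fin s → Cn r) ρ) ^ (ε * N))⁻¹).toReal, fun ζ hζ τ hτ => ?_⟩
  set b := bs ζ with hb
  set c : Fin s → Cn r := fun _ => fb ζ with hc
  set z := H.f (X.s ζ) with hzdef
  have hζδ : ζ ∈ PD δ i₀ := PD_mono hδ'.le _ hζ
  have hball : ball c (2 * ρ) ⊆ Ls δ i₀ s b := by
    intro x hx i
    have h1 : dist (x i) (fb ζ) < 2 * ρ := (dist_le_pi_dist x c i).trans_lt hx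
    have h2 : ‖x i‖ < δ := by
      have h3 : ‖x i‖ ≤ ‖x i - fb ζ‖ + ‖fb ζ‖ := by
        have := norm_add_le (x i - fb ζ) (fb ζ); rwa [sub_add_cancel] at this
      rw [dist_eq_norm] at h1
      have h4 := norm_fb_le ζ
      have h5 := hζ.1
      rw [hρ] at h1
      linarith
    have h6 : ‖b‖ < δ := (norm_bs_le ζ).trans_lt hζδ.1
    have hδ0 : 0 < δ := (norm_nonneg _).trans_lt h6
    refine ⟨(norm_cat_lt hδ0).2 ⟨h6, h2⟩, fun i' hi' => ?_⟩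
    obtain ⟨i₁, rfl⟩ := hi i' hi'
    rw [cat_castAdd]
    exact hζ.2 _ hi'
  have hcL : c ∈ Ls δ i₀ s b := hball (mem_ball_self (by positivity))
  have hz : ∀ x ∈ Lf δ i₀ b, H.f (X.s (cat b x)) = z := fun x hx =>
    hfib _ hx _ hζδ (by rw [bs_cat])
  have hJ' : ∀ x ∈ Lf δ i₀ b, jL X (cat b x) ≠ 0 := fun x hx => hJ _ hx
  have h := core H X hz hJ' hN hN' hε hN₁ u (Dz := ENNReal.ofReal (D z))
    (by rw [Ne, ENNReal.ofReal_eq_zero, not_le]; exact (hD z).1) ENNReal.ofReal_ne_top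
    (hD z).2.le (τ := τ) hρ0 hcL (by
      rw [sdiff_eq_empty.2 hball, measure_empty])
    (f := fun x => τ (Sg X b x) * JS X b x ^ N₁) (g := fun x => dl u (Sg X b x) * JS X b x ^ N)
    (fun x hx => ((hτ.comp hz (hball hx)).mul
      ((analyticAt_JS X (hball hx)).pow N₁)).differentiableAt.differentiableWithinAt)
    (fun x hx => ((analyticAt_dl X (hball hx) u).mul
      ((analyticAt_JS X (hball hx)).pow N)).differentiableAt.differentiableWithinAt)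
    (fun _ _ _ => rfl) (fun _ _ _ => rfl)
  have h1 := finish hρ0 (by positivity) h
  rw [hc, hb, Sg_diag, JS_diag, enorm_diag hN' hε hN₁] at h1
  exact h1

end vert

section hor

/-- boundedness of `v jL^q` on the chart -/
def RegB {i₀ : Option (Fin (m + r))} (X : AC MK δ i₀) (v : MK.B) (q : ℕ) : Prop :=
  ∀ δ'' < δ, ∃ B : ℝ, ∀ ζ ∈ PD δ'' i₀, ‖X.s ζ v * jL X ζ ^ q‖ ≤ B

/-- regularity in terms of orders -/
theorem regB_of_ord {i₀ : Option (Fin (m + r))} (X : AC MK δ i₀) {v : MK.B} {q : ℕ} {k c : ℤ}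
    (hv : X.Ord (v : K) k) (hJ : Mono δ i₀ (jL X) c) (hk : 0 ≤ k + q * c) : RegB X v q := by
  obtain ⟨u, ⟨G, hG, -, hGe⟩, hu⟩ := hv
  obtain ⟨G', hG', -, hGe'⟩ := hJ
  intro δ'' hδ''
  have hcont : ContinuousOn (fun ζ => G ζ * G' ζ ^ q) (closedBall (0 : Cn (m + r)) δ'') :=
    ((hG.continuousOn).mul (hG'.continuousOn.pow q)).mono (closedBall_subset_ball hδ'')
  obtain ⟨B, hB⟩ := (isCompact_closedBall (0 : Cn (m + r)) δ'').exists_bound_of_continuousOn hcont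
  obtain ⟨l, hl⟩ := Int.eq_ofNat_of_zero_le hk
  refine ⟨max δ 1 ^ l * max B 0, fun ζ hζ => ?_⟩
  have hζδ : ζ ∈ PD δ i₀ := PD_mono hδ''.le _ hζ
  have h1 : X.s ζ v = u ζ := by
    have := hu ζ hζδ v 1 (by simp)
    rwa [map_one, mul_one] at this
  have ht := tau_ne hζδ
  have h2 : X.s ζ v * jL X ζ ^ q = tau i₀ ζ ^ l * (G ζ * G' ζ ^ q) := by
    rw [h1, hGe ζ hζδ, hGe' ζ hζδ, mul_pow, ← zpow_natCast (tau i₀ ζ ^ c) q, ← zpow_mul,
      ← zpow_natCast (tau i₀ ζ) l, ← hl, zpow_add₀ ht, mul_comm c q]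
    ring
  have h3 : ‖tau i₀ ζ‖ ≤ max δ 1 := by
    cases i₀ with
    | none => simp [tau]
    | some i => exact ((norm_le_pi_norm ζ i).trans hζδ.1.le).trans (le_max_left _ _)
  have h4 : ‖G ζ * G' ζ ^ q‖ ≤ max B 0 :=
    (hB ζ (by rw [mem_closedBall, dist_zero_right]; exact hζ.1.le)).trans (le_max_left _ _)
  rw [h2, norm_mul, norm_pow]
  gcongr

lemma regB_zero {i₀ : Option (Fin (m + r))} (X : AC MK δ i₀) (q : ℕ) : RegB X (0 : MK.B) q :=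
  fun _ _ => ⟨0, fun ζ _ => by simp⟩

/-- **horizontal case** (the removed hyperplane is in the fibre coordinates) -/
theorem bd_hor (H : Rel ML MK) {j₀ : Fin r} {i₀ : Option (Fin (m + r))}
    (hi₀ : i₀ = some (Fin.natAdd m j₀)) (X : AC MK δ i₀)
    (hfib : ∀ ζ ∈ PD δ i₀, ∀ ζ' ∈ PD δ i₀, bs ζ = bs ζ' → H.f (X.s ζ) = H.f (X.s ζ'))
    (hJ : ∀ ζ ∈ PD δ i₀, jL X ζ ≠ 0) {s N N' N₁ : ℕ} (hN : 0 < N)
    (hN' : 0 < N') {ε : ℝ} (hε : 0 ≤ ε) (hN₁ : (N₁ : ℝ) = N' * (1 + ε * N)) (u : Fin s → MK.B)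
    {D : ML.Pts → ℝ} (hD : IsCY H N u D) (hu : ∀ i, RegB X (u i) N)
    {q : ℕ} {v : Fin q → MK.B} (hv : ∀ i, RegB X (v i) N₁) {δ' : ℝ} (hδ' : δ' < δ) :
    ∃ C : ℝ, ∀ ζ ∈ PD δ' i₀, ∀ τ : (Fin s → MK.Pts) → ℂ,
      HolFS H s (H.f (X.s ζ)) τ → Cls H v s (H.f (X.s ζ)) τ →
      ‖τ (fun _ => X.s ζ)‖ₑ ^ (2 / (N' : ℝ)) * ‖jL X ζ‖ₑ ^ (2 * s * (1 + ε * N)) ≤
        ENNReal.ofReal C * ENNReal.ofReal (D (H.f (X.s ζ))) ^ (ε * N) *
          H.fintS s (H.f (X.s ζ))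
            (fun y => ‖τ y‖ₑ ^ (2 / (N' : ℝ)) * ‖dl u y‖ₑ ^ (-(2 * ε))) := by
  classical
  set ρ : ℝ := (δ - δ') / 4 with hρ
  have hρ0 : 0 < ρ := by rw [hρ]; linarith
  set δ'' : ℝ := (δ + δ') / 2 with hδ''
  have hδδ'' : δ'' < δ := by rw [hδ'']; linarith
  refine ⟨((volume (ball (0 : Fin s → Cn r) ρ) *
      volume (ball (0 : Fin s → Cn r) ρ) ^ (ε * N))⁻¹).toReal, fun ζ hζ τ hτ hcls => ?_⟩
  set b := bs ζ with hb
  set c : Fin s → Cn r := fun _ => fb ζ with hc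
  set z := H.f (X.s ζ) with hzdef
  have hζδ : ζ ∈ PD δ i₀ := PD_mono hδ'.le _ hζ
  -- the divisor
  set Df : (Fin s → Cn r) → ℂ := fun x => ∏ i, x i j₀ with hDf
  have hsmall : ∀ x ∈ ball c (2 * ρ), Df x ≠ 0 → ∀ i, cat b (x i) ∈ PD δ'' i₀ := by
    intro x hx hDx i
    have h1 : dist (x i) (fb ζ) < 2 * ρ := (dist_le_pi_dist x c i).trans_lt hx
    have h2 : ‖x i‖ < δ'' := by
      have h3 : ‖x i‖ ≤ ‖x i - fb ζ‖ + ‖fb ζ‖ := by
        have := norm_add_le (x i - fb ζ) (fb ζ); rwa [sub_add_cancel] at this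
      rw [dist_eq_norm] at h1
      have h4 := norm_fb_le ζ
      have h5 := hζ.1
      rw [hρ] at h1
      rw [hδ'']
      linarith
    have h6 : ‖b‖ < δ'' := by
      have h4 := norm_bs_le ζ
      have h5 := hζ.1
      rw [hδ'', hb]
      linarith
    have hδ0 : 0 < δ'' := (norm_nonneg _).trans_lt h6
    refine ⟨(norm_cat_lt hδ0).2 ⟨h6, h2⟩, fun i' hi' => ?_⟩
    rw [hi₀] at hi'
    obtain rfl := Option.some.inj hi'
    rw [cat_natAdd]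
    exact (Finset.prod_ne_zero_iff.1 hDx) i (Finset.mem_univ _)
  have hLs : ∀ x ∈ ball c (2 * ρ), Df x ≠ 0 → x ∈ Ls δ i₀ s b := fun x hx hDx i =>
    PD_mono hδδ''.le _ (hsmall x hx hDx i)
  have hLs' : ∀ x ∈ Ls δ i₀ s b, Df x ≠ 0 := by
    intro x hx
    refine Finset.prod_ne_zero_iff.2 fun i _ => ?_
    have := (hx i).2 _ hi₀
    rwa [cat_natAdd] at this
  have hDnull : volume {x : Fin s → Cn r | Df x = 0} = 0 := by
    have h1 : {x : Fin s → Cn r | Df x = 0} = ⋃ i : Fin s, {x : Fin s → Cn r | x i j₀ = 0} := by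
      ext x
      simp [hDf, Finset.prod_eq_zero_iff]
    rw [h1]
    exact measure_iUnion_null fun i => null_hyper i j₀
  have hDan : AnalyticOnNhd ℂ Df (ball c (2 * ρ)) := by
    intro x _
    refine Finset.analyticAt_fun_prod _ fun i _ => ?_
    exact ((ContinuousLinearMap.proj (R := ℂ) (φ := fun _ : Fin r => ℂ) j₀).comp
      (ContinuousLinearMap.proj (R := ℂ) (φ := fun _ : Fin s => Cn r) i)).analyticAt x
  have hDne : ∀ a ∈ ball c (2 * ρ), ¬ (∀ᶠ x in 𝓝 a, Df x = 0) := by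
    intro a _ h
    exact (Measure.measure_pos_of_mem_nhds volume h).ne' hDnull
  have hcD : Df c ≠ 0 := by
    refine Finset.prod_ne_zero_iff.2 fun i _ => ?_
    exact hζ.2 _ hi₀
  have hcL : c ∈ Ls δ i₀ s b := hLs c (mem_ball_self (by positivity)) hcD
  have hz : ∀ x ∈ Lf δ i₀ b, H.f (X.s (cat b x)) = z := fun x hx =>
    hfib _ hx _ hζδ (by rw [bs_cat])
  have hJ' : ∀ x ∈ Lf δ i₀ b, jL X (cat b x) ≠ 0 := fun x hx => hJ _ hx
  -- bounds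
  choose Bu hBu using fun i => hu i δ'' hδδ''
  choose Bv hBv using fun i => hv i δ'' hδδ''
  obtain ⟨Cτ, hCτ⟩ := hcls
  set f₀ : (Fin s → Cn r) → ℂ := fun x => τ (Sg X b x) * JS X b x ^ N₁ with hf₀
  set g₀ : (Fin s → Cn r) → ℂ := fun x => dl u (Sg X b x) * JS X b x ^ N with hg₀
  have hfb : ∃ C : ℝ, ∀ x ∈ ball c (2 * ρ), Df x ≠ 0 → ‖f₀ x‖ ≤ C := by
    set A : ℝ := ∑ i, Bv i ^ 2 with hA
    have hA0 : 0 ≤ A := Finset.sum_nonneg fun i _ => by positivity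
    refine ⟨Real.sqrt (max Cτ 0 * A ^ s), fun x hx hDx => Real.le_sqrt_of_sq_le ?_⟩
    have h1 := hCτ (Sg X b x) (fun i => hz _ (hLs x hx hDx i))
    have h2 : ‖JS X b x ^ N₁‖ ^ 2 = ∏ j, ‖jL X (cat b (x j)) ^ N₁‖ ^ 2 := by
      rw [JS, ← Finset.prod_pow, norm_prod, ← Finset.prod_pow]
    have h3 : ∀ j, (∑ i, ‖Sg X b x j (v i)‖ ^ 2) * ‖jL X (cat b (x j)) ^ N₁‖ ^ 2 ≤ A := by
      intro j
      rw [Finset.sum_mul]
      refine Finset.sum_le_sum fun i _ => ?_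
      rw [← mul_pow, ← norm_mul]
      have h4 := hBv i (cat b (x j)) (hsmall x hx hDx j)
      exact pow_le_pow_left₀ (norm_nonneg _) h4 2
    have h0 : 0 ≤ ∏ j, ∑ i, ‖Sg X b x j (v i)‖ ^ 2 :=
      Finset.prod_nonneg fun j _ => Finset.sum_nonneg fun i _ => by positivity
    calc ‖f₀ x‖ ^ 2 = ‖τ (Sg X b x)‖ ^ 2 * ‖JS X b x ^ N₁‖ ^ 2 := by
          rw [hf₀]; simp only; rw [norm_mul, mul_pow]
      _ ≤ (Cτ * ∏ j, ∑ i, ‖Sg X b x j (v i)‖ ^ 2) * ‖JS X b x ^ N₁‖ ^ 2 :=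
          mul_le_mul_of_nonneg_right h1 (by positivity)
      _ ≤ (max Cτ 0 * ∏ j, ∑ i, ‖Sg X b x j (v i)‖ ^ 2) * ‖JS X b x ^ N₁‖ ^ 2 :=
          mul_le_mul_of_nonneg_right (mul_le_mul_of_nonneg_right (le_max_left _ _) h0)
            (by positivity)
      _ = max Cτ 0 * ∏ j, ((∑ i, ‖Sg X b x j (v i)‖ ^ 2) * ‖jL X (cat b (x j)) ^ N₁‖ ^ 2) := by
          rw [h2, Finset.prod_mul_distrib]; ring
      _ ≤ max Cτ 0 * ∏ _j : Fin s, A := by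
          refine mul_le_mul_of_nonneg_left ?_ (le_max_right _ _)
          refine Finset.prod_le_prod (fun j _ => ?_) fun j _ => h3 j
          exact mul_nonneg (Finset.sum_nonneg fun i _ => by positivity) (by positivity)
      _ = max Cτ 0 * A ^ s := by simp
  have hgb : ∃ C : ℝ, ∀ x ∈ ball c (2 * ρ), Df x ≠ 0 → ‖g₀ x‖ ≤ C := by
    set A : ℝ := ∑ i, |Bu i| with hA
    refine ⟨∑ _σ : Equiv.Perm (Fin s), ∏ _j : Fin s, A, fun x hx hDx => ?_⟩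
    have h1 : g₀ x = (Matrix.of fun i j => Sg X b x j (u i) * jL X (cat b (x j)) ^ N).det := by
      have h2 : (Matrix.of fun i j => Sg X b x j (u i) * jL X (cat b (x j)) ^ N) =
          (Matrix.of fun i j => Sg X b x j (u i)) *
            Matrix.diagonal (fun j => jL X (cat b (x j)) ^ N) := by
        ext i j
        rw [Matrix.mul_diagonal]
        rfl
      rw [h2, Matrix.det_mul, Matrix.det_diagonal, hg₀]
      simp only [dl, JS, ← Finset.prod_pow]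
    rw [h1, Matrix.det_apply']
    refine (norm_sum_le _ _).trans (Finset.sum_le_sum fun σ _ => ?_)
    rw [norm_mul, norm_prod]
    have h3 : ‖((Equiv.Perm.sign σ : ℤ) : ℂ)‖ = 1 := by
      rcases Int.units_eq_one_or (Equiv.Perm.sign σ) with h | h <;> simp [h]
    rw [h3, one_mul]
    refine Finset.prod_le_prod (fun _ _ => norm_nonneg _) fun j _ => ?_
    have h4 := hBu (σ j) (cat b (x j)) (hsmall x hx hDx j)
    refine (h4.trans (le_abs_self _)).trans ?_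
    exact Finset.single_le_sum (f := fun i => |Bu i|) (fun i _ => abs_nonneg _)
      (Finset.mem_univ (σ j))
  obtain ⟨Cf, hCf⟩ := hfb
  obtain ⟨Cg, hCg⟩ := hgb
  obtain ⟨f, hf, hfe⟩ := ext_bdd (f := f₀) isOpen_ball hDan hDne
    (fun x hx => (((hτ.comp hz (hLs x hx.1 hx.2)).mul
      ((analyticAt_JS X (hLs x hx.1 hx.2)).pow N₁)).differentiableAt).differentiableWithinAt)
    (fun a ha => ⟨univ, univ_mem, Cf, fun x _ hx hDx => hCf x hx hDx⟩)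
  obtain ⟨g, hg, hge⟩ := ext_bdd (f := g₀) isOpen_ball hDan hDne
    (fun x hx => (((analyticAt_dl X (hLs x hx.1 hx.2) u).mul
      ((analyticAt_JS X (hLs x hx.1 hx.2)).pow N)).differentiableAt).differentiableWithinAt)
    (fun a ha => ⟨univ, univ_mem, Cg, fun x _ hx hDx => hCg x hx hDx⟩)
  have h := core H X hz hJ' hN hN' hε hN₁ u (Dz := ENNReal.ofReal (D z))
    (by rw [Ne, ENNReal.ofReal_eq_zero, not_le]; exact (hD z).1) ENNReal.ofReal_ne_top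
    (hD z).2.le (τ := τ) hρ0 hcL (by
      refine measure_mono_null (fun x hx => ?_) hDnull
      by_contra hDx
      exact hx.2 (hLs x hx.1 hDx))
    hf hg (fun x hx hxL => hfe x hx (hLs' x hxL)) (fun x hx hxL => hge x hx (hLs' x hxL))
  have h1 := finish hρ0 (by positivity) h
  rw [hc, hb, Sg_diag, JS_diag, enorm_diag hN' hε hN₁] at h1
  exact h1

end hor

end Crest.Agent.R276.C1bd_986
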