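import Mathlib
import Crest.Agent.R276.EndRest_870
import Crest.Agent.R276.EndInd_870
import Crest.Agent.R276.AB2_590
import Crest.Agent.R276.Mod7_987
import Crest.Agent.R276.SkelDefs_220

-- ▼ part R276/EndFib_870
section

/-!
# Row 276, END-ALG (helper870): functions on the general fibre of a relative model

* `exists_base_poly` : a nonzero element of `MK.B` does not vanish identically on the fibre over
  `y` as soon as `p (z (y)) ≠ 0`, `p ≠ 0` a polynomial.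
* `gen_fib` : `w₀ ≠ 0`, `w_j ∈ MK.B`, `w_j/w₀` algebraically independent over `ℂ`: at least
  `card E - m` of the quotients stay independent on every fibre over `{p ≠ 0}` (`m = dim ML`).
* `ind_fib` : the same in the tower `K₀ ⊆ L ⊆ K`: together with `τ_i/τ₀ ∈ K` independent over `L`.
-/

set_option autoImplicit false

open Topology Filter Set

noncomputable section

namespace Crest.Agent.R276.EndFib_870

open Crest.Agent.R271.Defs710 Crest.Agent.R271.Rd692
open Crest.Agent.R276.Mod1_987 Crest.Agent.R276.AB2_590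

variable {L K : Type} [Field L] [Field K] [Algebra ℂ L] [Algebra ℂ K] [Algebra L K]
  [IsScalarTower ℂ L K] {m r : ℕ} (R : RMdl L K m r)

theorem exists_base_poly {h : R.MK.B} (hh : h ≠ 0) : ∃ p : MvPolynomial (Fin m) ℂ, p ≠ 0 ∧
    ∀ y : R.ML.Pts, MvPolynomial.eval (R.ML.pz y) p ≠ 0 → ∃ x : R.MK.Pts, R.q x = y ∧ x h ≠ 0 := by
  obtain ⟨P, hP, b, hb⟩ := exists_poly_dvd (z := R.MK.z) R.MK.het hh
  obtain ⟨ξ, hξ⟩ := RMdl.exists_specR_ne (mul_ne_zero hP R.MK.h_ne)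
  refine ⟨specR ξ (P * R.MK.h), hξ, fun y hy => ?_⟩
  rw [eval_specR, map_mul] at hy
  have h1 : (y, ξ) ∈ R.UR := right_ne_zero_of_mul hy
  rw [← R.range_φ] at h1
  obtain ⟨x, hx⟩ := h1
  have hq : R.q x = y := congrArg Prod.fst hx
  have hp : R.MK.pz x = Fin.append (R.ML.pz y) ξ := by
    rw [← R.pL_φ x, hx]
    rfl
  refine ⟨x, hq, fun h0 => left_ne_zero_of_mul hy ?_⟩
  rw [← hp, ← R.MK.apply_az']
  change x (MvPolynomial.aeval R.MK.z P) = 0
  rw [hb, map_mul, h0, zero_mul]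

/-- **general fibre** -/
theorem gen_fib {E : Type} [Fintype E] (w0 : R.MK.B) (w : E → R.MK.B) (hw0 : w0 ≠ 0)
    (hind : AlgebraicIndependent ℂ (fun j => (w j : K) / (w0 : K))) :
    ∃ (ν : ℕ) (a : Fin ν → E), Function.Injective a ∧ Fintype.card E ≤ ν + m ∧
      ∃ p : MvPolynomial (Fin m) ℂ, p ≠ 0 ∧ ∀ y : R.ML.Pts,
        MvPolynomial.eval (R.ML.pz y) p ≠ 0 → ∀ Q : MvPolynomial (Fin ν) ℂ, Q ≠ 0 →
          ∃ x : R.MK.Pts, R.q x = y ∧ x w0 ≠ 0 ∧
            MvPolynomial.eval (fun j => x (w (a j)) / x w0) Q ≠ 0 := by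
  classical
  obtain ⟨ν, a, ha, hcard, h, hh, hr⟩ := EndRest_870.rest R.MK w0 w hw0 hind
    (Finset.univ.map (Fin.castAddEmb r))
  obtain ⟨p, hp, hpx⟩ := exists_base_poly R hh
  refine ⟨ν, a, ha, by simpa using hcard, p, hp, fun y hy Q hQ => ?_⟩
  obtain ⟨x, hxy, hx⟩ := hpx y hy
  obtain ⟨e, he, he'⟩ := isLocalHomeomorph_pr R.ML.hch (R.q x)
  have hU : R.q ⁻¹' e.source ∈ 𝓝 x :=
    R.continuous_q.continuousAt.preimage_mem_nhds (e.open_source.mem_nhds he)
  obtain ⟨x', hx'U, hx's, hx'0, hx'Q⟩ := hr x hx Q hQ _ hU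
  refine ⟨x', ?_, hx'0, hx'Q⟩
  rw [← hxy]
  apply e.injOn hx'U he
  rw [← he']
  funext i
  change R.ML.pz (R.q x') i = R.ML.pz (R.q x) i
  rw [R.pz_q, R.pz_q]
  exact hx's (Fin.castAdd r i) (by simp)

end Crest.Agent.R276.EndFib_870
end
end

-- ▼ part R276/CInd_870

/-!
# Row 276 (helper870): the two small leaves `CInd`, `CNz` of `SkelDefs_220`
-/

set_option autoImplicit false

open Topology Filter Set MeasureTheory

noncomputable section

namespace Crest.Agent.R276.CInd_870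

open Crest.Agent.R271 Crest.Agent.R271.Defs710 Crest.Agent.R271.Rd692
open Crest.Agent.R276.Mod1_987 Crest.Agent.R276.SkelDefs_220

section hom

variable {q : ℕ}

lemma eval_smul_hom {σ : Type*} {Q : MvPolynomial σ ℂ} {Δ : ℕ} (hQ : Q.IsHomogeneous Δ)
    (c : ℂ) (x : σ → ℂ) :
    MvPolynomial.eval (fun i => c * x i) Q = c ^ Δ * MvPolynomial.eval x Q := by
  rw [MvPolynomial.eval_eq, MvPolynomial.eval_eq, Finset.mul_sum]
  refine Finset.sum_congr rfl fun μ hμ => ?_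
  have h1 : ∑ i ∈ μ.support, μ i = Δ := (hQ.degree_eq_sum_deg_support hμ).symm
  simp only [mul_pow]
  rw [Finset.prod_mul_distrib, Finset.prod_pow_eq_pow_sum, h1]
  ring

/-- dehomogenisation -/
def deh (Q : MvPolynomial (Fin (q + 1)) ℂ) : MvPolynomial (Fin q) ℂ :=
  MvPolynomial.aeval (Fin.cons 1 MvPolynomial.X) Q

lemma eval_deh (Q : MvPolynomial (Fin (q + 1)) ℂ) (x : Fin q → ℂ) :
    MvPolynomial.eval x (deh Q) = MvPolynomial.eval (Fin.cons 1 x) Q := by
  have h1 := MvPolynomial.comp_aeval_apply (Fin.cons 1 MvPolynomial.X : Fin (q + 1) →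
    MvPolynomial (Fin q) ℂ) (MvPolynomial.aeval x : MvPolynomial (Fin q) ℂ →ₐ[ℂ] ℂ) Q
  rw [deh, ← MvPolynomial.aeval_eq_eval, ← MvPolynomial.aeval_eq_eval, h1]
  congr 2
  funext i
  refine Fin.cases ?_ (fun i => ?_) i <;> simp

lemma eval_hom {Q : MvPolynomial (Fin (q + 1)) ℂ} {Δ : ℕ} (hQ : Q.IsHomogeneous Δ) {y : Fin (q + 1) → ℂ}
    (h0 : y 0 ≠ 0) : MvPolynomial.eval y Q =
      y 0 ^ Δ * MvPolynomial.eval (fun j : Fin q => y j.succ / y 0) (deh Q) := by
  rw [eval_deh, ← eval_smul_hom hQ]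
  congr 2
  funext i
  refine Fin.cases ?_ (fun i => ?_) i
  · simp
  · simp only [Fin.cons_succ]
    field_simp

lemma deh_ne_zero {Q : MvPolynomial (Fin (q + 1)) ℂ} {Δ : ℕ} (hQ : Q.IsHomogeneous Δ) (h : Q ≠ 0) :
    deh Q ≠ 0 := by
  intro h0
  apply h
  have h1 : MvPolynomial.X 0 * Q = 0 := by
    refine MvPolynomial.funext fun y => ?_
    rw [map_mul, MvPolynomial.eval_X, map_zero]
    rcases eq_or_ne (y 0) 0 with hy | hy
    · rw [hy, zero_mul]
    · rw [eval_hom hQ hy, h0, map_zero, mul_zero, mul_zero]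
  exact (mul_eq_zero.1 h1).resolve_left (MvPolynomial.X_ne_zero 0)

/-- from the inhomogeneous form to the homogeneous form of independence -/
theorem hom_of_ind {Y : Type*} (t : Y → Fin (q + 1) → ℂ)
    (h : ∀ Q : MvPolynomial (Fin q) ℂ, Q ≠ 0 → ∃ y, t y 0 ≠ 0 ∧
      MvPolynomial.eval (fun j : Fin q => t y j.succ / t y 0) Q ≠ 0)
    (Δ : ℕ) (Q : MvPolynomial (Fin (q + 1)) ℂ) (hQ : Q.IsHomogeneous Δ)
    (h0 : ∀ y, MvPolynomial.eval (t y) Q = 0) : Q = 0 := by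
  by_contra hne
  obtain ⟨y, hy, hy'⟩ := h _ (deh_ne_zero hQ hne)
  have h1 := h0 y
  rw [eval_hom hQ hy] at h1
  exact mul_ne_zero (pow_ne_zero _ hy) hy' h1

end hom

section rel

variable {T L : Type} [Field T] [Field L] [Algebra ℂ T] [Algebra ℂ L] [Algebra T L]
  [IsScalarTower ℂ T L] {ρ a : ℕ} {MT : Mdl T ρ} {ML : Mdl L (ρ + a)}

/-- 220's relative model as 987's -/
abbrev rm (H : Rel MT ML) : RMdl T L ρ a where
  ML := MT
  MK := ML
  z_eq := H.coord
  incl_mem := H.mem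

lemma rm_q (H : Rel MT ML) (y : ML.Pts) : (rm H).q y = H.f y := by
  apply AlgHom.ext
  intro b
  rfl

end rel

section main

variable {T L K : Type} [Field T] [Field L] [Field K] [Algebra ℂ T] [Algebra ℂ L] [Algebra ℂ K]
  [Algebra T L] [Algebra L K] [IsScalarTower ℂ T L] [IsScalarTower ℂ L K] {ρ a r : ℕ}
  {MT : Mdl T ρ} {ML : Mdl L (ρ + a)}

/-- **CNz** -/
theorem cNz (H₁ : Rel MT ML) : CNz H₁ := by
  intro σ hσ
  obtain ⟨p, hp, h⟩ := EndFib_870.exists_base_poly (rm H₁) (h := σ) hσ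
  filter_upwards [Null956.ae_eval_ne hp] with c hc y hy
  obtain ⟨x, hx, hx'⟩ := h y (by
    have : (rm H₁).ML.pz y = c := hy
    rw [this]; exact hc)
  exact ⟨x, (rm_q H₁ x).symm.trans hx, hx'⟩


end main

end Crest.Agent.R276.CInd_870
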