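import Mathlib
import Crest.Agent.R276.Mod4_987

/-!
Row 276 (S0419), MOD (helper987), part 5: localisation and comparison of models with the same
coordinates.

* `Mdl.loc p hp` : the model with `h` replaced by `h p` (same `z`, `θ`, `μ`), `B' = B[1/p]`;
* `Mdl.B_le` : `B ≤ B'` if `h ∣ h'^j`; `B` depends only on `z` and (the radical of) `h`;
* `Mdl.res` : restriction `M' → M`, an open embedding with image `{h' ≠ 0}`.
-/

set_option autoImplicit false

open Polynomial Topology Filter MeasureTheory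
open scoped ENNReal

noncomputable section

namespace Crest.Agent.R276.Mod1_987

open Crest.Agent.R271.Defs710 Crest.Agent.R271.Alg255 Crest.Agent.R271.Rd692
open Crest.Agent.R271.AlgB956 Crest.Agent.R271.Ho51 Crest.Agent.R271
open Crest.Agent.R276.AB2_590

/-- points of a localisation -/
theorem exists_ext_loc {K : Type} [Field K] [Algebra ℂ K] {B : Subalgebra ℂ K} {H : K}
    (hH : H ∈ B) (y : B →ₐ[ℂ] ℂ) (hy : y ⟨H, hH⟩ ≠ 0) :
    ∃ y' : locSub B H hH →ₐ[ℂ] ℂ, ∀ b : B, y' ⟨b, le_locSub b.2⟩ = y b := by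
  -- the value of `b` is `y (H^k b) / y(H)^k`
  have key : ∀ (b : K) (k l : ℕ) (hk : H ^ k * b ∈ B) (hl : H ^ l * b ∈ B),
      y ⟨H ^ k * b, hk⟩ / y ⟨H, hH⟩ ^ k = y ⟨H ^ l * b, hl⟩ / y ⟨H, hH⟩ ^ l := by
    intro b k l hk hl
    rw [div_eq_div_iff (pow_ne_zero _ hy) (pow_ne_zero _ hy), ← map_pow, ← map_pow, ← map_mul,
      ← map_mul]
    congr 1
    apply Subtype.ext
    push_cast
    ring
  choose k hk using fun b : locSub B H hH => b.2
  let f : locSub B H hH → ℂ := fun b => y ⟨H ^ k b * b, hk b⟩ / y ⟨H, hH⟩ ^ k b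
  have hf : ∀ (b : locSub B H hH) (l : ℕ) (hl : H ^ l * (b : K) ∈ B),
      f b = y ⟨H ^ l * b, hl⟩ / y ⟨H, hH⟩ ^ l := fun b l hl => key b _ _ (hk b) hl
  have hB : ∀ b : B, f ⟨b, le_locSub b.2⟩ = y b := by
    intro b
    rw [hf ⟨b, le_locSub b.2⟩ 0 (by simp)]
    simp
  have hone : f 1 = 1 := by
    have := hB 1
    rw [map_one] at this
    exact this
  have hzero : f 0 = 0 := by
    have := hB 0
    rw [map_zero] at this
    exact this
  have hmul : ∀ a b, f (a * b) = f a * f b := by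
    intro a b
    have h1 : H ^ (k a + k b) * ((a * b : locSub B H hH) : K) ∈ B := by
      have : H ^ (k a + k b) * ((a * b : locSub B H hH) : K) = (H ^ k a * a) * (H ^ k b * b) := by
        push_cast; ring
      rw [this]; exact mul_mem (hk a) (hk b)
    rw [hf (a * b) _ h1, hf a _ (hk a), hf b _ (hk b), div_mul_div_comm, ← pow_add, ← map_mul]
    congr 2
    apply Subtype.ext
    push_cast
    ring
  have hadd : ∀ a b, f (a + b) = f a + f b := by
    intro a b
    have ha : H ^ (k a + k b) * (a : K) ∈ B := by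
      have : H ^ (k a + k b) * (a : K) = H ^ k b * (H ^ k a * a) := by ring
      rw [this]; exact mul_mem (pow_mem hH _) (hk a)
    have hb : H ^ (k a + k b) * (b : K) ∈ B := by
      have : H ^ (k a + k b) * (b : K) = H ^ k a * (H ^ k b * b) := by ring
      rw [this]; exact mul_mem (pow_mem hH _) (hk b)
    have h1 : H ^ (k a + k b) * ((a + b : locSub B H hH) : K) ∈ B := by
      have : H ^ (k a + k b) * ((a + b : locSub B H hH) : K) =
          H ^ (k a + k b) * a + H ^ (k a + k b) * b := by push_cast; ring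
      rw [this]; exact add_mem ha hb
    rw [hf (a + b) _ h1, hf a _ ha, hf b _ hb, ← add_div, ← map_add]
    congr 2
    apply Subtype.ext
    push_cast
    ring
  have hcomm : ∀ r : ℂ, f (algebraMap ℂ (locSub B H hH) r) = r := by
    intro r
    have := hB (algebraMap ℂ B r)
    rw [AlgHom.commutes] at this
    exact this
  let F : locSub B H hH →+* ℂ :=
    { toFun := f
      map_one' := hone
      map_mul' := hmul
      map_zero' := hzero
      map_add' := hadd }
  exact ⟨{ F with commutes' := hcomm }, hB⟩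

namespace Mdl

variable {K : Type} [Field K] [Algebra ℂ K] {n : ℕ} (M : Mdl K n)

/-- localisation of a model -/
def loc (p : MvPolynomial (Fin n) ℂ) (hp : p ≠ 0) : Mdl K n where
  B := locSub M.B (M.aK p) (by rw [M.aK_eq]; exact Subtype.property _)
  z := fun i => ⟨M.z i, le_locSub (M.z i).2⟩
  h := M.h * p
  θ := ⟨M.θ, le_locSub M.θ.2⟩
  μ := M.μ
  ft := (Subalgebra.fg_iff_finiteType _).mp (locSub_fg (by
    rw [Ne, map_eq_zero_iff _ M.aK_injective]; exact hp)
    ((Subalgebra.fg_iff_finiteType _).mpr M.ft))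
  frac := by
    intro a
    obtain ⟨b, c, hc, h⟩ := M.frac a
    exact ⟨⟨b, le_locSub b.2⟩, ⟨c, le_locSub c.2⟩,
      fun h0 => hc (by
        have h1 := congrArg Subtype.val h0
        exact Subtype.ext h1), h⟩
  h_ne := mul_ne_zero M.h_ne hp
  h_unit := by
    have hne : M.aK p ≠ 0 := by rw [Ne, map_eq_zero_iff _ M.aK_injective]; exact hp
    have hne' : M.aK M.h ≠ 0 := by rw [Ne, map_eq_zero_iff _ M.aK_injective]; exact M.h_ne
    have hinv : (M.aK M.h)⁻¹ ∈ M.B := by
      obtain ⟨u, hu⟩ := M.h_unit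
      have h1 : (M.aK M.h)⁻¹ = ((u⁻¹ : M.Bˣ) : M.B) := by
        rw [eq_comm]
        apply eq_inv_of_mul_eq_one_left
        rw [M.aK_eq, ← hu, ← MulMemClass.coe_mul]
        simp
      rw [h1]
      exact Subtype.property _
    refine IsUnit.of_mul_eq_one (⟨(M.aK M.h)⁻¹ * (M.aK p)⁻¹, mul_mem (le_locSub hinv)
      (inv_mem_locSub hne)⟩ : locSub M.B (M.aK p) _) ?_
    apply Subtype.ext
    rw [MulMemClass.coe_mul, az_val]
    change M.aK (M.h * p) * _ = 1
    rw [map_mul]
    field_simp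
  monic := M.monic
  root := by
    apply Subtype.ext
    rw [eval₂_az_val]
    have h1 := congrArg Subtype.val M.root
    rw [eval₂_az_val] at h1
    exact h1
  bez := by
    obtain ⟨a, b, hab⟩ := M.bez
    refine ⟨C p * a, C p * b, ?_⟩
    rw [C_mul, ← hab]
    ring
  dvd := by
    intro q hq
    apply M.dvd
    have h1 := congrArg Subtype.val hq
    rw [eval₂_az_val] at h1
    apply Subtype.ext
    rw [eval₂_az_val]
    exact h1
  gen := by
    rintro ⟨b, k, hk⟩
    obtain ⟨l, q, hq⟩ := M.gen ⟨_, hk⟩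
    have h1 := congrArg Subtype.val hq
    rw [eval₂_az_val, MulMemClass.coe_mul, ← M.aK_eq] at h1
    refine ⟨k + l, C (M.h ^ k * p ^ l) * q, ?_⟩
    apply Subtype.ext
    rw [MulMemClass.coe_mul, az_val, eval₂_az_val, Polynomial.eval₂_mul, Polynomial.eval₂_C]
    have h2 : Polynomial.eval₂ M.aK (M.θ : K) q = M.aK (M.h ^ l) * (M.aK p ^ k * b) := h1.symm
    change M.aK ((M.h * p) ^ (k + l)) * b = M.aK (M.h ^ k * p ^ l) * Polynomial.eval₂ M.aK M.θ q
    rw [h2]
    simp only [map_pow, map_mul]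
    ring

@[simp] lemma loc_h (p : MvPolynomial (Fin n) ℂ) (hp : p ≠ 0) : (M.loc p hp).h = M.h * p := rfl

@[simp] lemma loc_zK (p : MvPolynomial (Fin n) ℂ) (hp : p ≠ 0) : (M.loc p hp).zK = M.zK := rfl

lemma aK_mem (p : MvPolynomial (Fin n) ℂ) : M.aK p ∈ M.B := by
  rw [M.aK_eq]; exact Subtype.property _

lemma le_loc (p : MvPolynomial (Fin n) ℂ) (hp : p ≠ 0) : M.B ≤ (M.loc p hp).B :=
  le_locSub (hH := M.aK_mem p)

/-- `B ≤ B'` if the coordinates agree and `h ∣ h'^j` -/
theorem B_le {M M' : Mdl K n} (hz : M.zK = M'.zK) {j : ℕ} (hd : M.h ∣ M'.h ^ j) :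
    M.B ≤ M'.B := by
  intro b hb
  have ha : M.aK = M'.aK := by
    unfold aK
    rw [hz]
  obtain ⟨k, hk⟩ := (M.mem_B_iff b).mp hb
  rw [M'.mem_B_iff]
  obtain ⟨e, he⟩ := hd
  refine ⟨j * k, ?_⟩
  have h1 : M'.aK M'.h ^ (j * k) * b = M'.aK (e ^ k) * (M'.aK M.h ^ k * b) := by
    rw [pow_mul, ← map_pow, he, map_mul, mul_pow, map_pow]
    ring
  rw [h1]
  rw [ha] at hk
  let _ : Algebra (MvPolynomial (Fin n) ℂ) K := M'.aK.toAlgebra
  have h2 : IsIntegral (MvPolynomial (Fin n) ℂ) (M'.aK (e ^ k)) := isIntegral_algebraMap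
  have h3 : IsIntegral (MvPolynomial (Fin n) ℂ) (M'.aK M.h ^ k * b) := hk
  exact h2.mul h3


/-- restriction of points to a smaller algebra -/
def resB {B B' : Subalgebra ℂ K} (h : B ≤ B') (y : B' →ₐ[ℂ] ℂ) : B →ₐ[ℂ] ℂ :=
  y.comp (Subalgebra.inclusion h)

@[simp] lemma resB_apply {B B' : Subalgebra ℂ K} (h : B ≤ B') (y : B' →ₐ[ℂ] ℂ) (b : B) :
    resB h y b = y ⟨b, h b.2⟩ := rfl

lemma continuous_resB {B B' : Subalgebra ℂ K} (h : B ≤ B') : Continuous (resB h) := by
  rw [continuous_iff_ev]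
  intro b
  exact continuous_ev _

section res

variable {M M' : Mdl K n} (hz : M.zK = M'.zK) (h : M.B ≤ M'.B)

include hz in
lemma pz_resB (y : M'.Pts) : M.pz (resB h y) = M'.pz y := by
  funext i
  change y ⟨M.z i, _⟩ = y (M'.z i)
  congr 1
  exact Subtype.ext (congrFun hz i)

include hz in
theorem isLocalHomeomorph_resB : IsLocalHomeomorph (resB h : M'.Pts → M.Pts) := by
  refine IsLocalHomeomorph.of_comp (g := M.pz) (f := (resB h : M'.Pts → M.Pts)) ?_
    (isLocalHomeomorph_pr M.hch) (continuous_resB h)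
  have h1 : M.pz ∘ (resB h : M'.Pts → M.Pts) = M'.pz := funext fun y => pz_resB hz h y
  rw [h1]
  exact isLocalHomeomorph_pr M'.hch

include hz in
lemma θ_mem : (M'.θ : K) ∈ M.B := by
  rw [M.mem_B_iff]
  refine ⟨0, ?_⟩
  rw [pow_zero, one_mul]
  refine ⟨M'.μ, M'.monic, ?_⟩
  have h1 := congrArg Subtype.val M'.root
  rw [eval₂_az_val] at h1
  have ha : M.aK = M'.aK := by
    unfold aK
    rw [hz]
  rw [ha]
  exact h1

include hz in
theorem resB_injective : Function.Injective (resB h : M'.Pts → M.Pts) := by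
  intro y y' hy
  apply M'.pt_ext
  · rw [← pz_resB hz h y, ← pz_resB hz h y', hy]
  · have h1 := congrArg (fun w : M.Pts => w ⟨M'.θ, θ_mem hz⟩) hy
    exact h1

include hz in
theorem isOpenEmbedding_resB : IsOpenEmbedding (resB h : M'.Pts → M.Pts) :=
  (isLocalHomeomorph_resB hz h).isOpenEmbedding_of_injective (resB_injective hz h)

include hz in
/-- the image of `M' → M` is `{h' ≠ 0}` -/
theorem range_resB : Set.range (resB h : M'.Pts → M.Pts) =
    {y | MvPolynomial.eval (M.pz y) M'.h ≠ 0} := by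
  ext y
  constructor
  · rintro ⟨y', rfl⟩
    change MvPolynomial.eval (M.pz (resB h y')) M'.h ≠ 0
    rw [pz_resB hz h y']
    exact M'.eval_h_ne y'
  · intro hy
    have ha : M.aK = M'.aK := by
      unfold aK
      rw [hz]
    have hH : M.aK M'.h ∈ M.B := M.aK_mem _
    have hle : M'.B ≤ locSub M.B (M.aK M'.h) hH := by
      intro b hb
      obtain ⟨k, hk⟩ := (M'.mem_B_iff b).mp hb
      refine ⟨k, ?_⟩
      rw [M.mem_B_iff]
      refine ⟨0, ?_⟩
      rw [pow_zero, one_mul, ha]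
      exact hk
    have hval : y ⟨M.aK M'.h, hH⟩ = MvPolynomial.eval (M.pz y) M'.h := by
      rw [← M.apply_az']
      congr 1
      exact Subtype.ext (M.aK_eq _)
    obtain ⟨y', hy'⟩ := exists_ext_loc hH y (by rw [hval]; exact hy)
    refine ⟨y'.comp (Subalgebra.inclusion hle), ?_⟩
    ext b
    exact hy' b

end res

end Mdl

end Crest.Agent.R276.Mod1_987
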