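import Mathlib
import Crest.Agent.R276.Mod5_987

/-!
Row 276 (S0419), MODPACK (B): comparison of models with different coordinates (helper595),
part A: algebra.

* `IsLoc B B'` : `B' = B[1/c]` inside the field `K`;
* `exists_isLoc` : two models `M`, `M'` of `K` (any coordinates): for all models `M''` with the
  coordinates of `M'` and `h''` sufficiently divisible, `B ≤ B''` and `B'' = B[1/c]`;
* `exists_cmp` : the same for a transcendence basis instead of `M'`.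
-/

set_option autoImplicit false

open Polynomial Topology Filter

noncomputable section

namespace Crest.Agent.R276.Cmp_595

open Crest.Agent.R271.Defs710 Crest.Agent.R271.Alg255
open Crest.Agent.R276.AB2_590 Crest.Agent.R276.Mod1_987

variable {K : Type} [Field K] [Algebra ℂ K] {n : ℕ}

/-- `B' = B[1/c]` -/
def IsLoc (B B' : Subalgebra ℂ K) : Prop := ∃ (c : K) (hc : c ∈ B), c ≠ 0 ∧ B' = locSub B c hc

lemma IsLoc.le {B B' : Subalgebra ℂ K} (h : IsLoc B B') : B ≤ B' := by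
  obtain ⟨c, hc, _, rfl⟩ := h
  exact le_locSub

lemma IsLoc.refl (B : Subalgebra ℂ K) : IsLoc B B := by
  refine ⟨1, one_mem _, one_ne_zero, le_antisymm le_locSub ?_⟩
  rintro b ⟨k, hk⟩
  rwa [one_pow, one_mul] at hk


lemma locSub_le {B B' : Subalgebra ℂ K} {c : K} {hc : c ∈ B} (h : B ≤ B') (h0 : c ≠ 0)
    (hinv : c⁻¹ ∈ B') : locSub B c hc ≤ B' := by
  rintro b ⟨k, hk⟩
  have h1 : b = (c⁻¹) ^ k * (c ^ k * b) := by
    rw [← mul_assoc, ← mul_pow, inv_mul_cancel₀ h0, one_pow, one_mul]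
  rw [h1]
  exact mul_mem (pow_mem hinv k) (h hk)

/-- if `B₁ ≤ B[1/v]`, `B₂ = B₁[1/c]`, `B ≤ B₂` and `1/v ∈ B₂`, then `B₂` is a localisation of `B` -/
lemma isLoc_of {B B₁ B₂ : Subalgebra ℂ K} {v c : K} (hv : v ∈ B) (hv0 : v ≠ 0)
    (h1 : B₁ ≤ locSub B v hv) (hc : c ∈ B₁) (hc0 : c ≠ 0) (h2 : B₂ = locSub B₁ c hc)
    (h3 : B ≤ B₂) (h4 : v⁻¹ ∈ B₂) : IsLoc B B₂ := by
  obtain ⟨a, ha⟩ := h1 hc
  refine ⟨v * (v ^ a * c), mul_mem hv ha, mul_ne_zero hv0 (mul_ne_zero (pow_ne_zero _ hv0) hc0),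
    le_antisymm ?_ ?_⟩
  · intro b hb
    rw [h2] at hb
    obtain ⟨k, hk⟩ := hb
    obtain ⟨l, hl⟩ := h1 hk
    refine ⟨k + l, ?_⟩
    have e : (v * (v ^ a * c)) ^ (k + l) * b =
        v ^ ((a + 1) * k) * (v ^ a * c) ^ l * (v ^ l * (c ^ k * b)) := by ring
    rw [e]
    exact mul_mem (mul_mem (pow_mem hv _) (pow_mem ha _)) hl
  · refine locSub_le h3 (mul_ne_zero hv0 (mul_ne_zero (pow_ne_zero _ hv0) hc0)) ?_
    rw [mul_inv, mul_inv, ← inv_pow]
    have h5 : c⁻¹ ∈ B₂ := by rw [h2]; exact inv_mem_locSub hc0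
    exact mul_mem h4 (mul_mem (pow_mem h4 _) h5)

lemma IsLoc.trans {B B' B'' : Subalgebra ℂ K} (h : IsLoc B B') (h' : IsLoc B' B'') :
    IsLoc B B'' := by
  obtain ⟨c, hc, hc0, rfl⟩ := h
  obtain ⟨c', hc', hc0', rfl⟩ := h'
  exact isLoc_of hc hc0 le_rfl hc' hc0' rfl (le_locSub.trans le_locSub)
    (le_locSub (inv_mem_locSub hc0))


lemma aK_inv_mem (M : Mdl K n) : (M.aK M.h)⁻¹ ∈ M.B := by
  obtain ⟨u, hu⟩ := M.h_unit
  have h1 : (M.aK M.h)⁻¹ = ((u⁻¹ : M.Bˣ) : M.B) := by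
    rw [eq_comm]
    apply eq_inv_of_mul_eq_one_left
    rw [M.aK_eq, ← hu, ← MulMemClass.coe_mul]
    simp
  rw [h1]
  exact Subtype.property _

lemma aK_ne (M : Mdl K n) {p : MvPolynomial (Fin n) ℂ} (hp : p ≠ 0) : M.aK p ≠ 0 := by
  rw [Ne, map_eq_zero_iff _ M.aK_injective]
  exact hp

lemma aK_inv_mem_of_dvd (M : Mdl K n) {p : MvPolynomial (Fin n) ℂ} (hd : p ∣ M.h) :
    (M.aK p)⁻¹ ∈ M.B := by
  obtain ⟨e, he⟩ := hd
  have hp : p ≠ 0 := by
    rintro rfl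
    rw [zero_mul] at he
    exact M.h_ne he
  have he0 : e ≠ 0 := by
    rintro rfl
    rw [mul_zero] at he
    exact M.h_ne he
  have h1 : (M.aK p)⁻¹ = M.aK e * (M.aK M.h)⁻¹ := by
    have h2 := aK_ne M hp
    have h3 := aK_ne M he0
    rw [he, map_mul]
    field_simp
  rw [h1]
  exact mul_mem (M.aK_mem e) (aK_inv_mem M)

/-- two models with the same coordinates -/
theorem eq_locSub {M M' : Mdl K n} (hz : M.zK = M'.zK) (h : M.B ≤ M'.B) :
    M'.B = locSub M.B (M.aK M'.h) (M.aK_mem _) := by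
  have ha : M.aK = M'.aK := by
    unfold Mdl.aK
    rw [hz]
  apply le_antisymm
  · intro b hb
    obtain ⟨k, hk⟩ := (M'.mem_B_iff b).mp hb
    refine ⟨k, ?_⟩
    rw [M.mem_B_iff]
    refine ⟨0, ?_⟩
    rw [pow_zero, one_mul, ha]
    exact hk
  · refine locSub_le h (aK_ne M M'.h_ne) ?_
    rw [ha]
    exact aK_inv_mem M'

theorem isLoc_of_zK_eq {M M' : Mdl K n} (hz : M.zK = M'.zK) (h : M.B ≤ M'.B) :
    IsLoc M.B M'.B := ⟨_, M.aK_mem _, aK_ne M M'.h_ne, eq_locSub hz h⟩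

/-- common denominators -/
lemma exists_den (M : Mdl K n) (S : Finset K) :
    ∃ (v : K) (hv : v ∈ M.B), v ≠ 0 ∧ ∀ s ∈ S, s ∈ locSub M.B v hv := by
  classical
  induction S using Finset.induction with
  | empty => exact ⟨1, one_mem _, one_ne_zero, by simp⟩
  | insert a S _ ih =>
    obtain ⟨v, hv, hv0, h⟩ := ih
    obtain ⟨b, c, hc, hbc⟩ := M.frac a
    have hc0 : (c : K) ≠ 0 := fun h0 => hc (Subtype.ext h0)
    refine ⟨v * c, mul_mem hv c.2, mul_ne_zero hv0 hc0, ?_⟩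
    intro s hs
    rcases Finset.mem_insert.mp hs with rfl | hs
    · refine ⟨1, ?_⟩
      have : (v * (c : K)) ^ 1 * s = v * b := by
        rw [hbc]; field_simp
      rw [this]
      exact mul_mem hv b.2
    · obtain ⟨k, hk⟩ := h s hs
      refine ⟨k, ?_⟩
      have : (v * (c : K)) ^ k * s = (c : K) ^ k * (v ^ k * s) := by ring
      rw [this]
      exact mul_mem (pow_mem c.2 k) hk

/-- a finitely generated algebra is contained in a localisation -/
lemma exists_le_loc (M : Mdl K n) {B : Subalgebra ℂ K} (hB : B.FG) :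
    ∃ (v : K) (hv : v ∈ M.B), v ≠ 0 ∧ B ≤ locSub M.B v hv := by
  obtain ⟨S, hS⟩ := hB
  obtain ⟨v, hv, hv0, h⟩ := exists_den M S
  refine ⟨v, hv, hv0, ?_⟩
  rw [← hS, Algebra.adjoin_le_iff]
  exact h

/-- a nonzero element divides a polynomial in the coordinates -/
lemma exists_aK_dvd (M : Mdl K n) {v : K} (hv : v ∈ M.B) (hv0 : v ≠ 0) :
    ∃ (p : MvPolynomial (Fin n) ℂ), p ≠ 0 ∧ ∃ c ∈ M.B, M.aK p = v * c := by
  have h0 : (⟨v, hv⟩ : M.B) ≠ 0 := fun h => hv0 (congrArg Subtype.val h)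
  obtain ⟨p, hp, c, hc⟩ := exists_poly_dvd M.het h0
  refine ⟨p, hp, c, c.2, ?_⟩
  rw [M.aK_eq]
  exact congrArg Subtype.val hc

/-- an element of `K` and its inverse lie in every model with sufficiently divisible `h` -/
lemma exists_mem (M' : Mdl K n) (a : K) :
    ∃ g : MvPolynomial (Fin n) ℂ, g ≠ 0 ∧ ∀ M'' : Mdl K n, M''.zK = M'.zK → g ∣ M''.h →
      a ∈ M''.B ∧ a⁻¹ ∈ M''.B := by
  have key : ∀ a : K, ∃ g : MvPolynomial (Fin n) ℂ, g ≠ 0 ∧ ∀ M'' : Mdl K n,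
      M''.zK = M'.zK → g ∣ M''.h → a ∈ M''.B := by
    intro a
    obtain ⟨b, c, hc, hbc⟩ := M'.frac a
    have hc0 : (c : K) ≠ 0 := fun h0 => hc (Subtype.ext h0)
    obtain ⟨p, hp, d, hd, hpd⟩ := exists_aK_dvd M' c.2 hc0
    refine ⟨p * M'.h, mul_ne_zero hp M'.h_ne, fun M'' hz hg => ?_⟩
    have hle : M'.B ≤ M''.B := Mdl.B_le (j := 1) hz.symm (by
      rw [pow_one]
      exact (dvd_mul_left _ _).trans hg)
    have h1 : (M''.aK p)⁻¹ ∈ M''.B := aK_inv_mem_of_dvd M'' ((dvd_mul_right _ _).trans hg)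
    have ha : M''.aK = M'.aK := by
      unfold Mdl.aK
      rw [hz]
    have h2 : a = b * d * (M''.aK p)⁻¹ := by
      rw [ha, hpd, hbc]
      have hd0 : d ≠ 0 := by
        rintro rfl
        rw [mul_zero] at hpd
        exact aK_ne M' hp hpd
      field_simp
    rw [h2]
    exact mul_mem (mul_mem (hle b.2) (hle hd)) h1
  obtain ⟨g, hg, h⟩ := key a
  obtain ⟨g', hg', h'⟩ := key a⁻¹
  exact ⟨g * g', mul_ne_zero hg hg', fun M'' hz hd => ⟨h M'' hz ((dvd_mul_right _ _).trans hd),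
    h' M'' hz ((dvd_mul_left _ _).trans hd)⟩⟩

/-- finitely many elements and their inverses -/
lemma exists_mem_finset (M' : Mdl K n) (S : Finset K) :
    ∃ g : MvPolynomial (Fin n) ℂ, g ≠ 0 ∧ ∀ M'' : Mdl K n, M''.zK = M'.zK → g ∣ M''.h →
      ∀ a ∈ S, a ∈ M''.B ∧ a⁻¹ ∈ M''.B := by
  classical
  choose g hg h using exists_mem M'
  refine ⟨∏ a ∈ S, g a, Finset.prod_ne_zero_iff.mpr fun a _ => hg a, fun M'' hz hd a ha => ?_⟩
  exact h a M'' hz ((Finset.dvd_prod_of_mem g ha).trans hd)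

/-- **change of coordinates, algebra**: for all models `M''` with the coordinates of `M'` and `h''`
sufficiently divisible, `M''.B` is a localisation of `M.B` -/
theorem exists_isLoc (M M' : Mdl K n) :
    ∃ g : MvPolynomial (Fin n) ℂ, g ≠ 0 ∧ ∀ M'' : Mdl K n, M''.zK = M'.zK → g ∣ M''.h →
      IsLoc M.B M''.B := by
  classical
  obtain ⟨G, hG⟩ := (Subalgebra.fg_iff_finiteType M.B).mpr M.ft
  obtain ⟨v, hv, hv0, hle⟩ := exists_le_loc M ((Subalgebra.fg_iff_finiteType M'.B).mpr M'.ft)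
  obtain ⟨g, hg, h⟩ := exists_mem_finset M' (insert v G)
  refine ⟨g * M'.h, mul_ne_zero hg M'.h_ne, fun M'' hz hd => ?_⟩
  have h1 := h M'' hz ((dvd_mul_right _ _).trans hd)
  have h2 : M'.B ≤ M''.B := Mdl.B_le (j := 1) hz.symm (by
      rw [pow_one]
      exact (dvd_mul_left _ _).trans hd)
  refine isLoc_of hv hv0 hle (M'.aK_mem M''.h) (aK_ne M' M''.h_ne) (eq_locSub hz.symm h2) ?_
    (h1 v (Finset.mem_insert_self _ _)).2
  rw [← hG, Algebra.adjoin_le_iff]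
  intro a ha
  exact (h1 a (Finset.mem_insert_of_mem ha)).1

lemma essFiniteType (M : Mdl K n) : Algebra.EssFiniteType ℂ K := by
  have h1 : Algebra.EssFiniteType M.B K :=
    Algebra.EssFiniteType.of_isLocalization K (nonZeroDivisors M.B)
  exact Algebra.EssFiniteType.comp ℂ M.B K

lemma isTranscendenceBasis (M : Mdl K n) : IsTranscendenceBasis ℂ M.zK := by
  have hinj : Function.Injective (MvPolynomial.aeval M.zK : MvPolynomial (Fin n) ℂ →ₐ[ℂ] K) :=
    M.aK_injective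
  have hai : AlgebraicIndependent ℂ M.zK := hinj
  rw [hai.isTranscendenceBasis_iff_isAlgebraic]
  constructor
  intro a
  obtain ⟨k, hk⟩ : ∃ r : MvPolynomial (Fin n) ℂ, r ≠ 0 ∧ M.aK.IsIntegralElem (M.aK r * a) := by
    obtain ⟨r, hr, q, hq⟩ := M.gen_frac a
    refine ⟨r, hr, ?_⟩
    let _ : Algebra (MvPolynomial (Fin n) ℂ) K := M.aK.toAlgebra
    have hθ : IsIntegral (MvPolynomial (Fin n) ℂ) (M.θ : K) := by
      refine ⟨M.μ, M.monic, ?_⟩
      have h1 := congrArg Subtype.val M.root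
      rw [eval₂_az_val] at h1
      exact h1
    have h3 : IsIntegral (MvPolynomial (Fin n) ℂ) (Polynomial.aeval (M.θ : K) q) := by
      apply adjoin_le_integralClosure hθ
      rw [Algebra.adjoin_singleton_eq_range_aeval]
      exact ⟨q, rfl⟩
    rw [hq]
    exact h3
  let A : Subalgebra ℂ K := Algebra.adjoin ℂ (Set.range M.zK)
  have hmem : ∀ p : MvPolynomial (Fin n) ℂ, M.aK p ∈ A := fun p => by
    change MvPolynomial.aeval M.zK p ∈ Algebra.adjoin ℂ (Set.range M.zK)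
    rw [Algebra.adjoin_range_eq_range_aeval]
    exact ⟨p, rfl⟩
  obtain ⟨hk0, f, hf, hf0⟩ := hk
  have h1 : IsIntegral A (M.aK k * a) := by
    refine ⟨f.map ((M.aK).codRestrict A hmem), hf.map _, ?_⟩
    rw [eval₂_map]
    exact hf0
  have h2 : IsAlgebraic A (M.aK k * a) := h1.isAlgebraic
  have h3 : (algebraMap A K ⟨M.aK k, hmem k⟩) ≠ 0 := aK_ne M hk0
  have h4 : IsAlgebraic A ((algebraMap A K ⟨M.aK k, hmem k⟩)⁻¹ * (M.aK k * a)) :=
    IsAlgebraic.mul (IsAlgebraic.inv (isAlgebraic_algebraMap _)) h2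
  have h5 : (algebraMap A K ⟨M.aK k, hmem k⟩)⁻¹ * (M.aK k * a) = a := by
    change (M.aK k)⁻¹ * (M.aK k * a) = a
    rw [← mul_assoc, inv_mul_cancel₀ (aK_ne M hk0), one_mul]
  rwa [h5] at h4

/-- **(B2)** -/
theorem exists_cmp (M : Mdl K n) {x' : Fin n → K} (hx : IsTranscendenceBasis ℂ x') :
    ∃ g : MvPolynomial (Fin n) ℂ, g ≠ 0 ∧ ∀ M'' : Mdl K n, M''.zK = x' → g ∣ M''.h →
      IsLoc M.B M''.B := by
  have := essFiniteType M
  obtain ⟨g, hg, h⟩ := exists_mdl x' hx ∅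
  obtain ⟨M', _, h2, _⟩ := h g hg dvd_rfl
  obtain ⟨g', hg', h'⟩ := exists_isLoc M M'
  exact ⟨g', hg', fun M'' hz hd => h' M'' (hz.trans (funext h2).symm) hd⟩

end Crest.Agent.R276.Cmp_595
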