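import Mathlib
import Crest.Agent.R276.CmpA_595
import Crest.Agent.R276.PfDer_676
import Crest.Agent.R276.VPull2_327

/-!
Row 276 (S0419), MODPACK (B3): comparison of models with different coordinates (helper595),
part B: points.

`h : IsLoc M.B M'.B` (`M'.B = M.B[1/c]`), `rs h : M'.Pts → M.Pts` the restriction map.
* `rs` is an open embedding with image `{c ≠ 0}`, `HMap (rs h)`;
* Jacobian matrix with entries in `M'.B`, its determinant is a unit;
* `inv h : M.Pts → M'.Pts` the inverse on the image, holomorphic there;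
* `smAt_iff`, `holAt_iff`, `Levi_rs`, `Levi_inv`.
-/

set_option autoImplicit false

open Polynomial Topology Filter Set

noncomputable section

namespace Crest.Agent.R276.Cmp_595

open Crest.Agent.R271.Defs710 Crest.Agent.R271.Alg255 Crest.Agent.R271.Rd692
open Crest.Agent.R271.Ho51 Crest.Agent.R276.Ipc735
open Crest.Agent.R276.AB2_590 Crest.Agent.R276.Mod1_987 Crest.Agent.R276.PfDer_676
open Crest.Agent.R276.VPull_327

section alg

variable {K : Type} [Field K] [Algebra ℂ K] {B B' : Subalgebra ℂ K}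

/-- the restriction of points for a localisation -/
def rs (h : IsLoc B B') : (B' →ₐ[ℂ] ℂ) → (B →ₐ[ℂ] ℂ) := Mdl.resB h.le

@[simp] lemma rs_apply (h : IsLoc B B') (y : B' →ₐ[ℂ] ℂ) (b : B) :
    rs h y b = y ⟨b, h.le b.2⟩ := rfl


lemma continuous_rs (h : IsLoc B B') : Continuous (rs h) := Mdl.continuous_resB h.le

/-- value of an element of `B' = B[1/c]` -/
lemma val_eq {c : K} {hc : c ∈ B} (h0 : c ≠ 0) (y : locSub B c hc →ₐ[ℂ] ℂ)
    (b : locSub B c hc) (k : ℕ) (hk : c ^ k * (b : K) ∈ B) :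
    y ⟨c, le_locSub hc⟩ ≠ 0 ∧ y b = y ⟨c ^ k * b, le_locSub hk⟩ / y ⟨c, le_locSub hc⟩ ^ k := by
  have h1 : y ⟨c, le_locSub hc⟩ ≠ 0 := by
    have h2 : (⟨c, le_locSub hc⟩ : locSub B c hc) * ⟨c⁻¹, inv_mem_locSub h0⟩ = 1 := by
      apply Subtype.ext
      exact mul_inv_cancel₀ h0
    have h3 := congrArg y h2
    rw [map_mul, map_one] at h3
    exact left_ne_zero_of_mul (h3.symm ▸ one_ne_zero)
  refine ⟨h1, ?_⟩
  rw [eq_div_iff (pow_ne_zero _ h1), ← map_pow, ← map_mul]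
  congr 1
  apply Subtype.ext
  push_cast
  ring

theorem rs_injective (h : IsLoc B B') : Function.Injective (rs h) := by
  obtain ⟨c, hc, h0, rfl⟩ := id h
  intro y y' hy
  ext b
  obtain ⟨k, hk⟩ := b.2
  rw [(val_eq h0 y b k hk).2, (val_eq h0 y' b k hk).2]
  have h1 : ∀ a : B, y ⟨a, le_locSub a.2⟩ = y' ⟨a, le_locSub a.2⟩ := fun a =>
    congrArg (fun w : B →ₐ[ℂ] ℂ => w a) hy
  rw [h1 ⟨_, hk⟩, h1 ⟨c, hc⟩]

/-- the image of the restriction map -/
theorem range_rs (h : IsLoc B B') : ∃ c : B, c ≠ 0 ∧ IsUnit (⟨c, h.le c.2⟩ : B') ∧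
    (∀ b : B', ∃ (k : ℕ) (a : B), (c : K) ^ k * b = a) ∧
    range (rs h) = {y | y c ≠ 0} := by
  obtain ⟨c, hc, h0, rfl⟩ := id h
  refine ⟨⟨c, hc⟩, fun h1 => h0 (congrArg Subtype.val h1), ?_, ?_, ?_⟩
  · refine IsUnit.of_mul_eq_one (⟨c⁻¹, inv_mem_locSub h0⟩ : locSub B c hc) ?_
    apply Subtype.ext
    exact mul_inv_cancel₀ h0
  · intro b
    obtain ⟨k, hk⟩ := b.2
    exact ⟨k, ⟨_, hk⟩, rfl⟩
  · ext y
    constructor
    · rintro ⟨y', rfl⟩
      exact (val_eq h0 y' 0 0 (by simp)).1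
    · intro hy
      obtain ⟨y', hy'⟩ := exists_ext_loc hc y hy
      exact ⟨y', by ext b; exact hy' b⟩

theorem isInducing_rs (h : IsLoc B B') : IsInducing (rs h) := by
  obtain ⟨c, hc, h0, rfl⟩ := id h
  rw [isInducing_iff_nhds]
  intro y
  refine le_antisymm ((continuous_rs h).tendsto y).le_comap ?_
  set F : Filter (locSub B c hc →ₐ[ℂ] ℂ) := comap (rs h) (𝓝 (rs h y)) with hF
  have h1 : ∀ a : B, Tendsto (fun y' : locSub B c hc →ₐ[ℂ] ℂ => y' ⟨a, le_locSub a.2⟩) F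
      (𝓝 (y ⟨a, le_locSub a.2⟩)) := fun a =>
    ((continuous_ev a).tendsto (rs h y)).comp tendsto_comap
  have h2 : ∀ b : locSub B c hc, Tendsto (fun y' : locSub B c hc →ₐ[ℂ] ℂ => y' b) F (𝓝 (y b)) := by
    intro b
    obtain ⟨k, hk⟩ := b.2
    have h3 : (fun y : locSub B c hc →ₐ[ℂ] ℂ => y b) = fun y =>
        y ⟨c ^ k * b, le_locSub hk⟩ / y ⟨c, le_locSub hc⟩ ^ k := by
      funext y
      exact (val_eq h0 y b k hk).2
    rw [h3, (val_eq h0 y b k hk).2]
    exact (h1 ⟨_, hk⟩).div ((h1 ⟨c, hc⟩).pow k) (pow_ne_zero _ (val_eq h0 y 0 0 (by simp)).1)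
  rw [(evs_inducing (B := locSub B c hc)).nhds_eq_comap, ← tendsto_iff_comap]
  exact tendsto_pi_nhds.mpr h2

theorem isOpen_range_rs (h : IsLoc B B') : IsOpen (range (rs h)) := by
  obtain ⟨c, _, _, _, hr⟩ := range_rs h
  rw [hr]
  exact isOpen_ne_fun (continuous_ev c) continuous_const

theorem isOpenEmbedding_rs (h : IsLoc B B') : IsOpenEmbedding (rs h) :=
  ⟨⟨isInducing_rs h, rs_injective h⟩, isOpen_range_rs h⟩

end alg

variable {K : Type} [Field K] [Algebra ℂ K] {n : ℕ} {M M' : Mdl K n} (h : IsLoc M.B M'.B)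

lemma holAt_ev (b : M.B) (y : M.Pts) : HolAt (fun y : M.Pts => y b) y :=
  (hol51_iff.mp (M.hol51_ev b)) y

/-- the restriction map is holomorphic -/
theorem hMap_rs : HMap (rs h : M'.Pts → M.Pts) := by
  intro y
  refine ⟨(continuous_rs h).continuousAt, ?_⟩
  unfold HolAt
  rw [analyticAt_pi_iff]
  intro i
  exact holAt_ev (M := M') ⟨M.z i, h.le (M.z i).2⟩ y

/-- the Jacobian matrix `∂z_i/∂z'_j` -/
def Jm : Matrix (Fin n) (Fin n) M'.B := Matrix.of fun j i => dB M' j ⟨M.z i, h.le (M.z i).2⟩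

lemma jac_rs (y : M'.Pts) (w : Fin n → ℂ) (i : Fin n) :
    jac (rs h : M'.Pts → M.Pts) y w i = ∑ j, w j * y (Jm h j i) := by
  have h1 : HasFDerivAt ((fun y' : M'.Pts => cp (rs h y' : M.Pts)) ∘ (ch y).symm)
      (ContinuousLinearMap.pi fun i => ∑ j, y (dB M' j ⟨M.z i, h.le (M.z i).2⟩) •
        (ContinuousLinearMap.proj j : (Fin n → ℂ) →L[ℂ] ℂ)) (cp y) := by
    rw [hasFDerivAt_pi]
    intro i
    exact hasFDerivAt_ev M' ⟨M.z i, h.le (M.z i).2⟩ y
  unfold jac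
  rw [h1.fderiv]
  simp [Jm, mul_comm]

theorem J_rs (y : M'.Pts) (j i : Fin n) :
    J (rs h : M'.Pts → M.Pts) y j i = y (Jm h j i) := by
  unfold J
  rw [jac_rs]
  simp [Pi.single_apply]

include h in
/-- derivations of `M` extend to localisations -/
lemma dK_mem' (j : Fin n) {x : K} (hx : x ∈ M'.B) : dK M j x ∈ M'.B := by
  obtain ⟨c, hc, h0, hB⟩ := id h
  rw [hB] at hx ⊢
  obtain ⟨k, hk⟩ := hx
  have h1 : dK M j (c ^ k * x) ∈ M.B := dK_mem M j hk
  have h2 : dK M j (c ^ k) ∈ M.B := dK_mem M j (pow_mem hc k)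
  rw [Derivation.leibniz, smul_eq_mul, smul_eq_mul] at h1
  refine ⟨k + k, ?_⟩
  have h3 : c ^ (k + k) * dK M j x =
      c ^ k * (c ^ k * dK M j x + x * dK M j (c ^ k)) - (c ^ k * x) * dK M j (c ^ k) := by ring
  rw [h3]
  exact sub_mem (mul_mem (pow_mem hc k) h1) (mul_mem hk h2)

/-- the inverse Jacobian matrix `∂z'_j/∂z_i` -/
def Ji : Matrix (Fin n) (Fin n) M'.B := Matrix.of fun i j => ⟨dK M i (M'.zK j),
  dK_mem' h i (M'.z j).2⟩

theorem Jm_mul_Ji : Jm h * Ji h = 1 := by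
  ext j k
  rw [Matrix.mul_apply]
  have h1 := congrArg (fun D : Derivation ℂ K K => D (M'.zK k)) (eq_Df M (dK M' j))
  simp only [Df_apply] at h1
  rw [dK_z] at h1
  have h2 : ∀ i, ((Jm h j i * Ji h i k : M'.B) : K) = dK M' j (M.zK i) * dK M i (M'.zK k) := by
    intro i
    have h3 := dK_coe M' j ⟨M.z i, h.le (M.z i).2⟩
    rw [MulMemClass.coe_mul]
    congr 1
    exact h3.symm
  have h4 : ((∑ i, Jm h j i * Ji h i k : M'.B) : K) =
      ∑ i, ((Jm h j i * Ji h i k : M'.B) : K) := by push_cast; rfl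
  rw [h4]
  simp only [h2]
  rw [← h1, Matrix.one_apply]
  by_cases hjk : j = k
  · simp [hjk]
  · have : ¬ k = j := fun h' => hjk h'.symm
    simp [hjk, this]


theorem isUnit_det_Jm : IsUnit (Jm h).det :=
  (Matrix.isUnit_iff_isUnit_det _).mp (IsUnit.of_mul_eq_one _ (Jm_mul_Ji h))

theorem det_Jm_ne (y : M'.Pts) : y (Jm h).det ≠ 0 :=
  ((isUnit_det_Jm h).map (y : M'.B →+* ℂ)).ne_zero



/-! ### the inverse map -/

/-- the inverse of the restriction map (junk outside the image) -/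
def inv : M.Pts → M'.Pts := Function.invFun (rs h)

@[simp] lemma inv_rs (y : M'.Pts) : inv h (rs h y) = y :=
  Function.leftInverse_invFun (rs_injective h) y

lemma rs_inv {y : M.Pts} (hy : y ∈ range (rs h)) : rs h (inv h y) = y := by
  obtain ⟨y', rfl⟩ := hy
  rw [inv_rs]

lemma range_mem_nhds {y : M.Pts} (hy : y ∈ range (rs h)) : ∀ᶠ y' in 𝓝 y, y' ∈ range (rs h) :=
  (isOpen_range_rs h).mem_nhds hy

lemma continuousAt_inv {y : M.Pts} (hy : y ∈ range (rs h)) : ContinuousAt (inv h) y := by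
  obtain ⟨y', rfl⟩ := hy
  rw [(isOpenEmbedding_rs h).continuousAt_iff.symm.trans Iff.rfl]
  have h1 : inv h ∘ rs h = id := funext fun y => inv_rs h y
  rw [h1]
  exact continuousAt_id

/-- elements of `M'.B` as functions on the image -/
theorem holAt_ev_inv (b : M'.B) {y : M.Pts} (hy : y ∈ range (rs h)) :
    HolAt (fun y => inv h y b) y := by
  obtain ⟨c, _, hcu, hdiv, hr⟩ := range_rs h
  obtain ⟨k, a, hka⟩ := hdiv b
  have h1 : ∀ y ∈ range (rs h), inv h y b = y a / y c ^ k := by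
    rintro _ ⟨y, rfl⟩
    rw [inv_rs]
    have h2 : y ⟨c, h.le c.2⟩ ≠ 0 := (hcu.map (y : M'.B →+* ℂ)).ne_zero
    rw [rs_apply, rs_apply, eq_div_iff (pow_ne_zero _ h2), ← map_pow, ← map_mul]
    congr 1
    apply Subtype.ext
    push_cast
    rw [mul_comm]
    exact hka
  have h3 : HolAt (fun y : M.Pts => y a / y c ^ k) y := by
    unfold HolAt
    refine AnalyticAt.fun_div (holAt_ev a y) ((holAt_ev c y).pow k) ?_
    rw [hr] at hy
    simp only [symm_cp]
    exact pow_ne_zero _ hy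
  unfold HolAt at h3 ⊢
  refine h3.congr ?_
  filter_upwards [(tendsto_symm y).eventually (range_mem_nhds h hy)] with z hz
  exact (h1 _ hz).symm

theorem hMAt_inv {y : M.Pts} (hy : y ∈ range (rs h)) : HMAt (inv h : M.Pts → M'.Pts) y := by
  refine ⟨continuousAt_inv h hy, ?_⟩
  unfold HolAt
  rw [analyticAt_pi_iff]
  intro i
  exact holAt_ev_inv h (M'.z i) hy

/-! ### the chain rule for `jac` -/

section jac

variable {p q r : ℕ} {X Y Z : Type*} [TopologicalSpace X] [RDom p X] [TopologicalSpace Y]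
  [RDom q Y] [TopologicalSpace Z] [RDom r Z]

theorem jac_comp {φ : Y → Z} {χ : X → Y} {x : X} (h : HMAt φ (χ x)) (h' : HMAt χ x) :
    jac (fun x => φ (χ x)) x = (jac φ (χ x)).comp (jac χ x) := by
  have h1 : AnalyticAt ℂ ((fun y => cp (φ y)) ∘ (ch (χ x)).symm) (cp (χ x)) := h.hol
  have h2 : AnalyticAt ℂ ((fun x' => cp (χ x')) ∘ (ch x).symm) (cp x) := h'.hol
  have h3 := h'.germ (fun y => cp (φ y))
  have h4 : jac (fun x => φ (χ x)) x = fderiv ℂ (((fun y => cp (φ y)) ∘ (ch (χ x)).symm) ∘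
      ((fun x' => cp (χ x')) ∘ (ch x).symm)) (cp x) := h3.fderiv_eq
  rw [h4]
  have h5 : ((fun x' => cp (χ x')) ∘ (ch x).symm) (cp x) = cp (χ x) := h'.val
  rw [fderiv_comp (cp x) (by rw [h5]; exact h1.differentiableAt) h2.differentiableAt, h5]
  rfl

theorem jac_congr {φ ψ : X → Y} {x : X} (h : φ =ᶠ[𝓝 x] ψ) : jac φ x = jac ψ x := by
  unfold jac
  apply Filter.EventuallyEq.fderiv_eq
  filter_upwards [(tendsto_symm x).eventually h] with z hz
  show cp (φ ((ch x).symm z)) = cp (ψ ((ch x).symm z))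
  rw [hz]

theorem jac_id (x : X) : jac (fun x : X => x) x = ContinuousLinearMap.id ℂ _ := by
  rw [jac_of_cp (g := id) (Eventually.of_forall fun _ => rfl)]
  exact fderiv_id

end jac

theorem jac_inv_comp (y : M'.Pts) :
    (jac (inv h : M.Pts → M'.Pts) (rs h y)).comp (jac (rs h : M'.Pts → M.Pts) y) =
      ContinuousLinearMap.id ℂ _ := by
  rw [← jac_comp (hMAt_inv h ⟨y, rfl⟩) (hMap_rs h y), ← jac_id y]
  congr 1
  funext y
  exact inv_rs h y

theorem jac_rs_comp (y : M'.Pts) :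
    (jac (rs h : M'.Pts → M.Pts) y).comp (jac (inv h : M.Pts → M'.Pts) (rs h y)) =
      ContinuousLinearMap.id ℂ _ := by
  have h0 : HMAt (rs h : M'.Pts → M.Pts) (inv h (rs h y)) := by
    rw [inv_rs]; exact hMap_rs h y
  have h1 := jac_comp h0 (hMAt_inv h ⟨y, rfl⟩)
  rw [inv_rs] at h1
  rw [← h1, ← jac_id (rs h y : M.Pts)]
  apply jac_congr
  filter_upwards [range_mem_nhds h ⟨y, rfl⟩] with y' hy'
  exact rs_inv h hy'

lemma jac_inv_apply (y : M'.Pts) (w : Fin n → ℂ) :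
    jac (inv h : M.Pts → M'.Pts) (rs h y) (jac (rs h : M'.Pts → M.Pts) y w) = w :=
  congrArg (fun f : (Fin n → ℂ) →L[ℂ] (Fin n → ℂ) => f w) (jac_inv_comp h y)

lemma jac_rs_apply (y : M'.Pts) (w : Fin n → ℂ) :
    jac (rs h : M'.Pts → M.Pts) y (jac (inv h : M.Pts → M'.Pts) (rs h y) w) = w :=
  congrArg (fun f : (Fin n → ℂ) →L[ℂ] (Fin n → ℂ) => f w) (jac_rs_comp h y)

/-- the Jacobian as a linear equivalence -/
def jacEquiv (y : M'.Pts) : (Fin n → ℂ) ≃L[ℂ] (Fin n → ℂ) :=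
  ContinuousLinearEquiv.equivOfInverse (jac (rs h : M'.Pts → M.Pts) y)
    (jac (inv h : M.Pts → M'.Pts) (rs h y)) (jac_inv_apply h y) (jac_rs_apply h y)

@[simp] lemma jacEquiv_apply (y : M'.Pts) (w : Fin n → ℂ) :
    jacEquiv h y w = jac (rs h : M'.Pts → M.Pts) y w := rfl

/-! ### transport of functions -/







end Crest.Agent.R276.Cmp_595
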