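import Mathlib
import Crest.Agent.R276.FKDefs_779

/-!
# Row 276, FK1: bases of differentials from transcendence bases, change of basis (helper779)
-/

set_option autoImplicit false
set_option linter.style.haveILetI false

open Crest.Agent.R276.FKDefs_779

noncomputable section

namespace Crest.Agent.R276.FK1_779

section change
variable {k K : Type*} [Field k] [Field K] [Algebra k K] {n : ℕ}

theorem jac_change (b b' : Module.Basis (Fin n) K (Ω[K⁄k])) (y : Fin n → K) :
    jac k b y = b.det b' * jac k b' y := by
  unfold jac
  have h := AlternatingMap.eq_smul_basis_det b' b.det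
  have h2 := congrArg (fun F => F (fun i => KaehlerDifferential.D k K (y i))) h
  simpa using h2

theorem det_ne_zero (b b' : Module.Basis (Fin n) K (Ω[K⁄k])) : b.det b' ≠ 0 :=
  b.isUnit_det b' |>.ne_zero




theorem PluriS.pluri {b : Module.Basis (Fin n) K (Ω[K⁄k])} {m : ℕ} {g : K}
    (h : PluriS k b m g) : Pluri k b m g := fun R hR => h R hR.alg

end change

section basis

/-- the differentials of a transcendence basis form a basis of `Ω[K⁄k]` in characteristic `0` -/
theorem exists_basis_of_formallyEtale {k S : Type*} [CommRing k] [CommRing S] [Algebra k S]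
    {ι : Type*} (w : ι → S)
    (h : RingHom.FormallyEtale ((MvPolynomial.aeval w : MvPolynomial ι k →ₐ[k] S) :
      MvPolynomial ι k →+* S)) :
    ∃ b : Module.Basis ι S (Ω[S⁄k]), ∀ i, b i = KaehlerDifferential.D k S (w i) := by
  letI : Algebra (MvPolynomial ι k) S :=
    ((MvPolynomial.aeval w : MvPolynomial ι k →ₐ[k] S) :
      MvPolynomial ι k →+* S).toAlgebra
  have : IsScalarTower k (MvPolynomial ι k) S :=
    IsScalarTower.of_algebraMap_eq fun r => by
      rw [RingHom.algebraMap_toAlgebra]
      simp
  have h2 : Algebra.FormallyEtale (MvPolynomial ι k) S := h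
  let b0 := (KaehlerDifferential.mvPolynomialBasis k ι).baseChange S
  refine ⟨b0.map (KaehlerDifferential.tensorKaehlerEquivOfFormallyEtale k
    (MvPolynomial ι k) S), fun i => ?_⟩
  rw [Module.Basis.map_apply, Module.Basis.baseChange_apply,
    KaehlerDifferential.mvPolynomialBasis_apply,
    KaehlerDifferential.tensorKaehlerEquivOfFormallyEtale_apply,
    KaehlerDifferential.mapBaseChange_tmul]
  simp [RingHom.algebraMap_toAlgebra]

theorem formallyEtale_of_transc {k K : Type*} [Field k] [Field K] [Algebra k K] [CharZero k]
    {ι : Type*} (x : ι → K) (hx : IsTranscendenceBasis k x) :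
    RingHom.FormallyEtale ((MvPolynomial.aeval x : MvPolynomial ι k →ₐ[k] K) :
      MvPolynomial ι k →+* K) := by
  letI : Algebra (MvPolynomial ι k) K :=
    ((MvPolynomial.aeval x : MvPolynomial ι k →ₐ[k] K) :
      MvPolynomial ι k →+* K).toAlgebra
  have hinj : Function.Injective (algebraMap (MvPolynomial ι k) K) := hx.1
  haveI : FaithfulSMul (MvPolynomial ι k) K :=
    (faithfulSMul_iff_algebraMap_injective _ _).mpr hinj
  letI : Algebra (FractionRing (MvPolynomial ι k)) K := FractionRing.liftAlgebra _ K
  haveI : IsScalarTower (MvPolynomial ι k) (FractionRing (MvPolynomial ι k)) K :=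
    FractionRing.isScalarTower_liftAlgebra _ K
  haveI : IsScalarTower k (MvPolynomial ι k) K :=
    IsScalarTower.of_algebraMap_eq fun r => by
      rw [RingHom.algebraMap_toAlgebra]
      simp
  haveI : CharZero (FractionRing (MvPolynomial ι k)) :=
    charZero_of_injective_algebraMap
      (IsFractionRing.injective (MvPolynomial ι k) (FractionRing (MvPolynomial ι k)))
  have halgP : Algebra.IsAlgebraic (MvPolynomial ι k) K := by
    have h1 : Algebra.IsAlgebraic (Algebra.adjoin k (Set.range x)) K := hx.isAlgebraic
    refine ⟨fun a => ?_⟩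
    obtain ⟨p, hp0, hp⟩ := h1.isAlgebraic a
    -- transport along `MvPolynomial ≃ adjoin`
    let e := hx.1.aevalEquiv
    refine ⟨p.map (e.symm : _ →+* MvPolynomial ι k), ?_, ?_⟩
    · rw [Ne, Polynomial.map_eq_zero_iff]
      · exact hp0
      · exact e.symm.injective
    · rw [Polynomial.aeval_def, Polynomial.eval₂_map]
      rw [Polynomial.aeval_def] at hp
      convert hp using 2
      ext c
      simp only [RingHom.coe_comp, Function.comp_apply]
      have h3 : ∀ q : MvPolynomial ι k, algebraMap (MvPolynomial ι k) K q =
        ((e q : Algebra.adjoin k (Set.range x)) : K) := by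
        intro q
        exact (hx.1.algebraMap_aevalEquiv q).symm
      rw [h3]
      simp
  haveI : Algebra.IsAlgebraic (FractionRing (MvPolynomial ι k)) K :=
    (IsFractionRing.comap_isAlgebraic_iff (A := MvPolynomial ι k)).mp halgP
  haveI : Algebra.FormallyEtale (FractionRing (MvPolynomial ι k)) K :=
    Algebra.FormallyEtale.of_isSeparable _ _
  haveI : Algebra.FormallyEtale (MvPolynomial ι k) (FractionRing (MvPolynomial ι k)) :=
    Algebra.FormallyEtale.of_isLocalization (nonZeroDivisors (MvPolynomial ι k))
  exact Algebra.FormallyEtale.comp (MvPolynomial ι k) (FractionRing (MvPolynomial ι k)) K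

theorem exists_basis_of_transc {k K : Type*} [Field k] [Field K] [Algebra k K] [CharZero k]
    {ι : Type*} (x : ι → K) (hx : IsTranscendenceBasis k x) :
    ∃ b : Module.Basis ι K (Ω[K⁄k]), ∀ i, b i = KaehlerDifferential.D k K (x i) :=
  exists_basis_of_formallyEtale x (formallyEtale_of_transc x hx)

end basis

end Crest.Agent.R276.FK1_779
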