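import Mathlib
import Crest.Agent.R276.FKDefs_779
import Crest.Agent.R276.FK3A_595

/-!
# Row 276, FK7-ST (helper594): transport of `KapGe`, `KapGeS` along ring isomorphisms
-/

set_option autoImplicit false
set_option linter.all false

noncomputable section

namespace Crest.Agent.R276.FKS_594

open Crest.Agent.R276.FKDefs_779

section transport

variable {k K k' K' : Type*} [Field k] [Field K] [Algebra k K] [Field k'] [Field K'] [Algebra k' K']

theorem val_le_iff_div {K : Type*} [Field K] (R : ValuationSubring K) (a b : K) (hb : b ≠ 0) :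
    R.valuation a ≤ R.valuation b ↔ a / b ∈ R := by
  rw [← ValuationSubring.valuation_le_one_iff, map_div₀,
    div_le_one₀ (by simpa [zero_lt_iff] using hb)]

/-- `v(a) ≤ v(b)` for a pulled back valuation ring. -/
theorem val_le_comap {K K' : Type*} [Field K] [Field K'] (t : K ≃+* K') (R : ValuationSubring K')
    (a b : K) : (R.comap (t : K →+* K')).valuation a ≤ (R.comap (t : K →+* K')).valuation b ↔
      R.valuation (t a) ≤ R.valuation (t b) := by
  by_cases hb : b = 0
  · subst hb
    simp
  have hb' : t b ≠ 0 := by simpa using hb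
  rw [val_le_iff_div _ _ _ hb, val_le_iff_div _ _ _ hb', ValuationSubring.mem_comap, ← map_div₀]
  rfl

variable (s : k ≃+* k') (t : K ≃+* K') (h : ∀ c, t (algebraMap k K c) = algebraMap k' K' (s c))

include h in
/-- the transported basis -/
theorem exists_basis {n : ℕ} (b : Module.Basis (Fin n) K (Ω[K⁄k])) :
    ∃ b' : Module.Basis (Fin n) K' (Ω[K'⁄k']), ∀ y : Fin n → K,
      jac k' b' (fun i => t (y i)) = t (jac k b y) := by
  let _ : Algebra k k' := s.toRingHom.toAlgebra
  let _ : Algebra K K' := t.toRingHom.toAlgebra
  let _ : Algebra k K' := ((algebraMap k' K').comp s.toRingHom).toAlgebra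
  have _ : IsScalarTower k k' K' := IsScalarTower.of_algebraMap_eq' rfl
  have _ : IsScalarTower k K K' := IsScalarTower.of_algebraMap_eq' (by
    ext c; exact (h c).symm)
  let φ : Ω[K⁄k] →ₗ[K] Ω[K'⁄k'] := KaehlerDifferential.map k k' K K'
  have hφ : ∀ y, φ (KaehlerDifferential.D k K y) = KaehlerDifferential.D k' K' (t y) := by
    intro y
    simp [φ]
    rfl
  have hbij : Function.Bijective φ := by
    let _ : Algebra k' k := s.symm.toRingHom.toAlgebra
    let _ : Algebra K' K := t.symm.toRingHom.toAlgebra
    let _ : Algebra k' K := ((algebraMap k K).comp s.symm.toRingHom).toAlgebra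
    have _ : IsScalarTower k' k K := IsScalarTower.of_algebraMap_eq' rfl
    have _ : IsScalarTower k' K' K := IsScalarTower.of_algebraMap_eq' (by
      ext c
      have := h (s.symm c)
      rw [RingEquiv.apply_symm_apply] at this
      change _ = t.symm (algebraMap k' K' c)
      rw [← this, RingEquiv.symm_apply_apply]
      rfl)
    let ψ : Ω[K'⁄k'] →ₗ[K'] Ω[K⁄k] := KaehlerDifferential.map k' k K' K
    have hψ : ∀ y, ψ (KaehlerDifferential.D k' K' y) = KaehlerDifferential.D k K (t.symm y) := by
      intro y
      simp [ψ]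
      rfl
    have hψs : ∀ (c : K') (w : Ω[K'⁄k']), ψ (c • w) = t.symm c • ψ w := by
      intro c w
      rw [map_smul]
      rfl
    have hφs : ∀ (c : K) (w : Ω[K⁄k]), φ (c • w) = t c • φ w := by
      intro c w
      rw [map_smul]
      rfl
    have h1 : ∀ w, ψ (φ w) = w := by
      intro w
      have hw : w ∈ Submodule.span K (Set.range (KaehlerDifferential.D k K)) := by
        rw [KaehlerDifferential.span_range_derivation]; trivial
      induction hw using Submodule.span_induction with
      | mem x hx =>
        obtain ⟨y, rfl⟩ := hx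
        rw [hφ, hψ, RingEquiv.symm_apply_apply]
      | zero => simp
      | add x y _ _ hx hy => rw [map_add, map_add, hx, hy]
      | smul a x _ hx => rw [hφs, hψs, hx, RingEquiv.symm_apply_apply]
    have h2 : ∀ w, φ (ψ w) = w := by
      intro w
      have hw : w ∈ Submodule.span K' (Set.range (KaehlerDifferential.D k' K')) := by
        rw [KaehlerDifferential.span_range_derivation]; trivial
      induction hw using Submodule.span_induction with
      | mem x hx =>
        obtain ⟨y, rfl⟩ := hx
        rw [hψ, hφ, RingEquiv.apply_symm_apply]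
      | zero => simp
      | add x y _ _ hx hy => rw [map_add, map_add, hx, hy]
      | smul a x _ hx => rw [hψs, hφs, hx, RingEquiv.apply_symm_apply]
    exact ⟨Function.LeftInverse.injective h1, Function.RightInverse.surjective h2⟩
  let e : Ω[K⁄k] ≃ₗ[K] Ω[K'⁄k'] := LinearEquiv.ofBijective φ hbij
  let b' : Module.Basis (Fin n) K' (Ω[K'⁄k']) := (b.map e).mapCoeffs t (fun c x => rfl)
  refine ⟨b', fun y => ?_⟩
  unfold jac
  rw [Module.Basis.det_apply, Module.Basis.det_apply, RingEquiv.map_det]
  congr 1
  ext i j
  rw [Module.Basis.toMatrix_apply, RingEquiv.mapMatrix_apply, Matrix.map_apply,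
    Module.Basis.toMatrix_apply]
  have h3 : KaehlerDifferential.D k' K' (t (y j)) = e (KaehlerDifferential.D k K (y j)) :=
    (hφ (y j)).symm
  rw [h3]
  simp [b', Module.Basis.mapCoeffs]

include h in
theorem regAt_iff {n : ℕ} (b : Module.Basis (Fin n) K (Ω[K⁄k]))
    (b' : Module.Basis (Fin n) K' (Ω[K'⁄k']))
    (hb : ∀ y : Fin n → K, jac k' b' (fun i => t (y i)) = t (jac k b y))
    (R : ValuationSubring K') (m : ℕ) (g : K) :
    RegAt k' R b' m (t g) ↔ RegAt k (R.comap (t : K →+* K')) b m g := by
  constructor
  · rintro ⟨y, hy, hle⟩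
    refine ⟨fun i => t.symm (y i), fun i => ?_, ?_⟩
    · rw [ValuationSubring.mem_comap]
      simpa using hy i
    · rw [← map_pow, val_le_comap, map_pow, ← hb]
      simpa using hle
  · rintro ⟨y, hy, hle⟩
    refine ⟨fun i => t (y i), fun i => hy i, ?_⟩
    rw [hb, ← map_pow, ← map_pow]
    rw [← map_pow, val_le_comap] at hle
    exact hle

theorem contains_iff (R : ValuationSubring K') (h : ∀ c, t (algebraMap k K c) = algebraMap k' K' (s c)) :
    (∀ c : k', algebraMap k' K' c ∈ R) ↔
      ∀ c : k, algebraMap k K c ∈ R.comap (t : K →+* K') := by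
  constructor
  · intro H c
    rw [ValuationSubring.mem_comap]
    have := H (s c)
    rw [← h] at this
    exact this
  · intro H c
    have := H (s.symm c)
    rw [ValuationSubring.mem_comap] at this
    have h2 := h (s.symm c)
    rw [RingEquiv.apply_symm_apply] at h2
    rw [← h2]
    exact this


theorem comap_symm_comap (R : ValuationSubring K') :
    (R.comap (t : K →+* K')).comap (t.symm : K' →+* K) = R := by
  ext x
  simp [ValuationSubring.mem_comap]


theorem isDiv_comap {n : ℕ} (R : ValuationSubring K')
    (h : ∀ c, t (algebraMap k K c) = algebraMap k' K' (s c)) (hR : IsDiv k' n R) :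
    IsDiv k n (R.comap (t : K →+* K')) := by
  refine ⟨(contains_iff s t R h).mp hR.alg, ?_, ?_⟩
  · intro htop
    apply hR.ne_top
    rw [← comap_symm_comap t R, htop]
    ext x
    simp [ValuationSubring.mem_comap]
  · obtain ⟨x, hx, hP⟩ := hR.res
    refine ⟨fun i => t.symm (x i), fun i => ?_, fun P hP0 => ?_⟩
    · rw [ValuationSubring.mem_comap]
      simpa using hx i
    · have hP' : MvPolynomial.map (s : k →+* k') P ≠ 0 := by
        intro h0
        apply hP0
        exact (MvPolynomial.map_injective (s : k →+* k') s.injective) (by rw [h0, map_zero])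
      have h1 := hP _ hP'
      have h2 : MvPolynomial.aeval x (MvPolynomial.map (s : k →+* k') P) =
          t (MvPolynomial.aeval (fun i => t.symm (x i)) P) := by
        rw [MvPolynomial.aeval_def, MvPolynomial.aeval_def, MvPolynomial.eval₂_map,
          ← RingEquiv.coe_toRingHom, MvPolynomial.eval₂_comp_left]
        congr 1
        · ext c; exact (h c).symm
        · ext i; simp
      rw [h2] at h1
      refine le_antisymm ?_ ?_
      · rw [← map_one (R.comap (t : K →+* K')).valuation, val_le_comap, h1, map_one, map_one]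
      · rw [← map_one (R.comap (t : K →+* K')).valuation, val_le_comap, h1, map_one, map_one]

theorem pluri_of {n : ℕ} (b : Module.Basis (Fin n) K (Ω[K⁄k]))
    (b' : Module.Basis (Fin n) K' (Ω[K'⁄k']))
    (h : ∀ c, t (algebraMap k K c) = algebraMap k' K' (s c))
    (hb : ∀ y : Fin n → K, jac k' b' (fun i => t (y i)) = t (jac k b y)) (m : ℕ) (g : K)
    (H : Pluri k b m g) : Pluri k' b' m (t g) := by
  intro R hR
  rw [regAt_iff s t h b b' hb]
  exact H _ (isDiv_comap s t R h hR)

theorem algInd_iff {ι : Type*} (f : ι → K)
    (h : ∀ c, t (algebraMap k K c) = algebraMap k' K' (s c)) :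
    AlgebraicIndependent k' (fun i => t (f i)) ↔ AlgebraicIndependent k f := by
  have hh : RingHom.comp (algebraMap k' K') (s : k →+* k') =
      RingHom.comp (t : K →+* K') (algebraMap k K) := by
    ext c
    exact (h c).symm
  constructor
  · intro H
    exact H.of_ringHom_of_comp_eq (s : k →+* k') (t : K →+* K') s.injective hh
  · intro H
    exact H.ringHom_of_comp_eq (s : k →+* k') (t : K →+* K') s.surjective t.injective hh


theorem kapGe_of (d : ℕ) (h : ∀ c, t (algebraMap k K c) = algebraMap k' K' (s c))
    (H : KapGe k K d) : KapGe k' K' d := by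
  obtain ⟨n, b, m, hm, f, hf, hi⟩ := H
  obtain ⟨b', hb⟩ := exists_basis s t h b
  refine ⟨n, b', m, hm, fun i => t (f i), fun i => ⟨?_, ?_⟩, ?_⟩
  · simpa using (hf i).1
  · exact pluri_of s t b b' h hb m (f i) (hf i).2
  · have := (algInd_iff s t _ h).mpr hi
    simpa [map_div₀] using this






end transport

end Crest.Agent.R276.FKS_594
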