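import Mathlib
import Crest.Agent.R276.FKDefs_779
import Crest.Agent.R276.FK1_779
import Crest.Agent.R276.FKB1_594
import Crest.Agent.R271.Br2_958
import Crest.Agent.R271.UfdF_243
import Crest.Agent.R276.FKS_594
import Crest.Agent.R276.FKB0_143
import Crest.Agent.R276.BetaDefs_231
import Crest.Agent.R276.Mod1_987

-- ▼ part R276/Deg1_594
section

/-!
# Row 276, DEGEN (helper594), part 1: the height one primes of an étale chart

`(A, z)` an étale chart of `K/ℂ` (`FKDefs_779.EtChart`), `p` a height one prime of `A`:
`locAt p` is the local ring at `p` as a subring of `K`, `valAt` the corresponding valuation ring.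
* `isDiv_valAt` : it is divisorial,
* `jac_mem` : Jacobians w.r.t. `dz` of elements of it belong to it,
* `mem_of_regAt` : an element of `K` regular (weight `m`, basis `dz`) at all divisorial valuation
  rings centred at height one primes of `A` belongs to `A`.
* `finite_chart_bad` : only finitely many height one primes of `A` contain a given `h ≠ 0`.
-/

set_option autoImplicit false
set_option linter.all false

noncomputable section

namespace Crest.Agent.R276.Deg1_594

open Crest.Agent.R276.FKDefs_779 Crest.Agent.R276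

variable {K : Type} [Field K] [Algebra ℂ K] {n : ℕ} {A : Subalgebra ℂ K} {z : Fin n → K}

section chart

theorem isFractionRing (hA : EtChart ℂ K A z) : IsFractionRing A K := by
  refine IsFractionRing.of_field A K fun a => ?_
  obtain ⟨b, hb, s, hs, hs0, rfl⟩ := hA.frac a
  exact ⟨⟨b, hb⟩, ⟨s, hs⟩, by rw [div_eq_mul_inv]; rfl⟩

/-- the coordinates as elements of `A` -/
abbrev zA (hA : EtChart ℂ K A z) : Fin n → A := fun i => ⟨z i, hA.mem i⟩

theorem etale (hA : EtChart ℂ K A z) :
    ((MvPolynomial.aeval (zA hA) : MvPolynomial (Fin n) ℂ →ₐ[ℂ] A)).toRingHom.Etale :=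
  hA.etale

theorem noeth (hA : EtChart ℂ K A z) : IsNoetherianRing A := by
  have h1 := Crest.Agent.R271.UFD243.finiteType_of_etale
    (MvPolynomial.aeval (zA hA) : MvPolynomial (Fin n) ℂ →ₐ[ℂ] A) (etale hA)
  exact Algebra.FiniteType.isNoetherianRing ℂ A

theorem intClosed (hA : EtChart ℂ K A z) : IsIntegrallyClosed A := by
  refine IsIntegrallyClosed.of_localization_maximal fun p hp0 hp => ?_
  have hd : IsDomain (Localization.AtPrime p) :=
    IsLocalization.isDomain_localization p.primeCompl_le_nonZeroDivisors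
  have := Crest.Agent.R271.UFD243.chart_ufd
    (MvPolynomial.aeval (zA hA) : MvPolynomial (Fin n) ℂ →ₐ[ℂ] A) (etale hA) p
    (Localization.AtPrime p)
  exact UniqueFactorizationMonoid.instIsIntegrallyClosed

variable (hA : EtChart ℂ K A z) (p : Ideal A) [hp : p.IsPrime]

include hA in
theorem dvr (h1 : p.height = 1) : IsDiscreteValuationRing (Localization.AtPrime p) := by
  have hd : IsDomain (Localization.AtPrime p) :=
    IsLocalization.isDomain_localization p.primeCompl_le_nonZeroDivisors
  have := Crest.Agent.R271.UFD243.chart_ufd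
    (MvPolynomial.aeval (zA hA) : MvPolynomial (Fin n) ℂ →ₐ[ℂ] A) (etale hA) p
    (Localization.AtPrime p)
  have hN := noeth hA
  have hNR : IsNoetherianRing (Localization.AtPrime p) :=
    IsLocalization.isNoetherianRing p.primeCompl _ hN
  apply Crest.Agent.R271.UFD243.isDVR_of_ufd_of_dim_one
  rw [IsLocalization.AtPrime.ringKrullDim_eq_height p (Localization.AtPrime p), h1]
  rfl

/-- membership in the local ring at `p` -/
def InLoc (f : K) : Prop := ∃ a b : A, b ∉ p ∧ (b : K) * f = a

variable {p} in
theorem ne_zero_of_not_mem {b : A} (hb : b ∉ p) : (b : K) ≠ 0 := by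
  intro h
  apply hb
  have : b = 0 := Subtype.ext h
  rw [this]; exact p.zero_mem

/-- the valuation ring of a height one prime -/
def valAt (h1 : p.height = 1) : ValuationSubring K where
  carrier := {f | InLoc p f}
  mul_mem' := by
    rintro f g ⟨a, b, hb, h⟩ ⟨c, d, hd, h'⟩
    refine ⟨a * c, b * d, fun hm => (hp.mem_or_mem hm).elim hb hd, ?_⟩
    push_cast
    rw [← h, ← h']; ring
  one_mem' := ⟨1, 1, fun h => hp.ne_top ((Ideal.eq_top_iff_one p).mpr h), by simp⟩
  add_mem' := by
    rintro f g ⟨a, b, hb, h⟩ ⟨c, d, hd, h'⟩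
    refine ⟨a * d + c * b, b * d, fun hm => (hp.mem_or_mem hm).elim hb hd, ?_⟩
    push_cast
    rw [← h, ← h']; ring
  zero_mem' := ⟨0, 1, fun h => hp.ne_top ((Ideal.eq_top_iff_one p).mpr h), by simp⟩
  neg_mem' := by
    rintro f ⟨a, b, hb, h⟩
    exact ⟨-a, b, hb, by push_cast; rw [← h]; ring⟩
  mem_or_inv_mem' := by
    intro f
    by_cases hf : f = 0
    · left; subst hf
      exact ⟨0, 1, fun h => hp.ne_top ((Ideal.eq_top_iff_one p).mpr h), by simp⟩
    haveI := isFractionRing hA
    haveI := dvr hA p h1
    obtain ⟨a, b, hb0, rfl⟩ := IsFractionRing.div_surjective (A := A) f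
    have hb : b ≠ 0 := nonZeroDivisors.ne_zero hb0
    have ha : a ≠ 0 := by
      rintro rfl
      apply hf
      simp
    have hι : Function.Injective (algebraMap A (Localization.AtPrime p)) :=
      IsLocalization.injective _ p.primeCompl_le_nonZeroDivisors
    -- divisibility in the localization
    have key : ∀ u v : A, v ≠ 0 → algebraMap A (Localization.AtPrime p) v ∣
        algebraMap A (Localization.AtPrime p) u → InLoc p ((u : K) / v) := by
      rintro u v hv ⟨w, hw⟩
      obtain ⟨⟨c, s⟩, hc⟩ := IsLocalization.surj p.primeCompl w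
      have hv' : (v : K) ≠ 0 := fun h => hv (Subtype.ext h)
      refine ⟨c, s, s.2, ?_⟩
      have h2 : (s : A) * u = v * c := by
        apply hι
        rw [map_mul, map_mul, ← hc, hw]
        ring
      have h3 : ((s : A) : K) * u = v * c := by exact_mod_cast congrArg (Subtype.val) h2
      field_simp
      rw [h3]
    rcases ValuationRing.dvd_total (algebraMap A (Localization.AtPrime p) a)
      (algebraMap A (Localization.AtPrime p) b) with h | h
    · right
      have := key b a ha h
      change InLoc p _
      rw [inv_div]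
      exact this
    · left
      exact key a b hb h


theorem A_le_valAt (h1 : p.height = 1) {a : K} (ha : a ∈ A) : a ∈ valAt hA p h1 :=
  ⟨⟨a, ha⟩, 1, fun h => hp.ne_top ((Ideal.eq_top_iff_one p).mpr h), by simp⟩



/-! ### Jacobians -/

/-- differentials of elements of the chart ring -/
theorem exists_repr (hA : EtChart ℂ K A z) (b : Module.Basis (Fin n) K (Ω[K⁄ℂ]))
    (hb : ∀ i, b i = KaehlerDifferential.D ℂ K (z i)) (a : A) :
    ∃ c : Fin n → A, ∀ i, b.repr (KaehlerDifferential.D ℂ K (a : K)) i = c i := by
  have hfe : RingHom.FormallyEtale ((MvPolynomial.aeval (zA hA) :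
      MvPolynomial (Fin n) ℂ →ₐ[ℂ] A) : MvPolynomial (Fin n) ℂ →+* A) := by
    have h1 : RingHom.Etale ((MvPolynomial.aeval (zA hA) :
      MvPolynomial (Fin n) ℂ →ₐ[ℂ] A) : MvPolynomial (Fin n) ℂ →+* A) := etale hA
    algebraize [((MvPolynomial.aeval (zA hA) :
      MvPolynomial (Fin n) ℂ →ₐ[ℂ] A) : MvPolynomial (Fin n) ℂ →+* A)]
    change Algebra.FormallyEtale _ _
    infer_instance
  obtain ⟨b0, hb0⟩ := FK1_779.exists_basis_of_formallyEtale (zA hA) hfe
  refine ⟨fun i => b0.repr (KaehlerDifferential.D ℂ A a) i, fun i => ?_⟩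
  have h1 : KaehlerDifferential.D ℂ A a = ∑ j, b0.repr (KaehlerDifferential.D ℂ A a) j •
      KaehlerDifferential.D ℂ A (zA hA j) := by
    conv_lhs => rw [← b0.sum_repr (KaehlerDifferential.D ℂ A a)]
    simp only [hb0]
  have h2 := congrArg (KaehlerDifferential.map ℂ ℂ A K) h1
  rw [KaehlerDifferential.map_D, map_sum] at h2
  have h3 : KaehlerDifferential.D ℂ K (a : K) =
      ∑ j, ((b0.repr (KaehlerDifferential.D ℂ A a) j : A) : K) • b j := by
    refine Eq.trans ?_ (h2.trans ?_)
    · rfl
    · refine Finset.sum_congr rfl fun j _ => ?_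
      rw [map_smul, KaehlerDifferential.map_D, hb j]
      rfl
  rw [h3]
  exact congrFun (b.repr_sum_self fun j => ((b0.repr (KaehlerDifferential.D ℂ A a) j : A) : K)) i

/-- differentials of elements of the local ring at `p` -/
theorem repr_mem (h1 : p.height = 1) (b : Module.Basis (Fin n) K (Ω[K⁄ℂ]))
    (hb : ∀ i, b i = KaehlerDifferential.D ℂ K (z i)) {y : K} (hy : y ∈ valAt hA p h1)
    (i : Fin n) : b.repr (KaehlerDifferential.D ℂ K y) i ∈ valAt hA p h1 := by
  obtain ⟨a, s, hs, hsa⟩ := hy
  obtain ⟨c, hc⟩ := exists_repr hA b hb a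
  obtain ⟨e, he⟩ := exists_repr hA b hb s
  have hs0 := ne_zero_of_not_mem hs
  have h2 := congrArg (fun w => b.repr (KaehlerDifferential.D ℂ K w) i) hsa
  simp only [Derivation.leibniz, map_add, map_smul, Finsupp.add_apply, Finsupp.smul_apply,
    smul_eq_mul] at h2
  rw [hc i, he i] at h2
  have h3 : b.repr (KaehlerDifferential.D ℂ K y) i = ((c i : K) - y * e i) * (s : K)⁻¹ := by
    field_simp
    linear_combination h2
  rw [h3]
  have hyv : y ∈ valAt hA p h1 := ⟨a, s, hs, hsa⟩
  have hsv : ((s : K))⁻¹ ∈ valAt hA p h1 := ⟨1, s, hs, by rw [mul_inv_cancel₀ hs0]; simp⟩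
  exact mul_mem (sub_mem (A_le_valAt hA p h1 (c i).2)
    (mul_mem hyv (A_le_valAt hA p h1 (e i).2))) hsv

theorem jac_mem (h1 : p.height = 1) (b : Module.Basis (Fin n) K (Ω[K⁄ℂ]))
    (hb : ∀ i, b i = KaehlerDifferential.D ℂ K (z i)) {y : Fin n → K}
    (hy : ∀ i, y i ∈ valAt hA p h1) : jac ℂ b y ∈ valAt hA p h1 := by
  unfold jac
  rw [Module.Basis.det_apply, Matrix.det_apply]
  refine sum_mem fun σ _ => ?_
  rw [Units.smul_def, zsmul_eq_mul]
  refine mul_mem (by exact intCast_mem _ _) (prod_mem fun i _ => ?_)
  rw [Module.Basis.toMatrix_apply]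
  exact repr_mem hA p h1 b hb (hy i) _

theorem mem_of_regAt_valAt (h1 : p.height = 1) (b : Module.Basis (Fin n) K (Ω[K⁄ℂ]))
    (hb : ∀ i, b i = KaehlerDifferential.D ℂ K (z i)) {m : ℕ} {f : K}
    (hf : RegAt ℂ (valAt hA p h1) b m f) : f ∈ valAt hA p h1 := by
  obtain ⟨y, hy, hle⟩ := hf
  have h2 : (valAt hA p h1).valuation (jac ℂ b y) ≤ 1 :=
    (ValuationSubring.valuation_le_one_iff _ _).mpr (jac_mem hA p h1 b hb hy)
  exact (ValuationSubring.valuation_le_one_iff _ _).mp (hle.trans (pow_le_one₀ zero_le h2))

end chart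

section main

/-- an element of `K` regular at all divisorial valuation rings which are centred at height one
primes of `A` belongs to `A` -/
theorem mem_of_regAt (hA : EtChart ℂ K A z) (b : Module.Basis (Fin n) K (Ω[K⁄ℂ]))
    (hb : ∀ i, b i = KaehlerDifferential.D ℂ K (z i)) {m : ℕ} {f : K}
    (hf : ∀ (p : Ideal A) (hp : p.IsPrime) (h1 : p.height = 1),
      f ∈ valAt hA p h1 ∨ RegAt ℂ (valAt hA p h1) b m f) : f ∈ A := by
  haveI := isFractionRing hA
  haveI := noeth hA
  haveI := intClosed hA
  obtain ⟨a, ha⟩ := Crest.Agent.R271.Br958.hartogs (A := A) f (fun p hp h1 => by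
    have h2 : f ∈ valAt hA p h1 := by
      rcases hf p hp h1 with h | h
      · exact h
      · exact mem_of_regAt_valAt hA p h1 b hb h
    obtain ⟨a, s, hs, h⟩ := h2
    exact ⟨a, s, hs, h⟩)
  rw [← ha]
  exact a.2

/-- only finitely many height one primes contain a given non zero element -/
theorem finite_bad (hA : EtChart ℂ K A z) {h : A} (hh : h ≠ 0) :
    {p : Ideal A | p.IsPrime ∧ p.height = 1 ∧ h ∈ p}.Finite := by
  haveI := noeth hA
  refine (Ideal.finite_minimalPrimes_of_isNoetherianRing A (Ideal.span {h})).subset ?_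
  rintro p ⟨hp, h1, hmem⟩
  refine ⟨⟨hp, by rwa [Ideal.span_singleton_le_iff_mem]⟩, ?_⟩
  rintro q ⟨hq, hle⟩ hqp
  by_contra hcon
  have hlt : q < p := lt_of_le_not_ge hqp hcon
  haveI := hq
  haveI := hp
  have h2 : q.height + 1 ≤ p.height := Ideal.height_add_one_le_of_lt_of_isPrime hlt
  have hq0 : q ≠ ⊥ := by
    rintro rfl
    rw [Ideal.span_singleton_le_iff_mem] at hle
    exact hh (by simpa using hle)
  have h3 : (⊥ : Ideal A).height + 1 ≤ q.height :=
    Ideal.height_add_one_le_of_lt_of_isPrime (bot_lt_iff_ne_bot.mpr hq0)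
  rw [h1] at h2
  have h4 : (1 : ℕ∞) ≤ q.height := le_trans (by simp) h3
  have h5 : (1 : ℕ∞) + 1 ≤ 1 := le_trans (by gcongr) h2
  exact absurd h5 (by decide)

end main

end Crest.Agent.R276.Deg1_594
end
end

-- ▼ part R276/Deg2_594

/-!
# Row 276, DEGEN (helper594), part 2

* `essFiniteType_intermediate` : intermediate fields of finitely generated extensions are
  finitely generated.
* `kapGeF_of_mdl` : sufficient condition for `KapGeF` from a model, the open subset of the model may
  depend on the finite set of divisorial valuation rings.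
* `kapGeF_of_kapGeS` : `KapGeS ℂ K d → KapGeF ℂ K d`.
* `coreBeta_of_pos` : `CoreBeta` may be proved under the additional hypotheses
  `trdeg L/ℂ ≥ 1`, `trdeg K/L ≥ 1`.
-/

set_option autoImplicit false
set_option linter.all false

noncomputable section

namespace Crest.Agent.R276.Deg2_594

open Crest.Agent.R276.FKDefs_779 Crest.Agent.R276.BetaDefs_231 Crest.Agent.R276.Mod1_987
open Crest.Agent.R276
open scoped IntermediateField.algebraAdjoinAdjoin

section ess

universe u v

/-- linearly independent elements of an algebraic extension `L/E` stay linearly independent over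
`E(y)`, `y` algebraically independent over `L` -/
theorem linearIndependent_adjoin {E L K : Type*} [Field E] [Field L] [Field K] [Algebra E L]
    [Algebra L K] [Algebra E K] [IsScalarTower E L K] {κ : Type*} {y : κ → K}
    (hy : AlgebraicIndependent L y) {r : ℕ} {v : Fin r → L} (hv : LinearIndependent E v) :
    LinearIndependent (IntermediateField.adjoin E (Set.range y))
      (fun i => algebraMap L K (v i)) := by
  classical
  rw [← LinearIndependent.iff_fractionRing (Algebra.adjoin E (Set.range y))]
  rw [Fintype.linearIndependent_iff]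
  intro g hg
  have h1 : ∀ i, ∃ P : MvPolynomial κ E, MvPolynomial.aeval y P = (g i : K) := by
    intro i
    have h0 : (g i : K) ∈ (MvPolynomial.aeval y : MvPolynomial κ E →ₐ[E] K).range := by
      rw [← Algebra.adjoin_range_eq_range_aeval]
      exact (g i).2
    exact h0
  choose P hP using h1
  have h2 : MvPolynomial.aeval y (∑ i, MvPolynomial.C (v i) *
      MvPolynomial.map (algebraMap E L) (P i)) = 0 := by
    rw [map_sum, ← hg]
    refine Finset.sum_congr rfl fun i _ => ?_
    rw [map_mul, MvPolynomial.aeval_C, MvPolynomial.aeval_map_algebraMap, hP, mul_comm]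
    rfl
  have h3 : ∑ i, MvPolynomial.C (v i) * MvPolynomial.map (algebraMap E L) (P i) = 0 := by
    apply hy
    rw [h2, map_zero]
  intro i
  have h4 : P i = 0 := by
    ext α
    rw [MvPolynomial.coeff_zero]
    have h5 := congrArg (MvPolynomial.coeff α) h3
    rw [MvPolynomial.coeff_sum, MvPolynomial.coeff_zero] at h5
    simp only [MvPolynomial.coeff_C_mul, MvPolynomial.coeff_map] at h5
    refine (Fintype.linearIndependent_iff.mp hv) (fun i => MvPolynomial.coeff α (P i)) ?_ i
    rw [← h5]
    refine Finset.sum_congr rfl fun i _ => ?_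
    rw [Algebra.smul_def, mul_comm]
  apply Subtype.ext
  rw [← hP i, h4, map_zero]
  rfl

theorem finite_of_alg {E L K : Type u} [Field E] [Field L] [Field K] [Algebra E L]
    [Algebra L K] [Algebra E K] [IsScalarTower E L K] [Algebra.IsAlgebraic E L]
    [Algebra.EssFiniteType E K] : FiniteDimensional E L := by
  classical
  obtain ⟨κ, y, hy⟩ := exists_isTranscendenceBasis' L K
  have hE : AlgebraicIndependent E y := hy.1.restrictScalars (algebraMap E L).injective
  have hyE : IsTranscendenceBasis E y := by
    obtain ⟨ι, x, hx⟩ := exists_isTranscendenceBasis' E L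
    have hem : IsEmpty ι := hx.isEmpty_iff_isAlgebraic.mpr inferInstance
    have h1 := hx.sumElim_comp hy
    have h2 : y = (Sum.elim y (algebraMap L K ∘ x)) ∘ (Equiv.sumEmpty κ ι).symm := by
      ext i; simp
    rw [h2, isTranscendenceBasis_equiv]
    exact h1
  have halg : Algebra.IsAlgebraic (IntermediateField.adjoin E (Set.range y)) K :=
    hyE.isAlgebraic_field
  haveI : Algebra.EssFiniteType (IntermediateField.adjoin E (Set.range y)) K :=
    Algebra.EssFiniteType.of_comp E _ K
  haveI : Module.Finite (IntermediateField.adjoin E (Set.range y)) K :=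
    Algebra.finite_of_essFiniteType_of_isAlgebraic
  rw [FiniteDimensional, ← Module.rank_lt_aleph0_iff]
  refine lt_of_le_of_lt (rank_le (n := Module.finrank (IntermediateField.adjoin E (Set.range y)) K)
    fun s hs => ?_) (Cardinal.natCast_lt_aleph0)
  let e : Fin s.card ≃ s := s.equivFin.symm
  have h1 : LinearIndependent E (fun i : Fin s.card => ((e i : s) : L)) :=
    hs.comp e e.injective
  have h2 := linearIndependent_adjoin hy.1 h1
  simpa using h2.fintype_card_le_finrank

theorem essFiniteType_sub {k L K : Type u} [Field k] [Field L] [Field K] [Algebra k L]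
    [Algebra L K] [Algebra k K] [IsScalarTower k L K] [Algebra.EssFiniteType k K] :
    Algebra.EssFiniteType k L := by
  classical
  obtain ⟨ι, x, hx⟩ := exists_isTranscendenceBasis' k L
  have hft : FinTrdeg k L := by
    rw [finTrdeg_iff_trdeg]
    have h1 : Algebra.trdeg k K < Cardinal.aleph0 := trdeg_lt_aleph0 k K
    have h2 := trdeg_add_eq k L (A := K)
    rw [← h2] at h1
    exact lt_of_le_of_lt (self_le_add_right _ _) h1
  have hfx : Finite ι := finite_of_isTranscendenceBasis hx
  let E : IntermediateField k L := IntermediateField.adjoin k (Set.range x)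
  have hEfg : Algebra.EssFiniteType k E :=
    IntermediateField.essFiniteType_iff.mpr
      (IntermediateField.fg_adjoin_of_finite (Set.finite_range x))
  have hLE : Algebra.IsAlgebraic E L := hx.isAlgebraic_field
  haveI : IsScalarTower k E K := IsScalarTower.of_algebraMap_eq fun c => by
    rw [IsScalarTower.algebraMap_apply k L K, IsScalarTower.algebraMap_apply k E L]
    rfl
  haveI : Algebra.EssFiniteType E K := Algebra.EssFiniteType.of_comp k E K
  haveI : FiniteDimensional E L := finite_of_alg (K := K)
  exact Algebra.EssFiniteType.comp k E L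

theorem essFiniteType_intermediate {k K : Type u} [Field k] [Field K] [Algebra k K]
    [Algebra.EssFiniteType k K] (L : IntermediateField k K) : Algebra.EssFiniteType k L :=
  essFiniteType_sub (K := K)

end ess

/-- a transcendence basis indexed by `Fin n` -/
theorem exists_fin_basis (k K : Type*) [Field k] [Field K] [Algebra k K] [FinTrdeg k K] :
    ∃ (n : ℕ) (x : Fin n → K), IsTranscendenceBasis k x := by
  obtain ⟨ι, x, hx⟩ := exists_isTranscendenceBasis' k K
  have : Finite ι := finite_of_isTranscendenceBasis hx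
  obtain ⟨n, ⟨e⟩⟩ := Finite.exists_equiv_fin ι
  exact ⟨n, x ∘ e.symm, hx.comp_equiv e.symm⟩

section kap

variable {K : Type} [Field K] [Algebra ℂ K] {n : ℕ}

theorem etChart_of_mdl (M : Mdl K n) : EtChart ℂ K M.B (fun i => (M.z i : K)) where
  fg := (Subalgebra.fg_iff_finiteType _).mpr M.ft
  frac := fun a => by
    obtain ⟨b, c, hc, rfl⟩ := M.frac a
    exact ⟨b, b.2, c, c.2, fun h => hc (Subtype.ext h), div_eq_mul_inv _ _⟩
  mem := fun i => (M.z i).2
  etale := M.het




end kap

section weights

variable {k K : Type*} [Field k] [Field K] [Algebra k K] {n : ℕ}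




end weights

section core




end core

end Crest.Agent.R276.Deg2_594
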