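import Mathlib
import Crest.Agent.R276.Mod7_987

/-!
# Row 276 (S0419), RESTR (helper793), part 1: specialisation of models

`spec`: let `M : Mdl K n`, the coordinates split by `e : Fin ρ ⊕ Fin p ≃ Fin n`, and
`π : M.B →ₐ[ℂ] K'` a homomorphism into a field generated by its image, with `π(t_i) = c_i`
constants and `π(x_j)` algebraically independent.  Then `π(B)` is the coordinate ring of a model
of `K'` with coordinates `π(x_j)`, `h' = h(c, x)`.
-/

set_option autoImplicit false

open Polynomial Topology Filter MeasureTheory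
open scoped ENNReal

noncomputable section

namespace Crest.Agent.R276.FibM_793

open Crest.Agent.R271.Defs710 Crest.Agent.R271.Alg255 Crest.Agent.R271.Rd692
open Crest.Agent.R271.AlgB956 Crest.Agent.R271.Ho51
open Crest.Agent.R276.Mod1_987

section glue

variable {n ρ p : ℕ} (e : Fin ρ ⊕ Fin p ≃ Fin n) (c : Cn ρ)

/-- the point of `ℂⁿ` with coordinates `t = c` and `x` -/
def glue (x : Cn p) : Cn n := fun j => Sum.elim c x (e.symm j)

@[simp] lemma glue_inl (x : Cn p) (i : Fin ρ) : glue e c x (e (Sum.inl i)) = c i := by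
  simp [glue]

@[simp] lemma glue_inr (x : Cn p) (j : Fin p) : glue e c x (e (Sum.inr j)) = x j := by
  simp [glue]

lemma glue_eq {a : Cn n} (h : ∀ i, a (e (Sum.inl i)) = c i) :
    glue e c (fun j => a (e (Sum.inr j))) = a := by
  funext j
  obtain ⟨s, rfl⟩ := e.surjective j
  rcases s with i | j
  · rw [glue_inl, h]
  · rw [glue_inr]

/-- specialisation `t = c` of polynomials -/
def sp : MvPolynomial (Fin n) ℂ →ₐ[ℂ] MvPolynomial (Fin p) ℂ :=
  MvPolynomial.aeval (fun j => Sum.elim (fun i => MvPolynomial.C (c i)) MvPolynomial.X (e.symm j))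




/-- a ring homomorphism compatible with coordinates is compatible with specialisation -/
lemma az_sp {B : Type} [CommRing B] [Algebra ℂ B] {A : Type} [CommRing A] [Algebra ℂ A]
    {z : Fin n → A} {x : Fin p → B} (f : A →ₐ[ℂ] B)
    (h1 : ∀ i, f (z (e (Sum.inl i))) = algebraMap ℂ B (c i))
    (h2 : ∀ j, f (z (e (Sum.inr j))) = x j) (P : MvPolynomial (Fin n) ℂ) :
    az x (sp e c P) = f (az z P) := by
  change MvPolynomial.aeval x (MvPolynomial.aeval _ P) = f (MvPolynomial.aeval z P)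
  rw [MvPolynomial.comp_aeval_apply, MvPolynomial.comp_aeval_apply]
  congr 2
  funext j
  obtain ⟨s, rfl⟩ := e.surjective j
  rcases s with i | j
  · simp [h1]
  · simp [h2]

end glue

section spec

variable {K : Type} [Field K] [Algebra ℂ K] {n ρ p : ℕ} (M : Mdl K n)
  (e : Fin ρ ⊕ Fin p ≃ Fin n) (c : Cn ρ) {K' : Type} [Field K'] [Algebra ℂ K'] (π : M.B →ₐ[ℂ] K')

/-- the fibre coordinates in the image -/
def zr (j : Fin p) : π.range := π.rangeRestrict (M.z (e (Sum.inr j)))

variable {M e c π}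

lemma az_sp' (h1 : ∀ i, π (M.z (e (Sum.inl i))) = algebraMap ℂ K' (c i))
    (P : MvPolynomial (Fin n) ℂ) :
    az (zr M e π) (sp e c P) = π.rangeRestrict (az M.z P) :=
  az_sp e c π.rangeRestrict (fun i => Subtype.ext (h1 i)) (fun _ => rfl) P

lemma hom_eval₂_sp (h1 : ∀ i, π (M.z (e (Sum.inl i))) = algebraMap ℂ K' (c i))
    (b : M.B) (q : Polynomial (MvPolynomial (Fin n) ℂ)) :
    Polynomial.eval₂ (az (zr M e π)) (π.rangeRestrict b)
      (q.map (sp e c : MvPolynomial (Fin n) ℂ →+* MvPolynomial (Fin p) ℂ)) =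
      π.rangeRestrict (Polynomial.eval₂ (az M.z) b q) := by
  have h := Polynomial.hom_eval₂ q (az M.z) (π.rangeRestrict : M.B →+* π.range) b
  rw [Polynomial.eval₂_map]
  have h2 : (az (zr M e π)).comp (sp e c : MvPolynomial (Fin n) ℂ →+* MvPolynomial (Fin p) ℂ) =
      ((π.rangeRestrict : M.B →ₐ[ℂ] π.range) : M.B →+* π.range).comp (az M.z) :=
    RingHom.ext fun P => az_sp' h1 P
  rw [h2]
  exact h.symm

variable (M e c π)

/-- the minimal polynomial of the image of `θ` over `ℂ[x]` -/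
def mu' : Polynomial (MvPolynomial (Fin p) ℂ) :=
  letI : Algebra (MvPolynomial (Fin p) ℂ) π.range := (az (zr M e π)).toAlgebra
  minpoly (MvPolynomial (Fin p) ℂ) (π.rangeRestrict M.θ)

variable {M e c π}

theorem mu'_props (h1 : ∀ i, π (M.z (e (Sum.inl i))) = algebraMap ℂ K' (c i))
    (h2 : AlgebraicIndependent ℂ (fun j => π (M.z (e (Sum.inr j))))) :
    (mu' M e π).Monic ∧ Polynomial.eval₂ (az (zr M e π)) (π.rangeRestrict M.θ) (mu' M e π) = 0 ∧
    ∀ q : Polynomial (MvPolynomial (Fin p) ℂ),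
      Polynomial.eval₂ (az (zr M e π)) (π.rangeRestrict M.θ) q = 0 → mu' M e π ∣ q := by
  let _ : Algebra (MvPolynomial (Fin p) ℂ) π.range := (az (zr M e π)).toAlgebra
  have hinj : Function.Injective (az (zr M e π)) := by
    intro P Q hPQ
    apply h2
    have h3 := congrArg (fun b : π.range => (b : K')) hPQ
    simp only [az_val] at h3
    exact h3
  have : FaithfulSMul (MvPolynomial (Fin p) ℂ) π.range :=
    (faithfulSMul_iff_algebraMap_injective _ _).mpr hinj
  have : Module.IsTorsionFree (MvPolynomial (Fin p) ℂ) π.range := inferInstance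
  have hint : IsIntegral (MvPolynomial (Fin p) ℂ) (π.rangeRestrict M.θ) := by
    refine ⟨M.μ.map (sp e c : MvPolynomial (Fin n) ℂ →+* MvPolynomial (Fin p) ℂ),
      M.monic.map _, ?_⟩
    have := hom_eval₂_sp h1 M.θ M.μ
    rw [M.root, map_zero] at this
    exact this
  refine ⟨minpoly.monic hint, minpoly.aeval _ _, fun q hq => ?_⟩
  exact minpoly.isIntegrallyClosed_dvd hint hq

/-- **specialised model** -/
def spec (h1 : ∀ i, π (M.z (e (Sum.inl i))) = algebraMap ℂ K' (c i))
    (h2 : AlgebraicIndependent ℂ (fun j => π (M.z (e (Sum.inr j)))))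
    (h3 : ∀ a : K', ∃ b d : M.B, π d ≠ 0 ∧ a = π b / π d) : Mdl K' p where
  B := π.range
  z := zr M e π
  h := sp e c M.h
  θ := π.rangeRestrict M.θ
  μ := mu' M e π
  ft := Algebra.FiniteType.of_surjective (π.rangeRestrict : M.B →ₐ[ℂ] π.range)
    π.rangeRestrict_surjective
  frac := by
    intro a
    obtain ⟨b, d, hd, hbd⟩ := h3 a
    exact ⟨π.rangeRestrict b, π.rangeRestrict d, fun h => hd (congrArg Subtype.val h), hbd⟩
  h_ne := by
    intro h0
    have hu := M.h_unit.map (π.rangeRestrict : M.B →ₐ[ℂ] π.range)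
    rw [← az_sp' h1, h0, map_zero] at hu
    exact not_isUnit_zero hu
  h_unit := by
    rw [az_sp' h1]
    exact M.h_unit.map (π.rangeRestrict : M.B →ₐ[ℂ] π.range)
  monic := (mu'_props h1 h2).1
  root := (mu'_props h1 h2).2.1
  bez := by
    obtain ⟨a, b, hab⟩ := M.bez
    have hr : Polynomial.eval₂ (az (zr M e π)) (π.rangeRestrict M.θ)
        (M.μ.map (sp e c : MvPolynomial (Fin n) ℂ →+* MvPolynomial (Fin p) ℂ)) = 0 := by
      have := hom_eval₂_sp h1 M.θ M.μ
      rw [M.root, map_zero] at this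
      exact this
    obtain ⟨ν, hν⟩ := (mu'_props h1 h2).2.2 _ hr
    have h4 := congrArg (Polynomial.map (sp e c : MvPolynomial (Fin n) ℂ →+*
      MvPolynomial (Fin p) ℂ)) hab
    rw [Polynomial.map_add, Polynomial.map_mul, Polynomial.map_mul, Polynomial.map_C,
      ← Polynomial.derivative_map, hν, Polynomial.derivative_mul] at h4
    refine ⟨a.map (sp e c : MvPolynomial (Fin n) ℂ →+* MvPolynomial (Fin p) ℂ) * ν +
      b.map (sp e c : MvPolynomial (Fin n) ℂ →+* MvPolynomial (Fin p) ℂ) * derivative ν,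
      b.map (sp e c : MvPolynomial (Fin n) ℂ →+* MvPolynomial (Fin p) ℂ) * ν, ?_⟩
    rw [RingHom.coe_coe] at h4
    rw [← h4]
    ring
  dvd := (mu'_props h1 h2).2.2
  gen := by
    intro b'
    obtain ⟨b, rfl⟩ := π.rangeRestrict_surjective b'
    obtain ⟨k, q, hq⟩ := M.gen b
    refine ⟨k, q.map (sp e c : MvPolynomial (Fin n) ℂ →+* MvPolynomial (Fin p) ℂ), ?_⟩
    rw [hom_eval₂_sp h1, ← hq, map_mul, ← az_sp' h1, map_pow (sp e c)]

end spec

end Crest.Agent.R276.FibM_793
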