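import Mathlib
import Crest.Agent.R276.FibM_793
import Crest.Agent.R276.VPull_327

-- ▼ part R276/FibN_793
section

/-!
# Row 276 (S0419), RESTR (helper793), part 2: connected open subsets of slices

`e : Fin ρ ⊕ Fin p ≃ Fin n`, `c : ℂ^ρ`, `G ⊆ {t = c} ⊆ M` nonempty, preconnected, open in the slice.

* `IsG.ident` : identity theorem on `G`; `IsG.domain` : no zero divisors;
* `IsG.poly` : polynomials in the coordinates `x` vanishing on `G` are zero;
* `SG M e c` : such a `G` which is Zariski closed in `M` (`M` a model), its function field `S.F`,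
  the model `S.mdl : Mdl S.F p`, the closed embedding `S.ι : S.mdl.Pts → M.Pts` with range `G`.
-/

set_option autoImplicit false

open Topology Filter MeasureTheory
open scoped ENNReal

noncomputable section

namespace Crest.Agent.R276.FibN_793

open Crest.Agent.R271.Defs710 Crest.Agent.R271.Alg255 Crest.Agent.R271.Rd692
open Crest.Agent.R271.AlgB956 Crest.Agent.R271.Ho51
open Crest.Agent.R276.Mod1_987 Crest.Agent.R276.FibM_793 Crest.Agent.R276.AB2_590

/-! ### local theory on a Riemann domain -/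

section rd

variable {n ρ p : ℕ} {M : Type} [TopologicalSpace M] [RDom n M] (e : Fin ρ ⊕ Fin p ≃ Fin n)
  (c : Cn ρ)

/-- nonempty connected open part of the slice `{t = c}` -/
structure IsG (G : Set M) : Prop where
  coord : ∀ y ∈ G, ∀ i, cp y (e (Sum.inl i)) = c i
  ne : G.Nonempty
  conn : IsPreconnected G
  op : ∀ y ∈ G, ∀ᶠ y' in 𝓝 y, (∀ i, cp y' (e (Sum.inl i)) = c i) → y' ∈ G

/-- the slice coordinates -/
def xc (y : M) : Cn p := fun j => cp y (e (Sum.inr j))

variable {e c}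

lemma glue_mem_ball {a : Cn n} (ha : ∀ i, a (e (Sum.inl i)) = c i) {x : Cn p} {ε : ℝ}
    (hε : 0 < ε) (hx : x ∈ Metric.ball (fun j => a (e (Sum.inr j))) ε) :
    glue e c x ∈ Metric.ball a ε := by
  rw [Metric.mem_ball, dist_pi_lt_iff hε] at hx ⊢
  intro j
  obtain ⟨s, rfl⟩ := e.surjective j
  rcases s with i | j
  · rw [glue_inl, ha i, dist_self]
    exact hε
  · rw [glue_inr]
    exact hx j

lemma analyticAt_glue (x : Cn p) : AnalyticAt ℂ (glue e c) x := by
  rw [analyticAt_pi_iff]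
  intro j
  obtain ⟨s, rfl⟩ := e.surjective j
  rcases s with i | j
  · simp only [glue_inl]
    exact analyticAt_const
  · simp only [glue_inr]
    exact (ContinuousLinearMap.proj (R := ℂ) (φ := fun _ : Fin p => ℂ) j).analyticAt x

variable {G : Set M}

/-- boxes -/
lemma IsG.box (hG : IsG e c G) {y : M} (hy : y ∈ G) {W : Set M} (hW : W ∈ 𝓝 y) :
    ∃ ε > 0, Metric.ball (cp y) ε ⊆ (ch y).target ∧
      ∀ x ∈ Metric.ball (xc e y) ε, glue e c x ∈ Metric.ball (cp y) ε ∧
        (ch y).symm (glue e c x) ∈ G ∧ (ch y).symm (glue e c x) ∈ W ∧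
        cp ((ch y).symm (glue e c x)) = glue e c x := by
  have h1 : cp y ∈ (ch y).target := (isCh_ch y).cp_mem (mem_ch y)
  have h2 : Tendsto (ch y).symm (𝓝 (cp y)) (𝓝 y) := by
    have := (ch y).symm.continuousAt (x := cp y) (by simpa using h1)
    rwa [ContinuousAt, symm_cp] at this
  have h3 : ∀ᶠ ζ in 𝓝 (cp y), ζ ∈ (ch y).target ∧ (ch y).symm ζ ∈ W ∧
      ((∀ i, cp ((ch y).symm ζ) (e (Sum.inl i)) = c i) → (ch y).symm ζ ∈ G) := by
    filter_upwards [(ch y).open_target.mem_nhds h1, h2.eventually_mem hW,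
      h2.eventually (hG.op y hy)] with ζ ha hb hc
    exact ⟨ha, hb, hc⟩
  obtain ⟨ε, hε, hb⟩ := Metric.mem_nhds_iff.mp h3
  refine ⟨ε, hε, fun ζ hζ => (hb hζ).1, fun x hx => ?_⟩
  have h4 := glue_mem_ball (hG.coord y hy) hε hx
  obtain ⟨h5, h6, h7⟩ := hb h4
  have h8 := (isCh_ch y).cp_symm h5
  refine ⟨h4, h7 fun i => ?_, h6, h8⟩
  rw [h8, glue_inl]

lemma comp_glue_analyticAt {F : M → ℂ} (hF : HolA F) {y : M} {x : Cn p}
    (hx : glue e c x ∈ (ch y).target) :
    AnalyticAt ℂ (fun x => F ((ch y).symm (glue e c x))) x :=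
  AnalyticAt.comp (g := F ∘ (ch y).symm) (f := glue e c)
    (comp_symm_analyticAt hF (isCh_ch y) hx) (analyticAt_glue x)

/-- local identity theorem -/
lemma IsG.ident_near (hG : IsG e c G) {y : M} (hy : y ∈ G) :
    ∃ V : Set M, IsOpen V ∧ y ∈ V ∧ ∀ F : M → ℂ, HolA F →
      (∃ y' ∈ G ∩ V, ∀ᶠ w in 𝓝 y', w ∈ G → F w = 0) → ∀ w ∈ G ∩ V, F w = 0 := by
  obtain ⟨ε, hε, ht, hb⟩ := hG.box hy univ_mem
  refine ⟨(ch y).source ∩ cp ⁻¹' Metric.ball (cp y) ε,
    (ch y).open_source.inter (Metric.isOpen_ball.preimage cp_cont),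
    ⟨mem_ch y, Metric.mem_ball_self hε⟩, ?_⟩
  rintro F hF ⟨y', ⟨hy'G, hy's, hy'b⟩, hev⟩
  -- points of `G ∩ V` in terms of `x`
  have key : ∀ w ∈ G ∩ ((ch y).source ∩ cp ⁻¹' Metric.ball (cp y) ε),
      xc e w ∈ Metric.ball (xc e y) ε ∧ (ch y).symm (glue e c (xc e w)) = w := by
    rintro w ⟨hwG, hws, hwb⟩
    have h1 : glue e c (xc e w) = cp w := glue_eq e c (hG.coord w hwG)
    constructor
    · rw [Metric.mem_ball, dist_pi_lt_iff hε]
      have hwb' : dist (cp w) (cp y) < ε := hwb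
      rw [dist_pi_lt_iff hε] at hwb'
      exact fun j => hwb' _
    · rw [h1]
      exact (isCh_ch y).symm_cp hws
  set f : Cn p → ℂ := fun x => F ((ch y).symm (glue e c x)) with hf
  have hfa : AnalyticOnNhd ℂ f (Metric.ball (xc e y) ε) := fun x hx =>
    comp_glue_analyticAt hF (ht (hb x hx).1)
  obtain ⟨hx', hyy'⟩ := key y' ⟨hy'G, hy's, hy'b⟩
  have hcont : Tendsto (fun x => (ch y).symm (glue e c x)) (𝓝 (xc e y')) (𝓝 y') := by
    have h1 : ContinuousAt (ch y).symm (glue e c (xc e y')) :=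
      (ch y).symm.continuousAt (by simpa using ht (hb _ hx').1)
    have h2 : ContinuousAt (fun x => (ch y).symm (glue e c x)) (xc e y') :=
      ContinuousAt.comp (g := (ch y).symm) h1 (analyticAt_glue (e := e) (c := c) _).continuousAt
    have h3 := h2.tendsto
    rwa [hyy'] at h3
  have hev' : f =ᶠ[𝓝 (xc e y')] 0 := by
    filter_upwards [hcont.eventually hev, Metric.isOpen_ball.mem_nhds hx'] with x hx hxb
    exact hx (hb x hxb).2.1
  have h0 := hfa.eqOn_zero_of_preconnected_of_eventuallyEq_zero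
    (convex_ball (xc e y) ε).isPreconnected hx' hev'
  intro w hw
  obtain ⟨h1, h2⟩ := key w hw
  have h3 := h0 h1
  simp only [hf] at h3
  rw [h2] at h3
  exact h3

/-- **identity theorem on `G`** -/
theorem IsG.ident (hG : IsG e c G) {F : M → ℂ} (hF : HolA F)
    (h : ∃ y ∈ G, ∀ᶠ w in 𝓝 y, w ∈ G → F w = 0) : ∀ w ∈ G, F w = 0 := by
  choose! V hVo hyV hV using fun (y : M) (hy : y ∈ G) => hG.ident_near hy
  let O1 : Set M := {y | ∀ᶠ w in 𝓝 y, w ∈ G → F w = 0}
  let O2 : Set M := ⋃ y ∈ G \ O1, V y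
  have hO1 : IsOpen O1 := isOpen_setOfPred_eventually_nhds
  have hO2 : IsOpen O2 := isOpen_biUnion fun y hy => hVo y hy.1
  have hcov : G ⊆ O1 ∪ O2 := by
    intro y hy
    by_cases h1 : y ∈ O1
    · exact Or.inl h1
    · exact Or.inr (Set.mem_biUnion (⟨hy, h1⟩ : y ∈ G \ O1) (hyV y hy))
  obtain ⟨y0, hy0, hev⟩ := h
  by_contra hne
  push Not at hne
  obtain ⟨w, hw, hFw⟩ := hne
  have hw1 : w ∉ O1 := fun h1 => hFw (Eventually.self_of_nhds h1 hw)
  have hw2 : w ∈ O2 := (hcov hw).resolve_left hw1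
  obtain ⟨v, hvG, hv1, hv2⟩ := hG.conn O1 O2 hO1 hO2 hcov ⟨y0, hy0, hev⟩ ⟨w, hw, hw2⟩
  obtain ⟨y, hy, hvy⟩ := Set.mem_iUnion₂.mp hv2
  have h0 := hV y hy.1 F hF ⟨v, ⟨hvG, hvy⟩, hv1⟩
  apply hy.2
  filter_upwards [(hVo y hy.1).mem_nhds (hyV y hy.1)] with u hu huG
  exact h0 u ⟨huG, hu⟩

/-- no zero divisors -/
theorem IsG.domain (hG : IsG e c G) {F1 F2 : M → ℂ} (h1 : Continuous F1) (hF2 : HolA F2)
    (h : ∀ w ∈ G, F1 w * F2 w = 0) :
    (∀ w ∈ G, F1 w = 0) ∨ ∀ w ∈ G, F2 w = 0 := by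
  by_contra hcon
  push Not at hcon
  obtain ⟨⟨y, hy, hy1⟩, hne⟩ := hcon
  obtain ⟨w, hw, hw2⟩ := hne
  apply hw2
  refine hG.ident hF2 ⟨y, hy, ?_⟩ w hw
  filter_upwards [h1.continuousAt.eventually_ne hy1] with u hu huG
  exact (mul_eq_zero.mp (h u huG)).resolve_left hu

/-- polynomials vanishing on `G` are zero -/
theorem IsG.poly (hG : IsG e c G) {P : MvPolynomial (Fin p) ℂ}
    (h : ∀ w ∈ G, MvPolynomial.eval (xc e w) P = 0) : P = 0 := by
  obtain ⟨y, hy⟩ := hG.ne
  obtain ⟨ε, hε, ht, hb⟩ := hG.box hy univ_mem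
  have h1 : ∀ x ∈ Metric.ball (xc e y) ε, MvPolynomial.eval x P = 0 := by
    intro x hx
    obtain ⟨_, h2, _, h3⟩ := hb x hx
    have h4 := h _ h2
    have h5 : xc e ((ch y).symm (glue e c x)) = x := by
      funext j
      unfold xc
      rw [h3, glue_inr]
    rwa [h5] at h4
  apply MvPolynomial.funext_set (fun j => Metric.ball (xc e y j) ε)
  · intro j
    exact infinite_of_mem_nhds (xc e y j) (Metric.ball_mem_nhds _ hε)
  · intro x hx
    rw [map_zero]
    apply h1
    rw [ball_pi _ hε]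
    exact hx

end rd

/-! ### the function field and the model of `G` -/

section mdl

variable {K : Type} [Field K] [Algebra ℂ K] {n ρ p : ℕ} (M : Mdl K n)
  (e : Fin ρ ⊕ Fin p ≃ Fin n) (c : Cn ρ)

/-- connected, Zariski closed, relatively open part of the slice `{t = c}` of a model -/
structure SG where
  /-- the set -/
  G : Set M.Pts
  isG : IsG e c G
  alg : ∀ y : M.Pts, (∀ b : M.B, (∀ w ∈ G, w b = 0) → y b = 0) → y ∈ G

variable {M e c}

namespace SG

variable (S : SG M e c)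

/-- the ideal of `G` -/
def I : Ideal M.B where
  carrier := {b | ∀ w ∈ S.G, w b = 0}
  add_mem' := by
    intro a b ha hb w hw
    rw [map_add, ha w hw, hb w hw, add_zero]
  zero_mem' := fun w _ => map_zero w
  smul_mem' := by
    intro a b hb w hw
    rw [smul_eq_mul, map_mul, hb w hw, mul_zero]

lemma mem_I {b : M.B} : b ∈ S.I ↔ ∀ w ∈ S.G, w b = 0 := Iff.rfl

instance : S.I.IsPrime where
  ne_top' := by
    intro h
    obtain ⟨y, hy⟩ := S.isG.ne
    have h1 : (1 : M.B) ∈ S.I := by rw [h]; trivial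
    have h2 := h1 y hy
    rw [map_one] at h2
    exact one_ne_zero h2
  mem_or_mem' := by
    intro a b hab
    exact S.isG.domain (F1 := fun y : M.Pts => y a) (F2 := fun y : M.Pts => y b)
      (continuous_ev a) (hol51_iff.mp (M.hol51_ev b)) fun w hw => by
        have := hab w hw
        rwa [map_mul] at this

instance : Nontrivial (M.B ⧸ S.I) := Ideal.Quotient.nontrivial_iff.mpr (Ideal.IsPrime.ne_top')

instance : IsDomain (M.B ⧸ S.I) := Ideal.Quotient.isDomain S.I

/-- the function field of `G` -/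
def F : Type := FractionRing (M.B ⧸ S.I)

instance : Field S.F := inferInstanceAs (Field (FractionRing (M.B ⧸ S.I)))

instance : Algebra ℂ S.F := inferInstanceAs (Algebra ℂ (FractionRing (M.B ⧸ S.I)))

/-- the restriction to `G` -/
def π : M.B →ₐ[ℂ] S.F :=
  (IsScalarTower.toAlgHom ℂ (M.B ⧸ S.I) (FractionRing (M.B ⧸ S.I))).comp
    (Ideal.Quotient.mkₐ ℂ S.I)

lemma π_apply (b : M.B) : S.π b =
    algebraMap (M.B ⧸ S.I) (FractionRing (M.B ⧸ S.I)) (Ideal.Quotient.mk S.I b) := rfl

lemma π_eq_zero {b : M.B} : S.π b = 0 ↔ ∀ w ∈ S.G, w b = 0 := by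
  rw [π_apply]
  have h1 : (algebraMap (M.B ⧸ S.I) (FractionRing (M.B ⧸ S.I)) (Ideal.Quotient.mk S.I b) = 0) ↔
      Ideal.Quotient.mk S.I b = 0 :=
    map_eq_zero_iff _ (IsFractionRing.injective (M.B ⧸ S.I) (FractionRing (M.B ⧸ S.I)))
  rw [← mem_I, ← Ideal.Quotient.eq_zero_iff_mem]
  exact h1

lemma π_t (i : Fin ρ) : S.π (M.z (e (Sum.inl i))) = algebraMap ℂ S.F (c i) := by
  rw [← sub_eq_zero, ← S.π.commutes (c i), ← map_sub, π_eq_zero]
  intro w hw
  rw [map_sub, AlgHom.commutes]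
  have := S.isG.coord w hw i
  exact sub_eq_zero.mpr this

lemma frac (a : S.F) : ∃ b d : M.B, S.π d ≠ 0 ∧ a = S.π b / S.π d := by
  obtain ⟨x, y, hy, hxy⟩ := IsFractionRing.div_surjective (A := M.B ⧸ S.I)
    (K := FractionRing (M.B ⧸ S.I)) a
  obtain ⟨b, rfl⟩ := Ideal.Quotient.mk_surjective x
  obtain ⟨d, rfl⟩ := Ideal.Quotient.mk_surjective y
  refine ⟨b, d, ?_, hxy.symm⟩
  have h1 := nonZeroDivisors.ne_zero hy
  intro h2
  apply h1
  exact (map_eq_zero_iff _ (IsFractionRing.injective (M.B ⧸ S.I)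
    (FractionRing (M.B ⧸ S.I)))).mp h2

lemma indep : AlgebraicIndependent ℂ (fun j => S.π (M.z (e (Sum.inr j)))) := by
  rw [algebraicIndependent_iff]
  intro P hP
  apply S.isG.poly
  intro w hw
  have h1 : MvPolynomial.aeval (fun j => S.π (M.z (e (Sum.inr j)))) P =
      S.π (MvPolynomial.aeval (fun j => M.z (e (Sum.inr j))) P) := by
    rw [MvPolynomial.comp_aeval_apply]
  rw [h1, π_eq_zero] at hP
  have h2 := hP w hw
  rw [MvPolynomial.comp_aeval_apply, MvPolynomial.aeval_eq_eval] at h2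
  exact h2

/-- **the model of `G`** -/
def mdl : Mdl S.F p := spec S.π_t S.indep S.frac

@[simp] lemma mdl_B : S.mdl.B = S.π.range := rfl

@[simp] lemma mdl_h : S.mdl.h = sp e c M.h := rfl

/-- the restriction as a map of coordinate rings -/
def res : M.B →ₐ[ℂ] S.mdl.B := S.π.rangeRestrict

lemma res_surjective : Function.Surjective S.res := S.π.rangeRestrict_surjective

@[simp] lemma res_coe (b : M.B) : (S.res b : S.F) = S.π b := rfl

lemma res_eq_zero {b : M.B} : S.res b = 0 ↔ ∀ w ∈ S.G, w b = 0 := by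
  rw [← π_eq_zero, ← res_coe]
  exact ⟨fun h => by rw [h]; rfl, fun h => Subtype.ext h⟩



/-- the inclusion of the points of the model of `G` -/
def ι (y : S.mdl.Pts) : M.Pts := y.comp S.res

lemma ι_apply (y : S.mdl.Pts) (b : M.B) : S.ι y b = y (S.res b) := rfl

lemma continuous_ι : Continuous S.ι := by
  rw [continuous_iff_ev]
  intro b
  exact continuous_ev (S.res b)

lemma ι_injective : Function.Injective S.ι := by
  intro y y' h
  apply AlgHom.ext
  intro b
  obtain ⟨b, rfl⟩ := S.res_surjective b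
  exact congrArg (fun y : M.Pts => y b) h

lemma ι_mem (y : S.mdl.Pts) : S.ι y ∈ S.G := by
  apply S.alg
  intro b hb
  rw [ι_apply, S.res_eq_zero.mpr hb, map_zero]

/-- the points of `G` are the points of the model -/
lemma exists_pt {w : M.Pts} (hw : w ∈ S.G) : ∃ y : S.mdl.Pts, S.ι y = w := by
  have h1 : RingHom.ker S.res.toRingHom ≤ RingHom.ker w.toRingHom :=
    fun a ha => S.res_eq_zero.mp ha w hw
  refine ⟨AlgHom.liftOfSurjective S.res S.res_surjective w h1, ?_⟩
  apply AlgHom.ext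
  intro b
  exact AlgHom.liftOfSurjective_apply S.res S.res_surjective w h1 b

lemma range_ι : Set.range S.ι = S.G := by
  ext w
  constructor
  · rintro ⟨y, rfl⟩
    exact S.ι_mem y
  · exact S.exists_pt

lemma isEmbedding_ι : IsEmbedding S.ι := by
  have h1 : IsEmbedding (evs ∘ S.ι) :=
    (S.res_surjective.isEmbedding_comp (X := ℂ)).comp evs_embedding
  exact IsEmbedding.of_comp S.continuous_ι evs_inducing.continuous h1

end SG

end mdl

end Crest.Agent.R276.FibN_793
end
end

-- ▼ part R276/FibO_793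
section

/-!
# Row 276 (S0419), RESTR (helper793), part 3: the fibre is again a model, the restricted family is
again a relative model

* `S.cp_ι`, `S.hmap_ι`, `S.germ_ι`, `S.homeo : S.mdl.Pts ≃ₜ S.G` : analytic properties of the inclusion;
* `fibSG R w hc` : the fibre `q⁻¹(w)` of a relative model, if it is connected;
  `fibHomeo : (fibSG R w hc).mdl.Pts ≃ₜ R.Fib w`;
* `S.up R hs hc` : the preimage of `G ⊆ M_L` in `M_K`; `S.rmdl R hs hc : RMdl S.F (S.up R hs hc).F a r`
  the restricted relative model; `q_ι`, `x_ι`, `rmdl_surj`, `fibH` (fibres are the same), `fint_rmdl`.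
-/

set_option autoImplicit false

open Topology Filter MeasureTheory
open scoped ENNReal

noncomputable section

namespace Crest.Agent.R276.FibN_793

open Crest.Agent.R271.Defs710 Crest.Agent.R271.Alg255 Crest.Agent.R271.Rd692
open Crest.Agent.R271.AlgB956 Crest.Agent.R271.Ho51
open Crest.Agent.R276.Mod1_987 Crest.Agent.R276.FibM_793 Crest.Agent.R276.AB2_590
open Crest.Agent.R276.Ipc735 Crest.Agent.R276.VPull_327

/-! ### analytic properties of the inclusion -/

section incl

variable {K : Type} [Field K] [Algebra ℂ K] {n ρ p : ℕ} {M : Mdl K n}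
  {e : Fin ρ ⊕ Fin p ≃ Fin n} {c : Cn ρ}

namespace SG

variable (S : SG M e c)

lemma pz_inl (y : S.mdl.Pts) (i : Fin ρ) : M.pz (S.ι y) (e (Sum.inl i)) = c i :=
  S.isG.coord _ (S.ι_mem y) i

lemma pz_inr (y : S.mdl.Pts) (j : Fin p) : M.pz (S.ι y) (e (Sum.inr j)) = S.mdl.pz y j := rfl

lemma pz_ι (y : S.mdl.Pts) : M.pz (S.ι y) = glue e c (S.mdl.pz y) := by
  have h := glue_eq e c (S.pz_inl y)
  exact h.symm

lemma cp_ι (y : S.mdl.Pts) : cp (S.ι y) = glue e c (cp y) := S.pz_ι y


/-- `S.mdl.Pts ≃ₜ G` -/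
def homeo : S.mdl.Pts ≃ₜ S.G :=
  S.isEmbedding_ι.toHomeomorph.trans (Homeomorph.setCongr S.range_ι)

@[simp] lemma homeo_apply (y : S.mdl.Pts) : (S.homeo y : M.Pts) = S.ι y := rfl




/-- the inclusion is holomorphic -/
theorem hmap_ι : HMap S.ι := fun y => by
  refine ⟨S.continuous_ι.continuousAt, ?_⟩
  unfold HolAt
  have h1 : (fun y' => cp (S.ι y')) ∘ (ch y).symm =ᶠ[𝓝 (cp y)] glue e c := by
    filter_upwards [(ch y).open_target.mem_nhds ((isCh_ch y).cp_mem (mem_ch y))] with x hx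
    change cp (S.ι ((ch y).symm x)) = glue e c x
    rw [S.cp_ι, (isCh_ch y).cp_symm hx]
  exact (analyticAt_glue (e := e) (c := c) (cp y)).congr h1.symm



end SG

end incl

/-! ### fibres of relative models -/

section fib

variable {L K : Type} [Field L] [Field K] [Algebra ℂ L] [Algebra ℂ K] [Algebra L K]
  [IsScalarTower ℂ L K] {m r : ℕ} (R : RMdl L K m r)

/-- the fibre over `w` as a closed subset of `M_K` -/
def fibSG (w : R.ML.Pts) (hc : IsConnected (R.q ⁻¹' {w})) :
    SG R.MK (finSumFinEquiv : Fin m ⊕ Fin r ≃ Fin (m + r)) (R.ML.pz w) where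
  G := R.q ⁻¹' {w}
  isG :=
    { coord := by
        intro y hy i
        have hy' : R.q y = w := hy
        rw [finSumFinEquiv_apply_left, ← hy']
        exact (R.pz_q y i).symm
      ne := hc.nonempty
      conn := hc.isPreconnected
      op := by
        intro y hy
        have hy' : R.q y = w := hy
        have h1 : Tendsto R.q (𝓝 y) (𝓝 w) := by
          have := R.continuous_q.tendsto y
          rwa [hy'] at this
        filter_upwards [h1.eventually_mem ((ch w).open_source.mem_nhds (mem_ch w))] with y' h2 h3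
        have h4 : cp (R.q y') = cp w := by
          funext i
          have h5 := h3 i
          rw [finSumFinEquiv_apply_left] at h5
          exact (R.pz_q y' i).trans h5
        exact (isCh_ch w).injOn h2 (mem_ch w) h4 }
  alg := by
    intro y hy
    change R.q y = w
    apply AlgHom.ext
    intro b
    rw [R.q_apply]
    have h1 := hy (R.incl b - algebraMap ℂ R.MK.B (w b)) fun y' hy' => by
      have h2 : R.q y' = w := hy'
      rw [map_sub, AlgHom.commutes, ← R.q_apply, h2]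
      exact sub_self _
    rw [map_sub, AlgHom.commutes] at h1
    exact sub_eq_zero.mp h1

/-- the points of the fibre model are the points of the fibre -/
def fibHomeo (w : R.ML.Pts) (hc : IsConnected (R.q ⁻¹' {w})) :
    (fibSG R w hc).mdl.Pts ≃ₜ R.Fib w := (fibSG R w hc).homeo

lemma fibHomeo_val (w : R.ML.Pts) (hc : IsConnected (R.q ⁻¹' {w}))
    (y : (fibSG R w hc).mdl.Pts) : (fibHomeo R w hc y).val = (fibSG R w hc).ι y := rfl

lemma fibHomeo_cp (w : R.ML.Pts) (hc : IsConnected (R.q ⁻¹' {w}))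
    (y : (fibSG R w hc).mdl.Pts) : cp (fibHomeo R w hc y) = cp y := by
  rw [RMdl.Fib.cp_eq, fibHomeo_val]
  funext j
  rw [R.x_apply]
  have h := (fibSG R w hc).pz_inr y j
  rw [finSumFinEquiv_apply_right] at h
  exact h

/-- connectedness of fibres in the two formulations -/
lemma isConnected_fib {w : R.ML.Pts} [h : ConnectedSpace (R.Fib w)] :
    IsConnected (R.q ⁻¹' {w}) := by
  have h1 : IsConnected (Set.univ : Set (R.Fib w)) := isConnected_univ
  have h2 := h1.image (RMdl.Fib.val (w := w)) (RMdl.Fib.continuous_val w).continuousOn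
  convert! h2 using 1
  ext y
  constructor
  · intro hy
    exact ⟨⟨y, hy⟩, trivial, rfl⟩
  · rintro ⟨y, _, rfl⟩
    exact y.q_eq


end fib

end Crest.Agent.R276.FibN_793
end
end

-- ▼ part R276/FibP_793

/-!
# Row 276 (S0419), RESTR (helper793), part 4: the restricted family is again a relative model

`R : RMdl L K m r`, `S : SG R.ML e c` (connected closed open part `G` of a slice of the base), `q`
surjective with connected fibres.

* `S.up R hs hc` : `q⁻¹ G` in `M_K`, coordinates `eK e`;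
* `S.rmdl R hs hc : RMdl S.F (S.up R hs hc).F a r`;
* `q_ι`, `x_ι`, `surj_rmdl`, `fibH` (the fibres are the same), `fint_rmdl`, `conn_rmdl`.
-/

set_option autoImplicit false

open Topology Filter MeasureTheory
open scoped ENNReal

noncomputable section

namespace Crest.Agent.R276.FibN_793

open Crest.Agent.R271.Defs710 Crest.Agent.R271.Alg255 Crest.Agent.R271.Rd692
open Crest.Agent.R271.AlgB956 Crest.Agent.R271.Ho51
open Crest.Agent.R276.Mod1_987 Crest.Agent.R276.FibM_793 Crest.Agent.R276.AB2_590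
open Crest.Agent.R276.Ipc735 Crest.Agent.R276.VPull_327

/-! ### coordinates -/

section eK

variable {m ρ a : ℕ} (e : Fin ρ ⊕ Fin a ≃ Fin m) (r : ℕ)

/-- splitting of the coordinates of the total space -/
def eK : Fin ρ ⊕ Fin (a + r) ≃ Fin (m + r) :=
  ((Equiv.refl (Fin ρ)).sumCongr finSumFinEquiv.symm).trans
    ((Equiv.sumAssoc (Fin ρ) (Fin a) (Fin r)).symm.trans
      ((e.sumCongr (Equiv.refl (Fin r))).trans finSumFinEquiv))

@[simp] lemma eK_inl (i : Fin ρ) : eK e r (Sum.inl i) = Fin.castAdd r (e (Sum.inl i)) := by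
  simp [eK]

@[simp] lemma eK_inr_left (i : Fin a) :
    eK e r (Sum.inr (Fin.castAdd r i)) = Fin.castAdd r (e (Sum.inr i)) := by
  simp [eK]

@[simp] lemma eK_inr_right (j : Fin r) : eK e r (Sum.inr (Fin.natAdd a j)) = Fin.natAdd m j := by
  simp [eK]

end eK

/-- preimages of preconnected sets under open surjective maps with preconnected fibres -/
theorem preconn_preimage {X Y : Type*} [TopologicalSpace X] [TopologicalSpace Y] {f : Y → X}
    (ho : IsOpenMap f) (hs : Function.Surjective f) (hf : ∀ x, IsPreconnected (f ⁻¹' {x}))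
    {G : Set X} (hG : IsPreconnected G) : IsPreconnected (f ⁻¹' G) := by
  intro U V hU hV hcov hGU hGV
  obtain ⟨u, hu, huU⟩ := hGU
  obtain ⟨v, hv, hvV⟩ := hGV
  have h1 : G ⊆ f '' U ∪ f '' V := by
    intro x hx
    obtain ⟨y, rfl⟩ := hs x
    rcases hcov hx with h | h
    · exact Or.inl ⟨y, h, rfl⟩
    · exact Or.inr ⟨y, h, rfl⟩
  obtain ⟨x, hxG, ⟨y1, hy1, hxy1⟩, ⟨y2, hy2, hxy2⟩⟩ := hG _ _ (ho U hU) (ho V hV) h1
    ⟨f u, hu, ⟨u, huU, rfl⟩⟩ ⟨f v, hv, ⟨v, hvV, rfl⟩⟩
  have h2 : f ⁻¹' {x} ⊆ U ∪ V := by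
    intro y hy
    apply hcov
    have hy' : f y = x := hy
    change f y ∈ G
    rw [hy']
    exact hxG
  obtain ⟨y, hy, hyUV⟩ := hf x U V hU hV h2 ⟨y1, hxy1, hy1⟩ ⟨y2, hxy2, hy2⟩
  have hy' : f y = x := hy
  refine ⟨y, ?_, hyUV⟩
  change f y ∈ G
  rw [hy']
  exact hxG

section up

variable {L K : Type} [Field L] [Field K] [Algebra ℂ L] [Algebra ℂ K] [Algebra L K]
  [IsScalarTower ℂ L K] {m r ρ a : ℕ} (R : RMdl L K m r) {e : Fin ρ ⊕ Fin a ≃ Fin m} {c : Cn ρ}

namespace SG

variable (S : SG R.ML e c) (hs : Function.Surjective R.q)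
  (hc : ∀ w, IsPreconnected (R.q ⁻¹' {w}))

/-- the preimage of `G` in `M_K` -/
def up : SG R.MK (eK e r) c where
  G := R.q ⁻¹' S.G
  isG :=
    { coord := by
        intro y hy i
        rw [eK_inl]
        have h1 := S.isG.coord (R.q y) hy i
        rw [← h1]
        exact (R.pz_q y (e (Sum.inl i))).symm
      ne := by
        obtain ⟨w, hw⟩ := S.isG.ne
        obtain ⟨y, rfl⟩ := hs w
        exact ⟨y, hw⟩
      conn := preconn_preimage R.isOpenMap_q hs hc S.isG.conn
      op := by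
        intro y hy
        filter_upwards [(R.continuous_q.tendsto y).eventually (S.isG.op (R.q y) hy)] with y' h1 h2
        apply h1
        intro i
        have h3 := h2 i
        rw [eK_inl] at h3
        exact (R.pz_q y' (e (Sum.inl i))).trans h3 }
  alg := by
    intro y hy
    apply S.alg
    intro b hb
    rw [R.q_apply]
    apply hy
    intro y' hy'
    rw [← R.q_apply]
    exact hb _ hy'


lemma I_le : S.I ≤ (S.up R hs hc).I.comap R.incl := by
  intro b hb y hy
  rw [← R.q_apply]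
  exact hb _ hy

lemma comap_I : (S.up R hs hc).I.comap R.incl = S.I := by
  refine le_antisymm ?_ (S.I_le R hs hc)
  intro b hb w hw
  obtain ⟨y, rfl⟩ := hs w
  rw [R.q_apply]
  exact hb y hw

/-- the inclusion of the coordinate rings of `G` and `q⁻¹ G` -/
def quo : (R.ML.B ⧸ S.I) →+* (R.MK.B ⧸ (S.up R hs hc).I) :=
  Ideal.quotientMap _ (R.incl : R.ML.B →+* R.MK.B) (S.I_le R hs hc)


lemma quo_injective : Function.Injective (S.quo R hs hc) :=
  Ideal.quotientMap_injective' (S.comap_I R hs hc).le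

/-- the inclusion of the function fields of `G` and `q⁻¹ G` -/
def fld : S.F →+* (S.up R hs hc).F :=
  IsFractionRing.map (A := R.ML.B ⧸ S.I) (B := R.MK.B ⧸ (S.up R hs hc).I)
    (K := FractionRing (R.ML.B ⧸ S.I)) (L := FractionRing (R.MK.B ⧸ (S.up R hs hc).I))
    (S.quo_injective R hs hc)

lemma fld_π (b : R.ML.B) : S.fld R hs hc (S.π b) = (S.up R hs hc).π (R.incl b) := by
  have h := IsLocalization.map_eq (M := nonZeroDivisors (R.ML.B ⧸ S.I))
    (S := FractionRing (R.ML.B ⧸ S.I)) (Q := FractionRing (R.MK.B ⧸ (S.up R hs hc).I))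
    (g := S.quo R hs hc)
    (nonZeroDivisors_le_comap_nonZeroDivisors_of_injective _ (S.quo_injective R hs hc))
    (Ideal.Quotient.mk S.I b)
  exact h

instance : Algebra S.F (S.up R hs hc).F := (S.fld R hs hc).toAlgebra

lemma algebraMap_π (b : R.ML.B) :
    algebraMap S.F (S.up R hs hc).F (S.π b) = (S.up R hs hc).π (R.incl b) := S.fld_π R hs hc b

instance : IsScalarTower ℂ S.F (S.up R hs hc).F := by
  refine IsScalarTower.of_algebraMap_eq fun z => ?_
  rw [← S.π.commutes z, algebraMap_π, AlgHom.commutes, AlgHom.commutes]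

/-- **the restricted relative model** -/
abbrev rmdl : RMdl S.F (S.up R hs hc).F a r where
  ML := S.mdl
  MK := (S.up R hs hc).mdl
  z_eq := by
    intro i
    change (S.up R hs hc).π (R.MK.z (eK e r (Sum.inr (Fin.castAdd r i)))) =
      algebraMap S.F (S.up R hs hc).F (S.π (R.ML.z (e (Sum.inr i))))
    rw [algebraMap_π, eK_inr_left]
    congr 1
    exact Subtype.ext (R.z_eq _)
  incl_mem := by
    intro b
    obtain ⟨b, rfl⟩ := S.res_surjective b
    rw [res_coe, algebraMap_π]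
    exact ⟨R.incl b, rfl⟩



lemma rmdl_incl (b : R.ML.B) :
    (S.rmdl R hs hc).incl (S.res b) = (S.up R hs hc).res (R.incl b) := by
  apply Subtype.ext
  rw [RMdl.incl_coe, res_coe]
  exact S.algebraMap_π R hs hc b

/-- the square commutes -/
theorem q_ι (y : (S.rmdl R hs hc).MK.Pts) :
    R.q ((S.up R hs hc).ι y) = S.ι ((S.rmdl R hs hc).q y) := by
  apply AlgHom.ext
  intro b
  rw [R.q_apply, ι_apply, ι_apply, RMdl.q_apply, rmdl_incl]

/-- the fibre coordinates are the same -/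
theorem x_ι (y : (S.rmdl R hs hc).MK.Pts) :
    R.x ((S.up R hs hc).ι y) = (S.rmdl R hs hc).x y := by
  funext j
  rw [R.x_apply, RMdl.x_apply, ι_apply]
  change y ((S.up R hs hc).res (R.MK.z (Fin.natAdd m j))) =
    y ((S.up R hs hc).res (R.MK.z (eK e r (Sum.inr (Fin.natAdd a j)))))
  rw [eK_inr_right]


/-- the fibres of the restricted family are fibres of the family -/
def fibH (w : (S.rmdl R hs hc).ML.Pts) : (S.rmdl R hs hc).Fib w ≃ₜ R.Fib (S.ι w) :=
  let f : (S.rmdl R hs hc).Fib w → R.Fib (S.ι w) := fun y =>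
    ⟨(S.up R hs hc).ι y.val, by
      have h := S.q_ι R hs hc y.val
      rw [y.q_eq] at h
      exact h⟩
  have hf : IsEmbedding f := by
    have h1 : IsEmbedding (Subtype.val ∘ f) :=
      (S.up R hs hc).isEmbedding_ι.comp IsEmbedding.subtypeVal
    have h2 : Continuous f :=
      ((S.up R hs hc).continuous_ι.comp continuous_subtype_val).subtype_mk _
    exact IsEmbedding.of_comp h2 continuous_subtype_val h1
  have hsur : Function.Surjective f := by
    rintro ⟨y, hy⟩
    have h1 : y ∈ (S.up R hs hc).G := by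
      change R.q y ∈ S.G
      rw [hy]
      exact S.ι_mem w
    obtain ⟨y', rfl⟩ := (S.up R hs hc).exists_pt h1
    refine ⟨⟨y', S.ι_injective ?_⟩, rfl⟩
    rw [← hy]
    exact (S.q_ι R hs hc y').symm
  hf.toHomeomorph.trans ((Homeomorph.setCongr hsur.range_eq).trans (Homeomorph.Set.univ _))

lemma fibH_val (w : (S.rmdl R hs hc).ML.Pts) (y : (S.rmdl R hs hc).Fib w) :
    (S.fibH R hs hc w y).val = (S.up R hs hc).ι y.val := rfl

lemma fibH_cp (w : (S.rmdl R hs hc).ML.Pts) (y : (S.rmdl R hs hc).Fib w) :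
    cp (S.fibH R hs hc w y) = cp y := by
  rw [RMdl.Fib.cp_eq, RMdl.Fib.cp_eq, fibH_val]
  exact S.x_ι R hs hc y.val


/-- values of elements of `B_K` on the fibres -/
lemma fibH_ev (w : (S.rmdl R hs hc).ML.Pts) (y : (S.rmdl R hs hc).Fib w) (b : R.MK.B) :
    ((S.fibH R hs hc w y).val : R.MK.Pts) b =
      (y.val : (S.up R hs hc).mdl.Pts) ((S.up R hs hc).res b) := rfl


/-- fibre sums and fibre integrals are the same -/
theorem fsumR_rmdl (g : R.MK.Pts → ℝ≥0∞) (w : (S.rmdl R hs hc).ML.Pts) (ξ : Cn r) :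
    (S.rmdl R hs hc).fsumR (fun y => g ((S.up R hs hc).ι y)) w ξ = R.fsumR g (S.ι w) ξ := by
  rw [RMdl.fsumR_eq, RMdl.fsumR_eq]
  let E : {y : (S.rmdl R hs hc).Fib w // cp y = ξ} ≃ {y : R.Fib (S.ι w) // cp y = ξ} :=
    (S.fibH R hs hc w).toEquiv.subtypeEquiv fun y => by
      change cp y = ξ ↔ cp (S.fibH R hs hc w y) = ξ
      rw [fibH_cp]
  exact E.tsum_eq (fun y : {y : R.Fib (S.ι w) // cp y = ξ} => g y.1.val)

theorem fint_rmdl (g : R.MK.Pts → ℝ≥0∞) (w : (S.rmdl R hs hc).ML.Pts) :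
    (S.rmdl R hs hc).fint w (fun y => g ((S.up R hs hc).ι y)) = R.fint (S.ι w) g :=
  lintegral_congr fun ξ => S.fsumR_rmdl R hs hc g w ξ

end SG

end up

end Crest.Agent.R276.FibN_793
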