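import Mathlib

-- ▼ part R276/FinA_39
section

/-!
# R276 leaf FIN, part A (helper39): functions of finite rank on the line

`RankLE b f`: all `(b+1) x (b+1)` minors of `(x, y) ↦ f (x + y)` vanish.
* `repr_of_rankLE`: the translates of `f` span a finite-dimensional space, explicitly.
* `eq_zero_of_tendsto`: a bounded function of finite rank which tends to `0` at `-∞` is `0`.
* `rankLE_of_sum`: `f (x + y) = ∑ U i x * V i y` gives `RankLE`.
-/

namespace Crest.Agent.R276.FinA_39

open Filter Topology Matrix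

/-- All `(b+1) × (b+1)` minors of `(x, y) ↦ f (x + y)` vanish. -/
def RankLE (b : ℕ) (f : ℝ → ℝ) : Prop :=
  ∀ u v : Fin (b + 1) → ℝ, (Matrix.of fun i j => f (u i + v j)).det = 0

/-- a product through a smaller index set has determinant zero -/
theorem det_mul_eq_zero {K : Type*} [Field K] {m n : ℕ} (h : m < n)
    (A : Matrix (Fin n) (Fin m) K) (B : Matrix (Fin m) (Fin n) K) : (A * B).det = 0 := by
  have hker : LinearMap.ker (Matrix.mulVecLin B) ≠ ⊥ := by
    apply LinearMap.ker_ne_bot_of_finrank_lt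
    simpa using h
  obtain ⟨v, hv, hv0⟩ := (Submodule.ne_bot_iff _).1 hker
  rw [← Matrix.exists_mulVec_eq_zero_iff]
  refine ⟨v, hv0, ?_⟩
  rw [← Matrix.mulVec_mulVec]
  have : B *ᵥ v = 0 := by simpa using hv
  rw [this, Matrix.mulVec_zero]

theorem rankLE_of_sum {b : ℕ} {f : ℝ → ℝ} (U V : Fin b → ℝ → ℝ)
    (h : ∀ x y, f (x + y) = ∑ i, U i x * V i y) : RankLE b f := by
  intro u v
  have : (Matrix.of fun i j => f (u i + v j)) =
      (Matrix.of fun i k => U k (u i)) * (Matrix.of fun k j => V k (v j)) := by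
    ext i j
    simp [Matrix.mul_apply, h]
  rw [this]
  exact det_mul_eq_zero (Nat.lt_succ_self b) _ _


/-- The translates of a function of finite rank span a finite-dimensional space; explicit
coefficients which are linear combinations of `f (t + v j)`. -/
theorem repr_of_rankLE {b : ℕ} {f : ℝ → ℝ} (h : RankLE b f) :
    ∃ (r : ℕ) (u v : Fin r → ℝ) (N : Matrix (Fin r) (Fin r) ℝ),
      ∀ t y, f (t + y) = ∑ i, ∑ j, f (t + v j) * N j i * f (u i + y) := by
  classical
  -- the least `r` such that all `(r+1)`-minors vanish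
  have hex : ∃ r, RankLE r f := ⟨b, h⟩
  obtain ⟨r, hr, hmin⟩ : ∃ r, RankLE r f ∧ ∀ s < r, ¬ RankLE s f :=
    ⟨Nat.find hex, Nat.find_spec hex, fun s hs => Nat.find_min hex hs⟩
  have hne : ∃ u v : Fin r → ℝ, (Matrix.of fun i j => f (u i + v j)).det ≠ 0 := by
    rcases Nat.eq_zero_or_pos r with h0 | hpos
    · subst h0
      exact ⟨fun i => 0, fun i => 0, by simp⟩
    · obtain ⟨s, rfl⟩ : ∃ s, r = s + 1 := ⟨r - 1, by omega⟩
      have := hmin s (Nat.lt_succ_self s)
      unfold RankLE at this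
      push Not at this
      exact this
  obtain ⟨u, v, hM⟩ := hne
  set M : Matrix (Fin r) (Fin r) ℝ := Matrix.of fun i j => f (u i + v j) with hMdef
  refine ⟨r, u, v, M⁻¹, fun t y => ?_⟩
  -- bordered determinant
  have hunit : IsUnit M.det := isUnit_iff_ne_zero.2 hM
  letI : Invertible M := Matrix.invertibleOfIsUnitDet M hunit
  let B : Matrix (Fin r) (Fin 1) ℝ := Matrix.of fun i _ => f (u i + y)
  let C : Matrix (Fin 1) (Fin r) ℝ := Matrix.of fun _ j => f (t + v j)
  let D : Matrix (Fin 1) (Fin 1) ℝ := Matrix.of fun _ _ => f (t + y)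
  have hdet : (Matrix.fromBlocks M B C D).det = 0 := by
    have hr' := hr (fun i => Sum.elim u (fun _ : Fin 1 => t) (finSumFinEquiv.symm i))
      (fun j => Sum.elim v (fun _ : Fin 1 => y) (finSumFinEquiv.symm j))
    have hre : (Matrix.of fun i j : Fin (r + 1) =>
        f (Sum.elim u (fun _ : Fin 1 => t) (finSumFinEquiv.symm i) +
          Sum.elim v (fun _ : Fin 1 => y) (finSumFinEquiv.symm j))) =
        (Matrix.fromBlocks M B C D).submatrix finSumFinEquiv.symm finSumFinEquiv.symm := by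
      ext i j
      rcases hi : (finSumFinEquiv.symm i : Fin r ⊕ Fin 1) with i' | i' <;>
      rcases hj : (finSumFinEquiv.symm j : Fin r ⊕ Fin 1) with j' | j' <;>
      simp [hi, hj, B, C, D, M]
    rw [hre, Matrix.det_submatrix_equiv_self] at hr'
    exact hr'
  rw [Matrix.det_fromBlocks₁₁] at hdet
  have hz : (D - C * ⅟M * B).det = 0 := by
    rcases mul_eq_zero.1 hdet with h1 | h1
    · exact absurd h1 hM
    · exact h1
  rw [Matrix.det_unique] at hz
  have hz' : f (t + y) = (C * ⅟M * B) default default := by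
    simpa [D, sub_eq_zero] using hz
  rw [hz', Matrix.mul_apply]
  refine Finset.sum_congr rfl fun i _ => ?_
  rw [Matrix.mul_apply, Finset.sum_mul]
  refine Finset.sum_congr rfl fun j _ => ?_
  simp [B, C, Matrix.invOf_eq_nonsing_inv]

/-- A bounded function of finite rank tending to `0` at `-∞` vanishes identically. -/
theorem eq_zero_of_tendsto {b : ℕ} {g : ℝ → ℝ} (h : RankLE b g) {K : ℝ} (hK : ∀ x, |g x| ≤ K)
    (hlim : Tendsto g atBot (𝓝 0)) (x : ℝ) : g x = 0 := by
  obtain ⟨r, u, v, N, hrep⟩ := repr_of_rankLE h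
  have hlimc : Tendsto (fun t => ∑ i, ∑ j, |g (t + v j)| * |N j i| * K) atBot (𝓝 0) := by
    have : (0 : ℝ) = ∑ i : Fin r, ∑ j : Fin r, |(0 : ℝ)| * |N j i| * K := by simp
    rw [this]
    refine tendsto_finsetSum _ fun i _ => tendsto_finsetSum _ fun j _ => ?_
    refine Tendsto.mul_const _ (Tendsto.mul_const _ (Tendsto.abs ?_))
    exact hlim.comp (tendsto_atBot_add_const_right _ _ tendsto_id)
  by_contra hx
  have hpos : 0 < |g x| := abs_pos.2 hx
  obtain ⟨t, ht⟩ := ((hlimc.eventually (gt_mem_nhds hpos))).exists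
  have h1 : |g x| ≤ ∑ i, ∑ j, |g (t + v j)| * |N j i| * K := by
    have h2 := hrep t (x - t)
    rw [add_sub_cancel] at h2
    rw [h2]
    refine (Finset.abs_sum_le_sum_abs _ _).trans (Finset.sum_le_sum fun i _ => ?_)
    refine (Finset.abs_sum_le_sum_abs _ _).trans (Finset.sum_le_sum fun j _ => ?_)
    rw [abs_mul, abs_mul]
    exact mul_le_mul_of_nonneg_left (hK _) (by positivity)
  exact absurd h1 (not_le.2 ht)

/-- adding `α + β e^{p x}` keeps finite rank -/
theorem rankLE_sub_exp {b : ℕ} {f : ℝ → ℝ} (h : RankLE b f) (α β p : ℝ) :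
    ∃ b', RankLE b' (fun u => α + β * Real.exp (p * u) - f u) := by
  obtain ⟨r, u, v, N, hrep⟩ := repr_of_rankLE h
  refine ⟨r + 1 + 1, rankLE_of_sum
    (Fin.cons (fun _ => α) (Fin.cons (fun x => β * Real.exp (p * x))
      (fun i x => - ∑ j, f (x + v j) * N j i)))
    (Fin.cons (fun _ => 1) (Fin.cons (fun x => Real.exp (p * x)) (fun i y => f (u i + y)))) ?_⟩
  intro x y
  rw [Fin.sum_univ_succ, Fin.sum_univ_succ]
  simp only [Fin.cons_zero, Fin.cons_succ]
  rw [hrep x y]
  simp only [neg_mul, Finset.sum_neg_distrib, Finset.sum_mul]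
  rw [mul_add, Real.exp_add]
  ring

/-- The punch line of FIN in dimension one: `J` of finite rank, squeezed between the two
pure regimes, is impossible. -/
theorem no_gap {b : ℕ} {J : ℝ → ℝ} (h : RankLE b J) {α β p : ℝ} (hp : 0 < p)
    (hlow : ∀ u, 0 ≤ α + β * Real.exp (p * u) - J u)
    (h1 : ∀ u, α + β * Real.exp (p * u) - J u ≤ 2 * α)
    (h2 : ∀ u, α + β * Real.exp (p * u) - J u ≤ 2 * (β * Real.exp (p * u))) (u : ℝ) :
    J u = α + β * Real.exp (p * u) := by
  obtain ⟨b', hb'⟩ := rankLE_sub_exp h α β p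
  have hexp : Tendsto (fun u : ℝ => 2 * (β * Real.exp (p * u))) atBot (𝓝 0) := by
    have : Tendsto (fun u : ℝ => Real.exp (p * u)) atBot (𝓝 0) :=
      Real.tendsto_exp_atBot.comp (Tendsto.const_mul_atBot hp tendsto_id)
    simpa using (this.const_mul β).const_mul 2
  have hlim : Tendsto (fun u => α + β * Real.exp (p * u) - J u) atBot (𝓝 0) :=
    tendsto_of_tendsto_of_tendsto_of_le_of_le tendsto_const_nhds hexp hlow h2
  have := eq_zero_of_tendsto hb' (K := 2 * α) (fun x => by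
    rw [abs_of_nonneg (hlow x)]; exact h1 x) hlim u
  linarith

end Crest.Agent.R276.FinA_39
end

-- ▼ part R276/FinB_39
section

/-!
# R276 leaf FIN, part B (helper39): local sesquilinear finite rank implies `RankLE`

If `f (Re z) = ∑ H i j * P i z * conj (P j z)` near one point of every vertical line
(`P i` holomorphic, `H` constant), then `f` is real analytic on `ℝ` and of rank `≤ b`.
-/

namespace Crest.Agent.R276.FinB_39

open Filter Topology Matrix Complex ComplexConjugate Metric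
open Crest.Agent.R276.FinA_39

theorem eqOn_of_real {h : ℂ → ℂ} {c ρ : ℝ} (hd : DifferentiableOn ℂ h (ball (c : ℂ) ρ))
    (hz : ∀ x : ℝ, |x - c| < ρ → h x = 0) : ∀ z ∈ ball (c : ℂ) ρ, h z = 0 := by
  intro z hzm
  have hρ : 0 < ρ := lt_of_le_of_lt dist_nonneg (mem_ball.1 hzm)
  have han : AnalyticOnNhd ℂ h (ball (c : ℂ) ρ) := hd.analyticOnNhd isOpen_ball
  have hfreq : ∃ᶠ w in 𝓝[≠] (c : ℂ), h w = 0 := by
    have ht : Tendsto (fun x : ℝ => (x : ℂ)) (𝓝[≠] c) (𝓝[≠] (c : ℂ)) := by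
      apply tendsto_nhdsWithin_of_tendsto_nhds_of_eventually_within
      · exact (Complex.continuous_ofReal.tendsto c).mono_left nhdsWithin_le_nhds
      · filter_upwards [self_mem_nhdsWithin] with x hx
        simpa using hx
    refine ht.frequently (Eventually.frequently ?_)
    have : ∀ᶠ x : ℝ in 𝓝 c, |x - c| < ρ := by
      have := ball_mem_nhds c hρ
      filter_upwards [this] with x hx
      simpa [Real.dist_eq] using hx
    filter_upwards [nhdsWithin_le_nhds this] with x hx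
    exact hz x hx
  exact han.eqOn_zero_of_preconnected_of_frequently_eq_zero
    (convex_ball _ _).isPreconnected (mem_ball_self hρ) hfreq hzm

/-- the reflected function `w ↦ conj (P (conj w))` -/
noncomputable def refl (P : ℂ → ℂ) (w : ℂ) : ℂ := conj (P (conj w))

theorem refl_differentiableOn {P : ℂ → ℂ} {c δ : ℝ}
    (hP : DifferentiableOn ℂ P (ball (c : ℂ) δ)) :
    DifferentiableOn ℂ (refl P) (ball (c : ℂ) δ) := by
  intro w hw
  have hw' : conj w ∈ ball (c : ℂ) δ := by
    rw [mem_ball, dist_eq_norm] at hw ⊢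
    have : conj w - (c : ℂ) = conj (w - c) := by simp
    rw [this, RCLike.norm_conj]
    exact hw
  have hd : DifferentiableAt ℂ P (conj w) := (hP _ hw').differentiableAt (isOpen_ball.mem_nhds hw')
  have := hd.hasDerivAt.conj_conj
  simp only [Complex.conj_conj] at this
  exact this.differentiableAt.differentiableWithinAt

section polar

variable {b : ℕ} {f : ℝ → ℝ} {t0 δ : ℝ} (P : Fin b → ℂ → ℂ) (H : Matrix (Fin b) (Fin b) ℂ)

/-- the polarised kernel -/
noncomputable def G (X Y : ℂ) : ℂ := ∑ i, ∑ j, H i j * P i (X + I * Y) * refl (P j) (X - I * Y)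

variable {P H}

theorem G_real (hf : ∀ z ∈ ball (t0 : ℂ) δ, (f z.re : ℂ) = ∑ i, ∑ j, H i j * P i z * conj (P j z))
    {x y : ℝ} (h : ((x : ℂ) + I * y) ∈ ball (t0 : ℂ) δ) : G P H x y = f x := by
  have := hf _ h
  simp only [add_re, ofReal_re, mul_re, I_re, zero_mul, I_im, one_mul, ofReal_im, sub_zero,
    add_zero] at this
  rw [this]
  unfold G refl
  refine Finset.sum_congr rfl fun i _ => Finset.sum_congr rfl fun j _ => ?_
  congr 3
  simp

theorem mem1 {X Y : ℂ} (hX : X ∈ ball (t0 : ℂ) (δ / 2)) (hY : Y ∈ ball (0 : ℂ) (δ / 2)) :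
    X + I * Y ∈ ball (t0 : ℂ) δ := by
  rw [mem_ball, dist_eq_norm] at *
  have : X + I * Y - t0 = (X - t0) + I * Y := by ring
  rw [this]
  refine (norm_add_le _ _).trans_lt ?_
  rw [norm_mul, Complex.norm_I, one_mul]
  simp only [sub_zero] at hY
  linarith

theorem mem2 {X Y : ℂ} (hX : X ∈ ball (t0 : ℂ) (δ / 2)) (hY : Y ∈ ball (0 : ℂ) (δ / 2)) :
    X - I * Y ∈ ball (t0 : ℂ) δ := by
  have := mem1 (t0 := t0) hX (Y := -Y) (by simpa using hY)
  simpa [sub_eq_add_neg] using this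

theorem G_diff1 (hP : ∀ i, DifferentiableOn ℂ (P i) (ball (t0 : ℂ) δ)) {Y : ℂ}
    (hY : Y ∈ ball (0 : ℂ) (δ / 2)) :
    DifferentiableOn ℂ (fun X => G P H X Y) (ball (t0 : ℂ) (δ / 2)) := by
  unfold G
  refine DifferentiableOn.fun_sum fun i _ => DifferentiableOn.fun_sum fun j _ => ?_
  refine DifferentiableOn.mul (DifferentiableOn.const_mul ?_ _) ?_
  · exact (hP i).comp (by fun_prop) (fun X hX => mem1 hX hY)
  · exact (refl_differentiableOn (hP j)).comp (by fun_prop) (fun X hX => mem2 hX hY)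

theorem G_diff2 (hP : ∀ i, DifferentiableOn ℂ (P i) (ball (t0 : ℂ) δ)) {X : ℂ}
    (hX : X ∈ ball (t0 : ℂ) (δ / 2)) :
    DifferentiableOn ℂ (fun Y => G P H X Y) (ball ((0 : ℝ) : ℂ) (δ / 2)) := by
  unfold G
  refine DifferentiableOn.fun_sum fun i _ => DifferentiableOn.fun_sum fun j _ => ?_
  refine DifferentiableOn.mul (DifferentiableOn.const_mul ?_ _) ?_
  · exact (hP i).comp (by fun_prop) (fun Y hY => mem1 hX (by simpa using hY))
  · exact (refl_differentiableOn (hP j)).comp (by fun_prop) (fun Y hY => mem2 hX (by simpa using hY))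

theorem G_eq (hδ : 0 < δ) (hP : ∀ i, DifferentiableOn ℂ (P i) (ball (t0 : ℂ) δ))
    (hf : ∀ z ∈ ball (t0 : ℂ) δ, (f z.re : ℂ) = ∑ i, ∑ j, H i j * P i z * conj (P j z))
    {X Y : ℂ} (hX : X ∈ ball (t0 : ℂ) (δ / 2)) (hY : Y ∈ ball (0 : ℂ) (δ / 2)) :
    G P H X Y = G P H X 0 := by
  have h0 : (0 : ℂ) ∈ ball (0 : ℂ) (δ / 2) := mem_ball_self (by linarith)
  -- step 2
  have step2 : ∀ y : ℝ, |y| < δ / 2 → ∀ X ∈ ball (t0 : ℂ) (δ / 2), G P H X y - G P H X 0 = 0 := by
    intro y hy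
    have hyb : (y : ℂ) ∈ ball (0 : ℂ) (δ / 2) := by simpa using hy
    refine eqOn_of_real ((G_diff1 hP hyb).sub (G_diff1 hP h0)) fun x hx => ?_
    have hxb : (x : ℂ) ∈ ball (t0 : ℂ) (δ / 2) := by
      rw [mem_ball, dist_eq_norm, ← ofReal_sub, Complex.norm_real]; exact hx
    have e1 := G_real hf (x := x) (y := y) (mem1 hxb hyb)
    have e2 := G_real hf (x := x) (y := 0) (mem1 hxb (by simpa using h0))
    simp only [ofReal_zero] at e2
    rw [e1, e2, sub_self]
  have := eqOn_of_real (c := 0) (ρ := δ / 2) (h := fun Y => G P H X Y - G P H X 0)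
    ((G_diff2 hP hX).sub (differentiableOn_const _)) (fun y hy => by
      simpa using step2 y (by simpa using hy) X hX) Y (by simpa using hY)
  exact sub_eq_zero.1 this

theorem polar (hδ : 0 < δ) (hP : ∀ i, DifferentiableOn ℂ (P i) (ball (t0 : ℂ) δ))
    (hf : ∀ z ∈ ball (t0 : ℂ) δ, (f z.re : ℂ) = ∑ i, ∑ j, H i j * P i z * conj (P j z))
    {x y : ℝ} (hx : |x - t0| < δ / 2) (hy : |y - t0| < δ / 2) :
    (f ((x + y) / 2) : ℂ) = ∑ i, (∑ j, H j i * P j x) * conj (P i y) := by
  set X : ℂ := (((x + y) / 2 : ℝ) : ℂ) with hXd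
  set Y : ℂ := - I * (((x - y) / 2 : ℝ) : ℂ) with hYd
  have hX : X ∈ ball (t0 : ℂ) (δ / 2) := by
    rw [mem_ball, dist_eq_norm, hXd, ← ofReal_sub, Complex.norm_real, Real.norm_eq_abs]
    rw [abs_lt] at *
    constructor <;> linarith
  have hY : Y ∈ ball (0 : ℂ) (δ / 2) := by
    rw [mem_ball, dist_eq_norm, sub_zero, hYd, norm_mul, norm_neg, Complex.norm_I, one_mul,
      Complex.norm_real, Real.norm_eq_abs]
    rw [abs_lt] at *
    constructor <;> linarith
  have h1 : X + I * Y = x := by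
    rw [hXd, hYd]; push_cast; ring_nf; rw [I_sq]; ring
  have h2 : X - I * Y = y := by
    rw [hXd, hYd]; push_cast; ring_nf; rw [I_sq]; ring
  have h3 : G P H X 0 = f ((x + y) / 2) := by
    have := G_real hf (x := (x + y) / 2) (y := 0) (by
      have := mem1 hX (Y := 0) (mem_ball_self (by linarith))
      simpa [hXd] using this)
    simpa [hXd] using this
  rw [← h3, ← G_eq hδ hP hf hX hY]
  unfold G
  rw [h1, h2, Finset.sum_comm]
  refine Finset.sum_congr rfl fun j _ => ?_
  rw [Finset.sum_mul]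
  refine Finset.sum_congr rfl fun i _ => ?_
  simp [refl]

theorem analyticAt_of_local (hδ : 0 < δ) (hP : ∀ i, DifferentiableOn ℂ (P i) (ball (t0 : ℂ) δ))
    (hf : ∀ z ∈ ball (t0 : ℂ) δ, (f z.re : ℂ) = ∑ i, ∑ j, H i j * P i z * conj (P j z)) :
    AnalyticAt ℝ f t0 := by
  have h0 : (0 : ℂ) ∈ ball (0 : ℂ) (δ / 2) := mem_ball_self (by linarith)
  have hd : DifferentiableOn ℂ (fun X => G P H X 0) (ball (t0 : ℂ) (δ / 2)) := G_diff1 hP h0
  have ha : AnalyticAt ℂ (fun X => G P H X 0) (t0 : ℂ) :=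
    hd.analyticAt (ball_mem_nhds _ (by linarith))
  have ha' : AnalyticAt ℝ (fun x : ℝ => (G P H (x : ℂ) 0).re) t0 := by
    have h1 : AnalyticAt ℝ (fun X => G P H X 0) (t0 : ℂ) := ha.restrictScalars
    have h2 : AnalyticAt ℝ (fun x : ℝ => (x : ℂ)) t0 := Complex.ofRealCLM.analyticAt t0
    have h3 : AnalyticAt ℝ (fun x : ℝ => G P H (x : ℂ) 0) t0 := h1.comp h2
    exact (Complex.reCLM.analyticAt _).comp h3
  refine ha'.congr ?_
  have : ∀ᶠ x : ℝ in 𝓝 t0, |x - t0| < δ / 2 := by
    have := ball_mem_nhds t0 (show 0 < δ / 2 by linarith)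
    filter_upwards [this] with x hx
    simpa [Real.dist_eq] using hx
  filter_upwards [this] with x hx
  have hxb : (x : ℂ) ∈ ball (t0 : ℂ) (δ / 2) := by
    rw [mem_ball, dist_eq_norm, ← ofReal_sub, Complex.norm_real]; exact hx
  have e2 := G_real hf (x := x) (y := 0) (mem1 hxb (by simpa using h0))
  simp only [ofReal_zero] at e2
  simp [e2]

end polar

/-- analytic + locally of rank `≤ b` implies globally of rank `≤ b` -/
theorem rankLE_global {b : ℕ} {f : ℝ → ℝ} (hf : AnalyticOnNhd ℝ f Set.univ) {t0 δ : ℝ}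
    (hδ : 0 < δ) (U V : Fin b → ℝ → ℂ)
    (h : ∀ x y, |x - t0| < δ → |y - t0| < δ → (f ((x + y) / 2) : ℂ) = ∑ i, U i x * V i y) :
    RankLE b f := by
  classical
  set D : ((Fin (b + 1) → ℝ) × (Fin (b + 1) → ℝ)) → ℝ := fun w =>
    (Matrix.of fun i j => f (w.1 i + w.2 j)).det with hD
  have hDan : AnalyticOnNhd ℝ D Set.univ := by
    rw [hD]
    simp only [Matrix.det_apply]
    refine Finset.analyticOnNhd_fun_sum _ fun σ _ => ?_
    refine AnalyticOnNhd.const_smul ?_
    refine Finset.analyticOnNhd_fun_prod _ fun i _ => ?_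
    simp only [Matrix.of_apply]
    intro w _
    have hlin : AnalyticAt ℝ (fun w : (Fin (b + 1) → ℝ) × (Fin (b + 1) → ℝ) =>
        w.1 (σ i) + w.2 i) w := by
      have h1 : AnalyticAt ℝ (fun w : (Fin (b + 1) → ℝ) × (Fin (b + 1) → ℝ) => w.1 (σ i)) w :=
        ((ContinuousLinearMap.proj (R := ℝ) (φ := fun _ : Fin (b + 1) => ℝ) (σ i)).comp
          (ContinuousLinearMap.fst ℝ (Fin (b + 1) → ℝ) (Fin (b + 1) → ℝ))).analyticAt w
      have h2 : AnalyticAt ℝ (fun w : (Fin (b + 1) → ℝ) × (Fin (b + 1) → ℝ) => w.2 i) w :=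
        ((ContinuousLinearMap.proj (R := ℝ) (φ := fun _ : Fin (b + 1) => ℝ) i).comp
          (ContinuousLinearMap.snd ℝ (Fin (b + 1) → ℝ) (Fin (b + 1) → ℝ))).analyticAt w
      exact h1.add h2
    exact (hf _ (Set.mem_univ _)).comp hlin
  set w0 : (Fin (b + 1) → ℝ) × (Fin (b + 1) → ℝ) := (fun _ => t0 / 2, fun _ => t0 / 2) with hw0
  have hev : D =ᶠ[𝓝 w0] 0 := by
    have hball := ball_mem_nhds w0 (show 0 < δ / 2 by linarith)
    filter_upwards [hball] with w hw
    have hw1 : ∀ i, |2 * w.1 i - t0| < δ := by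
      intro i
      have : dist w.1 w0.1 < δ / 2 := lt_of_le_of_lt (le_max_left _ _) hw
      have := lt_of_le_of_lt (dist_le_pi_dist w.1 w0.1 i) this
      rw [Real.dist_eq] at this
      simp only [hw0] at this
      rw [abs_lt] at *
      constructor <;> linarith
    have hw2 : ∀ i, |2 * w.2 i - t0| < δ := by
      intro i
      have : dist w.2 w0.2 < δ / 2 := lt_of_le_of_lt (le_max_right _ _) hw
      have := lt_of_le_of_lt (dist_le_pi_dist w.2 w0.2 i) this
      rw [Real.dist_eq] at this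
      simp only [hw0] at this
      rw [abs_lt] at *
      constructor <;> linarith
    have hc : ((D w : ℝ) : ℂ) = 0 := by
      have e1 : ((D w : ℝ) : ℂ) =
          ((Matrix.of fun i j => f (w.1 i + w.2 j)).map (Complex.ofRealHom)).det := by
        rw [hD]
        exact (RingHom.map_det Complex.ofRealHom _)
      rw [e1]
      have e2 : ((Matrix.of fun i j => f (w.1 i + w.2 j)).map (Complex.ofRealHom)) =
          (Matrix.of fun i k => U k (2 * w.1 i)) * (Matrix.of fun k j => V k (2 * w.2 j)) := by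
        ext i j
        simp only [Matrix.map_apply, Matrix.of_apply, Matrix.mul_apply, Complex.ofRealHom_eq_coe]
        rw [← h _ _ (hw1 i) (hw2 j)]
        congr 2
        ring
      rw [e2]
      exact det_mul_eq_zero (Nat.lt_succ_self b) _ _
    simpa using hc
  have := hDan.eqOn_zero_of_preconnected_of_eventuallyEq_zero isPreconnected_univ
    (Set.mem_univ w0) hev
  intro u v
  exact this (Set.mem_univ (u, v))

/-- Main result of this file. -/
theorem rankLE_of_vertical {b : ℕ} {f : ℝ → ℝ}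
    (h : ∀ t0 : ℝ, ∃ (θ δ : ℝ) (P : Fin b → ℂ → ℂ) (H : Matrix (Fin b) (Fin b) ℂ), 0 < δ ∧
      (∀ i, DifferentiableOn ℂ (P i) (ball ((t0 : ℂ) + I * θ) δ)) ∧
      ∀ z ∈ ball ((t0 : ℂ) + I * θ) δ, (f z.re : ℂ) = ∑ i, ∑ j, H i j * P i z * conj (P j z)) :
    RankLE b f := by
  have h' : ∀ t0 : ℝ, ∃ (δ : ℝ) (P : Fin b → ℂ → ℂ) (H : Matrix (Fin b) (Fin b) ℂ), 0 < δ ∧
      (∀ i, DifferentiableOn ℂ (P i) (ball (t0 : ℂ) δ)) ∧
      ∀ z ∈ ball (t0 : ℂ) δ, (f z.re : ℂ) = ∑ i, ∑ j, H i j * P i z * conj (P j z) := by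
    intro t0
    obtain ⟨θ, δ, P, H, hδ, hP, hf⟩ := h t0
    have hmem : ∀ z ∈ ball (t0 : ℂ) δ, z + I * θ ∈ ball ((t0 : ℂ) + I * θ) δ := by
      intro z hz
      rw [mem_ball, dist_eq_norm] at *
      simpa using hz
    refine ⟨δ, fun i z => P i (z + I * θ), H, hδ, fun i => ?_, fun z hz => ?_⟩
    · exact (hP i).comp (by fun_prop) hmem
    · have := hf _ (hmem z hz)
      simpa using this
  obtain ⟨δ, P, H, hδ, hP, hf⟩ := h' 0
  refine rankLE_global (t0 := 0) (δ := δ / 2) (fun t0 _ => ?_) (by linarith)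
    (fun i x => ∑ j, H j i * P j x) (fun i y => conj (P i y)) (fun x y hx hy => ?_)
  · obtain ⟨δ, P, H, hδ, hP, hf⟩ := h' t0
    exact analyticAt_of_local hδ hP hf
  · exact polar hδ hP hf hx hy

end Crest.Agent.R276.FinB_39
end

-- ▼ part R276/FinC_39

/-!
# R276 leaf FIN, part C (helper39): one-parameter groups preserving a `p`-norm of finite rank

`V` finite-dimensional complex space, `Φ : V → ℝ` a "p-norm" (`FinNorm`), locally
`Φ = ∑ H i j * P i * conj (P j)` with holomorphic `P i` on `{Q ≠ 0}` (`LocRank`).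
Then a one-parameter group `exp (θ B)` preserving `Φ` has no two eigenvectors with
different eigenvalues (`no_two_eigenvalues`).
-/

namespace Crest.Agent.R276.FinC_39

open Filter Topology Matrix Complex ComplexConjugate Metric
open Crest.Agent.R276.FinA_39 Crest.Agent.R276.FinB_39

variable {V : Type*} [NormedAddCommGroup V] [NormedSpace ℂ V] [FiniteDimensional ℂ V]

/-- `Φ` is locally of finite rank `b` at the points where `Q ≠ 0`. -/
def LocRank (b : ℕ) (Φ : V → ℝ) (Q : V → ℂ) : Prop :=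
  ∀ σ, Q σ ≠ 0 → ∃ (δ : ℝ) (P : Fin b → V → ℂ) (H : Matrix (Fin b) (Fin b) ℂ), 0 < δ ∧
    (∀ i, DifferentiableOn ℂ (P i) (ball σ δ)) ∧
    ∀ τ ∈ ball σ δ, (Φ τ : ℂ) = ∑ i, ∑ j, H i j * P i τ * conj (P j τ)

/-- the abstract properties of `Φ σ = ∫ |σ|^p`, `0 < p ≤ 1` -/
structure FinNorm (p : ℝ) (Φ : V → ℝ) : Prop where
  hp : 0 < p
  cont : Continuous Φ
  hom : ∀ (c : ℂ) σ, Φ (c • σ) = ‖c‖ ^ p * Φ σ
  sub : ∀ a b, Φ (a + b) ≤ Φ a + Φ b
  strict : ∀ a b, a ≠ 0 → b ≠ 0 → Φ (a + b) + Φ (a - b) < 2 * (Φ a + Φ b)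
  pos : ∀ a, a ≠ 0 → 0 < Φ a

section flow

variable (B : V →L[ℂ] V)

/-- the complex flow of `-i B` -/
noncomputable def flow (z : ℂ) : V →L[ℂ] V := NormedSpace.exp ((-I * z) • B)

theorem flow_zero : flow B 0 = 1 := by simp [flow]

theorem flow_add (z w : ℂ) : flow B (z + w) = flow B z * flow B w := by
  have hc : Commute ((-I * z) • B) ((-I * w) • B) :=
    ((Commute.refl B).smul_left _).smul_right _
  unfold flow
  rw [mul_add, add_smul]
  haveI := FiniteDimensional.complete ℂ V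
  exact NormedSpace.exp_add_of_commute_of_mem_ball (𝕂 := ℂ) (𝔸 := V →L[ℂ] V) hc
    ((NormedSpace.expSeries_radius_eq_top ℂ (V →L[ℂ] V)).symm ▸ edist_lt_top _ _)
    ((NormedSpace.expSeries_radius_eq_top ℂ (V →L[ℂ] V)).symm ▸ edist_lt_top _ _)

theorem flow_I (θ : ℝ) : flow B (I * θ) = NormedSpace.exp ((θ : ℂ) • B) := by
  unfold flow
  congr 2
  rw [← mul_assoc, neg_mul, I_mul_I]; simp

theorem differentiable_flow (σ : V) : Differentiable ℂ (fun z => flow B z σ) := by
  haveI := FiniteDimensional.complete ℂ V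
  have h1 : Differentiable ℂ (fun z : ℂ => flow B z) := by
    intro z
    have := hasDerivAt_exp_smul_const (𝕂 := ℂ) (𝔸 := V →L[ℂ] V) B (-I * z)
    have h2 : HasDerivAt (fun z : ℂ => -I * z) (-I) z := by
      simpa using (hasDerivAt_id z).const_mul (-I)
    exact (this.scomp z h2).differentiableAt
  intro z
  exact (h1 z).clm_apply (differentiableAt_const σ)

theorem exp_apply_of_eigen {c : V →L[ℂ] V} {μ : ℂ} {v : V} (h : c v = μ • v) :
    NormedSpace.exp c v = Complex.exp μ • v := by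
  have hpow : ∀ n : ℕ, (c ^ n) v = μ ^ n • v := by
    intro n
    induction n with
    | zero => simp
    | succ n ih =>
      rw [pow_succ', ContinuousLinearMap.mul_apply, ih, map_smul, h, smul_smul, pow_succ]
  have h1 := (NormedSpace.exp_series_hasSum_exp' (𝕂 := ℂ) c).mapL
    (ContinuousLinearMap.apply ℂ V v)
  have h2 := (NormedSpace.exp_series_hasSum_exp' (𝕂 := ℂ) μ).smul_const v
  rw [← Complex.exp_eq_exp_ℂ] at h2
  refine h1.unique ?_
  convert h2 using 2 with n
  simp [hpow, smul_smul]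

theorem flow_eigen {μ : ℝ} {v : V} (h : B v = (I * μ) • v) (z : ℂ) :
    flow B z v = Complex.exp (μ * z) • v := by
  unfold flow
  rw [exp_apply_of_eigen (μ := μ * z)]
  rw [ContinuousLinearMap.smul_apply, h, smul_smul]
  congr 1
  linear_combination (-(μ : ℂ) * z) * I_mul_I

end flow

variable {p : ℝ} {Φ : V → ℝ} {b : ℕ} {Q : V → ℂ}

/-- `{Q ≠ 0}` is dense. -/
theorem dense_ne (hQ : Differentiable ℂ Q) (hne : ∃ σ, Q σ ≠ 0) : Dense {σ | Q σ ≠ 0} := by
  rw [dense_iff_inter_open]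
  intro U hU ⟨σ, hσ⟩
  by_contra hcon
  rw [Set.not_nonempty_iff_eq_empty] at hcon
  have hz : ∀ τ ∈ U, Q τ = 0 := by
    intro τ hτ
    by_contra h
    have : τ ∈ U ∩ {σ | Q σ ≠ 0} := ⟨hτ, h⟩
    rw [hcon] at this
    exact this
  obtain ⟨τ, hτ⟩ := hne
  set q : ℂ → ℂ := fun z => Q (σ + z • (τ - σ)) with hq
  have hqd : Differentiable ℂ q := hQ.comp (by fun_prop)
  have hqa : AnalyticOnNhd ℂ q Set.univ := fun z _ => hqd.analyticAt z
  have hev : q =ᶠ[𝓝 0] 0 := by
    have hc : Continuous (fun z : ℂ => σ + z • (τ - σ)) := by fun_prop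
    have : (fun z : ℂ => σ + z • (τ - σ)) ⁻¹' U ∈ 𝓝 (0 : ℂ) :=
      hc.continuousAt.preimage_mem_nhds (by simpa using hU.mem_nhds hσ)
    filter_upwards [this] with z hz'
    exact hz _ hz'
  have := hqa.eqOn_zero_of_preconnected_of_eventuallyEq_zero isPreconnected_univ
    (Set.mem_univ 0) hev (Set.mem_univ 1)
  simp [hq] at this
  exact hτ this

/-- on every vertical line there is a good point -/
theorem exists_good (hQ : Differentiable ℂ Q) (B : V →L[ℂ] V) {σ : V} (hσ : Q σ ≠ 0) (t0 : ℝ) :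
    ∃ θ : ℝ, Q (flow B ((t0 : ℂ) + I * θ) σ) ≠ 0 := by
  by_contra hcon
  push Not at hcon
  set h : ℂ → ℂ := fun w => Q (flow B ((t0 : ℂ) + I * w) σ) with hh
  have hd : Differentiable ℂ h :=
    hQ.comp ((differentiable_flow B σ).comp (by fun_prop : Differentiable ℂ (fun w : ℂ => (t0 : ℂ) + I * w)))
  have hzero := eqOn_of_real (c := 0) (ρ := |t0| + 1) hd.differentiableOn
    (fun x _ => hcon x) (I * t0) (by
      rw [mem_ball, dist_eq_norm]; simp)
  rw [hh] at hzero
  simp only at hzero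
  have : (t0 : ℂ) + I * (I * t0) = 0 := by
    rw [← mul_assoc, I_mul_I]; ring
  rw [this, flow_zero] at hzero
  exact hσ (by simpa using hzero)

theorem rank_generic (hQ : Differentiable ℂ Q) (hL : LocRank b Φ Q) (B : V →L[ℂ] V)
    (hB : ∀ (θ : ℝ) σ, Φ (NormedSpace.exp ((θ : ℂ) • B) σ) = Φ σ) {σ : V} (hσ : Q σ ≠ 0) :
    RankLE b (fun t : ℝ => Φ (flow B (t : ℂ) σ)) := by
  refine rankLE_of_vertical fun t0 => ?_
  obtain ⟨θ, hθ⟩ := exists_good hQ B hσ t0
  obtain ⟨δ, P, H, hδ, hP, hΦ⟩ := hL _ hθ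
  set c : ℂ → V := fun z => flow B z σ with hc
  have hcd : Differentiable ℂ c := differentiable_flow B σ
  have hcc : ContinuousAt c ((t0 : ℂ) + I * θ) := hcd.continuous.continuousAt
  obtain ⟨δ', hδ', hsub⟩ := Metric.continuousAt_iff.1 hcc δ hδ
  have hmem : ∀ z ∈ ball ((t0 : ℂ) + I * θ) δ', c z ∈ ball (c ((t0 : ℂ) + I * θ)) δ := by
    intro z hz
    exact hsub (mem_ball.1 hz)
  refine ⟨θ, δ', fun i z => P i (c z), H, hδ', fun i => ?_, fun z hz => ?_⟩
  · exact (hP i).comp hcd.differentiableOn hmem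
  · have h1 := hΦ _ (hmem z hz)
    rw [← h1]
    congr 1
    show Φ (flow B (z.re : ℂ) σ) = Φ (flow B z σ)
    have hz' : z = I * z.im + z.re := by
      rw [add_comm, mul_comm]; exact (re_add_im z).symm
    conv_rhs => rw [hz', flow_add, flow_I, ContinuousLinearMap.mul_apply]
    exact (hB _ _).symm

theorem rank_all (hΦ : Continuous Φ) (hQ : Differentiable ℂ Q) (hne : ∃ σ, Q σ ≠ 0)
    (hL : LocRank b Φ Q) (B : V →L[ℂ] V)
    (hB : ∀ (θ : ℝ) σ, Φ (NormedSpace.exp ((θ : ℂ) • B) σ) = Φ σ) (σ : V) :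
    RankLE b (fun t : ℝ => Φ (flow B (t : ℂ) σ)) := by
  intro u v
  have hcont : Continuous fun σ : V =>
      (Matrix.of fun i j => Φ (flow B ((u i + v j : ℝ) : ℂ) σ)).det := by
    refine Continuous.matrix_det ?_
    refine continuous_matrix fun i j => ?_
    exact hΦ.comp (flow B _).continuous
  have heq : (fun σ : V => (Matrix.of fun i j => Φ (flow B ((u i + v j : ℝ) : ℂ) σ)).det) =
      fun _ => 0 := by
    refine Continuous.ext_on (dense_ne hQ hne) hcont continuous_const ?_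
    intro σ hσ
    exact rank_generic hQ hL B hB hσ u v
  exact congrFun heq σ

theorem rankLE_exp_mul {f : ℝ → ℝ} (h : RankLE b f) (k : ℝ) :
    ∃ b', RankLE b' (fun t => Real.exp (k * t) * f t) := by
  obtain ⟨r, u, v, N, hrep⟩ := repr_of_rankLE h
  refine ⟨r, rankLE_of_sum (fun i x => Real.exp (k * x) * ∑ j, f (x + v j) * N j i)
    (fun i y => Real.exp (k * y) * f (u i + y)) fun x y => ?_⟩
  rw [hrep x y, mul_add, Real.exp_add, Finset.mul_sum]
  refine Finset.sum_congr rfl fun i _ => ?_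
  rw [← Finset.sum_mul]
  ring

/-- **FIN, one-parameter form.** -/
theorem no_two_eigenvalues (hF : FinNorm p Φ) (hQ : Differentiable ℂ Q) (hne : ∃ σ, Q σ ≠ 0)
    (hL : LocRank b Φ Q) (B : V →L[ℂ] V)
    (hB : ∀ (θ : ℝ) σ, Φ (NormedSpace.exp ((θ : ℂ) • B) σ) = Φ σ)
    {l1 l2 : ℝ} (hl : l1 < l2) {x y : V} (hx : x ≠ 0) (hy : y ≠ 0)
    (hxe : B x = (I * l1) • x) (hye : B y = (I * l2) • y) : False := by
  set m := l2 - l1 with hm
  have hm0 : 0 < m := by rw [hm]; linarith
  set J : ℝ → ℝ := fun t => Φ (x + (Real.exp (m * t) : ℂ) • y) with hJ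
  have hflow : ∀ t : ℝ, Φ (flow B (t : ℂ) (x + y)) = Real.exp (p * l1 * t) * J t := by
    intro t
    have : flow B (t : ℂ) (x + y) =
        (Real.exp (l1 * t) : ℂ) • (x + (Real.exp (m * t) : ℂ) • y) := by
      rw [map_add, flow_eigen B hxe, flow_eigen B hye, smul_add, smul_smul]
      congr 2
      · push_cast; rfl
      · push_cast
        rw [← Complex.exp_add]
        congr 1
        rw [hm]; push_cast; ring
    rw [this, hF.hom, hJ]
    congr 1
    rw [Complex.norm_real, Real.norm_eq_abs, abs_of_pos (Real.exp_pos _), ← Real.exp_mul]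
    congr 1; ring
  have hr := rank_all hF.cont hQ hne hL B hB (x + y)
  obtain ⟨b', hb'⟩ := rankLE_exp_mul hr (-(p * l1))
  have hJr : RankLE b' J := by
    convert hb' using 1
    funext t
    rw [hflow t, ← mul_assoc, ← Real.exp_add]
    have : -(p * l1) * t + p * l1 * t = 0 := by ring
    rw [this, Real.exp_zero, one_mul]
  have hneg : ∀ a : V, Φ (-a) = Φ a := by
    intro a
    have := hF.hom (-1) a
    simpa using this
  have hhom : ∀ t : ℝ, Φ ((Real.exp (m * t) : ℂ) • y) = Φ y * Real.exp (p * m * t) := by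
    intro t
    rw [hF.hom, Complex.norm_real, Real.norm_eq_abs, abs_of_pos (Real.exp_pos _), ← Real.exp_mul,
      mul_comm]
    congr 2; ring
  have key := no_gap (J := J) hJr (α := Φ x) (β := Φ y) (p := p * m) (mul_pos hF.hp hm0)
    (fun t => by
      have := hF.sub x ((Real.exp (m * t) : ℂ) • y)
      rw [hhom t] at this
      rw [hJ]; simp only; linarith)
    (fun t => by
      have := hF.sub (x + (Real.exp (m * t) : ℂ) • y) (-x)
      rw [hneg, show x + (Real.exp (m * t) : ℂ) • y + -x = (Real.exp (m * t) : ℂ) • y by abel,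
        hhom t] at this
      rw [hJ]; simp only; linarith)
    (fun t => by
      have := hF.sub (x + (Real.exp (m * t) : ℂ) • y) (-((Real.exp (m * t) : ℂ) • y))
      rw [hneg, add_neg_cancel_right, hhom t] at this
      rw [hJ]; simp only; linarith) 0
  have hsum : Φ (x + y) = Φ x + Φ y := by
    rw [hJ] at key
    simpa using key
  -- rotation by `π / m`
  have hrot : Φ (x - y) = Φ (x + y) := by
    have h1 := hB (Real.pi / m) (x + y)
    rw [← flow_I, map_add, flow_eigen B hxe, flow_eigen B hye] at h1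
    rw [← h1]
    have h2 : Complex.exp (l2 * (I * (Real.pi / m : ℝ))) =
        - Complex.exp (l1 * (I * (Real.pi / m : ℝ))) := by
      have : (l2 : ℂ) * (I * (Real.pi / m : ℝ)) = l1 * (I * (Real.pi / m : ℝ)) + Real.pi * I := by
        have hm' : (m : ℂ) ≠ 0 := by exact_mod_cast hm0.ne'
        have hl2 : (l2 : ℂ) = l1 + m := by rw [hm]; push_cast; ring
        rw [hl2]; push_cast; field_simp
      rw [this, Complex.exp_add, Complex.exp_pi_mul_I]; ring
    rw [h2, neg_smul, ← sub_eq_add_neg, ← smul_sub, hF.hom]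
    have : ‖Complex.exp ((l1 : ℂ) * (I * (Real.pi / m : ℝ)))‖ = 1 := by
      rw [Complex.norm_exp]
      simp
    rw [this]; simp
  have := hF.strict x y hx hy
  rw [hrot, hsum] at this
  linarith

end Crest.Agent.R276.FinC_39
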