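import Crest.Agent.R276.Mod2_987
import Crest.Agent.R276.Mod7_987
import Crest.Agent.R271.Null_821
import Crest.Agent.R271.Null_956

-- ▼ part R276/Geo1_519
section

/-!
# Row 276 (S0419), GEO (helper519), part 1: norm polynomials

`exists_norm`: for monic polynomials `μ_j` over a ring `R` and `a ∈ R[θ_1, …, θ_s]` there is `N ∈ R` such that
for every `φ : R → ℂ`: `φ N ≠ 0` iff `a` does not vanish at any tuple of roots of the `φ μ_j`.

`Mdl.exists_detNorm`: `σ_i ∈ B` on a model `M` of dimension `n`, `κ_j : Fin n → ι` : a polynomial `R` in the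
variables `ι` with: if `h(ζ ∘ κ_j) ≠ 0` for all `j`, then `R(ζ) ≠ 0` iff
`det (y_j (σ_i)) ≠ 0` for all points `y_j` of `M` over `ζ ∘ κ_j`.

`Mdl.exists_indep`: existence of `ζ` with `R(ζ) ≠ 0`.
-/

set_option autoImplicit false

open Polynomial

noncomputable section

namespace Crest.Agent.R276.Geo1_519

open Crest.Agent.R276.Mod1_987
open Crest.Agent.R271.Defs710 Crest.Agent.R271.Alg255

/-! ### norms -/

lemma resultant_ne_iff {R : Type*} [CommRing R] (μ b : R[X]) (hμ : μ.Monic) (φ : R →+* ℂ) :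
    φ (resultant μ b μ.natDegree b.natDegree) ≠ 0 ↔
      ∀ t, (μ.map φ).eval t = 0 → (b.map φ).eval t ≠ 0 := by
  have hm : (μ.map φ).Monic := hμ.map φ
  have hd : (μ.map φ).natDegree = μ.natDegree := hμ.natDegree_map φ
  have h1 := resultant_eq_prod_eval (μ.map φ) (b.map φ) b.natDegree natDegree_map_le
    (IsAlgClosed.splits (μ.map φ))
  rw [hd, resultant_map_map, hm.leadingCoeff, one_pow, one_mul] at h1
  rw [h1]
  constructor
  · intro h t ht h0
    apply h
    apply Multiset.prod_eq_zero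
    rw [Multiset.mem_map]
    exact ⟨t, (mem_roots hm.ne_zero).mpr ht, h0⟩
  · intro h h0
    rw [Multiset.prod_eq_zero_iff, Multiset.mem_map] at h0
    obtain ⟨t, ht, h2⟩ := h0
    exact h t ((mem_roots hm.ne_zero).mp ht) h2

lemma eval_finSuccEquiv {R : Type*} [CommRing R] {s : ℕ} (φ : R →+* ℂ) (θ : Fin s → ℂ) (t : ℂ)
    (a : MvPolynomial (Fin (s + 1)) R) :
    ((MvPolynomial.finSuccEquiv R s a).map (MvPolynomial.eval₂Hom φ θ)).eval t =
      MvPolynomial.eval₂ φ (Fin.cons t θ) a := by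
  induction a using MvPolynomial.induction_on with
  | C r =>
    rw [← MvPolynomial.algebraMap_eq, AlgEquiv.commutes, MvPolynomial.algebraMap_eq,
      MvPolynomial.eval₂_C]
    have : (algebraMap R (MvPolynomial (Fin s) R)[X]) r = Polynomial.C (MvPolynomial.C r) := rfl
    rw [this, Polynomial.map_C, Polynomial.eval_C]
    exact MvPolynomial.eval₂_C φ θ r
  | add p q hp hq =>
    rw [map_add, Polynomial.map_add, Polynomial.eval_add, MvPolynomial.eval₂_add, hp, hq]
  | mul_X p i hp =>
    rw [map_mul, Polynomial.map_mul, Polynomial.eval_mul, MvPolynomial.eval₂_mul, hp,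
      MvPolynomial.eval₂_X]
    congr 1
    refine Fin.cases ?_ (fun i => ?_) i
    · rw [MvPolynomial.finSuccEquiv_X_zero, Polynomial.map_X, Polynomial.eval_X, Fin.cons_zero]
    · rw [MvPolynomial.finSuccEquiv_X_succ, Polynomial.map_C, Polynomial.eval_C, Fin.cons_succ]
      exact MvPolynomial.eval₂_X φ θ i

theorem exists_norm : ∀ (s : ℕ) (R : Type) [CommRing R] (μ : Fin s → R[X])
    (_ : ∀ j, (μ j).Monic) (a : MvPolynomial (Fin s) R),
    ∃ N : R, ∀ φ : R →+* ℂ, φ N ≠ 0 ↔
      ∀ θ : Fin s → ℂ, (∀ j, ((μ j).map φ).eval (θ j) = 0) →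
        MvPolynomial.eval₂ φ θ a ≠ 0 := by
  intro s
  induction s with
  | zero =>
    intro R _ μ _ a
    refine ⟨a.coeff 0, fun φ => ?_⟩
    have h1 : ∀ θ : Fin 0 → ℂ, MvPolynomial.eval₂ φ θ a = φ (a.coeff 0) := by
      intro θ
      conv_lhs => rw [MvPolynomial.eq_C_of_isEmpty a]
      rw [MvPolynomial.eval₂_C]
    constructor
    · intro h θ _
      rw [h1]
      exact h
    · intro h
      rw [← h1 finZeroElim]
      exact h finZeroElim (fun j => j.elim0)
  | succ s ih =>
    intro R _ μ hμ a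
    let a' := MvPolynomial.finSuccEquiv R s a
    let μ0 : (MvPolynomial (Fin s) R)[X] := (μ 0).map MvPolynomial.C
    have hμ0 : μ0.Monic := (hμ 0).map _
    obtain ⟨N, hN⟩ := ih R (fun j => μ j.succ) (fun j => hμ j.succ)
      (resultant μ0 a' μ0.natDegree a'.natDegree)
    refine ⟨N, fun φ => ?_⟩
    rw [hN φ]
    have key : ∀ θ : Fin s → ℂ,
        (MvPolynomial.eval₂ φ θ (resultant μ0 a' μ0.natDegree a'.natDegree) ≠ 0 ↔
          ∀ t, ((μ 0).map φ).eval t = 0 → MvPolynomial.eval₂ φ (Fin.cons t θ) a ≠ 0) := by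
      intro θ
      have h1 := resultant_ne_iff μ0 a' hμ0 (MvPolynomial.eval₂Hom φ θ)
      rw [MvPolynomial.coe_eval₂Hom] at h1
      rw [h1]
      have h2 : μ0.map (MvPolynomial.eval₂Hom φ θ) = (μ 0).map φ := by
        rw [Polynomial.map_map]
        congr 1
        exact RingHom.ext fun r => MvPolynomial.eval₂_C φ θ r
      have h3 : ∀ t, (a'.map (MvPolynomial.eval₂Hom φ θ)).eval t =
          MvPolynomial.eval₂ φ (Fin.cons t θ) a := fun t => eval_finSuccEquiv φ θ t a
      rw [h2]
      exact forall_congr' fun t => by rw [h3]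
    constructor
    · intro h θ hθ
      have h1 := (key (Fin.tail θ)).mp (h (Fin.tail θ) fun j => hθ j.succ) (θ 0) (hθ 0)
      rwa [Fin.cons_self_tail] at h1
    · intro h θ hθ
      rw [key]
      intro t ht
      refine h (Fin.cons t θ) fun j => ?_
      refine Fin.cases ?_ (fun j => ?_) j
      · rw [Fin.cons_zero]; exact ht
      · rw [Fin.cons_succ]; exact hθ j

/-! ### the norm of a determinant on a model -/

variable {K : Type} [Field K] [Algebra ℂ K] {n : ℕ} (M : Mdl K n)

/-- finitely many elements of `B` in terms of the primitive element, with a common denominator -/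
lemma exists_common {s : ℕ} (σ : Fin s → M.B) : ∃ (k : ℕ) (q : Fin s → Polynomial (MvPolynomial (Fin n) ℂ)),
    ∀ i, az M.z (M.h ^ k) * σ i = Polynomial.eval₂ (az M.z) M.θ (q i) := by
  choose k q hq using fun i => M.gen (σ i)
  refine ⟨∑ i, k i, fun i => Polynomial.C (M.h ^ (∑ j, k j - k i)) * q i, fun i => ?_⟩
  have h1 : k i ≤ ∑ j, k j := Finset.single_le_sum (f := k) (fun j _ => Nat.zero_le _)
    (Finset.mem_univ i)
  rw [Polynomial.eval₂_mul, Polynomial.eval₂_C, ← hq, ← mul_assoc, ← map_mul, ← pow_add]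
  congr 3
  omega

lemma eval_map_eq (y : M.Pts) {σ : M.B} {k : ℕ} {q : Polynomial (MvPolynomial (Fin n) ℂ)}
    (h : az M.z (M.h ^ k) * σ = Polynomial.eval₂ (az M.z) M.θ q) :
    (q.map (MvPolynomial.eval (M.pz y))).eval (y M.θ) =
      (MvPolynomial.eval (M.pz y) M.h) ^ k * y σ := by
  have h1 := Polynomial.hom_eval₂ q (az M.z) (y : M.B →+* ℂ) M.θ
  have h2 : (y : M.B →+* ℂ).comp (az M.z) = MvPolynomial.eval (M.pz y) :=
    RingHom.ext fun p => M.apply_az' y p
  rw [h2, ← h] at h1
  rw [Polynomial.eval_map]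
  refine h1.symm.trans ?_
  change y (az M.z (M.h ^ k) * σ) = _
  rw [map_mul, M.apply_az', map_pow]

theorem exists_detNorm {s : ℕ} (σ : Fin s → M.B) {ι : Type} (κ : Fin s → Fin n → ι) :
    ∃ R : MvPolynomial ι ℂ, ∀ ζ : ι → ℂ, (∀ j, MvPolynomial.eval (ζ ∘ κ j) M.h ≠ 0) →
      (MvPolynomial.eval ζ R ≠ 0 ↔ ∀ y : Fin s → M.Pts, (∀ j, M.pz (y j) = ζ ∘ κ j) →
        (Matrix.of fun i j => y j (σ i)).det ≠ 0) := by
  obtain ⟨k, q, hq⟩ := exists_common M σ
  let A : Matrix (Fin s) (Fin s) (MvPolynomial (Fin s) (MvPolynomial ι ℂ)) :=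
    Matrix.of fun i j => Polynomial.eval₂ MvPolynomial.C (MvPolynomial.X j)
      ((q i).map ((MvPolynomial.rename (κ j) : MvPolynomial (Fin n) ℂ →ₐ[ℂ] MvPolynomial ι ℂ) :
        MvPolynomial (Fin n) ℂ →+* MvPolynomial ι ℂ))
  obtain ⟨R, hR⟩ := exists_norm s (MvPolynomial ι ℂ)
    (fun j => M.μ.map ((MvPolynomial.rename (κ j) : MvPolynomial (Fin n) ℂ →ₐ[ℂ] MvPolynomial ι ℂ) :
        MvPolynomial (Fin n) ℂ →+* MvPolynomial ι ℂ)) (fun j => M.monic.map _) A.det
  refine ⟨R, fun ζ hζ => ?_⟩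
  have e1 : ∀ j, (MvPolynomial.eval ζ : MvPolynomial ι ℂ →+* ℂ).comp
      ((MvPolynomial.rename (κ j) : MvPolynomial (Fin n) ℂ →ₐ[ℂ] MvPolynomial ι ℂ) :
        MvPolynomial (Fin n) ℂ →+* MvPolynomial ι ℂ) = MvPolynomial.eval (ζ ∘ κ j) := by
    intro j
    refine RingHom.ext fun p => ?_
    exact MvPolynomial.eval_rename _ _ _
  have e2 : ∀ θ : Fin s → ℂ, MvPolynomial.eval₂ (MvPolynomial.eval ζ) θ A.det =
      (Matrix.of fun i j => ((q i).map (MvPolynomial.eval (ζ ∘ κ j))).eval (θ j)).det := by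
    intro θ
    rw [← MvPolynomial.coe_eval₂Hom, RingHom.map_det]
    congr 1
    ext i j
    rw [RingHom.mapMatrix_apply, Matrix.map_apply, Matrix.of_apply]
    change MvPolynomial.eval₂Hom (MvPolynomial.eval ζ) θ (Polynomial.eval₂ MvPolynomial.C
      (MvPolynomial.X j) _) = _
    have e3 : (MvPolynomial.eval₂Hom (MvPolynomial.eval ζ) θ).comp MvPolynomial.C =
        (MvPolynomial.eval ζ : MvPolynomial ι ℂ →+* ℂ) :=
      RingHom.ext fun p => MvPolynomial.eval₂_C _ _ _
    have e4 : MvPolynomial.eval₂Hom (MvPolynomial.eval ζ) θ (MvPolynomial.X j) = θ j :=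
      MvPolynomial.eval₂_X _ _ _
    rw [Polynomial.hom_eval₂, e3, e4, Polynomial.eval₂_map, Polynomial.eval_map, e1 j]
  rw [hR]
  have key : ∀ y : Fin s → M.Pts, (∀ j, M.pz (y j) = ζ ∘ κ j) →
      (Matrix.of fun i j => ((q i).map (MvPolynomial.eval (ζ ∘ κ j))).eval (y j M.θ)).det =
        (∏ j, (MvPolynomial.eval (ζ ∘ κ j) M.h) ^ k) * (Matrix.of fun i j => y j (σ i)).det := by
    intro y hy
    rw [← Matrix.det_mul_row]
    congr 1
    ext i j
    rw [Matrix.of_apply, Matrix.of_apply, Matrix.of_apply, ← hy j]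
    exact eval_map_eq M (y j) (hq i)
  have hne : (∏ j, (MvPolynomial.eval (ζ ∘ κ j) M.h) ^ k) ≠ 0 :=
    Finset.prod_ne_zero_iff.mpr fun j _ => pow_ne_zero _ (hζ j)
  constructor
  · intro h y hy
    have h1 := h (fun j => y j M.θ) (by
      intro j
      rw [Polynomial.map_map, e1, ← hy j]
      exact M.eval_μ_eq_zero (y j))
    rw [e2, key y hy] at h1
    exact right_ne_zero_of_mul h1
  · intro h θ hθ
    have h1 : ∀ j, ∃ y : M.Pts, (∀ i, y (M.z i) = (ζ ∘ κ j) i) ∧ y M.θ = θ j := by
      intro j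
      refine M.exists_pt (hζ j) ?_
      have := hθ j
      rwa [Polynomial.map_map, e1] at this
    choose y hy hyθ using h1
    have h2 : ∀ j, M.pz (y j) = ζ ∘ κ j := fun j => funext (hy j)
    rw [e2]
    have h3 : θ = fun j => y j M.θ := funext fun j => (hyθ j).symm
    rw [h3, key y h2]
    exact mul_ne_zero hne (h y h2)

/-- norm of one element -/
theorem exists_norm_one (σ : M.B) :
    ∃ N : MvPolynomial (Fin n) ℂ, ∀ ζ : Cn n, MvPolynomial.eval ζ M.h ≠ 0 →
      (MvPolynomial.eval ζ N ≠ 0 ↔ ∀ y : M.Pts, M.pz y = ζ → y σ ≠ 0) := by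
  obtain ⟨N, hN⟩ := exists_detNorm M (s := 1) (fun _ => σ) (fun _ => id)
  refine ⟨N, fun ζ hζ => ?_⟩
  rw [hN ζ fun _ => hζ]
  constructor
  · intro h y hy
    have h1 := h (fun _ => y) fun _ => hy
    rwa [Matrix.det_fin_one, Matrix.of_apply] at h1
  · intro h y hy
    rw [Matrix.det_fin_one, Matrix.of_apply]
    exact h (y 0) (hy 0)

/-! ### independent points -/

/-- **Independent points**: if no nontrivial combination of the `σ_i` vanishes somewhere over every point
of the slice `{z0} × ℂ^r`, then there are `ξ_1, …, ξ_s` such that the vectors `(y_j σ_i)_i` are linearly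
independent for all choices of points `y_j` over `(z0, ξ_j)`. -/
theorem exists_indep {m r : ℕ} (M : Mdl K (m + r)) {s : ℕ} (σ : Fin s → M.B) (z0 : Cn m)
    (hne : ∃ ξ : Cn r, MvPolynomial.eval (Fin.append z0 ξ) M.h ≠ 0)
    (hNV : ∀ v : Fin s → ℂ, v ≠ 0 → ∃ ξ : Cn r, MvPolynomial.eval (Fin.append z0 ξ) M.h ≠ 0 ∧
      ∀ y : M.Pts, M.pz y = Fin.append z0 ξ → ∑ i, v i * y (σ i) ≠ 0) :
    ∃ ξ : Fin s → Cn r, (∀ j, MvPolynomial.eval (Fin.append z0 (ξ j)) M.h ≠ 0) ∧
      ∀ y : Fin s → M.Pts, (∀ j, M.pz (y j) = Fin.append z0 (ξ j)) →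
        (Matrix.of fun i j => y j (σ i)).det ≠ 0 := by
  classical
  have main : ∀ k : ℕ, k ≤ s → ∃ ξ : Fin k → Cn r,
      (∀ j, MvPolynomial.eval (Fin.append z0 (ξ j)) M.h ≠ 0) ∧
      ∀ y : Fin k → M.Pts, (∀ j, M.pz (y j) = Fin.append z0 (ξ j)) →
        LinearIndependent ℂ (fun j => (fun i => y j (σ i) : Fin s → ℂ)) := by
    intro k
    induction k with
    | zero =>
      intro _
      exact ⟨finZeroElim, fun j => j.elim0, fun y _ => linearIndependent_empty_type⟩
    | succ k ih =>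
      intro hk
      obtain ⟨ξ, hξ, hind⟩ := ih (by omega)
      -- the finitely many tuples
      let T := {y : Fin k → M.Pts // ∀ j, M.pz (y j) = Fin.append z0 (ξ j)}
      have hT : Finite T := by
        have h1 : ∀ j, Finite {y : M.Pts // M.pz y = Fin.append z0 (ξ j)} :=
          fun j => (M.card_fib (hξ j)).2
        let f : T → (∀ j, {y : M.Pts // M.pz y = Fin.append z0 (ξ j)}) :=
          fun y j => ⟨y.1 j, y.2 j⟩
        refine Finite.of_injective f fun a b hab => ?_
        refine Subtype.ext (funext fun j => ?_)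
        exact congrArg Subtype.val (congrFun hab j)
      have := Fintype.ofFinite T
      -- annihilators
      have hv : ∀ y : T, ∃ v : Fin s → ℂ, v ≠ 0 ∧ ∀ j, ∑ i, v i * y.1 j (σ i) = 0 := by
        intro y
        let A : Matrix (Fin k) (Fin s) ℂ := Matrix.of fun j i => y.1 j (σ i)
        have h1 : ∃ v : Fin s → ℂ, v ≠ 0 ∧ A.mulVec v = 0 := by
          have h2 : ¬ Function.Injective A.mulVecLin := by
            intro hinj
            have h3 := LinearMap.finrank_le_finrank_of_injective hinj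
            rw [Module.finrank_fin_fun, Module.finrank_fin_fun] at h3
            omega
          rw [← LinearMap.ker_eq_bot, LinearMap.ker_eq_bot'] at h2
          push Not at h2
          obtain ⟨v, hv1, hv2⟩ := h2
          exact ⟨v, hv2, hv1⟩
        obtain ⟨v, hv0, hv1⟩ := h1
        refine ⟨v, hv0, fun j => ?_⟩
        have h2 := congrFun hv1 j
        change ∑ i, A j i * v i = 0 at h2
        rw [← h2]
        exact Finset.sum_congr rfl fun i _ => mul_comm _ _
      choose v hv0 hv1 using hv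
      -- the norms
      choose N hN using fun y : T => exists_norm_one M (∑ i, algebraMap ℂ M.B (v y i) * σ i)
      have hev : ∀ (t : T) (y : M.Pts), y (∑ i, algebraMap ℂ M.B (v t i) * σ i) =
          ∑ i, v t i * y (σ i) := by
        intro t y
        rw [map_sum]
        refine Finset.sum_congr rfl fun i _ => ?_
        rw [map_mul, AlgHom.commutes]
        rfl
      let sp : MvPolynomial (Fin (m + r)) ℂ → MvPolynomial (Fin r) ℂ := fun p =>
        MvPolynomial.aeval (Fin.append (fun i => MvPolynomial.C (z0 i)) MvPolynomial.X) p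
      have hsp : ∀ (x : Cn r) (p : MvPolynomial (Fin (m + r)) ℂ),
          MvPolynomial.eval x (sp p) = MvPolynomial.eval (Fin.append z0 x) p := by
        intro x p
        have h1 := MvPolynomial.comp_aeval_apply
          (Fin.append (fun i => MvPolynomial.C (z0 i)) MvPolynomial.X :
            Fin (m + r) → MvPolynomial (Fin r) ℂ) (MvPolynomial.aeval x) p
        have h2 : (fun i => (MvPolynomial.aeval x) ((Fin.append (fun i => MvPolynomial.C (z0 i))
            MvPolynomial.X : Fin (m + r) → MvPolynomial (Fin r) ℂ) i)) = Fin.append z0 x := by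
          funext i
          refine Fin.addCases (fun i => ?_) (fun j => ?_) i <;> simp
        rw [h2] at h1
        exact h1
      have hnz : sp M.h * ∏ t : T, sp (N t) ≠ 0 := by
        refine mul_ne_zero ?_ (Finset.prod_ne_zero_iff.mpr fun t _ => ?_)
        · obtain ⟨x, hx⟩ := hne
          intro h0
          rw [← hsp, h0, map_zero] at hx
          exact hx rfl
        · obtain ⟨x, hx, hx2⟩ := hNV (v t) (hv0 t)
          intro h0
          have h1 := (hN t _ hx).mpr fun y hy => by rw [hev]; exact hx2 y hy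
          rw [← hsp, h0, map_zero] at h1
          exact h1 rfl
      obtain ⟨x, hx⟩ : ∃ x, MvPolynomial.eval x (sp M.h * ∏ t : T, sp (N t)) ≠ 0 := by
        by_contra hcon
        push Not at hcon
        exact hnz (MvPolynomial.funext fun x => by rw [hcon x, map_zero])
      rw [map_mul, map_prod] at hx
      have hx1 : MvPolynomial.eval (Fin.append z0 x) M.h ≠ 0 := by
        rw [← hsp]; exact left_ne_zero_of_mul hx
      have hx2 : ∀ t : T, MvPolynomial.eval (Fin.append z0 x) (N t) ≠ 0 := by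
        intro t
        rw [← hsp]
        exact Finset.prod_ne_zero_iff.mp (right_ne_zero_of_mul hx) t (Finset.mem_univ t)
      refine ⟨Fin.snoc ξ x, fun j => ?_, fun y hy => ?_⟩
      · refine Fin.lastCases ?_ (fun j => ?_) j
        · rw [Fin.snoc_last]; exact hx1
        · rw [Fin.snoc_castSucc]; exact hξ j
      · have hy' : ∀ j : Fin k, M.pz (y j.castSucc) = Fin.append z0 (ξ j) := by
          intro j
          have := hy j.castSucc
          rwa [Fin.snoc_castSucc] at this
        have hyl : M.pz (y (Fin.last k)) = Fin.append z0 x := by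
          have := hy (Fin.last k)
          rwa [Fin.snoc_last] at this
        let t : T := ⟨fun j => y j.castSucc, hy'⟩
        have h1 := hind (fun j => y j.castSucc) hy'
        rw [linearIndependent_finSucc']
        refine ⟨h1, fun hmem => ?_⟩
        have h2 : ∀ w ∈ Submodule.span ℂ (Set.range fun j : Fin k =>
            (fun i => y j.castSucc (σ i) : Fin s → ℂ)), ∑ i, v t i * w i = 0 := by
          intro w hw
          induction hw using Submodule.span_induction with
          | mem w hw =>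
            obtain ⟨j, rfl⟩ := hw
            exact hv1 t j
          | zero => simp
          | add a b _ _ ha hb =>
            simp only [Pi.add_apply, mul_add, Finset.sum_add_distrib, ha, hb, add_zero]
          | smul c a _ ha =>
            have : ∑ i, v t i * (c • a) i = c * ∑ i, v t i * a i := by
              rw [Finset.mul_sum]
              refine Finset.sum_congr rfl fun i _ => ?_
              rw [Pi.smul_apply, smul_eq_mul]
              ring
            rw [this, ha, mul_zero]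
        have h3 := h2 _ hmem
        have h4 := (hN t _ hx1).mp (hx2 t) (y (Fin.last k)) hyl
        rw [hev] at h4
        exact h4 h3
  obtain ⟨ξ, hξ, hind⟩ := main s le_rfl
  refine ⟨ξ, hξ, fun y hy => ?_⟩
  have h1 := hind y hy
  have h2 : (Matrix.of fun i j => y j (σ i)) = (Matrix.of fun j i => y j (σ i)).transpose := rfl
  rw [h2, Matrix.det_transpose]
  rw [← isUnit_iff_ne_zero, ← Matrix.isUnit_iff_isUnit_det]
  exact Matrix.linearIndependent_rows_iff_isUnit.mp h1

/-- the block of variables number `j` -/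
def kap {m r : ℕ} (s : ℕ) (j : Fin s) : Fin (m + r) → Fin (m + s * r) :=
  Fin.append (fun i => Fin.castAdd (s * r) i) fun k => Fin.natAdd m (finProdFinEquiv (j, k))

lemma append_comp_kap {m r s : ℕ} (z : Cn m) (x : Cn (s * r)) (j : Fin s) :
    (Fin.append z x ∘ kap s j : Cn (m + r)) = Fin.append z fun k => x (finProdFinEquiv (j, k)) := by
  funext i
  refine Fin.addCases (fun i => ?_) (fun k => ?_) i
  · rw [Function.comp_apply, kap, Fin.append_left, Fin.append_left, Fin.append_left]
  · rw [Function.comp_apply, kap, Fin.append_right, Fin.append_right, Fin.append_right]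

/-- **The norm polynomial of `det (σ_i (x_j))`**. -/
theorem exists_normPoly {m r : ℕ} (M : Mdl K (m + r)) {s : ℕ} (σ : Fin s → M.B)
    (hz : ∃ z0 : Cn m, (∃ ξ : Cn r, MvPolynomial.eval (Fin.append z0 ξ) M.h ≠ 0) ∧
      ∀ v : Fin s → ℂ, v ≠ 0 → ∃ ξ : Cn r, MvPolynomial.eval (Fin.append z0 ξ) M.h ≠ 0 ∧
        ∀ y : M.Pts, M.pz y = Fin.append z0 ξ → ∑ i, v i * y (σ i) ≠ 0) :
    ∃ H : MvPolynomial (Fin (m + s * r)) ℂ, H ≠ 0 ∧ ∀ (z : Cn m) (x : Cn (s * r)),
      MvPolynomial.eval (Fin.append z x) H ≠ 0 →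
      (∀ j, MvPolynomial.eval (Fin.append z fun k => x (finProdFinEquiv (j, k))) M.h ≠ 0) ∧
      ∀ y : Fin s → M.Pts, (∀ j, M.pz (y j) = Fin.append z fun k => x (finProdFinEquiv (j, k))) →
        (Matrix.of fun i j => y j (σ i)).det ≠ 0 := by
  obtain ⟨N, hN⟩ := exists_detNorm M σ (kap (m := m) (r := r) s)
  refine ⟨(∏ j, MvPolynomial.rename (kap s j) M.h) * N, ?_, ?_⟩
  · obtain ⟨z0, hne, hNV⟩ := hz
    obtain ⟨ξ, hξ, hdet⟩ := exists_indep M σ z0 hne hNV
    intro h0
    let x : Cn (s * r) := fun p => ξ (finProdFinEquiv.symm p).1 (finProdFinEquiv.symm p).2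
    have hx : ∀ j, (fun k => x (finProdFinEquiv (j, k))) = ξ j := by
      intro j
      funext k
      change ξ (finProdFinEquiv.symm (finProdFinEquiv (j, k))).1
        (finProdFinEquiv.symm (finProdFinEquiv (j, k))).2 = _
      rw [Equiv.symm_apply_apply]
    have h1 := congrArg (MvPolynomial.eval (Fin.append z0 x)) h0
    rw [map_mul, map_zero, map_prod] at h1
    have h2 : ∀ j, MvPolynomial.eval (Fin.append z0 x ∘ kap s j) M.h ≠ 0 := by
      intro j
      rw [append_comp_kap, hx]
      exact hξ j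
    rcases mul_eq_zero.mp h1 with h3 | h3
    · rw [Finset.prod_eq_zero_iff] at h3
      obtain ⟨j, _, hj⟩ := h3
      rw [MvPolynomial.eval_rename] at hj
      exact h2 j hj
    · revert h3
      rw [imp_false, ← ne_eq, hN _ h2]
      intro y hy
      refine hdet y fun j => ?_
      rw [hy j, append_comp_kap, hx]
  · intro z x h
    rw [map_mul, map_prod] at h
    have h2 : ∀ j, MvPolynomial.eval (Fin.append z x ∘ kap s j) M.h ≠ 0 := by
      intro j
      have := Finset.prod_ne_zero_iff.mp (left_ne_zero_of_mul h) j (Finset.mem_univ j)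
      rwa [MvPolynomial.eval_rename] at this
    refine ⟨fun j => ?_, fun y hy => ?_⟩
    · rw [← append_comp_kap]
      exact h2 j
    · refine (hN _ h2).mp (right_ne_zero_of_mul h) y fun j => ?_
      rw [hy j, append_comp_kap]

end Crest.Agent.R276.Geo1_519
end
end

-- ▼ part R276/Geo2_519

/-!
# Row 276 (S0419), GEO (helper519), part 2: the norm polynomial from linear independence on the fibres

* `null_zero_image`: on a connected Riemann domain the image in `ℂⁿ` of the zero set of a holomorphic function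
  which is not identically zero is a null set.
* `analytic_fib`: elements of `MK.B` are holomorphic on the fibres of `MK → ML`.
* `exists_normPoly_rel`: the polynomial `H(z, x_1, …, x_s)` of `Geo1_519` for `σ_i ∈ MK.B` which are
  linearly independent on the (connected) fibres of `MK → ML`.
-/

set_option autoImplicit false

open Topology Filter MeasureTheory Set
open scoped ENNReal

noncomputable section

namespace Crest.Agent.R276.Geo2_519

open Crest.Agent.R276.Mod1_987 Crest.Agent.R276.Mod1_987.RMdl Crest.Agent.R276.Geo1_519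
open Crest.Agent.R271 Crest.Agent.R271.Ho51
open Crest.Agent.R271.Defs710 Crest.Agent.R271.Alg255 Crest.Agent.R271.Rd692

section null

variable {n : ℕ} {M : Type*} [TopologicalSpace M] [RDom n M]

/-- identity theorem -/
theorem frequently_ne [PreconnectedSpace M] {f : M → ℂ}
    (hf : ∀ y, AnalyticAt ℂ (f ∘ (ch y).symm) (cp y)) (hne : ∃ y, f y ≠ 0) (y : M) :
    ∃ᶠ z in 𝓝 (cp y), (f ∘ (ch y).symm) z ≠ 0 := by
  -- the set where `f` vanishes locally
  set Z : Set M := {y | ∀ᶠ y' in 𝓝 y, f y' = 0} with hZ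
  have hZo : IsOpen Z := isOpen_setOfPred_eventually_nhds
  have hpush : ∀ y : M, y ∈ Z → ∀ᶠ z in 𝓝 (cp y), (f ∘ (ch y).symm) z = 0 := by
    intro y hy
    have h1 : Tendsto (ch y).symm (𝓝 (cp y)) (𝓝 y) := by
      have h2 := (ch y).symm.continuousAt (x := cp y) (by simpa using (isCh_ch y).cp_mem (mem_ch y))
      have h3 := h2.tendsto
      rwa [(isCh_ch y).symm_cp (mem_ch y)] at h3
    exact h1.eventually hy
  have hpull : ∀ y : M, (∀ᶠ z in 𝓝 (cp y), (f ∘ (ch y).symm) z = 0) → y ∈ Z := by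
    intro y hy
    have h1 := ((cp_cont (M := M)).tendsto y).eventually hy
    filter_upwards [h1, (ch y).open_source.mem_nhds (mem_ch y)] with y' hy' hs
    rw [Function.comp_apply, (isCh_ch y).symm_cp hs] at hy'
    exact hy'
  have hZc : IsClosed Z := by
    rw [← isOpen_compl_iff, isOpen_iff_mem_nhds]
    intro y hy
    obtain ⟨ρ, hρ, hfρ⟩ := (hf y).exists_ball_analyticOnNhd
    have htgt : (ch y).target ∈ 𝓝 (cp y) :=
      (ch y).open_target.mem_nhds ((isCh_ch y).cp_mem (mem_ch y))
    obtain ⟨ρ', hρ', hsub⟩ := Metric.mem_nhds_iff.mp htgt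
    set δ := min ρ ρ'
    have hδ : 0 < δ := lt_min hρ hρ'
    have hfδ : AnalyticOnNhd ℂ (f ∘ (ch y).symm) (Metric.ball (cp y) δ) :=
      hfρ.mono (Metric.ball_subset_ball (min_le_left _ _))
    have hnb : (ch y).source ∩ cp ⁻¹' Metric.ball (cp y) δ ∈ 𝓝 y :=
      inter_mem ((ch y).open_source.mem_nhds (mem_ch y))
        (cp_cont.continuousAt.preimage_mem_nhds (Metric.ball_mem_nhds _ hδ))
    filter_upwards [hnb] with y' hy'
    intro hz
    apply hy
    apply hpull
    -- near `cp y'` the function vanishes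
    have h1 : ∀ᶠ z in 𝓝 (cp y'), (f ∘ (ch y).symm) z = 0 := by
      filter_upwards [hpush y' hz, (isCh_ch y).germ (isCh_ch y') hy'.1 (mem_ch y')] with z h2 h3
      rw [Function.comp_apply, h3]
      exact h2
    have h2 := hfδ.eqOn_zero_of_preconnected_of_eventuallyEq_zero
      (convex_ball (cp y) δ).isPreconnected hy'.2 h1
    filter_upwards [Metric.ball_mem_nhds (cp y) hδ] with z hz'
    exact h2 hz'
  rcases isClopen_iff.mp ⟨hZc, hZo⟩ with h | h
  · intro h0
    have h1 : y ∈ Z := hpull y (by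
      filter_upwards [h0] with z hz
      exact not_not.mp hz)
    rw [h] at h1
    exact h1
  · obtain ⟨y0, hy0⟩ := hne
    have h1 : y0 ∈ Z := by rw [h]; trivial
    exact absurd (h1.self_of_nhds) hy0

/-- the image in `ℂⁿ` of the zero set of a holomorphic function is a null set -/
theorem null_zero_image [SecondCountableTopology M] [PreconnectedSpace M] {f : M → ℂ}
    (hf : ∀ y, AnalyticAt ℂ (f ∘ (ch y).symm) (cp y)) (hne : ∃ y, f y ≠ 0) :
    volume {ζ : Fin n → ℂ | ∃ y : M, cp y = ζ ∧ f y = 0} = 0 := by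
  choose ρ hρ hae using fun y : M => Local821.eventually_null_zero volume (hf y)
    (frequently_ne hf hne y)
  obtain ⟨S, hS, hcov⟩ := TopologicalSpace.countable_cover_nhds
    (f := fun y : M => (ch y).source ∩ cp ⁻¹' Metric.ball (cp y) (ρ y)) fun y =>
      inter_mem ((ch y).open_source.mem_nhds (mem_ch y))
        (cp_cont.continuousAt.preimage_mem_nhds (Metric.ball_mem_nhds _ (hρ y)))
  have h1 : {ζ : Fin n → ℂ | ∃ y : M, cp y = ζ ∧ f y = 0} ⊆
      ⋃ y ∈ S, {ζ ∈ Metric.ball (cp y) (ρ y) | (f ∘ (ch y).symm) ζ = 0} := by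
    rintro ζ ⟨y, rfl, hy⟩
    have h2 : y ∈ ⋃ x ∈ S, (ch x).source ∩ cp ⁻¹' Metric.ball (cp x) (ρ x) := by
      rw [hcov]; trivial
    simp only [mem_iUnion, exists_prop] at h2 ⊢
    obtain ⟨x, hx, h3, h4⟩ := h2
    refine ⟨x, hx, h4, ?_⟩
    rw [Function.comp_apply, (isCh_ch x).symm_cp h3]
    exact hy
  refine measure_mono_null h1 ?_
  rw [measure_biUnion_null_iff hS]
  intro y _
  have h2 := hae y
  rw [ae_restrict_iff' Metric.isOpen_ball.measurableSet, ae_iff] at h2
  refine measure_mono_null ?_ h2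
  rintro ζ ⟨hz1, hz2⟩
  simp only [mem_ofPred_eq, Classical.not_imp, not_not]
  exact ⟨hz1, hz2⟩

end null

section loc

variable {K : Type} [Field K] [Algebra ℂ K] {r : ℕ} (M : Mdl K r)

/-- elements of the coordinate ring are locally analytic functions of the coordinates -/
theorem analytic_local (b : M.B) (p₀ : M.Pts) : ∃ G : (Fin r → ℂ) → ℂ, AnalyticAt ℂ G (M.pz p₀) ∧
    ∀ᶠ p : M.Pts in 𝓝 p₀, p b = G (M.pz p) := by
  obtain ⟨C⟩ := M.hch p₀
  obtain ⟨S, ε, hε, hS⟩ := C.surj
  refine ⟨fun w => C.s (w - M.pz p₀) b, ?_, ?_⟩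
  · have h1 : AnalyticAt ℂ (fun ζ => C.s ζ b) ((fun w : Fin r → ℂ => w - M.pz p₀) (M.pz p₀)) := by
      simp only [sub_self]
      exact C.anal b 0 (Metric.mem_ball_self C.r_pos)
    exact AnalyticAt.comp (g := fun ζ => C.s ζ b) (f := fun w : Fin r → ℂ => w - M.pz p₀) h1
      (analyticAt_id.sub analyticAt_const)
  · have h2 : ∀ᶠ p : M.Pts in 𝓝 p₀, ∀ b ∈ S, ‖p b - p₀ b‖ < ε := by
      rw [Filter.eventually_all_finset]
      intro b _
      have h3 : Tendsto (fun p : M.Pts => p b) (𝓝 p₀) (𝓝 (p₀ b)) :=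
        (continuous_ev b).tendsto p₀
      have h4 : Tendsto (fun p : M.Pts => ‖p b - p₀ b‖) (𝓝 p₀) (𝓝 0) :=
        tendsto_iff_norm_sub_tendsto_zero.1 h3
      exact h4.eventually (gt_mem_nhds hε)
    filter_upwards [h2] with p hp
    have h5 := hS p hp
    show p b = C.s (M.pz p - M.pz p₀) b
    have h6 : (fun i => p (M.z i) - p₀ (M.z i)) = M.pz p - M.pz p₀ := rfl
    rw [← h6, ← h5]

end loc

section rel

variable {L K : Type} [Field L] [Field K] [Algebra ℂ L] [Algebra ℂ K] [Algebra L K]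
  [IsScalarTower ℂ L K] {m r : ℕ} (R : RMdl L K m r)

/-- elements of the coordinate ring are holomorphic on the fibres -/
theorem analytic_fib (b : R.MK.B) {w : R.ML.Pts} (y : R.Fib w) :
    AnalyticAt ℂ ((fun y : R.Fib w => (y.val) b) ∘ (ch y).symm) (cp y) := by
  obtain ⟨G, h1, h2⟩ := analytic_local R.MK b y.val
  have h3 : Tendsto (fun ξ => ((ch y).symm ξ).val) (𝓝 (cp y)) (𝓝 y.val) := by
    have h4 := (ch y).symm.continuousAt (x := cp y) (by simpa using (isCh_ch y).cp_mem (mem_ch y))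
    have h5 := h4.tendsto
    rw [(isCh_ch y).symm_cp (mem_ch y)] at h5
    exact ((Fib.continuous_val w).tendsto y).comp h5
  have happ : ∀ y : R.Fib w, (R.MK.pz y.val : Cn (m + r)) = Fin.append (R.ML.pz w) (cp y) := by
    intro y
    have h6 := R.append_eq y.val
    rw [y.q_eq] at h6
    exact h6.symm
  have h7 : ((fun y : R.Fib w => (y.val) b) ∘ (ch y).symm) =ᶠ[𝓝 (cp y)]
      fun ξ => G (Fin.append (R.ML.pz w) ξ) := by
    filter_upwards [h3.eventually h2, (ch y).open_target.mem_nhds ((isCh_ch y).cp_mem (mem_ch y))]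
      with ξ hξ ht
    rw [Function.comp_apply]
    rw [hξ, happ, (isCh_ch y).cp_symm ht]
  refine AnalyticAt.congr ?_ h7.symm
  rw [happ] at h1
  refine AnalyticAt.comp (g := G)
    (f := fun ξ : Cn r => (Fin.append (R.ML.pz w) ξ : Cn (m + r))) h1 ?_
  rw [analyticAt_pi_iff]
  intro i
  refine Fin.addCases (fun i => ?_) (fun j => ?_) i
  · simp only [Fin.append_left]
    exact analyticAt_const
  · simp only [Fin.append_right]
    exact (ContinuousLinearMap.proj (R := ℂ) (φ := fun _ : Fin r => ℂ) j).analyticAt _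

/-- **the norm polynomial, relative form** -/
theorem exists_normPoly_rel {s : ℕ} (σ : Fin s → R.MK.B) (w₀ : R.ML.Pts)
    (hconn : ∀ w, R.ML.pz w = R.ML.pz w₀ → ConnectedSpace (R.Fib w))
    (hind : ∀ w, R.ML.pz w = R.ML.pz w₀ → ∀ v : Fin s → ℂ, v ≠ 0 →
      ∃ y : R.Fib w, ∑ i, v i * (y.val) (σ i) ≠ 0) :
    ∃ H : MvPolynomial (Fin (m + s * r)) ℂ, H ≠ 0 ∧ ∀ (z : Cn m) (x : Cn (s * r)),
      MvPolynomial.eval (Fin.append z x) H ≠ 0 →
      (∀ j, MvPolynomial.eval (Fin.append z fun k => x (finProdFinEquiv (j, k))) R.MK.h ≠ 0) ∧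
      ∀ y : Fin s → R.MK.Pts,
        (∀ j, R.MK.pz (y j) = Fin.append z fun k => x (finProdFinEquiv (j, k))) →
        (Matrix.of fun i j => y j (σ i)).det ≠ 0 := by
  -- the bad sets are null sets
  have hfin : {w : R.ML.Pts | R.ML.pz w = R.ML.pz w₀}.Finite :=
    (R.ML.card_fib (R.ML.eval_h_ne w₀)).2
  have hnull : ∀ v : Fin s → ℂ, v ≠ 0 → ∀ w, R.ML.pz w = R.ML.pz w₀ →
      ∀ᵐ ξ : Cn r, ∀ y : R.MK.Pts, R.q y = w → R.x y = ξ → ∑ i, v i * y (σ i) ≠ 0 := by
    intro v hv w hw
    have := hconn w hw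
    have h1 := null_zero_image (M := R.Fib w) (f := fun y => ∑ i, v i * (y.val) (σ i))
      (fun y => by
        have h2 : ((fun y : R.Fib w => ∑ i, v i * (y.val) (σ i)) ∘ (ch y).symm) =
            fun ξ => ∑ i, v i * ((fun y : R.Fib w => (y.val) (σ i)) ∘ (ch y).symm) ξ := rfl
        rw [h2]
        exact Finset.analyticAt_fun_sum _ fun i _ => analyticAt_const.mul (analytic_fib R (σ i) y))
      (hind w hw v hv)
    rw [ae_iff]
    refine measure_mono_null ?_ h1
    intro ξ hξ
    simp only [mem_ofPred_eq, not_forall, not_not] at hξ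
    obtain ⟨y, hy1, hy2, hy3⟩ := hξ
    exact ⟨⟨y, hy1⟩, hy2, hy3⟩
  have hh : ∀ᵐ ξ : Cn r, MvPolynomial.eval (Fin.append (R.ML.pz w₀) ξ) R.MK.h ≠ 0 := by
    have := hconn w₀ rfl
    obtain ⟨y⟩ : Nonempty (R.Fib w₀) := inferInstance
    have h1 : specL (R.ML.pz w₀) R.MK.h ≠ 0 := by
      intro h0
      have h2 := eval_specL (R.ML.pz w₀) (R.x y.val) R.MK.h
      have h3 := R.append_eq y.val
      rw [y.q_eq] at h3
      rw [h0, map_zero, h3] at h2
      exact R.MK.eval_h_ne y.val h2.symm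
    filter_upwards [Null956.ae_eval_ne h1] with ξ hξ
    rwa [eval_specL] at hξ
  refine exists_normPoly R.MK σ ⟨R.ML.pz w₀, hh.exists, fun v hv => ?_⟩
  have h1 : ∀ᵐ ξ : Cn r, ∀ w ∈ {w : R.ML.Pts | R.ML.pz w = R.ML.pz w₀}, ∀ y : R.MK.Pts,
      R.q y = w → R.x y = ξ → ∑ i, v i * y (σ i) ≠ 0 :=
    (ae_ball_iff hfin.countable).mpr fun w hw => hnull v hv w hw
  obtain ⟨ξ, h2, h3⟩ := (hh.and h1).exists
  refine ⟨ξ, h2, fun y hy => ?_⟩
  have hy' := R.append_eq y
  rw [hy] at hy'
  have hx : R.x y = ξ := by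
    funext j
    have := congrFun hy' (Fin.natAdd m j)
    rwa [Fin.append_right, Fin.append_right] at this
  have hq : R.ML.pz (R.q y) = R.ML.pz w₀ := by
    funext j
    have := congrFun hy' (Fin.castAdd r j)
    rwa [Fin.append_left, Fin.append_left] at this
  exact h3 (R.q y) hq y rfl hx

end rel

end Crest.Agent.R276.Geo2_519
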