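import Crest.Agent.R276.Fri2_348
import Crest.Agent.R276.Mod7_987
import Crest.Agent.R276.Geo2_519
import Crest.Agent.R276.FinE_39
import Crest.Agent.R276.FlatT_464

-- ▼ part R276/Fri3_348
section

/-!
# R276, leaf FRI (helper348), final theorem `fri`

For a model `M : Mdl K r`, `g : Fin s → M.B` not all zero, `N ≠ 0`, the function
`Φ c = ∫_M |∑ c k * g k| ^ (2 / N)` (assumed finite) is locally of finite rank (`LocRank` of helper39)
off a hypersurface of `ℂˢ`.
-/

set_option autoImplicit false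

noncomputable section

open Set Filter Topology MeasureTheory
open Crest.Agent.R271.Ho51 Crest.Agent.R271.Defs710 Crest.Agent.R271.Rd692
open Crest.Agent.R276.Ipc735 Crest.Agent.R276.Top8_815
open Crest.Agent.R276.Tow2_244 Crest.Agent.R276.Iter_840 Crest.Agent.R276.Mod1_987
open Crest.Agent.R276.Rc_348 Crest.Agent.R276.FriD_348 Crest.Agent.R276.Fri2_348
open scoped ENNReal

namespace Crest.Agent.R276.Fri3_348

variable {s : ℕ} {K : Type} [Field K] [Algebra ℂ K] {r : ℕ} (M : Mdl K r) (T : PTow s)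
  (g : Fin s → M.B)

/-- the section `∑ c k * g k` -/
def sc (q : Zt M T) : ℂ := ∑ k, q.1.2 k * q.1.1 (g k)

theorem continuous_sc : Continuous (sc M T g) := by
  refine continuous_finsetSum _ fun k _ => ?_
  refine Continuous.mul ?_ ?_
  · exact (continuous_apply k).comp (continuous_snd.comp continuous_subtype_val)
  · exact (continuous_ev (g k)).comp (continuous_fst.comp continuous_subtype_val)

variable (N : ℕ)

/-- the root cover -/
abbrev YY : Type := RC (sc M T g) N

/-- the covering -/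
def ff (y : YY M T g N) : (T.lvl (base T) r).X := fZ M T y.pr

/-- The hypothesis on the tower. -/
def Adm : Prop := ∀ (x : ℕ → ℂ) (c : Fin s → ℂ), MvPolynomial.eval (crd0 x c r) (T.c r) ≠ 0 →
      MvPolynomial.eval (fun i : Fin r => x i) M.h ≠ 0 ∧
      ∀ p : M.Pts, (M.pz p = fun i : Fin r => x i) → ∑ k, c k * p (g k) ≠ 0

variable {M T g N}

theorem Adm.h_ne (hA : Adm M T g) (y : Fin r → ℂ) (c : Fin s → ℂ)
    (h : MvPolynomial.eval (crd0 (ex0 y) c r) (T.c r) ≠ 0) : MvPolynomial.eval y M.h ≠ 0 := by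
  have h1 := (hA (ex0 y) c h).1
  simpa using h1

theorem Adm.sum_ne (hA : Adm M T g) (p : M.Pts) (c : Fin s → ℂ)
    (h : MvPolynomial.eval (crd0 (ex0 (M.pz p)) c r) (T.c r) ≠ 0) :
    ∑ k, c k * p (g k) ≠ 0 := by
  refine (hA (ex0 (M.pz p)) c h).2 p ?_
  funext i; simp

theorem Adm.sc_ne (hA : Adm M T g) (q : Zt M T) : sc M T g q ≠ 0 :=
  hA.sum_ne q.1.1 q.1.2 (q.2 r le_rfl)

theorem lh_ff (hA : Adm M T g) (hN : N ≠ 0) : IsLocalHomeomorph (ff M T g N) :=
  (lh_fZ M T).comp (rc_lh hN (continuous_sc M T g) hA.sc_ne)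

theorem compact_ff (hA : Adm M T g) (hN : N ≠ 0) {S : Set (T.lvl (base T) r).X}
    (hS : IsCompact S) : IsCompact (ff M T g N ⁻¹' S) := by
  have h1 : IsCompact (fZ M T ⁻¹' S) := by
    refine compact_fZ M T (fun x y c hx => ?_) hS
    refine hA.h_ne y c ?_
    rw [← hx]
    exact (T.lvl (base T) r).hc x
  exact rc_compact hN (continuous_sc M T g) h1
    (hS.isClosed.preimage (lh_fZ M T).continuous)

/-- Riemann domains are locally compact. -/
theorem wlc_rdom {n : ℕ} (X : Type*) [TopologicalSpace X] [RDom n X] :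
    WeaklyLocallyCompactSpace X := by
  refine ⟨fun x => ?_⟩
  have h1 : (ch x).target ∈ 𝓝 ((ch x) x) :=
    (ch x).open_target.mem_nhds ((ch x).map_source (mem_ch x))
  obtain ⟨ε, hε, hb⟩ := Metric.nhds_basis_closedBall.mem_iff.1 h1
  refine ⟨(ch x).symm '' Metric.closedBall ((ch x) x) ε,
    (isCompact_closedBall _ _).image_of_continuousOn ((ch x).continuousOn_symm.mono hb), ?_⟩
  have h2 : (ch x).source ∩ (ch x) ⁻¹' (Metric.ball ((ch x) x) ε) ∈ 𝓝 x :=
    ((ch x).isOpen_inter_preimage Metric.isOpen_ball).mem_nhds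
      ⟨mem_ch x, Metric.mem_ball_self hε⟩
  filter_upwards [h2] with y hy
  exact ⟨(ch x) y, Metric.ball_subset_closedBall hy.2, (ch x).left_inv hy.1⟩

theorem cov_ff (hA : Adm M T g) (hN : N ≠ 0) : IsCoveringMap (ff M T g N) ∧
    ∃ n : ℕ, ∀ x, Nonempty (Fin n ≃ ff M T g N ⁻¹' {x}) := by
  have hlc : WeaklyLocallyCompactSpace (T.lvl (base T) r).X := wlc_rdom _
  obtain ⟨h1, h2⟩ := Tow4_244.closed_finite_of_compact (lh_ff hA hN)
    (fun S hS => compact_ff hA hN hS)
  obtain ⟨n, hn, _⟩ := Tow4_244.sheets (lh_ff hA hN) h1 h2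
  refine ⟨?_, n, fun x => ?_⟩
  · rw [isCoveringMap_iff_isCoveringMapOn_univ]
    apply IsClosedMap.isCoveringMapOn_of_isLocalHomeomorphOn h1
    · intro x _; exact h2 x
    · exact (lh_ff hA hN).isLocalHomeomorphOn
  · have : Finite (ff M T g N ⁻¹' {x}) := h2 x
    exact ⟨(Finite.equivFinOfCardEq (hn x)).symm⟩

section norm

variable {F : FSp s r (base T).X (YY M T g N)}
  (hq : ∀ y, F.q y = T.toBase (base T) r (ff M T g N y))
  (ht : ∀ y (i : Fin r), F.t y i = T.fx (base T) r i (ff M T g N y))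

include hq in
theorem q_eq (y : YY M T g N) : F.q y = f0 M T y.pr := by
  rw [hq]; exact toBase_fZ M T y.pr

include ht in
theorem t_eq (y : YY M T g N) : F.t y = M.pz y.pr.1.1 := by
  funext i
  rw [ht]; exact fx_fZ M T y.pr i

include hq ht in
theorem pb (hA : Adm M T g) (hN : N ≠ 0) (y : YY M T g N) : PB F.pc (RC.rt) y := by
  choose G hG1 hG2 using fun k => analytic_local M (g k) y.pr.1.1
  -- the section as an analytic function of the coordinates
  let A : (Fin s → ℂ) × (Fin r → ℂ) → ℂ := fun w => ∑ k, w.1 k * G k w.2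
  have hpc : ∀ y' : YY M T g N, F.pc y' = (y'.pr.1.2, M.pz y'.pr.1.1) := by
    intro y'
    show (cp (F.q y'), F.t y') = _
    rw [q_eq hq, t_eq ht]; rfl
  have hA1 : AnalyticAt ℂ A (F.pc y) := by
    rw [hpc]
    refine Finset.analyticAt_fun_sum _ fun k _ => ?_
    refine AnalyticAt.mul ?_ ?_
    · exact ((ContinuousLinearMap.proj (R := ℂ) (φ := fun _ : Fin s => ℂ) k).comp
        (ContinuousLinearMap.fst ℂ (Fin s → ℂ) (Fin r → ℂ))).analyticAt _
    · exact AnalyticAt.comp (g := G k) (f := fun w : (Fin s → ℂ) × (Fin r → ℂ) => w.2) (hG1 k)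
        analyticAt_snd
  have hA2 : ∀ᶠ y' : YY M T g N in 𝓝 y, sc M T g y'.pr = A (F.pc y') := by
    have h1 : Tendsto (fun y' : YY M T g N => y'.pr.1.1) (𝓝 y) (𝓝 y.pr.1.1) :=
      (continuous_fst.comp (continuous_subtype_val.comp RC.continuous_pr)).tendsto y
    have h2 : ∀ᶠ y' : YY M T g N in 𝓝 y, ∀ k, y'.pr.1.1 (g k) = G k (M.pz y'.pr.1.1) := by
      rw [Filter.eventually_all]
      exact fun k => h1.eventually (hG2 k)
    filter_upwards [h2] with y' hy'
    rw [hpc]
    exact Finset.sum_congr rfl fun k _ => by rw [hy' k]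
  have hne := hA.sc_ne y.pr
  have hA3 : A (F.pc y) = sc M T g y.pr := (hA2.self_of_nhds).symm
  refine ⟨fun w => lroot N y.rt (sc M T g y.pr) (A w), ?_, ?_⟩
  · have h1 : AnalyticAt ℂ (lroot N y.rt (sc M T g y.pr)) (A (F.pc y)) := by
      refine lroot_analyticAt hne ?_
      rw [hA3, div_self hne]; exact Complex.one_mem_slitPlane
    exact AnalyticAt.comp (g := lroot N y.rt (sc M T g y.pr)) (f := A) h1 hA1
  · filter_upwards [hA2, RC.eventually_eq hN (continuous_sc M T g) y hne] with y' h1 h2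
    rw [h2, h1]

include hq ht in
theorem fh (hA : Adm M T g) (hN : N ≠ 0) (u : (base T).X) : F.FH u (RC.rt) := by
  intro y hy
  obtain ⟨G, hG1, hG2⟩ := pb hq ht hA hN y
  refine ⟨fun τ => G (cp u, τ), ?_, ?_⟩
  · have h1 : F.pc y = (cp u, F.t y) := by rw [← hy]; rfl
    rw [h1] at hG1
    exact AnalyticAt.comp (g := G) (f := fun τ : Fin r → ℂ => ((cp u, τ) : _ × _)) hG1
      (analyticAt_const.prod analyticAt_id)
  · filter_upwards [hG2] with y' h1 h2
    rw [h1, ← h2]; rfl

include hq ht in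
/-- the fibre norm of the root -/
theorem fnorm_rt (hA : Adm M T g) (hN : N ≠ 0) (u : (base T).X) :
    F.fnorm u RC.rt = N * lintM M.z (fun p => ‖∑ k, cp u k * p (g k)‖ₑ ^ (2 / (N : ℝ))) := by
  have hint : F.fnorm u RC.rt = ∫⁻ τ : Fin r → ℂ,
      N * ∑' p : {p : M.Pts // ∀ i, p (M.z i) = τ i},
        ‖∑ k, cp u k * p.1 (g k)‖ₑ ^ (2 / (N : ℝ)) := by
    unfold FSp.fnorm FSp.fint
    refine lintegral_congr_ae ?_
    filter_upwards [ae_good T (base T) r u] with τ hτ
    -- the fibre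
    have hgood : ∀ p : {p : M.Pts // ∀ i, p (M.z i) = τ i}, ∀ i ≤ r,
        MvPolynomial.eval (crd0 (ex0 (M.pz p.1)) (cp u) i) (T.c i) ≠ 0 := by
      intro p i hi
      have h1 : M.pz p.1 = τ := funext p.2
      rw [h1]; exact hτ i hi
    let e : {y : YY M T g N // F.q y = u ∧ F.t y = τ} ≃
        Σ p : {p : M.Pts // ∀ i, p (M.z i) = τ i},
          {η : ℂ // η ^ N = ∑ k, cp u k * p.1 (g k)} :=
      { toFun := fun y => ⟨⟨y.1.pr.1.1, fun i => by
          have h1 := y.2.2
          rw [t_eq ht] at h1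
          exact congrFun h1 i⟩, ⟨y.1.rt, by
            rw [y.1.rt_pow]
            have h1 := y.2.1
            rw [q_eq hq] at h1
            show ∑ k, y.1.pr.1.2 k * y.1.pr.1.1 (g k) = _
            have h2 : y.1.pr.1.2 = cp u :=
              congrArg (fun v : (base T).X => (cp v : Fin s → ℂ)) h1
            rw [h2]⟩⟩
        invFun := fun z => ⟨RC.mk (⟨(z.1.1, cp u), hgood z.1⟩ : Zt M T) z.2.1 z.2.2, by
            rw [q_eq hq]; rfl, by
            rw [t_eq ht]; exact funext z.1.2⟩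
        left_inv := by
          intro y
          apply Subtype.ext
          have h1 := y.2.1
          rw [q_eq hq] at h1
          have h2 : y.1.pr.1.2 = cp u :=
            congrArg (fun v : (base T).X => (cp v : Fin s → ℂ)) h1
          apply RC.ext
          · apply Subtype.ext
            exact Prod.ext rfl h2.symm
          · rfl
        right_inv := by
          intro z
          rfl }
    rw [← e.symm.tsum_eq]
    have h1 : ∀ z : Σ p : {p : M.Pts // ∀ i, p (M.z i) = τ i},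
        {η : ℂ // η ^ N = ∑ k, cp u k * p.1 (g k)},
        ‖((e.symm z).1 : YY M T g N).rt‖ₑ ^ 2 = ‖z.2.1‖ₑ ^ 2 := fun z => rfl
    simp only [h1]
    rw [ENNReal.tsum_sigma', ← ENNReal.tsum_mul_left]
    refine tsum_congr fun p => ?_
    exact rc_tsum hN (hA.sum_ne p.1 (cp u) (hgood p r le_rfl))
  rw [hint, lintegral_const_mul' _ _ (ENNReal.natCast_ne_top N)]
  rfl

end norm


end Crest.Agent.R276.Fri3_348
end
end

-- ▼ part R276/Fri4_348
section

/-!
# R276, leaf FRI-FIB (helper348): FRI for abstract fibres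

`FDat P s r` : a Hausdorff space `P` with local coordinates `x : P → ℂʳ`, compact preimages off
`{h = 0}`, functions `g k` analytic in the coordinates, and a polynomial `D(c, x)`.
`fri_abs` : `c ↦ ∫ Σ_{x p = τ} |∑ c k * g k p| ^ (2 / N)` is locally of finite rank.
-/

set_option autoImplicit false

noncomputable section

open Set Filter Topology MeasureTheory
open Crest.Agent.R271.Ho51 Crest.Agent.R271.Defs710 Crest.Agent.R271.Rd692
open Crest.Agent.R276.Ipc735 Crest.Agent.R276.Top8_815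
open Crest.Agent.R276.Tow2_244 Crest.Agent.R276.Iter_840
open Crest.Agent.R276.Rc_348 Crest.Agent.R276.FriD_348
open Crest.Agent.R276.Fri2_348 (baseX isOpen_base cp_base base crd_eq surjective_toBase ae_good)
open Crest.Agent.R276.Fri3_348 (wlc_rdom)
open scoped ENNReal

namespace Crest.Agent.R276.Fri4_348

/-- Data of a fibre. -/
structure FDat (P : Type) [TopologicalSpace P] (s r : ℕ) where
  x : P → (Fin r → ℂ)
  lh : IsLocalHomeomorph x
  h : MvPolynomial (Fin r) ℂ
  cpt : ∀ S : Set (Fin r → ℂ), IsCompact S → (∀ y ∈ S, MvPolynomial.eval y h ≠ 0) →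
    IsCompact (x ⁻¹' S)
  g : Fin s → P → ℂ
  gan : ∀ (k : Fin s) (p₀ : P), ∃ G : (Fin r → ℂ) → ℂ, AnalyticAt ℂ G (x p₀) ∧
    ∀ᶠ p in 𝓝 p₀, g k p = G (x p)
  D : MvPolynomial (Fin (s + r)) ℂ
  D0 : D ≠ 0
  hD : ∀ (ξ : ℕ → ℂ) (c : Fin s → ℂ), MvPolynomial.eval (crd0 ξ c r) D ≠ 0 →
    MvPolynomial.eval (fun i : Fin r => ξ i) h ≠ 0 ∧
      ∀ p : P, (x p = fun i : Fin r => ξ i) → ∑ k, c k * g k p ≠ 0

variable {P : Type} [TopologicalSpace P] {s r : ℕ} (M : FDat P s r)

/-- The fibre integral. -/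
def FDat.Φ (N : ℕ) (c : Fin s → ℂ) : ℝ≥0∞ := ∫⁻ τ : Fin r → ℂ, ∑' p : {p : P // M.x p = τ},
  ‖∑ k, c k * M.g k p.1‖ₑ ^ (2 / (N : ℝ))

theorem FDat.continuous_x : Continuous M.x := M.lh.continuous

theorem FDat.continuous_g (k : Fin s) : Continuous (M.g k) := by
  rw [continuous_iff_continuousAt]
  intro p₀
  obtain ⟨G, hG1, hG2⟩ := M.gan k p₀
  have h1 : ContinuousAt (fun p => G (M.x p)) p₀ :=
    ContinuousAt.comp (g := G) hG1.continuousAt M.continuous_x.continuousAt
  exact h1.congr (hG2.mono fun _ h => h.symm)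

variable (T : PTow s)

/-- `{(p, c)}` over the top level of the tower. -/
abbrev Zt : Type := {q : P × (Fin s → ℂ) //
  ∀ i ≤ r, MvPolynomial.eval (crd0 (ex0 (M.x q.1)) q.2 i) (T.c i) ≠ 0}

theorem isOpen_Zt : IsOpen {q : P × (Fin s → ℂ) |
    ∀ i ≤ r, MvPolynomial.eval (crd0 (ex0 (M.x q.1)) q.2 i) (T.c i) ≠ 0} := by
  have h1 : {q : P × (Fin s → ℂ) |
      ∀ i ≤ r, MvPolynomial.eval (crd0 (ex0 (M.x q.1)) q.2 i) (T.c i) ≠ 0} =
      ⋂ i ∈ Set.Iic r, {q | MvPolynomial.eval (crd0 (ex0 (M.x q.1)) q.2 i) (T.c i) ≠ 0} := by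
    ext q; simp
  rw [h1]
  refine (Set.finite_Iic r).isOpen_biInter fun i _ => ?_
  refine isOpen_ne_fun ?_ continuous_const
  refine (MvPolynomial.continuous_eval (T.c i)).comp ?_
  refine continuous_crd0 (x := fun k (q : P × (Fin s → ℂ)) => ex0 (M.x q.1) k)
    (c := fun q => q.2) (fun k => ?_) continuous_snd i
  exact (continuous_ex0 k).comp ((M.continuous_x).comp continuous_fst)

/-- to the base -/
def f0 (q : Zt M T) : (base T).X := (⟨q.1.2, q.2 0 (Nat.zero_le _)⟩ : baseX T)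

theorem cp_f0 (q : Zt M T) : cp (f0 M T q) = q.1.2 := rfl

theorem continuous_f0 : Continuous (f0 M T) :=
  Continuous.subtype_mk (continuous_snd.comp continuous_subtype_val) _

/-- fibre coordinates -/
def xc (i : ℕ) (q : Zt M T) : ℂ := ex0 (M.x q.1.1) i

theorem continuous_xc (i : ℕ) : Continuous (xc M T i) :=
  (continuous_ex0 i).comp ((M.continuous_x).comp (continuous_fst.comp continuous_subtype_val))

theorem crd_Zt (q : Zt M T) (j : ℕ) :
    T.crd (base T) (f0 M T) (xc M T) q j = crd0 (ex0 (M.x q.1.1)) q.1.2 j := by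
  rw [crd_eq, cp_f0]; rfl

theorem good_Zt (q : Zt M T) : ∀ i ≤ r,
    MvPolynomial.eval (T.crd (base T) (f0 M T) (xc M T) q i) (T.c i) ≠ 0 := by
  intro i hi
  rw [crd_Zt]; exact q.2 i hi

/-- the map to the top level -/
def fZ : Zt M T → (T.lvl (base T) r).X := T.lift (base T) (f0 M T) (xc M T) r (good_Zt M T)

theorem lh_pz : IsLocalHomeomorph (fun q : P × (Fin s → ℂ) => (M.x q.1, q.2)) := by
  refine IsLocalHomeomorph.mk _ fun q => ?_
  obtain ⟨e, he, hfe⟩ := M.lh q.1
  refine ⟨e.prod (OpenPartialHomeomorph.refl _), ?_, ?_⟩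
  · simp [he]
  · intro y hy
    simp only [OpenPartialHomeomorph.prod_apply, OpenPartialHomeomorph.refl_apply]
    rw [← hfe]; rfl

theorem lh_fZ : IsLocalHomeomorph (fZ M T) := by
  refine T.isLocalHomeomorph_lift (continuous_f0 M T) (continuous_xc M T) ?_
  obtain ⟨E, hE⟩ := exists_homeo (s := s) r
  have h1 : (fun q => T.crd (base T) (f0 M T) (xc M T) q r) =
      E ∘ (fun q : P × (Fin s → ℂ) => (M.x q.1, q.2)) ∘ (Subtype.val : Zt M T → _) := by
    funext q
    rw [crd_Zt]; exact (hE _ _).symm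
  rw [h1]
  exact E.isLocalHomeomorph.comp ((lh_pz M).comp
    (isOpen_Zt M T).isOpenEmbedding_subtypeVal.isLocalHomeomorph)

theorem cp_fZ (q : Zt M T) : (cp (fZ M T q) : Fin (s + r) → ℂ) =
    crd0 (ex0 (M.x q.1.1)) q.1.2 r := by
  unfold fZ
  rw [T.cp_lift, crd_Zt]

theorem toBase_fZ (q : Zt M T) : T.toBase (base T) r (fZ M T q) = f0 M T q := T.toBase_lift q

/-- the fibre coordinates of the image -/
theorem fx_fZ (q : Zt M T) (i : Fin r) : T.fx (base T) r i (fZ M T q) = M.x q.1.1 i := by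
  obtain ⟨e, he⟩ := exists_posEquiv (s := s) r
  have h1 := T.crd_fx (base T) r (fZ M T q)
  rw [cp_fZ, crd_eq] at h1
  have h2 := congrFun h1 (e (Sum.inl i))
  rw [(he _ _).1, (he _ _).1, ex0_val] at h2
  exact h2

theorem compact_fZ (hT : ∀ x : (T.lvl (base T) r).X, ∀ (y : Fin r → ℂ) (c : Fin s → ℂ),
    (cp x : Fin (s + r) → ℂ) = crd0 (ex0 y) c r → MvPolynomial.eval y M.h ≠ 0)
    {S : Set (T.lvl (base T) r).X} (hS : IsCompact S) : IsCompact (fZ M T ⁻¹' S) := by
  obtain ⟨E, hE⟩ := exists_homeo (s := s) r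
  let A : Set ((Fin r → ℂ) × (Fin s → ℂ)) :=
    E.symm '' ((fun x : (T.lvl (base T) r).X => (cp x : Fin (s + r) → ℂ)) '' S)
  have hA : IsCompact A := (hS.image cp_cont).image E.symm.continuous
  have hA1 : ∀ q ∈ A, ∃ x ∈ S, (cp x : Fin (s + r) → ℂ) = crd0 (ex0 q.1) q.2 r := by
    rintro _ ⟨_, ⟨x, hx, rfl⟩, rfl⟩
    refine ⟨x, hx, ?_⟩
    have h1 := hE (E.symm (cp x)).1 (E.symm (cp x)).2
    rw [Prod.mk.eta, E.apply_symm_apply] at h1
    exact h1
  -- points of `A` satisfy all the conditions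
  have hA2 : ∀ q ∈ A, ∀ i ≤ r, MvPolynomial.eval (crd0 (ex0 q.1) q.2 i) (T.c i) ≠ 0 := by
    intro q hq i hi
    obtain ⟨x, hx, hxq⟩ := hA1 q hq
    obtain ⟨e, he⟩ := exists_posEquiv (s := s) r
    have h1 := T.ne_zero_of_lvl (base T) r x i hi
    rw [crd_eq] at h1
    have h2 := T.crd_fx (base T) r x
    rw [crd_eq, hxq] at h2
    have h3 : (cp (T.toBase (base T) r x) : Fin s → ℂ) = q.2 := by
      funext k
      have := congrFun h2 (e (Sum.inr k))
      rw [(he _ _).2, (he _ _).2] at this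
      exact this
    have h4 : ∀ k < r, (fun i => T.fx (base T) r i x) k = ex0 q.1 k := by
      intro k hk
      have := congrFun h2 (e (Sum.inl ⟨k, hk⟩))
      rw [(he _ _).1, (he _ _).1] at this
      exact this
    rw [h3, crd0_congr _ (fun k hk => h4 k (by omega))] at h1
    exact h1
  have hA3 : ∀ q ∈ A, MvPolynomial.eval q.1 M.h ≠ 0 := by
    intro q hq
    obtain ⟨x, hx, hxq⟩ := hA1 q hq
    exact hT x q.1 q.2 hxq
  -- the preimage in `P × ℂˢ`
  have hB : IsCompact ((fun q : P × (Fin s → ℂ) => (M.x q.1, q.2)) ⁻¹' A) := by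
    have h1 : IsCompact (M.x ⁻¹' (Prod.fst '' A)) := by
      refine M.cpt _ (hA.image continuous_fst) ?_
      rintro _ ⟨q, hq, rfl⟩
      exact hA3 q hq
    have h2 : IsCompact ((M.x ⁻¹' (Prod.fst '' A)) ×ˢ (Prod.snd '' A)) :=
      h1.prod (hA.image continuous_snd)
    refine h2.of_isClosed_subset ?_ ?_
    · refine hA.isClosed.preimage ?_
      exact ((M.continuous_x).comp continuous_fst).prodMk continuous_snd
    · intro q hq
      exact ⟨⟨_, hq, rfl⟩, ⟨_, hq, rfl⟩⟩
  have hsub : (fun q : P × (Fin s → ℂ) => (M.x q.1, q.2)) ⁻¹' A ⊆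
      Set.range (Subtype.val : Zt M T → P × (Fin s → ℂ)) := by
    intro q hq
    have h5 := hA2 (M.x q.1, q.2) hq
    exact Set.mem_range.2 ⟨(⟨q, h5⟩ : Zt M T), rfl⟩
  have hC : IsCompact ((Subtype.val : Zt M T → P × (Fin s → ℂ)) ⁻¹'
      ((fun q : P × (Fin s → ℂ) => (M.x q.1, q.2)) ⁻¹' A)) :=
    Topology.IsInducing.subtypeVal.isCompact_preimage' hB hsub
  refine hC.of_isClosed_subset (hS.isClosed.preimage (lh_fZ M T).continuous) ?_
  intro q hq
  have h1 : E.symm (cp (fZ M T q)) = (M.x q.1.1, q.1.2) := by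
    rw [E.symm_apply_eq, cp_fZ, hE]
  have h2 : E.symm (cp (fZ M T q)) ∈ A := ⟨cp (fZ M T q), ⟨fZ M T q, hq, rfl⟩, rfl⟩
  rw [h1] at h2
  exact h2

/-- the section `∑ c k * g k` -/
def sc (q : Zt M T) : ℂ := ∑ k, q.1.2 k * M.g k q.1.1

theorem continuous_sc : Continuous (sc M T) := by
  refine continuous_finsetSum _ fun k _ => ?_
  refine Continuous.mul ?_ ?_
  · exact (continuous_apply k).comp (continuous_snd.comp continuous_subtype_val)
  · exact (M.continuous_g k).comp (continuous_fst.comp continuous_subtype_val)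

variable (N : ℕ)

/-- the root cover -/
abbrev YY : Type := RC (sc M T) N

/-- the covering -/
def ff (y : YY M T N) : (T.lvl (base T) r).X := fZ M T y.pr

/-- The hypothesis on the tower. -/
def Adm : Prop := ∀ (x : ℕ → ℂ) (c : Fin s → ℂ), MvPolynomial.eval (crd0 x c r) (T.c r) ≠ 0 →
      MvPolynomial.eval (fun i : Fin r => x i) M.h ≠ 0 ∧
      ∀ p : P, (M.x p = fun i : Fin r => x i) → ∑ k, c k * M.g k p ≠ 0

variable {M T N}

theorem Adm.h_ne (hA : Adm M T) (y : Fin r → ℂ) (c : Fin s → ℂ)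
    (h : MvPolynomial.eval (crd0 (ex0 y) c r) (T.c r) ≠ 0) : MvPolynomial.eval y M.h ≠ 0 := by
  have h1 := (hA (ex0 y) c h).1
  simpa using h1

theorem Adm.sum_ne (hA : Adm M T) (p : P) (c : Fin s → ℂ)
    (h : MvPolynomial.eval (crd0 (ex0 (M.x p)) c r) (T.c r) ≠ 0) :
    ∑ k, c k * M.g k p ≠ 0 := by
  refine (hA (ex0 (M.x p)) c h).2 p ?_
  funext i; simp

theorem Adm.sc_ne (hA : Adm M T) (q : Zt M T) : sc M T q ≠ 0 :=
  hA.sum_ne q.1.1 q.1.2 (q.2 r le_rfl)

theorem lh_ff (hA : Adm M T) (hN : N ≠ 0) : IsLocalHomeomorph (ff M T N) :=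
  (lh_fZ M T).comp (rc_lh hN (continuous_sc M T) hA.sc_ne)

theorem compact_ff (hA : Adm M T) (hN : N ≠ 0) {S : Set (T.lvl (base T) r).X}
    (hS : IsCompact S) : IsCompact (ff M T N ⁻¹' S) := by
  have h1 : IsCompact (fZ M T ⁻¹' S) := by
    refine compact_fZ M T (fun x y c hx => ?_) hS
    refine hA.h_ne y c ?_
    rw [← hx]
    exact (T.lvl (base T) r).hc x
  exact rc_compact hN (continuous_sc M T) h1
    (hS.isClosed.preimage (lh_fZ M T).continuous)

theorem cov_ff [T2Space P] (hA : Adm M T) (hN : N ≠ 0) : IsCoveringMap (ff M T N) ∧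
    ∃ n : ℕ, ∀ x, Nonempty (Fin n ≃ ff M T N ⁻¹' {x}) := by
  have hlc : WeaklyLocallyCompactSpace (T.lvl (base T) r).X := wlc_rdom _
  obtain ⟨h1, h2⟩ := Tow4_244.closed_finite_of_compact (lh_ff hA hN)
    (fun S hS => compact_ff hA hN hS)
  obtain ⟨n, hn, _⟩ := Tow4_244.sheets (lh_ff hA hN) h1 h2
  refine ⟨?_, n, fun x => ?_⟩
  · rw [isCoveringMap_iff_isCoveringMapOn_univ]
    apply IsClosedMap.isCoveringMapOn_of_isLocalHomeomorphOn h1
    · intro x _; exact h2 x
    · exact (lh_ff hA hN).isLocalHomeomorphOn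
  · have : Finite (ff M T N ⁻¹' {x}) := h2 x
    exact ⟨(Finite.equivFinOfCardEq (hn x)).symm⟩

section norm

variable {F : FSp s r (base T).X (YY M T N)}
  (hq : ∀ y, F.q y = T.toBase (base T) r (ff M T N y))
  (ht : ∀ y (i : Fin r), F.t y i = T.fx (base T) r i (ff M T N y))

include hq in
theorem q_eq (y : YY M T N) : F.q y = f0 M T y.pr := by
  rw [hq]; exact toBase_fZ M T y.pr

include ht in
theorem t_eq (y : YY M T N) : F.t y = M.x y.pr.1.1 := by
  funext i
  rw [ht]; exact fx_fZ M T y.pr i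

include hq ht in
theorem pb (hA : Adm M T) (hN : N ≠ 0) (y : YY M T N) : PB F.pc (RC.rt) y := by
  choose G hG1 hG2 using fun k => M.gan k y.pr.1.1
  -- the section as an analytic function of the coordinates
  let A : (Fin s → ℂ) × (Fin r → ℂ) → ℂ := fun w => ∑ k, w.1 k * G k w.2
  have hpc : ∀ y' : YY M T N, F.pc y' = (y'.pr.1.2, M.x y'.pr.1.1) := by
    intro y'
    show (cp (F.q y'), F.t y') = _
    rw [q_eq hq, t_eq ht]; rfl
  have hA1 : AnalyticAt ℂ A (F.pc y) := by
    rw [hpc]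
    refine Finset.analyticAt_fun_sum _ fun k _ => ?_
    refine AnalyticAt.mul ?_ ?_
    · exact ((ContinuousLinearMap.proj (R := ℂ) (φ := fun _ : Fin s => ℂ) k).comp
        (ContinuousLinearMap.fst ℂ (Fin s → ℂ) (Fin r → ℂ))).analyticAt _
    · exact AnalyticAt.comp (g := G k) (f := fun w : (Fin s → ℂ) × (Fin r → ℂ) => w.2) (hG1 k)
        analyticAt_snd
  have hA2 : ∀ᶠ y' : YY M T N in 𝓝 y, sc M T y'.pr = A (F.pc y') := by
    have h1 : Tendsto (fun y' : YY M T N => y'.pr.1.1) (𝓝 y) (𝓝 y.pr.1.1) :=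
      (continuous_fst.comp (continuous_subtype_val.comp RC.continuous_pr)).tendsto y
    have h2 : ∀ᶠ y' : YY M T N in 𝓝 y, ∀ k, M.g k y'.pr.1.1 = G k (M.x y'.pr.1.1) := by
      rw [Filter.eventually_all]
      exact fun k => h1.eventually (hG2 k)
    filter_upwards [h2] with y' hy'
    rw [hpc]
    exact Finset.sum_congr rfl fun k _ => by rw [hy' k]
  have hne := hA.sc_ne y.pr
  have hA3 : A (F.pc y) = sc M T y.pr := (hA2.self_of_nhds).symm
  refine ⟨fun w => lroot N y.rt (sc M T y.pr) (A w), ?_, ?_⟩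
  · have h1 : AnalyticAt ℂ (lroot N y.rt (sc M T y.pr)) (A (F.pc y)) := by
      refine lroot_analyticAt hne ?_
      rw [hA3, div_self hne]; exact Complex.one_mem_slitPlane
    exact AnalyticAt.comp (g := lroot N y.rt (sc M T y.pr)) (f := A) h1 hA1
  · filter_upwards [hA2, RC.eventually_eq hN (continuous_sc M T) y hne] with y' h1 h2
    rw [h2, h1]

include hq ht in
theorem fh (hA : Adm M T) (hN : N ≠ 0) (u : (base T).X) : F.FH u (RC.rt) := by
  intro y hy
  obtain ⟨G, hG1, hG2⟩ := pb hq ht hA hN y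
  refine ⟨fun τ => G (cp u, τ), ?_, ?_⟩
  · have h1 : F.pc y = (cp u, F.t y) := by rw [← hy]; rfl
    rw [h1] at hG1
    exact AnalyticAt.comp (g := G) (f := fun τ : Fin r → ℂ => ((cp u, τ) : _ × _)) hG1
      (analyticAt_const.prod analyticAt_id)
  · filter_upwards [hG2] with y' h1 h2
    rw [h1, ← h2]; rfl

include hq ht in
/-- the fibre norm of the root -/
theorem fnorm_rt (hA : Adm M T) (hN : N ≠ 0) (u : (base T).X) :
    F.fnorm u RC.rt = N * M.Φ N (cp u) := by
  have hint : F.fnorm u RC.rt = ∫⁻ τ : Fin r → ℂ,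
      N * ∑' p : {p : P // M.x p = τ},
        ‖∑ k, cp u k * M.g k p.1‖ₑ ^ (2 / (N : ℝ)) := by
    unfold FSp.fnorm FSp.fint
    refine lintegral_congr_ae ?_
    filter_upwards [ae_good T (base T) r u] with τ hτ
    -- the fibre
    have hgood : ∀ p : {p : P // M.x p = τ}, ∀ i ≤ r,
        MvPolynomial.eval (crd0 (ex0 (M.x p.1)) (cp u) i) (T.c i) ≠ 0 := by
      intro p i hi
      have h1 : M.x p.1 = τ := p.2
      rw [h1]; exact hτ i hi
    let e : {y : YY M T N // F.q y = u ∧ F.t y = τ} ≃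
        Σ p : {p : P // M.x p = τ},
          {η : ℂ // η ^ N = ∑ k, cp u k * M.g k p.1} :=
      { toFun := fun y => ⟨⟨y.1.pr.1.1, by
          have h1 := y.2.2
          rw [t_eq ht] at h1
          exact h1⟩, ⟨y.1.rt, by
            rw [y.1.rt_pow]
            have h1 := y.2.1
            rw [q_eq hq] at h1
            show ∑ k, y.1.pr.1.2 k * M.g k y.1.pr.1.1 = _
            have h2 : y.1.pr.1.2 = cp u :=
              congrArg (fun v : (base T).X => (cp v : Fin s → ℂ)) h1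
            rw [h2]⟩⟩
        invFun := fun z => ⟨RC.mk (⟨(z.1.1, cp u), hgood z.1⟩ : Zt M T) z.2.1 z.2.2, by
            rw [q_eq hq]; rfl, by
            rw [t_eq ht]; exact z.1.2⟩
        left_inv := by
          intro y
          apply Subtype.ext
          have h1 := y.2.1
          rw [q_eq hq] at h1
          have h2 : y.1.pr.1.2 = cp u :=
            congrArg (fun v : (base T).X => (cp v : Fin s → ℂ)) h1
          apply RC.ext
          · apply Subtype.ext
            exact Prod.ext rfl h2.symm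
          · rfl
        right_inv := by
          intro z
          rfl }
    rw [← e.symm.tsum_eq]
    have h1 : ∀ z : Σ p : {p : P // M.x p = τ},
        {η : ℂ // η ^ N = ∑ k, cp u k * M.g k p.1},
        ‖((e.symm z).1 : YY M T N).rt‖ₑ ^ 2 = ‖z.2.1‖ₑ ^ 2 := fun z => rfl
    simp only [h1]
    rw [ENNReal.tsum_sigma', ← ENNReal.tsum_mul_left]
    refine tsum_congr fun p => ?_
    exact rc_tsum hN (hA.sum_ne p.1 (cp u) (hgood p r le_rfl))
  rw [hint, lintegral_const_mul' _ _ (ENNReal.natCast_ne_top N)]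
  rfl

end norm

variable (M)

/-- **FRI** for abstract fibres. -/
theorem fri_abs [T2Space P] (hO : OneStep) (hR : StepRz) (hRA : StepRzAct) (N : ℕ) (hN : N ≠ 0)
    (hfin : ∀ c : Fin s → ℂ, M.Φ N c < ∞) :
    ∃ (b : ℕ) (Q : MvPolynomial (Fin s) ℂ), Q ≠ 0 ∧
      FinC_39.LocRank b (fun c => (M.Φ N c).toReal) (fun c => MvPolynomial.eval c Q) := by
  obtain ⟨T, hT1, hT2⟩ := exists_ptow s r M.D M.D0
  have hA : Adm M T := by
    intro x c hxc
    rw [hT1] at hxc
    exact M.hD x c hxc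
  obtain ⟨hcov, n, hn⟩ := cov_ff (N := N) hA hN
  obtain ⟨N', W, ρ, F, ι, hRz, _, hq, ht⟩ := geoVHS (Γ := Unit) T (base T) hO hR hRA r n hcov
    (fun x => (hn x).some) 1 (fun _ => continuous_id) (fun _ _ => rfl)
  have hfn : ∀ u : (base T).X, F.fnorm u RC.rt < ∞ := by
    intro u
    rw [fnorm_rt hq ht hA hN]
    exact ENNReal.mul_lt_top (ENNReal.natCast_lt_top _) (hfin _)
  refine ⟨N', T.c 0, hT2 0 (Nat.zero_le _), ?_⟩
  refine Fri_348.locRank_of_rz W F ι hRz RC.rt (fun u => fh hq ht hA hN u) hfn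
    (fun y => pb hq ht hA hN y) _ _ (fun σ hσ => ⟨(⟨σ, hσ⟩ : baseX T), rfl⟩) (N : ℝ)
    (by exact_mod_cast hN) (fun u => ?_)
  rw [fnorm_rt hq ht hA hN, ENNReal.toReal_mul, ENNReal.toReal_natCast]


/-! ### fibres of relative models -/

section rel

open Crest.Agent.R276.Mod1_987

variable {L K : Type} [Field L] [Field K] [Algebra ℂ L] [Algebra ℂ K] [Algebra L K]
  [IsScalarTower ℂ L K] {m r : ℕ} (R : RMdl L K m r) (g : Fin s → R.MK.B)

/-- The polynomial `D` on the fibre over a point with coordinates `a`. -/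
theorem exists_Da (D : MvPolynomial (Fin (s + (m + r))) ℂ) (hD : D ≠ 0) :
    ∃ P : MvPolynomial (Fin m) ℂ, P ≠ 0 ∧ ∀ a : Fin m → ℂ, MvPolynomial.eval a P ≠ 0 →
      ∃ D' : MvPolynomial (Fin (s + r)) ℂ, D' ≠ 0 ∧ ∀ (ξ : ℕ → ℂ) (c : Fin s → ℂ),
        MvPolynomial.eval (crd0 ξ c r) D' =
          MvPolynomial.eval (crd0 (ex0 (Fin.append a fun j : Fin r => ξ j)) c (m + r)) D := by
  obtain ⟨e, he⟩ := exists_posEquiv (s := s) (m + r)
  obtain ⟨e', he'⟩ := exists_posEquiv (s := s) r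
  -- values
  have hval : ∀ (a : Fin m → ℂ) (ξ : Fin r → ℂ) (c : Fin s → ℂ) (idx : Fin (s + (m + r))),
      crd0 (ex0 (Fin.append a ξ)) c (m + r) idx =
        Sum.elim (Fin.append a ξ) c (e.symm idx) := by
    intro a ξ c idx
    obtain ⟨u, rfl⟩ := e.surjective idx
    rw [e.symm_apply_apply]
    rcases u with i | k
    · rw [(he _ _).1, ex0_val]; rfl
    · rw [(he _ _).2]; rfl
  obtain ⟨v, hv⟩ : ∃ v : Fin (s + (m + r)) → ℂ, MvPolynomial.eval v D ≠ 0 := by
    by_contra hcon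
    push Not at hcon
    exact hD (MvPolynomial.funext fun x => by rw [hcon, map_zero])
  let a₀ : Fin m → ℂ := fun i => v (e (Sum.inl (Fin.castAdd r i)))
  let ξ₀ : Fin r → ℂ := fun j => v (e (Sum.inl (Fin.natAdd m j)))
  let c₀ : Fin s → ℂ := fun k => v (e (Sum.inr k))
  have hv' : v = crd0 (ex0 (Fin.append a₀ ξ₀)) c₀ (m + r) := by
    funext idx
    rw [hval]
    obtain ⟨u, rfl⟩ := e.surjective idx
    rw [e.symm_apply_apply]
    rcases u with i | k
    · refine Fin.addCases (fun i => ?_) (fun j => ?_) i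
      · simp [a₀]
      · simp [ξ₀]
    · rfl
  let A : (Fin m → MvPolynomial (Fin m) ℂ) := fun i => MvPolynomial.X i
  let P : MvPolynomial (Fin m) ℂ := MvPolynomial.aeval (fun idx => Sum.elim
    (Fin.append (fun i => (MvPolynomial.X i : MvPolynomial (Fin m) ℂ))
      (fun j => MvPolynomial.C (ξ₀ j))) (fun k => MvPolynomial.C (c₀ k)) (e.symm idx)) D
  have hP : ∀ a, MvPolynomial.eval a P =
      MvPolynomial.eval (crd0 (ex0 (Fin.append a ξ₀)) c₀ (m + r)) D := by
    intro a
    have h3 : (MvPolynomial.eval a).comp (MvPolynomial.aeval (fun idx => Sum.elim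
      (Fin.append (fun i => (MvPolynomial.X i : MvPolynomial (Fin m) ℂ))
      (fun j => MvPolynomial.C (ξ₀ j))) (fun k => MvPolynomial.C (c₀ k)) (e.symm idx)) :
        MvPolynomial (Fin (s + (m + r))) ℂ →ₐ[ℂ] MvPolynomial (Fin m) ℂ).toRingHom =
        MvPolynomial.eval (crd0 (ex0 (Fin.append a ξ₀)) c₀ (m + r)) := by
      apply MvPolynomial.ringHom_ext
      · intro c; simp
      · intro idx
        simp only [AlgHom.toRingHom_eq_coe, RingHom.coe_comp, RingHom.coe_coe,
          Function.comp_apply, MvPolynomial.aeval_X, MvPolynomial.eval_X]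
        rw [hval]
        rcases e.symm idx with i | k
        · refine Fin.addCases (fun i => ?_) (fun j => ?_) i
          · simp
          · simp
        · simp
    exact congrArg (fun φ : MvPolynomial (Fin (s + (m + r))) ℂ →+* ℂ => φ D) h3
  refine ⟨P, ?_, ?_⟩
  · intro h
    apply hv
    rw [hv', ← hP, h, map_zero]
  intro a ha
  let D' : MvPolynomial (Fin (s + r)) ℂ := MvPolynomial.aeval (fun idx => Sum.elim
    (Fin.append (fun i => (MvPolynomial.C (a i) : MvPolynomial (Fin (s + r)) ℂ))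
      (fun j => MvPolynomial.X (e' (Sum.inl j)))) (fun k => MvPolynomial.X (e' (Sum.inr k)))
        (e.symm idx)) D
  have hD' : ∀ (ξ : ℕ → ℂ) (c : Fin s → ℂ), MvPolynomial.eval (crd0 ξ c r) D' =
      MvPolynomial.eval (crd0 (ex0 (Fin.append a fun j : Fin r => ξ j)) c (m + r)) D := by
    intro ξ c
    have h3 : (MvPolynomial.eval (crd0 ξ c r)).comp (MvPolynomial.aeval (fun idx => Sum.elim
      (Fin.append (fun i => (MvPolynomial.C (a i) : MvPolynomial (Fin (s + r)) ℂ))
      (fun j => MvPolynomial.X (e' (Sum.inl j)))) (fun k => MvPolynomial.X (e' (Sum.inr k)))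
        (e.symm idx)) :
        MvPolynomial (Fin (s + (m + r))) ℂ →ₐ[ℂ] MvPolynomial (Fin (s + r)) ℂ).toRingHom =
        MvPolynomial.eval (crd0 (ex0 (Fin.append a fun j : Fin r => ξ j)) c (m + r)) := by
      apply MvPolynomial.ringHom_ext
      · intro c; simp
      · intro idx
        simp only [AlgHom.toRingHom_eq_coe, RingHom.coe_comp, RingHom.coe_coe,
          Function.comp_apply, MvPolynomial.aeval_X, MvPolynomial.eval_X]
        rw [hval]
        rcases e.symm idx with i | k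
        · refine Fin.addCases (fun i => ?_) (fun j => ?_) i
          · simp
          · simp [(he' ξ c).1]
        · simp [(he' ξ c).2]
    exact congrArg (fun φ : MvPolynomial (Fin (s + (m + r))) ℂ →+* ℂ => φ D) h3
  refine ⟨D', ?_, hD'⟩
  intro h
  apply ha
  have h1 := hD' (ex0 ξ₀) c₀
  have h2 : (fun j : Fin r => ex0 ξ₀ j) = ξ₀ := by funext j; simp
  rw [h, map_zero, h2, ← hP] at h1
  exact h1.symm

/-- **FRI for the fibres of a relative model.** -/
theorem fri_fib (hO : OneStep) (hR : StepRz) (hRA : StepRzAct) (hg : ∃ k, g k ≠ 0) :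
    ∃ P : MvPolynomial (Fin m) ℂ, P ≠ 0 ∧ ∀ w : R.ML.Pts, MvPolynomial.eval (R.ML.pz w) P ≠ 0 →
      ∀ (N : ℕ), N ≠ 0 →
      (∀ c : Fin s → ℂ, R.fint w (fun y => ‖∑ k, c k * y (g k)‖ₑ ^ (2 / (N : ℝ))) < ∞) →
      ∃ (b : ℕ) (Q : MvPolynomial (Fin s) ℂ), Q ≠ 0 ∧ FinC_39.LocRank b
        (fun c => (R.fint w (fun y => ‖∑ k, c k * y (g k)‖ₑ ^ (2 / (N : ℝ)))).toReal)
        (fun c => MvPolynomial.eval c Q) := by
  obtain ⟨D, hD0, hD⟩ := exists_D R.MK g hg
  obtain ⟨P, hP0, hP⟩ := exists_Da D hD0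
  refine ⟨P, hP0, fun w hw N hN hfin => ?_⟩
  obtain ⟨D', hD'0, hD'⟩ := hP _ hw
  let M : FDat (R.Fib w) s r :=
    { x := fun y => R.x y.val
      lh := isLocalHomeomorph_fib (q := R.q) (x := R.x) R.isLocalHomeomorph_φ w
      h := specL (R.ML.pz w) R.MK.h
      cpt := by
        intro S hS hh
        have h1 : IsCompact (R.φ ⁻¹' ({w} ×ˢ S)) := by
          refine R.isCompact_preimage (isCompact_singleton.prod hS) ?_
          rintro ⟨w', ξ⟩ ⟨hw', hξ⟩
          rw [Set.mem_singleton_iff] at hw'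
          subst hw'
          show MvPolynomial.eval (R.pL (w', ξ)) R.MK.h ≠ 0
          have h2 := hh ξ hξ
          rw [eval_specL] at h2
          exact h2
        have h3 : Topology.IsInducing (RMdl.Fib.val R (w := w) : R.Fib w → R.MK.Pts) := ⟨rfl⟩
        have h4 : IsCompact ((RMdl.Fib.val R (w := w) : R.Fib w → R.MK.Pts) ⁻¹'
            (R.φ ⁻¹' ({w} ×ˢ S))) := by
          refine h3.isCompact_preimage' h1 ?_
          intro y hy
          exact ⟨(⟨y, hy.1⟩ : {y : R.MK.Pts // R.q y = w}), rfl⟩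
        refine h4.of_isClosed_subset (hS.isClosed.preimage
          (R.continuous_x.comp (RMdl.Fib.continuous_val w))) ?_
        intro y hy
        exact ⟨y.q_eq, hy⟩
      g := fun k y => (RMdl.Fib.val R y : R.MK.Pts) (g k)
      gan := by
        intro k y₀
        obtain ⟨G, hG1, hG2⟩ := Fri2_348.analytic_local R.MK (g k) y₀.val
        have happ : ∀ y : R.Fib w, R.MK.pz y.val = Fin.append (R.ML.pz w) (R.x y.val) := by
          intro y
          rw [← R.append_eq, y.q_eq]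
        refine ⟨fun ξ => G (Fin.append (R.ML.pz w) ξ), ?_, ?_⟩
        · have h1 : AnalyticAt ℂ (fun ξ : Fin r → ℂ => (Fin.append (R.ML.pz w) ξ : Fin (m + r) → ℂ))
              (R.x y₀.val) := by
            rw [analyticAt_pi_iff]
            intro i
            refine Fin.addCases (fun i => ?_) (fun j => ?_) i
            · simp only [Fin.append_left]; exact analyticAt_const
            · simp only [Fin.append_right]
              exact (ContinuousLinearMap.proj (R := ℂ) (φ := fun _ : Fin r => ℂ) j).analyticAt _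
          rw [happ] at hG1
          exact AnalyticAt.comp (g := G)
            (f := fun ξ : Fin r → ℂ => (Fin.append (R.ML.pz w) ξ : Fin (m + r) → ℂ)) hG1 h1
        · have h1 : Tendsto (fun y : R.Fib w => y.val) (𝓝 y₀) (𝓝 y₀.val) :=
            (RMdl.Fib.continuous_val w).tendsto y₀
          filter_upwards [h1.eventually hG2] with y hy
          rw [hy, happ]
      D := D'
      D0 := hD'0
      hD := by
        intro ξ c hne
        rw [hD'] at hne
        have h1 := hD (ex0 (Fin.append (R.ML.pz w) fun j : Fin r => ξ j)) c hne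
        have h2 : (fun i : Fin (m + r) => ex0 (Fin.append (R.ML.pz w) fun j : Fin r => ξ j) i) =
            Fin.append (R.ML.pz w) fun j : Fin r => ξ j := by
          funext i; simp
        rw [h2] at h1
        refine ⟨?_, fun y hy => h1.2 y.val ?_⟩
        · rw [eval_specL]; exact h1.1
        · rw [← R.append_eq, y.q_eq, hy] }
  have hΦ : ∀ c : Fin s → ℂ, M.Φ N c =
      R.fint w (fun y => ‖∑ k, c k * y (g k)‖ₑ ^ (2 / (N : ℝ))) := by
    intro c
    unfold RMdl.fint
    refine lintegral_congr fun ξ => ?_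
    rw [R.fsumR_eq]
    rfl
  have := fri_abs M hO hR hRA N hN (fun c => by rw [hΦ]; exact hfin c)
  simp only [hΦ] at this
  exact this

end rel

end Crest.Agent.R276.Fri4_348
end
end

-- ▼ part R276/FinFib_348

/-!
# R276, leaf FIN-FIB (helper348): finiteness of the isometries of `Φ_w` on the fibres

`fin_fib` : `{A ∈ Is Φ w w | (det A)^m = 1}` is finite for
`Φ w c = ∫_{fibre over w} |∑ c k * g k| ^ (2 / N)`, `N ≥ 2`, `w` generic.
-/

set_option autoImplicit false

noncomputable section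

open Set Filter Topology MeasureTheory
open Crest.Agent.R271.Ho51 Crest.Agent.R271.Defs710 Crest.Agent.R271.Rd692
open Crest.Agent.R276.Ipc735 Crest.Agent.R276.Iter_840 Crest.Agent.R276.Mod1_987
open scoped ENNReal

namespace Crest.Agent.R276.FinFib_348

variable {s : ℕ} {L K : Type} [Field L] [Field K] [Algebra ℂ L] [Algebra ℂ K] [Algebra L K]
  [IsScalarTower ℂ L K] {m r : ℕ} (R : RMdl L K m r) (g : Fin s → R.MK.B)

/-- the section `∑ c k * g k` -/
def sec (c : Fin s → ℂ) (y : R.MK.Pts) : ℂ := ∑ k, c k * y (g k)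

/-- the `N`-norm on the fibre -/
def Phi (N : ℕ) (w : R.ML.Pts) (c : Fin s → ℂ) : ℝ≥0∞ :=
  R.fint w (fun y => ‖sec R g c y‖ₑ ^ (2 / (N : ℝ)))

theorem continuous_sec (c : Fin s → ℂ) : Continuous (sec R g c) :=
  continuous_finsetSum _ fun k _ => continuous_const.mul (continuous_ev (g k))

theorem measurable_sec (c : Fin s → ℂ) (p : ℝ) : Measurable fun y => ‖sec R g c y‖ₑ ^ p :=
  ((continuous_sec R g c).measurable.enorm).pow_const _

theorem sec_eq (c : Fin s → ℂ) (y : R.MK.Pts) : sec R g c y = y (∑ k, c k • g k) := by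
  simp [sec]

/-- evaluation on the fibre -/
def evw (w : R.ML.Pts) : (Fin s → ℂ) →ₗ[ℂ] (R.Fib w → ℂ) where
  toFun c := fun y => sec R g c (RMdl.Fib.val R y)
  map_add' a b := by
    funext y
    simp [sec, add_mul, Finset.sum_add_distrib]
  map_smul' a b := by
    funext y
    simp [sec, mul_assoc, Finset.mul_sum]

variable {R g} in
theorem ae_ne {w : R.ML.Pts} [PreconnectedSpace (R.Fib w)] {μ : Measure (R.Fib w)} (hμ : IsLeb μ)
    {c : Fin s → ℂ} (hc : ∃ y : R.Fib w, evw R g w c y ≠ 0) : ∀ᵐ y ∂μ, evw R g w c y ≠ 0 := by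
  have h1 := Geo2_519.null_zero_image (M := R.Fib w) (n := r) (f := evw R g w c)
    (fun y => by
      have := Geo2_519.analytic_fib R (∑ k, c k • g k) y
      have h2 : (fun y : R.Fib w => (RMdl.Fib.val R y) (∑ k, c k • g k)) = evw R g w c := by
        funext y
        exact (sec_eq R g c _).symm
      rwa [h2] at this) hc
  have hmeas : MeasurableSet {y : R.Fib w | evw R g w c y = 0} := by
    have h3 : Continuous (evw R g w c) :=
      (continuous_sec R g c).comp (RMdl.Fib.continuous_val w)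
    exact (isClosed_singleton.preimage h3).measurableSet
  have h4 : ∫⁻ y : R.Fib w, Set.indicator {y : R.Fib w | evw R g w c y = 0} 1 y ∂μ = 0 := by
    rw [lintegral_eq_fibre hμ ((measurable_one).indicator hmeas)]
    rw [lintegral_eq_zero_iff' ?_]
    · have h5 : ∀ᵐ ζ : Fin r → ℂ, ¬ ∃ y : R.Fib w, cp y = ζ ∧ evw R g w c y = 0 := by
        rw [ae_iff]
        simpa using h1
      filter_upwards [h5] with ζ hζ
      rw [Pi.zero_apply, ENNReal.tsum_eq_zero]
      intro y
      rw [Set.indicator_of_notMem]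
      intro hy
      exact hζ ⟨y.1, y.2, hy⟩
    · exact (measurable_fibre ((measurable_one).indicator hmeas)).aemeasurable
  rw [lintegral_indicator_one hmeas] at h4
  rw [ae_iff]
  simpa using h4

theorem leb_ne_zero {n : ℕ} {M : Type*} [TopologicalSpace M] [MeasurableSpace M] [BorelSpace M]
    [RDom n M] [Nonempty M] {μ : Measure M} (hμ : IsLeb μ) : μ ≠ 0 := by
  intro h0
  obtain ⟨x⟩ := (inferInstance : Nonempty M)
  have h1 := lintegral_chart hμ (isCh_ch x) (f := fun _ => 1) aemeasurable_const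
  rw [h0] at h1
  simp only [Measure.restrict_zero, lintegral_zero_measure] at h1
  rw [lintegral_one, Measure.restrict_apply_univ] at h1
  have h2 : 0 < volume (ch x).target :=
    (ch x).open_target.measure_pos volume ⟨_, (ch x).map_source (mem_ch x)⟩
  exact h2.ne h1

theorem Phi_eq {w : R.ML.Pts} {μ : Measure (R.Fib w)} (hμ : IsLeb μ) (N : ℕ) (c : Fin s → ℂ) :
    Phi R g N w c = ∫⁻ y, ‖evw R g w c y‖ₑ ^ (2 / (N : ℝ)) ∂μ :=
  R.fint_eq hμ (measurable_sec R g c _)

variable {R g} in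
theorem integrable_ev {w : R.ML.Pts} {μ : Measure (R.Fib w)} (hμ : IsLeb μ) {N : ℕ}
    {c : Fin s → ℂ} (hfin : Phi R g N w c < ∞) :
    Integrable (fun y => ‖evw R g w c y‖ ^ (2 / (N : ℝ))) μ := by
  have h3 : Continuous (evw R g w c) :=
    (continuous_sec R g c).comp (RMdl.Fib.continuous_val w)
  have hp : (0 : ℝ) ≤ 2 / (N : ℝ) := by positivity
  refine ⟨((h3.norm.measurable).pow_const _).aestronglyMeasurable, ?_⟩
  rw [hasFiniteIntegral_iff_enorm]
  rw [Phi_eq R g hμ] at hfin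
  refine lt_of_le_of_lt (lintegral_mono fun y => ?_) hfin
  rw [Real.enorm_rpow_of_nonneg (norm_nonneg _) hp, enorm_norm]

variable {R g} in
theorem Phi_toReal {w : R.ML.Pts} {μ : Measure (R.Fib w)} (hμ : IsLeb μ) {N : ℕ}
    (c : Fin s → ℂ) :
    (Phi R g N w c).toReal = ∫ y, ‖evw R g w c y‖ ^ (2 / (N : ℝ)) ∂μ := by
  have h3 : Continuous (evw R g w c) :=
    (continuous_sec R g c).comp (RMdl.Fib.continuous_val w)
  have hp : (0 : ℝ) ≤ 2 / (N : ℝ) := by positivity
  rw [integral_eq_lintegral_of_nonneg_ae (Eventually.of_forall fun y =>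
    Real.rpow_nonneg (norm_nonneg _) _) ((h3.norm.measurable).pow_const _).aestronglyMeasurable,
    Phi_eq R g hμ]
  congr 1
  refine lintegral_congr fun y => ?_
  rw [← Real.enorm_eq_ofReal (Real.rpow_nonneg (norm_nonneg _) _),
    Real.enorm_rpow_of_nonneg (norm_nonneg _) hp, enorm_norm]

variable {R g} in
/-- `Φ_w` is positive on nonzero vectors. -/
theorem Phi_pos {w : R.ML.Pts} [PreconnectedSpace (R.Fib w)]
    (hind : ∀ c : Fin s → ℂ, (∀ y : R.Fib w, sec R g c (RMdl.Fib.val R y) = 0) → c = 0)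
    {N : ℕ} (hN : N ≠ 0) {c : Fin s → ℂ} (h0 : Phi R g N w c = 0) : c = 0 := by
  obtain ⟨μ, hμ⟩ := exists_leb (n := r) (M := R.Fib w)
  by_contra hc
  have hne : ∃ y : R.Fib w, evw R g w c y ≠ 0 := by
    by_contra hcon
    push Not at hcon
    exact hc (hind c hcon)
  have h1 := ae_ne hμ hne
  have : Nonempty (R.Fib w) := ⟨hne.choose⟩
  have h2 := leb_ne_zero hμ
  rw [Phi_eq R g hμ] at h0
  have h3 : Continuous (evw R g w c) :=
    (continuous_sec R g c).comp (RMdl.Fib.continuous_val w)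
  rw [lintegral_eq_zero_iff (h3.measurable.enorm.pow_const _)] at h0
  have h4 : ∀ᵐ y ∂μ, False := by
    filter_upwards [h1, h0] with y hy1 hy2
    rw [Pi.zero_apply, ENNReal.rpow_eq_zero_iff] at hy2
    rcases hy2 with ⟨h5, _⟩ | ⟨_, h6⟩
    · exact hy1 (by simpa using h5)
    · have : (0 : ℝ) < 2 / (N : ℝ) := by positivity
      linarith
  exact h2 (ae_eq_bot.1 (Filter.eventually_false_iff_eq_bot.1 h4))

variable {R g} in
/-- the abstract properties of `Φ_w` (helper39) -/
theorem finNorm {w : R.ML.Pts} [PreconnectedSpace (R.Fib w)] [Nonempty (R.Fib w)]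
    (hind : ∀ c : Fin s → ℂ, (∀ y : R.Fib w, sec R g c (RMdl.Fib.val R y) = 0) → c = 0)
    {N : ℕ} (hN : 2 ≤ N) (hfin : ∀ c, Phi R g N w c < ∞) :
    FinC_39.FinNorm (2 / (N : ℝ)) (fun c => (Phi R g N w c).toReal) := by
  obtain ⟨μ, hμ⟩ := exists_leb (n := r) (M := R.Fib w)
  have h1 : (2 : ℝ) ≤ N := by exact_mod_cast hN
  have h2 := FinE_39.finNorm_integral (μ := μ) (p := 2 / (N : ℝ)) (by positivity)
    (by rw [div_le_one (by linarith)]; exact h1) (evw R g w)
    (fun c => integrable_ev hμ (hfin c))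
    (fun c hc => ae_ne hμ (by
      by_contra hcon
      push Not at hcon
      exact hc (hind c hcon))) (leb_ne_zero hμ)
  have h3 : (fun c => (Phi R g N w c).toReal) =
      fun c => ∫ y, ‖evw R g w c y‖ ^ (2 / (N : ℝ)) ∂μ := by
    funext c; exact Phi_toReal hμ c
  rw [h3]; exact h2

/-- matrices as continuous linear maps -/
def toC (A : Matrix (Fin s) (Fin s) ℂ) : (Fin s → ℂ) →L[ℂ] (Fin s → ℂ) :=
  LinearMap.toContinuousLinearMap (Matrix.toLin' A)

theorem toC_apply (A : Matrix (Fin s) (Fin s) ℂ) (v : Fin s → ℂ) : toC A v = A.mulVec v := rfl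

theorem toC_inj : Function.Injective (toC (s := s)) := by
  intro A B h
  apply Matrix.toLin'.injective
  exact LinearMap.toContinuousLinearMap.injective h

theorem det_toC (A : Matrix (Fin s) (Fin s) ℂ) :
    LinearMap.det (toC A : (Fin s → ℂ) →ₗ[ℂ] (Fin s → ℂ)) = A.det := by
  have : ((toC A : (Fin s → ℂ) →L[ℂ] (Fin s → ℂ)) : (Fin s → ℂ) →ₗ[ℂ] (Fin s → ℂ)) =
      Matrix.toLin' A := rfl
  rw [this, LinearMap.det_toLin']

variable {R g} in
/-- finiteness of the isometries from `LocRank` -/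
theorem finite_of_locRank {w : R.ML.Pts} [PreconnectedSpace (R.Fib w)]
    (hind : ∀ c : Fin s → ℂ, (∀ y : R.Fib w, sec R g c (RMdl.Fib.val R y) = 0) → c = 0)
    {N : ℕ} (hN : 2 ≤ N) (hfin : ∀ c, Phi R g N w c < ∞)
    (hL : ∃ (b : ℕ) (Q : MvPolynomial (Fin s) ℂ), Q ≠ 0 ∧ FinC_39.LocRank b
        (fun c => (Phi R g N w c).toReal) (fun c => MvPolynomial.eval c Q)) {k : ℕ} (hk : 0 < k) :
    {A : Matrix (Fin s) (Fin s) ℂ | A ∈ FlatT_464.Is (Phi R g N) w w ∧ A.det ^ k = 1}.Finite := by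
  rcases isEmpty_or_nonempty (R.Fib w) with he | hne
  · -- `s = 0`
    have h1 : ∀ c : Fin s → ℂ, c = 0 := fun c => hind c fun y => (he.false y).elim
    have h2 : IsEmpty (Fin s) := by
      by_contra hcon
      rw [not_isEmpty_iff] at hcon
      obtain ⟨i⟩ := hcon
      have := congrFun (h1 (fun _ => 1)) i
      simp at this
    exact Set.toFinite _
  · obtain ⟨b, Q, hQ0, hL⟩ := hL
    have hdiff : Differentiable ℂ (fun c : Fin s → ℂ => MvPolynomial.eval c Q) := by
      have : AnalyticOnNhd ℂ (fun c : Fin s → ℂ => MvPolynomial.eval c Q) Set.univ :=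
        AnalyticOnNhd.eval_mvPolynomial Q
      intro c
      exact (this c trivial).differentiableAt
    have hne' : ∃ c : Fin s → ℂ, MvPolynomial.eval c Q ≠ 0 := by
      by_contra hcon
      push Not at hcon
      exact hQ0 (MvPolynomial.funext fun x => by rw [hcon, map_zero])
    have h1 := FinE_39.finite_of_det (finNorm hind hN hfin) hdiff hne' hL hk
      (toC '' {A : Matrix (Fin s) (Fin s) ℂ | A ∈ FlatT_464.Is (Phi R g N) w w ∧ A.det ^ k = 1})
      (by
        rintro _ ⟨A, ⟨hA, _⟩, rfl⟩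
        intro c
        show (Phi R g N w (toC A c)).toReal = _
        rw [toC_apply, hA c])
      (by
        rintro _ ⟨A, ⟨_, hA⟩, rfl⟩
        rw [det_toC, hA])
    exact h1.of_finite_image toC_inj.injOn

/-- **FIN on the fibres of a relative model.** -/
theorem fin_fib (hO : OneStep) (hR : StepRz) (hRA : StepRzAct) (hg : ∃ k, g k ≠ 0) :
    ∃ P : MvPolynomial (Fin m) ℂ, P ≠ 0 ∧ ∀ w : R.ML.Pts, MvPolynomial.eval (R.ML.pz w) P ≠ 0 →
      ∀ [PreconnectedSpace (R.Fib w)],
      (∀ c : Fin s → ℂ, (∀ y : R.Fib w, sec R g c (RMdl.Fib.val R y) = 0) → c = 0) →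
      ∀ (N : ℕ), 2 ≤ N → (∀ c, Phi R g N w c < ∞) → ∀ k : ℕ, 0 < k →
      {A : Matrix (Fin s) (Fin s) ℂ | A ∈ FlatT_464.Is (Phi R g N) w w ∧ A.det ^ k = 1}.Finite := by
  obtain ⟨P, hP0, hP⟩ := Fri4_348.fri_fib R g hO hR hRA hg
  refine ⟨P, hP0, fun w hw _ hind N hN hfin k hk => ?_⟩
  exact finite_of_locRank hind hN hfin (hP w hw N (by omega) hfin) hk

end Crest.Agent.R276.FinFib_348
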