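import Mathlib
import Crest.Agent.R276.IpcDefs_735
import Crest.Agent.R276.Desc_327

-- ▼ part R276/DescB_327
section

/-!
# R276, leaf DESC (helper327), part 2: chains along the fibres of an open map

`P : X → X → G` is a cocycle on the open sets `V` of a family `𝒱` covering `X` (`Sys`).
`Ch P f 𝒱 x z g`: there is a chain `x = x_0, …, x_r = z` in one fibre of `f`, consecutive points in a member of
`𝒱`, and `g = P x_0 x_1 ⋯ P x_{r-1} x_r`.
-/

set_option autoImplicit false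
set_option linter.unusedSectionVars false

open Set Filter Topology

namespace Crest.Agent.R276.DescB_327

variable {X T G : Type*} [TopologicalSpace X] [TopologicalSpace T] [Group G]

/-- a covering of `X` by open sets on which `P` is a cocycle -/
structure Sys (P : X → X → G) (𝒱 : Set (Set X)) : Prop where
  op : ∀ V ∈ 𝒱, IsOpen V
  cov : ∀ x, ∃ V ∈ 𝒱, x ∈ V
  coc : ∀ V ∈ 𝒱, ∀ a ∈ V, ∀ b ∈ V, ∀ c ∈ V, P a b * P b c = P a c

namespace Sys

variable {P : X → X → G} {𝒱 : Set (Set X)} (h : Sys P 𝒱)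

include h

theorem self (x : X) : P x x = 1 := by
  obtain ⟨V, hV, hx⟩ := h.cov x
  have := h.coc V hV x hx x hx x hx
  simpa using this

theorem inv {V : Set X} (hV : V ∈ 𝒱) {a b : X} (ha : a ∈ V) (hb : b ∈ V) : P b a = (P a b)⁻¹ := by
  have h1 := h.coc V hV a ha b hb a ha
  rw [h.self a] at h1
  exact (inv_eq_of_mul_eq_one_right h1).symm

end Sys

/-- chains along the fibres of `f` -/
inductive Ch (P : X → X → G) (f : X → T) (𝒱 : Set (Set X)) : X → X → G → Prop
  | refl (x : X) : Ch P f 𝒱 x x 1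
  | step {x y z : X} {g : G} (V : Set X) : Ch P f 𝒱 x y g → V ∈ 𝒱 → y ∈ V → z ∈ V → f y = f z →
      Ch P f 𝒱 x z (g * P y z)

namespace Ch

variable {P : X → X → G} {f : X → T} {𝒱 : Set (Set X)}

theorem fib {x z : X} {g : G} (h : Ch P f 𝒱 x z g) : f x = f z := by
  induction h with
  | refl => rfl
  | step V _ _ _ _ hf ih => rw [ih, hf]

theorem single {x z : X} {V : Set X} (hV : V ∈ 𝒱) (hx : x ∈ V) (hz : z ∈ V) (hf : f x = f z) :
    Ch P f 𝒱 x z (P x z) := by
  have h := Ch.step (P := P) (f := f) (𝒱 := 𝒱) V (Ch.refl x) hV hx hz hf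
  rwa [one_mul] at h

theorem trans {x y z : X} {g g' : G} (h : Ch P f 𝒱 x y g) (h' : Ch P f 𝒱 y z g') :
    Ch P f 𝒱 x z (g * g') := by
  induction h' with
  | refl => simpa using h
  | step V _ hV hy hz hf ih =>
    rw [← mul_assoc]
    exact Ch.step V ih hV hy hz hf

theorem symm (hs : Sys P 𝒱) {x z : X} {g : G} (h : Ch P f 𝒱 x z g) : Ch P f 𝒱 z x g⁻¹ := by
  induction h with
  | refl => simpa using Ch.refl _
  | step V _ hV hy hz hf ih =>
    rw [mul_inv_rev, ← hs.inv hV hy hz]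
    exact (single hV hz hy hf.symm).trans ih

/-- a relation that is compositional and holds on small pairs holds along chains -/
theorem induct {Q : X → X → G → Prop} (h1 : ∀ x, Q x x 1)
    (h2 : ∀ x y z g g', Q x y g → Q y z g' → Q x z (g * g'))
    (h3 : ∀ V ∈ 𝒱, ∀ x ∈ V, ∀ y ∈ V, f x = f y → Q x y (P x y))
    {x z : X} {g : G} (h : Ch P f 𝒱 x z g) : Q x z g := by
  induction h with
  | refl => exact h1 _
  | step V _ hV hy hz hf ih => exact h2 _ _ _ _ _ ih (h3 V hV _ hy _ hz hf)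

/-- chains move to nearby fibres -/
theorem openness (hs : Sys P 𝒱) (hf : IsOpenMap f) (hfc : Continuous f) {x z : X} {g : G}
    (h : Ch P f 𝒱 x z g) : ∃ A ∈ 𝓝 x, ∃ B ∈ 𝓝 z, ∀ x' ∈ A, ∀ z' ∈ B, f x' = f z' →
      Ch P f 𝒱 x' z' (P x' x * g * P z z') := by
  induction h with
  | refl =>
    obtain ⟨V, hV, hx⟩ := hs.cov x
    refine ⟨V, (hs.op V hV).mem_nhds hx, V, (hs.op V hV).mem_nhds hx, fun x' hx' z' hz' hff => ?_⟩
    rw [mul_one, hs.coc V hV x' hx' x hx z' hz']
    exact single hV hx' hz' hff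
  | @step y z g V h hV hy hz hyz ih =>
    obtain ⟨A, hA, B, hB, hAB⟩ := ih
    have hB' : B ∩ V ∈ 𝓝 y := inter_mem hB ((hs.op V hV).mem_nhds hy)
    have hfB : f '' (B ∩ V) ∈ 𝓝 (f z) := by
      rw [← hyz]
      exact hf.image_mem_nhds hB'
    refine ⟨A, hA, V ∩ f ⁻¹' (f '' (B ∩ V)), inter_mem ((hs.op V hV).mem_nhds hz)
      (hfc.continuousAt.preimage_mem_nhds hfB), ?_⟩
    rintro x' hx' z' ⟨hz'V, y', ⟨hy'B, hy'V⟩, hy'z'⟩ hff
    have h1 := hAB x' hx' y' hy'B (hff.trans hy'z'.symm)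
    have h2 := h1.trans (single (P := P) (f := f) hV hy'V hz'V hy'z')
    have h3 : P x' x * g * P y y' * P y' z' = P x' x * (g * P y z) * P z z' := by
      rw [mul_assoc, hs.coc V hV y hy y' hy'V z' hz'V, ← hs.coc V hV y hy z hz z' hz'V]
      group
    rwa [h3] at h2

/-- all points of a preconnected fibre are joined by chains -/
theorem exists_chain (hs : Sys P 𝒱) {x z : X} (hc : IsPreconnected (f ⁻¹' {f x})) (hxz : f x = f z) :
    ∃ g, Ch P f 𝒱 x z g := by
  by_contra hcon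
  let A : Set X := {y | ∃ V ∈ 𝒱, y ∈ V ∧ ∃ w ∈ V, ∃ g, Ch P f 𝒱 x w g}
  -- open sets: union of the members of `𝒱` meeting / not meeting the reachable set
  let U : Set X := ⋃₀ {V | V ∈ 𝒱 ∧ ∃ w ∈ V, f w = f x ∧ ∃ g, Ch P f 𝒱 x w g}
  let W : Set X := ⋃₀ {V | V ∈ 𝒱 ∧ ∃ w ∈ V, f w = f x ∧ ¬ ∃ g, Ch P f 𝒱 x w g}
  have hreach : ∀ V ∈ 𝒱, ∀ w ∈ V, f w = f x → (∃ g, Ch P f 𝒱 x w g) → ∀ w' ∈ V, f w' = f x →
      ∃ g, Ch P f 𝒱 x w' g := by
    rintro V hV w hw hfw ⟨g, hg⟩ w' hw' hfw'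
    exact ⟨_, hg.trans (single hV hw hw' (hfw.trans hfw'.symm))⟩
  have hU : IsOpen U := isOpen_sUnion fun V hV => hs.op V hV.1
  have hW : IsOpen W := isOpen_sUnion fun V hV => hs.op V hV.1
  have hcov : f ⁻¹' {f x} ⊆ U ∪ W := by
    intro w hw
    obtain ⟨V, hV, hwV⟩ := hs.cov w
    by_cases h : ∃ g, Ch P f 𝒱 x w g
    · exact Or.inl ⟨V, ⟨hV, w, hwV, hw, h⟩, hwV⟩
    · exact Or.inr ⟨V, ⟨hV, w, hwV, hw, h⟩, hwV⟩
  obtain ⟨Vx, hVx, hxV⟩ := hs.cov x
  obtain ⟨Vz, hVz, hzV⟩ := hs.cov z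
  obtain ⟨w, hw, ⟨V, ⟨hV, a, ha, hfa, hga⟩, hwV⟩, ⟨V', ⟨hV', b, hb, hfb, hgb⟩, hwV'⟩⟩ :=
    hc U W hU hW hcov ⟨x, rfl, Vx, ⟨hVx, x, hxV, rfl, 1, Ch.refl x⟩, hxV⟩
      ⟨z, hxz.symm, Vz, ⟨hVz, z, hzV, hxz.symm, hcon⟩, hzV⟩
  have h1 := hreach V hV a ha hfa hga w hwV hw
  exact hgb (hreach V' hV' w hwV' hw h1 b hb hfb)

end Ch

/-! ### functions constant on the fibres -/

/-- `u` is locally constant along the fibres of `f` -/
def LocConstFib {A : Type*} (f : X → T) (u : X → A) : Prop :=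
  ∀ z, ∃ U ∈ 𝓝 z, ∀ x ∈ U, ∀ y ∈ U, f x = f y → u x = u y

theorem LocConstFib.const {A : Type*} {f : X → T} {u : X → A} (h : LocConstFib f u)
    (hc : ∀ x, IsPreconnected (f ⁻¹' {f x})) {x y : X} (hxy : f x = f y) : u x = u y := by
  let 𝒱 : Set (Set X) := {V | IsOpen V ∧ ∀ x ∈ V, ∀ y ∈ V, f x = f y → u x = u y}
  let P : X → X → Unit := fun _ _ => ()
  let P' : X → X → Multiplicative ℤ := fun _ _ => 1
  have hs : Sys P' 𝒱 := by
    refine ⟨fun V hV => hV.1, fun x => ?_, fun V _ a _ b _ c _ => by simp [P']⟩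
    obtain ⟨U, hU, hU'⟩ := h x
    obtain ⟨V, hVU, hV, hx⟩ := mem_nhds_iff.1 hU
    exact ⟨V, ⟨hV, fun a ha b hb => hU' a (hVU ha) b (hVU hb)⟩, hx⟩
  obtain ⟨g, hg⟩ := Ch.exists_chain (f := f) hs (hc x) hxy
  exact hg.induct (Q := fun x y _ => u x = u y) (fun _ => rfl) (fun _ _ _ _ _ h h' => h.trans h')
    (fun V hV x hx y hy hf => hV.2 x hx y hy hf)

end Crest.Agent.R276.DescB_327
end

-- ▼ part R276/DescC_327

/-!
# R276, leaf DESC (helper327), part 3: coordinate projections of Riemann domains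

`Prj ι f`: `f : X → T` is a continuous map of Riemann domains given in the canonical coordinates by forgetting
the coordinates not in the range of `ι`.
-/

set_option autoImplicit false
set_option linter.unusedSectionVars false

open Set Filter Topology
open Crest.Agent.R271.Ho51 Crest.Agent.R276.Ipc735

namespace Crest.Agent.R276.DescC_327

/-- replace the coordinates `ι` of `a` by `b` -/
noncomputable def upd {m r : ℕ} (ι : Fin r → Fin m) (a : Fin m → ℂ) (b : Fin r → ℂ) : Fin m → ℂ :=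
  open Classical in fun j => if h : ∃ i, ι i = j then b h.choose else a j

section upd

variable {m r : ℕ} {ι : Fin r → Fin m}

theorem upd_ι (hι : Function.Injective ι) (a : Fin m → ℂ) (b : Fin r → ℂ) (i : Fin r) :
    upd ι a b (ι i) = b i := by
  classical
  have h : ∃ i', ι i' = ι i := ⟨i, rfl⟩
  unfold upd
  rw [dif_pos h]
  exact congrArg b (hι h.choose_spec)

theorem upd_of_notMem (a : Fin m → ℂ) (b : Fin r → ℂ) {j : Fin m} (hj : ∀ i, ι i ≠ j) :
    upd ι a b j = a j := by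
  classical
  unfold upd
  rw [dif_neg]
  rintro ⟨i, hi⟩
  exact hj i hi

theorem upd_comp (hι : Function.Injective ι) (a : Fin m → ℂ) (b : Fin r → ℂ) :
    (fun i => upd ι a b (ι i)) = b := funext fun i => upd_ι hι a b i

theorem upd_self (a : Fin m → ℂ) : upd ι a (fun i => a (ι i)) = a := by
  classical
  funext j
  unfold upd
  split_ifs with h
  · show a (ι h.choose) = a j
    rw [h.choose_spec]
  · rfl

theorem upd_analytic (a : Fin m → ℂ) (b : Fin r → ℂ) : AnalyticAt ℂ (upd ι a) b := by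
  classical
  rw [analyticAt_pi_iff]
  intro j
  by_cases h : ∃ i, ι i = j
  · have : (fun b : Fin r → ℂ => upd ι a b j) = fun b => b h.choose := by
      funext b
      unfold upd
      rw [dif_pos h]
    rw [this]
    exact (ContinuousLinearMap.proj (R := ℂ) (φ := fun _ : Fin r => ℂ) h.choose).analyticAt b
  · have : (fun b : Fin r → ℂ => upd ι a b j) = fun _ => a j := by
      funext b
      unfold upd
      rw [dif_neg h]
    rw [this]
    exact analyticAt_const

/-- forgetting coordinates -/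
noncomputable def fg (ι : Fin r → Fin m) : (Fin m → ℂ) →L[ℂ] (Fin r → ℂ) :=
  ContinuousLinearMap.pi fun i => ContinuousLinearMap.proj (ι i)

@[simp] theorem fg_apply (a : Fin m → ℂ) : fg ι a = fun i => a (ι i) := rfl

theorem fg_upd (hι : Function.Injective ι) (a : Fin m → ℂ) (b : Fin r → ℂ) :
    fg ι (upd ι a b) = b := upd_comp hι a b

theorem fg_surj (hι : Function.Injective ι) : Function.Surjective (fg ι) := fun b =>
  ⟨upd ι 0 b, fg_upd hι 0 b⟩

end upd

/-- `f` is the projection onto the coordinates `ι` -/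
structure Prj {m r : ℕ} {X T : Type*} [TopologicalSpace X] [RDom m X] [TopologicalSpace T]
    [RDom r T] (ι : Fin r → Fin m) (f : X → T) : Prop where
  inj : Function.Injective ι
  cont : Continuous f
  cpf : ∀ x i, cp (f x) i = cp x (ι i)

namespace Prj

variable {m r : ℕ} {X T : Type*} [TopologicalSpace X] [RDom m X] [TopologicalSpace T]
    [RDom r T] {ι : Fin r → Fin m} {f : X → T} (hf : Prj ι f)

include hf

theorem cp_eq (x : X) : cp (f x) = fg ι (cp x) := funext fun i => hf.cpf x i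

/-- the map in charts -/
theorem ev_eq (x : X) : ∀ᶠ y in 𝓝 x, f y = (ch (f x)).symm (fg ι (cp y)) := by
  have h1 : ∀ᶠ y in 𝓝 x, f y ∈ (ch (f x)).source :=
    hf.cont.continuousAt.preimage_mem_nhds ((ch (f x)).open_source.mem_nhds (mem_ch (f x)))
  filter_upwards [h1] with y hy
  rw [← hf.cp_eq y, (isCh_ch (f x)).symm_cp hy]

theorem isOpenMap : IsOpenMap f := by
  rw [isOpenMap_iff_nhds_le]
  intro x
  have h1 := hf.ev_eq x
  have h2 : Filter.map f (𝓝 x) = Filter.map (fun y => (ch (f x)).symm (fg ι (cp y))) (𝓝 x) :=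
    Filter.map_congr h1
  rw [h2]
  have h3 : (fun y : X => (ch (f x)).symm (fg ι (cp y))) =
      (ch (f x)).symm ∘ (fg ι) ∘ (cp : X → (Fin m → ℂ)) := rfl
  rw [h3, ← Filter.map_map, ← Filter.map_map]
  have h4 : Filter.map (cp : X → (Fin m → ℂ)) (𝓝 x) = 𝓝 (cp x) := by
    exact (cp_lh (M := X)).map_nhds_eq x
  have h5 : Filter.map (fg ι) (𝓝 (cp x)) = 𝓝 (fg ι (cp x)) :=
    ((fg ι).isOpenMap (fg_surj hf.inj)).map_nhds_eq (fg ι).continuous.continuousAt
  have h6 : cp (f x) ∈ (ch (f x)).target := (isCh_ch (f x)).cp_mem (mem_ch (f x))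
  have h7 : Filter.map (ch (f x)).symm (𝓝 (cp (f x))) = 𝓝 (f x) := by
    have := (ch (f x)).symm.map_nhds_eq (x := cp (f x)) (by simpa using h6)
    rwa [symm_cp] at this
  rw [h4, h5, ← hf.cp_eq x, h7]

/-- pull back of a holomorphic function -/
theorem holAt_comp {G : Type*} [NormedAddCommGroup G] [NormedSpace ℂ G] {g : T → G} {x : X}
    (hg : HolAt g (f x)) : HolAt (fun y => g (f y)) x := by
  unfold HolAt at hg ⊢
  have h1 : AnalyticAt ℂ (fun w => (g ∘ (ch (f x)).symm) (fg ι w)) (cp x) := by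
    refine AnalyticAt.fun_comp (g := g ∘ (ch (f x)).symm) ?_ ((fg ι).analyticAt (cp x))
    rw [← hf.cp_eq x]
    exact hg
  refine h1.congr ?_
  have h2 : cp x ∈ (ch x).target := (isCh_ch x).cp_mem (mem_ch x)
  have h3 : Tendsto (ch x).symm (𝓝 (cp x)) (𝓝 x) := by
    have := (ch x).symm.continuousAt (x := cp x) (by simpa using h2)
    rwa [ContinuousAt, symm_cp] at this
  filter_upwards [h3.eventually (hf.ev_eq x), (ch x).open_target.mem_nhds h2] with w hw hwt
  show (g ∘ (ch (f x)).symm) (fg ι w) = g (f ((ch x).symm w))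
  rw [hw, (isCh_ch x).cp_symm hwt]
  rfl


end Prj

/-- the local section of `f` through `x` with constant coordinates outside `ι` -/
noncomputable def lsec {m r : ℕ} {X T : Type*} [TopologicalSpace X] [RDom m X] [TopologicalSpace T]
    [RDom r T] (ι : Fin r → Fin m) (x : X) (τ : T) : X := (ch x).symm (upd ι (cp x) (cp τ))

namespace Prj

variable {m r : ℕ} {X T : Type*} [TopologicalSpace X] [RDom m X] [TopologicalSpace T]
    [RDom r T] {ι : Fin r → Fin m} {f : X → T} (hf : Prj ι f)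

include hf

theorem upd_base (x : X) : upd ι (cp x) (cp (f x)) = cp x := by
  rw [hf.cp_eq x, fg_apply, upd_self]

theorem lsec_self (x : X) : lsec ι x (f x) = x := by
  unfold lsec
  rw [hf.upd_base, symm_cp]

theorem upd_mem (x : X) : ∀ᶠ τ in 𝓝 (f x), upd ι (cp x) (cp τ) ∈ (ch x).target := by
  have h1 : ContinuousAt (fun τ : T => upd ι (cp x) (cp τ)) (f x) :=
    ContinuousAt.comp (g := upd ι (cp x)) (upd_analytic (cp x) _).continuousAt
      cp_cont.continuousAt
  refine h1.eventually_mem ?_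
  rw [hf.upd_base]
  exact (ch x).open_target.mem_nhds ((isCh_ch x).cp_mem (mem_ch x))

theorem cp_lsec (x : X) : ∀ᶠ τ in 𝓝 (f x), cp (lsec ι x τ) = upd ι (cp x) (cp τ) := by
  filter_upwards [hf.upd_mem x] with τ hτ
  exact (isCh_ch x).cp_symm hτ

theorem tendsto_lsec (x : X) : Tendsto (lsec ι x) (𝓝 (f x)) (𝓝 x) := by
  have h1 : ContinuousAt (fun τ : T => upd ι (cp x) (cp τ)) (f x) :=
    ContinuousAt.comp (g := upd ι (cp x)) (upd_analytic (cp x) _).continuousAt
      cp_cont.continuousAt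
  have h2 : cp x ∈ (ch x).target := (isCh_ch x).cp_mem (mem_ch x)
  have h3 : ContinuousAt (ch x).symm (upd ι (cp x) (cp (f x))) := by
    rw [hf.upd_base]
    exact (ch x).symm.continuousAt (by simpa using h2)
  have h4 : ContinuousAt (lsec ι x) (f x) :=
    ContinuousAt.comp (f := fun τ : T => upd ι (cp x) (cp τ)) (g := (ch x).symm) h3 h1
  rw [ContinuousAt, hf.lsec_self] at h4
  exact h4

theorem f_lsec (x : X) : ∀ᶠ τ in 𝓝 (f x), f (lsec ι x τ) = τ := by
  have h1 : ∀ᶠ τ in 𝓝 (f x), τ ∈ (ch (f x)).source :=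
    (ch (f x)).open_source.mem_nhds (mem_ch (f x))
  filter_upwards [h1, hf.cp_lsec x, (hf.tendsto_lsec x).eventually (hf.ev_eq x)] with τ h1 h2 h3
  rw [h3, h2, fg_upd hf.inj, (isCh_ch (f x)).symm_cp h1]

/-- restriction of a holomorphic function to a section -/
theorem holAt_lsec {G : Type*} [NormedAddCommGroup G] [NormedSpace ℂ G] {g : X → G} {x : X}
    (hg : HolAt g x) : HolAt (fun τ => g (lsec ι x τ)) (f x) := by
  unfold HolAt at hg ⊢
  have h1 : AnalyticAt ℂ (fun b => (g ∘ (ch x).symm) (upd ι (cp x) b)) (cp (f x)) := by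
    refine AnalyticAt.fun_comp (g := g ∘ (ch x).symm) ?_ (upd_analytic (cp x) _)
    rw [hf.upd_base]
    exact hg
  refine h1.congr ?_
  have h2 : cp (f x) ∈ (ch (f x)).target := (isCh_ch (f x)).cp_mem (mem_ch (f x))
  filter_upwards [(ch (f x)).open_target.mem_nhds h2] with w hwt
  show (g ∘ (ch x).symm) (upd ι (cp x) w) = g (lsec ι x ((ch (f x)).symm w))
  unfold lsec
  rw [(isCh_ch (f x)).cp_symm hwt]
  rfl

theorem smAt_lsec {G : Type*} [NormedAddCommGroup G] [NormedSpace ℝ G] {g : X → G} {x : X}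
    (hg : SmAt g x) : SmAt (fun τ => g (lsec ι x τ)) (f x) := by
  unfold SmAt at hg ⊢
  have h1 : ContDiffAt ℝ (⊤ : ℕ∞) (fun b => (g ∘ (ch x).symm) (upd ι (cp x) b)) (cp (f x)) := by
    refine ContDiffAt.comp (g := g ∘ (ch x).symm) (cp (f x)) ?_
      ((upd_analytic (cp x) _).contDiffAt.restrict_scalars ℝ)
    rw [hf.upd_base]
    exact hg
  refine h1.congr_of_eventuallyEq ?_
  have h2 : cp (f x) ∈ (ch (f x)).target := (isCh_ch (f x)).cp_mem (mem_ch (f x))
  filter_upwards [(ch (f x)).open_target.mem_nhds h2] with w hwt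
  show g (lsec ι x ((ch (f x)).symm w)) = (g ∘ (ch x).symm) (upd ι (cp x) w)
  unfold lsec
  rw [(isCh_ch (f x)).cp_symm hwt]
  rfl

end Prj

end Crest.Agent.R276.DescC_327
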