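import Mathlib
import Crest.Agent.R276.Rud_210
import Crest.Agent.R276.FlatT_464
import Crest.Agent.R276.DescC_327
import Crest.Agent.R276.EndInd_870

-- ▼ part R276/FlatM_464
section

/-!
# R276, leaf FLATALG (helper464), part M: integrals of flat sections

`X z` measure spaces (the fibres), `σ z : X z → ℂˢ` (the frame of `V_N`),
`PHI z v = ∫ ‖v·σ‖^p` (values in `[0,∞]`).
* `holder` : `∫ ‖∏_{A∈𝒜} (A a)·σ‖^{p/k} ≤ ∏ (∫ ‖(A a)·σ‖^p)^{1/k}`;
* `lint_nrm_le` : `∫ ‖nrm z a‖^{p/k} ≤ PHI z0 a`;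
* `equi` : joint distributions: `∫ h(σ z0 x) = ∫ h(Aᵀ σ z x)`, `h` homogeneous of degree `p`;
* `equi_pi` : the same for `r` variables, `h` homogeneous of degree `p` in each variable;
* `DD_mul` : `D z ‖det A‖^p = D z0`, `D z = ∫ ‖det (σ_i(x_j))‖^p`;
* `II_mul` : `I(z) D(z)^{β/p}` is constant.
-/

set_option autoImplicit false
set_option linter.unusedSectionVars false

noncomputable section

open Set Filter Topology Matrix MeasureTheory
open scoped ENNReal

namespace Crest.Agent.R276.FlatM_464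

open Crest.Agent.R276.FlatT_464

/-- Hölder for the product of `k` functions -/
theorem holder {X ι : Type*} [MeasurableSpace X] (μ : Measure X) (S : Finset ι) (hS : S.Nonempty)
    (f : ι → X → ℂ) (hf : ∀ i ∈ S, AEMeasurable (f i) μ) (p : ℝ) :
    ∫⁻ x, ENNReal.ofReal (‖∏ i ∈ S, f i x‖ ^ (p / S.card)) ∂μ ≤
      ∏ i ∈ S, (∫⁻ x, ENNReal.ofReal (‖f i x‖ ^ p) ∂μ) ^ ((S.card : ℝ)⁻¹) := by
  have hk : (0 : ℝ) < S.card := by exact_mod_cast hS.card_pos
  have h1 := ENNReal.lintegral_prod_norm_pow_le (μ := μ) S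
    (f := fun i x => ENNReal.ofReal (‖f i x‖ ^ p))
    (fun i hi => ENNReal.measurable_ofReal.comp_aemeasurable ((hf i hi).norm.pow_const p))
    (p := fun _ => (S.card : ℝ)⁻¹) (by
      rw [Finset.sum_const, nsmul_eq_mul, mul_inv_cancel₀ hk.ne'])
    (fun i _ => by positivity)
  refine le_trans (le_of_eq (lintegral_congr fun x => ?_)) h1
  rw [norm_prod, ← Real.finsetProd_rpow _ _ (fun i _ => norm_nonneg _),
    ENNReal.ofReal_prod_of_nonneg (fun i _ => by positivity)]
  refine Finset.prod_congr rfl fun i _ => ?_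
  rw [ENNReal.ofReal_rpow_of_nonneg (by positivity) (by positivity),
    ← Real.rpow_mul (norm_nonneg _), div_eq_mul_inv]

section fam

variable {G : Type*} {s : ℕ} {X : G → Type*} [∀ z, MeasurableSpace (X z)]
variable (ν : ∀ z, Measure (X z)) (σ : ∀ z, X z → Fin s → ℂ) (p : ℝ)

/-- the norm `∫ ‖v·σ‖^p` -/
def PHI (z : G) (v : Fin s → ℂ) : ℝ≥0∞ :=
  ∫⁻ x, ENNReal.ofReal (‖∑ i, v i * σ z x i‖ ^ p) ∂(ν z)

variable {ν σ p}

theorem PHI_circ (z : G) (c : ℂ) (a : Fin s → ℂ) (hc : ‖c‖ = 1) :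
    PHI ν σ p z (c • a) = PHI ν σ p z a := by
  unfold PHI
  refine lintegral_congr fun x => ?_
  have : ∑ i, (c • a) i * σ z x i = c * ∑ i, a i * σ z x i := by
    rw [Finset.mul_sum]
    exact Finset.sum_congr rfl fun i _ => by rw [Pi.smul_apply, smul_eq_mul, mul_assoc]
  rw [this, norm_mul, hc, one_mul]

theorem PHI_zero (hp : 0 < p) (z : G) : PHI ν σ p z 0 = 0 := by
  unfold PHI
  simp [Real.zero_rpow hp.ne']

theorem pr_mulVec (A : Matrix (Fin s) (Fin s) ℂ) (a x : Fin s → ℂ) :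
    ∑ i, (A *ᵥ a) i * x i = ∑ i, a i * (Aᵀ *ᵥ x) i := by
  have h1 : ∑ i, (A *ᵥ a) i * x i = (A *ᵥ a) ⬝ᵥ x := rfl
  have h2 : ∑ i, a i * (Aᵀ *ᵥ x) i = a ⬝ᵥ (Aᵀ *ᵥ x) := rfl
  rw [h1, h2, Matrix.dotProduct_mulVec, Matrix.vecMul_transpose]

/-- **joint distributions are constant** (Rudin) -/
theorem equi [∀ z, SFinite (ν z)] (hp : 0 < p) (hp2 : p < 2) (hσ : ∀ z, Measurable (σ z)) {z0 z : G}
    (hfin : ∀ a, PHI ν σ p z0 a ≠ ∞) {A : Matrix (Fin s) (Fin s) ℂ} (hA : A ∈ Is (PHI ν σ p) z0 z)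
    {h : (Fin s → ℂ) → ℝ≥0∞} (hh : Measurable h)
    (hhom : ∀ (c : ℂ) (x : Fin s → ℂ), h (fun i => c * x i) = ENNReal.ofReal (‖c‖ ^ p) * h x) :
    ∫⁻ x, h (σ z0 x) ∂(ν z0) = ∫⁻ x, h (Aᵀ *ᵥ σ z x) ∂(ν z) := by
  have hm : Measurable fun x => Aᵀ *ᵥ σ z x := by
    have : Continuous fun v : Fin s → ℂ => Aᵀ *ᵥ v := by fun_prop
    exact this.measurable.comp (hσ z)
  refine Rud_210.equimeasurable hp hp2 (hσ z0) hm hfin (fun a => ?_) hh hhom
  have h1 := hA a
  unfold PHI at h1
  rw [← h1]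
  refine lintegral_congr fun x => ?_
  rw [pr_mulVec]

/-- homogeneous of degree `p` in each of `r` variables -/
def HomEach (p : ℝ) {r : ℕ} (h : (Fin r → Fin s → ℂ) → ℝ≥0∞) : Prop :=
  ∀ (j : Fin r) (c : ℂ) (x : Fin r → Fin s → ℂ),
    h (Function.update x j (fun i => c * x j i)) = ENNReal.ofReal (‖c‖ ^ p) * h x

theorem measurable_cons {r : ℕ} :
    Measurable fun q : (Fin s → ℂ) × (Fin r → Fin s → ℂ) =>
      (Fin.cons q.1 q.2 : Fin (r + 1) → Fin s → ℂ) := by
  refine measurable_pi_lambda _ fun j => ?_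
  refine Fin.cases ?_ (fun j => ?_) j
  · simpa using measurable_fst
  · exact (measurable_pi_apply j).comp measurable_snd

theorem lintegral_succ {Y : Type*} [MeasurableSpace Y] (μ : Measure Y) [SigmaFinite μ] {r : ℕ}
    {H : (Fin (r + 1) → Y) → ℝ≥0∞} (hH : Measurable H) :
    ∫⁻ x, H x ∂(Measure.pi fun _ : Fin (r + 1) => μ) =
      ∫⁻ y, ∫⁻ a, H (Fin.cons a y) ∂μ ∂(Measure.pi fun _ : Fin r => μ) := by
  have h1 := (measurePreserving_piFinSuccAbove (fun _ : Fin (r + 1) => μ) 0).symm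
  have h2 := h1.lintegral_comp hH
  rw [← h2, lintegral_prod_symm]
  · refine lintegral_congr fun y => lintegral_congr fun a => ?_
    congr 1
    ext j
    refine Fin.cases ?_ (fun j => ?_) j
    · simp [MeasurableEquiv.piFinSuccAbove]
    · simp [MeasurableEquiv.piFinSuccAbove]
  · exact (hH.comp h1.measurable).aemeasurable

/-- **joint distributions, several variables** -/
theorem equi_pi [∀ z, SigmaFinite (ν z)] (hp : 0 < p) (hp2 : p < 2) (hσ : ∀ z, Measurable (σ z))
    {z0 z : G} (hfin : ∀ a, PHI ν σ p z0 a ≠ ∞) {A : Matrix (Fin s) (Fin s) ℂ}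
    (hA : A ∈ Is (PHI ν σ p) z0 z) {r : ℕ} {h : (Fin r → Fin s → ℂ) → ℝ≥0∞} (hh : Measurable h)
    (hhom : HomEach p h) :
    ∫⁻ x, h (fun j => σ z0 (x j)) ∂(Measure.pi fun _ : Fin r => ν z0) =
      ∫⁻ x, h (fun j => Aᵀ *ᵥ σ z (x j)) ∂(Measure.pi fun _ : Fin r => ν z) := by
  have hm : Measurable fun x => Aᵀ *ᵥ σ z x := by
    have : Continuous fun v : Fin s → ℂ => Aᵀ *ᵥ v := by fun_prop
    exact this.measurable.comp (hσ z)
  induction r with
  | zero =>
    rw [Measure.pi_of_empty _ (Fin.elim0 : Fin 0 → X z0), Measure.pi_of_empty _ (Fin.elim0 : Fin 0 → X z),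
      lintegral_dirac, lintegral_dirac]
    congr 1
    ext j
    exact Fin.elim0 j
  | succ r ih =>
    have hmt : ∀ (w : G) (B : Matrix (Fin s) (Fin s) ℂ), Measurable fun x : Fin (r + 1) → X w =>
        (fun j => B *ᵥ σ w (x j)) := by
      intro w B
      refine measurable_pi_lambda _ fun j => ?_
      have : Continuous fun v : Fin s → ℂ => B *ᵥ v := by fun_prop
      exact this.measurable.comp ((hσ w).comp (measurable_pi_apply j))
    have hms : ∀ w : G, Measurable fun x : Fin (r + 1) → X w => (fun j => σ w (x j)) := by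
      intro w
      exact measurable_pi_lambda _ fun j => (hσ w).comp (measurable_pi_apply j)
    rw [lintegral_succ (ν z0) (H := fun x => h (fun j => σ z0 (x j))) (hh.comp (hms z0)),
      lintegral_succ (ν z) (H := fun x => h (fun j => Aᵀ *ᵥ σ z (x j))) (hh.comp (hmt z Aᵀ))]
    -- the inner integral over `ν z`
    set h' : (Fin r → Fin s → ℂ) → ℝ≥0∞ := fun v =>
      ∫⁻ a, h (Fin.cons (Aᵀ *ᵥ σ z a) v) ∂(ν z) with hh'
    have hh'm : Measurable h' := by
      refine Measurable.lintegral_prod_right' (f := fun q : (Fin r → Fin s → ℂ) × X z =>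
        h (Fin.cons (Aᵀ *ᵥ σ z q.2) q.1)) ?_
      exact hh.comp (measurable_cons.comp ((hm.comp measurable_snd).prodMk measurable_fst))
    have hinner : ∀ v : Fin r → Fin s → ℂ,
        ∫⁻ a, h (Fin.cons (σ z0 a) v) ∂(ν z0) = h' v := by
      intro v
      refine equi (h := fun u => h (Fin.cons u v)) hp hp2 hσ hfin hA
        (hh.comp (measurable_cons.comp (measurable_id.prodMk measurable_const))) ?_
      intro c x
      have := hhom 0 c (Fin.cons x v)
      rw [Fin.update_cons_zero] at this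
      simpa using this
    have hh'hom : HomEach p h' := by
      intro j c x
      rw [hh']
      simp only
      rw [← lintegral_const_mul' _ _ ENNReal.ofReal_ne_top]
      refine lintegral_congr fun a => ?_
      have := hhom j.succ c (Fin.cons (Aᵀ *ᵥ σ z a) x)
      rw [← Fin.cons_update] at this
      simpa using this
    have e1 : ∀ y : Fin r → X z0, ∫⁻ a, h (fun j => σ z0 ((Fin.cons a y : Fin (r + 1) → X z0) j))
        ∂(ν z0) = h' (fun j => σ z0 (y j)) := by
      intro y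
      rw [← hinner]
      refine lintegral_congr fun a => ?_
      congr 1
      ext j i
      refine Fin.cases ?_ (fun j => ?_) j <;> simp
    have e2 : ∀ y : Fin r → X z, ∫⁻ a, h (fun j => Aᵀ *ᵥ σ z ((Fin.cons a y : Fin (r + 1) → X z) j))
        ∂(ν z) = h' (fun j => Aᵀ *ᵥ σ z (y j)) := by
      intro y
      rw [hh']
      refine lintegral_congr fun a => ?_
      congr 1
      ext j i
      refine Fin.cases ?_ (fun j => ?_) j <;> simp
    simp only [e1, e2]
    exact ih hh'm hh'hom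

/-! ### the determinant -/

/-- `‖det x‖^p` -/
def hdet (s : ℕ) (p : ℝ) (x : Fin s → Fin s → ℂ) : ℝ≥0∞ :=
  ENNReal.ofReal (‖(Matrix.of x).det‖ ^ p)

theorem det_update (x : Fin s → Fin s → ℂ) (j : Fin s) (c : ℂ) :
    (Matrix.of (Function.update x j (fun i => c * x j i))).det = c * (Matrix.of x).det := by
  have : Matrix.of (Function.update x j (fun i => c * x j i)) =
      (Matrix.of x).updateRow j (c • (Matrix.of x) j) := by
    ext a b
    by_cases hab : a = j
    · subst hab; simp [Function.update]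
    · simp [Matrix.updateRow_apply, Function.update, hab]
  rw [this, Matrix.det_updateRow_smul, Matrix.updateRow_eq_self]

theorem det_mulVec (A : Matrix (Fin s) (Fin s) ℂ) (x : Fin s → Fin s → ℂ) :
    (Matrix.of (fun j => Aᵀ *ᵥ x j)).det = A.det * (Matrix.of x).det := by
  have : Matrix.of (fun j => Aᵀ *ᵥ x j) = Matrix.of x * A := by
    ext a b
    simp [Matrix.mulVec, dotProduct, Matrix.mul_apply, mul_comm]
  rw [this, Matrix.det_mul, mul_comm]

theorem measurable_det : Measurable fun x : Fin s → Fin s → ℂ => (Matrix.of x).det := by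
  have : Continuous fun x : Fin s → Fin s → ℂ => (Matrix.of x).det := by
    apply Continuous.matrix_det
    exact continuous_id
  exact this.measurable

/-- `∫ ‖det (σ_i(x_j))‖^p` over the `s`-fold product of the fibre -/
def DD (ν : ∀ z, Measure (X z)) (σ : ∀ z, X z → Fin s → ℂ) (p : ℝ) (z : G) : ℝ≥0∞ :=
  ∫⁻ x, ENNReal.ofReal (‖(Matrix.of fun j : Fin s => σ z (x j)).det‖ ^ p)
    ∂(Measure.pi fun _ : Fin s => ν z)

theorem DD_mul [∀ z, SigmaFinite (ν z)] (hp : 0 < p) (hp2 : p < 2) (hσ : ∀ z, Measurable (σ z))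
    {z0 z : G} (hfin : ∀ a, PHI ν σ p z0 a ≠ ∞) {A : Matrix (Fin s) (Fin s) ℂ}
    (hA : A ∈ Is (PHI ν σ p) z0 z) :
    ENNReal.ofReal (‖A.det‖ ^ p) * DD ν σ p z = DD ν σ p z0 := by
  have h1 := equi_pi (ν := ν) (h := hdet s p) hp hp2 hσ hfin hA
    (ENNReal.measurable_ofReal.comp ((measurable_det.norm).pow_const p)) (by
      intro j c x
      unfold hdet
      rw [det_update, norm_mul, Real.mul_rpow (norm_nonneg _) (norm_nonneg _),
        ENNReal.ofReal_mul (by positivity)])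
  unfold DD
  simp only [hdet] at h1
  rw [h1, ← lintegral_const_mul' _ _ ENNReal.ofReal_ne_top]
  refine lintegral_congr fun x => ?_
  rw [det_mulVec, norm_mul, Real.mul_rpow (norm_nonneg _) (norm_nonneg _),
    ENNReal.ofReal_mul (by positivity)]

/-- `∫ ∏_j ‖P(σ(x_j))‖^α ‖det σ(x)‖^{-β}` over the `s`-fold product of the fibre -/
def II (ν : ∀ z, Measure (X z)) (σ : ∀ z, X z → Fin s → ℂ) (P : G → MvPolynomial (Fin s) ℂ)
    (α β : ℝ) (z : G) : ℝ≥0∞ :=
  ∫⁻ x, ENNReal.ofReal ((∏ j : Fin s, ‖MvPolynomial.eval (σ z (x j)) (P z)‖ ^ α) *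
    ‖(Matrix.of fun j : Fin s => σ z (x j)).det‖ ^ (-β)) ∂(Measure.pi fun _ : Fin s => ν z)

theorem eval_homog {P : MvPolynomial (Fin s) ℂ} {k : ℕ} (hP : P.IsHomogeneous k) (c : ℂ)
    (x : Fin s → ℂ) :
    MvPolynomial.eval (fun i => c * x i) P = c ^ k * MvPolynomial.eval x P := by
  rw [MvPolynomial.eval_eq', MvPolynomial.eval_eq', Finset.mul_sum]
  refine Finset.sum_congr rfl fun μ hμ => ?_
  have h2 : ∑ i, μ i = k := by
    have := hP (MvPolynomial.mem_support_iff.1 hμ)
    rw [Finsupp.weight_apply, Finsupp.sum_fintype] at this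
    · simpa using this
    · intro; simp
  rw [← h2, ← Finset.prod_pow_eq_pow_sum]
  simp only [mul_pow, Finset.prod_mul_distrib]
  ring


end fam

end Crest.Agent.R276.FlatM_464
end
end

-- ▼ part R276/FlatI_464
section

/-!
# R276, leaf FLATALG (helper464), part I: algebraic independence of norms

`E` a field over `ℂ` (functions on one fibre), `σ : Fin s → E` linearly independent over `ℂ`, `𝒜` a finite
nonempty set of invertible `s × s` matrices, `N a = ∏_{A ∈ 𝒜} (A a)·σ`.
`norm_indep` : if `σ_{ι j} / σ_{i0}` (`j < d`) are algebraically independent over `ℂ`, then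
`N (a j) / N a0` (`j < d`) are algebraically independent for suitable `a0, a j ∈ ℂˢ`.
-/

set_option autoImplicit false

noncomputable section

open Matrix

namespace Crest.Agent.R276.FlatI_464

/-- `d` independent elements which are algebraic over the algebra generated by `t` ⟹ `t` contains
`d` independent elements -/
theorem exists_indep {F E : Type*} [Field F] [Field E] [Algebra F E] {d : ℕ} (x : Fin d → E)
    (hx : AlgebraicIndependent F x) (t : Set E)
    (ht : ∀ i, IsAlgebraic (Algebra.adjoin F t) (x i)) :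
    ∃ y : Fin d → E, (∀ i, y i ∈ t) ∧ AlgebraicIndependent F y := by
  classical
  set M := AlgebraicIndependent.matroid F E with hM
  obtain ⟨u, hu⟩ := M.exists_isBasis t
  have hind : M.Indep (Set.range x) := by
    rw [hM, AlgebraicIndependent.matroid_indep_iff]
    exact hx.to_subtype_range
  have hcl : Set.range x ⊆ M.closure t := by
    rintro _ ⟨i, rfl⟩
    rw [hM, AlgebraicIndependent.matroid_closure_eq]
    exact ht i
  have h1 : (d : ℕ∞) ≤ u.encard := by
    calc (d : ℕ∞) = (Set.range x).encard := by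
          rw [← Set.image_univ, hx.injective.encard_image, Set.encard_univ, ENat.card_eq_coe_fintype_card,
            Fintype.card_fin]
      _ = M.eRk (Set.range x) := hind.eRk_eq_encard.symm
      _ ≤ M.eRk (M.closure t) := M.eRk_mono hcl
      _ = M.eRk t := M.eRk_closure_eq t
      _ = u.encard := hu.eRk_eq_encard
  obtain ⟨v, hvu, hv⟩ := Set.exists_subset_encard_eq h1
  have hvf : v.Finite := Set.finite_of_encard_eq_coe hv
  have hcard : Nat.card v = d := by
    have := hvf.cast_ncard_eq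
    rw [hv] at this
    rw [Nat.card_coe_set_eq]
    exact_mod_cast this
  have := hvf.to_subtype
  have hfin : Fintype v := Fintype.ofFinite v
  have e : Fin d ≃ v := by
    refine (Fintype.equivFinOfCardEq ?_).symm
    rw [← Nat.card_eq_fintype_card, hcard]
  have huind : AlgebraicIndepOn F id u := by
    rw [← AlgebraicIndependent.matroid_indep_iff]
    exact hu.indep
  refine ⟨fun i => (e i : E), fun i => ?_, ?_⟩
  · have : (e i : E) ∈ u := hvu (e i).2
    exact hu.subset this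
  · have h2 : AlgebraicIndependent F (fun z : v => (z : E)) := huind.mono hvu
    exact h2.comp e e.injective

variable {E : Type*} [Field E] [Algebra ℂ E] {s : ℕ}

/-- the linear combination `v·σ` -/
def ln (σ : Fin s → E) (v : Fin s → ℂ) : E := ∑ i, algebraMap ℂ E (v i) * σ i

theorem ln_ne {σ : Fin s → E} (hσ : LinearIndependent ℂ σ) {v : Fin s → ℂ} (hv : v ≠ 0) :
    ln σ v ≠ 0 := by
  intro h
  apply hv
  rw [Fintype.linearIndependent_iff] at hσ
  ext i
  refine hσ v ?_ i
  rw [ln] at h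
  simpa only [Algebra.smul_def] using h

theorem ln_add (σ : Fin s → E) (v w : Fin s → ℂ) : ln σ (v + w) = ln σ v + ln σ w := by
  simp [ln, add_mul, Finset.sum_add_distrib]

theorem ln_smul (σ : Fin s → E) (c : ℂ) (v : Fin s → ℂ) :
    ln σ (c • v) = algebraMap ℂ E c * ln σ v := by
  simp [ln, Finset.mul_sum, mul_assoc]

/-- the norm -/
def N (σ : Fin s → E) (𝒜 : Finset (Matrix (Fin s) (Fin s) ℂ)) (a : Fin s → ℂ) : E :=
  ∏ A ∈ 𝒜, ln σ (A *ᵥ a)

theorem mulVec_ne {A : Matrix (Fin s) (Fin s) ℂ} (hA : IsUnit A.det) {a : Fin s → ℂ} (ha : a ≠ 0) :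
    A *ᵥ a ≠ 0 := by
  intro h0
  apply ha
  have h1 : A⁻¹ *ᵥ (A *ᵥ a) = 0 := by rw [h0, Matrix.mulVec_zero]
  rwa [Matrix.mulVec_mulVec, Matrix.nonsing_inv_mul _ hA, Matrix.one_mulVec] at h1

theorem N_ne {σ : Fin s → E} (hσ : LinearIndependent ℂ σ) {𝒜 : Finset (Matrix (Fin s) (Fin s) ℂ)}
    (h𝒜 : ∀ A ∈ 𝒜, IsUnit A.det) {a : Fin s → ℂ} (ha : a ≠ 0) : N σ 𝒜 a ≠ 0 :=
  Finset.prod_ne_zero_iff.2 fun A hA => ln_ne hσ (mulVec_ne (h𝒜 A hA) ha)

open Polynomial in
/-- a monic polynomial over `E` whose values at all constants lie in a subfield `F` has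
coefficients in `F` -/
theorem coeff_mem {F : IntermediateField ℂ E} (P : E[X])
    (h : ∀ c : ℂ, P.eval (algebraMap ℂ E c) ∈ F) (j : ℕ) : P.coeff j ∈ F := by
  classical
  set k := P.natDegree with hk
  set v : Fin (k + 1) → E := fun i => algebraMap ℂ E (i : ℕ) with hv
  have hvi : Set.InjOn v (Finset.univ : Finset (Fin (k + 1))) := by
    intro a _ b _ hab
    have h1 := (algebraMap ℂ E).injective hab
    have h2 : (a : ℕ) = b := by exact_mod_cast h1
    exact Fin.ext h2
  have hP : P = Lagrange.interpolate Finset.univ v (fun i => P.eval (v i)) := by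
    refine Lagrange.eq_interpolate hvi ?_
    rw [Finset.card_univ, Fintype.card_fin]
    exact lt_of_le_of_lt Polynomial.degree_le_natDegree (by exact_mod_cast Nat.lt_succ_self _)
  rw [hP, Lagrange.interpolate_apply, Polynomial.finsetSum_coeff]
  refine sum_mem fun i _ => ?_
  rw [Polynomial.coeff_C_mul]
  refine mul_mem (h _) ?_
  -- the Lagrange basis has coefficients in `ℂ`
  have hb : Lagrange.basis Finset.univ v i =
      (Lagrange.basis Finset.univ (fun i : Fin (k + 1) => ((i : ℕ) : ℂ)) i).map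
        (algebraMap ℂ E) := by
    simp only [Lagrange.basis, Lagrange.basisDivisor, hv, Polynomial.map_prod, Polynomial.map_mul,
      Polynomial.map_sub, Polynomial.map_X, Polynomial.map_C, map_inv₀, map_sub]
  rw [hb, Polynomial.coeff_map]
  exact F.algebraMap_mem _

open Polynomial in
open scoped IntermediateField.algebraAdjoinAdjoin in
/-- **independence of norms** -/
theorem norm_indep {σ : Fin s → E} (hσ : LinearIndependent ℂ σ)
    {𝒜 : Finset (Matrix (Fin s) (Fin s) ℂ)} (hne : 𝒜.Nonempty) (h𝒜 : ∀ A ∈ 𝒜, IsUnit A.det)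
    {d : ℕ} (i0 : Fin s) (ι : Fin d → Fin s)
    (hind : AlgebraicIndependent ℂ (fun j => σ (ι j) / σ i0)) {a0 : Fin s → ℂ} (ha0 : a0 ≠ 0) :
    ∃ a : Fin d → Fin s → ℂ, (∀ j, a j ≠ 0) ∧
      AlgebraicIndependent ℂ (fun j => N σ 𝒜 (a j) / N σ 𝒜 a0) := by
  classical
  set t : Set E := {y | ∃ a : Fin s → ℂ, a ≠ 0 ∧ y = N σ 𝒜 a / N σ 𝒜 a0} with ht
  set F : IntermediateField ℂ E := IntermediateField.adjoin ℂ t with hF
  have hN0 := N_ne hσ h𝒜 ha0
  have htF : ∀ a : Fin s → ℂ, N σ 𝒜 a / N σ 𝒜 a0 ∈ F := by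
    intro a
    by_cases ha : a = 0
    · have : N σ 𝒜 a = 0 := by
        obtain ⟨A, hA⟩ := hne
        refine Finset.prod_eq_zero hA ?_
        rw [ha, Matrix.mulVec_zero]
        simp [ln]
      rw [this, zero_div]
      exact zero_mem _
    · exact IntermediateField.subset_adjoin ℂ t ⟨a, ha, rfl⟩
  have htF2 : ∀ a b : Fin s → ℂ, N σ 𝒜 a / N σ 𝒜 b ∈ F := by
    intro a b
    have := div_mem (htF a) (htF b)
    rwa [div_div_div_cancel_right₀ hN0] at this
  obtain ⟨A0, hA0⟩ := hne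
  -- ratios are algebraic over `F`
  have halg : ∀ v w : Fin s → ℂ, w ≠ 0 → IsAlgebraic F (ln σ v / ln σ w) := by
    intro v w hw
    set a := A0⁻¹ *ᵥ v with ha
    set b := A0⁻¹ *ᵥ w with hb
    have hA0d := h𝒜 A0 hA0
    have hva : A0 *ᵥ a = v := by
      rw [ha, Matrix.mulVec_mulVec, Matrix.mul_nonsing_inv _ hA0d, Matrix.one_mulVec]
    have hwb : A0 *ᵥ b = w := by
      rw [hb, Matrix.mulVec_mulVec, Matrix.mul_nonsing_inv _ hA0d, Matrix.one_mulVec]
    have hb0 : b ≠ 0 := by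
      rintro h0
      rw [h0, Matrix.mulVec_zero] at hwb
      exact hw hwb.symm
    -- the polynomial
    set P : E[X] := ∏ A ∈ 𝒜, (X + C (ln σ (A *ᵥ a) / ln σ (A *ᵥ b))) with hP
    have hPm : P.Monic := monic_prod_of_monic _ _ fun A _ => monic_X_add_C _
    have hPe : ∀ c : ℂ, P.eval (algebraMap ℂ E c) ∈ F := by
      intro c
      have h1 : P.eval (algebraMap ℂ E c) = N σ 𝒜 (a + c • b) / N σ 𝒜 b := by
        rw [hP, eval_prod, N, N, ← Finset.prod_div_distrib]
        refine Finset.prod_congr rfl fun A hA => ?_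
        have h2 := ln_ne hσ (mulVec_ne (h𝒜 A hA) hb0)
        rw [Matrix.mulVec_add, Matrix.mulVec_smul, ln_add, ln_smul]
        simp only [eval_add, eval_X, eval_C]
        field_simp
        ring
      rw [h1]
      exact htF2 _ _
    have hPF : ∀ j, P.coeff j ∈ F := coeff_mem P hPe
    obtain ⟨Q, hQ⟩ : ∃ Q : F[X], Q.map (algebraMap F E) = P := by
      have : P ∈ Polynomial.lifts (algebraMap F E) := by
        rw [Polynomial.lifts_iff_coeff_lifts]
        intro j
        exact ⟨⟨P.coeff j, hPF j⟩, rfl⟩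
      exact (Polynomial.mem_lifts _).1 this
    have hroot : IsAlgebraic F (-(ln σ v / ln σ w)) := by
      refine ⟨Q, ?_, ?_⟩
      · rintro rfl
        rw [Polynomial.map_zero] at hQ
        exact hPm.ne_zero hQ.symm
      · rw [← Polynomial.eval_map_algebraMap, hQ, hP, eval_prod]
        refine Finset.prod_eq_zero hA0 ?_
        simp only [eval_add, eval_X, eval_C, hva, hwb]
        ring
    simpa using hroot.neg
  -- basis vectors
  have hsingle : ∀ i : Fin s, ln σ (Pi.single i 1) = σ i := by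
    intro i
    simp [ln, Pi.single_apply, apply_ite]
  have hx : ∀ j, IsAlgebraic (Algebra.adjoin ℂ t) (σ (ι j) / σ i0) := by
    intro j
    have h1 := halg (Pi.single (ι j) 1) (Pi.single i0 1) (by
      intro h
      have := congrFun h i0
      simp at this)
    rw [hsingle, hsingle] at h1
    exact (IsFractionRing.isAlgebraic_iff (Algebra.adjoin ℂ t)
      (IntermediateField.adjoin ℂ t) E).2 h1
  obtain ⟨y, hy, hyi⟩ := exists_indep _ hind t hx
  choose a ha hya using hy
  refine ⟨a, ha, ?_⟩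
  have : (fun j => N σ 𝒜 (a j) / N σ 𝒜 a0) = y := by
    funext j; rw [hya]
  rw [this]
  exact hyi

end Crest.Agent.R276.FlatI_464
end
end

-- ▼ part R276/FlatN_464

/-!
# R276, leaf FLATALG (helper464), part N: flat sections: norms, joint distributions, independence

Data `Dat (PHI ν σ p) D m z0` of `FlatT_464` with the norms `PHI z v = ∫ ‖v·σ‖^p` of `FlatM_464`.
`TT z a x = nrm z a (σ z x)`, `k = deg`.
* `lint_TT_le` : `∫ ‖TT z a‖^{p/k} dν_z ≤ PHI z0 a` for all `z`;
* `TT_ratio` / `indep_of` : if `TT_j/TT_0` are algebraically independent at `z0`, then at every `z`;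
* `exists_indep` : existence of `a_0, …, a_d` from the independence of the ratios `σ_i/σ_{i0}` at `z0`;
* `hol_total` : `TT` is holomorphic on the total space.
-/

set_option autoImplicit false
set_option linter.unusedSectionVars false

noncomputable section

open Set Filter Topology Matrix MeasureTheory
open scoped ENNReal
open Crest.Agent.R271.Ho51

namespace Crest.Agent.R276.FlatN_464

open Crest.Agent.R276.FlatT_464 Crest.Agent.R276.FlatM_464
open Crest.Agent.R276.Ipc735 (HolAt)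

section main

variable {n : ℕ} {G : Type*} [TopologicalSpace G] [RDom n G] [PreconnectedSpace G] {s : ℕ}
variable {X : G → Type*} [∀ z, MeasurableSpace (X z)]
variable {ν : ∀ z, Measure (X z)} {σ : ∀ z, X z → Fin s → ℂ} {p : ℝ}
variable {D : G → ℂ} {m : ℕ} {z0 : G}

variable (ν σ p D m z0) in
/-- the flat section `a` evaluated at a point of the fibre over `z` -/
def TT (z : G) (a : Fin s → ℂ) (x : X z) : ℂ :=
  MvPolynomial.eval (σ z x) (nrm (PHI ν σ p) D m z0 z a)

theorem TT_eq (h : Dat (PHI ν σ p) D m z0) (z : G) (a : Fin s → ℂ) (x : X z) :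
    TT ν σ p D m z0 z a x = ∏ A ∈ (h.finite z).toFinset, ∑ i, (A *ᵥ a) i * σ z x i :=
  nrm_eval h z a _

/-- **bound of the norms** -/
theorem lint_TT_le (h : Dat (PHI ν σ p) D m z0) (hσ : ∀ z, Measurable (σ z)) (z : G)
    (a : Fin s → ℂ) :
    ∫⁻ x, ENNReal.ofReal (‖TT ν σ p D m z0 z a x‖ ^ (p / deg (PHI ν σ p) D m z0)) ∂(ν z) ≤
      PHI ν σ p z0 a := by
  set S := (h.finite z).toFinset with hS
  have hSne : S.Nonempty := by
    obtain ⟨A, hA⟩ := h.nonempty z
    exact ⟨A, (h.finite z).mem_toFinset.2 hA⟩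
  have hcard : S.card = deg (PHI ν σ p) D m z0 := card_toFinset h z
  have hk : (0 : ℝ) < S.card := by exact_mod_cast hSne.card_pos
  have h1 := holder (ν z) S hSne (fun A x => ∑ i, (A *ᵥ a) i * σ z x i) (fun A _ => by
    have : Measurable fun x => ∑ i, (A *ᵥ a) i * σ z x i :=
      Finset.measurable_fun_sum _ fun i _ =>
        ((measurable_pi_apply i).comp (hσ z)).const_mul _
    exact this.aemeasurable) p
  rw [← hcard]
  simp only [TT_eq h]
  refine h1.trans (le_of_eq ?_)
  have h2 : ∀ A ∈ S, (∫⁻ x, ENNReal.ofReal (‖∑ i, (A *ᵥ a) i * σ z x i‖ ^ p) ∂(ν z)) =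
      PHI ν σ p z0 a := by
    intro A hA
    exact ((h.finite z).mem_toFinset.1 hA).1 a
  rw [Finset.prod_congr rfl fun A hA => by rw [h2 A hA], Finset.prod_const,
    ← ENNReal.rpow_natCast, ← ENNReal.rpow_mul, inv_mul_cancel₀ hk.ne', ENNReal.rpow_one]

/-- the norm at `z` through the norm at `z0` -/
theorem nrm_transport (h : Dat (PHI ν σ p) D m z0) {z : G} {A : Matrix (Fin s) (Fin s) ℂ}
    (hA : A ∈ Iz (PHI ν σ p) D m z0 z) (a x : Fin s → ℂ) :
    MvPolynomial.eval x (nrm (PHI ν σ p) D m z0 z a) =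
      MvPolynomial.eval (Aᵀ *ᵥ x) (nrm (PHI ν σ p) D m z0 z0 a) := by
  have hd : IsUnit A.det := (Is.det_ne h.toNm hA.1).isUnit
  have h1 : nrm (PHI ν σ p) D m z0 z a =
      ∏ B ∈ (h.finite z0).toFinset, lin ((A * B) *ᵥ a) := by
    rw [nrm, Iz.eq_image h hA, finprod_mem_image ((mul_injective hd).injOn),
      finprod_mem_eq_finite_toFinset_prod _ (h.finite z0)]
  rw [h1, nrm_eq h z0 a, map_prod, map_prod]
  refine Finset.prod_congr rfl fun B _ => ?_
  rw [lin_eval, lin_eval, ← Matrix.mulVec_mulVec, pr_mulVec]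



/-! ### independence -/

/-- independence of `TT_j / TT_0` as functions on the fibre over `z`, up to null sets -/
def IndAt (ν : ∀ z, Measure (X z)) (σ : ∀ z, X z → Fin s → ℂ) (p : ℝ) (D : G → ℂ) (m : ℕ) (z0 : G)
    {d : ℕ} (a0 : Fin s → ℂ) (a : Fin d → Fin s → ℂ) (z : G) : Prop :=
  ∀ P : MvPolynomial (Fin d) ℂ, P ≠ 0 → ν z {x | TT ν σ p D m z0 z a0 x ≠ 0 ∧
    MvPolynomial.eval (fun j => TT ν σ p D m z0 z (a j) x / TT ν σ p D m z0 z a0 x) P ≠ 0} ≠ 0

/-- **independence at `z0` gives independence at every `z`** -/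
theorem indAt_of [∀ z, SFinite (ν z)] (h : Dat (PHI ν σ p) D m z0) (hp : 0 < p) (hp2 : p < 2)
    (hσ : ∀ z, Measurable (σ z)) (hfin : ∀ a, PHI ν σ p z0 a ≠ ∞) {d : ℕ} {a0 : Fin s → ℂ}
    {a : Fin d → Fin s → ℂ} (h0 : IndAt ν σ p D m z0 a0 a z0) (z : G) :
    IndAt ν σ p D m z0 a0 a z := by
  intro P hP hz
  apply h0 P hP
  obtain ⟨A, hA⟩ := h.nonempty z
  set k := deg (PHI ν σ p) D m z0 with hk
  set N0 : (Fin s → ℂ) → ℂ := fun v => MvPolynomial.eval v (nrm (PHI ν σ p) D m z0 z0 a0) with hN0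
  set N : Fin d → (Fin s → ℂ) → ℂ := fun j v =>
    MvPolynomial.eval v (nrm (PHI ν σ p) D m z0 z0 (a j)) with hN
  have hN0m : Measurable N0 := (MvPolynomial.continuous_eval _).measurable
  have hNm : ∀ j, Measurable (N j) := fun j => (MvPolynomial.continuous_eval _).measurable
  have hPm : Measurable fun v => MvPolynomial.eval (fun j => N j v / N0 v) P := by
    have h1 : Measurable fun v => fun j => N j v / N0 v :=
      measurable_pi_lambda _ fun j => (hNm j).div hN0m
    exact (MvPolynomial.continuous_eval P).measurable.comp h1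
  set E : Set (Fin s → ℂ) := {v | N0 v ≠ 0 ∧ MvPolynomial.eval (fun j => N j v / N0 v) P ≠ 0}
    with hE
  have hEm : MeasurableSet E :=
    (hN0m (measurableSet_singleton 0).compl).inter (hPm (measurableSet_singleton 0).compl)
  set hh : (Fin s → ℂ) → ℝ≥0∞ := E.indicator (fun v => ENNReal.ofReal (‖v‖ ^ p)) with hhh
  have hnm : Measurable fun v : Fin s → ℂ => ENNReal.ofReal (‖v‖ ^ p) := by fun_prop
  have hhm : Measurable hh := hnm.indicator hEm
  have hk0 : k ≠ 0 := h.deg_pos.ne'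
  have hscale0 : ∀ (c : ℂ) v, N0 (fun i => c * v i) = c ^ k * N0 v := fun c v =>
    eval_homog (nrm_homog h z0 a0) c v
  have hscale : ∀ j (c : ℂ) v, N j (fun i => c * v i) = c ^ k * N j v := fun j c v =>
    eval_homog (nrm_homog h z0 (a j)) c v
  have hhom : ∀ (c : ℂ) (v : Fin s → ℂ), hh (fun i => c * v i) =
      ENNReal.ofReal (‖c‖ ^ p) * hh v := by
    intro c v
    by_cases hc : c = 0
    · subst hc
      have h1 : (fun i => (0 : ℂ) * v i) = 0 := by ext i; simp
      rw [h1, hhh, norm_zero, Real.zero_rpow hp.ne', ENNReal.ofReal_zero, zero_mul]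
      by_cases h2 : (0 : Fin s → ℂ) ∈ E
      · rw [Set.indicator_of_mem h2]; simp [Real.zero_rpow hp.ne']
      · rw [Set.indicator_of_notMem h2]
    · have hck : c ^ k ≠ 0 := pow_ne_zero _ hc
      have hiff : (fun i => c * v i) ∈ E ↔ v ∈ E := by
        rw [hE]
        simp only [Set.mem_ofPred_eq, hscale0, hscale]
        have h1 : (fun j => c ^ k * N j v / (c ^ k * N0 v)) = fun j => N j v / N0 v := by
          funext j; rw [mul_div_mul_left _ _ hck]
        rw [h1]
        simp [hck]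
      have hnorm : ‖(fun i => c * v i)‖ = ‖c‖ * ‖v‖ := by
        have : (fun i => c * v i) = c • v := by ext i; simp
        rw [this, norm_smul]
      rw [hhh]
      by_cases h2 : v ∈ E
      · rw [Set.indicator_of_mem h2, Set.indicator_of_mem (hiff.2 h2), hnorm,
          Real.mul_rpow (norm_nonneg _) (norm_nonneg _), ENNReal.ofReal_mul (by positivity)]
      · rw [Set.indicator_of_notMem h2, Set.indicator_of_notMem (fun h3 => h2 (hiff.1 h3)),
          mul_zero]
  have heq := equi hp hp2 hσ hfin hA.1 hhm hhom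
  -- the set at `z`
  have hset : ∀ x : X z, Aᵀ *ᵥ σ z x ∈ E ↔ (TT ν σ p D m z0 z a0 x ≠ 0 ∧
      MvPolynomial.eval (fun j => TT ν σ p D m z0 z (a j) x / TT ν σ p D m z0 z a0 x) P ≠ 0) := by
    intro x
    simp only [hE, Set.mem_ofPred_eq, hN0, hN, TT, nrm_transport h hA]
  have hRHS : ∫⁻ x, hh (Aᵀ *ᵥ σ z x) ∂(ν z) = 0 := by
    have hae : ∀ᵐ x ∂(ν z), hh (Aᵀ *ᵥ σ z x) = 0 := by
      have h1 : ∀ᵐ x ∂(ν z), ¬ (TT ν σ p D m z0 z a0 x ≠ 0 ∧ MvPolynomial.eval
          (fun j => TT ν σ p D m z0 z (a j) x / TT ν σ p D m z0 z a0 x) P ≠ 0) := by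
        rw [ae_iff]
        simpa only [not_not] using hz
      filter_upwards [h1] with x hx
      rw [hhh, Set.indicator_of_notMem]
      intro h2
      exact hx ((hset x).1 h2)
    rw [lintegral_congr_ae hae, lintegral_zero]
  rw [hRHS] at heq
  have hm0 : Measurable fun x => hh (σ z0 x) := hhm.comp (hσ z0)
  rw [lintegral_eq_zero_iff hm0] at heq
  have h5 : ∀ᵐ x ∂(ν z0), ¬ (TT ν σ p D m z0 z0 a0 x ≠ 0 ∧ MvPolynomial.eval
      (fun j => TT ν σ p D m z0 z0 (a j) x / TT ν σ p D m z0 z0 a0 x) P ≠ 0) := by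
    filter_upwards [heq] with x hx hx2
    have hmem : σ z0 x ∈ E := by
      rw [hE]
      simpa only [Set.mem_ofPred_eq, hN0, hN, TT] using hx2
    have h6 : hh (σ z0 x) = 0 := hx
    rw [hhh, Set.indicator_of_mem hmem, ENNReal.ofReal_eq_zero] at h6
    have h7 : σ z0 x ≠ 0 := by
      intro h8
      have h9 := hscale0 0 (σ z0 x)
      rw [zero_pow hk0, zero_mul] at h9
      have h10 : (fun i => (0 : ℂ) * σ z0 x i) = σ z0 x := by rw [h8]; ext i; simp
      rw [h10] at h9
      exact hmem.1 h9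
    have h11 : 0 < ‖σ z0 x‖ ^ p := Real.rpow_pos_of_pos (norm_pos_iff.2 h7) p
    linarith
  rw [ae_iff] at h5
  simpa only [not_not] using h5

open MvPolynomial in
/-- **existence of independent flat sections.**  `B0` = regular functions on the fibre over `z0`. -/
theorem exists_indep [∀ z, SFinite (ν z)] (h : Dat (PHI ν σ p) D m z0) (hp : 0 < p) (hp2 : p < 2)
    (hσ : ∀ z, Measurable (σ z)) (hfin : ∀ a, PHI ν σ p z0 a ≠ ∞)
    {B0 E : Type*} [CommRing B0] [Algebra ℂ B0] [Field E] [Algebra ℂ E] (iE : B0 →ₐ[ℂ] E)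
    (hiE : Function.Injective iE) (ev : X z0 → (B0 →ₐ[ℂ] ℂ))
    (hev : ∀ b : B0, b ≠ 0 → ν z0 {x | ev x b ≠ 0} ≠ 0) (σB : Fin s → B0)
    (hσB : ∀ x i, ev x (σB i) = σ z0 x i) {d : ℕ} (i0 : Fin s) (ι : Fin d → Fin s)
    (hind : AlgebraicIndependent ℂ (fun j => iE (σB (ι j)) / iE (σB i0)))
    {a0 : Fin s → ℂ} (ha0 : a0 ≠ 0) :
    ∃ a : Fin d → Fin s → ℂ, (∀ j, a j ≠ 0) ∧ ∀ z, IndAt ν σ p D m z0 a0 a z := by
  classical
  set σE : Fin s → E := fun i => iE (σB i) with hσE
  have hlin : LinearIndependent ℂ σE := by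
    rw [Fintype.linearIndependent_iff]
    intro v hv
    have h1 : ∑ i, v i • σB i = 0 := by
      apply hiE
      rw [map_zero, map_sum]
      simpa only [map_smul] using hv
    have h2 : v = 0 := by
      apply h.pos z0
      rw [PHI_zero hp]
      unfold PHI
      refine (lintegral_congr fun x => ?_).trans lintegral_zero
      have h3 := congrArg (ev x) h1
      rw [map_zero, map_sum] at h3
      simp only [map_smul, smul_eq_mul, hσB] at h3
      rw [h3]
      simp [Real.zero_rpow hp.ne']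
    intro i
    rw [h2]
    rfl
  set 𝒜 := (h.finite z0).toFinset with h𝒜
  have hAne : 𝒜.Nonempty := ⟨1, (h.finite z0).mem_toFinset.2 (one_mem h)⟩
  have hAdet : ∀ A ∈ 𝒜, IsUnit A.det := fun A hA =>
    (Is.det_ne h.toNm ((h.finite z0).mem_toFinset.1 hA).1).isUnit
  obtain ⟨a, ha, hai⟩ := FlatI_464.norm_indep hlin hAne hAdet i0 ι hind ha0
  refine ⟨a, ha, fun z => indAt_of h hp hp2 hσ hfin ?_ z⟩
  -- independence at `z0`
  set NB : (Fin s → ℂ) → B0 := fun b => ∏ A ∈ 𝒜, ∑ i, algebraMap ℂ B0 ((A *ᵥ b) i) * σB i with hNB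
  have hNBE : ∀ b, iE (NB b) = FlatI_464.N σE 𝒜 b := by
    intro b
    simp only [hNB, map_prod, map_sum, map_mul, AlgHom.commutes, FlatI_464.N, FlatI_464.ln, hσE]
  have hNBx : ∀ b x, ev x (NB b) = TT ν σ p D m z0 z0 b x := by
    intro b x
    rw [TT_eq h]
    simp only [hNB, map_prod, map_sum, map_mul, AlgHom.commutes, hσB]
    rfl
  intro P hP
  set M := P.totalDegree with hM
  set b : B0 := NB a0 * EndInd_870.hz (algebraMap ℂ B0) M (NB a0) (fun j => NB (a j)) P with hb
  have hN0 : iE (NB a0) ≠ 0 := by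
    rw [hNBE]
    exact FlatI_464.N_ne hlin hAdet ha0
  have hbE : iE b ≠ 0 := by
    rw [hb, map_mul]
    refine mul_ne_zero hN0 ?_
    have h1 := EndInd_870.map_hz (φ := (iE : B0 →+* E)) (algebraMap ℂ B0) M (NB a0)
      (fun j => NB (a j)) P
    have h2 : iE (EndInd_870.hz (algebraMap ℂ B0) M (NB a0) (fun j => NB (a j)) P) =
        (iE : B0 →+* E) (EndInd_870.hz (algebraMap ℂ B0) M (NB a0) (fun j => NB (a j)) P) := rfl
    rw [h2, h1, EndInd_870.hz_eq _ (by exact hN0) _ (le_refl _)]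
    refine mul_ne_zero (pow_ne_zero _ hN0) ?_
    have h3 : ((iE : B0 →+* E).comp (algebraMap ℂ B0)) = algebraMap ℂ E := by
      ext c; simp
    have h4 : (fun i => (iE : B0 →+* E) (NB (a i)) / (iE : B0 →+* E) (NB a0)) =
        fun j => FlatI_464.N σE 𝒜 (a j) / FlatI_464.N σE 𝒜 a0 := by
      funext j
      rw [← hNBE, ← hNBE]; rfl
    rw [h3, h4]
    intro h5
    apply hP
    exact hai.eq_zero_of_aeval_eq_zero P h5
  have hb0 : b ≠ 0 := by
    rintro h1
    rw [h1, map_zero] at hbE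
    exact hbE rfl
  have hmeas := hev b hb0
  refine fun h0 => hmeas (measure_mono_null (fun x hx => ?_) h0)
  have hx' : ev x b ≠ 0 := hx
  rw [hb, map_mul] at hx'
  have hx1 : ev x (NB a0) ≠ 0 := left_ne_zero_of_mul hx'
  have hx2 := right_ne_zero_of_mul hx'
  refine ⟨by rw [← hNBx]; exact hx1, ?_⟩
  have h1 := EndInd_870.map_hz (φ := (ev x : B0 →+* ℂ)) (algebraMap ℂ B0) M (NB a0)
      (fun j => NB (a j)) P
  have h2 : ev x (EndInd_870.hz (algebraMap ℂ B0) M (NB a0) (fun j => NB (a j)) P) =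
      (ev x : B0 →+* ℂ) (EndInd_870.hz (algebraMap ℂ B0) M (NB a0) (fun j => NB (a j)) P) := rfl
  rw [h2, h1, EndInd_870.hz_eq _ (by exact hx1) _ (le_refl _)] at hx2
  have h3 := right_ne_zero_of_mul hx2
  have h4 : ((ev x : B0 →+* ℂ).comp (algebraMap ℂ B0)) = RingHom.id ℂ := by
    ext c; simp
  have h5 : (fun i => (ev x : B0 →+* ℂ) (NB (a i)) / (ev x : B0 →+* ℂ) (NB a0)) =
      fun j => TT ν σ p D m z0 z0 (a j) x / TT ν σ p D m z0 z0 a0 x := by
    funext j
    rw [← hNBx, ← hNBx]; rfl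
  rw [h4, h5] at h3
  exact h3

/-! ### the total space -/


end main

end Crest.Agent.R276.FlatN_464
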