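import Mathlib
import Crest.Agent.R276.Mod7_987
import Crest.Agent.R276.FlatN_464

-- ▼ part R276/Sat_210
section

/-!
# SAT, abstract half: saturated spaces

`u : Fin s → X → ℂ` finitely many measurable functions, `K x = ∑ ‖u i x‖²`, `0 < α < 1`.
For `g : X → ℂ` compare `IK g = ∫ ‖g‖² K^(-α)` with `IW g w = ∫ ‖g‖² ‖w‖^(-2α)`, `w = ∑ c_i u_i`.
-/

set_option autoImplicit false

open MeasureTheory
open scoped ENNReal NNReal

namespace Crest.Agent.R276.Sat_210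

section Disc

/-- the reference measure on `ℂ`: Lebesgue measure on the unit disc -/
noncomputable def nu1 : Measure ℂ := (volume : Measure ℂ).restrict (Metric.ball 0 1)

lemma nu1_univ : nu1 Set.univ = volume (Metric.ball (0 : ℂ) 1) := by
  unfold nu1
  simp

instance : IsFiniteMeasure nu1 := by
  refine ⟨?_⟩
  rw [nu1_univ]
  exact measure_ball_lt_top

lemma nu1_univ_ne_zero : nu1 Set.univ ≠ 0 := by
  rw [nu1_univ]
  exact (Metric.measure_ball_pos volume _ one_pos).ne'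

lemma integrableOn_norm_rpow {α : ℝ} (h1 : α < 1) :
    IntegrableOn (fun ξ : ℂ => ‖ξ‖ ^ (-2 * α)) (Metric.ball 0 1) volume := by
  set g : ℝ → ℝ := (Set.Iio (1:ℝ)).indicator (fun r => r ^ (-2 * α)) with hg
  have hgm : Measurable g := by
    refine Measurable.indicator ?_ measurableSet_Iio
    fun_prop
  have hint : Integrable (fun ξ : ℂ => g ‖ξ‖) := by
    rw [integrable_fun_norm_addHaar (volume : Measure ℂ) (f := g)]
    rw [Complex.finrank_real_complex]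
    have hsplit : Set.Ioi (0 : ℝ) = Set.Ioc 0 1 ∪ Set.Ioi 1 := by
      rw [Set.Ioc_union_Ioi_eq_Ioi zero_le_one]
    rw [hsplit]
    apply IntegrableOn.union
    · have h2 : IntegrableOn (fun y : ℝ => y ^ (1 - 2 * α)) (Set.Ioc 0 1) := by
        have := (intervalIntegral.intervalIntegrable_rpow' (a := 0) (b := 1) (r := 1 - 2 * α)
          (by linarith))
        rwa [intervalIntegrable_iff_integrableOn_Ioc_of_le zero_le_one] at this
      refine h2.mono' ?_ ?_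
      · refine Measurable.aestronglyMeasurable ?_
        simp only [smul_eq_mul]
        fun_prop
      · refine (ae_restrict_iff' measurableSet_Ioc).mpr (Filter.Eventually.of_forall ?_)
        intro y hy
        have hy0 : 0 < y := hy.1
        simp only [smul_eq_mul]
        by_cases h : y < 1
        · rw [hg, Set.indicator_of_mem (show y ∈ Set.Iio (1:ℝ) from h),
            Real.norm_of_nonneg (by positivity)]
          apply le_of_eq
          calc y ^ (2 - 1) * y ^ (-2 * α) = y ^ (1:ℝ) * y ^ (-2 * α) := by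
                rw [Real.rpow_one]; ring
            _ = y ^ (1 - 2 * α) := by
                rw [← Real.rpow_add hy0]; congr 1; ring
        · rw [hg, Set.indicator_of_notMem (show y ∉ Set.Iio (1:ℝ) from h)]
          simp only [mul_zero, norm_zero]
          positivity
    · refine (integrableOn_zero : IntegrableOn (fun _ : ℝ => (0 : ℝ)) (Set.Ioi 1) volume).congr_fun
        ?_ measurableSet_Ioi
      intro y hy
      have : y ∉ Set.Iio (1:ℝ) := by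
        simp only [Set.mem_Iio, not_lt]
        exact le_of_lt hy
      simp only [smul_eq_mul, hg]
      rw [Set.indicator_of_notMem this, mul_zero]
  rw [← integrable_indicator_iff Metric.isOpen_ball.measurableSet]
  refine hint.congr (Filter.Eventually.of_forall fun ξ => ?_)
  by_cases h : ‖ξ‖ < 1
  · have m1 : ξ ∈ Metric.ball (0 : ℂ) 1 := by simpa using h
    simp only [hg]
    rw [Set.indicator_of_mem m1, Set.indicator_of_mem (show ‖ξ‖ ∈ Set.Iio (1:ℝ) from h)]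
  · have m1 : ξ ∉ Metric.ball (0 : ℂ) 1 := by simpa using h
    simp only [hg]
    rw [Set.indicator_of_notMem m1, Set.indicator_of_notMem (show ‖ξ‖ ∉ Set.Iio (1:ℝ) from h)]

/-- the constant -/
noncomputable def M0 (α : ℝ) : ℝ≥0∞ :=
  (∫⁻ ξ in Metric.ball (0 : ℂ) 1, ‖ξ‖ₑ ^ (-2 * α)) + volume (Metric.ball (0 : ℂ) 1)

lemma M0_ne_top {α : ℝ} (h1 : α < 1) : M0 α ≠ ⊤ := by
  unfold M0
  refine ENNReal.add_ne_top.mpr ⟨?_, measure_ball_lt_top.ne⟩
  have key : ∫⁻ ξ in Metric.ball (0 : ℂ) 1, ENNReal.ofReal (‖ξ‖ ^ (-2 * α)) < ⊤ := by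
    have := (integrableOn_norm_rpow h1).hasFiniteIntegral
    rw [hasFiniteIntegral_iff_ofReal] at this
    · exact this
    · exact Filter.Eventually.of_forall fun ξ => by positivity
  refine ne_of_lt (lt_of_le_of_lt (le_of_eq ?_) key)
  refine lintegral_congr_ae ?_
  have h0 : ∀ᵐ ξ ∂((volume : Measure ℂ).restrict (Metric.ball 0 1)), ξ ≠ 0 := by
    refine ae_restrict_of_ae ?_
    rw [ae_iff]
    simp
  filter_upwards [h0] with ξ hξ
  rw [← ofReal_norm, ENNReal.ofReal_rpow_of_pos (norm_pos_iff.mpr hξ)]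

lemma M0_ne_zero (α : ℝ) : M0 α ≠ 0 := by
  unfold M0
  intro h
  have := (add_eq_zero.mp h).2
  exact (Metric.measure_ball_pos volume (0 : ℂ) one_pos).ne' this

lemma disc_bound {α : ℝ} (h0 : 0 ≤ α) (b : ℂ) :
    ∫⁻ ξ, ‖ξ + b‖ₑ ^ (-2 * α) ∂nu1 ≤ M0 α := by
  have hpt : ∀ ξ : ℂ, ‖ξ + b‖ₑ ^ (-2 * α) ≤
      (Metric.ball (0 : ℂ) 1).indicator (fun η => ‖η‖ₑ ^ (-2 * α)) (ξ + b) + 1 := by
    intro ξ
    by_cases h : ‖ξ + b‖ < 1
    · have m1 : ξ + b ∈ Metric.ball (0 : ℂ) 1 := by simpa using h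
      rw [Set.indicator_of_mem m1]
      exact le_self_add
    · have m1 : ξ + b ∉ Metric.ball (0 : ℂ) 1 := by simpa using h
      rw [Set.indicator_of_notMem m1, zero_add]
      have h2 : (1 : ℝ≥0∞) ≤ ‖ξ + b‖ₑ := by
        rw [← ofReal_norm, ← ENNReal.ofReal_one]
        exact ENNReal.ofReal_le_ofReal (not_lt.mp h)
      have h3 : -2 * α = -(2 * α) := by ring
      rw [h3, ENNReal.rpow_neg]
      refine ENNReal.inv_le_one.mpr ?_
      rcases eq_or_lt_of_le h0 with h | h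
      · rw [← h]; simp
      · exact ENNReal.one_le_rpow h2 (by positivity)
  have hm : Measurable (fun η : ℂ =>
      (Metric.ball (0 : ℂ) 1).indicator (fun η => ‖η‖ₑ ^ (-2 * α)) η) := by
    refine Measurable.indicator ?_ Metric.isOpen_ball.measurableSet
    fun_prop
  calc ∫⁻ ξ, ‖ξ + b‖ₑ ^ (-2 * α) ∂nu1
      ≤ ∫⁻ ξ, ((Metric.ball (0 : ℂ) 1).indicator (fun η => ‖η‖ₑ ^ (-2 * α)) (ξ + b) + 1) ∂nu1 :=
        lintegral_mono hpt
    _ = (∫⁻ ξ, (Metric.ball (0 : ℂ) 1).indicator (fun η => ‖η‖ₑ ^ (-2 * α)) (ξ + b) ∂nu1) +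
        volume (Metric.ball (0 : ℂ) 1) := by
        rw [lintegral_add_right _ measurable_const, lintegral_const, one_mul, nu1_univ]
    _ ≤ M0 α := by
        unfold M0
        refine add_le_add_left ?_ _
        calc ∫⁻ ξ, (Metric.ball (0 : ℂ) 1).indicator (fun η => ‖η‖ₑ ^ (-2 * α)) (ξ + b) ∂nu1
            ≤ ∫⁻ ξ, (Metric.ball (0 : ℂ) 1).indicator (fun η => ‖η‖ₑ ^ (-2 * α)) (ξ + b) := by
              unfold nu1
              exact setLIntegral_le_lintegral _ _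
          _ = ∫⁻ ξ, (Metric.ball (0 : ℂ) 1).indicator (fun η => ‖η‖ₑ ^ (-2 * α)) ξ :=
              lintegral_add_right_eq_self
                (fun ξ => (Metric.ball (0 : ℂ) 1).indicator (fun η => ‖η‖ₑ ^ (-2 * α)) ξ) b
          _ = _ := lintegral_indicator Metric.isOpen_ball.measurableSet _

lemma disc_bound' {α : ℝ} (h0 : 0 ≤ α) {v : ℂ} (hv : v ≠ 0) (w : ℂ) :
    ∫⁻ ξ, ‖ξ * v + w‖ₑ ^ (-2 * α) ∂nu1 ≤ ‖v‖ₑ ^ (-2 * α) * M0 α := by
  have h1 : ∀ ξ : ℂ, ‖ξ * v + w‖ₑ ^ (-2 * α) = ‖v‖ₑ ^ (-2 * α) * ‖ξ + w / v‖ₑ ^ (-2 * α) := by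
    intro ξ
    rw [← ENNReal.mul_rpow_of_ne_top enorm_ne_top enorm_ne_top, ← enorm_mul]
    congr 2
    field_simp
  rw [lintegral_congr h1, lintegral_const_mul _ (by fun_prop)]
  gcongr
  exact disc_bound h0 _

end Disc

section Avg

variable {s : ℕ}

/-- Lebesgue measure on the unit polydisc -/
noncomputable abbrev nuP (s : ℕ) : Measure (Fin s → ℂ) := Measure.pi fun _ => nu1

lemma nuP_ne_zero (s : ℕ) : nuP s ≠ 0 := by
  intro h
  have h1 : nuP s Set.univ = 0 := by rw [h]; simp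
  rw [Measure.pi_univ] at h1
  rw [Finset.prod_eq_zero_iff] at h1
  obtain ⟨i, -, hi⟩ := h1
  exact nu1_univ_ne_zero hi

lemma nuP_ac (s : ℕ) : nuP s ≪ (volume : Measure (Fin s → ℂ)) := by
  have : nuP s = (volume : Measure (Fin s → ℂ)).restrict (Set.univ.pi fun _ => Metric.ball 0 1) := by
    rw [volume_pi, Measure.restrict_pi_pi]
    rfl
  rw [this]
  exact Measure.absolutelyContinuous_of_le Measure.restrict_le_self

/-- the averaging constant -/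
noncomputable def CA (s : ℕ) (α : ℝ) : ℝ≥0∞ :=
  M0 α * (nu1 Set.univ) ^ (s - 1) * (s : ℝ≥0∞) ^ α + M0 α

lemma CA_ne_top (s : ℕ) {α : ℝ} (h0 : 0 ≤ α) (h1 : α < 1) : CA s α ≠ ⊤ := by
  unfold CA
  refine ENNReal.add_ne_top.mpr ⟨ENNReal.mul_ne_top (ENNReal.mul_ne_top (M0_ne_top h1) ?_) ?_,
    M0_ne_top h1⟩
  · exact ENNReal.pow_ne_top (measure_ne_top _ _)
  · exact ENNReal.rpow_ne_top_of_nonneg h0 (ENNReal.natCast_ne_top s)

lemma CA_ne_zero (s : ℕ) (α : ℝ) : CA s α ≠ 0 := by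
  unfold CA
  intro h
  exact M0_ne_zero α (add_eq_zero.mp h).2

/-- **Averaging**: the average of `‖c·v‖^(-2α)` over the polydisc is `≤ C |v|^(-2α)`. -/
theorem avg_le {α : ℝ} (h0 : 0 < α) (v : Fin s → ℂ) :
    ∫⁻ c, ‖∑ i, c i * v i‖ₑ ^ (-2 * α) ∂(nuP s) ≤
      CA s α * (∑ i, ‖v i‖ₑ ^ (2:ℝ)) ^ (-α) := by
  by_cases hv : v = 0
  · have : (∑ i, ‖v i‖ₑ ^ (2:ℝ)) ^ (-α) = ⊤ := by
      rw [hv]
      simp only [Pi.zero_apply, enorm_zero]
      rw [ENNReal.zero_rpow_of_pos (by norm_num), Finset.sum_const_zero,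
        ENNReal.zero_rpow_of_neg (by linarith)]
    rw [this, ENNReal.mul_top (CA_ne_zero s α)]
    exact le_top
  · -- pick the largest coordinate
    obtain ⟨i0, hi0⟩ : ∃ i, v i ≠ 0 := by
      by_contra hcon
      apply hv
      funext i
      by_contra hne
      exact hcon ⟨i, hne⟩
    obtain ⟨n, rfl⟩ : ∃ n, s = n + 1 := ⟨s - 1, by have := i0.2; omega⟩
    obtain ⟨j, -, hj⟩ := Finset.exists_max_image Finset.univ (fun i => ‖v i‖ₑ)
      ⟨i0, Finset.mem_univ _⟩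
    have hvj : v j ≠ 0 := by
      intro h
      have := hj i0 (Finset.mem_univ _)
      rw [h, enorm_zero] at this
      exact hi0 (enorm_eq_zero.mp (le_antisymm this bot_le))
    have hmp := measurePreserving_piFinSuccAbove (fun _ : Fin (n + 1) => nu1) j
    have e1 : ∫⁻ c, ‖∑ i, c i * v i‖ₑ ^ (-2 * α) ∂(nuP (n + 1)) =
        ∫⁻ q : ℂ × (Fin n → ℂ), ‖q.1 * v j + ∑ i, q.2 i * v (j.succAbove i)‖ₑ ^ (-2 * α)
          ∂(nu1.prod (Measure.pi fun _ => nu1)) := by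
      rw [← hmp.lintegral_comp (by fun_prop)]
      refine lintegral_congr fun c => ?_
      congr 2
      rw [Fin.sum_univ_succAbove _ j]
      rfl
    rw [e1, lintegral_prod_symm' _ (by fun_prop)]
    have e2 : ∀ y : Fin n → ℂ, ∫⁻ ξ, ‖ξ * v j + ∑ i, y i * v (j.succAbove i)‖ₑ ^ (-2 * α) ∂nu1 ≤
        ‖v j‖ₑ ^ (-2 * α) * M0 α := fun y => disc_bound' h0.le hvj _
    refine (lintegral_mono e2).trans ?_
    rw [lintegral_const, Measure.pi_univ]
    simp only [Finset.prod_const, Finset.card_univ, Fintype.card_fin]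
    have e3 : ‖v j‖ₑ ^ (-2 * α) ≤ ((n + 1 : ℕ) : ℝ≥0∞) ^ α * (∑ i, ‖v i‖ₑ ^ (2:ℝ)) ^ (-α) := by
      have hsum : (∑ i, ‖v i‖ₑ ^ (2:ℝ)) ≤ ((n + 1 : ℕ) : ℝ≥0∞) * ‖v j‖ₑ ^ (2:ℝ) := by
        have := Finset.sum_le_card_nsmul Finset.univ (fun i => ‖v i‖ₑ ^ (2:ℝ)) (‖v j‖ₑ ^ (2:ℝ))
          (fun i hi => ENNReal.rpow_le_rpow (hj i hi) (by norm_num))
        simpa [nsmul_eq_mul] using this
      have hn0 : ((n + 1 : ℕ) : ℝ≥0∞) ≠ 0 := by
        exact_mod_cast Nat.succ_ne_zero n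
      have h4 : (((n + 1 : ℕ) : ℝ≥0∞) * ‖v j‖ₑ ^ (2:ℝ)) ^ (-α) ≤
          (∑ i, ‖v i‖ₑ ^ (2:ℝ)) ^ (-α) := by
        rw [ENNReal.rpow_neg, ENNReal.rpow_neg]
        exact ENNReal.inv_le_inv.mpr (ENNReal.rpow_le_rpow hsum h0.le)
      calc ‖v j‖ₑ ^ (-2 * α) = (‖v j‖ₑ ^ (2:ℝ)) ^ (-α) := by
            rw [← ENNReal.rpow_mul]; congr 1; ring
        _ = ((n + 1 : ℕ) : ℝ≥0∞) ^ α *
            (((n + 1 : ℕ) : ℝ≥0∞) ^ (-α) * (‖v j‖ₑ ^ (2:ℝ)) ^ (-α)) := by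
            rw [← mul_assoc, ← ENNReal.rpow_add _ _ hn0 (ENNReal.natCast_ne_top _)]
            simp
        _ = ((n + 1 : ℕ) : ℝ≥0∞) ^ α * (((n + 1 : ℕ) : ℝ≥0∞) * ‖v j‖ₑ ^ (2:ℝ)) ^ (-α) := by
            rw [ENNReal.mul_rpow_of_ne_top (ENNReal.natCast_ne_top _)
              (ENNReal.rpow_ne_top_of_nonneg (by norm_num) enorm_ne_top)]
        _ ≤ _ := by gcongr
    calc ‖v j‖ₑ ^ (-2 * α) * M0 α * nu1 Set.univ ^ n
        ≤ (((n + 1 : ℕ) : ℝ≥0∞) ^ α * (∑ i, ‖v i‖ₑ ^ (2:ℝ)) ^ (-α)) * M0 α *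
          nu1 Set.univ ^ n := by gcongr
      _ = (M0 α * (nu1 Set.univ) ^ ((n + 1) - 1) * ((n + 1 : ℕ) : ℝ≥0∞) ^ α) *
          (∑ i, ‖v i‖ₑ ^ (2:ℝ)) ^ (-α) := by
            rw [Nat.add_sub_cancel]; ring
      _ ≤ CA (n + 1) α * (∑ i, ‖v i‖ₑ ^ (2:ℝ)) ^ (-α) := by
            unfold CA
            gcongr
            exact le_self_add

end Avg

section Compare

variable {X : Type*} [MeasurableSpace X] {s : ℕ}

/-- `∫ ‖g‖² ‖w‖^(-2α)` -/
noncomputable def IW (μ : Measure X) (α : ℝ) (g w : X → ℂ) : ℝ≥0∞ :=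
  ∫⁻ x, ‖g x‖ₑ ^ (2:ℝ) * ‖w x‖ₑ ^ (-2 * α) ∂μ

/-- `K = ∑ ‖u i‖²` -/
noncomputable def KK (u : Fin s → X → ℂ) (x : X) : ℝ≥0∞ := ∑ i, ‖u i x‖ₑ ^ (2:ℝ)

/-- `∫ ‖g‖² K^(-α)` -/
noncomputable def IK (μ : Measure X) (α : ℝ) (g : X → ℂ) (u : Fin s → X → ℂ) : ℝ≥0∞ :=
  ∫⁻ x, ‖g x‖ₑ ^ (2:ℝ) * KK u x ^ (-α) ∂μ

lemma meas_KK {u : Fin s → X → ℂ} (hu : ∀ i, Measurable (u i)) : Measurable (KK u) := by
  unfold KK
  fun_prop

omit [MeasurableSpace X] in
lemma KK_ne_top (u : Fin s → X → ℂ) (x : X) : KK u x ≠ ⊤ := by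
  unfold KK
  exact ENNReal.sum_ne_top.mpr fun i _ => ENNReal.rpow_ne_top_of_nonneg (by norm_num) enorm_ne_top



/-- average of `IW g (c·u)` over `c` -/
theorem avg_IW_le {μ : Measure X} [SFinite μ] {α : ℝ} (h0 : 0 < α) {g : X → ℂ}
    (hg : Measurable g) {u : Fin s → X → ℂ} (hu : ∀ i, Measurable (u i)) :
    ∫⁻ c, IW μ α g (fun x => ∑ i, c i * u i x) ∂(nuP s) ≤ CA s α * IK μ α g u := by
  unfold IW IK
  have hm : Measurable (Function.uncurry fun (c : Fin s → ℂ) (x : X) =>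
      ‖g x‖ₑ ^ (2:ℝ) * ‖∑ i, c i * u i x‖ₑ ^ (-2 * α)) := by
    simp only [Function.uncurry_def]
    fun_prop
  rw [lintegral_lintegral_swap hm.aemeasurable]
  have hmr : Measurable (fun x => ‖g x‖ₑ ^ (2:ℝ) * KK u x ^ (-α)) := by
    have := meas_KK hu
    fun_prop
  rw [← lintegral_const_mul _ hmr]
  refine lintegral_mono fun x => ?_
  rw [lintegral_const_mul _ (by fun_prop)]
  calc ‖g x‖ₑ ^ (2:ℝ) * ∫⁻ c, ‖∑ i, c i * u i x‖ₑ ^ (-2 * α) ∂(nuP s)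
      ≤ ‖g x‖ₑ ^ (2:ℝ) * (CA s α * KK u x ^ (-α)) := by
        gcongr
        exact avg_le h0 (fun i => u i x)
    _ = _ := by ring

/-- `E ⊂ E_w` for almost every `w` -/
theorem ae_IW_ne_top {μ : Measure X} [SFinite μ] {α : ℝ} (h0 : 0 < α) (h1 : α < 1) {g : X → ℂ}
    (hg : Measurable g) {u : Fin s → X → ℂ} (hu : ∀ i, Measurable (u i)) (hI : IK μ α g u ≠ ⊤) :
    ∀ᵐ c ∂(nuP s), IW μ α g (fun x => ∑ i, c i * u i x) ≠ ⊤ := by
  have hm : Measurable (fun c : Fin s → ℂ => IW μ α g (fun x => ∑ i, c i * u i x)) := by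
    unfold IW
    refine Measurable.lintegral_prod_right (f := fun (c : Fin s → ℂ) (x : X) =>
      ‖g x‖ₑ ^ (2:ℝ) * ‖∑ i, c i * u i x‖ₑ ^ (-2 * α)) ?_
    simp only [Function.uncurry_def]
    fun_prop
  have hfin : ∫⁻ c, IW μ α g (fun x => ∑ i, c i * u i x) ∂(nuP s) ≠ ⊤ :=
    ne_top_of_le_ne_top (ENNReal.mul_ne_top (CA_ne_top s h0.le h1) hI) (avg_IW_le h0 hg hu)
  filter_upwards [ae_lt_top hm hfin] with c hc using hc.ne

/-- the good set: a conull set of `c` meets the set where finitely many `g` are `w`-integrable -/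
theorem exists_good {μ : Measure X} [SFinite μ] {α : ℝ} (h0 : 0 < α) (h1 : α < 1) {κ : Type*}
    [Finite κ] {g : κ → X → ℂ} (hg : ∀ k, Measurable (g k)) {u : Fin s → X → ℂ}
    (hu : ∀ i, Measurable (u i)) (hI : ∀ k, IK μ α (g k) u ≠ ⊤) {U : Set (Fin s → ℂ)}
    (hU : volume Uᶜ = 0) :
    ∃ c ∈ U, ∀ k, IW μ α (g k) (fun x => ∑ i, c i * u i x) ≠ ⊤ := by
  have hae : ∀ᵐ c ∂(nuP s), c ∈ U := (nuP_ac s) hU
  have hall : ∀ᵐ c ∂(nuP s), ∀ k, IW μ α (g k) (fun x => ∑ i, c i * u i x) ≠ ⊤ :=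
    ae_all_iff.mpr fun k => ae_IW_ne_top h0 h1 (hg k) hu (hI k)
  have hne : (ae (nuP s)).NeBot := ae_neBot.mpr (nuP_ne_zero s)
  obtain ⟨c, hc⟩ := (hae.and hall).exists
  exact ⟨c, hc.1, hc.2⟩

/-- `Φ` -/
noncomputable def PHI (μ : Measure X) (p : ℝ) (g : X → ℂ) : ℝ≥0∞ := ∫⁻ x, ‖g x‖ₑ ^ p ∂μ




/-- `V ⊂ E` -/
theorem IK_self_le {μ : Measure X} {α : ℝ} {u : Fin s → X → ℂ} (j : Fin s) :
    IK μ α (u j) u ≤ ∫⁻ x, KK u x ^ (1 - α) ∂μ := by
  unfold IK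
  refine lintegral_mono fun x => ?_
  have hle : ‖u j x‖ₑ ^ (2:ℝ) ≤ KK u x := by
    unfold KK
    exact Finset.single_le_sum (f := fun i => ‖u i x‖ₑ ^ (2:ℝ)) (fun i _ => zero_le)
      (Finset.mem_univ j)
  by_cases hK : KK u x = 0
  · have : ‖u j x‖ₑ ^ (2:ℝ) = 0 := le_antisymm (hle.trans hK.le) bot_le
    rw [this, zero_mul]
    exact bot_le
  · calc ‖u j x‖ₑ ^ (2:ℝ) * KK u x ^ (-α) ≤ KK u x ^ (1:ℝ) * KK u x ^ (-α) := by
          rw [ENNReal.rpow_one]; gcongr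
      _ = KK u x ^ (1 - α) := by
          rw [← ENNReal.rpow_add _ _ hK (KK_ne_top u x)]; congr 1



end Compare

section Spaces

variable {X : Type*} [MeasurableSpace X] {s : ℕ}





variable (μ : Measure X) (α : ℝ) (H : Submodule ℂ (X → ℂ)) (hH : ∀ g ∈ H, Measurable g)





variable {μ α H hH}









end Spaces

section Cont



end Cont

end Crest.Agent.R276.Sat_210
end

-- ▼ part R276/FlatDefs_236

/-!
# Row 276 (S0419): saturated families and flat families (helper236, leaf RESTR)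

For a relative model `R : RMdl L K m r` and `u : Fin s → R.MK.B`:
* `nu R w` : the Lebesgue measure of the fibre `R.Fib w`;
* `sg u w y = (u₁(y), …, u_s(y))`, `Phi N u w a = ∫_{Fib w} |∑ aᵢ uᵢ|^{2/N}`,
  `DN N u w = ∫_{(Fib w)^s} |det uᵢ(y_j)|^{2/N}` (464's `PHI`, `DD`);
* `SatFam R N u` : output of SAT (210) for ALL points of `ML`;
* `FlatFam R N u f M` : `SatFam` together with (FL): `f` holomorphic without zeros,
  `|f w|² = D(w)^M` (574).
-/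

set_option autoImplicit false
set_option linter.unusedSectionVars false

open Set Filter Topology MeasureTheory
open scoped ENNReal

noncomputable section

namespace Crest.Agent.R276.FlatDefs_236

open Crest.Agent.R271 Crest.Agent.R271.Ho51 Crest.Agent.R271.Rd692
open Crest.Agent.R276.Mod1_987 Crest.Agent.R276.FlatM_464
open Crest.Agent.R276.Sat_210 (IK IW)

variable {L K : Type} [Field L] [Field K] [Algebra ℂ L] [Algebra ℂ K] [Algebra L K]
  [IsScalarTower ℂ L K] {m r : ℕ}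

section data

variable (R : RMdl L K m r)

/-- Lebesgue measure of the fibre -/
def nu (w : R.ML.Pts) : Measure (R.Fib w) := (exists_leb (M := R.Fib w)).choose

lemma nu_leb (w : R.ML.Pts) : IsLeb (nu R w) := (exists_leb (M := R.Fib w)).choose_spec

variable {R} {s : ℕ}

/-- the sections `uᵢ` on the fibre over `w` -/
def sg (u : Fin s → R.MK.B) (w : R.ML.Pts) (y : R.Fib w) : Fin s → ℂ := fun i => (y.val : R.MK.B →ₐ[ℂ] ℂ) (u i)

/-- `Φ(w, a) = ∫_{Fib w} |∑ aᵢ uᵢ|^{2/N}` -/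
abbrev Phi (N : ℕ) (u : Fin s → R.MK.B) (w : R.ML.Pts) (a : Fin s → ℂ) : ℝ≥0∞ :=
  PHI (nu R) (sg u) (2 / (N : ℝ)) w a

/-- `D(w) = ∫_{(Fib w)^s} |det uᵢ(y_j)|^{2/N}` -/
abbrev DN (N : ℕ) (u : Fin s → R.MK.B) (w : R.ML.Pts) : ℝ≥0∞ :=
  DD (nu R) (sg u) (2 / (N : ℝ)) w

/-- OUTPUT OF SAT (210), for every point `w` of `ML`. -/
structure SatFam (R : RMdl L K m r) (N : ℕ) {s : ℕ} (u : Fin s → R.MK.B) : Prop where
  N_even : Even N
  N_ge : 4 ≤ N
  s_pos : 0 < s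
  /-- the fibres are nonempty and connected -/
  conn : ∀ w : R.ML.Pts, ConnectedSpace (R.Fib w)
  /-- (S1) -/
  indep : ∀ (w : R.ML.Pts) (a : Fin s → ℂ), (∀ y : R.Fib w, ∑ i, a i * sg u w y i = 0) → a = 0
  /-- (S2) -/
  fin : ∀ (w : R.ML.Pts) (a : Fin s → ℂ), Phi N u w a ≠ ∞
  cont : Continuous fun p : R.ML.Pts × (Fin s → ℂ) => Phi N u p.1 p.2
  /-- (Cl) = (S4) = (S5): `f` holomorphic on the fibre with
  `∫ |f|² (∑ |uᵢ|²)^{-(N-1)/N} < ∞` is a combination of the `uᵢ` -/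
  clos : ∀ (w : R.ML.Pts) (f : R.Fib w → ℂ), Hol f →
    IK (nu R w) (((N : ℝ) - 1) / N) f (fun i y => sg u w y i) ≠ ∞ →
    ∃ b : Fin s → ℂ, ∀ y : R.Fib w, f y = ∑ i, b i * sg u w y i
  D_pos : ∀ w : R.ML.Pts, 0 < DN N u w
  D_fin : ∀ w : R.ML.Pts, DN N u w ≠ ∞
  D_cont : Continuous fun w : R.ML.Pts => DN N u w

/-- FLAT FAMILY: a saturated family with (FL): the CY line is flat. -/
structure FlatFam (R : RMdl L K m r) (N : ℕ) {s : ℕ} (u : Fin s → R.MK.B)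
    (f : R.ML.Pts → ℂ) (M : ℕ) : Prop extends SatFam R N u where
  M_pos : 0 < M
  hol : Hol f
  ne : ∀ w, f w ≠ 0
  eq : ∀ w, ‖f w‖ ^ 2 = (DN N u w).toReal ^ M

end data

end Crest.Agent.R276.FlatDefs_236
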