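import Mathlib
import Crest.Agent.R276.Nil_840

-- ▼ part R276/Aue_999
section

/-!
# Auerbach bases for quasi-norms and the bound of the Bergman mass (helper999, row 276)

Formalism independent leaf of LEMMA N (post 835), step (N0).
-/

set_option linter.unusedSectionVars false

namespace Crest.Agent.R276.Aue_999

open MeasureTheory Module
open scoped ENNReal

section aue

variable {V : Type*} [NormedAddCommGroup V] [NormedSpace ℂ V] [FiniteDimensional ℂ V]

/-- lower bound of a positive continuous homogeneous function -/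
theorem exists_lower (q : V → ℝ) (hq : Continuous q) (hpos : ∀ v, v ≠ 0 → 0 < q v)
    (α : ℝ) (hα : 0 < α) (hhom : ∀ (c : ℂ) (v : V), q (c • v) = ‖c‖ ^ α * q v) :
    ∃ m : ℝ, 0 < m ∧ ∀ v, m * ‖v‖ ^ α ≤ q v := by
  have hq0 : q 0 = 0 := by
    have := hhom 0 0
    simpa [Real.zero_rpow hα.ne'] using this
  have : ProperSpace V := FiniteDimensional.proper ℂ V
  by_cases hne : (Metric.sphere (0 : V) 1).Nonempty
  · obtain ⟨v0, hv0, hmin⟩ := (isCompact_sphere (0 : V) 1).exists_isMinOn hne hq.continuousOn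
    have hv0' : v0 ≠ 0 := by
      intro h
      rw [h] at hv0
      simp at hv0
    refine ⟨q v0, hpos v0 hv0', fun v => ?_⟩
    by_cases hv : v = 0
    · simp [hv, hq0, Real.zero_rpow hα.ne']
    · have hnv : 0 < ‖v‖ := norm_pos_iff.mpr hv
      have hmem : ((‖v‖⁻¹ : ℝ) : ℂ) • v ∈ Metric.sphere (0 : V) 1 := by
        simp [norm_smul, hnv.ne']
      have h1 := hmin hmem
      have h2 : q v = ‖v‖ ^ α * q (((‖v‖⁻¹ : ℝ) : ℂ) • v) := by
        rw [hhom]
        rw [← mul_assoc]
        have : ‖v‖ ^ α * ‖((‖v‖⁻¹ : ℝ) : ℂ)‖ ^ α = 1 := by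
          rw [← Real.mul_rpow (norm_nonneg _) (norm_nonneg _)]
          simp [hnv.ne']
        rw [this, one_mul]
      rw [h2, mul_comm]
      exact mul_le_mul_of_nonneg_left h1 (by positivity)
  · refine ⟨1, one_pos, fun v => ?_⟩
    have hv : v = 0 := by
      by_contra hv
      apply hne
      refine ⟨((‖v‖⁻¹ : ℝ) : ℂ) • v, ?_⟩
      have hnv : 0 < ‖v‖ := norm_pos_iff.mpr hv
      simp [norm_smul, hnv.ne']
    simp [hv, hq0, Real.zero_rpow hα.ne']

/-- the unit ball of a positive continuous homogeneous function is compact -/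
theorem isCompact_ball (q : V → ℝ) (hq : Continuous q) (hpos : ∀ v, v ≠ 0 → 0 < q v)
    (α : ℝ) (hα : 0 < α) (hhom : ∀ (c : ℂ) (v : V), q (c • v) = ‖c‖ ^ α * q v) :
    IsCompact {v | q v ≤ 1} := by
  have : ProperSpace V := FiniteDimensional.proper ℂ V
  obtain ⟨m, hm, hle⟩ := exists_lower q hq hpos α hα hhom
  refine Metric.isCompact_of_isClosed_isBounded (isClosed_le hq continuous_const) ?_
  refine (Metric.isBounded_closedBall (x := (0 : V)) (r := (1 / m) ^ (1 / α))).subset ?_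
  intro v hv
  have h1 : m * ‖v‖ ^ α ≤ 1 := (hle v).trans hv
  have h2 : ‖v‖ ^ α ≤ 1 / m := by
    rw [le_div_iff₀ hm]; linarith
  have h3 : (‖v‖ ^ α) ^ (1 / α) ≤ (1 / m) ^ (1 / α) :=
    Real.rpow_le_rpow (by positivity) h2 (by positivity)
  rw [← Real.rpow_mul (norm_nonneg _), mul_one_div_cancel hα.ne', Real.rpow_one] at h3
  simpa using h3

/-- AUERBACH BASIS for a continuous positive homogeneous function `q` (no convexity). -/
theorem exists_auerbach (q : V → ℝ) (hq : Continuous q) (hpos : ∀ v, v ≠ 0 → 0 < q v)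
    (α : ℝ) (hα : 0 < α) (hhom : ∀ (c : ℂ) (v : V), q (c • v) = ‖c‖ ^ α * q v) :
    ∃ b : Basis (Fin (finrank ℂ V)) ℂ V, (∀ i, q (b i) ≤ 1) ∧
      ∀ v, q v ≤ 1 → ∀ i, ‖b.repr v i‖ ≤ 1 := by
  classical
  set n := finrank ℂ V
  let e : Basis (Fin n) ℂ V := Module.finBasis ℂ V
  have hq0 : q 0 = 0 := by
    have := hhom 0 0
    simpa [Real.zero_rpow hα.ne'] using this
  have hK : IsCompact (Set.pi (Set.univ : Set (Fin n)) (fun _ => {v : V | q v ≤ 1})) :=
    isCompact_univ_pi (fun _ => isCompact_ball q hq hpos α hα hhom)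
  have hne : (Set.pi (Set.univ : Set (Fin n)) (fun _ => {v : V | q v ≤ 1})).Nonempty :=
    ⟨fun _ => 0, by intro i _; simp [hq0]⟩
  have hdet : Continuous (fun v : Fin n → V => ‖e.det v‖) := by
    apply Continuous.norm
    change Continuous (fun v : Fin n → V => Matrix.det (e.toMatrix v))
    apply Continuous.matrix_det
    apply continuous_matrix
    intro i j
    have h1 : (fun v : Fin n → V => e.toMatrix v i j) = fun v => e.coord i (v j) := by
      ext v; simp [Basis.toMatrix_apply]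
    rw [h1]
    exact (LinearMap.continuous_of_finiteDimensional (e.coord i)).comp (continuous_apply j)
  obtain ⟨b, hb, hmax⟩ := hK.exists_isMaxOn hne hdet.continuousOn
  have hbq : ∀ i, q (b i) ≤ 1 := fun i => hb i (Set.mem_univ i)
  -- the maximum is positive
  have hposdet : 0 < ‖e.det b‖ := by
    -- scaled basis
    obtain ⟨c, hc, hcq⟩ : ∃ c : ℝ, 0 < c ∧ ∀ i, q ((c : ℂ) • e i) ≤ 1 := by
      have hfin : ∃ M : ℝ, 0 < M ∧ ∀ i, q (e i) ≤ M := by
        refine ⟨1 + ∑ i, |q (e i)|, by positivity, fun i => ?_⟩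
        have := Finset.single_le_sum (f := fun i => |q (e i)|) (fun i _ => abs_nonneg _)
          (Finset.mem_univ i)
        have h2 := le_abs_self (q (e i))
        linarith
      obtain ⟨M, hM, hMle⟩ := hfin
      refine ⟨(1 / M) ^ (1 / α), by positivity, fun i => ?_⟩
      rw [hhom]
      have h1 : ‖(((1 / M) ^ (1 / α) : ℝ) : ℂ)‖ ^ α = 1 / M := by
        rw [Complex.norm_real, Real.norm_of_nonneg (by positivity),
          ← Real.rpow_mul (by positivity), one_div_mul_cancel hα.ne', Real.rpow_one]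
      rw [h1]
      have := hMle i
      rw [div_mul_eq_mul_div, one_mul, div_le_one hM]
      exact this
    have hmem : (fun i => (c : ℂ) • e i) ∈ Set.pi (Set.univ : Set (Fin n)) (fun _ => {v : V | q v ≤ 1}) :=
      fun i _ => hcq i
    have h1 := hmax hmem
    have h2 : ‖e.det (fun i => (c : ℂ) • e i)‖ = c ^ n := by
      have : e.det (fun i => (c : ℂ) • e i) = (∏ _i : Fin n, (c : ℂ)) • e.det e :=
        e.det.map_smul_univ (fun _ => (c : ℂ)) e
      rw [this, e.det_self]
      simp [abs_of_pos hc]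
    have h3 : c ^ n ≤ ‖e.det b‖ := by
      rw [← h2]; exact h1
    exact lt_of_lt_of_le (by positivity) h3
  have hdne : e.det b ≠ 0 := by
    intro h; rw [h] at hposdet; simp at hposdet
  obtain ⟨hli, hsp⟩ := (e.is_basis_iff_det (v := b)).mpr (IsUnit.mk0 _ hdne)
  refine ⟨Basis.mk hli hsp.ge, fun i => by simpa using hbq i, fun v hv i => ?_⟩
  have h1 := e.det_smul_mk_coord_eq_det_update hli hsp.ge i
  have h2 : e.det b * (Basis.mk hli hsp.ge).repr v i = e.det (Function.update b i v) := by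
    have := congrArg (fun f => f v) h1
    simpa using this
  have hmem : Function.update b i v ∈ Set.pi (Set.univ : Set (Fin n)) (fun _ => {v : V | q v ≤ 1}) := by
    intro j _
    by_cases hj : j = i
    · subst hj; simpa using hv
    · rw [Function.update_of_ne hj]
      exact hbq j
  have h3 : ‖e.det (Function.update b i v)‖ ≤ ‖e.det b‖ := hmax hmem
  rw [← h2, norm_mul] at h3
  exact le_of_mul_le_mul_left (by linarith) hposdet

end aue

/-! ## The norms `∫ |v|^α`, `0 < α ≤ 1` -/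

section pint

variable {X : Type*} [MeasurableSpace X] (μ : Measure X)
variable {V : Type*} [NormedAddCommGroup V] [NormedSpace ℂ V] [FiniteDimensional ℂ V]
variable (ev : X → V →ₗ[ℂ] ℂ) (α : ℝ)

/-- `p(v) = ∫ |v|^α` -/
noncomputable def pint (v : V) : ℝ≥0∞ := ∫⁻ x, ENNReal.ofReal (‖ev x v‖ ^ α) ∂μ

/-- real version of `p` -/
noncomputable def q (v : V) : ℝ := (pint μ ev α v).toReal

/-- standing hypotheses: measurable, finite, faithful -/
structure Good : Prop where
  α_pos : 0 < α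
  α_le : α ≤ 1
  meas : ∀ v, AEMeasurable (fun x => ev x v) μ
  fin : ∀ v, pint μ ev α v ≠ ⊤
  inj : ∀ v, pint μ ev α v = 0 → v = 0

variable {μ ev α}

theorem ofReal_q (h : Good μ ev α) (v : V) : ENNReal.ofReal (q μ ev α v) = pint μ ev α v :=
  ENNReal.ofReal_toReal (h.fin v)

theorem q_nonneg (v : V) : 0 ≤ q μ ev α v := ENNReal.toReal_nonneg

theorem q_pos (h : Good μ ev α) (v : V) (hv : v ≠ 0) : 0 < q μ ev α v := by
  refine lt_of_le_of_ne (q_nonneg v) (fun h0 => hv (h.inj v ?_))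
  rw [← ofReal_q h, ← h0]; simp

theorem aemeas (h : Good μ ev α) (v : V) :
    AEMeasurable (fun x => ENNReal.ofReal (‖ev x v‖ ^ α)) μ :=
  ENNReal.measurable_ofReal.comp_aemeasurable ((h.meas v).norm.pow_const α)

theorem pint_smul (h : Good μ ev α) (c : ℂ) (v : V) :
    pint μ ev α (c • v) = ENNReal.ofReal (‖c‖ ^ α) * pint μ ev α v := by
  unfold pint
  rw [← lintegral_const_mul'' _ (aemeas h v)]
  congr 1
  ext x
  rw [map_smul, norm_smul, Real.mul_rpow (norm_nonneg _) (norm_nonneg _),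
    ENNReal.ofReal_mul (by positivity)]

theorem q_smul (h : Good μ ev α) (c : ℂ) (v : V) :
    q μ ev α (c • v) = ‖c‖ ^ α * q μ ev α v := by
  unfold q
  rw [pint_smul h, ENNReal.toReal_mul, ENNReal.toReal_ofReal (by positivity)]

theorem rpow_add_le {a b : ℝ} (ha : 0 ≤ a) (hb : 0 ≤ b) (h0 : 0 < α) (h1 : α ≤ 1) :
    (a + b) ^ α ≤ a ^ α + b ^ α := Real.rpow_add_le_add_rpow ha hb h0.le h1

theorem pint_add_le (h : Good μ ev α) (u v : V) :
    pint μ ev α (u + v) ≤ pint μ ev α u + pint μ ev α v := by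
  unfold pint
  rw [← lintegral_add_left' (aemeas h u)]
  apply lintegral_mono
  intro x
  simp only
  rw [← ENNReal.ofReal_add (by positivity) (by positivity)]
  apply ENNReal.ofReal_le_ofReal
  rw [map_add]
  exact (Real.rpow_le_rpow (norm_nonneg _) (norm_add_le _ _) h.α_pos.le).trans
    (rpow_add_le (norm_nonneg _) (norm_nonneg _) h.α_pos h.α_le)

theorem q_add_le (h : Good μ ev α) (u v : V) :
    q μ ev α (u + v) ≤ q μ ev α u + q μ ev α v := by
  unfold q
  rw [← ENNReal.toReal_add (h.fin u) (h.fin v)]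
  exact ENNReal.toReal_mono (ENNReal.add_ne_top.mpr ⟨h.fin u, h.fin v⟩) (pint_add_le h u v)

theorem q_sum_le (h : Good μ ev α) {ι : Type*} (s : Finset ι) (f : ι → V) :
    q μ ev α (∑ i ∈ s, f i) ≤ ∑ i ∈ s, q μ ev α (f i) := by
  classical
  induction s using Finset.induction_on with
  | empty =>
      have : q μ ev α (0 : V) = 0 := by
        have := q_smul h 0 (0 : V)
        simpa [Real.zero_rpow h.α_pos.ne'] using this
      simp [this]
  | insert a s ha ih =>
      rw [Finset.sum_insert ha, Finset.sum_insert ha]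
      exact (q_add_le h _ _).trans (by linarith)

theorem q_continuous (h : Good μ ev α) : Continuous (q μ ev α) := by
  classical
  let e : Basis (Fin (finrank ℂ V)) ℂ V := Module.finBasis ℂ V
  -- bound near zero
  have hbd : ∀ w : V, q μ ev α w ≤ ∑ i, ‖e.coord i w‖ ^ α * q μ ev α (e i) := by
    intro w
    conv_lhs => rw [← e.sum_repr w]
    refine (q_sum_le h _ _).trans (Finset.sum_le_sum fun i _ => ?_)
    rw [q_smul h]
    simp
  have habs : ∀ u v : V, |q μ ev α u - q μ ev α v| ≤ q μ ev α (u - v) := by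
    intro u v
    rw [abs_sub_le_iff]
    constructor
    · have := q_add_le h (u - v) v
      rw [sub_add_cancel] at this; linarith
    · have := q_add_le h (v - u) u
      rw [sub_add_cancel] at this
      have h2 : q μ ev α (v - u) = q μ ev α (u - v) := by
        have := q_smul h (-1) (u - v)
        simpa using this
      linarith
  rw [continuous_iff_continuousAt]
  intro v
  rw [ContinuousAt, tendsto_iff_dist_tendsto_zero]
  have hg : Filter.Tendsto (fun u : V => ∑ i, ‖e.coord i (u - v)‖ ^ α * q μ ev α (e i))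
      (nhds v) (nhds 0) := by
    have hc : Continuous (fun u : V => ∑ i, ‖e.coord i (u - v)‖ ^ α * q μ ev α (e i)) := by
      apply continuous_finsetSum
      intro i _
      apply Continuous.mul _ continuous_const
      apply Continuous.rpow_const
      · exact ((LinearMap.continuous_of_finiteDimensional (e.coord i)).comp
          (continuous_id.sub continuous_const)).norm
      · intro u; right; exact h.α_pos.le
    have := hc.tendsto v
    simpa [Real.zero_rpow h.α_pos.ne'] using this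
  refine squeeze_zero (fun _ => dist_nonneg) (fun u => ?_) hg
  rw [Real.dist_eq]
  exact (habs u v).trans (hbd _)

/-- Auerbach basis for `p`. -/
theorem exists_basis (h : Good μ ev α) :
    ∃ b : Basis (Fin (finrank ℂ V)) ℂ V, (∀ i, q μ ev α (b i) ≤ 1) ∧
      ∀ v, q μ ev α v ≤ 1 → ∀ i, ‖b.repr v i‖ ≤ 1 :=
  exists_auerbach _ (q_continuous h) (q_pos h) α h.α_pos (q_smul h)

/-- the Bergman function is dominated by the Auerbach basis -/
theorem exists_basis_bound (h : Good μ ev α) :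
    ∃ b : Basis (Fin (finrank ℂ V)) ℂ V, (∀ i, q μ ev α (b i) ≤ 1) ∧
      ∀ x v, ‖ev x v‖ ^ α ≤ q μ ev α v * ∑ i, ‖ev x (b i)‖ ^ α := by
  obtain ⟨b, hb1, hb2⟩ := exists_basis h
  refine ⟨b, hb1, fun x v => ?_⟩
  by_cases hv : v = 0
  · have h1 : 0 ≤ q μ ev α v * ∑ i, ‖ev x (b i)‖ ^ α :=
      mul_nonneg (q_nonneg v) (Finset.sum_nonneg fun _ _ => by positivity)
    rw [hv] at h1 ⊢
    simpa [Real.zero_rpow h.α_pos.ne'] using h1
  have hq := q_pos h v hv
  set t : ℝ := (q μ ev α v) ^ (-(1 / α)) with ht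
  have ht0 : 0 < t := Real.rpow_pos_of_pos hq _
  have htα : t ^ α = (q μ ev α v)⁻¹ := by
    rw [ht, ← Real.rpow_mul hq.le, neg_mul, one_div_mul_cancel h.α_pos.ne', Real.rpow_neg_one]
  have hw : q μ ev α ((t : ℂ) • v) ≤ 1 := by
    rw [q_smul h, Complex.norm_real, Real.norm_of_nonneg ht0.le, htα]
    rw [inv_mul_cancel₀ hq.ne']
  have hc := hb2 _ hw
  have h1 : ‖ev x ((t : ℂ) • v)‖ ^ α ≤ ∑ i, ‖ev x (b i)‖ ^ α := by
    have hsum : ev x ((t : ℂ) • v) = ∑ i, b.repr ((t : ℂ) • v) i * ev x (b i) := by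
      conv_lhs => rw [← b.sum_repr ((t : ℂ) • v), map_sum]
      exact Finset.sum_congr rfl fun i _ => by rw [map_smul, smul_eq_mul]
    have h2 : ‖ev x ((t : ℂ) • v)‖ ≤ ∑ i, ‖ev x (b i)‖ := by
      rw [hsum]
      refine (norm_sum_le _ _).trans (Finset.sum_le_sum fun i _ => ?_)
      rw [norm_mul]
      have := hc i
      have h3 := norm_nonneg (ev x (b i))
      nlinarith
    refine (Real.rpow_le_rpow (norm_nonneg _) h2 h.α_pos.le).trans ?_
    have : ∀ s : Finset (Fin (finrank ℂ V)), (∑ i ∈ s, ‖ev x (b i)‖) ^ α ≤ ∑ i ∈ s, ‖ev x (b i)‖ ^ α := by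
      classical
      intro s
      induction s using Finset.induction_on with
      | empty => simp [Real.zero_rpow h.α_pos.ne']
      | insert a s ha ih =>
          rw [Finset.sum_insert ha, Finset.sum_insert ha]
          exact (rpow_add_le (norm_nonneg _) (Finset.sum_nonneg fun _ _ => norm_nonneg _)
            h.α_pos h.α_le).trans (by linarith)
    exact this _
  rw [map_smul, norm_smul, Real.mul_rpow (norm_nonneg _) (norm_nonneg _), Complex.norm_real,
    Real.norm_of_nonneg ht0.le, htα] at h1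
  rw [inv_mul_le_iff₀ hq] at h1
  exact h1

/-- (N0), first half of the mass bound: any function `B` below the extremal function has mass
at most `dim V`. -/
theorem lintegral_le_finrank (h : Good μ ev α) (B : X → ℝ≥0∞)
    (hB : ∀ x (C : ℝ), (∀ v, q μ ev α v ≤ 1 → ‖ev x v‖ ^ α ≤ C) → B x ≤ ENNReal.ofReal C) :
    ∫⁻ x, B x ∂μ ≤ (finrank ℂ V : ℝ≥0∞) := by
  obtain ⟨b, hb1, hb2⟩ := exists_basis_bound h
  have h1 : ∀ x, B x ≤ ∑ i, ENNReal.ofReal (‖ev x (b i)‖ ^ α) := by
    intro x
    rw [← ENNReal.ofReal_sum_of_nonneg (fun i _ => by positivity)]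
    apply hB
    intro v hv
    refine (hb2 x v).trans ?_
    have : 0 ≤ ∑ i, ‖ev x (b i)‖ ^ α := Finset.sum_nonneg fun _ _ => by positivity
    nlinarith
  calc ∫⁻ x, B x ∂μ ≤ ∫⁻ x, ∑ i, ENNReal.ofReal (‖ev x (b i)‖ ^ α) ∂μ := lintegral_mono h1
    _ = ∑ i, pint μ ev α (b i) := lintegral_finsetSum' _ (fun i _ => aemeas h (b i))
    _ ≤ ∑ _i : Fin (finrank ℂ V), 1 := by
        apply Finset.sum_le_sum
        intro i _
        rw [← ofReal_q h]
        simpa using hb1 i
    _ = _ := by simp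

/-- (N0) upper comparison: `|σ|²_NS ≤ p(σ)^N`. -/
theorem ns_le (N : ℕ) (hN : 1 ≤ N) (hα : α = 2 / N) (h : Good μ ev α) (B : X → ℝ≥0∞)
    (hB1 : ∀ x v, ENNReal.ofReal (‖ev x v‖ ^ α) ≤ pint μ ev α v * B x) (v : V) :
    ∫⁻ x, ENNReal.ofReal (‖ev x v‖ ^ 2) * ((B x) ^ (N - 1))⁻¹ ∂μ ≤ pint μ ev α v ^ N := by
  have hpt : ∀ x, ENNReal.ofReal (‖ev x v‖ ^ 2) * ((B x) ^ (N - 1))⁻¹ ≤
      pint μ ev α v ^ (N - 1) * ENNReal.ofReal (‖ev x v‖ ^ α) := by
    intro x
    have h2 : ENNReal.ofReal (‖ev x v‖ ^ 2) = ENNReal.ofReal (‖ev x v‖ ^ α) ^ (N - 1) *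
        ENNReal.ofReal (‖ev x v‖ ^ α) := by
      rw [← pow_succ, Nat.sub_add_cancel hN, ← ENNReal.ofReal_pow (by positivity),
        ← Real.rpow_natCast, ← Real.rpow_natCast, ← Real.rpow_mul (norm_nonneg _), hα]
      congr 2
      have : (N : ℝ) ≠ 0 := by positivity
      field_simp
      norm_num
    rw [h2, mul_assoc, mul_comm (ENNReal.ofReal (‖ev x v‖ ^ α)), ← mul_assoc]
    apply mul_le_mul_left
    calc ENNReal.ofReal (‖ev x v‖ ^ α) ^ (N - 1) * (B x ^ (N - 1))⁻¹
        ≤ (pint μ ev α v * B x) ^ (N - 1) * (B x ^ (N - 1))⁻¹ := by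
          gcongr
          exact hB1 x v
      _ = pint μ ev α v ^ (N - 1) * (B x ^ (N - 1) * (B x ^ (N - 1))⁻¹) := by
          rw [mul_pow, mul_assoc]
      _ ≤ pint μ ev α v ^ (N - 1) * 1 := by
          gcongr
          exact ENNReal.mul_inv_le_one _
      _ = _ := mul_one _
  calc _ ≤ ∫⁻ x, pint μ ev α v ^ (N - 1) * ENNReal.ofReal (‖ev x v‖ ^ α) ∂μ := lintegral_mono hpt
    _ = pint μ ev α v ^ (N - 1) * pint μ ev α v := lintegral_const_mul'' _ (aemeas h v)
    _ = pint μ ev α v ^ N := by rw [← pow_succ, Nat.sub_add_cancel hN]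

/-- (N0) lower comparison: `p(σ)^N ≤ s^{N-1} |σ|²_NS`. -/
theorem pint_pow_le (N : ℕ) (hN : 1 ≤ N) (hα : α = 2 / N) (h : Good μ ev α) (B : X → ℝ≥0∞)
    (hBm : AEMeasurable B μ)
    (hB1 : ∀ x v, ENNReal.ofReal (‖ev x v‖ ^ α) ≤ pint μ ev α v * B x)
    (hB2 : ∀ x (C : ℝ), (∀ v, q μ ev α v ≤ 1 → ‖ev x v‖ ^ α ≤ C) → B x ≤ ENNReal.ofReal C)
    (v : V) :
    pint μ ev α v ^ N ≤ (finrank ℂ V : ℝ≥0∞) ^ (N - 1) *
      ∫⁻ x, ENNReal.ofReal (‖ev x v‖ ^ 2) * ((B x) ^ (N - 1))⁻¹ ∂μ := by
  have hBI := lintegral_le_finrank h B hB2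
  have hBfin : ∀ x, B x ≠ ⊤ := by
    intro x
    obtain ⟨b, hb1, hb2⟩ := exists_basis_bound h
    have := hB2 x (∑ i, ‖ev x (b i)‖ ^ α) (fun v hv => by
      refine (hb2 x v).trans ?_
      have : 0 ≤ ∑ i, ‖ev x (b i)‖ ^ α := Finset.sum_nonneg fun _ _ => by positivity
      nlinarith)
    exact ne_top_of_le_ne_top ENNReal.ofReal_ne_top this
  rcases Nat.lt_or_ge 1 N with hN2 | hN1
  · -- Hölder with exponents N and N/(N-1)
    set I : ℝ≥0∞ := ∫⁻ x, ENNReal.ofReal (‖ev x v‖ ^ 2) * ((B x) ^ (N - 1))⁻¹ ∂μ with hI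
    have hNr : (1 : ℝ) < N := by exact_mod_cast hN2
    have hN0 : (N : ℝ) ≠ 0 := by positivity
    have hpq : (N : ℝ).HolderConjugate ((N : ℝ) / (N - 1)) := by
      rw [Real.holderConjugate_iff]
      refine ⟨hNr, ?_⟩
      have : (N : ℝ) - 1 ≠ 0 := by linarith
      field_simp
      ring
    let f : X → ℝ≥0∞ := fun x => (ENNReal.ofReal (‖ev x v‖ ^ 2) * ((B x) ^ (N - 1))⁻¹) ^ (1 / (N : ℝ))
    let g : X → ℝ≥0∞ := fun x => (B x) ^ (((N : ℝ) - 1) / N)
    have hfm : AEMeasurable f μ := by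
      apply AEMeasurable.pow_const
      apply AEMeasurable.mul
      · exact ENNReal.measurable_ofReal.comp_aemeasurable ((h.meas v).norm.pow_const 2)
      · exact (hBm.pow_const (N - 1)).inv
    have hgm : AEMeasurable g μ := hBm.pow_const _
    have hfg : ∀ x, ENNReal.ofReal (‖ev x v‖ ^ α) ≤ (f * g) x := by
      intro x
      simp only [Pi.mul_apply, f, g]
      by_cases hB0 : B x = 0
      · have := hB1 x v
        rw [hB0, mul_zero] at this
        exact this.trans zero_le
      · rw [ENNReal.mul_rpow_of_nonneg _ _ (by positivity), mul_assoc]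
        have e1 : (((B x) ^ (N - 1))⁻¹) ^ (1 / (N : ℝ)) * (B x) ^ (((N : ℝ) - 1) / N) = 1 := by
          rw [ENNReal.inv_rpow, ← ENNReal.rpow_natCast, ← ENNReal.rpow_mul]
          have : ((N - 1 : ℕ) : ℝ) * (1 / (N : ℝ)) = ((N : ℝ) - 1) / N := by
            rw [Nat.cast_sub hN]; push_cast; ring
          rw [this]
          apply ENNReal.inv_mul_cancel
          · have hpos : 0 < B x := pos_iff_ne_zero.mpr hB0
            exact (ENNReal.rpow_pos hpos (hBfin x)).ne'
          · exact ENNReal.rpow_ne_top_of_nonneg (div_nonneg (by linarith) (by positivity)) (hBfin x)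
        rw [e1, mul_one, ENNReal.ofReal_rpow_of_nonneg (by positivity) (by positivity)]
        apply ENNReal.ofReal_le_ofReal
        rw [← Real.rpow_natCast, ← Real.rpow_mul (norm_nonneg _), hα]
        apply le_of_eq
        congr 1
        push_cast
        ring
    have hH := ENNReal.lintegral_mul_le_Lp_mul_Lq μ hpq hfm hgm
    have hf1 : ∫⁻ x, f x ^ (N : ℝ) ∂μ = I := by
      rw [hI]
      congr 1
      ext x
      simp only [f]
      rw [← ENNReal.rpow_mul, one_div_mul_cancel hN0, ENNReal.rpow_one]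
    have hg1 : ∫⁻ x, g x ^ ((N : ℝ) / (N - 1)) ∂μ = ∫⁻ x, B x ∂μ := by
      congr 1
      ext x
      simp only [g]
      rw [← ENNReal.rpow_mul]
      have : ((N : ℝ) - 1) / N * (N / (N - 1)) = 1 := by
        have : (N : ℝ) - 1 ≠ 0 := by linarith
        field_simp
      rw [this, ENNReal.rpow_one]
    rw [hf1, hg1] at hH
    have h3 : pint μ ev α v ≤ I ^ (1 / (N : ℝ)) * (finrank ℂ V : ℝ≥0∞) ^ (((N : ℝ) - 1) / N) := by
      calc pint μ ev α v ≤ ∫⁻ x, (f * g) x ∂μ := lintegral_mono hfg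
        _ ≤ I ^ (1 / (N : ℝ)) * (∫⁻ x, B x ∂μ) ^ (1 / ((N : ℝ) / (N - 1))) := hH
        _ = I ^ (1 / (N : ℝ)) * (∫⁻ x, B x ∂μ) ^ (((N : ℝ) - 1) / N) := by rw [one_div_div]
        _ ≤ _ := by
            gcongr
    calc pint μ ev α v ^ N ≤ (I ^ (1 / (N : ℝ)) * (finrank ℂ V : ℝ≥0∞) ^ (((N : ℝ) - 1) / N)) ^ N := by
          gcongr
      _ = I * (finrank ℂ V : ℝ≥0∞) ^ (N - 1) := by
          rw [mul_pow, ← ENNReal.rpow_natCast, ← ENNReal.rpow_natCast, ← ENNReal.rpow_mul,
            ← ENNReal.rpow_mul, one_div_mul_cancel hN0, ENNReal.rpow_one, div_mul_cancel₀ _ hN0]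
          congr 1
          rw [← ENNReal.rpow_natCast, Nat.cast_sub hN]
          simp
      _ = _ := mul_comm _ _
  · have hN' : N = 1 := le_antisymm hN1 hN
    subst hN'
    exfalso
    have := h.α_le
    rw [hα] at this
    norm_num at this

end pint

end Crest.Agent.R276.Aue_999
end

-- ▼ part R276/DetB_606

/-!
# R276 DETB (helper606): uniform equivalence of the CY metric `∫ |det σ_i(x_j)|^p` and `det H`

`X` measure space, `0 < p ≤ 1`, `σ : Fin s → X → ℂ` measurable,
`Φ c = ∫⁻ ‖∑ c_i σ_i‖^p`.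

* `upper` : `Φ e_i ≤ 1` for all `i` implies `∫ |det σ_i(x_j)|^p ≤ s!`
* `lower` : `|c_i|^p ≤ Φ c` for all `c, i` implies `1 ≤ ∫ |det σ_i(x_j)|^p`
* `exists_auerbach` : existence of Auerbach bases for a continuous `p`-homogeneous definite function
* `detB` : for every linearly independent family and every Hermitian form `H` with
  `H ≤ Φ^N ≤ s^(N-1) H`, `p N = 2`:
  `det Gram ≤ (∫ |det|^p)^N ≤ (s!)^N s^(N s) det Gram`.
-/

set_option autoImplicit false

open MeasureTheory ENNReal Finset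
open scoped ComplexOrder

namespace Crest.Agent.R276.DetB_606

variable {X : Type*} [MeasurableSpace X]

/-- subadditivity of `t ↦ t^p`, `0 < p ≤ 1`, for finite sums -/
theorem rpow_sum_le {ι : Type*} (s : Finset ι) (f : ι → ℝ≥0∞) {p : ℝ} (hp : 0 < p) (hp1 : p ≤ 1) :
    (∑ i ∈ s, f i) ^ p ≤ ∑ i ∈ s, f i ^ p := by
  classical
  induction s using Finset.induction_on with
  | empty => simp [hp]
  | insert a s ha ih =>
    rw [Finset.sum_insert ha, Finset.sum_insert ha]
    exact (ENNReal.rpow_add_le_add_rpow _ _ hp.le hp1).trans (add_le_add le_rfl ih)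

/-- the CY norm -/
noncomputable def DD (μ : Measure X) (p : ℝ) {s : ℕ} (σ : Fin s → X → ℂ) : ℝ≥0∞ :=
  ∫⁻ x : Fin s → X, ‖Matrix.det (Matrix.of fun i j => σ i (x j))‖ₑ ^ p ∂(Measure.pi fun _ => μ)

/-- the `L^p` functional on the span of `σ` -/
noncomputable def Phi (μ : Measure X) (p : ℝ) {s : ℕ} (σ : Fin s → X → ℂ) (c : Fin s → ℂ) : ℝ≥0∞ :=
  ∫⁻ x, ‖∑ i, c i * σ i x‖ₑ ^ p ∂μ

theorem lintegral_succ {μ : Measure X} [SigmaFinite μ] {n : ℕ} {F : (Fin (n + 1) → X) → ℝ≥0∞}
    (hF : Measurable F) :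
    ∫⁻ x, F x ∂(Measure.pi fun _ => μ) =
      ∫⁻ y : Fin n → X, ∫⁻ x, F (Fin.cons x y) ∂μ ∂(Measure.pi fun _ => μ) := by
  have h := (measurePreserving_piFinSuccAbove (fun _ : Fin (n + 1) => μ) 0).symm
  rw [← h.lintegral_comp hF, lintegral_prod_symm]
  · refine lintegral_congr fun y => lintegral_congr fun x => ?_
    congr 1
    simp [MeasurableEquiv.piFinSuccAbove, Fin.insertNthEquiv]
  · exact (hF.comp (MeasurableEquiv.measurable _)).aemeasurable

theorem lintegral_prod_eq {μ : Measure X} [SigmaFinite μ] {n : ℕ} {g : Fin n → X → ℝ≥0∞}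
    (hg : ∀ i, Measurable (g i)) :
    ∫⁻ x : Fin n → X, ∏ i, g i (x i) ∂(Measure.pi fun _ => μ) = ∏ i, ∫⁻ x, g i x ∂μ := by
  induction n with
  | zero => simp [lintegral_unique]
  | succ n ih =>
    rw [lintegral_succ]
    · simp only [Fin.prod_univ_succ, Fin.cons_zero, Fin.cons_succ]
      rw [← ih (fun i => hg i.succ), mul_comm, ← lintegral_mul_const]
      · refine lintegral_congr fun y => ?_
        rw [lintegral_mul_const _ (hg 0), mul_comm]
      · exact Finset.measurable_prod _ fun i _ => (hg i.succ).comp (measurable_pi_apply i)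
    · exact Finset.measurable_prod _ fun i _ => (hg i).comp (measurable_pi_apply i)


theorem measurable_det {n : ℕ} {σ : Fin n → X → ℂ} (hσ : ∀ i, Measurable (σ i)) :
    Measurable fun x : Fin n → X => Matrix.det (Matrix.of fun i j => σ i (x j)) := by
  simp only [Matrix.det_apply]
  refine Finset.measurable_sum _ fun π _ => Measurable.const_smul ?_ _
  refine Finset.measurable_prod _ fun i _ => ?_
  exact (hσ (π i)).comp (measurable_pi_apply i)

theorem enorm_prod' {ι : Type*} (s : Finset ι) (f : ι → ℂ) :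
    ‖∏ i ∈ s, f i‖ₑ = ∏ i ∈ s, ‖f i‖ₑ := by
  classical
  induction s using Finset.induction_on with
  | empty => simp
  | insert a s ha ih => rw [Finset.prod_insert ha, Finset.prod_insert ha, enorm_mul, ih]

/-- upper bound -/
theorem upper {μ : Measure X} [SigmaFinite μ] {p : ℝ} (hp : 0 < p) (hp1 : p ≤ 1) {s : ℕ}
    {σ : Fin s → X → ℂ} (hσ : ∀ i, Measurable (σ i)) (h1 : ∀ i, ∫⁻ x, ‖σ i x‖ₑ ^ p ∂μ ≤ 1) :
    DD μ p σ ≤ (s.factorial : ℝ≥0∞) := by
  have key : ∀ x : Fin s → X, ‖Matrix.det (Matrix.of fun i j => σ i (x j))‖ₑ ^ p ≤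
      ∑ π : Equiv.Perm (Fin s), ∏ j, ‖σ (π j) (x j)‖ₑ ^ p := by
    intro x
    rw [Matrix.det_apply]
    refine (ENNReal.rpow_le_rpow (enorm_sum_le _ _) hp.le).trans ?_
    refine (rpow_sum_le _ _ hp hp1).trans (Finset.sum_le_sum fun π _ => ?_)
    have : ‖Equiv.Perm.sign π • ∏ i, Matrix.of (fun i j => σ i (x j)) (π i) i‖ₑ =
        ∏ j, ‖σ (π j) (x j)‖ₑ := by
      rcases Int.units_eq_one_or (Equiv.Perm.sign π) with h | h <;> rw [h] <;>
        simp [enorm_prod']
    rw [this]
    exact le_of_eq (ENNReal.prod_rpow_of_nonneg hp.le).symm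
  refine (lintegral_mono key).trans ?_
  rw [lintegral_finsetSum]
  · have : ∀ π ∈ (Finset.univ : Finset (Equiv.Perm (Fin s))),
        ∫⁻ x : Fin s → X, ∏ j, ‖σ (π j) (x j)‖ₑ ^ p ∂(Measure.pi fun _ => μ) ≤ 1 := by
      intro π _
      rw [lintegral_prod_eq (fun i => (hσ (π i)).enorm.pow_const p)]
      exact Finset.prod_le_one' fun i _ => h1 (π i)
    refine (Finset.sum_le_sum this).trans ?_
    simp [Fintype.card_perm]
  · intro π _
    exact Finset.measurable_prod _ fun i _ =>
      ((hσ (π i)).comp (measurable_pi_apply i)).enorm.pow_const p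

/-- lower bound -/
theorem lower {μ : Measure X} [SigmaFinite μ] {p : ℝ} {s : ℕ}
    {σ : Fin s → X → ℂ} (hσ : ∀ i, Measurable (σ i))
    (hA : ∀ (c : Fin s → ℂ) (i : Fin s), ‖c i‖ₑ ^ p ≤ Phi μ p σ c) :
    1 ≤ DD μ p σ := by
  induction s with
  | zero => simp [DD, lintegral_unique]
  | succ n ih =>
    have hσ' : ∀ i : Fin n, Measurable (σ i.castSucc) := fun i => hσ _
    have hA' : ∀ (c : Fin n → ℂ) (i : Fin n),
        ‖c i‖ₑ ^ p ≤ Phi μ p (fun i : Fin n => σ i.castSucc) c := by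
      intro c i
      have h := hA (Fin.snoc (α := fun _ => ℂ) c 0) i.castSucc
      simp only [Fin.snoc_castSucc] at h
      refine h.trans (le_of_eq ?_)
      unfold Phi
      refine lintegral_congr fun x => ?_
      rw [Fin.sum_univ_castSucc]
      simp
    refine (ih hσ' hA').trans ?_
    unfold DD
    rw [lintegral_succ ((measurable_det hσ).enorm.pow_const p)]
    refine lintegral_mono fun y => ?_
    -- expand along the first column
    set c : Fin (n + 1) → ℂ := fun i => (-1) ^ (i : ℕ) *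
      Matrix.det (Matrix.of fun k j => σ (i.succAbove k) (y j)) with hc
    have h1 : ∀ x, Matrix.det (Matrix.of fun i j => σ i ((Fin.cons x y : Fin (n + 1) → X) j)) =
        ∑ i, c i * σ i x := by
      intro x
      rw [Matrix.det_succ_column_zero]
      refine Finset.sum_congr rfl fun i _ => ?_
      simp only [Matrix.of_apply, Fin.cons_zero, hc]
      have : (Matrix.of fun i j => σ i ((Fin.cons x y : Fin (n + 1) → X) j)).submatrix
          i.succAbove Fin.succ = Matrix.of fun k j => σ (i.succAbove k) (y j) := by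
        ext k j
        simp
      rw [this]
      ring
    simp only [h1]
    refine le_trans (le_of_eq ?_) (hA c (Fin.last n))
    congr 1
    simp only [hc, enorm_mul, Fin.succAbove_last]
    simp


section main

open Module

variable {V : Type*} [NormedAddCommGroup V] [NormedSpace ℂ V] [FiniteDimensional ℂ V]

/-- change of basis for `DD` -/
theorem DD_mul {μ : Measure X} {p : ℝ} (hp : 0 ≤ p) {n : ℕ} (σ τ : Fin n → X → ℂ)
    (A : Matrix (Fin n) (Fin n) ℂ) (h : ∀ i x, τ i x = ∑ j, A i j * σ j x) :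
    DD μ p τ = ‖A.det‖ₑ ^ p * DD μ p σ := by
  unfold DD
  rw [← lintegral_const_mul' _ _ (ENNReal.rpow_ne_top_of_nonneg hp (by simp))]
  refine lintegral_congr fun x => ?_
  rw [← ENNReal.mul_rpow_of_nonneg _ _ hp, ← enorm_mul, ← Matrix.det_mul]
  congr 3
  ext i j
  simp [Matrix.mul_apply, h]

/-- **DETB**: the metrics `(∫ |det σ_i(x_j)|^(2/N))^N` and `det H` on `det V` are equivalent with
explicit constants depending only on `n = dim V` and `N`. -/
theorem detB {n : ℕ} (hn : finrank ℂ V = n) (ev : X → V →ₗ[ℂ] ℂ)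
    (hev : ∀ v, Measurable fun x => ev x v) {μ : Measure X} [SigmaFinite μ] {N : ℕ} (hN : 2 ≤ N)
    (Φ : V → ℝ) (hΦ : ∀ v, ∫⁻ x, ‖ev x v‖ₑ ^ (2 / N : ℝ) ∂μ = ENNReal.ofReal (Φ v))
    (hcont : Continuous Φ) (hpos : ∀ v, v ≠ 0 → 0 < Φ v)
    (H : V →ₗ⋆[ℂ] V →ₗ[ℂ] ℂ) (hH : ∀ v w, star (H v w) = H w v)
    (hN0 : ∀ v, (H v v).re ≤ Φ v ^ N) (hN1 : ∀ v, Φ v ^ N ≤ (n : ℝ) ^ (N - 1) * (H v v).re)
    (e : Fin n → V) :
    DD μ (2 / N) (fun i x => ev x (e i)) ≠ ⊤ ∧
      (Matrix.det (Matrix.of fun i j => H (e i) (e j))).re ≤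
        (DD μ (2 / N) (fun i x => ev x (e i))).toReal ^ N ∧
      (DD μ (2 / N) (fun i x => ev x (e i))).toReal ^ N ≤
        (n.factorial : ℝ) ^ N * (n : ℝ) ^ (N * n) *
          (Matrix.det (Matrix.of fun i j => H (e i) (e j))).re := by
  classical
  have hNpos : (0 : ℝ) < N := by positivity
  set p : ℝ := 2 / N with hp
  have hp0 : 0 < p := by positivity
  have hp1 : p ≤ 1 := by
    rw [hp, div_le_one hNpos]
    exact_mod_cast hN
  have hpN : p * N = 2 := by
    rw [hp]; field_simp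
  -- homogeneity
  have h0 : Φ 0 ≤ 0 := by
    have h1 := hΦ 0
    simp only [map_zero, enorm_zero, ENNReal.zero_rpow_of_pos hp0, lintegral_zero] at h1
    exact ENNReal.ofReal_eq_zero.1 h1.symm
  have hcont0 : 0 ≤ Φ 0 := by
    by_contra hneg
    push Not at hneg
    -- `Φ` is continuous and positive outside `0`
    by_cases hV : ∃ v : V, v ≠ 0
    · obtain ⟨v, hv⟩ := hV
      have ht : Filter.Tendsto (fun t : ℝ => Φ ((t : ℂ) • v)) (nhdsWithin 0 (Set.Ioi 0))
          (nhds (Φ 0)) := by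
        have h1 : Continuous fun t : ℝ => Φ ((t : ℂ) • v) :=
          hcont.comp (Complex.continuous_ofReal.smul continuous_const)
        have h2 := h1.tendsto 0
        simp only [Complex.ofReal_zero, zero_smul] at h2
        exact h2.mono_left nhdsWithin_le_nhds
      have h3 : 0 ≤ Φ 0 := by
        refine ge_of_tendsto ht ?_
        filter_upwards [self_mem_nhdsWithin] with t ht'
        refine (hpos _ ?_).le
        simp only [ne_eq, smul_eq_zero, Complex.ofReal_eq_zero, not_or]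
        exact ⟨(ne_of_gt ht'), hv⟩
      linarith
    · push Not at hV
      have h1 := hN1 0
      simp only [map_zero, Complex.zero_re, mul_zero] at h1
      have h2 := hN0 0
      simp only [map_zero, Complex.zero_re] at h2
      have h3 : Φ 0 ^ N = 0 := le_antisymm h1 h2
      have h4 : Φ 0 = 0 := pow_eq_zero_iff (by omega) |>.1 h3
      linarith
  have hnn : ∀ v, 0 ≤ Φ v := by
    intro v
    by_cases hv : v = 0
    · rw [hv]; exact hcont0
    · exact (hpos v hv).le
  have hhom : ∀ (c : ℂ) (v : V), Φ (c • v) = ‖c‖ ^ p * Φ v := by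
    intro c v
    have h1 : ENNReal.ofReal (Φ (c • v)) = ENNReal.ofReal (‖c‖ ^ p * Φ v) := by
      rw [← hΦ, ENNReal.ofReal_mul (by positivity), ← hΦ,
        ← ENNReal.ofReal_rpow_of_nonneg (norm_nonneg _) hp0.le, ofReal_norm,
        ← lintegral_const_mul' _ _ (ENNReal.rpow_ne_top_of_nonneg hp0.le (by simp))]
      refine lintegral_congr fun x => ?_
      rw [map_smul, smul_eq_mul, enorm_mul, ENNReal.mul_rpow_of_nonneg _ _ hp0.le]
    exact (ENNReal.ofReal_eq_ofReal_iff (hnn _) (by have := hnn v; positivity)).1 h1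
  -- Auerbach basis
  obtain ⟨b0, hb1', hb2'⟩ := Aue_999.exists_auerbach Φ hcont hpos p hp0 hhom
  let b : Basis (Fin n) ℂ V := b0.reindex (finCongr hn)
  have hb1 : ∀ i, Φ (b i) ≤ 1 := by
    intro i
    simp only [b, Basis.reindex_apply]
    exact hb1' _
  have hb2 : ∀ v, Φ v ≤ 1 → ∀ i, ‖b.repr v i‖ ≤ 1 := by
    intro v hv i
    simp only [b, Basis.repr_reindex_apply]
    exact hb2' v hv _
  have hb3 : ∀ v i, ‖b.repr v i‖ ^ p ≤ Φ v := by
    intro v i
    by_cases hv : v = 0
    · simp [hv, Real.zero_rpow hp0.ne', hcont0]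
    have hv' := hpos v hv
    set t : ℝ := (Φ v) ^ (-(1 / p)) with ht
    have htpos : 0 < t := Real.rpow_pos_of_pos hv' _
    have htp : t ^ p = (Φ v)⁻¹ := by
      rw [ht, ← Real.rpow_mul hv'.le]
      have : -(1 / p) * p = -1 := by field_simp
      rw [this, Real.rpow_neg_one]
    have h1 : Φ ((t : ℂ) • v) ≤ 1 := by
      rw [hhom, Complex.norm_real, Real.norm_of_nonneg htpos.le, htp, inv_mul_cancel₀ hv'.ne']
    have h2 := hb2 _ h1 i
    rw [map_smul, Finsupp.smul_apply, norm_smul, Complex.norm_real,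
      Real.norm_of_nonneg htpos.le] at h2
    have h3 : (t * ‖b.repr v i‖) ^ p ≤ 1 :=
      Real.rpow_le_one (by positivity) h2 hp0.le
    rw [Real.mul_rpow htpos.le (norm_nonneg _), htp, inv_mul_le_iff₀ hv', mul_one] at h3
    exact h3
  -- the basis functions
  set σ : Fin n → X → ℂ := fun i x => ev x (b i) with hσ
  have hσm : ∀ i, Measurable (σ i) := fun i => hev _
  have hup : DD μ p σ ≤ (n.factorial : ℝ≥0∞) := by
    refine upper hp0 hp1 hσm fun i => ?_
    have := hΦ (b i)
    simp only [hσ]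
    rw [this]
    exact ENNReal.ofReal_le_one.2 (hb1 i)
  have hlow : 1 ≤ DD μ p σ := by
    refine lower hσm fun c i => ?_
    have h1 : Phi μ p σ c = ENNReal.ofReal (Φ (∑ j, c j • b j)) := by
      rw [← hΦ]
      unfold Phi
      refine lintegral_congr fun x => ?_
      simp [hσ]
    rw [h1]
    have h2 := hb3 (∑ j, c j • b j) i
    rw [b.repr_sum_self] at h2
    rw [← ofReal_norm, ENNReal.ofReal_rpow_of_nonneg (norm_nonneg _) hp0.le]
    exact ENNReal.ofReal_le_ofReal h2
  have hfin : DD μ p σ ≠ ⊤ := ne_top_of_le_ne_top (by simp) hup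
  -- change of basis
  set A : Matrix (Fin n) (Fin n) ℂ := Matrix.of fun i j => b.repr (e i) j with hA
  have hAe : ∀ i, e i = ∑ j, A i j • b j := fun i => (b.sum_repr (e i)).symm
  have hDD : DD μ p (fun i x => ev x (e i)) = ‖A.det‖ₑ ^ p * DD μ p σ := by
    refine DD_mul hp0.le σ _ A fun i x => ?_
    conv_lhs => rw [hAe i]
    simp [hσ]
  -- Gram matrices
  set G : Matrix (Fin n) (Fin n) ℂ := Matrix.of fun i j => H (b i) (b j) with hG
  have hGram : (Matrix.of fun i j => H (e i) (e j)) = A.map star * G * A.transpose := by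
    ext i j
    simp only [Matrix.of_apply, Matrix.mul_apply, Matrix.map_apply, Matrix.transpose_apply, hG]
    conv_lhs => rw [hAe i, hAe j]
    simp only [map_sum, LinearMap.sum_apply, LinearMap.map_smulₛₗ, LinearMap.smul_apply,
      map_smul, smul_eq_mul]
    simp only [Finset.mul_sum, Finset.sum_mul]
    refine Finset.sum_congr rfl fun k _ => Finset.sum_congr rfl fun l _ => ?_
    simp only [RCLike.star_def]
    ring
  have hdet : (Matrix.det (Matrix.of fun i j => H (e i) (e j))) =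
      ((‖A.det‖ ^ 2 : ℝ) : ℂ) * G.det := by
    rw [hGram, Matrix.det_mul, Matrix.det_mul, Matrix.det_transpose]
    have h1 : (A.map star).det = star A.det := by
      rw [← Matrix.det_conjTranspose, ← Matrix.det_transpose (A.map star)]
      rfl
    rw [h1]
    have h2 : ((‖A.det‖ ^ 2 : ℝ) : ℂ) = star A.det * A.det := by
      rw [RCLike.star_def, mul_comm, Complex.mul_conj, Complex.normSq_eq_norm_sq]
    rw [h2]; ring
  -- the quadratic form of `G`
  have hquad : ∀ c : Fin n → ℂ, star c ⬝ᵥ (G.mulVec c) =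
      H (∑ j, c j • b j) (∑ j, c j • b j) := by
    intro c
    simp only [dotProduct, Matrix.mulVec, hG, Matrix.of_apply, Pi.star_apply, map_sum,
      LinearMap.sum_apply, LinearMap.map_smulₛₗ, LinearMap.smul_apply, map_smul, smul_eq_mul,
      Finset.mul_sum, RCLike.star_def]
    rw [Finset.sum_comm]
    refine Finset.sum_congr rfl fun k _ => Finset.sum_congr rfl fun l _ => ?_
    ring
  have hGH : G.IsHermitian := Matrix.IsHermitian.ext fun i j => by
    simp only [hG, Matrix.of_apply]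
    exact hH _ _
  have him : ∀ v, (H v v).im = 0 := by
    intro v
    have := hH v v
    rw [RCLike.star_def] at this
    exact Complex.conj_eq_iff_im.1 this
  have hcoord : ∀ (c : Fin n → ℂ) i, ‖c i‖ ^ 2 ≤
      (n : ℝ) ^ (N - 1) * (H (∑ j, c j • b j) (∑ j, c j • b j)).re := by
    intro c i
    refine le_trans ?_ (hN1 _)
    have h1 := hb3 (∑ j, c j • b j) i
    rw [b.repr_sum_self] at h1
    calc ‖c i‖ ^ 2 = (‖c i‖ ^ p) ^ N := by
          rw [← Real.rpow_natCast (‖c i‖ ^ p), ← Real.rpow_mul (norm_nonneg _), hpN]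
          norm_num
      _ ≤ _ := pow_le_pow_left₀ (by positivity) h1 N
  have hpsd : G.PosSemidef := by
    refine Matrix.PosSemidef.of_dotProduct_mulVec_nonneg hGH fun c => ?_
    rw [hquad, Complex.le_def]
    refine ⟨?_, (him _).symm⟩
    simp only [Complex.zero_re]
    by_cases hn0 : n = 0
    · subst hn0
      simp
    · have hnpos : (0 : ℝ) < n := by positivity
      have h1 := hcoord c ⟨0, Nat.pos_of_ne_zero hn0⟩
      have h2 : 0 ≤ (n : ℝ) ^ (N - 1) * (H (∑ j, c j • b j) (∑ j, c j • b j)).re :=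
        le_trans (by positivity) h1
      exact nonneg_of_mul_nonneg_right h2 (by positivity)
  -- upper bound for `det G`
  have hGup : G.det.re ≤ 1 := by
    refine (Nil_840.det_le_prod_diag hpsd).trans ?_
    refine Finset.prod_le_one (fun i _ => ?_) fun i _ => ?_
    · exact (Complex.le_def.1 (hpsd.diag_nonneg (i := i))).1
    · simp only [hG, Matrix.of_apply]
      exact (hN0 _).trans (pow_le_one₀ (hnn _) (hb1 i))
  -- lower bound for `det G`
  have hGlow : 1 ≤ (n : ℝ) ^ (N * n) * G.det.re := by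
    have hev' : ∀ i, 1 ≤ (n : ℝ) ^ N * hGH.eigenvalues i := by
      intro i
      have hnpos : (0 : ℝ) < n := by
        have : 0 < n := Fin.pos i
        exact_mod_cast this
      set w : Fin n → ℂ := ⇑(hGH.eigenvectorBasis i) with hw
      have h1 : hGH.eigenvalues i = (H (∑ j, w j • b j) (∑ j, w j • b j)).re := by
        rw [hGH.eigenvalues_eq, ← hw, hquad]
        rfl
      have h2 : ∑ j, ‖w j‖ ^ 2 = 1 := by
        have h3 := hGH.eigenvectorBasis.orthonormal.1 i
        rw [EuclideanSpace.norm_eq, Real.sqrt_eq_one] at h3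
        exact h3
      have h3 : ∑ j : Fin n, ‖w j‖ ^ 2 ≤ ∑ _j : Fin n,
          (n : ℝ) ^ (N - 1) * (H (∑ j, w j • b j) (∑ j, w j • b j)).re :=
        Finset.sum_le_sum fun j _ => hcoord w j
      rw [h2, Finset.sum_const, Finset.card_univ, Fintype.card_fin, nsmul_eq_mul, ← mul_assoc,
        ← pow_succ', Nat.sub_add_cancel (by omega)] at h3
      rw [h1]; exact h3
    have h1 : (n : ℝ) ^ (N * n) * G.det.re = ∏ i, ((n : ℝ) ^ N * hGH.eigenvalues i) := by
      rw [Finset.prod_mul_distrib, Finset.prod_const, Finset.card_univ, Fintype.card_fin,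
        ← pow_mul, hGH.det_eq_prod_eigenvalues]
      congr 1
      change (∏ i, Complex.ofReal (hGH.eigenvalues i)).re = _
      rw [← Complex.ofReal_prod, Complex.ofReal_re]
    rw [h1]
    simpa using Finset.prod_le_prod (s := Finset.univ) (f := fun _ : Fin n => (1 : ℝ))
      (fun i _ => zero_le_one) (fun i _ => hev' i)
  -- conclusion
  have hdetre : (Matrix.det (Matrix.of fun i j => H (e i) (e j))).re = ‖A.det‖ ^ 2 * G.det.re := by
    rw [hdet, Complex.re_ofReal_mul]
  have hDDr : (DD μ p (fun i x => ev x (e i))).toReal ^ N =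
      ‖A.det‖ ^ 2 * (DD μ p σ).toReal ^ N := by
    rw [hDD, ENNReal.toReal_mul, mul_pow, ← ENNReal.toReal_rpow, toReal_enorm]
    congr 1
    rw [← Real.rpow_natCast, ← Real.rpow_mul (norm_nonneg _), hpN]
    norm_num
  have hD1 : 1 ≤ (DD μ p σ).toReal := by
    rw [← ENNReal.toReal_one]
    exact ENNReal.toReal_mono hfin hlow
  have hD2 : (DD μ p σ).toReal ≤ n.factorial := by
    have := ENNReal.toReal_mono (by simp) hup
    simpa using this
  refine ⟨?_, ?_, ?_⟩
  · rw [hDD]
    exact ENNReal.mul_ne_top (ENNReal.rpow_ne_top_of_nonneg hp0.le (by simp)) hfin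
  · rw [hdetre, hDDr]
    refine mul_le_mul_of_nonneg_left ?_ (by positivity)
    exact hGup.trans (one_le_pow₀ hD1)
  · rw [hdetre, hDDr]
    have h1 : (DD μ p σ).toReal ^ N ≤ (n.factorial : ℝ) ^ N :=
      pow_le_pow_left₀ ENNReal.toReal_nonneg hD2 N
    have h2 : (n.factorial : ℝ) ^ N ≤ (n.factorial : ℝ) ^ N * ((n : ℝ) ^ (N * n) * G.det.re) :=
      le_mul_of_one_le_right (by positivity) hGlow
    calc ‖A.det‖ ^ 2 * (DD μ p σ).toReal ^ N
        ≤ ‖A.det‖ ^ 2 * ((n.factorial : ℝ) ^ N * ((n : ℝ) ^ (N * n) * G.det.re)) :=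
          mul_le_mul_of_nonneg_left (h1.trans h2) (by positivity)
      _ = _ := by ring

end main

end Crest.Agent.R276.DetB_606
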