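import Mathlib
import Crest.Agent.R276.Mod6_987

/-!
# Row 276, MODPACK (helper849), part A: towers of models `K ⊇ L ⊇ T`

* `Mdl.reindex` : the same model with renumbered coordinates (same ring `B`, same points);
* `Tow T L K ρ a r` : models `MT`, `ML`, `MK` with coordinates `t`, `(t, z)`, `(t, z, x)`;
  `W.TL`, `W.LK`, `W.TK` : the three relative models of 987; `q_TK`;
* `W.shrink c p s`;
* `Ev2 R Q`, `Ev W Q` : "`Q` holds after every sufficient shrinking";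
* `exists_tow` : existence with prescribed coordinates and prescribed units.
-/

set_option autoImplicit false
set_option linter.unusedSectionVars false

open Polynomial Topology Filter

noncomputable section

namespace Crest.Agent.R276.TowA_849

open Crest.Agent.R271.Defs710 Crest.Agent.R271.Alg255 Crest.Agent.R271.Rd692
open Crest.Agent.R271.AlgB956 Crest.Agent.R271.Ho51
open Crest.Agent.R276.Mod1_987

/-! ### renumbering of the coordinates -/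

section reindex

variable {K : Type} [Field K] [Algebra ℂ K] {n n' : ℕ}

lemma az_reindex {B : Type} [CommRing B] [Algebra ℂ B] (z : Fin n → B) (e : Fin n ≃ Fin n')
    (p : MvPolynomial (Fin n) ℂ) :
    az (fun i => z (e.symm i)) (MvPolynomial.rename e p) = az z p := by
  change MvPolynomial.aeval _ _ = MvPolynomial.aeval _ _
  rw [MvPolynomial.aeval_rename]
  congr 2
  funext i
  simp

/-- the ring homomorphism `rename e` -/
abbrev ren (e : Fin n ≃ Fin n') : MvPolynomial (Fin n) ℂ →+* MvPolynomial (Fin n') ℂ :=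
  (MvPolynomial.rename e : MvPolynomial (Fin n) ℂ →ₐ[ℂ] MvPolynomial (Fin n') ℂ)

lemma az_comp_ren {B : Type} [CommRing B] [Algebra ℂ B] (z : Fin n → B) (e : Fin n ≃ Fin n') :
    (az (fun i => z (e.symm i))).comp (ren e) = az z :=
  RingHom.ext fun p => az_reindex z e p

lemma ren_symm (e : Fin n ≃ Fin n') (p : MvPolynomial (Fin n') ℂ) :
    ren e (ren e.symm p) = p := by
  change MvPolynomial.rename e (MvPolynomial.rename e.symm p) = p
  rw [MvPolynomial.rename_rename]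
  simp

/-- **the same model with renumbered coordinates** -/
def _root_.Crest.Agent.R276.Mod1_987.Mdl.reindex (M : Mdl K n) (e : Fin n ≃ Fin n') :
    Mdl K n' where
  B := M.B
  z := fun i => M.z (e.symm i)
  h := MvPolynomial.rename e M.h
  θ := M.θ
  μ := M.μ.map (ren e)
  ft := M.ft
  frac := M.frac
  h_ne := by
    rw [Ne, map_eq_zero_iff _ (MvPolynomial.rename_injective _ e.injective)]
    exact M.h_ne
  h_unit := by
    rw [az_reindex]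
    exact M.h_unit
  monic := M.monic.map _
  root := by
    rw [Polynomial.eval₂_map, az_comp_ren]
    exact M.root
  bez := by
    obtain ⟨a, b, hab⟩ := M.bez
    refine ⟨a.map (ren e), b.map (ren e), ?_⟩
    rw [Polynomial.derivative_map, ← Polynomial.map_mul, ← Polynomial.map_mul,
      ← Polynomial.map_add, hab, Polynomial.map_C]
    rfl
  dvd := by
    intro q hq
    have h1 : Polynomial.eval₂ (az M.z) M.θ (q.map (ren e.symm)) = 0 := by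
      rw [Polynomial.eval₂_map, ← hq, ← az_comp_ren M.z e]
      congr 1
      refine RingHom.ext fun p => ?_
      change az _ (ren e (ren e.symm p)) = _
      rw [ren_symm]
    obtain ⟨c, hc⟩ := M.dvd _ h1
    refine ⟨c.map (ren e), ?_⟩
    rw [← Polynomial.map_mul, ← hc, Polynomial.map_map]
    have h2 : (ren e).comp (ren e.symm) = RingHom.id _ := RingHom.ext fun p => ren_symm e p
    rw [h2, Polynomial.map_id]
  gen := by
    intro b
    obtain ⟨k, q, hq⟩ := M.gen b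
    refine ⟨k, q.map (ren e), ?_⟩
    rw [Polynomial.eval₂_map, az_comp_ren, ← hq, ← map_pow, az_reindex]

variable (M : Mdl K n) (e : Fin n ≃ Fin n')

@[simp] lemma reindex_B : (M.reindex e).B = M.B := rfl

@[simp] lemma reindex_h : (M.reindex e).h = MvPolynomial.rename e M.h := rfl

lemma reindex_zK (i : Fin n') : (M.reindex e).zK i = M.zK (e.symm i) := rfl


end reindex

/-! ### a localisation does not change the coordinates -/

section loc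

variable {K : Type} [Field K] [Algebra ℂ K] {n : ℕ}

lemma loc_unit (M : Mdl K n) (p : MvPolynomial (Fin n) ℂ) (hp : p ≠ 0) (y : (M.loc p hp).Pts) :
    MvPolynomial.eval ((M.loc p hp).pz y) p ≠ 0 := by
  have := (M.loc p hp).eval_h_ne y
  rw [Mdl.loc_h, map_mul] at this
  exact right_ne_zero_of_mul this

end loc

/-! ### towers -/

/-- A tower of models of `T ⊆ L ⊆ K`, base coordinates first. -/
structure Tow (T L K : Type) [Field T] [Field L] [Field K] [Algebra ℂ T] [Algebra ℂ L]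
    [Algebra ℂ K] [Algebra T L] [Algebra L K] (ρ a r : ℕ) where
  /-- model of `T`, coordinates `t` -/
  MT : Mdl T ρ
  /-- model of `L`, coordinates `(t, z)` -/
  ML : Mdl L (ρ + a)
  /-- model of `K`, coordinates `(t, z, x)` -/
  MK : Mdl K (ρ + a + r)
  zL : ∀ i, ML.zK (Fin.castAdd a i) = algebraMap T L (MT.zK i)
  zK : ∀ i, MK.zK (Fin.castAdd r i) = algebraMap L K (ML.zK i)
  inclT : ∀ b : MT.B, algebraMap T L b ∈ ML.B
  inclL : ∀ b : ML.B, algebraMap L K b ∈ MK.B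

section tow

variable {T L K : Type} [Field T] [Field L] [Field K] [Algebra ℂ T] [Algebra ℂ L] [Algebra ℂ K]
  [Algebra T L] [Algebra L K] [IsScalarTower ℂ T L] [IsScalarTower ℂ L K]
  {ρ a r : ℕ}

/-- `M_L → M_T` -/
def Tow.TL (W : Tow T L K ρ a r) : RMdl T L ρ a := ⟨W.MT, W.ML, W.zL, W.inclT⟩

/-- `M_K → M_L` -/
def Tow.LK (W : Tow T L K ρ a r) : RMdl L K (ρ + a) r := ⟨W.ML, W.MK, W.zK, W.inclL⟩

@[simp] lemma Tow.TL_ML (W : Tow T L K ρ a r) : W.TL.ML = W.MT := rfl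
@[simp] lemma Tow.TL_MK (W : Tow T L K ρ a r) : W.TL.MK = W.ML := rfl
@[simp] lemma Tow.LK_ML (W : Tow T L K ρ a r) : W.LK.ML = W.ML := rfl
@[simp] lemma Tow.LK_MK (W : Tow T L K ρ a r) : W.LK.MK = W.MK := rfl

/-- **shrinking** of a tower: invert `c` on `M_T`, `c p` on `M_L`, `c p s` on `M_K` -/
def Tow.shrink (W : Tow T L K ρ a r) (c : MvPolynomial (Fin ρ) ℂ) (hc : c ≠ 0)
    (p : MvPolynomial (Fin (ρ + a)) ℂ) (hp : p ≠ 0)
    (s : MvPolynomial (Fin (ρ + a + r)) ℂ) (hs : s ≠ 0) : Tow T L K ρ a r :=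
  let R₁ := W.TL.shrink c hc p hp
  let p' := MvPolynomial.rename (Fin.castAdd a) c * p
  let hp' : p' ≠ 0 := mul_ne_zero (by
      rw [Ne, map_eq_zero_iff _ (MvPolynomial.rename_injective _ (Fin.castAdd_injective ρ a))]
      exact hc) hp
  let R₂ := W.LK.shrink p' hp' s hs
  ⟨R₁.ML, R₁.MK, R₂.MK, R₁.z_eq, R₂.z_eq, R₁.incl_mem, R₂.incl_mem⟩

/-- the polynomial by which `M_L` is shrunk -/
abbrev cp2 (c : MvPolynomial (Fin ρ) ℂ) (p : MvPolynomial (Fin (ρ + a)) ℂ) :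
    MvPolynomial (Fin (ρ + a)) ℂ := MvPolynomial.rename (Fin.castAdd a) c * p

lemma cp2_ne {c : MvPolynomial (Fin ρ) ℂ} (hc : c ≠ 0) {p : MvPolynomial (Fin (ρ + a)) ℂ}
    (hp : p ≠ 0) : cp2 c p ≠ 0 := mul_ne_zero (by
      rw [Ne, map_eq_zero_iff _ (MvPolynomial.rename_injective _ (Fin.castAdd_injective ρ a))]
      exact hc) hp

variable (W : Tow T L K ρ a r) {c : MvPolynomial (Fin ρ) ℂ} (hc : c ≠ 0)
    {p : MvPolynomial (Fin (ρ + a)) ℂ} (hp : p ≠ 0)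
    {s : MvPolynomial (Fin (ρ + a + r)) ℂ} (hs : s ≠ 0)







lemma Tow.le_MT : W.MT.B ≤ (W.shrink c hc p hp s hs).MT.B := W.MT.le_loc c hc
lemma Tow.le_ML : W.ML.B ≤ (W.shrink c hc p hp s hs).ML.B := W.ML.le_loc (cp2 c p) (cp2_ne hc hp)
lemma Tow.le_MK : W.MK.B ≤ (W.shrink c hc p hp s hs).MK.B :=
  W.MK.le_loc (cp2 (cp2 c p) s) (cp2_ne (cp2_ne hc hp) hs)

end tow

/-! ### the relative model `M_K → M_T` -/

section TK

variable {T L K : Type} [Field T] [Field L] [Field K] [Algebra ℂ T] [Algebra ℂ L] [Algebra ℂ K]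
  [Algebra T L] [Algebra L K] [Algebra T K] [IsScalarTower ℂ T L] [IsScalarTower ℂ L K]
  [IsScalarTower T L K] [IsScalarTower ℂ T K] {ρ a r : ℕ}

/-- `ρ + a + r = ρ + (a + r)` on `Fin` -/
def eA (ρ a r : ℕ) : Fin (ρ + a + r) ≃ Fin (ρ + (a + r)) := finCongr (Nat.add_assoc ρ a r)

lemma eA_symm_castAdd (i : Fin ρ) :
    (eA ρ a r).symm (Fin.castAdd (a + r) i) = Fin.castAdd r (Fin.castAdd a i) := by
  apply Fin.ext; simp [eA]

/-- `M_K → M_T` -/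
def Tow.TK (W : Tow T L K ρ a r) : RMdl T K ρ (a + r) where
  ML := W.MT
  MK := W.MK.reindex (eA ρ a r)
  z_eq := by
    intro i
    rw [reindex_zK, eA_symm_castAdd, W.zK, W.zL, IsScalarTower.algebraMap_apply T L K]
  incl_mem := by
    intro b
    have h1 := W.inclL ⟨_, W.inclT b⟩
    rw [IsScalarTower.algebraMap_apply T L K]
    exact h1

@[simp] lemma Tow.TK_ML (W : Tow T L K ρ a r) : W.TK.ML = W.MT := rfl

/-- the composition `M_K → M_L → M_T` -/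
theorem Tow.q_TK (W : Tow T L K ρ a r) (y : W.MK.Pts) :
    W.TK.q (show W.TK.MK.Pts from y) = W.TL.q (W.LK.q y) := by
  apply AlgHom.ext
  intro b
  change y _ = y _
  congr 1
  exact Subtype.ext (IsScalarTower.algebraMap_apply T L K (b : T))

end TK

/-! ### "after every sufficient shrinking" -/

section ev

variable {T L K : Type} [Field T] [Field L] [Field K] [Algebra ℂ T] [Algebra ℂ L] [Algebra ℂ K]
  [Algebra T L] [Algebra L K] [IsScalarTower ℂ T L] [IsScalarTower ℂ L K]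
  {ρ a r m : ℕ}

/-- `Q` holds for all sufficiently small models with the same coordinates -/
def Ev1 {n : ℕ} (M : Mdl K n) (Q : Mdl K n → Prop) : Prop :=
  ∃ s₀ : MvPolynomial (Fin n) ℂ, s₀ ≠ 0 ∧ ∀ (s : MvPolynomial (Fin n) ℂ) (hs : s ≠ 0), s₀ ∣ s →
    Q (M.loc s hs)

/-- `Q` holds for all sufficiently small relative models (the base may be shrunk depending on the
total space) -/
def Ev2 (R : RMdl L K m r) (Q : RMdl L K m r → Prop) : Prop :=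
  ∃ s₀ : MvPolynomial (Fin (m + r)) ℂ, s₀ ≠ 0 ∧
    ∀ (s : MvPolynomial (Fin (m + r)) ℂ) (hs : s ≠ 0), s₀ ∣ s →
    ∃ p₀ : MvPolynomial (Fin m) ℂ, p₀ ≠ 0 ∧ ∀ (p : MvPolynomial (Fin m) ℂ) (hp : p ≠ 0), p₀ ∣ p →
      Q (R.shrink p hp s hs)

/-- `Q` holds for all sufficiently small towers -/
def Ev (W : Tow T L K ρ a r) (Q : Tow T L K ρ a r → Prop) : Prop :=
  ∃ s₀ : MvPolynomial (Fin (ρ + a + r)) ℂ, s₀ ≠ 0 ∧
    ∀ (s : MvPolynomial (Fin (ρ + a + r)) ℂ) (hs : s ≠ 0), s₀ ∣ s →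
    ∃ p₀ : MvPolynomial (Fin (ρ + a)) ℂ, p₀ ≠ 0 ∧
      ∀ (p : MvPolynomial (Fin (ρ + a)) ℂ) (hp : p ≠ 0), p₀ ∣ p →
      ∃ c₀ : MvPolynomial (Fin ρ) ℂ, c₀ ≠ 0 ∧
        ∀ (c : MvPolynomial (Fin ρ) ℂ) (hc : c ≠ 0), c₀ ∣ c → Q (W.shrink c hc p hp s hs)

/-! #### `Ev1` -/

theorem Ev1.mono {n : ℕ} {M : Mdl K n} {Q Q' : Mdl K n → Prop} (h : Ev1 M Q)
    (h' : ∀ M, Q M → Q' M) : Ev1 M Q' := by
  obtain ⟨s₀, h0, h⟩ := h
  exact ⟨s₀, h0, fun s hs hd => h' _ (h s hs hd)⟩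

theorem Ev1.and {n : ℕ} {M : Mdl K n} {Q Q' : Mdl K n → Prop} (h : Ev1 M Q) (h' : Ev1 M Q') :
    Ev1 M fun M => Q M ∧ Q' M := by
  obtain ⟨s₀, h0, h⟩ := h
  obtain ⟨s₁, h1, h'⟩ := h'
  exact ⟨s₀ * s₁, mul_ne_zero h0 h1, fun s hs hd =>
    ⟨h s hs (dvd_of_mul_right_dvd hd), h' s hs (dvd_of_mul_left_dvd hd)⟩⟩

theorem Ev1.of_forall {n : ℕ} {M : Mdl K n} {Q : Mdl K n → Prop} (h : ∀ M, Q M) : Ev1 M Q :=
  ⟨1, one_ne_zero, fun _ _ _ => h _⟩

theorem Ev1.exists {n : ℕ} {M : Mdl K n} {Q : Mdl K n → Prop} (h : Ev1 M Q) :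
    ∃ (s : MvPolynomial (Fin n) ℂ) (hs : s ≠ 0), Q (M.loc s hs) := by
  obtain ⟨s₀, h0, h⟩ := h
  exact ⟨s₀, h0, h s₀ h0 dvd_rfl⟩

/-! #### `Ev2` -/

theorem Ev2.mono {R : RMdl L K m r} {Q Q' : RMdl L K m r → Prop} (h : Ev2 R Q)
    (h' : ∀ R, Q R → Q' R) : Ev2 R Q' := by
  obtain ⟨s₀, h0, h⟩ := h
  refine ⟨s₀, h0, fun s hs hd => ?_⟩
  obtain ⟨p₀, h1, h2⟩ := h s hs hd
  exact ⟨p₀, h1, fun p hp hd' => h' _ (h2 p hp hd')⟩

theorem Ev2.and {R : RMdl L K m r} {Q Q' : RMdl L K m r → Prop} (h : Ev2 R Q) (h' : Ev2 R Q') :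
    Ev2 R fun R => Q R ∧ Q' R := by
  obtain ⟨s₀, h0, h⟩ := h
  obtain ⟨s₁, h1, h'⟩ := h'
  refine ⟨s₀ * s₁, mul_ne_zero h0 h1, fun s hs hd => ?_⟩
  obtain ⟨p₀, h2, h3⟩ := h s hs (dvd_of_mul_right_dvd hd)
  obtain ⟨p₁, h2', h3'⟩ := h' s hs (dvd_of_mul_left_dvd hd)
  exact ⟨p₀ * p₁, mul_ne_zero h2 h2', fun p hp hd' =>
    ⟨h3 p hp (dvd_of_mul_right_dvd hd'), h3' p hp (dvd_of_mul_left_dvd hd')⟩⟩

theorem Ev2.of_forall {R : RMdl L K m r} {Q : RMdl L K m r → Prop} (h : ∀ R, Q R) : Ev2 R Q :=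
  ⟨1, one_ne_zero, fun _ _ _ => ⟨1, one_ne_zero, fun _ _ _ => h _⟩⟩

theorem Ev2.exists {R : RMdl L K m r} {Q : RMdl L K m r → Prop} (h : Ev2 R Q) :
    ∃ (s : MvPolynomial (Fin (m + r)) ℂ) (hs : s ≠ 0) (p : MvPolynomial (Fin m) ℂ) (hp : p ≠ 0),
      Q (R.shrink p hp s hs) := by
  obtain ⟨s₀, h0, h⟩ := h
  obtain ⟨p₀, h1, h2⟩ := h s₀ h0 dvd_rfl
  exact ⟨s₀, h0, p₀, h1, h2 p₀ h1 dvd_rfl⟩

/-- a statement about the base -/
theorem Ev2.of_base {R : RMdl L K m r} {Q : Mdl L m → Prop} (h : Ev1 R.ML Q) :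
    Ev2 R fun R => Q R.ML := by
  obtain ⟨p₀, h0, h⟩ := h
  exact ⟨1, one_ne_zero, fun _ _ _ => ⟨p₀, h0, fun p hp hd => h p hp hd⟩⟩

/-- a statement about the total space -/
theorem Ev2.of_total {R : RMdl L K m r} {Q : Mdl K (m + r) → Prop} (h : Ev1 R.MK Q) :
    Ev2 R fun R => Q R.MK := by
  obtain ⟨s₀, h0, h⟩ := h
  exact ⟨s₀, h0, fun s hs hd => ⟨1, one_ne_zero, fun p hp _ =>
    h _ (cp2_ne hp hs) (hd.trans (Dvd.intro_left _ rfl))⟩⟩

/-- surjectivity of `q` -/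
theorem Ev2.surj (R : RMdl L K m r) : Ev2 R fun R => Function.Surjective R.q :=
  ⟨1, one_ne_zero, fun s hs _ => R.exists_surj s hs⟩

/-! #### `Ev` -/

variable {W : Tow T L K ρ a r} {Q Q' : Tow T L K ρ a r → Prop}

theorem Ev.mono (h : Ev W Q) (h' : ∀ W, Q W → Q' W) : Ev W Q' := by
  obtain ⟨s₀, h0, h⟩ := h
  refine ⟨s₀, h0, fun s hs hd => ?_⟩
  obtain ⟨p₀, h1, h2⟩ := h s hs hd
  refine ⟨p₀, h1, fun p hp hd' => ?_⟩
  obtain ⟨c₀, h3, h4⟩ := h2 p hp hd'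
  exact ⟨c₀, h3, fun c hc hd'' => h' _ (h4 c hc hd'')⟩

theorem Ev.and (h : Ev W Q) (h' : Ev W Q') : Ev W fun W => Q W ∧ Q' W := by
  obtain ⟨s₀, h0, h⟩ := h
  obtain ⟨s₁, h0', h'⟩ := h'
  refine ⟨s₀ * s₁, mul_ne_zero h0 h0', fun s hs hd => ?_⟩
  obtain ⟨p₀, h1, h2⟩ := h s hs (dvd_of_mul_right_dvd hd)
  obtain ⟨p₁, h1', h2'⟩ := h' s hs (dvd_of_mul_left_dvd hd)
  refine ⟨p₀ * p₁, mul_ne_zero h1 h1', fun p hp hd' => ?_⟩
  obtain ⟨c₀, h3, h4⟩ := h2 p hp (dvd_of_mul_right_dvd hd')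
  obtain ⟨c₁, h3', h4'⟩ := h2' p hp (dvd_of_mul_left_dvd hd')
  exact ⟨c₀ * c₁, mul_ne_zero h3 h3', fun c hc hd'' =>
    ⟨h4 c hc (dvd_of_mul_right_dvd hd''), h4' c hc (dvd_of_mul_left_dvd hd'')⟩⟩

theorem Ev.of_forall (h : ∀ W, Q W) : Ev W Q :=
  ⟨1, one_ne_zero, fun _ _ _ => ⟨1, one_ne_zero, fun _ _ _ => ⟨1, one_ne_zero, fun _ _ _ => h _⟩⟩⟩

theorem Ev.exists (h : Ev W Q) : ∃ (s : MvPolynomial (Fin (ρ + a + r)) ℂ) (hs : s ≠ 0)
    (p : MvPolynomial (Fin (ρ + a)) ℂ) (hp : p ≠ 0) (c : MvPolynomial (Fin ρ) ℂ) (hc : c ≠ 0),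
    Q (W.shrink c hc p hp s hs) := by
  obtain ⟨s₀, h0, h⟩ := h
  obtain ⟨p₀, h1, h2⟩ := h s₀ h0 dvd_rfl
  obtain ⟨c₀, h3, h4⟩ := h2 p₀ h1 dvd_rfl
  exact ⟨s₀, h0, p₀, h1, c₀, h3, h4 c₀ h3 dvd_rfl⟩

/-- for finitely many statements -/
theorem Ev.forall_finset {ι : Type*} (S : Finset ι) {Q : ι → Tow T L K ρ a r → Prop}
    (h : ∀ i ∈ S, Ev W (Q i)) : Ev W fun W => ∀ i ∈ S, Q i W := by
  classical
  induction S using Finset.induction_on with
  | empty => exact Ev.of_forall fun _ _ hi => absurd hi (Finset.notMem_empty _)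
  | insert i S hi ih =>
    refine ((h i (Finset.mem_insert_self i S)).and
      (ih fun j hj => h j (Finset.mem_insert_of_mem hj))).mono ?_
    rintro W ⟨h1, h2⟩ j hj
    rcases Finset.mem_insert.1 hj with rfl | hj
    · exact h1
    · exact h2 j hj

theorem Ev.of_LK {Q : RMdl L K (ρ + a) r → Prop} (h : Ev2 W.LK Q) : Ev W fun W => Q W.LK := by
  obtain ⟨s₀, h0, h⟩ := h
  refine ⟨s₀, h0, fun s hs hd => ?_⟩
  obtain ⟨p₀, h1, h2⟩ := h s hs hd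
  refine ⟨p₀, h1, fun p hp hd' => ⟨1, one_ne_zero, fun c hc _ => ?_⟩⟩
  exact h2 (cp2 c p) (cp2_ne hc hp) (hd'.trans (Dvd.intro_left _ rfl))

theorem Ev.of_TL {Q : RMdl T L ρ a → Prop} (h : Ev2 W.TL Q) : Ev W fun W => Q W.TL := by
  obtain ⟨s₀, h0, h⟩ := h
  exact ⟨1, one_ne_zero, fun s hs _ => ⟨s₀, h0, fun p hp hd => h p hp hd⟩⟩

theorem Ev.of_MK {Q : Mdl K (ρ + a + r) → Prop} (h : Ev1 W.MK Q) : Ev W fun W => Q W.MK := by
  obtain ⟨s₀, h0, h⟩ := h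
  exact ⟨s₀, h0, fun s hs hd => ⟨1, one_ne_zero, fun p hp _ => ⟨1, one_ne_zero, fun c hc _ =>
    h _ (cp2_ne (cp2_ne hc hp) hs) (hd.trans (Dvd.intro_left _ rfl))⟩⟩⟩

theorem Ev.of_ML {Q : Mdl L (ρ + a) → Prop} (h : Ev1 W.ML Q) : Ev W fun W => Q W.ML := by
  obtain ⟨p₀, h0, h⟩ := h
  exact ⟨1, one_ne_zero, fun s hs _ => ⟨p₀, h0, fun p hp hd => ⟨1, one_ne_zero, fun c hc _ =>
    h _ (cp2_ne hc hp) (hd.trans (Dvd.intro_left _ rfl))⟩⟩⟩

theorem Ev.of_MT {Q : Mdl T ρ → Prop} (h : Ev1 W.MT Q) : Ev W fun W => Q W.MT := by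
  obtain ⟨c₀, h0, h⟩ := h
  exact ⟨1, one_ne_zero, fun s hs _ => ⟨1, one_ne_zero, fun p hp _ => ⟨c₀, h0, fun c hc hd =>
    h _ hc hd⟩⟩⟩

/-- the maps `M_K → M_L → M_T` are surjective -/
theorem Ev.surj (W : Tow T L K ρ a r) :
    Ev W fun W => Function.Surjective W.TL.q ∧ Function.Surjective W.LK.q :=
  (Ev.of_TL (Ev2.surj W.TL)).and (Ev.of_LK (Ev2.surj W.LK))

end ev

/-! ### prescribed units -/

section units

variable {K : Type} [Field K] [Algebra ℂ K] {n : ℕ}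

theorem mem_mono {M M' : Mdl K n} (h : M.B ≤ M'.B) {S : Finset K}
    (hS : ∀ s ∈ S, s ∈ M.B ∧ s⁻¹ ∈ M.B) : ∀ s ∈ S, s ∈ M'.B ∧ s⁻¹ ∈ M'.B :=
  fun s hs => ⟨h (hS s hs).1, h (hS s hs).2⟩

/-- finitely many elements and their inverses belong to all sufficiently small models -/
theorem Ev1.units [Algebra.EssFiniteType ℂ K] (M : Mdl K n) (hM : IsTranscendenceBasis ℂ M.zK)
    (S : Finset K) : Ev1 M fun M => ∀ s ∈ S, s ∈ M.B ∧ s⁻¹ ∈ M.B := by
  obtain ⟨g, hg, h⟩ := exists_mdl M.zK hM S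
  obtain ⟨M', hM'h, hM'z, hM'S⟩ := h g hg dvd_rfl
  refine ⟨g, hg, fun s hs hd => ?_⟩
  have h1 : M'.B ≤ (M.loc s hs).B := by
    refine Mdl.B_le (j := 1) ?_ ?_
    · funext i; exact hM'z i
    · rw [hM'h, pow_one, Mdl.loc_h]
      exact hd.trans (Dvd.intro_left _ rfl)
  exact mem_mono h1 hM'S

end units

end Crest.Agent.R276.TowA_849
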