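import Mathlib
import Crest.Agent.R276.RelB_870
import Crest.Agent.R276.TowA_849

/-!
# Row 276 (helper870): fibre integrals along towers and over `s`-fold fibre products

* `fint_TK` : `∫_{fibre of K/T} = ∫_{fibre of L/T} ∫_{fibre of K/L}` on 849's towers; `leb_TK`;
* `tow H₁ H₂` : the tower of two relative models of `SkelDefs_220`;
* `fS_pi` : the `s`-fold fibre integral of a Riemann domain is the integral for the product measure;
* `fintS_pi`, `fintS_prod`, `fintS_succ` for `Rel.fintS`;
* `holF_iff`.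
-/

set_option autoImplicit false
set_option linter.unusedSectionVars false

open Topology Filter Set MeasureTheory
open scoped ENNReal

noncomputable section

namespace Crest.Agent.R276.RelC_870

open Crest.Agent.R271 Crest.Agent.R271.Rd692 Crest.Agent.R271.Ho51
open Crest.Agent.R271.Defs710 hiding glue
open Crest.Agent.R276.Mod1_987 Crest.Agent.R276.SkelDefs_220 Crest.Agent.R276.CInd_870
open Crest.Agent.R276.RelB_870 Crest.Agent.R276.TowA_849

/-! ### towers -/

section tow

variable {T L K : Type} [Field T] [Field L] [Field K] [Algebra ℂ T] [Algebra ℂ L] [Algebra ℂ K]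
  [Algebra T L] [Algebra L K] [Algebra T K] [IsScalarTower ℂ T L] [IsScalarTower ℂ L K]
  [IsScalarTower T L K] [IsScalarTower ℂ T K] {ρ a r : ℕ} (W : Tow T L K ρ a r)






end tow

section towrel

variable {T L K : Type} [Field T] [Field L] [Field K] [Algebra ℂ T] [Algebra ℂ L] [Algebra ℂ K]
  [Algebra T L] [Algebra L K] [Algebra T K] [IsScalarTower ℂ T L] [IsScalarTower ℂ L K]
  [IsScalarTower T L K] [IsScalarTower ℂ T K] {ρ a r : ℕ}
  {MT : Mdl T ρ} {ML : Mdl L (ρ + a)} {MK : Mdl K (ρ + a + r)} (H₁ : Rel MT ML) (H₂ : Rel ML MK)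

/-- two relative models of `SkelDefs_220` form a tower of 849 -/
@[reducible] def tow : Tow T L K ρ a r where
  MT := MT
  ML := ML
  MK := MK
  zL := H₁.coord
  zK := H₂.coord
  inclT := H₁.mem
  inclL := H₂.mem






end towrel


/-! ### `s`-fold fibre integrals of a Riemann domain -/

section pi

variable {r : ℕ} {A : Type*} [TopologicalSpace A] [RDom r A] [SecondCountableTopology A]
  [MeasurableSpace A] [BorelSpace A]

/-- the fibre sum over a point of `(ℂ^r)^s` -/
def fsS {s : ℕ} (G : (Fin s → A) → ℝ≥0∞) (x : Fin s → Cn r) : ℝ≥0∞ :=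
  ∑' y : {y : Fin s → A // ∀ i, cp (y i) = x i}, G y.1

lemma fsS_zero (G : (Fin 0 → A) → ℝ≥0∞) (x : Fin 0 → Cn r) : fsS G x = G default := by
  unfold fsS
  rw [tsum_eq_single (⟨default, fun i => i.elim0⟩ : {y : Fin 0 → A // ∀ i, cp (y i) = x i})]
  rintro ⟨y, hy⟩ hne
  exact absurd (Subtype.ext (Subsingleton.elim _ _)) hne

lemma fsS_succ {s : ℕ} (G : (Fin (s + 1) → A) → ℝ≥0∞) (x : Fin (s + 1) → Cn r) :
    fsS G x = ∑' y : {y : Fin s → A // ∀ i, cp (y i) = x i.succ},
      ∑' y₀ : {y₀ : A // cp y₀ = x 0}, G (Fin.cons y₀.1 y.1) := by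
  unfold fsS
  let e : {y : Fin (s + 1) → A // ∀ i, cp (y i) = x i} ≃
      Σ _ : {y : Fin s → A // ∀ i, cp (y i) = x i.succ}, {y₀ : A // cp y₀ = x 0} :=
    { toFun := fun y => ⟨⟨fun i => y.1 i.succ, fun i => y.2 i.succ⟩, ⟨y.1 0, y.2 0⟩⟩
      invFun := fun q => ⟨Fin.cons q.2.1 q.1.1, fun i => by
        refine Fin.cases ?_ (fun i => ?_) i
        · simpa using q.2.2
        · simpa using q.1.2 i⟩
      left_inv := fun y => by
        apply Subtype.ext
        funext i
        refine Fin.cases ?_ (fun i => ?_) i <;> simp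
      right_inv := fun q => by
        rcases q with ⟨⟨y, hy⟩, ⟨y₀, hy₀⟩⟩
        simp }
  have h1 := e.symm.tsum_eq (fun y : {y : Fin (s + 1) → A // ∀ i, cp (y i) = x i} => G y.1)
  have h2 := ENNReal.tsum_sigma (fun (y : {y : Fin s → A // ∀ i, cp (y i) = x i.succ})
    (y₀ : {y₀ : A // cp y₀ = x 0}) => G (Fin.cons y₀.1 y.1))
  exact h1.symm.trans h2

lemma measurable_cons' {s : ℕ} {B : Type*} [MeasurableSpace B] :
    Measurable fun q : B × (Fin s → B) => (Fin.cons q.1 q.2 : Fin (s + 1) → B) := by
  refine measurable_pi_lambda _ fun j => ?_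
  refine Fin.cases ?_ (fun j => ?_) j
  · simpa using measurable_fst
  · exact (measurable_pi_apply j).comp measurable_snd

/-- fibre sums over `(ℂ^r)^s` are measurable, with parameters -/
theorem measurable_fsS_param {s : ℕ} : ∀ {Z : Type} [MeasurableSpace Z]
    {G : (Fin s → A) × Z → ℝ≥0∞}, Measurable G →
    Measurable fun p : (Fin s → Cn r) × Z => fsS (fun y => G (y, p.2)) p.1 := by
  induction s with
  | zero =>
    intro Z _ G hG
    simp_rw [fsS_zero]
    exact hG.comp (Measurable.prodMk measurable_const measurable_snd)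
  | succ s ih =>
    intro Z _ G hG
    have h1 : Measurable fun q : (Fin s → A) × (Cn r × Z) =>
        ∑' y₀ : {y₀ : A // cp y₀ = q.2.1}, G (Fin.cons y₀.1 q.1, q.2.2) := by
      have h2 : Measurable fun q : A × ((Fin s → A) × Z) =>
          G ((Fin.cons q.1 q.2.1 : Fin (s + 1) → A), q.2.2) :=
        hG.comp (Measurable.prodMk (measurable_cons'.comp
          (Measurable.prodMk measurable_fst (measurable_fst.comp measurable_snd)))
          (measurable_snd.comp measurable_snd))
      have h3 := measurable_fibre_param (n := r) h2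
      have h4 : Measurable fun q : (Fin s → A) × (Cn r × Z) =>
          ((q.2.1, (q.1, q.2.2)) : Cn r × ((Fin s → A) × Z)) :=
        Measurable.prodMk (measurable_fst.comp measurable_snd)
          (Measurable.prodMk measurable_fst (measurable_snd.comp measurable_snd))
      exact h3.comp h4
    have h2 := ih h1
    have h3 : Measurable fun p : (Fin (s + 1) → Cn r) × Z =>
        (((fun i => p.1 i.succ), (p.1 0, p.2)) : (Fin s → Cn r) × (Cn r × Z)) := by
      refine Measurable.prodMk (measurable_pi_lambda _ fun i => ?_) (Measurable.prodMk ?_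
        measurable_snd)
      · exact (measurable_pi_apply _).comp measurable_fst
      · exact (measurable_pi_apply _).comp measurable_fst
    have h4 := h2.comp h3
    have h5 : (fun p : (Fin (s + 1) → Cn r) × Z => fsS (fun y => G (y, p.2)) p.1) =
        (fun p : (Fin s → Cn r) × (Cn r × Z) => fsS (fun y : Fin s → A =>
          ∑' y₀ : {y₀ : A // cp y₀ = p.2.1}, G (Fin.cons y₀.1 y, p.2.2)) p.1) ∘
        fun p : (Fin (s + 1) → Cn r) × Z => ((fun i => p.1 i.succ), (p.1 0, p.2)) := by
      funext p
      rw [fsS_succ]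
      rfl
    rw [h5]
    exact h4

theorem measurable_fsS {s : ℕ} {G : (Fin s → A) → ℝ≥0∞} (hG : Measurable G) :
    Measurable fun x : Fin s → Cn r => fsS G x := by
  have h1 := measurable_fsS_param (r := r) (Z := Unit) (G := fun q : (Fin s → A) × Unit => G q.1)
    (hG.comp measurable_fst)
  exact h1.comp (Measurable.prodMk measurable_id (measurable_const (a := ())))

lemma countable_cp [T2Space A] (ξ : Cn r) : Countable {y : A // cp y = ξ} := by
  have h1 : DiscreteTopology {y : A // cp y = ξ} := by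
    rw [discreteTopology_iff_isOpen_singleton]
    rintro ⟨y, hy⟩
    have h2 : IsOpen ((Subtype.val : {y : A // cp y = ξ} → A) ⁻¹' (ch y).source) :=
      (ch y).open_source.preimage continuous_subtype_val
    have h3 : (Subtype.val : {y : A // cp y = ξ} → A) ⁻¹' (ch y).source = {⟨y, hy⟩} := by
      ext ⟨y', hy'⟩
      simp only [mem_preimage, mem_singleton_iff, Subtype.mk.injEq]
      constructor
      · intro h
        have h4 := (isCh_ch y).symm_cp h
        have h5 := (isCh_ch y).symm_cp (mem_ch y)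
        rw [hy'] at h4
        rw [hy] at h5
        rw [← h4, h5]
      · rintro rfl
        exact mem_ch y'
    rw [← h3]
    exact h2
  exact countable_of_Lindelof_of_discrete

/-- **the `s`-fold fibre integral is the integral for the product measure** -/
theorem fS_pi [T2Space A] {μ : Measure A} (hμ : IsLeb μ) : ∀ {s : ℕ} {G : (Fin s → A) → ℝ≥0∞},
    Measurable G → ∫⁻ x : Fin s → Cn r, fsS G x = ∫⁻ y, G y ∂(Measure.pi fun _ => μ) := by
  have := IsLeb.locallyFinite hμ
  intro s
  induction s with
  | zero =>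
    intro G hG
    simp_rw [fsS_zero]
    rw [lintegral_const, Measure.pi_of_empty, lintegral_dirac]
    have h1 : (volume : Measure (Fin 0 → Cn r)) univ = 1 := by
      rw [volume_pi, Measure.pi_of_empty]
      simp
    rw [h1, mul_one]
    congr 1
  | succ s ih =>
    intro G hG
    have hGc : Measurable fun q : (Fin s → A) × A => G (Fin.cons q.2 q.1) :=
      hG.comp (measurable_cons'.comp (Measurable.prodMk measurable_snd measurable_fst))
    rw [DetB_606.lintegral_succ hG, ← ih hGc.lintegral_prod_right']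
    have h1 : Measurable fun x : Fin (s + 1) → Cn r => fsS G x := measurable_fsS hG
    rw [volume_pi, DetB_606.lintegral_succ h1]
    refine lintegral_congr fun x' => ?_
    have h6 : ∀ x : Cn r, fsS G (Fin.cons x x' : Fin (s + 1) → Cn r) =
        ∑' y : {y : Fin s → A // ∀ i, cp (y i) = x' i},
          ∑' y₀ : {y₀ : A // cp y₀ = x}, G (Fin.cons y₀.1 y.1) := fun x =>
      fsS_succ G (Fin.cons x x' : Fin (s + 1) → Cn r)
    refine (lintegral_congr h6).trans ?_
    have hct : Countable {y : Fin s → A // ∀ i, cp (y i) = x' i} := by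
      have h2 : ∀ i, Countable {y : A // cp y = x' i} := fun i => countable_cp (x' i)
      refine Function.Injective.countable (f := fun (y : {y : Fin s → A // ∀ i, cp (y i) = x' i}) i =>
        (⟨y.1 i, y.2 i⟩ : {y : A // cp y = x' i})) ?_
      intro y y' h
      apply Subtype.ext
      funext i
      exact congrArg (fun t => t.1) (congrFun h i)
    have hm : ∀ y : Fin s → A, Measurable fun y₀ : A => G (Fin.cons y₀ y) := fun y =>
      hG.comp (measurable_cons'.comp (Measurable.prodMk measurable_id measurable_const))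
    refine (lintegral_tsum (f := fun (y : {y : Fin s → A // ∀ i, cp (y i) = x' i}) (x : Cn r) =>
      ∑' y₀ : {y₀ : A // cp y₀ = x}, G (Fin.cons y₀.1 y.1))
      fun y => (measurable_fibre (hm y.1)).aemeasurable).trans ?_
    unfold fsS
    refine tsum_congr fun y => ?_
    exact (lintegral_eq_fibre hμ (hm y.1)).symm

end pi


/-! ### `Rel.fintS` -/

section fintS

variable {L K : Type} [Field L] [Field K] [Algebra ℂ L] [Algebra ℂ K] [Algebra L K]
  [IsScalarTower ℂ L K] {m r : ℕ} {ML : Mdl L m} {MK : Mdl K (m + r)} (H : Rel ML MK)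

/-- the fibre of `M_K → M_L` over `z` -/
abbrev FibR (z : ML.Pts) : Type := (rm H).Fib z

lemma fintS_eq_fsS {s : ℕ} (z : ML.Pts) (G : (Fin s → MK.Pts) → ℝ≥0∞) :
    H.fintS s z G = ∫⁻ x : Fin s → Cn r, fsS (fun y : Fin s → FibR H z => G fun i => (y i).val) x := by
  unfold Rel.fintS fsS
  refine lintegral_congr fun x => ?_
  let e : {y : Fin s → MK.Pts // (∀ i, H.f (y i) = z) ∧
      ∀ i, (fun j => MK.pz (y i) (Fin.natAdd m j)) = x i} ≃
      {y : Fin s → FibR H z // ∀ i, cp (y i) = x i} :=
    { toFun := fun y => ⟨fun i => ⟨y.1 i, (rm_q H _).trans (y.2.1 i)⟩, fun i => y.2.2 i⟩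
      invFun := fun y => ⟨fun i => (y.1 i).val, fun i => (rm_q H _).symm.trans (y.1 i).q_eq,
        fun i => y.2 i⟩
      left_inv := fun _ => rfl
      right_inv := fun _ => rfl }
  exact e.tsum_eq (fun y : {y : Fin s → FibR H z // ∀ i, cp (y i) = x i} =>
    G fun i => (y.1 i).val)

lemma measurable_valS {s : ℕ} (z : ML.Pts) :
    Measurable fun (y : Fin s → FibR H z) (i : Fin s) => (y i).val :=
  measurable_pi_lambda _ fun i =>
    (RMdl.Fib.continuous_val (R := rm H) z).measurable.comp (measurable_pi_apply i)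

/-- `fintS` is the integral for the product of the Lebesgue measures of the fibre -/
theorem fintS_pi {s : ℕ} {z : ML.Pts} {μ : Measure (FibR H z)} (hμ : IsLeb μ)
    {G : (Fin s → MK.Pts) → ℝ≥0∞} (hG : Measurable G) :
    H.fintS s z G = ∫⁻ y : Fin s → FibR H z, G (fun i => (y i).val) ∂(Measure.pi fun _ => μ) := by
  rw [fintS_eq_fsS]
  exact fS_pi hμ (hG.comp (measurable_valS H z))



end fintS


/-! ### holomorphy on fibres -/

section holgen

variable {n n' : ℕ} {A A' : Type*} [TopologicalSpace A] [RDom n A] [TopologicalSpace A'] [RDom n' A']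

/-- maps over an analytic map of the coordinate spaces: germs -/
lemma germ_comp {φ : A → A'} (hφ : Continuous φ) {ℓ : Cn n → Cn n'} (h : ∀ x, cp (φ x) = ℓ (cp x))
    (x : A) : (fun w => φ ((ch x).symm w)) =ᶠ[𝓝 (cp x)] fun w => (ch (φ x)).symm (ℓ w) := by
  have hT : (ch x).target ∈ 𝓝 (cp x) := (ch x).open_target.mem_nhds ((isCh_ch x).cp_mem (mem_ch x))
  have h1 : ContinuousAt (ch x).symm (cp x) :=
    (ch x).symm.continuousAt (by simpa using (isCh_ch x).cp_mem (mem_ch x))
  have hc : ContinuousAt (fun w => φ ((ch x).symm w)) (cp x) := hφ.continuousAt.comp h1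
  have h2 : ∀ᶠ w in 𝓝 (cp x), φ ((ch x).symm w) ∈ (ch (φ x)).source := by
    apply hc.eventually_mem
    simp only [(isCh_ch x).symm_cp (mem_ch x)]
    exact (ch (φ x)).open_source.mem_nhds (mem_ch (φ x))
  filter_upwards [hT, h2] with w hw1 hw2
  have h4 := (isCh_ch (φ x)).symm_cp hw2
  rw [h, (isCh_ch x).cp_symm hw1] at h4
  exact h4.symm


end holgen


section hol

variable {L K : Type} [Field L] [Field K] [Algebra ℂ L] [Algebra ℂ K] [Algebra L K]
  [IsScalarTower ℂ L K] {m r : ℕ} {ML : Mdl L m} {MK : Mdl K (m + r)} (H : Rel ML MK)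

lemma cp_val (z : ML.Pts) (y : FibR H z) : cp y.val = Fin.append (ML.pz z) (cp y) := by
  have h1 := (rm H).append_eq y.val
  rw [y.q_eq] at h1
  exact h1.symm

lemma germ_val (z : ML.Pts) (y : FibR H z) :
    (fun w => ((ch y).symm w).val) =ᶠ[𝓝 (cp y)] fun w => (ch y.val).symm (Fin.append (ML.pz z) w) :=
  germ_comp (RMdl.Fib.continuous_val (R := rm H) z) (cp_val H z) y

/-- `Rel.HolF` is holomorphy on the Riemann domain `Fib z` -/
theorem holF_iff (z : ML.Pts) (g : MK.Pts → ℂ) :
    H.HolF z g ↔ Ho51.Hol (fun y : FibR H z => g y.val) := by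
  rw [AB2_590.hol51_iff]
  have key : ∀ y : FibR H z, (AnalyticAt ℂ ((fun y : FibR H z => g y.val) ∘ (ch y).symm) (cp y) ↔
      AnalyticAt ℂ (fun x : Cn r => g ((ch y.val).symm (Fin.append (ML.pz z) x)))
        (fun j => MK.pz y.val (Fin.natAdd m j))) := by
    intro y
    have h1 : cp y = (fun j => MK.pz y.val (Fin.natAdd m j)) := rfl
    rw [← h1]
    apply analyticAt_congr
    filter_upwards [germ_val H z y] with w hw
    simp only [Function.comp_apply]
    rw [hw]
  constructor
  · intro h y
    exact (key y).2 (h y.val ((rm_q H _).symm.trans y.q_eq))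
  · intro h y hy
    exact (key ⟨y, (rm_q H _).trans hy⟩).1 (h ⟨y, (rm_q H _).trans hy⟩)



end hol

section holS

variable {T L : Type} [Field T] [Field L] [Algebra ℂ T] [Algebra ℂ L] [Algebra T L]
  [IsScalarTower ℂ T L] {ρ a : ℕ} {MT : Mdl T ρ} {ML : Mdl L (ρ + a)} (H : Rel MT ML)






end holS

section holTK

variable {T L K : Type} [Field T] [Field L] [Field K] [Algebra ℂ T] [Algebra ℂ L] [Algebra ℂ K]
  [Algebra T L] [Algebra L K] [Algebra T K] [IsScalarTower ℂ T L] [IsScalarTower ℂ L K]
  [IsScalarTower T L K] [IsScalarTower ℂ T K] {ρ a r : ℕ}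
  {MT : Mdl T ρ} {ML : Mdl L (ρ + a)} {MK : Mdl K (ρ + a + r)} (H₁ : Rel MT ML) (H₂ : Rel ML MK)



variable {H₁ H₂} {y₀ : MT.Pts}











end holTK

end Crest.Agent.R276.RelC_870
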