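import Mathlib
import Crest.Agent.R266.Osgood

/-!
# R276, leaf GLOB-N (helper739): globalisation of the transports of LEMMA N (#1072 (e), (LT) of BP-A)

`Φ : E → V → ℝ` continuous family of positive functions on the finite dimensional space `V`, homogeneous
of degree `p > 0`; `f : E → ℂ` continuous without zeros (`structure Data`);
`J Φ f k l z0 z = {A | Φ z (A a) = Φ z0 a, det A ^ k * f z ^ l = f z0 ^ l}`.

* `Data.isUnit`, `Data.mul_mem`, `Data.inv_mem`, `Data.inv_mul_mem`, `Data.J_eq` : `J z0 z` is a torsor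
  under the group `J z0 z0`; `Data.lower`, `Data.upper`, `Data.bounded`, `Data.isCompact_J`, `Data.usc`.
* `Data.glob` : if `J z0 z0` is finite and along every complex disc in `B` there is a holomorphic
  transport with values in `J` (`Data.Line`), then near `z0` there is a holomorphic `T` with `T z0 = 1`,
  `T z ∈ J z0 z`. No Montel, no paths: `T z` is THE element of `J z0 z` close to `1`.
-/

set_option autoImplicit false
set_option linter.unusedSectionVars false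

open Set Filter Topology Metric

namespace Crest.Agent.R276.GlobN_739

variable {E : Type*} [NormedAddCommGroup E] [NormedSpace ℂ E] [FiniteDimensional ℂ E]
variable {V : Type*} [NormedAddCommGroup V] [NormedSpace ℂ V] [FiniteDimensional ℂ V]

/-- the isometries from the fibre over `z0` to the fibre over `z` (with fixed determinant) -/
def J (Φ : E → V → ℝ) (f : E → ℂ) (k l : ℕ) (z0 z : E) : Set (V →L[ℂ] V) :=
  {A | (∀ a, Φ z (A a) = Φ z0 a) ∧ LinearMap.det (A : V →ₗ[ℂ] V) ^ k * f z ^ l = f z0 ^ l}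

/-- the data -/
structure Data (Φ : E → V → ℝ) (f : E → ℂ) (p : ℝ) (B : Set E) : Prop where
  op : IsOpen B
  cont : ContinuousOn (fun q : E × V => Φ q.1 q.2) (B ×ˢ univ)
  pos : ∀ z ∈ B, ∀ v, v ≠ 0 → 0 < Φ z v
  hom : ∀ z ∈ B, ∀ (c : ℂ) v, Φ z (c • v) = ‖c‖ ^ p * Φ z v
  p0 : 0 < p
  fc : ContinuousOn f B
  f0 : ∀ z ∈ B, f z ≠ 0

variable {Φ : E → V → ℝ} {f : E → ℂ} {p : ℝ} {B : Set E} {k l : ℕ}

namespace Data

theorem zero (D : Data Φ f p B) {z : E} (hz : z ∈ B) : Φ z 0 = 0 := by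
  have h := D.hom z hz 0 0
  rw [zero_smul, norm_zero, Real.zero_rpow D.p0.ne', zero_mul] at h
  exact h

theorem isUnit (D : Data Φ f p B) {z0 z : E} (hz0 : z0 ∈ B) (hz : z ∈ B) {A : V →L[ℂ] V}
    (hA : A ∈ J Φ f k l z0 z) : IsUnit A := by
  have : CompleteSpace V := FiniteDimensional.complete ℂ V
  have hinj : Function.Injective (A : V →ₗ[ℂ] V) := by
    rw [injective_iff_map_eq_zero]
    intro a ha
    by_contra hne
    have h1 := hA.1 a
    have h2 : A a = 0 := ha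
    rw [h2, D.zero hz] at h1
    exact (D.pos z0 hz0 a hne).ne h1
  rw [ContinuousLinearMap.isUnit_iff_bijective]
  exact ⟨hinj, LinearMap.injective_iff_surjective.1 hinj⟩

theorem mul_mem {z0 z1 z : E} {A A' : V →L[ℂ] V} (hA : A ∈ J Φ f k l z1 z)
    (hA' : A' ∈ J Φ f k l z0 z1) : A * A' ∈ J Φ f k l z0 z := by
  refine ⟨fun a => ?_, ?_⟩
  · rw [mul_apply_eq_comp, hA.1, hA'.1]
  · have h : ((A * A' : V →L[ℂ] V) : V →ₗ[ℂ] V) = (A : V →ₗ[ℂ] V) * (A' : V →ₗ[ℂ] V) := rfl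
    rw [h, map_mul, mul_pow, ← hA'.2, ← hA.2]
    ring

theorem one_mem (z : E) : (1 : V →L[ℂ] V) ∈ J Φ f k l z z := by
  refine ⟨fun a => rfl, ?_⟩
  have h : ((1 : V →L[ℂ] V) : V →ₗ[ℂ] V) = 1 := rfl
  rw [h, map_one, one_pow, one_mul]

theorem inv_mem (D : Data Φ f p B) {z0 z : E} (hz0 : z0 ∈ B) (hz : z ∈ B) {A : V →L[ℂ] V}
    (hA : A ∈ J Φ f k l z0 z) : Ring.inverse A ∈ J Φ f k l z z0 := by
  have hu := D.isUnit hz0 hz hA
  have h1 : A * Ring.inverse A = 1 := Ring.mul_inverse_cancel A hu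
  refine ⟨fun a => ?_, ?_⟩
  · rw [← hA.1]
    have h2 : A (Ring.inverse A a) = (A * Ring.inverse A) a := rfl
    rw [h2, h1]
    rfl
  · have h3 : LinearMap.det (A : V →ₗ[ℂ] V) * LinearMap.det ((Ring.inverse A : V →L[ℂ] V) : V →ₗ[ℂ] V) = 1 := by
      rw [← map_mul]
      have h4 : (A : V →ₗ[ℂ] V) * ((Ring.inverse A : V →L[ℂ] V) : V →ₗ[ℂ] V) =
        ((A * Ring.inverse A : V →L[ℂ] V) : V →ₗ[ℂ] V) := rfl
      rw [h4, h1]
      have h5 : ((1 : V →L[ℂ] V) : V →ₗ[ℂ] V) = 1 := rfl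
      rw [h5, map_one]
    rw [← hA.2, ← mul_assoc, ← mul_pow, mul_comm (LinearMap.det ((Ring.inverse A : V →L[ℂ] V) : V →ₗ[ℂ] V)), h3,
      one_pow, one_mul]

/-- `J z0 z` is a torsor under `J z0 z0` -/
theorem inv_mul_mem (D : Data Φ f p B) {z0 z : E} (hz0 : z0 ∈ B) (hz : z ∈ B) {A A' : V →L[ℂ] V}
    (hA : A ∈ J Φ f k l z0 z) (hA' : A' ∈ J Φ f k l z0 z) :
    Ring.inverse A * A' ∈ J Φ f k l z0 z0 :=
  mul_mem (D.inv_mem hz0 hz hA) hA'


theorem lower (D : Data Φ f p B) {K : Set E} (hK : IsCompact K) (hKB : K ⊆ B) :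
    ∃ c > 0, ∀ z ∈ K, ∀ v : V, c * ‖v‖ ^ p ≤ Φ z v := by
  have : ProperSpace V := FiniteDimensional.proper ℂ V
  have hcomp : IsCompact (K ×ˢ sphere (0 : V) 1) := hK.prod (isCompact_sphere _ _)
  have hcont : ContinuousOn (fun q : E × V => Φ q.1 q.2) (K ×ˢ sphere (0 : V) 1) :=
    D.cont.mono (prod_mono hKB (subset_univ _))
  rcases (K ×ˢ sphere (0 : V) 1).eq_empty_or_nonempty with he | hne
  · refine ⟨1, one_pos, fun z hz v => ?_⟩
    rcases eq_or_ne v 0 with rfl | hv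
    · rw [norm_zero, Real.zero_rpow D.p0.ne', mul_zero, D.zero (hKB hz)]
    · exfalso
      have : (z, ((‖v‖ : ℂ)⁻¹ • v)) ∈ K ×ˢ sphere (0 : V) 1 := by
        refine ⟨hz, ?_⟩
        rw [mem_sphere_zero_iff_norm, norm_smul, norm_inv, Complex.norm_real, norm_norm,
          inv_mul_cancel₀ (norm_ne_zero_iff.2 hv)]
      rw [he] at this
      exact this
  · obtain ⟨q, hq, hmin⟩ := hcomp.exists_isMinOn hne hcont
    have hq2 : q.2 ≠ 0 := by
      intro h0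
      have := hq.2
      rw [mem_sphere_zero_iff_norm, h0, norm_zero] at this
      exact zero_ne_one this
    refine ⟨Φ q.1 q.2, D.pos q.1 (hKB hq.1) q.2 hq2, fun z hz v => ?_⟩
    rcases eq_or_ne v 0 with rfl | hv
    · rw [norm_zero, Real.zero_rpow D.p0.ne', mul_zero, D.zero (hKB hz)]
    · have hv0 : ‖v‖ ≠ 0 := norm_ne_zero_iff.2 hv
      set u : V := (‖v‖ : ℂ)⁻¹ • v with hu
      have hu1 : ‖u‖ = 1 := by
        rw [hu, norm_smul, norm_inv, Complex.norm_real, norm_norm, inv_mul_cancel₀ hv0]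
      have hvu : v = (‖v‖ : ℂ) • u := by
        rw [hu, smul_smul, mul_inv_cancel₀ (by exact_mod_cast hv0), one_smul]
      have h1 : Φ q.1 q.2 ≤ Φ z u := hmin (show (z, u) ∈ K ×ˢ sphere (0 : V) 1 from
        ⟨hz, by rw [mem_sphere_zero_iff_norm, hu1]⟩)
      have h2 : Φ z v = ‖v‖ ^ p * Φ z u := by
        conv_lhs => rw [hvu]
        rw [D.hom z (hKB hz), Complex.norm_real, norm_norm]
      rw [h2, mul_comm]
      exact mul_le_mul_of_nonneg_left h1 (by positivity)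

theorem upper (D : Data Φ f p B) {K : Set E} (hK : IsCompact K) (hKB : K ⊆ B) :
    ∃ C > 0, ∀ z ∈ K, ∀ v : V, Φ z v ≤ C * ‖v‖ ^ p := by
  have : ProperSpace V := FiniteDimensional.proper ℂ V
  have hcomp : IsCompact (K ×ˢ sphere (0 : V) 1) := hK.prod (isCompact_sphere _ _)
  have hcont : ContinuousOn (fun q : E × V => Φ q.1 q.2) (K ×ˢ sphere (0 : V) 1) :=
    D.cont.mono (prod_mono hKB (subset_univ _))
  obtain ⟨C, hC⟩ := hcomp.bddAbove_image hcont
  refine ⟨max C 1, lt_max_of_lt_right one_pos, fun z hz v => ?_⟩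
  rcases eq_or_ne v 0 with rfl | hv
  · rw [norm_zero, Real.zero_rpow D.p0.ne', mul_zero, D.zero (hKB hz)]
  · have hv0 : ‖v‖ ≠ 0 := norm_ne_zero_iff.2 hv
    set u : V := (‖v‖ : ℂ)⁻¹ • v with hu
    have hu1 : ‖u‖ = 1 := by
      rw [hu, norm_smul, norm_inv, Complex.norm_real, norm_norm, inv_mul_cancel₀ hv0]
    have hvu : v = (‖v‖ : ℂ) • u := by
      rw [hu, smul_smul, mul_inv_cancel₀ (by exact_mod_cast hv0), one_smul]
    have h1 : Φ z u ≤ C := hC ⟨(z, u), ⟨hz, by rw [mem_sphere_zero_iff_norm, hu1]⟩, rfl⟩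
    have h2 : Φ z v = ‖v‖ ^ p * Φ z u := by
      conv_lhs => rw [hvu]
      rw [D.hom z (hKB hz), Complex.norm_real, norm_norm]
    rw [h2, mul_comm]
    exact mul_le_mul_of_nonneg_right (h1.trans (le_max_left _ _)) (by positivity)

/-- the isometries are uniformly bounded over compact sets -/
theorem bounded (D : Data Φ f p B) {z0 : E} (hz0 : z0 ∈ B) {K : Set E} (hK : IsCompact K)
    (hKB : K ⊆ B) : ∃ C, ∀ z ∈ K, ∀ A ∈ J Φ f k l z0 z, ‖A‖ ≤ C := by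
  obtain ⟨c, hc, hlow⟩ := D.lower hK hKB
  obtain ⟨C, hC, hup⟩ := D.upper (isCompact_singleton (x := z0)) (singleton_subset_iff.2 hz0)
  refine ⟨(C / c) ^ (1 / p), fun z hz A hA => ?_⟩
  refine ContinuousLinearMap.opNorm_le_bound _ (by positivity) fun a => ?_
  have h1 := hlow z hz (A a)
  rw [hA.1 a] at h1
  have h2 := h1.trans (hup z0 rfl a)
  have h3 : ‖A a‖ ^ p ≤ (C / c) * ‖a‖ ^ p := by
    rw [div_mul_eq_mul_div, le_div_iff₀ hc]
    linarith
  have h4 : ((C / c) * ‖a‖ ^ p) = ((C / c) ^ (1 / p) * ‖a‖) ^ p := by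
    rw [Real.mul_rpow (by positivity) (norm_nonneg _), ← Real.rpow_mul (by positivity),
      one_div, inv_mul_cancel₀ D.p0.ne', Real.rpow_one]
  rw [h4] at h3
  exact (Real.rpow_le_rpow_iff (norm_nonneg _) (by positivity) D.p0).1 h3

theorem continuous_det' : Continuous (fun A : V →L[ℂ] V => LinearMap.det (A : V →ₗ[ℂ] V)) :=
  ContinuousLinearMap.continuous_det

/-- closedness of the family of isometries -/
theorem isCompact_J (D : Data Φ f p B) {z0 : E} (hz0 : z0 ∈ B) {K : Set E} (hK : IsCompact K)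
    (hKB : K ⊆ B) : IsCompact {q : E × (V →L[ℂ] V) | q.1 ∈ K ∧ q.2 ∈ J Φ f k l z0 q.1} := by
  have : ProperSpace (V →L[ℂ] V) := FiniteDimensional.proper ℂ _
  obtain ⟨C, hC⟩ := D.bounded (k := k) (l := l) hz0 hK hKB
  have hcomp : IsCompact (K ×ˢ closedBall (0 : V →L[ℂ] V) C) := hK.prod (isCompact_closedBall _ _)
  have h1 : {q : E × (V →L[ℂ] V) | q.1 ∈ K ∧ q.2 ∈ J Φ f k l z0 q.1} =
      {q ∈ K ×ˢ closedBall (0 : V →L[ℂ] V) C | q.2 ∈ J Φ f k l z0 q.1} := by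
    ext q
    constructor
    · rintro ⟨h1, h2⟩
      exact ⟨⟨h1, by rw [mem_closedBall_zero_iff]; exact hC _ h1 _ h2⟩, h2⟩
    · rintro ⟨h1, h2⟩
      exact ⟨h1.1, h2⟩
  rw [h1]
  have h2 : {q ∈ K ×ˢ closedBall (0 : V →L[ℂ] V) C | q.2 ∈ J Φ f k l z0 q.1} =
      (⋂ a : V, {q ∈ K ×ˢ closedBall (0 : V →L[ℂ] V) C | Φ q.1 (q.2 a) = Φ z0 a}) ∩
      {q ∈ K ×ˢ closedBall (0 : V →L[ℂ] V) C |
        LinearMap.det (q.2 : V →ₗ[ℂ] V) ^ k * f q.1 ^ l = f z0 ^ l} := by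
    ext q
    simp only [mem_inter_iff, mem_iInter, mem_ofPred_eq, J]
    constructor
    · rintro ⟨h1, h2, h3⟩
      exact ⟨fun a => ⟨h1, h2 a⟩, h1, h3⟩
    · rintro ⟨h1, h2, h3⟩
      exact ⟨h2, fun a => (h1 a).2, h3⟩
  rw [h2]
  have hcl := hcomp.isClosed
  refine hcomp.of_isClosed_subset ?_ (fun q hq => hq.2.1)
  refine (isClosed_iInter fun a => ?_).inter ?_
  · have hc : ContinuousOn (fun q : E × (V →L[ℂ] V) => Φ q.1 (q.2 a))
        (K ×ˢ closedBall (0 : V →L[ℂ] V) C) := by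
      have h3 : ContinuousOn (fun q : E × (V →L[ℂ] V) => (q.1, q.2 a))
          (K ×ˢ closedBall (0 : V →L[ℂ] V) C) := by fun_prop
      exact D.cont.comp h3 (fun q hq => ⟨hKB hq.1, mem_univ _⟩)
    exact hc.preimage_isClosed_of_isClosed hcl (isClosed_singleton (x := Φ z0 a))
  · have hc : ContinuousOn (fun q : E × (V →L[ℂ] V) =>
        LinearMap.det (q.2 : V →ₗ[ℂ] V) ^ k * f q.1 ^ l)
        (K ×ˢ closedBall (0 : V →L[ℂ] V) C) := by
      have h3 : ContinuousOn (fun q : E × (V →L[ℂ] V) => f q.1)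
          (K ×ˢ closedBall (0 : V →L[ℂ] V) C) :=
        (D.fc.mono hKB).comp continuousOn_fst (fun q hq => hq.1)
      have h4 : Continuous (fun q : E × (V →L[ℂ] V) => LinearMap.det (q.2 : V →ₗ[ℂ] V)) :=
        continuous_det'.comp continuous_snd
      exact (h4.continuousOn.pow k).mul (h3.pow l)
    exact hc.preimage_isClosed_of_isClosed hcl (isClosed_singleton (x := f z0 ^ l))

/-- upper semicontinuity of `z ↦ J z0 z` -/
theorem usc (D : Data Φ f p B) {z0 z1 : E} (hz0 : z0 ∈ B) (hz1 : z1 ∈ B) {ε : ℝ} (hε : 0 < ε) :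
    ∀ᶠ z in 𝓝 z1, ∀ A ∈ J Φ f k l z0 z, ∃ A1 ∈ J Φ f k l z0 z1, ‖A - A1‖ < ε := by
  have : ProperSpace E := FiniteDimensional.proper ℂ E
  obtain ⟨r, hr, hrB⟩ := Metric.nhds_basis_closedBall.mem_iff.1 (D.op.mem_nhds hz1)
  set K := closedBall z1 r with hKdef
  have hK : IsCompact K := isCompact_closedBall _ _
  have hcomp := D.isCompact_J (k := k) (l := l) hz0 hK hrB
  set S := {q : E × (V →L[ℂ] V) | q.1 ∈ K ∧ q.2 ∈ J Φ f k l z0 q.1} ∩
    {q | ∀ A1 ∈ J Φ f k l z0 z1, ε ≤ ‖q.2 - A1‖} with hS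
  have hcl : IsClosed {q : E × (V →L[ℂ] V) | ∀ A1 ∈ J Φ f k l z0 z1, ε ≤ ‖q.2 - A1‖} := by
    have : {q : E × (V →L[ℂ] V) | ∀ A1 ∈ J Φ f k l z0 z1, ε ≤ ‖q.2 - A1‖} =
        ⋂ A1 ∈ J Φ f k l z0 z1, {q : E × (V →L[ℂ] V) | ε ≤ ‖q.2 - A1‖} := by
      ext q; simp
    rw [this]
    refine isClosed_biInter fun A1 _ => isClosed_le continuous_const ?_
    exact (continuous_snd.sub continuous_const).norm
  have hSc : IsCompact S := hcomp.inter_right hcl
  have hpc : IsClosed (Prod.fst '' S) := (hSc.image continuous_fst).isClosed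
  have hnot : z1 ∉ Prod.fst '' S := by
    rintro ⟨q, hq, hq1⟩
    have h1 := hq.2 q.2 (by rw [← hq1]; exact hq.1.2)
    rw [sub_self, norm_zero] at h1
    linarith
  filter_upwards [hpc.isOpen_compl.mem_nhds hnot, closedBall_mem_nhds z1 hr] with z hz1' hzK A hA
  by_contra hcon
  push Not at hcon
  exact hz1' ⟨(z, A), ⟨⟨hzK, hA⟩, fun A1 hA1 => hcon A1 hA1⟩, rfl⟩

/-- isolation of `1` in `J z0 z0` -/
theorem exists_isol {z0 : E} (hfin : (J Φ f k l z0 z0).Finite) :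
    ∃ δ > 0, ∀ g ∈ J Φ f k l z0 z0, ‖g - 1‖ < δ → g = 1 := by
  have h1 : (J Φ f k l z0 z0 \ {1}).Finite := hfin.subset sdiff_subset
  have h2 : (1 : V →L[ℂ] V) ∉ J Φ f k l z0 z0 \ {1} := fun h => h.2 rfl
  obtain ⟨δ, hδ, hball⟩ := Metric.mem_nhds_iff.1 (h1.isClosed.isOpen_compl.mem_nhds h2)
  refine ⟨δ, hδ, fun g hg hgδ => ?_⟩
  by_contra hne
  exact hball (by rw [mem_ball_iff_norm]; exact hgδ) ⟨hg, hne⟩

/-- uniqueness near `1` -/
theorem uniq (D : Data Φ f p B) {z0 z : E} (hz0 : z0 ∈ B) (hz : z ∈ B) {δ ε : ℝ}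
    (hδ : ∀ g ∈ J Φ f k l z0 z0, ‖g - 1‖ < δ → g = 1) (hε1 : ε ≤ 1 / 4) (hε2 : 8 * ε ≤ δ)
    {A A' : V →L[ℂ] V} (hA : A ∈ J Φ f k l z0 z) (hA' : A' ∈ J Φ f k l z0 z)
    (h1 : ‖A - 1‖ < 2 * ε) (h2 : ‖A' - 1‖ < 2 * ε) : A = A' := by
  set g := Ring.inverse A * A' with hg
  have hgJ := D.inv_mul_mem hz0 hz hA hA'
  have hAg : A * g = A' := by
    rw [hg, ← mul_assoc, Ring.mul_inverse_cancel A (D.isUnit hz0 hz hA), one_mul]
  have h3 : g - 1 = (A' - A) - (A - 1) * (g - 1) := by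
    rw [← hAg]; noncomm_ring
  have h4 : ‖g - 1‖ ≤ ‖A' - A‖ + ‖A - 1‖ * ‖g - 1‖ := by
    calc ‖g - 1‖ = ‖(A' - A) - (A - 1) * (g - 1)‖ := by rw [← h3]
      _ ≤ ‖A' - A‖ + ‖(A - 1) * (g - 1)‖ := norm_sub_le _ _
      _ ≤ ‖A' - A‖ + ‖A - 1‖ * ‖g - 1‖ := by gcongr; exact norm_mul_le _ _
  have h5 : ‖A' - A‖ < 4 * ε := by
    calc ‖A' - A‖ = ‖(A' - 1) - (A - 1)‖ := by congr 1; abel
      _ ≤ ‖A' - 1‖ + ‖A - 1‖ := norm_sub_le _ _
      _ < 4 * ε := by linarith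
  have h6 : ‖g - 1‖ < δ := by
    have h7 : ‖A - 1‖ * ‖g - 1‖ ≤ (1 / 2) * ‖g - 1‖ :=
      mul_le_mul_of_nonneg_right (by linarith) (norm_nonneg _)
    linarith
  have h8 := hδ g hgJ h6
  rw [h8, mul_one] at hAg
  exact hAg

/-- line transports -/
def Line (Φ : E → V → ℝ) (f : E → ℂ) (k l : ℕ) (B : Set E) : Prop :=
  ∀ z1 ∈ B, ∀ v : E, (∀ t ∈ ball (0 : ℂ) 1, z1 + t • v ∈ B) → ∃ T : ℂ → (V →L[ℂ] V),
    (∀ t ∈ ball (0 : ℂ) 1, DifferentiableAt ℂ T t) ∧ T 0 = 1 ∧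
    ∀ t ∈ ball (0 : ℂ) 1, T t ∈ J Φ f k l z1 (z1 + t • v)

theorem _root_.Crest.Agent.R276.GlobN_739.exists_scale {B : Set E} (hB : IsOpen B) {z1 : E}
    (hz1 : z1 ∈ B) (w : E) : ∃ s : ℝ, 0 < s ∧ ∀ t ∈ ball (0 : ℂ) 1, z1 + t • ((s : ℂ) • w) ∈ B := by
  obtain ⟨r, hr, hrB⟩ := Metric.mem_nhds_iff.1 (hB.mem_nhds hz1)
  refine ⟨r / (‖w‖ + 1), by positivity, fun t ht => hrB ?_⟩
  rw [mem_ball_iff_norm, add_sub_cancel_left, norm_smul, norm_smul, Complex.norm_real,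
    Real.norm_eq_abs, abs_of_pos (by positivity)]
  rw [mem_ball_zero_iff] at ht
  have h1 : r / (‖w‖ + 1) * ‖w‖ < r := by
    rw [div_mul_eq_mul_div, div_lt_iff₀ (by positivity)]
    nlinarith [norm_nonneg w]
  have h2 : 0 ≤ r / (‖w‖ + 1) * ‖w‖ := by positivity
  calc ‖t‖ * (r / (‖w‖ + 1) * ‖w‖) ≤ 1 * (r / (‖w‖ + 1) * ‖w‖) :=
        mul_le_mul_of_nonneg_right ht.le h2
    _ < r := by rw [one_mul]; exact h1

/-- **globalisation** of line transports -/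
theorem glob (D : Data Φ f p B) (hL : Line Φ f k l B) {z0 : E} (hz0 : z0 ∈ B)
    (hfin : (J Φ f k l z0 z0).Finite) :
    ∃ r > 0, ball z0 r ⊆ B ∧ ∃ T : E → (V →L[ℂ] V), AnalyticOnNhd ℂ T (ball z0 r) ∧ T z0 = 1 ∧
      ∀ z ∈ ball z0 r, T z ∈ J Φ f k l z0 z := by
  classical
  have : CompleteSpace V := FiniteDimensional.complete ℂ V
  obtain ⟨δ, hδ, hisol⟩ := exists_isol hfin
  set ε : ℝ := min (1 / 4) (δ / 8) with hε
  have hεp : 0 < ε := by positivity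
  have hε1 : ε ≤ 1 / 4 := min_le_left _ _
  have hε2 : 8 * ε ≤ δ := by have : ε ≤ δ / 8 := min_le_right _ _; linarith
  obtain ⟨C, hC⟩ := D.bounded (k := k) (l := l) hz0 (isCompact_singleton (x := z0))
    (singleton_subset_iff.2 hz0)
  set C' := max C 0 with hC'
  have hC0 : 0 ≤ C' := le_max_right _ _
  set ε' : ℝ := ε / (C' + 1) with hε'
  have hε'p : 0 < ε' := by positivity
  have husc := D.usc (k := k) (l := l) hz0 hz0 hε'p
  -- radius
  obtain ⟨r0, hr0, hr0B⟩ := Metric.mem_nhds_iff.1 (D.op.mem_nhds hz0)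
  obtain ⟨r1, hr1, hr1u⟩ := Metric.eventually_nhds_iff_ball.1 husc
  set r := min (r0 / 2) r1 with hr
  have hrp : 0 < r := by positivity
  have hrB : ball z0 r ⊆ B := (ball_subset_ball (by
    have : r ≤ r0 / 2 := min_le_left _ _
    linarith)).trans hr0B
  -- nonemptiness
  have hne : ∀ z ∈ ball z0 r, (J Φ f k l z0 z).Nonempty := by
    intro z hz
    rw [mem_ball_iff_norm] at hz
    have hzr : ‖z - z0‖ < r0 / 2 := hz.trans_le (min_le_left _ _)
    obtain ⟨T, -, -, hT⟩ := hL z0 hz0 ((2:ℂ) • (z - z0)) (fun t ht => hr0B (by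
      rw [mem_ball_iff_norm, add_sub_cancel_left, norm_smul, norm_smul]
      rw [mem_ball_zero_iff] at ht
      have h2 : ‖(2:ℂ)‖ = 2 := by simp
      rw [h2]
      have := norm_nonneg (z - z0)
      have := norm_nonneg t
      nlinarith))
    have h1 := hT (1 / 2) (by rw [mem_ball_zero_iff]; norm_num)
    have h2 : z0 + (1 / 2 : ℂ) • ((2:ℂ) • (z - z0)) = z := by
      rw [smul_smul]; norm_num
    rw [h2] at h1
    exact ⟨_, h1⟩
  -- existence near `1`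
  have hex : ∀ z ∈ ball z0 r, ∃ A ∈ J Φ f k l z0 z, ‖A - 1‖ < ε := by
    intro z hz
    obtain ⟨A, hA⟩ := hne z hz
    obtain ⟨g, hg, hAg⟩ := hr1u z (ball_subset_ball (min_le_right _ _) hz) A hA
    have hginv := D.inv_mem hz0 hz0 hg
    refine ⟨A * Ring.inverse g, mul_mem hA hginv, ?_⟩
    have h1 : A * Ring.inverse g - 1 = (A - g) * Ring.inverse g := by
      rw [sub_mul, Ring.mul_inverse_cancel g (D.isUnit hz0 hz0 hg)]
    rw [h1]
    have h2 : ‖Ring.inverse g‖ ≤ C' := (hC z0 rfl _ hginv).trans (le_max_left _ _)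
    calc ‖(A - g) * Ring.inverse g‖ ≤ ‖A - g‖ * ‖Ring.inverse g‖ := norm_mul_le _ _
      _ ≤ ε' * C' := mul_le_mul hAg.le h2 (norm_nonneg _) hε'p.le
      _ < ε := by
        rw [hε', div_mul_eq_mul_div, div_lt_iff₀ (by positivity)]
        nlinarith
  set T : E → (V →L[ℂ] V) := fun z =>
    if h : ∃ A ∈ J Φ f k l z0 z, ‖A - 1‖ < ε then h.choose else 1 with hT
  have hTJ : ∀ z ∈ ball z0 r, T z ∈ J Φ f k l z0 z ∧ ‖T z - 1‖ < ε := by
    intro z hz
    have h := hex z hz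
    have h1 : T z = h.choose := dif_pos h
    rw [h1]
    exact h.choose_spec
  have hz0r : z0 ∈ ball z0 r := mem_ball_self hrp
  have hT0 : T z0 = 1 := by
    have h1 := hTJ z0 hz0r
    refine D.uniq hz0 hz0 hisol hε1 hε2 h1.1 (one_mem z0) (by linarith [h1.2]) ?_
    rw [sub_self, norm_zero]; positivity
  -- continuity
  have hTc : ∀ z1 ∈ ball z0 r, ContinuousAt T z1 := by
    intro z1 hz1
    rw [Metric.continuousAt_iff']
    intro η hη
    set η' := min η ε with hη'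
    have hη'p : 0 < η' := lt_min hη hεp
    filter_upwards [D.usc (k := k) (l := l) hz0 (hrB hz1) hη'p, isOpen_ball.mem_nhds hz1]
      with z h1 hz
    obtain ⟨A1, hA1, hd⟩ := h1 (T z) (hTJ z hz).1
    have h2 : A1 = T z1 := by
      refine D.uniq hz0 (hrB hz1) hisol hε1 hε2 hA1 (hTJ z1 hz1).1 ?_
        (by have := (hTJ z1 hz1).2; linarith)
      calc ‖A1 - 1‖ = ‖(T z - 1) - (T z - A1)‖ := by congr 1; abel
        _ ≤ ‖T z - 1‖ + ‖T z - A1‖ := norm_sub_le _ _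
        _ < 2 * ε := by
          have := (hTJ z hz).2
          have : η' ≤ ε := min_le_right _ _
          linarith
    rw [dist_eq_norm, ← h2]
    exact hd.trans_le (min_le_left _ _)
  refine ⟨r, hrp, hrB, T, ?_, hT0, fun z hz => (hTJ z hz).1⟩
  -- holomorphy
  apply Crest.Agent.R266.SCV.analyticOnNhd_of_gateaux isOpen_ball
    (fun z hz => (hTc z hz).continuousWithinAt)
  intro z1 hz1 w
  obtain ⟨s, hs, hsB⟩ := exists_scale isOpen_ball hz1 w
  have hsC : (s : ℂ) ≠ 0 := by exact_mod_cast hs.ne'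
  obtain ⟨T', hT'd, hT'0, hT'J⟩ := hL z1 (hrB hz1) ((s : ℂ) • w) (fun t ht => hrB (hsB t ht))
  set U : ℂ → (V →L[ℂ] V) := fun t => T' (t / s) * T z1 with hU
  have hball : ∀ᶠ t : ℂ in 𝓝 (0 : ℂ), t / (s : ℂ) ∈ ball (0 : ℂ) 1 := by
    have h1 : Tendsto (fun t : ℂ => t / s) (𝓝 0) (𝓝 0) := by
      have : Continuous (fun t : ℂ => t / s) := by fun_prop
      have h2 := this.tendsto 0
      simpa using h2
    exact h1.eventually (isOpen_ball.mem_nhds (mem_ball_self one_pos))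
  have hline : ∀ t : ℂ, z1 + (t / s) • ((s : ℂ) • w) = z1 + t • w := by
    intro t
    rw [smul_smul, div_mul_cancel₀ _ hsC]
  have hUJ : ∀ᶠ t in 𝓝 (0 : ℂ), U t ∈ J Φ f k l z0 (z1 + t • w) ∧ z1 + t • w ∈ ball z0 r := by
    filter_upwards [hball] with t ht
    have h1 := hT'J _ ht
    rw [hline] at h1
    exact ⟨mul_mem h1 (hTJ z1 hz1).1, by rw [← hline]; exact hsB _ ht⟩
  have hUd : DifferentiableAt ℂ U 0 := by
    have h1 : DifferentiableAt ℂ T' (0 / (s:ℂ)) := by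
      rw [zero_div]; exact hT'd 0 (mem_ball_self one_pos)
    have h2 : DifferentiableAt ℂ (fun t : ℂ => T' (t / s)) 0 :=
      DifferentiableAt.comp (0:ℂ) h1 (by fun_prop)
    exact h2.mul_const _
  have hU0 : U 0 = T z1 := by
    simp only [hU, zero_div, hT'0, one_mul]
  have hunit : IsUnit (U 0) := by
    rw [hU0]; exact D.isUnit hz0 (hrB hz1) (hTJ z1 hz1).1
  -- the difference is locally constant
  have hTl : ContinuousAt (fun t : ℂ => T (z1 + t • w)) 0 := by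
    have h1 : ContinuousAt T (z1 + (0:ℂ) • w) := by
      rw [zero_smul, add_zero]; exact hTc z1 hz1
    exact ContinuousAt.comp (f := fun t : ℂ => z1 + t • w) h1 (by fun_prop)
  have hg : ContinuousAt (fun t : ℂ => Ring.inverse (U t) * T (z1 + t • w)) 0 := by
    obtain ⟨u, hu⟩ := hunit
    have h1 : ContinuousAt Ring.inverse (U 0) := by
      rw [← hu]; exact NormedRing.inverse_continuousAt u
    exact (ContinuousAt.comp (f := U) h1 hUd.continuousAt).mul hTl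
  have hg0 : Ring.inverse (U 0) * T (z1 + (0:ℂ) • w) = 1 := by
    rw [zero_smul, add_zero, ← hU0, Ring.inverse_mul_cancel _ hunit]
  have hev : ∀ᶠ t in 𝓝 (0 : ℂ), T (z1 + t • w) = U t := by
    have h2 : ∀ᶠ t in 𝓝 (0 : ℂ), ‖Ring.inverse (U t) * T (z1 + t • w) - 1‖ < δ := by
      have h3 := hg.tendsto
      rw [hg0] at h3
      have h4 := h3.eventually (ball_mem_nhds 1 hδ)
      filter_upwards [h4] with t ht
      rwa [dist_eq_norm] at ht
    filter_upwards [h2, hUJ] with t h3 h4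
    have h5 := D.inv_mul_mem hz0 (hrB h4.2) h4.1 (hTJ _ h4.2).1
    have h6 := hisol _ h5 h3
    have h7 : U t * (Ring.inverse (U t) * T (z1 + t • w)) = T (z1 + t • w) := by
      rw [← mul_assoc, Ring.mul_inverse_cancel _ (D.isUnit hz0 (hrB h4.2) h4.1), one_mul]
    rw [← h7, h6, mul_one]
  exact hUd.congr_of_eventuallyEq hev

end Data

end Crest.Agent.R276.GlobN_739
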