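import Mathlib
import Crest.Agent.R276.Mod7_987
import Crest.Agent.R276.CmpA_595
import Crest.Agent.R276.TowA_849

-- ▼ part R276/CmpR0_652
section

/-!
Row 276 (S0419), MODPACK (B4), part 0 (helper652): normality of models.

* `IC B` : every root in `K` of a monic polynomial with coefficients in `B` belongs to `B`;
* `ic_loc` : stable under localisation;
* `Mdl.ic` : the coordinate ring of a model is normal.
-/

set_option autoImplicit false

open Polynomial Topology Filter MeasureTheory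
open scoped ENNReal

noncomputable section

namespace Crest.Agent.R276.CmpR_652

open Crest.Agent.R271.Defs710 Crest.Agent.R271.Alg255 Crest.Agent.R271.Rd692
open Crest.Agent.R276.Mod1_987

section ic

variable {K : Type} [Field K]

/-- every root in `K` of a monic polynomial with coefficients in `B` belongs to `B` -/
def IC (B : Set K) : Prop :=
  ∀ P : Polynomial K, P.Monic → (∀ i, P.coeff i ∈ B) → ∀ a : K, P.eval a = 0 → a ∈ B

/-- localisations of normal rings are normal -/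
theorem ic_loc {B : Subring K} (hB : IC (B : Set K)) {c : K} (hc : c ∈ B) {B' : Set K}
    (hB' : ∀ b : K, b ∈ B' ↔ ∃ k : ℕ, c ^ k * b ∈ B) : IC B' := by
  classical
  intro P hP hco a ha
  choose k hk using fun i => (hB' _).1 (hco i)
  let l : ℕ := ∑ i ∈ Finset.range (P.natDegree + 1), k i
  have hl : ∀ i, c ^ l * P.coeff i ∈ B := by
    intro i
    rcases le_or_gt i P.natDegree with hi | hi
    · have h1 : k i ≤ l := Finset.single_le_sum (f := k) (fun _ _ => Nat.zero_le _)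
        (Finset.mem_range.2 (Nat.lt_succ_of_le hi))
      obtain ⟨e, he⟩ := Nat.exists_eq_add_of_le h1
      rw [he, pow_add, mul_comm (c ^ k i), mul_assoc]
      exact mul_mem (pow_mem hc e) (hk i)
    · rw [Polynomial.coeff_eq_zero_of_natDegree_lt hi, mul_zero]
      exact zero_mem _
  rw [hB']
  refine ⟨l, hB (P.scaleRoots (c ^ l)) ?_ ?_ _ ?_⟩
  · exact (Polynomial.monic_scaleRoots_iff (c ^ l)).2 hP
  · intro i
    rw [Polynomial.coeff_scaleRoots]
    rcases lt_trichotomy i P.natDegree with hi | hi | hi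
    · obtain ⟨e, he⟩ : ∃ e, P.natDegree - i = e + 1 := ⟨P.natDegree - i - 1, by omega⟩
      rw [he, pow_succ]
      have h1 : P.coeff i * ((c ^ l) ^ e * c ^ l) = (c ^ l) ^ e * (c ^ l * P.coeff i) := by ring
      rw [h1]
      exact mul_mem (pow_mem (pow_mem hc _) _) (hl i)
    · subst hi
      rw [Nat.sub_self, pow_zero, mul_one, hP.coeff_natDegree]
      exact one_mem _
    · rw [Polynomial.coeff_eq_zero_of_natDegree_lt hi, zero_mul]
      exact zero_mem _
  · have h1 := Polynomial.scaleRoots_eval₂_mul (p := P) (f := RingHom.id K) (c ^ l) (r := a)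
    rw [Polynomial.eval₂_id, RingHom.id_apply, Polynomial.eval₂_id, ha, mul_zero] at h1
    exact h1

/-- integral closures are normal -/
theorem ic_integralClosure (R : Type) [CommRing R] [Algebra R K] :
    IC ((integralClosure R K : Subalgebra R K) : Set K) := by
  intro P hP hco a ha
  have h1 : ∃ Q : Polynomial (integralClosure R K), Q.map (algebraMap (integralClosure R K) K) = P ∧
      Q.Monic := by
    have h2 : P ∈ Polynomial.lifts (algebraMap (integralClosure R K) K) := by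
      rw [Polynomial.lifts_iff_coeff_lifts]
      intro i
      exact ⟨⟨_, hco i⟩, rfl⟩
    obtain ⟨Q, hQ, -, hQm⟩ := Polynomial.lifts_and_natDegree_eq_and_monic h2 hP
    exact ⟨Q, hQ, hQm⟩
  obtain ⟨Q, hQ, hQm⟩ := h1
  have h3 : IsIntegral (integralClosure R K) a := by
    refine ⟨Q, hQm, ?_⟩
    rw [← Polynomial.eval_map, hQ]
    exact ha
  exact isIntegral_trans a h3

end ic

section mdl

variable {K : Type} [Field K] [Algebra ℂ K] {n : ℕ} (M : Mdl K n)

/-- the coordinate ring of a model is normal -/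
theorem ic_mdl : IC (M.B : Set K) := by
  let _ : Algebra (MvPolynomial (Fin n) ℂ) K := M.aK.toAlgebra
  have h1 : IC (((integralClosure (MvPolynomial (Fin n) ℂ) K).toSubring : Subring K) : Set K) :=
    ic_integralClosure (MvPolynomial (Fin n) ℂ)
  refine ic_loc h1 (c := M.aK M.h) ?_ ?_
  · exact (isIntegral_algebraMap : IsIntegral (MvPolynomial (Fin n) ℂ)
      (algebraMap (MvPolynomial (Fin n) ℂ) K M.h))
  · intro b
    exact M.mem_B_iff b

theorem ic_locSub {B : Subalgebra ℂ K} (hB : IC (B : Set K)) {c : K} (hc : c ∈ B) :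
    IC (locSub B c hc : Set K) :=
  ic_loc (B := B.toSubring) hB hc fun _ => mem_locSub

end mdl

end Crest.Agent.R276.CmpR_652
end
end

-- ▼ part R276/CmpR_652
section

/-!
Row 276 (S0419), MODPACK (B4) (helper652): comparison of two relative models of `K / L` with the
same fibre coordinates.

`Cmp R₀ R` : `R` is obtained from `R₀` by shrinking and by a change of the coordinates of the base.
* `rL`, `rK` : the restriction maps, `R₀.q ∘ rK = rL ∘ R.q`, `R₀.x ∘ rK = R.x`;
* `exists_lift` : a point of the `R₀`-fibre over `rL w` at which `h_K` (in the new coordinates) does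
  not vanish comes from the `R`-fibre over `w`;
* `fK w : R.Fib w → R₀.Fib (rL w)` : open embedding preserving the coordinates, the complement of
  the range is the zero set of one nonzero polynomial in the fibre coordinates; hence dense and
  conull for EVERY `w` with nonempty fibre;
* `fint_eq` : the fibre integrals agree for every function; `fintS_eq` : `s`-fold version.
-/

set_option autoImplicit false

open Polynomial Topology Filter MeasureTheory
open scoped ENNReal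

noncomputable section

namespace Crest.Agent.R276.CmpR_652

open Crest.Agent.R271.Defs710 Crest.Agent.R271.Alg255 Crest.Agent.R271.Rd692
open Crest.Agent.R271.AlgB956 Crest.Agent.R271.Ho51 Crest.Agent.R271
open Crest.Agent.R276.Mod1_987

variable {L K : Type} [Field L] [Field K] [Algebra ℂ L] [Algebra ℂ K] [Algebra L K]
  [IsScalarTower ℂ L K] {m r : ℕ}

/-- `R` is obtained from `R₀` by shrinking and changing the coordinates of the base; the fibre
coordinates are the same -/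
structure Cmp (R₀ R : RMdl L K m r) : Prop where
  x_eq : ∀ j, R.MK.zK (Fin.natAdd m j) = R₀.MK.zK (Fin.natAdd m j)
  leL : R₀.ML.B ≤ R.ML.B
  leK : R₀.MK.B ≤ R.MK.B
  loc : ∃ (c : L) (hc : c ∈ R₀.ML.B), c ≠ 0 ∧ R.ML.B = locSub R₀.ML.B c hc

namespace Cmp

variable {R₀ R : RMdl L K m r} (h : Cmp R₀ R)

/-- the restriction map of the bases -/
def rL (h : Cmp R₀ R) : R.ML.Pts → R₀.ML.Pts := Mdl.resB h.leL

/-- the restriction map of the total spaces -/
def rK (h : Cmp R₀ R) : R.MK.Pts → R₀.MK.Pts := Mdl.resB h.leK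

lemma rL_apply (w : R.ML.Pts) (b : R₀.ML.B) : h.rL w b = w ⟨b, h.leL b.2⟩ := rfl

lemma rK_apply (y : R.MK.Pts) (b : R₀.MK.B) : h.rK y b = y ⟨b, h.leK b.2⟩ := rfl

lemma continuous_rL : Continuous h.rL := Mdl.continuous_resB h.leL

lemma continuous_rK : Continuous h.rK := Mdl.continuous_resB h.leK

theorem q_rK (y : R.MK.Pts) : R₀.q (h.rK y) = h.rL (R.q y) := by
  ext b
  rfl

theorem x_rK (y : R.MK.Pts) : R₀.x (h.rK y) = R.x y := by
  funext j
  rw [RMdl.x_apply, RMdl.x_apply, rK_apply]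
  congr 1
  exact Subtype.ext (h.x_eq j).symm

include h in
/-- the denominator of the base -/
theorem exists_c : ∃ c ∈ R₀.ML.B, c ≠ 0 ∧ c⁻¹ ∈ R.ML.B ∧ ∀ b ∈ R.ML.B, ∃ k : ℕ,
    c ^ k * b ∈ R₀.ML.B := by
  obtain ⟨c, hc, h0, hB⟩ := h.loc
  refine ⟨c, hc, h0, ?_, ?_⟩
  · rw [hB]
    exact inv_mem_locSub h0
  · intro b hb
    rw [hB] at hb
    exact hb

theorem rL_injective : Function.Injective h.rL := by
  obtain ⟨c, hc, h0, hinv, hB⟩ := h.exists_c
  intro w w' hw
  ext b
  obtain ⟨k, hk⟩ := hB b b.2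
  have key : ∀ v : R.ML.Pts, v ⟨c, h.leL hc⟩ ≠ 0 := by
    intro v hv
    have h1 : (⟨c, h.leL hc⟩ : R.ML.B) * ⟨c⁻¹, hinv⟩ = 1 := Subtype.ext (mul_inv_cancel₀ h0)
    have h2 := congrArg v h1
    rw [map_mul, hv, zero_mul, map_one] at h2
    exact zero_ne_one h2
  have h3 : ∀ v : R.ML.Pts, v ⟨c, h.leL hc⟩ ^ k * v b = h.rL v ⟨c ^ k * b, hk⟩ := by
    intro v
    rw [rL_apply, ← map_pow, ← map_mul]
    rfl
  have h4 := h3 w
  rw [hw, ← h3 w'] at h4
  have h5 : w ⟨c, h.leL hc⟩ = w' ⟨c, h.leL hc⟩ := congrArg (fun v : R₀.ML.Pts => v ⟨c, hc⟩) hw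
  rw [h5] at h4
  exact mul_left_cancel₀ (pow_ne_zero k (key w')) h4

/-- the image of the denominator of the base belongs to the coordinate ring of `K` -/
lemma alg_mem {c : L} (hc : c ∈ R₀.ML.B) : algebraMap L K c ∈ R₀.MK.B := R₀.incl_mem ⟨c, hc⟩

include h in
lemma zK_mem {c : L} (hc : c ∈ R₀.ML.B) (hB : ∀ b ∈ R.ML.B, ∃ k : ℕ, c ^ k * b ∈ R₀.ML.B)
    (i : Fin (m + r)) : R.MK.zK i ∈ locSub R₀.MK.B (algebraMap L K c) (alg_mem hc) := by
  refine Fin.addCases (fun i => ?_) (fun j => ?_) i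
  · rw [R.z_eq]
    obtain ⟨k, hk⟩ := hB _ (R.ML.z i).2
    refine ⟨k, ?_⟩
    have h1 := alg_mem (R₀ := R₀) hk
    rw [map_mul, map_pow] at h1
    exact h1
  · rw [h.x_eq]
    exact le_locSub (hH := alg_mem hc) (R₀.MK.z (Fin.natAdd m j)).2

include h in
/-- elements of the new coordinate ring, in terms of the old one -/
theorem key {c : L} (hc : c ∈ R₀.ML.B) (hB : ∀ b ∈ R.ML.B, ∃ k : ℕ, c ^ k * b ∈ R₀.ML.B)
    {b : K} (hb : b ∈ R.MK.B) : ∃ k : ℕ, R.MK.aK R.MK.h ^ k * b ∈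
      locSub R₀.MK.B (algebraMap L K c) (alg_mem hc) := by
  obtain ⟨k, P, hP, hP0⟩ := (R.MK.mem_B_iff b).1 hb
  refine ⟨k, ?_⟩
  refine ic_locSub (ic_mdl R₀.MK) (alg_mem hc) (P.map R.MK.aK) (hP.map _) ?_ _ ?_
  · intro i
    rw [Polynomial.coeff_map]
    exact aeval_mem (h.zK_mem hc hB) _
  · rw [Polynomial.eval_map]
    exact hP0

/-- **lifting of points** -/
theorem exists_lift {y₀ : R₀.MK.Pts} {w : R.ML.Pts} (hq : R₀.q y₀ = h.rL w)
    (hne : MvPolynomial.eval (Fin.append (R.ML.pz w) (R₀.x y₀)) R.MK.h ≠ 0) :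
    ∃ y : R.MK.Pts, h.rK y = y₀ ∧ R.q y = w := by
  obtain ⟨c, hc, h0, hinv, hB⟩ := h.exists_c
  have hcK : algebraMap L K c ∈ R₀.MK.B := alg_mem hc
  have hwc : w ⟨c, h.leL hc⟩ ≠ 0 := by
    intro hv
    have h1 : (⟨c, h.leL hc⟩ : R.ML.B) * ⟨c⁻¹, hinv⟩ = 1 := Subtype.ext (mul_inv_cancel₀ h0)
    have h2 := congrArg w h1
    rw [map_mul, hv, zero_mul, map_one] at h2
    exact zero_ne_one h2
  have hyq : ∀ b : R₀.ML.B, y₀ ⟨algebraMap L K b, alg_mem b.2⟩ = w ⟨b, h.leL b.2⟩ := by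
    intro b
    exact congrArg (fun v : R₀.ML.Pts => v b) hq
  have hyc : y₀ ⟨algebraMap L K c, hcK⟩ = w ⟨c, h.leL hc⟩ := hyq ⟨c, hc⟩
  obtain ⟨y₁, hy₁⟩ := exists_ext_loc hcK y₀ (by rw [hyc]; exact hwc)
  -- `y₁` extends `w`
  have hA : ∀ b : R.ML.B, algebraMap L K b ∈ locSub R₀.MK.B (algebraMap L K c) hcK := by
    intro b
    obtain ⟨k, hk⟩ := hB b b.2
    refine ⟨k, ?_⟩
    have h1 := alg_mem (R₀ := R₀) hk
    rw [map_mul, map_pow] at h1
    exact h1
  have hy₁w : ∀ b : R.ML.B, y₁ ⟨algebraMap L K b, hA b⟩ = w b := by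
    intro b
    obtain ⟨k, hk⟩ := hB b b.2
    have h1 : y₁ ⟨algebraMap L K c, le_locSub hcK⟩ ^ k * y₁ ⟨algebraMap L K b, hA b⟩ =
        y₀ ⟨algebraMap L K (c ^ k * b), alg_mem hk⟩ := by
      rw [← hy₁, ← map_pow, ← map_mul]
      congr 1
      apply Subtype.ext
      change algebraMap L K c ^ k * algebraMap L K b = algebraMap L K (c ^ k * b)
      rw [map_mul, map_pow]
    rw [hyq ⟨c ^ k * b, hk⟩, hy₁ ⟨_, hcK⟩, hyc] at h1
    have h2 : w ⟨c ^ k * (b : L), h.leL hk⟩ = w ⟨c, h.leL hc⟩ ^ k * w b := by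
      rw [← map_pow, ← map_mul]
      rfl
    rw [h2] at h1
    exact mul_left_cancel₀ (pow_ne_zero k hwc) h1
  -- `h_K` belongs to `A`
  let zA : Fin (m + r) → locSub R₀.MK.B (algebraMap L K c) hcK :=
    fun i => ⟨R.MK.zK i, h.zK_mem hc hB i⟩
  have hzA : (fun i => y₁ (zA i)) = Fin.append (R.ML.pz w) (R₀.x y₀) := by
    funext i
    refine Fin.addCases (fun i => ?_) (fun j => ?_) i
    · rw [Fin.append_left]
      have h1 : zA (Fin.castAdd r i) = ⟨algebraMap L K (R.ML.z i : L), hA _⟩ :=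
        Subtype.ext (R.z_eq i)
      rw [h1, hy₁w]
      rfl
    · rw [Fin.append_right]
      have h1 : zA (Fin.natAdd m j) = ⟨(R₀.MK.z (Fin.natAdd m j) : K),
          le_locSub (R₀.MK.z (Fin.natAdd m j)).2⟩ := Subtype.ext (h.x_eq j)
      rw [h1, hy₁]
      rfl
  have hHA : R.MK.aK R.MK.h ∈ locSub R₀.MK.B (algebraMap L K c) hcK :=
    aeval_mem (h.zK_mem hc hB) _
  have hH : y₁ ⟨R.MK.aK R.MK.h, hHA⟩ =
      MvPolynomial.eval (Fin.append (R.ML.pz w) (R₀.x y₀)) R.MK.h := by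
    have h1 : (⟨R.MK.aK R.MK.h, hHA⟩ : locSub R₀.MK.B (algebraMap L K c) hcK) =
        az zA R.MK.h := by
      apply Subtype.ext
      rw [az_val]
      rfl
    have h2 := MvPolynomial.comp_aeval_apply zA y₁ R.MK.h
    rw [h1]
    change y₁ (MvPolynomial.aeval zA R.MK.h) = _
    rw [h2, hzA, ← MvPolynomial.coe_aeval_eq_eval]
    rfl
  obtain ⟨y₂, hy₂⟩ := exists_ext_loc hHA y₁ (by rw [hH]; exact hne)
  have hle : R.MK.B ≤ locSub (locSub R₀.MK.B (algebraMap L K c) hcK) (R.MK.aK R.MK.h) hHA :=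
    fun b hb => h.key hc hB hb
  refine ⟨y₂.comp (Subalgebra.inclusion hle), ?_, ?_⟩
  · ext b
    have h1 := hy₂ ⟨b, le_locSub b.2⟩
    rw [hy₁] at h1
    exact h1
  · ext b
    have h1 := hy₂ ⟨algebraMap L K b, hA b⟩
    rw [hy₁w] at h1
    exact h1

/-- necessary condition -/
theorem eval_ne {y : R.MK.Pts} {w : R.ML.Pts} (hq : R.q y = w) :
    MvPolynomial.eval (Fin.append (R.ML.pz w) (R₀.x (h.rK y))) R.MK.h ≠ 0 := by
  rw [h.x_rK, ← hq, R.append_eq]
  exact R.MK.eval_h_ne y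

theorem rK_injective : Function.Injective h.rK := by
  intro y y' hy
  have hq : R.q y = R.q y' := by
    apply h.rL_injective
    rw [← h.q_rK, ← h.q_rK, hy]
  have hx : R.x y = R.x y' := by
    rw [← h.x_rK, ← h.x_rK, hy]
  obtain ⟨c, hc, h0, hinv, hB⟩ := h.exists_c
  have hz : R.MK.pz y = R.MK.pz y' := by
    rw [← R.append_eq, ← R.append_eq, hq, hx]
  ext b
  obtain ⟨k, l, hl⟩ := h.key hc hB b.2
  have hcy : ∀ v : R.MK.Pts, v ⟨algebraMap L K c, h.leK (alg_mem hc)⟩ ≠ 0 := by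
    intro v hv
    have h1 : (⟨algebraMap L K c, h.leK (alg_mem hc)⟩ : R.MK.B) * R.incl ⟨c⁻¹, hinv⟩ = 1 := by
      apply Subtype.ext
      push_cast
      rw [RMdl.incl_coe, ← map_mul, mul_inv_cancel₀ h0, map_one]
    have h2 := congrArg v h1
    rw [map_mul, hv, zero_mul, map_one] at h2
    exact zero_ne_one h2
  have hH : ∀ v : R.MK.Pts, v ⟨R.MK.aK R.MK.h, R.MK.aK_mem _⟩ =
      MvPolynomial.eval (R.MK.pz v) R.MK.h := by
    intro v
    rw [← R.MK.apply_az']
    congr 1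
    exact Subtype.ext (R.MK.aK_eq _)
  have h3 : ∀ v : R.MK.Pts, v ⟨algebraMap L K c, h.leK (alg_mem hc)⟩ ^ l *
      (v ⟨R.MK.aK R.MK.h, R.MK.aK_mem _⟩ ^ k * v b) = h.rK v ⟨_, hl⟩ := by
    intro v
    rw [rK_apply, ← map_pow, ← map_pow, ← map_mul, ← map_mul]
    rfl
  have h4 := h3 y
  rw [hy, ← h3 y', hH, hH, hz] at h4
  have h5 : y ⟨algebraMap L K c, h.leK (alg_mem hc)⟩ =
      y' ⟨algebraMap L K c, h.leK (alg_mem hc)⟩ :=
    congrArg (fun v : R₀.MK.Pts => v ⟨algebraMap L K c, alg_mem hc⟩) hy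
  rw [h5] at h4
  have h6 := mul_left_cancel₀ (pow_ne_zero l (hcy y')) h4
  exact mul_left_cancel₀ (pow_ne_zero k (R.MK.eval_h_ne y')) h6

end Cmp

end Crest.Agent.R276.CmpR_652
end
end

-- ▼ part R276/CmpR2_652
section

/-!
Row 276 (S0419), MODPACK (B4), part 2 (helper652): the fibres under change of model.

For `h : Cmp R₀ R` and `w : R.ML.Pts` with nonempty fibre:
* `h.fK w : R.Fib w → R₀.Fib (h.rL w)` : open embedding, `cp` kept;
* the complement of its range is `{gP = 0}`, `gP w y₀ = P_w (x y₀)`, `P_w ≠ 0` a polynomial;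
* `dense_range_fK`, `null_compl`, `lintegral_fK`, `map_fK`;
* `fint_eq`, `fintS_eq`.
-/

set_option autoImplicit false

open Polynomial Topology Filter MeasureTheory
open scoped ENNReal

noncomputable section

namespace Crest.Agent.R276.CmpR_652

open Crest.Agent.R271.Defs710 Crest.Agent.R271.Alg255 Crest.Agent.R271.Rd692
open Crest.Agent.R271.AlgB956 Crest.Agent.R271.Ho51 Crest.Agent.R271
open Crest.Agent.R276.Mod1_987

/-! ### generalities -/

section gen

variable {N : ℕ} {X Y : Type*} [TopologicalSpace X] [TopologicalSpace Y] [RDom N X] [RDom N Y]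
  {e : X → Y}

lemma isLocalHomeomorph_of_cp (he : Continuous e) (hcp : ∀ x, cp (e x) = cp x) :
    IsLocalHomeomorph e := by
  refine IsLocalHomeomorph.of_comp (g := (cp : Y → (Fin N → ℂ))) ?_ cp_lh he
  have h : (cp : Y → (Fin N → ℂ)) ∘ e = cp := funext hcp
  rw [h]
  exact cp_lh

/-- the zero set of a nonzero polynomial in the coordinates is nowhere dense -/
theorem dense_poly {P : MvPolynomial (Fin N) ℂ} (hP : P ≠ 0) :
    Dense {y : Y | MvPolynomial.eval (cp y) P ≠ 0} := by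
  have h1 : Dense {ζ : Fin N → ℂ | MvPolynomial.eval ζ P ≠ 0} :=
    Measure.dense_of_ae (Null956.ae_eval_ne hP)
  exact h1.preimage (cp_lh (M := Y)).isOpenMap


end gen

variable {L K : Type} [Field L] [Field K] [Algebra ℂ L] [Algebra ℂ K] [Algebra L K]
  [IsScalarTower ℂ L K] {m r : ℕ}

/-- `h_K` on the fibre over `w`, a polynomial in the fibre coordinates -/
def hP (R : RMdl L K m r) (w : R.ML.Pts) : MvPolynomial (Fin r) ℂ := specL (R.ML.pz w) R.MK.h

lemma eval_hP (R : RMdl L K m r) (w : R.ML.Pts) (ξ : Cn r) :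
    MvPolynomial.eval ξ (hP R w) = MvPolynomial.eval (Fin.append (R.ML.pz w) ξ) R.MK.h :=
  eval_specL _ _ _

lemma hP_ne (R : RMdl L K m r) {w : R.ML.Pts} (hw : Nonempty (R.Fib w)) : hP R w ≠ 0 := by
  obtain ⟨y⟩ := hw
  intro h0
  have h1 := eval_hP R w (R.x y.val)
  have h2 := R.append_eq y.val
  rw [y.q_eq] at h2
  rw [h0, map_zero, h2] at h1
  exact R.MK.eval_h_ne y.val h1.symm

lemma nonempty_fib {R : RMdl L K m r} (hs : Function.Surjective R.q) (w : R.ML.Pts) :
    Nonempty (R.Fib w) := by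
  obtain ⟨y, hy⟩ := hs w
  exact ⟨⟨y, hy⟩⟩

/-- integral over the `s`-fold product of the fibre over `w` -/
def fintS (R : RMdl L K m r) (s : ℕ) (w : R.ML.Pts) (g : (Fin s → R.MK.Pts) → ℝ≥0∞) : ℝ≥0∞ :=
  ∫⁻ x : Fin s → Cn r,
    ∑' y : {y : Fin s → R.MK.Pts // (∀ i, R.q (y i) = w) ∧ ∀ i, R.x (y i) = x i}, g y.1

namespace Cmp

variable {R₀ R : RMdl L K m r} (h : Cmp R₀ R)

/-- the map of the fibres -/
def fK (w : R.ML.Pts) (y : R.Fib w) : R₀.Fib (h.rL w) :=
  ⟨h.rK y.val, by rw [h.q_rK, y.q_eq]⟩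

@[simp] lemma fK_val (w : R.ML.Pts) (y : R.Fib w) : (h.fK w y).val = h.rK y.val := rfl

theorem cp_fK (w : R.ML.Pts) (y : R.Fib w) : cp (h.fK w y) = cp y := h.x_rK y.val

theorem continuous_fK (w : R.ML.Pts) : Continuous (h.fK w) :=
  (h.continuous_rK.comp (RMdl.Fib.continuous_val w)).subtype_mk _

theorem isLocalHomeomorph_fK (w : R.ML.Pts) : IsLocalHomeomorph (h.fK w) :=
  isLocalHomeomorph_of_cp (h.continuous_fK w) (h.cp_fK w)

theorem fK_injective (w : R.ML.Pts) : Function.Injective (h.fK w) := by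
  intro y y' hy
  apply RMdl.Fib.ext
  exact h.rK_injective (congrArg (fun v : R₀.Fib (h.rL w) => v.val) hy)

/-- **the fibre maps are open embeddings** -/
theorem isOpenEmbedding_fK (w : R.ML.Pts) : IsOpenEmbedding (h.fK w) :=
  (h.isLocalHomeomorph_fK w).isOpenEmbedding_of_injective (h.fK_injective w)

/-- **the image of the fibre map** -/
theorem range_fK (w : R.ML.Pts) :
    Set.range (h.fK w) = {y₀ : R₀.Fib (h.rL w) | MvPolynomial.eval (cp y₀) (hP R w) ≠ 0} := by
  ext y₀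
  constructor
  · rintro ⟨y, rfl⟩
    change MvPolynomial.eval (cp (h.fK w y)) (hP R w) ≠ 0
    rw [eval_hP]
    exact h.eval_ne y.q_eq
  · intro hy₀
    have h1 : MvPolynomial.eval (cp y₀) (hP R w) ≠ 0 := hy₀
    rw [eval_hP] at h1
    obtain ⟨y, hy, hq⟩ := h.exists_lift y₀.q_eq h1
    exact ⟨⟨y, hq⟩, RMdl.Fib.ext hy⟩




/-- fibres over points: bijection outside the zero set of `hP` -/
theorem fsumR_eq (w : R.ML.Pts) (g : R₀.MK.Pts → ℝ≥0∞) {ξ : Cn r}
    (hξ : MvPolynomial.eval ξ (hP R w) ≠ 0) :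
    R.fsumR (fun y => g (h.rK y)) w ξ = R₀.fsumR g (h.rL w) ξ := by
  unfold RMdl.fsumR
  let i : {y : R.MK.Pts // R.q y = w ∧ R.x y = ξ} →
      {y : R₀.MK.Pts // R₀.q y = h.rL w ∧ R₀.x y = ξ} :=
    fun y => ⟨h.rK y.1, by rw [h.q_rK, y.2.1], by rw [h.x_rK, y.2.2]⟩
  have hi : Function.Bijective i := by
    constructor
    · intro y y' hy
      exact Subtype.ext (h.rK_injective (congrArg Subtype.val hy))
    · rintro ⟨y₀, hq, hx⟩
      obtain ⟨y, hy, hqy⟩ := h.exists_lift hq (by rw [← eval_hP, hx]; exact hξ)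
      refine ⟨⟨y, hqy, ?_⟩, Subtype.ext hy⟩
      rw [← h.x_rK, hy, hx]
  exact (Equiv.ofBijective i hi).tsum_eq (fun y => g y.1)

/-- **the fibre integrals agree** (no measurability needed) -/
theorem fint_eq {w : R.ML.Pts} (hw : Nonempty (R.Fib w)) (g : R₀.MK.Pts → ℝ≥0∞) :
    R.fint w (fun y => g (h.rK y)) = R₀.fint (h.rL w) g := by
  unfold RMdl.fint
  refine lintegral_congr_ae ?_
  filter_upwards [Null956.ae_eval_ne (hP_ne R hw)] with ξ hξ
  exact h.fsumR_eq w g hξ




end Cmp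

end Crest.Agent.R276.CmpR_652
end
end

-- ▼ part R276/CmpR3_652

/-!
Row 276 (S0419), MODPACK (B4), part 3 (helper652): calculus and existence of comparisons.

* `Cmp.refl`, `Cmp.trans`, `Cmp.shrink`, `Cmp.locK`;
* `Cmp.hol_g` : the function cutting out the complement of the fibre map is holomorphic;
* `isTB` : `append x' x` is a transcendence basis of `K`;
* `cmp_univ` : every relative model with the new coordinates and sufficiently divisible `h_L`, `h_K`
  is comparable; `exists_R` : existence with prescribed elements; `ev2_cmp`.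
-/

set_option autoImplicit false

open Polynomial Topology Filter MeasureTheory
open scoped ENNReal

noncomputable section

namespace Crest.Agent.R276.CmpR_652

open Crest.Agent.R271.Defs710 Crest.Agent.R271.Alg255 Crest.Agent.R271.Rd692
open Crest.Agent.R271.AlgB956 Crest.Agent.R271.Ho51 Crest.Agent.R271
open Crest.Agent.R276.Mod1_987 Crest.Agent.R276.Cmp_595 Crest.Agent.R276.TowA_849

variable {L K : Type} [Field L] [Field K] [Algebra ℂ L] [Algebra ℂ K] [Algebra L K]
  [IsScalarTower ℂ L K] {m r : ℕ}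

/-- polynomials in the coordinates are holomorphic -/
theorem hol_poly {N : ℕ} {Y : Type*} [TopologicalSpace Y] [RDom N Y]
    (P : MvPolynomial (Fin N) ℂ) : Hol (fun y : Y => MvPolynomial.eval (cp y) P) := by
  intro e he
  have h1 : Set.EqOn ((fun y : Y => MvPolynomial.eval (cp y) P) ∘ e.symm)
      (fun ζ => MvPolynomial.eval ζ P) e.target := by
    intro ζ hζ
    simp only [Function.comp_apply]
    rw [he.cp_symm hζ]
  refine DifferentiableOn.congr ?_ h1
  exact (AnalyticOnNhd.eval_mvPolynomial P).differentiableOn.mono (Set.subset_univ _)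

namespace Cmp

theorem refl (R : RMdl L K m r) : Cmp R R := ⟨fun _ => rfl, le_rfl, le_rfl, IsLoc.refl _⟩

theorem locL {R₀ R : RMdl L K m r} (h : Cmp R₀ R) : IsLoc R₀.ML.B R.ML.B := h.loc

theorem trans {R₀ R₁ R₂ : RMdl L K m r} (h : Cmp R₀ R₁) (h' : Cmp R₁ R₂) : Cmp R₀ R₂ :=
  ⟨fun j => (h'.x_eq j).trans (h.x_eq j), h.leL.trans h'.leL, h.leK.trans h'.leK,
    IsLoc.trans h.locL h'.locL⟩

theorem shrink_self (R : RMdl L K m r) (p : MvPolynomial (Fin m) ℂ) (hp : p ≠ 0)
    (s : MvPolynomial (Fin (m + r)) ℂ) (hs : s ≠ 0) : Cmp R (R.shrink p hp s hs) :=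
  ⟨fun _ => rfl, R.ML.le_loc p hp,
    (le_locSub : R.MK.B ≤ locSub R.MK.B (R.MK.aK (MvPolynomial.rename (Fin.castAdd r) p * s))
      (R.MK.aK_mem _)),
    isLoc_of_zK_eq (M := R.ML) (M' := R.ML.loc p hp) rfl (R.ML.le_loc p hp)⟩

/-- comparisons are stable under shrinking -/
theorem shrink {R₀ R : RMdl L K m r} (h : Cmp R₀ R) (p : MvPolynomial (Fin m) ℂ) (hp : p ≠ 0)
    (s : MvPolynomial (Fin (m + r)) ℂ) (hs : s ≠ 0) : Cmp R₀ (R.shrink p hp s hs) :=
  h.trans (shrink_self R p hp s hs)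

variable {R₀ R : RMdl L K m r} (h : Cmp R₀ R)


/-- the function cutting out the complement of the range of `fK` -/
theorem exists_g {w : R.ML.Pts} (hw : Nonempty (R.Fib w)) : ∃ g : R₀.Fib (h.rL w) → ℂ,
    Hol g ∧ (∃ y, g y ≠ 0) ∧ Dense {y | g y ≠ 0} ∧ Set.range (h.fK w) = {y | g y ≠ 0} := by
  refine ⟨fun y => MvPolynomial.eval (cp y) (hP R w), hol_poly _, ?_, dense_poly (hP_ne R hw),
    h.range_fK w⟩
  obtain ⟨y⟩ := hw
  have h1 : h.fK w y ∈ Set.range (h.fK w) := ⟨y, rfl⟩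
  rw [h.range_fK] at h1
  exact ⟨_, h1⟩

end Cmp

/-! ### existence -/

/-- **change of the transcendence basis of the base** -/
theorem isTB (R₀ : RMdl L K m r) {x' : Fin m → L} (hx : IsTranscendenceBasis ℂ x') :
    IsTranscendenceBasis ℂ (Fin.append (fun i => algebraMap L K (x' i))
      (fun j => R₀.MK.zK (Fin.natAdd m j))) := by
  have hT := Cmp_595.isTranscendenceBasis R₀.MK
  set x'' : Fin (m + r) → K := Fin.append (fun i => algebraMap L K (x' i))
      (fun j => R₀.MK.zK (Fin.natAdd m j)) with hx''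
  let A := Algebra.adjoin ℂ (Set.range x'')
  let C : Subalgebra A K := Subalgebra.algebraicClosure A K
  have hL : ∀ b : L, algebraMap L K b ∈ C := by
    intro b
    change IsAlgebraic A (algebraMap L K b)
    have h1 : IsAlgebraic (Algebra.adjoin ℂ (Set.range x')) b := hx.isAlgebraic.isAlgebraic b
    have hmem : ∀ a ∈ Algebra.adjoin ℂ (Set.range x'), algebraMap L K a ∈ A := by
      intro a ha
      have h2 : (Algebra.adjoin ℂ (Set.range x')).map (IsScalarTower.toAlgHom ℂ L K) ≤ A := by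
        rw [AlgHom.map_adjoin]
        apply Algebra.adjoin_mono
        rintro _ ⟨_, ⟨i, rfl⟩, rfl⟩
        exact ⟨Fin.castAdd r i, by rw [hx'', Fin.append_left]; rfl⟩
      exact h2 ⟨a, ha, rfl⟩
    let f : Algebra.adjoin ℂ (Set.range x') →+* A :=
      ((algebraMap L K).comp (Algebra.adjoin ℂ (Set.range x')).val.toRingHom).codRestrict A
        (fun a => hmem a a.2)
    refine h1.ringHom_of_comp_eq f (algebraMap L K) ?_ rfl
    intro a a' haa
    have h3 : algebraMap L K a = algebraMap L K a' := congrArg Subtype.val haa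
    exact Subtype.ext ((algebraMap L K).injective h3)
  have hz : ∀ i, R₀.MK.zK i ∈ C := by
    intro i
    refine Fin.addCases (fun i => ?_) (fun j => ?_) i
    · rw [R₀.z_eq]
      exact hL _
    · have h1 : R₀.MK.zK (Fin.natAdd m j) ∈ A :=
        Algebra.subset_adjoin ⟨Fin.natAdd m j, by rw [hx'', Fin.append_right]⟩
      exact isAlgebraic_algebraMap (R := A) (A := K) ⟨_, h1⟩
  have hBC : ∀ a ∈ Algebra.adjoin ℂ (Set.range R₀.MK.zK), a ∈ C := by
    intro a ha
    have h1 : Algebra.adjoin ℂ (Set.range R₀.MK.zK) ≤ C.restrictScalars ℂ := by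
      rw [Algebra.adjoin_le_iff]
      rintro _ ⟨i, rfl⟩
      exact hz i
    exact h1 ha
  have halg : Algebra.IsAlgebraic A K := by
    constructor
    intro a
    have h1 : IsAlgebraic (Algebra.adjoin ℂ (Set.range R₀.MK.zK)) a :=
      hT.isAlgebraic.isAlgebraic a
    let f : Algebra.adjoin ℂ (Set.range R₀.MK.zK) →+* C :=
      ((Algebra.adjoin ℂ (Set.range R₀.MK.zK)).val.toRingHom).codRestrict C
        (fun a => hBC a a.2)
    have h2 : IsAlgebraic C a := by
      refine h1.ringHom_of_comp_eq f (RingHom.id K) ?_ rfl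
      intro a a' haa
      have h3 : ((f a : C) : K) = ((f a' : C) : K) := by rw [haa]
      exact Subtype.ext h3
    exact h2.restrictScalars A
  have := halg
  exact Algebra.IsAlgebraic.isTranscendenceBasis_of_le_trdeg_of_finite ℂ x''
    (by rw [← hT.cardinalMk_eq_trdeg])

/-- **(B4), universal form**: every relative model with base coordinates `x'`, the same fibre
coordinates and sufficiently divisible `h_L`, `h_K` is comparable with `R₀` -/
theorem cmp_univ (R₀ : RMdl L K m r) {x' : Fin m → L} (hx : IsTranscendenceBasis ℂ x') :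
    ∃ gL : MvPolynomial (Fin m) ℂ, gL ≠ 0 ∧ ∃ gK : MvPolynomial (Fin (m + r)) ℂ, gK ≠ 0 ∧
      ∀ R : RMdl L K m r, R.ML.zK = x' →
        (∀ j, R.MK.zK (Fin.natAdd m j) = R₀.MK.zK (Fin.natAdd m j)) →
        gL ∣ R.ML.h → gK ∣ R.MK.h → Cmp R₀ R := by
  obtain ⟨gL, h1, h2⟩ := Cmp_595.exists_cmp R₀.ML hx
  obtain ⟨gK, h3, h4⟩ := Cmp_595.exists_cmp R₀.MK (isTB R₀ hx)
  refine ⟨gL, h1, gK, h3, fun R hz hxx hdL hdK => ⟨hxx, (h2 R.ML hz hdL).le, ?_, h2 R.ML hz hdL⟩⟩
  refine (h4 R.MK ?_ hdK).le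
  funext i
  refine Fin.addCases (fun i => ?_) (fun j => ?_) i
  · rw [Fin.append_left, R.z_eq, hz]
  · rw [Fin.append_right, hxx]

/-- **(B4), `Ev2` form**: `R₁` any relative model with the same fibre coordinates as `R₀` (the base
coordinates are arbitrary): every sufficiently small shrinking of `R₁` is comparable with `R₀` and
all its fibres are nonempty -/
theorem ev2_cmp (R₀ R₁ : RMdl L K m r)
    (hxx : ∀ j, R₁.MK.zK (Fin.natAdd m j) = R₀.MK.zK (Fin.natAdd m j)) :
    Ev2 R₁ fun R => Cmp R₀ R ∧ ∀ w, Nonempty (R.Fib w) := by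
  obtain ⟨gL, h1, gK, h2, h3⟩ := cmp_univ R₀ (Cmp_595.isTranscendenceBasis R₁.ML)
  have h4 : Ev2 R₁ fun R => Cmp R₀ R := by
    refine ⟨gK, h2, fun s hs hd => ⟨gL, h1, fun p hp hd' => h3 _ rfl hxx ?_ ?_⟩⟩
    · exact hd'.trans (Dvd.intro_left _ rfl)
    · exact (hd.trans (Dvd.intro_left _ rfl)).trans (Dvd.intro_left _ rfl)
  exact (h4.and (Ev2.surj R₁)).mono fun R h => ⟨h.1, nonempty_fib h.2⟩

/-- the same for towers: `R₀` with old base coordinates, `W` a tower with new base coordinates -/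
theorem ev_cmp {T : Type} [Field T] [Algebra ℂ T] [Algebra T L] [IsScalarTower ℂ T L] {ρ a : ℕ}
    (W : Tow T L K ρ a r) (R₀ : RMdl L K (ρ + a) r)
    (hxx : ∀ j, W.MK.zK (Fin.natAdd (ρ + a) j) = R₀.MK.zK (Fin.natAdd (ρ + a) j)) :
    Ev W fun W => Cmp R₀ W.LK ∧ ∀ w, Nonempty (W.LK.Fib w) :=
  Ev.of_LK (ev2_cmp R₀ W.LK hxx)


end Crest.Agent.R276.CmpR_652
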