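import Crest.Agent.R276.TrB_617
import Crest.Agent.R276.Par_425
import Crest.Agent.R276.RestrC_236
import Crest.Agent.R276.VPull2_327

-- ▼ part R276/FL_617
section

/-!
# R276, helper617: the flat line (FL)

`V` a polarised variation with lattice over a connected Riemann domain, `om` a holomorphic nowhere
vanishing section of the top piece with `D_j om ∈ ℂ om`.

* `line_near` : near `z`, seen from `z`, `om` is a holomorphic multiple of `om z`.
* `line_flat` : the line `ℂ om` is a flat subbundle.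
* `fl_root` : if the monodromy scalars on the line at one point are `M`-th roots of unity, there is
  `f` holomorphic without zeros with `|f|² = hnsq(om)^M`.
* `fl_mono` : the same from `Hull_574.Mono` at one point.
-/

set_option autoImplicit false

open Set Filter Topology Matrix

namespace Crest.Agent.R276.FL_617

open Crest.Agent.R271.Ho51 Crest.Agent.R276.Ipc735 Crest.Agent.R276.Par_425
  Crest.Agent.R276.Tr_617 Crest.Agent.R276.Top8_815

section loc

variable {m N : ℕ} {X : Type*} [TopologicalSpace X] [RDom m X] {P : X → X → GL (Fin N) ℤ}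
  {om : X → Fin N → ℂ}

theorem lV_self (h : NDC P) (v : X → Fin N → ℂ) (z : X) : lV P v z z = v z := by
  rw [lV, ndc_self h, Par_425.cm_one, Matrix.one_mulVec]

/-- the derivative of the section seen from `z` at points near `z` -/
theorem fderiv_near (h : NDC P) (z : X) (hol : ∀ u, HolAt (lV P om u) u)
    (hD : ∀ u j, ∃ c : ℂ, Dv P om j u = c • om u) :
    ∀ᶠ p in 𝓝 (cp z), ∀ j, ∃ c : ℂ, fderiv ℂ (lV P om z ∘ (ch z).symm) p (Pi.single j 1)
      = c • (lV P om z ∘ (ch z).symm) p := by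
  have h1 : ∀ᶠ u in 𝓝 z, ∀ j, ∃ c : ℂ, fderiv ℂ (lV P om z ∘ (ch z).symm) (cp u) (Pi.single j 1)
      = c • (lV P om z ∘ (ch z).symm) (cp u) := by
    filter_upwards [lV_near h om z, (ch z).open_source.mem_nhds (mem_ch z), holAt_near (hol z)]
      with u hu hus hu2 j
    obtain ⟨c, hc⟩ := hD u j
    refine ⟨c, ?_⟩
    have e1 : (lV P om z ∘ (ch z).symm) =ᶠ[𝓝 (cp u)] (lV P om z ∘ (ch u).symm) :=
      comp_germ (isCh_ch z) (isCh_ch u) hus (mem_ch u) _
    have e2 : (lV P om u ∘ (ch u).symm) =ᶠ[𝓝 (cp u)]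
        fun p => cm (P u z) *ᵥ ((lV P om z ∘ (ch u).symm) p) := by
      filter_upwards [(tendsto_symm u).eventually hu] with p hp
      exact hp
    have hd : DifferentiableAt ℂ (lV P om z ∘ (ch u).symm) (cp u) := AnalyticAt.differentiableAt hu2
    have e3 : fderiv ℂ (lV P om u ∘ (ch u).symm) (cp u) (Pi.single j 1)
        = cm (P u z) *ᵥ (fderiv ℂ (lV P om z ∘ (ch u).symm) (cp u) (Pi.single j 1)) := by
      rw [e2.fderiv_eq]
      have h3 := (LinearMap.toContinuousLinearMap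
        (Matrix.mulVecLin (cm (P u z)))).hasFDerivAt.comp (cp u) hd.hasFDerivAt
      exact congrArg (fun L => L (Pi.single j 1)) h3.fderiv
    have e4 := Dv_eq (hol u) j
    rw [hc, e3] at e4
    have e5 : (lV P om z ∘ (ch z).symm) (cp u) = lV P om z u := by
      show lV P om z ((ch z).symm (cp u)) = lV P om z u
      rw [(isCh_ch z).symm_cp hus]
    have e6 : om u = cm (P u z) *ᵥ lV P om z u := by
      rw [← hu.self_of_nhds, lV_self h]
    rw [e1.fderiv_eq, e5]
    have e7 := congrArg (fun t => cm (P u z)⁻¹ *ᵥ t) e4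
    beta_reduce at e7
    rw [e6, Matrix.mulVec_smul, Matrix.mulVec_mulVec, Matrix.mulVec_mulVec, Par_425.cm_inv_mul,
      Matrix.one_mulVec, Matrix.one_mulVec] at e7
    exact e7.symm
  have h2 := (tendsto_symm z).eventually h1
  filter_upwards [h2, (ch z).open_target.mem_nhds ((isCh_ch z).cp_mem (mem_ch z))] with p hp hpt
  rwa [(isCh_ch z).cp_symm hpt] at hp

/-- near `z`, seen from `z`, the section is a holomorphic multiple of its value at `z` -/
theorem line_near (h : NDC P) (z : X) (hol : ∀ u, HolAt (lV P om u) u) (h0 : om z ≠ 0)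
    (hD : ∀ u j, ∃ c : ℂ, Dv P om j u = c • om u) :
    ∃ a : X → ℂ, HolAt a z ∧ a z = 1 ∧ ∀ᶠ y in 𝓝 z, a y ≠ 0 ∧ lV P om z y = a y • om z := by
  classical
  set Φ : (Fin m → ℂ) → Fin N → ℂ := lV P om z ∘ (ch z).symm with hΦ
  have hΦa : AnalyticAt ℂ Φ (cp z) := hol z
  have hΦz : Φ (cp z) = om z := by
    rw [hΦ]
    show lV P om z ((ch z).symm (cp z)) = om z
    rw [symm_cp, lV_self h]
  obtain ⟨i, hi⟩ := Function.ne_iff.1 h0
  have hi' : Φ (cp z) i ≠ 0 := by rw [hΦz]; exact hi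
  have hci : ContinuousAt (fun p => Φ p i) (cp z) :=
    (continuous_apply i).continuousAt.comp hΦa.continuousAt
  obtain ⟨r, hr, hball⟩ := Metric.eventually_nhds_iff_ball.1
    ((hΦa.eventually_analyticAt).and ((hci.eventually_ne hi').and (fderiv_near h z hol hD)))
  have hlin : ∀ p ∈ Metric.ball (cp z) r, ∀ v, ∃ c : ℂ, fderiv ℂ Φ p v = c • Φ p := by
    intro p hp v
    choose c hc using (hball p hp).2.2
    refine ⟨∑ j, v j * c j, ?_⟩
    have hv : v = ∑ j, v j • (Pi.single j 1 : Fin m → ℂ) := by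
      ext k
      simp [Finset.sum_apply, Pi.single_apply]
    conv_lhs => rw [hv]
    rw [map_sum, Finset.sum_smul]
    refine Finset.sum_congr rfl fun j _ => ?_
    rw [map_smul, hc j, smul_smul]
  have hder : ∀ (k : Fin N) (p : Fin m → ℂ), p ∈ Metric.ball (cp z) r →
      HasFDerivAt (fun q => Φ q k) ((ContinuousLinearMap.proj (R := ℂ) (φ := fun _ : Fin N => ℂ)
        k).comp (fderiv ℂ Φ p)) p := by
    intro k p hp
    exact (ContinuousLinearMap.proj (R := ℂ) (φ := fun _ : Fin N => ℂ) k).hasFDerivAt.comp p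
      (hball p hp).1.differentiableAt.hasFDerivAt
  have hconst : ∀ k, ∀ p ∈ Metric.ball (cp z) r,
      Φ p k * (Φ p i)⁻¹ = Φ (cp z) k * (Φ (cp z) i)⁻¹ := by
    intro k p hp
    have hq : ∀ q ∈ Metric.ball (cp z) r,
        HasFDerivAt (fun q => Φ q k * (Φ q i)⁻¹) (0 : (Fin m → ℂ) →L[ℂ] ℂ) q := by
      intro q hq
      have h1 := (hder k q hq).mul
        ((hasDerivAt_inv (hball q hq).2.1).comp_hasFDerivAt q (hder i q hq))
      refine h1.congr_fderiv ?_
      ext v
      obtain ⟨c, hc⟩ := hlin q hq v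
      have hne := (hball q hq).2.1
      have e1 : fderiv ℂ Φ q v k = c * Φ q k := by rw [hc]; rfl
      have e2 : fderiv ℂ Φ q v i = c * Φ q i := by rw [hc]; rfl
      simp only [Function.comp_apply, _root_.add_apply, _root_.smul_apply,
        ContinuousLinearMap.comp_apply, ContinuousLinearMap.proj_apply, smul_eq_mul,
        _root_.zero_apply, e1, e2]
      field_simp
      ring
    refine Metric.isOpen_ball.is_const_of_fderiv_eq_zero (𝕜 := ℂ)
      (f := fun q => Φ q k * (Φ q i)⁻¹)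
      (convex_ball (cp z) r).isPreconnected
      (fun q hq' => (hq q hq').differentiableAt.differentiableWithinAt)
      (fun q hq' => (hq q hq').fderiv) hp (Metric.mem_ball_self hr)
  have hΦi : AnalyticAt ℂ (fun p => Φ p i) (cp z) :=
    ((ContinuousLinearMap.proj (R := ℂ) (φ := fun _ : Fin N => ℂ) i).analyticAt _).comp hΦa
  refine ⟨fun y => lV P om z y i * (om z i)⁻¹, ?_, ?_, ?_⟩
  · exact hΦi.mul analyticAt_const
  · show lV P om z z i * (om z i)⁻¹ = 1
    rw [lV_self h]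
    exact mul_inv_cancel₀ hi
  · have hev : ∀ᶠ y in 𝓝 z, cp y ∈ Metric.ball (cp z) r :=
      (cp_cont (M := X)).continuousAt.eventually (Metric.ball_mem_nhds _ hr)
    filter_upwards [hev, (ch z).open_source.mem_nhds (mem_ch z)] with y hy hys
    have e1 : Φ (cp y) = lV P om z y := by
      show lV P om z ((ch z).symm (cp y)) = lV P om z y
      rw [(isCh_ch z).symm_cp hys]
    have hne : lV P om z y i ≠ 0 := by
      rw [← e1]
      exact (hball _ hy).2.1
    refine ⟨mul_ne_zero hne (inv_ne_zero hi), ?_⟩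
    ext k
    have e2 := hconst k _ hy
    rw [e1, hΦz] at e2
    show lV P om z y k = lV P om z y i * (om z i)⁻¹ * om z k
    have e3 : lV P om z y k = lV P om z y k * (lV P om z y i)⁻¹ * lV P om z y i := by
      rw [mul_assoc, inv_mul_cancel₀ hne, mul_one]
    rw [e3, e2]
    ring

/-- the line spanned by the section is a flat subbundle -/
theorem line_flat (h : NDC P) (hol : ∀ u, HolAt (lV P om u) u) (h0 : ∀ u, om u ≠ 0)
    (hD : ∀ u j, ∃ c : ℂ, Dv P om j u = c • om u) : FlS P (fun x => Submodule.span ℂ {om x}) := by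
  intro z
  obtain ⟨a, -, -, ha⟩ := line_near h z hol (h0 z) hD
  filter_upwards [ha] with y hy
  show (Submodule.span ℂ {om y}).map (cm (P z y)).mulVecLin = Submodule.span ℂ {om z}
  rw [Submodule.map_span, Set.image_singleton, Matrix.mulVecLin_apply]
  have e1 : cm (P z y) *ᵥ om y = a y • om z := hy.2
  rw [e1]
  exact Submodule.span_singleton_smul_eq (IsUnit.mk0 _ hy.1) _

/-- the section along a transport -/
theorem line_tr (h : NDC P) (hol : ∀ u, HolAt (lV P om u) u) (h0 : ∀ u, om u ≠ 0)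
    (hD : ∀ u j, ∃ c : ℂ, Dv P om j u = c • om u) {x y : X} {g : GL (Fin N) ℤ} (hg : Tr P x y g) :
    ∃ c : ℂ, c ≠ 0 ∧ om x = c • (cm g *ᵥ om y) := by
  have h1 := sub_tr (line_flat h hol h0 hD) hg
  have h2 : om x ∈ mapS g (Submodule.span ℂ {om y}) := by
    rw [← h1]
    exact Submodule.mem_span_singleton_self _
  rw [mapS, Submodule.map_span, Set.image_singleton, Matrix.mulVecLin_apply,
    Submodule.mem_span_singleton] at h2
  obtain ⟨c, hc⟩ := h2
  refine ⟨c, ?_, hc.symm⟩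
  rintro rfl
  rw [zero_smul] at hc
  exact h0 x hc.symm

end loc

section main

variable {m N w : ℕ} {X : Type*} [TopologicalSpace X] [RDom m X] (V : VHS m X N w)
  {om : X → Fin N → ℂ}

theorem hnsq_pos {x : X} (htop : Top8_815.IsTop w (V.E x) (om x)) (h0 : om x ≠ 0) :
    0 < hnsq V x (om x) := by
  rw [hnsq_top htop]
  exact top_pos (V.hs x) htop h0

/-- the norm of the section along a transport -/
theorem hnsq_tr (htop : ∀ u, Top8_815.IsTop w (V.E u) (om u)) {x y : X} {g : GL (Fin N) ℤ} {c : ℂ}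
    (hg : Tr V.P x y g) (hc : om x = c • (cm g *ᵥ om y)) :
    hnsq V x (om x) = ‖c‖ ^ 2 * hnsq V y (om y) := by
  rw [hnsq_top (htop x), hnsq_top (htop y), hc, fm_smul_left, fm_smul_right, vhs_S V hg]
  have e1 : fm (V.S x) (cm g *ᵥ om y) (cm g *ᵥ om y)
      = fm ((cm g)ᴴ * V.S x * cm g) (om y) (om y) := by
    unfold fm
    rw [Matrix.star_mulVec, ← Matrix.mulVec_mulVec, ← Matrix.mulVec_mulVec,
      ← Matrix.dotProduct_mulVec]
  rw [e1, ← mul_assoc, mul_comm ((starRingEnd ℂ) c) c, Complex.mul_conj, Complex.re_ofReal_mul,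
    Complex.normSq_eq_norm_sq]
  ring

/-- **(FL)** from a root of unity condition at one point -/
theorem fl_root [PreconnectedSpace X] (htop : ∀ u, Top8_815.IsTop w (V.E u) (om u))
    (hol : ∀ u, HolAt (lV V.P om u) u) (h0 : ∀ u, om u ≠ 0)
    (hD : ∀ u j, ∃ c : ℂ, Dv V.P om j u = c • om u) (x₀ : X) {M : ℕ}
    (hM : ∀ k ∈ mon V.P x₀, ∀ ζ : ℂ, cm k *ᵥ om x₀ = ζ • om x₀ → ζ ^ M = 1) :
    ∃ f : X → ℂ, (∀ x, HolAt f x) ∧ (∀ x, f x ≠ 0) ∧
      ∀ x, ‖f x‖ ^ 2 = (hnsq V x (om x)) ^ M := by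
  choose g hg using fun x => vhs_exists_tr V x x₀
  choose c hc0 hc using fun x => line_tr V.ndc hol h0 hD (hg x)
  -- independence of the transport
  have key : ∀ x (k : GL (Fin N) ℤ) (b : ℂ), Tr V.P x x₀ k → om x = b • (cm k *ᵥ om x₀) →
      b ^ M = c x ^ M := by
    intro x k b hk hb
    have hb0 : b ≠ 0 := by
      rintro rfl
      rw [zero_smul] at hb
      exact h0 x hb
    have h1 : (g x)⁻¹ * k ∈ mon V.P x₀ := (hg x).inv_mul_mem hk
    have h2 : cm ((g x)⁻¹ * k) *ᵥ om x₀ = (c x * b⁻¹) • om x₀ := by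
      have e1 : b • (cm k *ᵥ om x₀) = c x • (cm (g x) *ᵥ om x₀) := by rw [← hb, ← hc x]
      have e2 : cm k *ᵥ om x₀ = (c x * b⁻¹) • (cm (g x) *ᵥ om x₀) := by
        have e3 := congrArg (fun t => b⁻¹ • t) e1
        simp only [smul_smul] at e3
        rw [inv_mul_cancel₀ hb0, one_smul, mul_comm] at e3
        exact e3
      rw [Par_425.cm_mul, ← Matrix.mulVec_mulVec, e2, Matrix.mulVec_smul, Matrix.mulVec_mulVec,
        Par_425.cm_inv_mul, Matrix.one_mulVec]
    have h3 := hM _ h1 _ h2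
    rw [mul_pow, inv_pow] at h3
    have h4 : b ^ M ≠ 0 := pow_ne_zero _ hb0
    field_simp at h3
    exact h3.symm
  set r : ℝ := Real.sqrt (hnsq V x₀ (om x₀)) with hr
  have hpos := hnsq_pos V (htop x₀) (h0 x₀)
  have hr0 : 0 < r := Real.sqrt_pos.2 hpos
  refine ⟨fun x => (r : ℂ) ^ M * c x ^ M, fun z => ?_, fun x => ?_, fun x => ?_⟩
  · obtain ⟨a, ha, -, hev⟩ := line_near V.ndc z hol (h0 z) hD
    have h1 : ∀ᶠ y in 𝓝 z, (r : ℂ) ^ M * c y ^ M = (r : ℂ) ^ M * (a y ^ M * c z ^ M) := by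
      have : LocallyConnectedSpace X := rdom_lc (m := m)
      filter_upwards [hev, tr_near V.ndc z] with y hy hyt
      have h2 : Tr V.P y x₀ (V.P y z * g z) := hyt.2.1.trans (hg z)
      have h3 : om y = (a y * c z) • (cm (V.P y z * g z) *ᵥ om x₀) := by
        have e1 : cm (V.P z y) *ᵥ om y = a y • om z := hy.2
        have e2 : cm (V.P y z) *ᵥ (cm (V.P z y) *ᵥ om y) = om y := by
          have e3 : V.P y z * V.P z y = 1 := by
            have e4 := hyt.2.2
            exact mul_eq_one_comm.1 e4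
          rw [Matrix.mulVec_mulVec, ← Par_425.cm_mul, e3, Par_425.cm_one, Matrix.one_mulVec]
        have e5 : om y = cm (V.P y z) *ᵥ (a y • om z) := by rw [← e1, e2]
        rw [e5, hc z, Matrix.mulVec_smul, Matrix.mulVec_smul, smul_smul, Matrix.mulVec_mulVec,
          ← Par_425.cm_mul]
      rw [← key y _ _ h2 h3, mul_pow]
    have h4 : HolAt (fun y => (r : ℂ) ^ M * (a y ^ M * c z ^ M)) z := by
      have h5 : AnalyticAt ℂ (a ∘ (ch z).symm) (cp z) := ha
      exact analyticAt_const.mul ((h5.pow M).mul analyticAt_const)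
    exact holAt_congr (h1.mono fun y hy => hy.symm) h4
  · exact mul_ne_zero (pow_ne_zero _ (by exact_mod_cast hr0.ne')) (pow_ne_zero _ (hc0 x))
  · have h1 := hnsq_tr V htop (hg x) (hc x)
    rw [h1, norm_mul, norm_pow, norm_pow, Complex.norm_real, Real.norm_of_nonneg hr0.le, mul_pow,
      mul_pow, ← pow_mul, ← pow_mul, mul_comm M 2, pow_mul r 2 M, hr, Real.sq_sqrt hpos.le,
      pow_mul ‖c x‖ 2 M]
    ring

/-- **(FL)** from `Mono` at one point -/
theorem fl_mono [PreconnectedSpace X] (htop : ∀ u, Top8_815.IsTop w (V.E u) (om u))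
    (hol : ∀ u, HolAt (lV V.P om u) u) (h0 : ∀ u, om u ≠ 0)
    (hD : ∀ u j, ∃ c : ℂ, Dv V.P om j u = c • om u) (x₀ : X)
    (hMo : Hull_574.Mono w (V.S x₀) (V.E x₀) (mon V.P x₀)) :
    ∃ M : ℕ, 0 < M ∧ ∃ f : X → ℂ, (∀ x, HolAt f x) ∧ (∀ x, f x ≠ 0) ∧
      ∀ x, ‖f x‖ ^ 2 = (hnsq V x (om x)) ^ M := by
  have hst : Hull_574.IsSt (mon V.P x₀) (Submodule.span ℂ {om x₀}) :=
    sub_st (line_flat V.ndc hol h0 hD)
  have hne : Submodule.span ℂ {om x₀} ≠ ⊥ := by
    rw [Ne, Submodule.span_singleton_eq_bot]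
    exact h0 x₀
  obtain ⟨M, hM0, hM⟩ := Hull_574.scalar_root hMo hst hne
  refine ⟨M, hM0, fl_root V htop hol h0 hD x₀ fun k hk ζ hζ => hM k hk ζ fun u hu => ?_⟩
  obtain ⟨b, rfl⟩ := Submodule.mem_span_singleton.1 hu
  rw [Matrix.mulVec_smul, hζ, smul_comm]

end main

end Crest.Agent.R276.FL_617
end

-- ▼ part R276/RestrE_236

/-!
# Row 276 (S0419), leaf RESTR (helper236), part E: the CY line and flat families

* `CYL R N u V om` : output of GEO (519, 425): `om` = holomorphic section of the top piece of `V`,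
  `‖om‖² = N D`, `D_j om = θ_j om + c om`; `CYL.transport` : pull back;
* `flatFam` : on a slice `G` of the base along which `θ om = 0` (fibre of `M_L → M_T`), with `Mono`
  (574) at one point: `FlatFam` on the restricted model (by 617's `fl_mono`).
-/

set_option autoImplicit false
set_option linter.unusedSectionVars false

open Set Filter Topology MeasureTheory Matrix
open scoped ENNReal

noncomputable section

namespace Crest.Agent.R276.Restr_236

open Crest.Agent.R271 Crest.Agent.R271.Ho51 Crest.Agent.R276.AB2_590 Crest.Agent.R271.Defs710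
open Crest.Agent.R276.Mod1_987 Crest.Agent.R276.FlatM_464 Crest.Agent.R276.FlatDefs_236
open Crest.Agent.R276.CmpR_652 Crest.Agent.R276.FibN_793 Crest.Agent.R276.VPull_327
open Crest.Agent.R276.Ipc735 Crest.Agent.R276.Par_425 Crest.Agent.R276.Top8_815
open Crest.Agent.R276.Tr_617

/-! ### pull back of derivatives of sections -/

section pull

variable {r m N w : ℕ} {Y X : Type*} [TopologicalSpace Y] [RDom r Y] [TopologicalSpace X]
  [RDom m X] (V : VHS m X N w) {φ : Y → X} (hφ : HMap φ)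

/-- the derivative of the pull back of a section -/
theorem Dv_pull {om : X → Fin N → ℂ} {z : Y} (hol : HolAt (lV V.P om (φ z)) (φ z)) (k : Fin r) :
    Dv (pull V hφ).P (fun y => om (φ y)) k z = ∑ l, J φ z k l • Dv V.P om l (φ z) := by
  funext i
  rw [Finset.sum_apply]
  have h1 : HolAt (fun x => lV V.P om (φ z) x i) (φ z) := by
    have h2 : AnalyticAt ℂ (lV V.P om (φ z) ∘ (ch (φ z)).symm) (cp (φ z)) := hol
    exact (ContinuousLinearMap.proj (R := ℂ) (φ := fun _ : Fin N => ℂ) i).analyticAt _ |>.comp h2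
  exact (hφ z).dz_comp (SmAt.differentiableAt (HolAt.smAt h1)) k

end pull

variable {L K : Type} [Field L] [Field K] [Algebra ℂ L] [Algebra ℂ K] [Algebra L K]
  [IsScalarTower ℂ L K] {m r : ℕ}
variable {L' K' : Type} [Field L'] [Field K'] [Algebra ℂ L'] [Algebra ℂ K'] [Algebra L' K']
  [IsScalarTower ℂ L' K'] {m' : ℕ}

/-- OUTPUT OF GEO (519, 425): the Calabi-Yau line -/
structure CYL (R : RMdl L K m r) (N : ℕ) {s : ℕ} (u : Fin s → R.MK.B) {N₀ w₀ : ℕ}
    (V : VHS m R.ML.Pts N₀ w₀) (om : R.ML.Pts → Fin N₀ → ℂ) : Prop where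
  top : ∀ z, Top8_815.IsTop w₀ (V.E z) (om z)
  hol : ∀ z, HolAt (lV V.P om z) z
  /-- `‖ω‖² = N D` -/
  nrm : ∀ z, ENNReal.ofReal (hnsq V z (om z)) = N * DN N u z
  /-- `D_j ω = θ_j ω + c ω` -/
  par : ∀ z j, ∃ c : ℂ, Dv V.P om j z = dM V.P V.E j z *ᵥ om z + c • om z

/-- pull back of the CY line -/
theorem CYL.transport {R : RMdl L K m r} {R' : RMdl L' K' m' r} {s : ℕ} {Θ : FMap R' R}
    {u' : Fin s → R'.MK.B} {u : Fin s → R.MK.B} (h : Θ.Cp u' u) (hι : HMap Θ.ι) {N N₀ w₀ : ℕ}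
    {V : VHS m R.ML.Pts N₀ w₀} {om : R.ML.Pts → Fin N₀ → ℂ} (H : CYL R N u V om) :
    CYL R' N u' (pull V hι) (fun y => om (Θ.ι y)) where
  top z := H.top (Θ.ι z)
  hol z := holAt_pull V hι (H.hol (Θ.ι z))
  nrm z := by
    rw [h.dn]
    exact H.nrm (Θ.ι z)
  par z k := by
    choose c hc using fun l => H.par (Θ.ι z) l
    refine ⟨∑ l, J Θ.ι z k l * c l, ?_⟩
    rw [Dv_pull V hι (H.hol (Θ.ι z)), dM_pull_E, Finset.sum_smul]
    rw [Matrix.sum_mulVec, ← Finset.sum_add_distrib]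
    refine Finset.sum_congr rfl fun l _ => ?_
    rw [hc l, smul_add, Matrix.smul_mulVec, smul_smul]

section nz

variable {R : RMdl L K m r} {s N N₀ w₀ : ℕ} {u : Fin s → R.MK.B} {V : VHS m R.ML.Pts N₀ w₀}
  {om : R.ML.Pts → Fin N₀ → ℂ}

lemma CYL.hnsq_eq (H : CYL R N u V om) (z : R.ML.Pts) :
    hnsq V z (om z) = N * (DN N u z).toReal := by
  have h1 := H.nrm z
  have h2 : 0 ≤ hnsq V z (om z) := hnsq_nonneg (H.top z)
  rw [← ENNReal.toReal_ofReal h2, h1, ENNReal.toReal_mul, ENNReal.toReal_natCast]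

lemma CYL.ne (H : CYL R N u V om) (HS : SatFam R N u) (z : R.ML.Pts) : om z ≠ 0 := by
  intro h0
  have h1 := H.nrm z
  have hN : (N : ℝ≥0∞) ≠ 0 := by
    have := HS.N_ge
    simp only [ne_eq, Nat.cast_eq_zero]
    omega
  have h2 : hnsq V z (om z) = 0 := by
    rw [h0]
    simp [hnsq]
  rw [h2, ENNReal.ofReal_zero] at h1
  exact (mul_ne_zero hN (HS.D_pos z).ne') h1.symm

/-- **(FL) on a model on which the CY line is flat** -/
theorem flatFam_of [PreconnectedSpace R.ML.Pts] (H : CYL R N u V om) (HS : SatFam R N u)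
    (hθ : ∀ z j, dM V.P V.E j z *ᵥ om z = 0) (x₀ : R.ML.Pts)
    (hMo : Hull_574.Mono w₀ (V.S x₀) (V.E x₀) (mon V.P x₀)) :
    ∃ (M : ℕ) (f : R.ML.Pts → ℂ), FlatFam R N u f M := by
  obtain ⟨M, hM, f, hf, hf0, hfn⟩ := FL_617.fl_mono V H.top H.hol (H.ne HS) (fun z j => by
    obtain ⟨c, hc⟩ := H.par z j
    exact ⟨c, by rw [hc, hθ, zero_add]⟩) x₀ hMo
  have hN : (0 : ℝ) < N := by
    have := HS.N_ge
    exact_mod_cast (by omega : 0 < N)
  set κ : ℝ := (Real.sqrt ((N : ℝ) ^ M))⁻¹ with hκ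
  have hκ0 : 0 < κ := inv_pos.2 (Real.sqrt_pos.2 (by positivity))
  refine ⟨M, fun z => (κ : ℂ) * f z, { HS with
    M_pos := hM
    hol := ?_
    ne := fun w => mul_ne_zero (by exact_mod_cast hκ0.ne') (hf0 w)
    eq := fun w => ?_ }⟩
  · refine hol51_iff.2 fun z => ?_
    exact analyticAt_const.mul (hf z)
  · rw [norm_mul, mul_pow, hfn w, H.hnsq_eq, Complex.norm_real, Real.norm_of_nonneg hκ0.le,
      mul_pow, hκ, inv_pow, Real.sq_sqrt (by positivity)]
    field_simp

end nz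

/-! ### restriction to slices -/

section up

variable (R : RMdl L K m r) {ρ a : ℕ} {e : Fin ρ ⊕ Fin a ≃ Fin m} {c : Cn ρ} (S : SG R.ML e c)
  (hs : Function.Surjective R.q) (hc : ∀ w, IsPreconnected (R.q ⁻¹' {w}))

/-- the Jacobian of the inclusion of a slice -/
lemma J_ι (y : S.mdl.Pts) (k : Fin a) (l : Fin m) :
    J S.ι y k l = if l = e (Sum.inr k) then 1 else 0 := by
  have h1 : jac S.ι y = fderiv ℂ (FibM_793.glue e c) (cp y) :=
    jac_of_cp (Eventually.of_forall fun y' => S.cp_ι y')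
  have hd : HasFDerivAt (FibM_793.glue e c) (fderiv ℂ (FibM_793.glue e c) (cp y)) (cp y) :=
    (analyticAt_glue (e := e) (c := c) (cp y)).differentiableAt.hasFDerivAt
  have h2 := hasFDerivAt_pi'.1 hd l
  unfold VPull_327.J
  rw [h1]
  obtain ⟨t, rfl⟩ := e.surjective l
  rcases t with i | j
  · have h3 : HasFDerivAt (fun x : Cn a => FibM_793.glue e c x (e (Sum.inl i)))
        (0 : (Fin a → ℂ) →L[ℂ] ℂ) (cp y) := by
      simp only [FibM_793.glue_inl]
      exact hasFDerivAt_const _ _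
    have h4 := congrArg (fun T : (Fin a → ℂ) →L[ℂ] ℂ => T (Pi.single k 1)) (h2.unique h3)
    simp only [ContinuousLinearMap.comp_apply, ContinuousLinearMap.proj_apply,
      _root_.zero_apply] at h4
    rw [h4, if_neg (fun h => by simpa using e.injective h)]
  · have h3 : HasFDerivAt (fun x : Cn a => FibM_793.glue e c x (e (Sum.inr j)))
        (ContinuousLinearMap.proj (R := ℂ) (φ := fun _ : Fin a => ℂ) j) (cp y) := by
      simp only [FibM_793.glue_inr]
      exact (ContinuousLinearMap.proj (R := ℂ) (φ := fun _ : Fin a => ℂ) j).hasFDerivAt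
    have h4 := congrArg (fun T : (Fin a → ℂ) →L[ℂ] ℂ => T (Pi.single k 1)) (h2.unique h3)
    simp only [ContinuousLinearMap.comp_apply, ContinuousLinearMap.proj_apply] at h4
    rw [h4, Pi.single_apply]
    simp

variable {R}

/-- **flat families on slices along which `θ ω = 0`** -/
theorem flatFam_up {s N N₀ w₀ : ℕ} {u : Fin s → R.MK.B} {V : VHS m R.ML.Pts N₀ w₀}
    {om : R.ML.Pts → Fin N₀ → ℂ} (H : CYL R N u V om) (HS : SatFam R N u)
    (hθ : ∀ z ∈ S.G, ∀ k : Fin a, dM V.P V.E (e (Sum.inr k)) z *ᵥ om z = 0) (x₀ : S.mdl.Pts)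
    (hMo : Hull_574.Mono w₀ (V.S (S.ι x₀)) (V.E (S.ι x₀)) (mon (pull V S.hmap_ι).P x₀)) :
    ∃ (M : ℕ) (f : (S.rmdl R hs hc).ML.Pts → ℂ),
      FlatFam (S.rmdl R hs hc) N (upU R S hs hc u) f M := by
  have H' : CYL (S.rmdl R hs hc) N (upU R S hs hc u) (pull V S.hmap_ι) (fun y => om (S.ι y)) :=
    CYL.transport (Θ := upMap R S hs hc) (cp_up R S hs hc u) S.hmap_ι H
  refine flatFam_of H' (HS.up R S hs hc) (fun z k => ?_) x₀ hMo
  rw [dM_pull_E]
  simp only [J_ι]
  simp only [ite_smul, one_smul, zero_smul, Finset.sum_ite_eq', Finset.mem_univ, if_true]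
  exact hθ _ (S.ι_mem z) k

end up

end Crest.Agent.R276.Restr_236
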