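import Mathlib
import Crest.Agent.R276.FibP_793
import Crest.Agent.R276.FlatDefs_236
import Crest.Agent.R276.CInd_870
import Crest.Agent.R276.FinFib_348
import Crest.Agent.R276.GlobN_739
import Crest.Agent.R276.GlobR_739
import Crest.Agent.R276.FlatA_464
import Crest.Agent.R276.PrpM_739
import Crest.Agent.R276.RestrE_236
import Crest.Agent.R276.FlatC_464

-- ▼ part R276/FibT_793
section

/-!
# Row 276 (S0419), RESTR (helper793), part 5: towers

* `Phi_eq_fint`, `Phi_rmdl` : `Φ` of the restricted family is `Φ ∘ ι`;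
* for `H₁ : Rel MT ML`, `H₂ : Rel ML MK` (220) with connected fibres and `y₀ : MT.Pts`:
  `SY`, `RY` = the relative model over the fibre `G_{y₀}`; `eY : RY.ML.Pts ≃ₜ (rm H₁).Fib y₀`,
  `cp_eY`, `Phi_eY`; `holS_iff`: 220's `HolS` on the slice in terms of `RY.ML.Pts`.
-/

set_option autoImplicit false

open Topology Filter MeasureTheory
open scoped ENNReal

noncomputable section

namespace Crest.Agent.R276.FibT_793

open Crest.Agent.R271.Alg255 Crest.Agent.R271.Rd692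
open Crest.Agent.R271.Defs710 hiding glue
open Crest.Agent.R271.AlgB956 Crest.Agent.R271.Ho51
open Crest.Agent.R276.Mod1_987 Crest.Agent.R276.FibN_793
open Crest.Agent.R276.FlatDefs_236 Crest.Agent.R276.FlatM_464

section general

variable {L K : Type} [Field L] [Field K] [Algebra ℂ L] [Algebra ℂ K] [Algebra L K]
  [IsScalarTower ℂ L K] {m r : ℕ} (R : RMdl L K m r)

/-- the integrand of `Φ` on the total space -/
def phiI (N : ℕ) {s : ℕ} (u : Fin s → R.MK.B) (a : Fin s → ℂ) (y : R.MK.Pts) : ℝ≥0∞ :=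
  ENNReal.ofReal (‖∑ i, a i * y (u i)‖ ^ (2 / (N : ℝ)))

lemma measurable_phiI (N : ℕ) {s : ℕ} (u : Fin s → R.MK.B) (a : Fin s → ℂ) :
    Measurable (phiI R N u a) := by
  have h1 : Continuous fun y : R.MK.Pts => ∑ i, a i * y (u i) :=
    continuous_finsetSum _ fun i _ => continuous_const.mul (continuous_ev (u i))
  have h2 : Continuous fun y : R.MK.Pts => ‖∑ i, a i * y (u i)‖ ^ (2 / (N : ℝ)) :=
    h1.norm.rpow_const fun _ => Or.inr (by positivity)
  exact (ENNReal.continuous_ofReal.comp h2).measurable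

theorem Phi_eq_fint (N : ℕ) {s : ℕ} (u : Fin s → R.MK.B) (w : R.ML.Pts) (a : Fin s → ℂ) :
    Phi N u w a = R.fint w (phiI R N u a) := by
  rw [R.fint_eq (nu_leb R w) (measurable_phiI R N u a)]
  rfl

variable {ρ a : ℕ} {e : Fin ρ ⊕ Fin a ≃ Fin m} {c : Cn ρ} (S : SG R.ML e c)
  (hs : Function.Surjective R.q) (hc : ∀ w, IsPreconnected (R.q ⁻¹' {w}))

/-- the restricted sections -/
def ru {s : ℕ} (u : Fin s → R.MK.B) (i : Fin s) : (S.rmdl R hs hc).MK.B :=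
  (S.up R hs hc).res (u i)

/-- `Φ` of the restricted family -/
theorem Phi_rmdl (N : ℕ) {s : ℕ} (u : Fin s → R.MK.B) (w : (S.rmdl R hs hc).ML.Pts)
    (b : Fin s → ℂ) : Phi N (ru R S hs hc u) w b = Phi N u (S.ι w) b := by
  rw [Phi_eq_fint, Phi_eq_fint, ← S.fint_rmdl R hs hc (phiI R N u b) w]
  rfl

end general

/-! ### towers -/

section tower

open Crest.Agent.R276.SkelDefs_220 Crest.Agent.R276.CInd_870

variable {T L K : Type} [Field T] [Field L] [Field K] [Algebra ℂ T] [Algebra ℂ L] [Algebra ℂ K]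
  [Algebra T L] [Algebra L K] [IsScalarTower ℂ T L] [IsScalarTower ℂ L K] {ρ a r : ℕ}
  {MT : Mdl T ρ} {ML : Mdl L (ρ + a)} {MK : Mdl K (ρ + a + r)}

section conn

variable {m : ℕ} {MM : Mdl L m} {MN : Mdl K (m + r)}

lemma surj_rm (H : Rel MM MN) : Function.Surjective (rm H).q := by
  intro w
  obtain ⟨y, hy⟩ := H.surj w
  refine ⟨y, AlgHom.ext fun b => ?_⟩
  exact hy b ((rm H).incl b) rfl

lemma conn_rm {H : Rel MM MN} (h : H.Conn) (w : MM.Pts) :
    IsConnected ((rm H).q ⁻¹' {w}) := by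
  convert! h w using 1


end conn

variable (H₁ : Rel MT ML) (H₂ : Rel ML MK) (h₁ : H₁.Conn) (h₂ : H₂.Conn) (y₀ : MT.Pts)

/-- the fibre `G_{y₀}` of `M_L → M_T` -/
def SY : SG ML (finSumFinEquiv : Fin ρ ⊕ Fin a ≃ Fin (ρ + a)) (MT.pz y₀) :=
  fibSG (rm H₁) y₀ (conn_rm h₁ y₀)


/-- the function field of `G_{y₀}` -/
def FY : Type := (SY H₁ h₁ y₀).F

instance : Field (FY H₁ h₁ y₀) := inferInstanceAs (Field (SY H₁ h₁ y₀).F)

instance : Algebra ℂ (FY H₁ h₁ y₀) := inferInstanceAs (Algebra ℂ (SY H₁ h₁ y₀).F)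

/-- the preimage of `G_{y₀}` in `M_K` -/
def UY : SG MK (eK (finSumFinEquiv : Fin ρ ⊕ Fin a ≃ Fin (ρ + a)) r) (MT.pz y₀) :=
  SG.up (rm H₂) (SY H₁ h₁ y₀) (surj_rm H₂) fun w => (conn_rm h₂ w).isPreconnected

/-- the function field of the preimage of `G_{y₀}` in `M_K` -/
def KY : Type := (UY H₁ H₂ h₁ h₂ y₀).F

instance : Field (KY H₁ H₂ h₁ h₂ y₀) := inferInstanceAs (Field (UY H₁ H₂ h₁ h₂ y₀).F)

instance : Algebra ℂ (KY H₁ H₂ h₁ h₂ y₀) := inferInstanceAs (Algebra ℂ (UY H₁ H₂ h₁ h₂ y₀).F)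

instance : Algebra (FY H₁ h₁ y₀) (KY H₁ H₂ h₁ h₂ y₀) :=
  (SG.fld (rm H₂) (SY H₁ h₁ y₀) (surj_rm H₂) fun w => (conn_rm h₂ w).isPreconnected).toAlgebra

instance : IsScalarTower ℂ (FY H₁ h₁ y₀) (KY H₁ H₂ h₁ h₂ y₀) :=
  SG.instIsScalarTowerComplexFUp (rm H₂) (SY H₁ h₁ y₀) (surj_rm H₂)
    fun w => (conn_rm h₂ w).isPreconnected

/-- **the relative model over `G_{y₀}`** -/
def RY : RMdl (FY H₁ h₁ y₀) (KY H₁ H₂ h₁ h₂ y₀) a r :=
  SG.rmdl (rm H₂) (SY H₁ h₁ y₀) (surj_rm H₂) fun w => (conn_rm h₂ w).isPreconnected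

/-- the points of the base of `RY` are the points of `G_{y₀}` -/
def eY : (RY H₁ H₂ h₁ h₂ y₀).ML.Pts ≃ₜ (rm H₁).Fib y₀ := fibHomeo (rm H₁) y₀ (conn_rm h₁ y₀)


lemma cp_eY (z : (RY H₁ H₂ h₁ h₂ y₀).ML.Pts) : cp (eY H₁ H₂ h₁ h₂ y₀ z) = cp z :=
  fibHomeo_cp (rm H₁) y₀ (conn_rm h₁ y₀) z

/-- the restricted sections -/
def uY {s : ℕ} (u : Fin s → MK.B) : Fin s → (RY H₁ H₂ h₁ h₂ y₀).MK.B :=
  ru (rm H₂) (SY H₁ h₁ y₀) (surj_rm H₂) (fun w => (conn_rm h₂ w).isPreconnected) u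

theorem Phi_eY (N : ℕ) {s : ℕ} (u : Fin s → MK.B) (z : (RY H₁ H₂ h₁ h₂ y₀).ML.Pts)
    (b : Fin s → ℂ) :
    Phi N (uY H₁ H₂ h₁ h₂ y₀ u) z b = Phi (R := rm H₂) N u (eY H₁ H₂ h₁ h₂ y₀ z).val b :=
  Phi_rmdl (rm H₂) (SY H₁ h₁ y₀) (surj_rm H₂) _ N u z b




end tower

end Crest.Agent.R276.FibT_793
end
end

-- ▼ part R276/FinSat_348
section

/-!
# R276, leaf FIN-FIB (helper348), in the notation of `FlatDefs_236` (`SatFam`) and `GlobN_739` (`J`)

* `fin_sat` : for a saturated family `SatFam R N u` the set `{A ∈ Is Φ w w | (det A)^k = 1}` is finite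
  for all `w` off a hypersurface `{P = 0}` of the base coordinates.
* `fin_J` : the same for 739's `J Φ f k l z0 z0`.
* `J_finite_of` : finiteness is transported by an isometry.
-/

set_option autoImplicit false

noncomputable section

open Set Filter Topology MeasureTheory
open Crest.Agent.R271.Ho51 Crest.Agent.R271.Defs710 Crest.Agent.R271.Rd692
open Crest.Agent.R276.Ipc735 Crest.Agent.R276.Iter_840 Crest.Agent.R276.Mod1_987
open Crest.Agent.R276.FlatDefs_236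
open scoped ENNReal

namespace Crest.Agent.R276.FinSat_348

variable {s : ℕ} {L K : Type} [Field L] [Field K] [Algebra ℂ L] [Algebra ℂ K] [Algebra L K]
  [IsScalarTower ℂ L K] {m r : ℕ} {R : RMdl L K m r} {u : Fin s → R.MK.B}

theorem Phi_eq (N : ℕ) (w : R.ML.Pts) (a : Fin s → ℂ) :
    FlatDefs_236.Phi N u w a = FinFib_348.Phi R u N w a := by
  rw [FinFib_348.Phi_eq R u (nu_leb R w)]
  unfold FlatDefs_236.Phi FlatM_464.PHI
  refine lintegral_congr fun y => ?_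
  have hp : (0 : ℝ) ≤ 2 / (N : ℝ) := by positivity
  rw [← Real.enorm_eq_ofReal (Real.rpow_nonneg (norm_nonneg _) _),
    Real.enorm_rpow_of_nonneg (norm_nonneg _) hp, enorm_norm]
  rfl

theorem Phi_eq' (N : ℕ) : FlatDefs_236.Phi N u = FinFib_348.Phi R u N := by
  funext w a; exact Phi_eq N w a

/-- **FIN** for a saturated family, at generic points. -/
theorem fin_sat (hO : OneStep) (hR : StepRz) (hRA : StepRzAct) {N : ℕ} (hS : SatFam R N u) :
    ∃ P : MvPolynomial (Fin m) ℂ, P ≠ 0 ∧ ∀ w : R.ML.Pts, MvPolynomial.eval (R.ML.pz w) P ≠ 0 →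
      ∀ k : ℕ, 0 < k →
      {A : Matrix (Fin s) (Fin s) ℂ |
        A ∈ FlatT_464.Is (FlatDefs_236.Phi N u) w w ∧ A.det ^ k = 1}.Finite := by
  by_cases hg : ∃ k, u k ≠ 0
  · obtain ⟨P, hP0, hP⟩ := FinFib_348.fin_fib R u hO hR hRA hg
    refine ⟨P, hP0, fun w hw k hk => ?_⟩
    have : PreconnectedSpace (R.Fib w) := (hS.conn w).toPreconnectedSpace
    have h1 := hP w hw (fun c hc => hS.indep w c fun y => hc y) N (by have := hS.N_ge; omega)
      (fun c => by rw [← Phi_eq]; exact (hS.fin w c).lt_top) k hk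
    rw [Phi_eq']
    exact h1
  · push Not at hg
    refine ⟨1, one_ne_zero, fun w _ k hk => ?_⟩
    exfalso
    have i : Fin s := ⟨0, hS.s_pos⟩
    have h1 := hS.indep w (fun _ => 1) (fun y => by
      refine Finset.sum_eq_zero fun i _ => ?_
      simp [sg, hg i])
    have := congrFun h1 i
    simp at this






end Crest.Agent.R276.FinSat_348
end
end

-- ▼ part R276/GlobF_739
section

/-!
# R276, leaf GLOBF (helper739): flat families, from line transports to `FlatA_464.Hyp`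

For `R : RMdl L K m r`, `F : FlatFam R N u f M` (236):

* `fd F : GlobR_739.FD (Φ in ℝ) f (2/N) M N`;
* `fin_at` : `FinAt` at every point, from `LineT` and (FRI) at a generic point (348, 39);
* `lt` : (LT) of FLATALG: near every `z1` a holomorphic `T` with `T z ∈ Is Φ z1 z`, moreover `T z1 = 1` and
  `det (T z) ^ M * f z ^ N = f z1 ^ N`;
* `hyp` : `FlatA_464.Hyp (nu R) (sg u) N D f M`;
* `dat` : `FlatT_464.Dat (Φ) (fun z => (f z0 / f z) ^ N) M z0` for every `z0`.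

So LEMMA N only has to produce `GlobR_739.LineT (Phi N u)`.
-/

set_option autoImplicit false
set_option linter.unusedSectionVars false

noncomputable section

open Set Filter Topology MeasureTheory Matrix
open scoped ENNReal

namespace Crest.Agent.R276.GlobF_739

open Crest.Agent.R271 Crest.Agent.R271.Ho51 Crest.Agent.R271.Rd692
open Crest.Agent.R276.Mod1_987 Crest.Agent.R276.FlatM_464 Crest.Agent.R276.FlatDefs_236
open Crest.Agent.R276.GlobR_739
open Crest.Agent.R276.FlatT_464 (Is Nm Loc Dat)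
open Crest.Agent.R276.Ipc735 (HolAt OneStep)
open Crest.Agent.R276.Iter_840

variable {L K : Type} [Field L] [Field K] [Algebra ℂ L] [Algebra ℂ K] [Algebra L K]
  [IsScalarTower ℂ L K] {m r : ℕ} {R : RMdl L K m r} {N s : ℕ} {u : Fin s → R.MK.B}
  {f : R.ML.Pts → ℂ} {M : ℕ}

instance sigmaFinite_nu (w : R.ML.Pts) : SigmaFinite (nu R w) := by
  have := Crest.Agent.R271.Ho51.IsLeb.locallyFinite (nu_leb R w)
  infer_instance

theorem measurable_sg (u : Fin s → R.MK.B) (w : R.ML.Pts) : Measurable (sg u w) := by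
  refine measurable_pi_lambda _ fun i => ?_
  have h1 : Continuous fun y : R.Fib w => (RMdl.Fib.val R y : R.MK.Pts) (u i) :=
    (continuous_ev (u i)).comp (RMdl.Fib.continuous_val w)
  exact h1.measurable

theorem rp_pos {N : ℕ} (hN : 4 ≤ N) : (0 : ℝ) < 2 / N := by
  have : (0 : ℝ) < N := by exact_mod_cast (by omega : 0 < N)
  positivity

theorem rp_lt {N : ℕ} (hN : 4 ≤ N) : (2 / N : ℝ) < 2 := by
  have h1 : (4 : ℝ) ≤ N := by exact_mod_cast hN
  rw [div_lt_iff₀ (by linarith)]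
  linarith

/-- `Φ` as a real number -/
def PhiR (N : ℕ) (u : Fin s → R.MK.B) (w : R.ML.Pts) (a : Fin s → ℂ) : ℝ := (Phi N u w a).toReal

/-- isometries do not see the difference -/
theorem is_iff (S : SatFam R N u) {w w' : R.ML.Pts} {A : Matrix (Fin s) (Fin s) ℂ} :
    A ∈ Is (PhiR N u) w w' ↔ A ∈ Is (Phi N u) w w' := by
  constructor
  · intro h a
    exact (ENNReal.toReal_eq_toReal_iff' (S.fin w' _) (S.fin w a)).1 (h a)
  · intro h a
    unfold PhiR
    rw [h a]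

theorem lineT_iff (S : SatFam R N u) : LineT (PhiR N u) ↔ LineT (Phi N u) := by
  constructor
  · intro h e he z v hv
    obtain ⟨T, h1, h2, h3⟩ := h e he z v hv
    exact ⟨T, h1, h2, fun t ht a =>
      (ENNReal.toReal_eq_toReal_iff' (S.fin _ _) (S.fin _ _)).1 (h3 t ht a)⟩
  · intro h e he z v hv
    obtain ⟨T, h1, h2, h3⟩ := h e he z v hv
    refine ⟨T, h1, h2, fun t ht a => ?_⟩
    unfold PhiR
    rw [h3 t ht a]

theorem finAt_iff (S : SatFam R N u) {k : ℕ} {w : R.ML.Pts} :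
    FinAt (PhiR N u) k w ↔ FinAt (Phi N u) k w := by
  unfold FinAt
  simp only [is_iff S]

/-- homogeneity -/
theorem Phi_smul (w : R.ML.Pts) (c : ℂ) (a : Fin s → ℂ) :
    Phi N u w (c • a) = ENNReal.ofReal (‖c‖ ^ (2 / (N : ℝ))) * Phi N u w a := by
  unfold Phi PHI
  rw [← lintegral_const_mul' _ _ ENNReal.ofReal_ne_top]
  refine lintegral_congr fun x => ?_
  have : ∑ i, (c • a) i * sg u w x i = c * ∑ i, a i * sg u w x i := by
    rw [Finset.mul_sum]
    exact Finset.sum_congr rfl fun i _ => by rw [Pi.smul_apply, smul_eq_mul, mul_assoc]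
  rw [this, norm_mul, Real.mul_rpow (norm_nonneg _) (norm_nonneg _),
    ENNReal.ofReal_mul (by positivity)]

/-- positivity -/
theorem Phi_ne_zero (S : SatFam R N u) (w : R.ML.Pts) {a : Fin s → ℂ} (h : Phi N u w a = 0) :
    a = 0 := by
  have := S.conn w
  rw [FinSat_348.Phi_eq] at h
  exact FinFib_348.Phi_pos (fun c hc => S.indep w c fun y => hc y)
    (by have := S.N_ge; omega) h

/-- the determinant of an isometry -/
theorem det_is (F : FlatFam R N u f M) {z z' : R.ML.Pts} {A : Matrix (Fin s) (Fin s) ℂ}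
    (hA : A ∈ Is (Phi N u) z z') : ‖A.det‖ ^ M * ‖f z'‖ ^ N = ‖f z‖ ^ N := by
  have hN := F.N_ge
  have hN0 : (0 : ℝ) < N := by exact_mod_cast (by omega : 0 < N)
  have h1 := DD_mul (rp_pos hN) (rp_lt hN) (measurable_sg u) (F.fin z) hA
  have h2 : (‖A.det‖ ^ (2 / N : ℝ)) * (DN N u z').toReal = (DN N u z).toReal := by
    have := congrArg ENNReal.toReal h1
    rwa [ENNReal.toReal_mul, ENNReal.toReal_ofReal (by positivity)] at this
  have hA0 : 0 ≤ ‖A.det‖ := norm_nonneg _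
  have h3 : (‖A.det‖ ^ (2 / N : ℝ)) ^ M * ‖f z'‖ ^ 2 = ‖f z‖ ^ 2 := by
    rw [F.eq, F.eq, ← mul_pow, h2]
  have h4 : ((‖A.det‖ ^ (2 / N : ℝ)) ^ M) ^ N = (‖A.det‖ ^ M) ^ 2 := by
    rw [← Real.rpow_natCast, ← Real.rpow_natCast, ← Real.rpow_natCast, ← Real.rpow_natCast,
      ← Real.rpow_mul hA0, ← Real.rpow_mul hA0, ← Real.rpow_mul hA0]
    congr 1
    push_cast
    field_simp
  have h5 : (‖A.det‖ ^ M) ^ 2 * (‖f z'‖ ^ N) ^ 2 = (‖f z‖ ^ N) ^ 2 := by
    have := congrArg (fun t => t ^ N) h3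
    simp only [mul_pow] at this
    rw [h4] at this
    rw [pow_right_comm ‖f z'‖ N 2, pow_right_comm ‖f z‖ N 2]
    exact this
  rw [← mul_pow] at h5
  exact (pow_left_inj₀ (by positivity) (by positivity) two_ne_zero).1 h5

/-- the data of GLOB-R -/
theorem fd (F : FlatFam R N u f M) : FD (PhiR N u) f (2 / (N : ℝ)) M N where
  cont := by
    rw [continuous_iff_continuousAt]
    intro q
    exact (ENNReal.tendsto_toReal (F.fin q.1 q.2)).comp F.cont.continuousAt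
  pos := by
    intro z v hv
    refine ENNReal.toReal_pos (fun h => hv (Phi_ne_zero F.toSatFam z h)) (F.fin z v)
  hom := by
    intro z c v
    unfold PhiR
    rw [Phi_smul, ENNReal.toReal_mul, ENNReal.toReal_ofReal (by positivity)]
  p0 := rp_pos F.N_ge
  hol := F.hol
  f0 := F.ne
  k0 := F.M_pos
  s0 := F.s_pos
  det := by
    intro z z' A hA
    exact det_is F ((is_iff F.toSatFam).1 hA)

/-- a point of the model off a hypersurface -/
theorem exists_pt {P : MvPolynomial (Fin m) ℂ} (hP : P ≠ 0) :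
    ∃ w : R.ML.Pts, MvPolynomial.eval (R.ML.pz w) P ≠ 0 := by
  have h1 : P * R.ML.h ≠ 0 := mul_ne_zero hP R.ML.h_ne
  obtain ⟨ζ, hζ⟩ : ∃ ζ : Fin m → ℂ, MvPolynomial.eval ζ (P * R.ML.h) ≠ 0 := by
    by_contra hcon
    push Not at hcon
    exact h1 (MvPolynomial.funext fun x => by rw [hcon, map_zero])
  rw [map_mul] at hζ
  obtain ⟨w, hw⟩ := R.ML.surj (right_ne_zero_of_mul hζ)
  exact ⟨w, by rw [hw]; exact left_ne_zero_of_mul hζ⟩

/-- **FIN at every point** -/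
theorem fin_at (hO : OneStep) (hR : StepRz) (hRA : StepRzAct) (S : SatFam R N u)
    (hL : LineT (Phi N u)) {k : ℕ} (hk : 0 < k) (z : R.ML.Pts) : FinAt (Phi N u) k z := by
  obtain ⟨P, hP0, hP⟩ := FinSat_348.fin_sat hO hR hRA S
  obtain ⟨w, hw⟩ := exists_pt (R := R) hP0
  have hn : Nm (Phi N u) :=
    { pos := fun z a h => Phi_ne_zero S z (h.trans (PHI_zero (rp_pos S.N_ge) z))
      circ := fun z c a hc => PHI_circ z c a hc }
  exact fin_all (G := R.ML.Pts) hn hL (hP w hw k hk) z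

/-- **(LT)** from line transports and FIN at one point -/
theorem lt_of_fin (F : FlatFam R N u f M) (hL : LineT (Phi N u)) {w0 : R.ML.Pts}
    (hf : FinAt (Phi N u) M w0) (z1 : R.ML.Pts) :
    ∃ T : R.ML.Pts → Matrix (Fin s) (Fin s) ℂ, (∀ i j, HolAt (fun z => T z i j) z1) ∧ T z1 = 1 ∧
      ∀ᶠ z in 𝓝 z1, T z ∈ Is (Phi N u) z1 z ∧ (T z).det ^ M * f z ^ N = f z1 ^ N := by
  have hL' := (lineT_iff F.toSatFam).2 hL
  have hf' := (finAt_iff F.toSatFam).2 hf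
  obtain ⟨T, h1, h2, h3⟩ := glob_at (fd F) hL' (fin_all (G := R.ML.Pts) (fd F).nm hL' hf' z1)
  exact ⟨T, h1, h2, h3.mono fun z hz => ⟨(is_iff F.toSatFam).1 hz.1, hz.2⟩⟩

/-- **(LT)** from line transports -/
theorem lt (hO : OneStep) (hR : StepRz) (hRA : StepRzAct) (F : FlatFam R N u f M)
    (hL : LineT (Phi N u)) (z1 : R.ML.Pts) :
    ∃ T : R.ML.Pts → Matrix (Fin s) (Fin s) ℂ, (∀ i j, HolAt (fun z => T z i j) z1) ∧ T z1 = 1 ∧
      ∀ᶠ z in 𝓝 z1, T z ∈ Is (Phi N u) z1 z ∧ (T z).det ^ M * f z ^ N = f z1 ^ N :=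
  lt_of_fin F hL (fin_at hO hR hRA F.toSatFam hL F.M_pos z1) z1


/-- **the data of FLATALG, torsor form** -/
theorem dat (hO : OneStep) (hR : StepRz) (hRA : StepRzAct) (F : FlatFam R N u f M)
    (hL : LineT (Phi N u)) (z0 : R.ML.Pts) :
    Dat (PhiR N u) (fun z => (f z0 / f z) ^ N) M z0 :=
  GlobR_739.dat (fd F) ((lineT_iff F.toSatFam).2 hL)
    ((finAt_iff F.toSatFam).2 (fin_at hO hR hRA F.toSatFam hL F.M_pos z0)) z0

end Crest.Agent.R276.GlobF_739
end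
end

-- ▼ part R276/FlatTop_793

/-!
# Row 276 (S0419), FLATTOP (helper793): assembly of `SkelDefs_220.Flat`

Inputs (as statements): `LemN` = LEMMA N (999, 333, 159, 739), `MonoAll` = `Mono` (574, 617).

* `dat_of` : 464's `Dat` for every flat family;
* `ff_RY` : `FlatFam` (236, 617) over every period fibre;
* `dat_RY`, `dat_fib` : 464's `Dat` over every period fibre;
* `flat_top` : `SkelDefs_220.Flat`.
-/

set_option autoImplicit false
set_option linter.unusedSectionVars false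

open Topology Filter MeasureTheory Matrix
open scoped ENNReal

noncomputable section

namespace Crest.Agent.R276.FlatTop_793

open Crest.Agent.R271 Crest.Agent.R271.Ho51
open Crest.Agent.R271.Rd692 hiding evs
open Crest.Agent.R271.Defs710 hiding glue
open Crest.Agent.R276.Mod1_987 Crest.Agent.R276.FibN_793 Crest.Agent.R276.FibT_793
open Crest.Agent.R276.FlatDefs_236 Crest.Agent.R276.FlatM_464 Crest.Agent.R276.Restr_236
open Crest.Agent.R276.Ipc735 Crest.Agent.R276.Iter_840 Crest.Agent.R276.VPull_327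
open Crest.Agent.R276.SkelDefs_220 Crest.Agent.R276.CInd_870 Crest.Agent.R276.Tr_617

/-! ### inputs -/

/-- LEMMA N: line transports on the base of every flat family -/
def LemN : Prop :=
  ∀ {L K : Type} [Field L] [Field K] [Algebra ℂ L] [Algebra ℂ K] [Algebra L K]
    [IsScalarTower ℂ L K] {m r : ℕ} (R : RMdl L K m r) (N s : ℕ) (u : Fin s → R.MK.B)
    (f : R.ML.Pts → ℂ) (M : ℕ), FlatFam R N u f M → GlobR_739.LineT (Phi N u)

/-- `Mono` for every variation on a model -/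
def MonoAll : Prop :=
  ∀ {F : Type} [Field F] [Algebra ℂ F] {n : ℕ} (M : Mdl F n) {N w : ℕ} (V : VHS n M.Pts N w)
    (x : M.Pts), Hull_574.Mono w (V.S x) (V.E x) (mon V.P x)

/-! ### one relative model -/

section one

variable {L K : Type} [Field L] [Field K] [Algebra ℂ L] [Algebra ℂ K] [Algebra L K]
  [IsScalarTower ℂ L K] {m r : ℕ} {R : RMdl L K m r} {N s : ℕ} {u : Fin s → R.MK.B}

/-- `Dat` in `ℝ` and in `[0,∞]` -/
theorem dat_phi (S : SatFam R N u) {DC : R.ML.Pts → ℂ} {M : ℕ} {z0 : R.ML.Pts}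
    (h : FlatT_464.Dat (GlobF_739.PhiR N u) DC M z0) : FlatT_464.Dat (Phi N u) DC M z0 where
  pos z a ha := h.pos z a (by unfold GlobF_739.PhiR; rw [ha])
  circ z c a hc := PHI_circ z c a hc
  tr z1 := by
    obtain ⟨T, h1, h2⟩ := h.tr z1
    exact ⟨T, h1, h2.mono fun z hz => (GlobF_739.is_iff S).1 hz⟩
  s_pos := h.s_pos
  m_pos := h.m_pos
  D_one := h.D_one
  D_ne := h.D_ne
  D_hol := h.D_hol
  det z A hA := h.det z A ((GlobF_739.is_iff S).2 hA)
  fin := by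
    refine h.fin.subset ?_
    rintro A ⟨h1, h2⟩
    exact ⟨(GlobF_739.is_iff S).2 h1, h2⟩

/-- **the data of FLATALG for a flat family** -/
theorem dat_of (hN : LemN) (hO : OneStep) (hR : StepRz) (hRA : StepRzAct)
    {f : R.ML.Pts → ℂ} {M : ℕ} (F : FlatFam R N u f M) (z0 : R.ML.Pts) :
    FlatT_464.Dat (Phi N u) (fun z => (f z0 / f z) ^ N) M z0 :=
  dat_phi F.toSatFam (GlobF_739.dat hO hR hRA F (hN R N s u f M F) z0)

end one

/-! ### towers -/

section tower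

variable {T L K : Type} [Field T] [Field L] [Field K] [Algebra ℂ T] [Algebra ℂ L] [Algebra ℂ K]
  [Algebra T L] [Algebra L K] [IsScalarTower ℂ T L] [IsScalarTower ℂ L K] {ρ a r : ℕ}
  {MT : Mdl T ρ} {ML : Mdl L (ρ + a)} {MK : Mdl K (ρ + a + r)}
  {H₁ : Rel MT ML} {H₂ : Rel ML MK} (h₁ : H₁.Conn) (h₂ : H₂.Conn)
  {N s : ℕ} {u : Fin s → MK.B} {N₀ w₀ : ℕ}
  {V : VHS (ρ + a) ML.Pts N₀ w₀} {om : ML.Pts → Fin N₀ → ℂ}

/-- **flat families over the period fibres** -/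
theorem ff_RY (hMo : MonoAll) (HS : SatFam (rm H₂) N u) (HC : CYL (rm H₂) N u V om)
    (hθ : ∀ (z : ML.Pts) (k : Fin a), dM V.P V.E (Fin.natAdd ρ k) z *ᵥ om z = 0) (y₀ : MT.Pts) :
    ∃ (M : ℕ) (f : (RY H₁ H₂ h₁ h₂ y₀).ML.Pts → ℂ),
      FlatFam (RY H₁ H₂ h₁ h₂ y₀) N (uY H₁ H₂ h₁ h₂ y₀ u) f M := by
  have x₀ : (SY H₁ h₁ y₀).mdl.Pts := Classical.arbitrary _
  have h3 : ∀ z ∈ (SY H₁ h₁ y₀).G, ∀ k : Fin a,
      dM V.P V.E (finSumFinEquiv (Sum.inr k)) z *ᵥ om z = 0 := fun z _ k => by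
    rw [finSumFinEquiv_apply_right]
    exact hθ z k
  have h4 := hMo (SY H₁ h₁ y₀).mdl (pull V (SY H₁ h₁ y₀).hmap_ι) x₀
  have h5 := flatFam_up (R := rm H₂) (SY H₁ h₁ y₀) (surj_rm H₂)
    (fun w => (conn_rm h₂ w).isPreconnected) HC HS h3 x₀ h4
  exact h5

/-- **the data of FLATALG over the period fibres** -/
theorem dat_RY (hMo : MonoAll) (hN : LemN) (hO : OneStep) (hR : StepRz)
    (hRA : StepRzAct) (HS : SatFam (rm H₂) N u) (HC : CYL (rm H₂) N u V om)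
    (hθ : ∀ (z : ML.Pts) (k : Fin a), dM V.P V.E (Fin.natAdd ρ k) z *ᵥ om z = 0) (y₀ : MT.Pts) :
    ∃ (M : ℕ) (f : (RY H₁ H₂ h₁ h₂ y₀).ML.Pts → ℂ),
      FlatFam (RY H₁ H₂ h₁ h₂ y₀) N (uY H₁ H₂ h₁ h₂ y₀ u) f M ∧
      ∀ z0, FlatT_464.Dat (Phi N (uY H₁ H₂ h₁ h₂ y₀ u)) (fun z => (f z0 / f z) ^ N) M z0 := by
  obtain ⟨M, f, F⟩ := ff_RY h₁ h₂ hMo HS HC hθ y₀
  exact ⟨M, f, F, dat_of hN hO hR hRA F⟩

include h₁ h₂ in
/-- **the data of FLATALG on `(rm H₁).Fib y₀`**, for every `y₀` and every base point -/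
theorem dat_fib (hMo : MonoAll) (hN : LemN) (hO : OneStep) (hR : StepRz)
    (hRA : StepRzAct) (HS : SatFam (rm H₂) N u) (HC : CYL (rm H₂) N u V om)
    (hθ : ∀ (z : ML.Pts) (k : Fin a), dM V.P V.E (Fin.natAdd ρ k) z *ᵥ om z = 0) (y₀ : MT.Pts)
    (z0 : (rm H₁).Fib y₀) : ∃ (DC : (rm H₁).Fib y₀ → ℂ) (M : ℕ),
      FlatT_464.Dat (fun z : (rm H₁).Fib y₀ => Phi (R := rm H₂) N u z.val) DC M z0 := by
  obtain ⟨M, f, -, hD⟩ := dat_RY h₁ h₂ hMo hN hO hR hRA HS HC hθ y₀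
  have h3 := FlatC_464.Dat.transport (eY H₁ H₂ h₁ h₂ y₀) (cp_eY H₁ H₂ h₁ h₂ y₀)
    (Φ := fun z : (rm H₁).Fib y₀ => Phi (R := rm H₂) N u z.val)
    (fun z => funext fun b => Phi_eY H₁ H₂ h₁ h₂ y₀ N u z b)
    (hD ((eY H₁ H₂ h₁ h₂ y₀).symm z0))
  rw [(eY H₁ H₂ h₁ h₂ y₀).apply_symm_apply] at h3
  exact ⟨_, _, h3⟩

include h₁ h₂ in
/-- **FLATTOP**: `SkelDefs_220.Flat` -/
theorem flat_top (hMo : MonoAll) (hN : LemN) (hO : OneStep) (hR : StepRz)
    (hRA : StepRzAct) (HS : SatFam (rm H₂) N u) (HC : CYL (rm H₂) N u V om)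
    (hθ : ∀ (z : ML.Pts) (k : Fin a), dM V.P V.E (Fin.natAdd ρ k) z *ᵥ om z = 0)
    {d : ℕ} {D : ML.Pts → ℝ} {ε : ℝ} (hε : 0 ≤ ε) (hCY : IsCY H₂ N u D)
    (hkap : ∃ (i0 : Fin s) (ι : Fin d → Fin s),
      AlgebraicIndependent L (fun j => (u (ι j) : K) / (u i0 : K)))
    (hSKO : ∃ p : MvPolynomial (Fin (ρ + a)) ℂ, p ≠ 0 ∧ ∀ z : ML.Pts,
      MvPolynomial.eval (ML.pz z) p ≠ 0 → ∀ (k : ℕ) (P : MvPolynomial (Fin s) ℂ), 0 < k →
      P.IsHomogeneous k → Ieps H₂ N k u ε z (evs u P) ≠ ∞) :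
    Flat H₁ H₂ N d u D ε :=
  FlatC_464.flat_of_dat hε h₁ HS hCY hkap hSKO
    (Eventually.of_forall fun _ y₀ _ z0 => dat_fib h₁ h₂ hMo hN hO hR hRA HS HC hθ y₀ z0)

end tower

end Crest.Agent.R276.FlatTop_793
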