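import Mathlib

/-!
R276 / Pur0_429.  Derivations of a subfield of a discrete valuation ring extend modulo powers of the
maximal ideal (characteristic zero).
-/

set_option autoImplicit false

namespace Crest.Agent.R276.Pur429

open IsLocalRing

universe u

/-- every extension of fields of characteristic zero is formally smooth -/
theorem formallySmooth_of_charZero (M κ : Type*) [Field M] [Field κ] [Algebra M κ] [CharZero M] :
    Algebra.FormallySmooth M κ := by
  obtain ⟨s, hs⟩ := exists_isTranscendenceBasis M κ
  have halg : Algebra.IsAlgebraic (IntermediateField.adjoin M (Set.range ((↑) : s → κ))) κ :=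
    hs.isAlgebraic_field
  have : Algebra.IsSeparable (IntermediateField.adjoin M (Set.range ((↑) : s → κ))) κ :=
    inferInstance
  exact Algebra.FormallySmooth.of_algebraicIndependent_of_isSeparable hs.1

/-- extension of derivations along an extension of fields of characteristic zero -/
theorem exists_derivation_ext {k M κ N : Type*} [CommRing k] [Field M] [Field κ] [CharZero M]
    [Algebra k M] [Algebra M κ] [Algebra k κ] [IsScalarTower k M κ]
    [AddCommGroup N] [Module κ N] [Module M N] [IsScalarTower M κ N] [Module k N]
    [IsScalarTower k M N] [IsScalarTower k κ N] (D : Derivation k M N) :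
    ∃ D' : Derivation k κ N, ∀ a : M, D' (algebraMap M κ a) = D a := by
  have := formallySmooth_of_charZero M κ
  have hinj : Function.Injective (KaehlerDifferential.mapBaseChange k M κ) := by
    rw [injective_iff_map_eq_zero]
    intro x hx
    obtain ⟨x, rfl⟩ := (Algebra.H1Cotangent.exact_δ_mapBaseChange k M κ x).mp hx
    rw [Subsingleton.elim x 0, map_zero]
  obtain ⟨l, hl⟩ := LinearMap.exists_leftInverse_of_injective
    (KaehlerDifferential.mapBaseChange k M κ) (LinearMap.ker_eq_bot.mpr hinj)
  let φ : TensorProduct M κ (Ω[M⁄k]) →ₗ[κ] N :=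
    LinearMap.liftBaseChange κ (D.liftKaehlerDifferential)
  let ψ : Ω[κ⁄k] →ₗ[κ] N := φ ∘ₗ l
  refine ⟨ψ.compDer (KaehlerDifferential.D k κ), fun a => ?_⟩
  have h1 : KaehlerDifferential.D k κ (algebraMap M κ a)
      = KaehlerDifferential.mapBaseChange k M κ (1 ⊗ₜ KaehlerDifferential.D k M a) := by
    simp
  have h2 : l (KaehlerDifferential.mapBaseChange k M κ (1 ⊗ₜ KaehlerDifferential.D k M a))
      = (1 ⊗ₜ KaehlerDifferential.D k M a) := by
    have := LinearMap.congr_fun hl (1 ⊗ₜ KaehlerDifferential.D k M a)
    simpa using this
  show φ (l (KaehlerDifferential.D k κ (algebraMap M κ a))) = D a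
  rw [h1, h2]
  simp [φ]

section quot

variable {k M R : Type*} [CommRing k] [Field M] [CharZero M] [CommRing R] [IsDomain R]
  [IsDiscreteValuationRing R] [Algebra k M] [Algebra M R] [Algebra k R] [IsScalarTower k M R]


end quot

end Crest.Agent.R276.Pur429
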