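import Mathlib
import Crest.Agent.R271.Bd3_741
import Crest.Agent.R271.Rd7_692
import Crest.Agent.R276.Area_448
import Crest.Agent.R276.Zrc_448
import Crest.Agent.R276.Mod5_987
import Crest.Agent.R276.IntC_448
import Crest.Agent.R276.FKDefs_779

-- ▼ part R276/IntA_448
section

/-!
# INT, part A: integrals of `|g|^{2/N}` over `M = Hom(B, ℂ)` from finitely many bounded charts

`B` a finitely generated `ℂ`-algebra, étale over `ℂ[z]`.  If `g = h_s · jac(y_s)^N` for finitely many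
`(h_s, y_s)`, every point of a measurable set `T ⊆ M` satisfies `|h_s| ≤ C`, `y_s ∈ W_s` for some `s`, and
`y_s` is at most `d_s` to one where its Jacobian is `≠ 0`, then
`∫_T |g|^{2/N} ≤ ∑_s C^{2/N} d_s vol(W_s)`.
-/

set_option autoImplicit false

open scoped Topology ENNReal
open Filter Set MeasureTheory

noncomputable section

namespace Crest.Agent.R276.IntA_448

open Crest.Agent.R271.Defs710 Crest.Agent.R271.Ho51 Crest.Agent.R271.Rd692 Crest.Agent.R271.Bd741
open Crest.Agent.R276.Area_448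

variable {n : ℕ} {B : Type} [CommRing B] [Algebra ℂ B]

/-- the Jacobian matrix `∂ yᵢ / ∂ z_j` -/
def jm (D : Fin n → Derivation ℂ B B) (y : Fin n → B) : Matrix (Fin n) (Fin n) B :=
  Matrix.of fun i j => D j (y i)

/-- the Jacobian determinant -/
def jd (D : Fin n → Derivation ℂ B B) (y : Fin n → B) : B := (jm D y).det

/-- the derivative of `x ↦ (x (yᵢ))ᵢ` at the point `x` -/
def qd (D : Fin n → Derivation ℂ B B) (y : Fin n → B) (x : B →ₐ[ℂ] ℂ) :
    (Fin n → ℂ) →L[ℂ] (Fin n → ℂ) :=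
  LinearMap.toContinuousLinearMap (Matrix.toLin' ((jm D y).map x))

lemma qd_det (D : Fin n → Derivation ℂ B B) (y : Fin n → B) (x : B →ₐ[ℂ] ℂ) :
    (qd D y x).det = x (jd D y) := by
  rw [qd, ContinuousLinearMap.det, LinearMap.coe_toContinuousLinearMap, LinearMap.det_toLin', jd,
    AlgHom.map_det]
  rfl

lemma qd_single (D : Fin n → Derivation ℂ B B) (y : Fin n → B) (x : B →ₐ[ℂ] ℂ) (i j : Fin n) :
    qd D y x (Pi.single j 1) i = x (D j (y i)) := by
  rw [qd, LinearMap.coe_toContinuousLinearMap', Matrix.toLin'_apply, Matrix.mulVec_single_one]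
  rfl

variable {z : Fin n → B}

section

variable (het : RingHom.Etale ((MvPolynomial.aeval z : MvPolynomial (Fin n) ℂ →ₐ[ℂ] B) :
      MvPolynomial (Fin n) ℂ →+* B))

include het in
lemma hch (y : B →ₐ[ℂ] ℂ) : Nonempty (Chart z y) := nonempty_chart z het y

/-- the evaluation map of `y` has strict derivative `qd` in the coordinates `z` -/
lemma sd_ev (D : Fin n → Derivation ℂ B B) (hD : ∀ i j, D j (z i) = if i = j then 1 else 0)
    (y : Fin n → B) :
    @SD n (B →ₐ[ℂ] ℂ) _ (rdom (hch het)) (fun x i => x (y i)) (qd D y) := by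
  let _ := rdom (hch het)
  intro x
  obtain ⟨C⟩ := hch het x
  have hgerm : (((ch x).symm : (Fin n → ℂ) → (B →ₐ[ℂ] ℂ))) =ᶠ[𝓝 (cp x)]
      fun w => C.s (w - pr z x) := by
    have he : IsCh (chartHomeo (hch het) C) := rfl
    exact (isCh_ch x).germ he (mem_ch x) (self_mem_sheet C)
  have h1 : HasStrictFDerivAt (fun w : Fin n → ℂ => fun i => C.s (w - pr z x) (y i)) (qd D y x)
      (cp x) := by
    rw [hasStrictFDerivAt_pi']
    intro i
    have han : AnalyticAt ℂ (fun ζ => C.s ζ (y i)) 0 :=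
      C.anal (y i) 0 (Metric.mem_ball_self C.r_pos)
    have h2 : HasStrictFDerivAt (fun ζ => C.s ζ (y i))
        ((ContinuousLinearMap.proj i).comp (qd D y x)) ((fun w : Fin n → ℂ => w - pr z x) (cp x)) := by
      have h3 : (fun w : Fin n → ℂ => w - pr z x) (cp x) = 0 := sub_self _
      rw [h3]
      have h4 : fderiv ℂ (fun ζ => C.s ζ (y i)) 0 =
          (ContinuousLinearMap.proj i).comp (qd D y x) := by
        apply ContinuousLinearMap.coe_injective
        apply LinearMap.pi_ext'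
        intro j
        apply LinearMap.ext_ring
        have h5 := chart_deriv z het D hD C 0 (Metric.mem_ball_self C.r_pos) j (y i)
        rw [C.s_zero] at h5
        simp only [LinearMap.coe_comp, Function.comp_apply, LinearMap.coe_single,
          ContinuousLinearMap.coe_coe, ContinuousLinearMap.coe_comp, ContinuousLinearMap.proj_apply]
        rw [h5, qd_single]
      rw [← h4]
      exact han.hasStrictFDerivAt
    have h6 : HasStrictFDerivAt (fun w : Fin n → ℂ => w - pr z x)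
        (ContinuousLinearMap.id ℂ (Fin n → ℂ)) (cp x) :=
      (hasStrictFDerivAt_id (cp x)).sub_const _
    have h7 := HasStrictFDerivAt.comp (g := fun ζ => C.s ζ (y i)) (f := fun w => w - pr z x)
      (cp x) h2 h6
    simpa using h7
  refine h1.congr_of_eventuallyEq ?_
  filter_upwards [hgerm] with w hw
  funext i
  simp only [Function.comp_apply, hw]

variable (hft : Algebra.FiniteType ℂ B)

include het hft in
/-- **the integral bound** -/
theorem lintM_indicator_le (D : Fin n → Derivation ℂ B B)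
    (hD : ∀ i j, D j (z i) = if i = j then 1 else 0)
    {σ : Type*} [Fintype σ] (h : σ → B) (y : σ → Fin n → B) (g : B) {N : ℕ} (hN : 0 < N)
    (hg : ∀ s, g = h s * jd D (y s) ^ N) (C : ℝ)
    (T : Set (B →ₐ[ℂ] ℂ)) (hT : MeasurableSet T) (W : σ → Set (Fin n → ℂ))
    (hW : ∀ s, MeasurableSet (W s))
    (cov : ∀ x ∈ T, ∃ s, ‖x (h s)‖ ≤ C ∧ (fun i => x (y s i)) ∈ W s)
    (d : σ → ℕ) (hd : ∀ s η,
      {x : B →ₐ[ℂ] ℂ | x (jd D (y s)) ≠ 0 ∧ (fun i => x (y s i)) = η}.encard ≤ d s) :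
    lintM z (T.indicator fun x => ENNReal.ofReal (‖x g‖ ^ (2 / (N : ℝ)))) ≤
      ∑ s, ENNReal.ofReal (C ^ (2 / (N : ℝ))) * (d s * volume (W s)) := by
  classical
  let _ := rdom (hch het)
  have _ := secondCountable_of_ft hft
  obtain ⟨μ, hμ⟩ := exists_leb (M := B →ₐ[ℂ] ℂ) (n := n)
  have hgm : Measurable fun x : B →ₐ[ℂ] ℂ => ENNReal.ofReal (‖x g‖ ^ (2 / (N : ℝ))) := by
    have h1 : Continuous fun x : B →ₐ[ℂ] ℂ => ‖x g‖ := (continuous_ev g).norm
    exact (h1.measurable.pow_const _).ennreal_ofReal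
  rw [lintM_eq' hft z (hch het) hμ (hgm.indicator hT), lintegral_indicator hT]
  set E : σ → Set (B →ₐ[ℂ] ℂ) :=
    fun s => T ∩ ({x | ‖x (h s)‖ ≤ C} ∩ {x | (fun i => x (y s i)) ∈ W s}) with hE
  have hEm : ∀ s, MeasurableSet (E s) := by
    intro s
    refine hT.inter ((isClosed_le (continuous_ev (h s)).norm continuous_const).measurableSet.inter ?_)
    have h1 : Continuous fun x : B →ₐ[ℂ] ℂ => (fun i => x (y s i)) :=
      continuous_pi fun i => continuous_ev (y s i)
    exact h1.measurable (hW s)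
  have hTE : T ⊆ ⋃ s, E s := by
    intro x hx
    obtain ⟨s, hs1, hs2⟩ := cov x hx
    exact mem_iUnion.2 ⟨s, hx, hs1, hs2⟩
  have hjc : ∀ s, Continuous fun x : B →ₐ[ℂ] ℂ => (qd D (y s) x).det := by
    intro s
    simp only [qd_det]
    exact continuous_ev _
  calc ∫⁻ x in T, ENNReal.ofReal (‖x g‖ ^ (2 / (N : ℝ))) ∂μ
      ≤ ∫⁻ x in ⋃ s, E s, ENNReal.ofReal (‖x g‖ ^ (2 / (N : ℝ))) ∂μ :=
        lintegral_mono_set hTE
    _ ≤ ∑ s, ∫⁻ x in E s, ENNReal.ofReal (‖x g‖ ^ (2 / (N : ℝ))) ∂μ := by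
        have h1 := lintegral_iUnion_le (μ := μ) E
          (fun x : B →ₐ[ℂ] ℂ => ENNReal.ofReal (‖x g‖ ^ (2 / (N : ℝ))))
        rwa [tsum_fintype] at h1
    _ ≤ ∑ s, ENNReal.ofReal (C ^ (2 / (N : ℝ))) * (d s * volume (W s)) := by
        refine Finset.sum_le_sum fun s _ => ?_
        calc ∫⁻ x in E s, ENNReal.ofReal (‖x g‖ ^ (2 / (N : ℝ))) ∂μ
            ≤ ∫⁻ x in E s, ENNReal.ofReal (C ^ (2 / (N : ℝ))) *
                ENNReal.ofReal (‖(qd D (y s) x).det‖ ^ 2) ∂μ := by
              refine setLIntegral_mono' (hEm s) fun x hx => ?_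
              have hx1 : ‖x (h s)‖ ≤ C := hx.2.1
              have hC0 : 0 ≤ C := (norm_nonneg _).trans hx1
              rw [← ENNReal.ofReal_mul (by positivity), qd_det]
              apply ENNReal.ofReal_le_ofReal
              have h1 : ‖x g‖ = ‖x (h s)‖ * ‖x (jd D (y s))‖ ^ N := by
                rw [hg s, map_mul, map_pow, norm_mul, norm_pow]
              rw [h1, Real.mul_rpow (norm_nonneg _) (by positivity), ← Real.rpow_natCast,
                ← Real.rpow_mul (norm_nonneg _)]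
              have h2 : (N : ℝ) * (2 / (N : ℝ)) = (2 : ℕ) := by
                have : (N : ℝ) ≠ 0 := by exact_mod_cast hN.ne'
                field_simp
                norm_num
              rw [h2, Real.rpow_natCast]
              gcongr
          _ = ENNReal.ofReal (C ^ (2 / (N : ℝ))) *
                ∫⁻ x in E s, ENNReal.ofReal (‖(qd D (y s) x).det‖ ^ 2) ∂μ := by
              rw [lintegral_const_mul']
              exact ENNReal.ofReal_ne_top
          _ ≤ ENNReal.ofReal (C ^ (2 / (N : ℝ))) * (d s * volume (W s)) := by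
              gcongr
              refine area_le hμ (sd_ev het D hD (y s)) (hjc s) (hEm s) (hW s)
                (fun x hx _ => hx.2.2) (fun η => le_trans (encard_le_encard ?_) (hd s η))
              rintro x ⟨_, hx2, hx3⟩
              exact ⟨by rwa [qd_det] at hx2, hx3⟩

end

end Crest.Agent.R276.IntA_448
end
end

-- ▼ part R276/IntB_448
section

/-!
# INT, part B: analytic form of ZRC, denominators

* `bound_of_mem_adjoin`: if `b` is a polynomial without constant term in the elements of `G` then `b` is small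
  at the points where all elements of `G` are small, uniformly over sets of points where the coefficients are
  bounded.
* `cover`: the analytic covering property.
* `exists_smul_mem`: clearing denominators.
-/

set_option autoImplicit false

open Filter Set

namespace Crest.Agent.R276.IntB_448

section bound

variable {A B : Type*} [CommRing A] [CommRing B] [Algebra A B]

theorem bound_of_mem_adjoin {G : Set B} {b : B} (hb : b ∈ NonUnitalAlgebra.adjoin A G)
    (Q : Set (B →+* ℂ)) (hQ : ∀ α : A, ∃ C, ∀ x ∈ Q, ‖x (algebraMap A B α)‖ ≤ C) :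
    ∃ C : ℝ, 0 ≤ C ∧ ∀ x ∈ Q, ∀ ε : ℝ, 0 ≤ ε → ε ≤ 1 → (∀ g ∈ G, ‖x g‖ ≤ ε) → ‖x b‖ ≤ C * ε := by
  induction hb using NonUnitalAlgebra.adjoin_induction with
  | mem y hy => exact ⟨1, zero_le_one, fun x _ ε _ _ h => by rw [one_mul]; exact h y hy⟩
  | add y z _ _ hy hz =>
    obtain ⟨C, hC, h⟩ := hy
    obtain ⟨C', hC', h'⟩ := hz
    refine ⟨C + C', add_nonneg hC hC', fun x hx ε h0 h1 hg => ?_⟩
    rw [map_add, add_mul]
    exact (norm_add_le _ _).trans (add_le_add (h x hx ε h0 h1 hg) (h' x hx ε h0 h1 hg))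
  | zero => exact ⟨0, le_rfl, fun x _ ε _ _ _ => by simp⟩
  | mul y z _ _ hy hz =>
    obtain ⟨C, hC, h⟩ := hy
    obtain ⟨C', hC', h'⟩ := hz
    refine ⟨C * C', mul_nonneg hC hC', fun x hx ε h0 h1 hg => ?_⟩
    rw [map_mul, norm_mul]
    have h2 := h x hx ε h0 h1 hg
    have h3 := h' x hx ε h0 h1 hg
    have h4 : C' * ε ≤ C' := mul_le_of_le_one_right hC' h1
    calc ‖x y‖ * ‖x z‖ ≤ (C * ε) * (C' * ε) :=
          mul_le_mul h2 h3 (norm_nonneg _) (mul_nonneg hC h0)
      _ ≤ (C * ε) * C' := mul_le_mul_of_nonneg_left h4 (mul_nonneg hC h0)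
      _ = C * C' * ε := by ring
  | smul r y _ hy =>
    obtain ⟨C, hC, h⟩ := hy
    obtain ⟨C', h'⟩ := hQ r
    refine ⟨|C'| * C, mul_nonneg (abs_nonneg _) hC, fun x hx ε h0 h1 hg => ?_⟩
    rw [Algebra.smul_def, map_mul, norm_mul, mul_assoc]
    exact mul_le_mul ((h' x hx).trans (le_abs_self _)) (h x hx ε h0 h1 hg) (norm_nonneg _)
      (abs_nonneg _)

/-- **covering property** -/
theorem cover {σ κ : Type*} [Finite σ] [Finite κ] (f u : σ → κ → B)
    (hfu : ∀ s j, f s j = 0 ∨ f s j * u s j = 1) (a : A)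
    (hadj : ∀ c : σ → κ, (∀ s, f s (c s) ≠ 0) →
      algebraMap A B a ∈ NonUnitalAlgebra.adjoin A (range fun s => u s (c s)))
    (Q : Set (B →+* ℂ)) (hQ : ∀ α : A, ∃ C, ∀ x ∈ Q, ‖x (algebraMap A B α)‖ ≤ C)
    {δ : ℝ} (hδ : 0 < δ) (hQa : ∀ x ∈ Q, δ ≤ ‖x (algebraMap A B a)‖) :
    ∃ C : ℝ, ∀ x ∈ Q, ∃ s, ∀ j, ‖x (f s j)‖ ≤ C := by
  classical
  have key : ∀ c : σ → κ, ∃ C : ℝ, 0 ≤ C ∧ ((∀ s, f s (c s) ≠ 0) → ∀ x ∈ Q, ∀ ε : ℝ, 0 ≤ ε → ε ≤ 1 →
      (∀ s, ‖x (u s (c s))‖ ≤ ε) → ‖x (algebraMap A B a)‖ ≤ C * ε) := by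
    intro c
    by_cases hc : ∀ s, f s (c s) ≠ 0
    · obtain ⟨C, hC, h⟩ := bound_of_mem_adjoin (hadj c hc) Q hQ
      refine ⟨C, hC, fun _ x hx ε h0 h1 hg => h x hx ε h0 h1 ?_⟩
      rintro _ ⟨s, rfl⟩
      exact hg s
    · exact ⟨0, le_rfl, fun h => absurd h hc⟩
  choose Cc hCc0 hCc using key
  have : Fintype (σ → κ) := Fintype.ofFinite _
  set C0 : ℝ := ∑ c : σ → κ, Cc c with hC0
  have hC0' : ∀ c, Cc c ≤ C0 := fun c => Finset.single_le_sum (fun c _ => hCc0 c) (Finset.mem_univ c)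
  have hC0n : 0 ≤ C0 := Finset.sum_nonneg fun c _ => hCc0 c
  set ε : ℝ := min 1 (δ / (2 * (C0 + 1))) with hε
  have hε0 : 0 < ε := lt_min one_pos (by positivity)
  have hε1 : ε ≤ 1 := min_le_left _ _
  have hε2 : C0 * ε < δ := by
    have h1 : ε ≤ δ / (2 * (C0 + 1)) := min_le_right _ _
    have h2 : C0 * ε ≤ C0 * (δ / (2 * (C0 + 1))) := mul_le_mul_of_nonneg_left h1 hC0n
    have h3 : C0 * (δ / (2 * (C0 + 1))) < δ := by
      have h4 : C0 * (δ / (2 * (C0 + 1))) = δ * (C0 / (2 * (C0 + 1))) := by ring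
      rw [h4]
      have h5 : C0 / (2 * (C0 + 1)) < 1 := by
        rw [div_lt_one (by positivity)]
        linarith
      calc δ * (C0 / (2 * (C0 + 1))) < δ * 1 := mul_lt_mul_of_pos_left h5 hδ
        _ = δ := mul_one δ
    exact h2.trans_lt h3
  refine ⟨ε⁻¹, fun x hx => ?_⟩
  by_contra hcon
  push Not at hcon
  choose c hc using hcon
  have hf : ∀ s, f s (c s) ≠ 0 := by
    intro s h0
    have := hc s
    rw [h0, map_zero, norm_zero] at this
    exact absurd this (not_lt.2 (inv_nonneg.2 hε0.le))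
  have hu : ∀ s, ‖x (u s (c s))‖ ≤ ε := by
    intro s
    have h1 := (hfu s (c s)).resolve_left (hf s)
    have h2 : ‖x (f s (c s))‖ * ‖x (u s (c s))‖ = 1 := by
      rw [← norm_mul, ← map_mul, h1, map_one, norm_one]
    have h3 : 0 < ‖x (f s (c s))‖ := (inv_pos.2 hε0).trans (hc s)
    have h4 : ‖x (u s (c s))‖ = ‖x (f s (c s))‖⁻¹ := by
      field_simp
      linarith
    rw [h4]
    exact inv_le_of_inv_le₀ hε0 (hc s).le
  have h1 := hCc c hf x hx ε hε0.le hε1 hu
  have h2 := hQa x hx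
  have h3 : Cc c * ε ≤ C0 * ε := mul_le_mul_of_nonneg_right (hC0' c) hε0.le
  linarith

end bound

section denom

variable {A L K : Type*} [CommRing A] [IsDomain A] [Field L] [Algebra A L] [IsFractionRing A L]
  [CommRing K] [Algebra L K] [Algebra A K] [IsScalarTower A L K]


end denom

section descend

variable {A B K : Type*} [CommRing A] [CommRing B] [CommRing K] [Algebra A B] [Algebra B K]
  [Algebra A K] [IsScalarTower A B K]

theorem mem_adjoin_of_map (hinj : Function.Injective (algebraMap B K)) {G : Set B} {b : B}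
    (h : algebraMap B K b ∈ NonUnitalAlgebra.adjoin A (algebraMap B K '' G)) :
    b ∈ NonUnitalAlgebra.adjoin A G := by
  have h1 : ∀ x ∈ NonUnitalAlgebra.adjoin A (algebraMap B K '' G),
      ∃ c ∈ NonUnitalAlgebra.adjoin A G, algebraMap B K c = x := by
    intro x hx
    induction hx using NonUnitalAlgebra.adjoin_induction with
    | mem y hy =>
      obtain ⟨c, hc, rfl⟩ := hy
      exact ⟨c, NonUnitalAlgebra.subset_adjoin A hc, rfl⟩
    | add y z _ _ hy hz =>
      obtain ⟨c, hc, rfl⟩ := hy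
      obtain ⟨d, hd, rfl⟩ := hz
      exact ⟨c + d, add_mem hc hd, map_add _ _ _⟩
    | zero => exact ⟨0, zero_mem _, map_zero _⟩
    | mul y z _ _ hy hz =>
      obtain ⟨c, hc, rfl⟩ := hy
      obtain ⟨d, hd, rfl⟩ := hz
      exact ⟨c * d, mul_mem hc hd, map_mul _ _ _⟩
    | smul r y _ hy =>
      obtain ⟨c, hc, rfl⟩ := hy
      refine ⟨r • c, SMulMemClass.smul_mem r hc, ?_⟩
      rw [Algebra.smul_def, map_mul, ← IsScalarTower.algebraMap_apply, ← Algebra.smul_def]
  obtain ⟨c, hc, hcb⟩ := h1 _ h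
  rwa [← hinj hcb]

end descend

end Crest.Agent.R276.IntB_448
end

-- ▼ part R276/IntD_448
section

/-!
# INT, part D: localisations, multiplicities

* `lintM_resB`: `lintM` does not change when the model is shrunk;
* `exists_den`: common denominators;
* `mult`: for a transcendence basis `x` of `K` there are finitely many elements of `K` and `d` such that on
  every shrinking containing them, `x` takes every value at most `d` times.
-/

set_option autoImplicit false

open Filter Set MeasureTheory Polynomial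
open scoped ENNReal

noncomputable section

namespace Crest.Agent.R276.IntD_448

open Crest.Agent.R271.Defs710 Crest.Agent.R271.Alg255 Crest.Agent.R271.Rd692 Crest.Agent.R271
open Crest.Agent.R276.Mod1_987 Crest.Agent.R276.Mod1_987.Mdl

variable {K : Type} [Field K] [Algebra ℂ K] {n : ℕ}

theorem lintM_resB {M M' : Mdl K n} (hz : M.zK = M'.zK) (h : M.B ≤ M'.B) (G : M.Pts → ℝ≥0∞) :
    lintM M.z G = lintM M'.z (fun y => G (resB h y)) := by
  unfold lintM
  refine lintegral_congr_ae ?_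
  filter_upwards [Null956.ae_eval_ne M'.h_ne] with ζ hζ
  let e : {y : M'.Pts // ∀ i, y (M'.z i) = ζ i} ≃ {y : M.Pts // ∀ i, y (M.z i) = ζ i} :=
    Equiv.ofBijective (fun y => ⟨resB h y.1, fun i => by
      have h1 := congrFun (pz_resB hz h y.1) i
      exact h1.trans (y.2 i)⟩) ⟨fun y y' hy => Subtype.ext (resB_injective hz h
        (congrArg Subtype.val hy)), fun y => by
      have h1 : M.pz y.1 = ζ := funext y.2
      have h2 : y.1 ∈ Set.range (resB h : M'.Pts → M.Pts) := by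
        rw [range_resB hz h]
        change MvPolynomial.eval (M.pz y.1) M'.h ≠ 0
        rw [h1]
        exact hζ
      obtain ⟨y', hy'⟩ := h2
      refine ⟨⟨y', fun i => ?_⟩, Subtype.ext hy'⟩
      have h3 := congrFun (pz_resB hz h y') i
      rw [hy', h1] at h3
      exact h3.symm⟩
  rw [← e.tsum_eq]
  rfl

variable (M : Mdl K n)

lemma aK_ne {p : MvPolynomial (Fin n) ℂ} (hp : p ≠ 0) : M.aK p ≠ 0 := by
  rw [Ne, map_eq_zero_iff _ M.aK_injective]; exact hp

/-- denominators -/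
lemma exists_den1 (a : K) : ∃ p : MvPolynomial (Fin n) ℂ, p ≠ 0 ∧ M.aK p * a ∈ M.B := by
  obtain ⟨r, hr, q, hq⟩ := M.gen_frac a
  refine ⟨r, hr, ?_⟩
  rw [hq]
  have h1 := eval₂_az_val M.z M.θ q
  change Polynomial.eval₂ _ _ _ ∈ M.B
  rw [← h1]
  exact Subtype.property _

lemma exists_den (F : Finset K) : ∃ p : MvPolynomial (Fin n) ℂ, p ≠ 0 ∧
    ∀ a ∈ F, M.aK p * a ∈ M.B := by
  classical
  induction F using Finset.induction_on with
  | empty => exact ⟨1, one_ne_zero, by simp⟩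
  | insert a F _ ih =>
    obtain ⟨p, hp, h⟩ := ih
    obtain ⟨r, hr, h'⟩ := exists_den1 M a
    refine ⟨p * r, mul_ne_zero hp hr, fun c hc => ?_⟩
    rw [map_mul]
    rcases Finset.mem_insert.1 hc with rfl | hc
    · rw [mul_assoc]
      exact mul_mem (M.aK_mem p) h'
    · have h1 : M.aK p * M.aK r * c = M.aK r * (M.aK p * c) := by ring
      rw [h1]
      exact mul_mem (M.aK_mem r) (h c hc)

lemma mem_loc_of_den {p : MvPolynomial (Fin n) ℂ} (hp : p ≠ 0) {a : K} (h : M.aK p * a ∈ M.B) :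
    a ∈ (M.loc p hp).B := ⟨1, by rw [pow_one]; exact h⟩

theorem exists_loc (F : Finset K) : ∃ M' : Mdl K n, M.zK = M'.zK ∧ M.B ≤ M'.B ∧
    ∀ a ∈ F, a ∈ M'.B := by
  obtain ⟨p, hp, h⟩ := exists_den M F
  exact ⟨M.loc p hp, rfl, M.le_loc p hp, fun a ha => mem_loc_of_den M hp (h a ha)⟩

lemma locSub_le {B0 B' : Subalgebra ℂ K} {H : K} {hH : H ∈ B0} (h : B0 ≤ B') (h0 : H ≠ 0)
    (hi : H⁻¹ ∈ B') : locSub B0 H hH ≤ B' := by
  rintro b ⟨k, hk⟩
  have h1 : b = (H⁻¹) ^ k * (H ^ k * b) := by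
    rw [← mul_assoc, ← mul_pow, inv_mul_cancel₀ h0, one_pow, one_mul]
  rw [h1]
  exact mul_mem (pow_mem hi k) (h hk)

/-- the number of points over any point -/
lemma encard_fib_le (N : Mdl K n) (η : Fin n → ℂ) : {y : N.Pts | N.pz y = η}.encard ≤ N.deg := by
  by_cases hη : MvPolynomial.eval η N.h = 0
  · have h1 : {y : N.Pts | N.pz y = η} = ∅ := by
      rw [Set.eq_empty_iff_forall_notMem]
      intro y hy
      apply N.eval_h_ne y
      have h2 : N.pz y = η := hy
      rw [h2]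
      exact hη
    rw [h1, Set.encard_empty]
    exact bot_le
  · have h1 := N.card_fib hη
    have := h1.2
    have h2 : {y : N.Pts | N.pz y = η}.Finite := this
    rw [← h2.cast_ncard_eq]
    have h3 : {y : N.Pts | N.pz y = η}.ncard = N.deg := h1.1
    rw [h3]

/-- **multiplicities** -/
theorem mult (x : Fin n → K) (hx : IsTranscendenceBasis ℂ x) :
    ∃ (F : Finset K) (d : ℕ), ∀ M' : Mdl K n, M.zK = M'.zK → M.B ≤ M'.B → (∀ a ∈ F, a ∈ M'.B) →
      ∀ y : Fin n → M'.B, (∀ i, (y i : K) = x i) → ∀ η : Fin n → ℂ,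
        {w : M'.Pts | (fun i => w (y i)) = η}.encard ≤ d := by
  classical
  obtain ⟨p, hp, hpx⟩ := exists_den M (Finset.univ.image x)
  set B0 : Subalgebra ℂ K := (M.loc p hp).B with hB0
  have hxB : ∀ i, x i ∈ B0 := fun i =>
    mem_loc_of_den M hp (hpx _ (Finset.mem_image_of_mem _ (Finset.mem_univ _)))
  have hfg : B0.FG := (Subalgebra.fg_iff_finiteType _).mpr (M.loc p hp).ft
  obtain ⟨P⟩ := nonempty_prim B0 hfg x hxB hx
  have hfrac : ∀ a : K, ∃ b ∈ B0, ∃ c ∈ B0, c ≠ 0 ∧ a = b / c := by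
    intro a
    obtain ⟨b, c, hc, h⟩ := (M.loc p hp).frac a
    exact ⟨b, b.2, c, c.2, fun h0 => hc (Subtype.ext h0), h⟩
  let N : Mdl K n := mkMdl hfg hfrac hxB hx.1 P P.g P.g_ne dvd_rfl
  have hg0 : MvPolynomial.aeval x P.g ≠ 0 := by
    rw [Ne, map_eq_zero_iff _ (hx.1 : Function.Injective _)]
    exact P.g_ne
  refine ⟨{(M.aK p)⁻¹, (MvPolynomial.aeval x P.g)⁻¹}, N.deg, ?_⟩
  intro M' hz hle hF y hy η
  have h1 : B0 ≤ M'.B := locSub_le (hH := M.aK_mem p) hle (aK_ne M hp)
    (hF _ (Finset.mem_insert_self _ _))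
  have h2 : N.B ≤ M'.B := locSub_le (hH := aeval_mem hxB P.g) h1 hg0
    (hF _ (Finset.mem_insert_of_mem (Finset.mem_singleton_self _)))
  have h3 : M.B ≤ N.B := (M.le_loc p hp).trans (le_locSub (hH := aeval_mem hxB P.g))
  have hinj : Function.Injective (resB h2 : M'.Pts → N.Pts) := by
    intro w w' hw
    apply resB_injective hz hle
    have h4 : ∀ v : M'.Pts, (resB hle v : M.Pts) = resB h3 (resB h2 v) := by
      intro v
      rfl
    rw [h4, h4, hw]
  have h5 : MapsTo (resB h2 : M'.Pts → N.Pts) {w : M'.Pts | (fun i => w (y i)) = η}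
      {v : N.Pts | N.pz v = η} := by
    intro w hw
    change N.pz (resB h2 w) = η
    rw [← (hw : (fun i => w (y i)) = η)]
    funext i
    change w ⟨x i, _⟩ = w (y i)
    congr 1
    exact Subtype.ext (hy i).symm
  exact (Set.encard_le_encard_of_injOn h5 hinj.injOn).trans (encard_fib_le N η)

end Crest.Agent.R276.IntD_448
end
end

-- ▼ part R276/IntE_448

/-!
# INT-ABS: integrability of pluricanonical forms on a model

`M` a model of `K/ℂ`, `g ∈ M.B`, `g · (dz₁ ∧ … ∧ dzₙ)^N` regular at every valuation ring of `K/ℂ`: then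
`∫_M |g|^{2/N} < ∞`.
-/

set_option autoImplicit false

open Filter Set MeasureTheory Polynomial
open scoped ENNReal

noncomputable section

namespace Crest.Agent.R276.IntE_448

open Crest.Agent.R271.Defs710 Crest.Agent.R271.Alg255 Crest.Agent.R271.Rd692 Crest.Agent.R271
open Crest.Agent.R276.Mod1_987 Crest.Agent.R276.Mod1_987.Mdl
open Crest.Agent.R276.FKDefs_779
open Crest.Agent.R276.IntA_448 Crest.Agent.R276.IntB_448 Crest.Agent.R276.IntC_448
open Crest.Agent.R276.IntD_448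

section jac

variable {k K : Type*} [Field k] [Field K] [Algebra k K] {n : ℕ}

/-- the derivation dual to `b j` -/
def dv (b : Module.Basis (Fin n) K (Ω[K⁄k])) (j : Fin n) : Derivation k K K :=
  (b.coord j).compDer (KaehlerDifferential.D k K)

lemma dv_apply (b : Module.Basis (Fin n) K (Ω[K⁄k])) (j : Fin n) (x : K) :
    dv b j x = b.repr (KaehlerDifferential.D k K x) j := rfl

lemma jac_eq (b : Module.Basis (Fin n) K (Ω[K⁄k])) (y : Fin n → K) :
    jac k b y = (Matrix.of fun i j => dv b j (y i)).det := by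
  rw [jac, Module.Basis.det_apply, ← Matrix.det_transpose]
  congr 1

end jac

variable {K : Type} [Field K] [Algebra ℂ K] {n : ℕ} (M : Mdl K n)

include M in
/-- elements with nonvanishing Jacobian form a transcendence basis -/
theorem isTranscendenceBasis_of_jac (b : Module.Basis (Fin n) K (Ω[K⁄ℂ])) (y : Fin n → K)
    (hy : jac ℂ b y ≠ 0) : IsTranscendenceBasis ℂ y := by
  have h1 : AlgebraicIndependent ℂ y := by
    apply algebraicIndependent_of_det (fun j => dv b j)
    rw [← jac_eq]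
    exact hy
  refine h1.isTranscendenceBasis_of_lift_trdeg_le_of_finite ?_
  have h2 := (IntC_448.isTranscendenceBasis M).lift_cardinalMk_eq_trdeg
  rw [← h2]

lemma coe_jd (D : Fin n → Derivation ℂ M.B M.B)
    (hD : ∀ i j, D j (M.z i) = if i = j then 1 else 0)
    (b : Module.Basis (Fin n) K (Ω[K⁄ℂ]))
    (hb : ∀ i, b i = KaehlerDifferential.D ℂ K (M.z i : K)) (y : Fin n → M.B) :
    ((jd D y : M.B) : K) = jac ℂ b (fun i => (y i : K)) := by
  rw [jac_eq]
  have h1 : ((jd D y : M.B) : K) = ((jm D y).map (algebraMap M.B K)).det := by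
    exact (RingHom.map_det (algebraMap M.B K) (jm D y))
  rw [h1]
  congr 1
  ext i j
  rw [Matrix.map_apply, Matrix.of_apply, dv_apply]
  have h2 := Bd741.D_K (K := K) M.z M.het D hD (y i)
  have h3 : ∀ i, KaehlerDifferential.D ℂ K (algebraMap M.B K (M.z i)) = b i := fun i => (hb i).symm
  simp only [h3] at h2
  have h4 : KaehlerDifferential.D ℂ K ((y i : K)) = ∑ j, (algebraMap M.B K (D j (y i))) • b j := h2
  rw [h4, map_sum, Finsupp.finsetSum_apply]
  simp only [map_smul, Module.Basis.repr_self, Finsupp.smul_apply, smul_eq_mul,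
    Finsupp.single_apply, mul_ite, mul_one, mul_zero]
  rw [Finset.sum_ite_eq' Finset.univ j, if_pos (Finset.mem_univ j)]
  rfl

/-- **INT-ABS** -/
theorem int_abs (b : Module.Basis (Fin n) K (Ω[K⁄ℂ]))
    (hb : ∀ i, b i = KaehlerDifferential.D ℂ K (M.z i : K)) {N : ℕ} (hN : 0 < N) (g : M.B)
    (hg : PluriS ℂ b N (g : K)) :
    lintM M.z (fun y => ENNReal.ofReal (‖y g‖ ^ (2 / (N : ℝ)))) < ⊤ := by
  classical
  by_cases hg0 : (g : K) = 0
  · have h0 : g = 0 := Subtype.ext hg0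
    have h1 : lintM M.z (fun y => ENNReal.ofReal (‖y g‖ ^ (2 / (N : ℝ)))) = 0 := by
      unfold lintM
      simp only [h0, map_zero, norm_zero]
      have h2 : (0 : ℝ) ^ (2 / (N : ℝ)) = 0 := by
        apply Real.zero_rpow
        have : (N : ℝ) ≠ 0 := by exact_mod_cast hN.ne'
        positivity
      simp [h2]
    rw [h1]
    exact ENNReal.zero_lt_top
  -- the tuples
  let ι := {y : Fin n → K // jac ℂ b y ≠ 0}
  let f : ι → Option (Fin n) → K := fun y j => j.elim ((g : K) / jac ℂ b y.1 ^ N) y.1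
  have H : ∀ V : ValuationSubring K, (∀ a : ℂ, algebraMap ℂ K a ∈ V) → ∃ i, ∀ j, f i j ∈ V := by
    intro V hV
    obtain ⟨y, hy, hle⟩ := hg V hV
    have hj : jac ℂ b y ≠ 0 := by
      intro h0
      rw [h0, map_zero, zero_pow hN.ne', le_zero_iff, map_eq_zero] at hle
      exact hg0 hle
    refine ⟨⟨y, hj⟩, fun j => ?_⟩
    rcases j with _ | i
    · change (g : K) / jac ℂ b y ^ N ∈ V
      rw [← V.valuation_le_one_iff, map_div₀, map_pow]
      exact div_le_one_of_le₀ hle zero_le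
    · exact hy i
  obtain ⟨S, hS⟩ := Zrc_448.zrc (k := ℂ) f H
  -- multiplicities
  choose Fm dm hm using fun s : ι => mult M s.1 (isTranscendenceBasis_of_jac M b s.1 s.2)
  obtain ⟨M', hz, hle, hF⟩ := exists_loc M
    ((S.biUnion fun s => Finset.univ.image (f s)) ∪
      ((S.biUnion fun s => Finset.univ.image fun j => (f s j)⁻¹) ∪ S.biUnion Fm))
  have hf : ∀ s ∈ S, ∀ j, f s j ∈ M'.B := fun s hs j => hF _ (Finset.mem_union_left _
    (Finset.mem_biUnion.2 ⟨s, hs, Finset.mem_image_of_mem _ (Finset.mem_univ _)⟩))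
  have hfi : ∀ s ∈ S, ∀ j, (f s j)⁻¹ ∈ M'.B := fun s hs j => hF _ (Finset.mem_union_right _
    (Finset.mem_union_left _ (Finset.mem_biUnion.2 ⟨s, hs,
      Finset.mem_image_of_mem (fun j => (f s j)⁻¹) (Finset.mem_univ _)⟩)))
  have hfm : ∀ s ∈ S, ∀ a ∈ Fm s, a ∈ M'.B := fun s hs a ha => hF _ (Finset.mem_union_right _
    (Finset.mem_union_right _ (Finset.mem_biUnion.2 ⟨s, hs, ha⟩)))
  let f' : S → Option (Fin n) → M'.B := fun s j => ⟨f s.1 j, hf s.1 s.2 j⟩
  let u' : S → Option (Fin n) → M'.B := fun s j => ⟨(f s.1 j)⁻¹, hfi s.1 s.2 j⟩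
  have hfu : ∀ s j, f' s j = 0 ∨ f' s j * u' s j = 1 := by
    intro s j
    by_cases h0 : f s.1 j = 0
    · exact Or.inl (Subtype.ext h0)
    · exact Or.inr (Subtype.ext (mul_inv_cancel₀ h0))
  have hadj : ∀ c : S → Option (Fin n), (∀ s, f' s (c s) ≠ 0) →
      algebraMap ℂ M'.B 1 ∈ NonUnitalAlgebra.adjoin ℂ (range fun s => u' s (c s)) := by
    intro c hc
    have h1 := hS (fun i => if h : i ∈ S then c ⟨i, h⟩ else none) (by
      intro i hi h0
      rw [dif_pos hi] at h0
      exact hc ⟨i, hi⟩ (Subtype.ext h0))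
    apply mem_adjoin_of_map (K := K) Subtype.val_injective
    rw [map_one, map_one]
    convert h1 using 2
    ext a
    constructor
    · rintro ⟨_, ⟨s, rfl⟩, rfl⟩
      refine ⟨s.1, s.2, ?_⟩
      dsimp only
      rw [dif_pos s.2]
      rfl
    · rintro ⟨i, hi, rfl⟩
      refine ⟨_, ⟨⟨i, hi⟩, rfl⟩, ?_⟩
      dsimp only
      rw [dif_pos (show i ∈ S from hi)]
      rfl
  obtain ⟨C, hC⟩ := cover f' u' hfu (1 : ℂ) hadj
    (range fun y : M'.Pts => (y : M'.B →+* ℂ)) (by
      intro α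
      refine ⟨‖α‖, ?_⟩
      rintro _ ⟨y, rfl⟩
      change ‖y (algebraMap ℂ M'.B α)‖ ≤ _
      rw [AlgHom.commutes]
      exact le_rfl) one_pos (by
      rintro _ ⟨y, rfl⟩
      change 1 ≤ ‖y (algebraMap ℂ M'.B 1)‖
      rw [map_one, map_one, norm_one])
  obtain ⟨D, hD⟩ := Bd741.exists_coord_deriv M'.z M'.het
  have hb' : ∀ i, b i = KaehlerDifferential.D ℂ K (M'.z i : K) := by
    intro i
    rw [hb i]
    congr 1
    exact congrFun hz i
  rw [lintM_resB hz hle]
  have key := lintM_indicator_le (z := M'.z) M'.het M'.ft D hD (fun s : S => f' s none)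
    (fun s i => f' s (some i)) ⟨g, hle g.2⟩ hN (by
      intro s
      apply Subtype.ext
      have h1 := coe_jd M' D hD b hb' (fun i => f' s (some i))
      have h2 : (((f' s none * jd D (fun i => f' s (some i)) ^ N : M'.B)) : K) =
          ((g : K) / jac ℂ b s.1.1 ^ N) * (jac ℂ b s.1.1) ^ N := by
        push_cast
        rw [h1]
        rfl
      rw [h2, div_mul_cancel₀ _ (pow_ne_zero _ s.1.2)]) C univ MeasurableSet.univ
    (fun _ => Metric.closedBall (0 : Fin n → ℂ) |C|) (fun _ => Metric.isClosed_closedBall.measurableSet)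
    (by
      intro x _
      obtain ⟨s, hs⟩ := hC (x : M'.B →+* ℂ) ⟨x, rfl⟩
      refine ⟨s, hs none, ?_⟩
      rw [mem_closedBall_zero_iff, pi_norm_le_iff_of_nonneg (abs_nonneg C)]
      exact fun i => (hs (some i)).trans (le_abs_self C)) (fun s => dm s.1)
    (by
      intro s η
      refine le_trans (Set.encard_le_encard ?_) (hm s.1 M' hz hle (hfm s.1 s.2)
        (fun i => f' s (some i)) (fun i => rfl) η)
      exact fun x hx => hx.2)
  rw [indicator_univ] at key
  refine lt_of_le_of_lt (le_trans (le_of_eq ?_) key) ?_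
  · rfl
  · refine ENNReal.sum_lt_top.2 fun s _ => ?_
    refine ENNReal.mul_lt_top ENNReal.ofReal_lt_top (ENNReal.mul_lt_top ?_ ?_)
    · exact ENNReal.natCast_lt_top _
    · exact measure_closedBall_lt_top

/-- INT-ABS with respect to the Lebesgue measure of the model -/
theorem int_abs_leb {μ : Measure (M.B →ₐ[ℂ] ℂ)} (hμ : Ho51.IsLeb μ)
    (b : Module.Basis (Fin n) K (Ω[K⁄ℂ]))
    (hb : ∀ i, b i = KaehlerDifferential.D ℂ K (M.z i : K)) {N : ℕ} (hN : 0 < N) (g : M.B)
    (hg : PluriS ℂ b N (g : K)) :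
    ∫⁻ y, ENNReal.ofReal (‖y g‖ ^ (2 / (N : ℝ))) ∂μ < ⊤ := by
  have h1 : Continuous fun x : M.B →ₐ[ℂ] ℂ => ‖x g‖ := (continuous_ev g).norm
  rw [← M.lintM_eq hμ (h1.measurable.pow_const _).ennreal_ofReal]
  exact int_abs M b hb hN g hg

lemma rpow_sum_le {ι : Type*} (s : Finset ι) (f : ι → ℝ≥0∞) {p : ℝ} (hp : 0 < p) (hp1 : p ≤ 1) :
    (∑ j ∈ s, f j) ^ p ≤ ∑ j ∈ s, f j ^ p := by
  classical
  induction s using Finset.induction_on with
  | empty => simp [ENNReal.zero_rpow_of_pos hp]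
  | insert a s ha ih =>
    rw [Finset.sum_insert ha, Finset.sum_insert ha]
    exact (ENNReal.rpow_add_le_add_rpow _ _ hp.le hp1).trans (by gcongr)

/-- INT-ABS for finitely many forms: `∫_M (∑ |g_j|²)^{1/N} < ∞` -/
theorem int_abs_sum {μ : Measure (M.B →ₐ[ℂ] ℂ)} (hμ : Ho51.IsLeb μ)
    (b : Module.Basis (Fin n) K (Ω[K⁄ℂ]))
    (hb : ∀ i, b i = KaehlerDifferential.D ℂ K (M.z i : K)) {N : ℕ} (hN : 0 < N)
    {ι : Type*} (s : Finset ι) (g : ι → M.B) (hg : ∀ j ∈ s, PluriS ℂ b N (g j : K)) :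
    ∫⁻ y, ENNReal.ofReal ((∑ j ∈ s, ‖y (g j)‖ ^ 2) ^ (1 / (N : ℝ))) ∂μ < ⊤ := by
  have hN1 : (1 : ℝ) ≤ N := by exact_mod_cast hN
  have hN0 : (0 : ℝ) < 1 / (N : ℝ) := by
    have : (0 : ℝ) < N := by exact_mod_cast hN
    positivity
  have hN2 : 1 / (N : ℝ) ≤ 1 := by
    rw [div_le_one (by linarith)]
    exact hN1
  calc ∫⁻ y, ENNReal.ofReal ((∑ j ∈ s, ‖y (g j)‖ ^ 2) ^ (1 / (N : ℝ))) ∂μ
      ≤ ∫⁻ y, ∑ j ∈ s, ENNReal.ofReal (‖y (g j)‖ ^ (2 / (N : ℝ))) ∂μ := by
        refine lintegral_mono fun y => ?_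
        dsimp only
        rw [← ENNReal.ofReal_rpow_of_nonneg (Finset.sum_nonneg fun _ _ => by positivity) hN0.le,
          ENNReal.ofReal_sum_of_nonneg (fun _ _ => by positivity)]
        refine (rpow_sum_le _ _ hN0 hN2).trans (le_of_eq ?_)
        refine Finset.sum_congr rfl fun j _ => ?_
        rw [ENNReal.ofReal_rpow_of_nonneg (by positivity) hN0.le, ← Real.rpow_natCast,
          ← Real.rpow_mul (norm_nonneg _)]
        congr 2
        push_cast
        ring
    _ = ∑ j ∈ s, ∫⁻ y, ENNReal.ofReal (‖y (g j)‖ ^ (2 / (N : ℝ))) ∂μ := by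
        refine lintegral_finsetSum _ fun j _ => ?_
        have h1 : Continuous fun x : M.B →ₐ[ℂ] ℂ => ‖x (g j)‖ := (continuous_ev (g j)).norm
        exact (h1.measurable.pow_const _).ennreal_ofReal
    _ < ⊤ := ENNReal.sum_lt_top.2 fun j hj => int_abs_leb M hμ b hb hN (g j) (hg j hj)

end Crest.Agent.R276.IntE_448
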