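import Mathlib
import Crest.Agent.R276.IpcDefs_735

-- ▼ part R276/Top8a_815
section

/-!
# Row 276, IPC step (8): evaluation points (helper815)

* `exists_points`: `ρ` linearly independent functions are separated by `ρ` points.
* `ep_core`: the evaluation-point argument.  `π : Y → E` open and continuous, `f, φ₁, …, φ_ρ` continuous
  on `Y`; if for almost every `x` near `x₀` the function `f` is on the fibre `π⁻¹(x)` a combination of the
  `φ_k`, and `σ_j` are local sections with `det (φ_k (σ_j x₀)) ≠ 0`, then for every `x` near `x₀`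
  `f = ∑ c_k(x) φ_k` on `π⁻¹(x)` with `c(x) = (φ_k (σ_j x))⁻¹ (f (σ_j x))`.
* `analyticAt_cramer`: `c` is analytic if the data are.
-/

set_option autoImplicit false

open Filter Set MeasureTheory Topology Matrix

namespace Crest.Agent.R276.Top8_815

/-- linearly independent functions are separated by finitely many points -/
theorem exists_points {Y : Type*} : ∀ {ρ : ℕ} (φ : Fin ρ → Y → ℂ), LinearIndependent ℂ φ →
    ∃ y : Fin ρ → Y, (Matrix.of fun j k => φ k (y j)).det ≠ 0 := by
  intro ρ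
  induction ρ with
  | zero =>
      intro φ _
      exact ⟨Fin.elim0, by simp⟩
  | succ ρ ih =>
      intro φ hφ
      have h1 : LinearIndependent ℂ (fun k : Fin ρ => φ k.succ) :=
        hφ.comp Fin.succ (Fin.succ_injective ρ)
      obtain ⟨y, hy⟩ := ih (fun k => φ k.succ) h1
      -- coefficients of the expansion along the new row
      let A : Y → Matrix (Fin (ρ + 1)) (Fin (ρ + 1)) ℂ := fun y0 =>
        Matrix.of fun j k => φ k ((Fin.cons y0 y : Fin (ρ + 1) → Y) j)
      let g : Fin (ρ + 1) → ℂ := fun k =>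
        (-1) ^ (k : ℕ) * (Matrix.of fun (j : Fin ρ) (l : Fin ρ) => φ (k.succAbove l) (y j)).det
      have hdet : ∀ y0 : Y, (A y0).det = ∑ k, g k * φ k y0 := by
        intro y0
        rw [Matrix.det_succ_row_zero]
        refine Finset.sum_congr rfl fun k _ => ?_
        have h2 : (A y0).submatrix Fin.succ k.succAbove =
            Matrix.of fun (j : Fin ρ) (l : Fin ρ) => φ (k.succAbove l) (y j) := by
          ext j l
          simp [A]
        rw [h2]
        simp only [A, g, Matrix.of_apply, Fin.cons_zero]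
        ring
      by_contra hcon
      push Not at hcon
      have hzero : ∑ k, g k • φ k = 0 := by
        funext y0
        have := hcon (Fin.cons y0 y)
        have h3 := hdet y0
        simp only [A] at h3
        rw [this] at h3
        simp only [Finset.sum_apply, Pi.smul_apply, smul_eq_mul, Pi.zero_apply]
        exact h3.symm
      have hg := (Fintype.linearIndependent_iff.1 hφ) g hzero 0
      apply hy
      simpa [g] using hg

/-! ### Cramer's rule for a class of functions closed under ring operations -/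

section cramer

variable {E : Type*} {ρ : ℕ}

/-- a class of functions closed under the field operations near `x` -/
structure Cl (P : (E → ℂ) → Prop) (x : E) : Prop where
  const : ∀ c : ℂ, P fun _ => c
  add : ∀ f g : E → ℂ, P f → P g → P fun y => f y + g y
  mul : ∀ f g : E → ℂ, P f → P g → P fun y => f y * g y
  inv : ∀ f : E → ℂ, P f → f x ≠ 0 → P fun y => (f y)⁻¹

theorem Cl.sum {P : (E → ℂ) → Prop} {x : E} (h : Cl P x) {ι : Type*} (s : Finset ι)
    (f : ι → E → ℂ) (hf : ∀ i ∈ s, P (f i)) : P fun y => ∑ i ∈ s, f i y := by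
  classical
  induction s using Finset.induction_on with
  | empty => simpa using h.const 0
  | insert a s ha ih =>
      simp only [Finset.sum_insert ha]
      exact h.add _ _ (hf a (Finset.mem_insert_self a s))
        (ih fun i hi => hf i (Finset.mem_insert_of_mem hi))

theorem Cl.prod {P : (E → ℂ) → Prop} {x : E} (h : Cl P x) {ι : Type*} (s : Finset ι)
    (f : ι → E → ℂ) (hf : ∀ i ∈ s, P (f i)) : P fun y => ∏ i ∈ s, f i y := by
  classical
  induction s using Finset.induction_on with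
  | empty => simpa using h.const 1
  | insert a s ha ih =>
      simp only [Finset.prod_insert ha]
      exact h.mul _ _ (hf a (Finset.mem_insert_self a s))
        (ih fun i hi => hf i (Finset.mem_insert_of_mem hi))

theorem Cl.det {P : (E → ℂ) → Prop} {x : E} (h : Cl P x) {A : E → Matrix (Fin ρ) (Fin ρ) ℂ}
    (hA : ∀ i j, P fun y => A y i j) : P fun y => (A y).det := by
  simp only [Matrix.det_apply, Units.smul_def, zsmul_eq_mul]
  exact h.sum _ _ fun s _ => h.mul _ _ (h.const _) (h.prod _ _ fun i _ => hA _ _)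

theorem Cl.cramer {P : (E → ℂ) → Prop} {x : E} (h : Cl P x) {A : E → Matrix (Fin ρ) (Fin ρ) ℂ}
    {b : E → Fin ρ → ℂ} (hA : ∀ i j, P fun y => A y i j) (hb : ∀ i, P fun y => b y i)
    (hdet : (A x).det ≠ 0) (k : Fin ρ) : P fun y => ((A y)⁻¹ *ᵥ b y) k := by
  have hadj : ∀ i j, P fun y => (A y).adjugate i j := by
    intro i j
    simp only [Matrix.adjugate_apply]
    refine h.det fun p q => ?_
    by_cases hp : p = j
    · subst hp
      simp only [Matrix.updateRow_self]
      exact h.const _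
    · simp only [Matrix.updateRow_ne hp]
      exact hA p q
  simp only [Matrix.inv_def, Ring.inverse_eq_inv', Matrix.mulVec, dotProduct, Matrix.smul_apply,
    smul_eq_mul]
  exact h.sum _ _ fun j _ => h.mul _ _ (h.mul _ _ (h.inv _ (h.det hA) hdet) (hadj k j)) (hb j)

theorem cl_continuousAt [TopologicalSpace E] (x : E) : Cl (fun f : E → ℂ => ContinuousAt f x) x where
  const _ := continuousAt_const
  add _ _ hf hg := hf.add hg
  mul _ _ hf hg := hf.mul hg
  inv _ hf h0 := hf.inv₀ h0

theorem cl_analyticAt [NormedAddCommGroup E] [NormedSpace ℂ E] (x : E) :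
    Cl (fun f : E → ℂ => AnalyticAt ℂ f x) x where
  const _ := analyticAt_const
  add _ _ hf hg := hf.add hg
  mul _ _ hf hg := hf.mul hg
  inv _ hf h0 := hf.inv h0


end cramer

section ep

variable {E : Type*} {Y : Type*} {ρ : ℕ}

/-- the matrix of evaluations -/
def evM (φ : Fin ρ → Y → ℂ) (σ : Fin ρ → E → Y) (x : E) : Matrix (Fin ρ) (Fin ρ) ℂ :=
  Matrix.of fun j k => φ k (σ j x)

/-- the coefficients obtained from the evaluation points by Cramer's rule -/
noncomputable def evC (f : Y → ℂ) (φ : Fin ρ → Y → ℂ) (σ : Fin ρ → E → Y) (x : E) : Fin ρ → ℂ :=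
  (evM φ σ x)⁻¹ *ᵥ fun j => f (σ j x)

/-- if `f` is a combination of the `φ_k` on the fibre through the points `σ_j x` then the coefficients are
`evC` -/
theorem evC_eq {f : Y → ℂ} {φ : Fin ρ → Y → ℂ} {σ : Fin ρ → E → Y} {x : E} {π : Y → E}
    (hdet : (evM φ σ x).det ≠ 0) (hσ : ∀ j, π (σ j x) = x) {c : Fin ρ → ℂ}
    (hc : ∀ y, π y = x → f y = ∑ k, c k * φ k y) : evC f φ σ x = c := by
  have h1 : (fun j => f (σ j x)) = (evM φ σ x) *ᵥ c := by
    funext j
    rw [hc _ (hσ j)]
    simp only [evM, Matrix.mulVec, dotProduct, Matrix.of_apply]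
    exact Finset.sum_congr rfl fun k _ => mul_comm _ _
  rw [evC, h1, Matrix.mulVec_mulVec, Matrix.nonsing_inv_mul _ (isUnit_iff_ne_zero.2 hdet),
    Matrix.one_mulVec]

/-- the evaluation coefficients belong to every class of functions closed under the field operations -/
theorem Cl.evC {P : (E → ℂ) → Prop} {x : E} (h : Cl P x) {f : Y → ℂ} {φ : Fin ρ → Y → ℂ}
    {σ : Fin ρ → E → Y} (hdet : (evM φ σ x).det ≠ 0) (hφ : ∀ j k, P fun x => φ k (σ j x))
    (hf : ∀ j, P fun x => f (σ j x)) (k : Fin ρ) : P fun y => Top8_815.evC f φ σ y k :=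
  h.cramer (A := evM φ σ) (b := fun x j => f (σ j x)) hφ hf hdet k

variable [TopologicalSpace E] [MeasurableSpace E] [TopologicalSpace Y]


end ep

end Crest.Agent.R276.Top8_815
end

-- ▼ part R276/Top8b_815

/-!
# Row 276, IPC step (8): REALISATION of the top piece by `L²` holomorphic functions (helper815)

Interface file (definitions only).  `X` is a Riemann domain (`RDom n X`), `Y` a space fibred over `X`:
`q : Y → X`, `t : Y → ℂ^d`, such that `y ↦ (q y, t y)` is a local homeomorphism (`FSp n d X Y`).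
`Rz V F ι`: for every `u : X`, `v ↦ ι u v` identifies the top piece `{v | E u v = w v}` with the square
integrable holomorphic functions on the fibre `q⁻¹(u)`, isometrically (Hodge norm = `L²` norm `fint`), and
holomorphic sections of the top piece correspond to holomorphic functions on `Y` (`hol1`, `hol2`);
`RzAct` is the compatibility with a group action.

`FSp.down`: `Y` fibred over the total space `Tot Q` is fibred over the base `S` (one more fibre coordinate).
`StepTop` is the part of `OneStep` which is used, and the main theorem (`Top8d_815`) is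

  `Rz V F ι → StepTop V W cl → Rz W F.down (down ι)`.
-/

set_option autoImplicit false

noncomputable section

open Set Filter Topology MeasureTheory Matrix
open Crest.Agent.R271.Ho51 Crest.Agent.R276.Ipc735
open scoped ENNReal

namespace Crest.Agent.R276.Top8_815

/-- near `y` the function `f` is the pull back by `p` of an analytic function -/
def PB {Y E : Type*} [TopologicalSpace Y] [NormedAddCommGroup E] [NormedSpace ℂ E] (p : Y → E)
    (f : Y → ℂ) (y : Y) : Prop :=
  ∃ g : E → ℂ, AnalyticAt ℂ g (p y) ∧ ∀ᶠ y' in 𝓝 y, f y' = g (p y')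

/-- `v` is in the top piece -/
def IsTop {N : ℕ} (w : ℕ) (E : Matrix (Fin N) (Fin N) ℂ) (v : Fin N → ℂ) : Prop :=
  E *ᵥ v = (w : ℂ) • v

/-- a space fibred over `X` with fibre coordinates in `ℂ^d` -/
structure FSp (n d : ℕ) (X Y : Type*) [TopologicalSpace X] [RDom n X] [TopologicalSpace Y] where
  /-- projection to the base -/
  q : Y → X
  /-- fibre coordinates -/
  t : Y → Fin d → ℂ
  lh : IsLocalHomeomorph fun y => (q y, t y)

namespace FSp

variable {n d : ℕ} {X Y : Type*} [TopologicalSpace X] [RDom n X] [TopologicalSpace Y]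
  (F : FSp n d X Y)

/-- all coordinates on `Y` -/
def pc (y : Y) : (Fin n → ℂ) × (Fin d → ℂ) := (cp (F.q y), F.t y)

/-- `f` is holomorphic on the fibre over `u` -/
def FH (u : X) (f : Y → ℂ) : Prop :=
  ∀ y, F.q y = u → ∃ g : (Fin d → ℂ) → ℂ, AnalyticAt ℂ g (F.t y) ∧
    ∀ᶠ y' in 𝓝 y, F.q y' = u → f y' = g (F.t y')

/-- integral over the fibre over `u` (sum over the points with the same fibre coordinates) -/
def fint (u : X) (g : Y → ℝ≥0∞) : ℝ≥0∞ :=
  ∫⁻ τ : Fin d → ℂ, ∑' y : {y : Y // F.q y = u ∧ F.t y = τ}, g y.1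

/-- squared `L²` norm on the fibre over `u` -/
def fnorm (u : X) (f : Y → ℂ) : ℝ≥0∞ := F.fint u fun y => ‖f y‖ₑ ^ 2

end FSp

section rz

variable {n d N w : ℕ} {X Y : Type*} [TopologicalSpace X] [RDom n X] [TopologicalSpace Y]

/-- square of the Hodge norm -/
def hnsq (V : VHS n X N w) (u : X) (v : Fin N → ℂ) : ℝ :=
  (star v ⬝ᵥ hodge w (V.S u) (V.E u) *ᵥ v).re

/-- **Realisation** of the top piece of `V` by `L²` holomorphic functions on the fibres of `Y → X`. -/
structure Rz (V : VHS n X N w) (F : FSp n d X Y) (ι : X → (Fin N → ℂ) → Y → ℂ) : Prop where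
  add : ∀ u v v', IsTop w (V.E u) v → IsTop w (V.E u) v' →
    ∀ y, F.q y = u → ι u (v + v') y = ι u v y + ι u v' y
  smul : ∀ u (c : ℂ) v, IsTop w (V.E u) v → ∀ y, F.q y = u → ι u (c • v) y = c * ι u v y
  hol : ∀ u v, IsTop w (V.E u) v → F.FH u (ι u v)
  norm : ∀ u v, IsTop w (V.E u) v → F.fnorm u (ι u v) = ENNReal.ofReal (hnsq V u v)
  surj : ∀ u f, F.FH u f → F.fnorm u f < ∞ →
    ∃ v, IsTop w (V.E u) v ∧ ∀ y, F.q y = u → ι u v y = f y
  hol1 : ∀ (u₀ : X) (v : X → Fin N → ℂ), HolAt (lV V.P v u₀) u₀ →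
    (∀ᶠ u in 𝓝 u₀, IsTop w (V.E u) (v u)) →
    ∀ y, F.q y = u₀ → PB F.pc (fun y' => ι (F.q y') (v (F.q y')) y') y
  hol2 : ∀ (u₀ : X) (v : X → Fin N → ℂ), (∀ᶠ u in 𝓝 u₀, IsTop w (V.E u) (v u)) →
    (∀ᶠ u in 𝓝 u₀, ∀ y, F.q y = u → PB F.pc (fun y' => ι (F.q y') (v (F.q y')) y') y) →
    HolAt (lV V.P v u₀) u₀

/-- compatibility of a realisation with a group action: `α` is the action on `Y` -/
structure RzAct {V : VHS n X N w} {Γ : Type} [Group Γ] (ρ : Act V Γ) (F : FSp n d X Y)
    (ι : X → (Fin N → ℂ) → Y → ℂ) (α : Γ → Y → Y) : Prop where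
  q : ∀ g y, F.q (α g y) = F.q y
  t : ∀ g y, F.t (α g y) = F.t y
  eqv : ∀ g u v, IsTop w (V.E u) v → ∀ y, F.q y = u →
    ι u (cm (ρ.ρ g u) *ᵥ v) y = ι u v (α g⁻¹ y)

end rz

section step

variable {m k N N' w d : ℕ} {S Y : Type*} [TopologicalSpace S] [RDom m S] [TopologicalSpace Y]

/-- the part of the one-step theorem which concerns the top piece -/
structure StepTop (Q : Punc S k) (V : VHS (m + 1) (Tot Q) N w) (W : VHS m S N' (w + 1))
    (R : ∀ s : S, PVHS (Q.A s) N w) (cl : ∀ _ : S, (ℂ → Fin N → ℂ) → (Fin N' → ℂ)) : Prop where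
  res : ∀ s, IsRes V s (R s)
  add : ∀ s f g, (R s).Top f → (R s).Top g → cl s (f + g) = cl s f + cl s g
  smul : ∀ s (c : ℂ) f, (R s).Top f → cl s (c • f) = c • cl s f
  eig : ∀ s f, (R s).Top f → W.E s *ᵥ cl s f = ((w + 1 : ℕ) : ℂ) • cl s f
  surj : ∀ s v, W.E s *ᵥ v = ((w + 1 : ℕ) : ℂ) • v → ∃ f, (R s).Top f ∧ cl s f = v
  norm : ∀ s f, (R s).Top f → (star (cl s f) ⬝ᵥ hodge (w + 1) (W.S s) (W.E s) *ᵥ cl s f).re =
    ∫ z in ((Q.A s : Set ℂ)ᶜ), (R s).nsq f z
  hol1 : ∀ (s₀ : S) (F : S → ℂ → Fin N → ℂ), (∀ᶠ s in 𝓝 s₀, (R s).Top (F s)) →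
    (∀ᶠ s in 𝓝 s₀, HolFib V F s) → HolAt (lV W.P (fun s => cl s (F s)) s₀) s₀
  hol2 : ∀ (s₀ : S) (v : S → Fin N' → ℂ) (F : S → ℂ → Fin N → ℂ),
    HolAt (lV W.P v s₀) s₀ → (∀ᶠ s in 𝓝 s₀, W.E s *ᵥ v s = ((w + 1 : ℕ) : ℂ) • v s) →
    (∀ᶠ s in 𝓝 s₀, (R s).Top (F s) ∧ cl s (F s) = v s) → ∀ᶠ s in 𝓝 s₀, HolFib V F s

/-- `Y` fibred over the total space is fibred over the base -/
def FSp.down {Q : Punc S k} (F : FSp (m + 1) d (Tot Q) Y) : FSp m (d + 1) S Y where
  q := fun y => (F.q y).1.1
  t := fun y => Fin.cons (F.q y).1.2 (F.t y)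
  lh := by
    let c : ((S × ℂ) × (Fin d → ℂ)) ≃ₜ (S × (Fin (d + 1) → ℂ)) :=
      (Homeomorph.prodAssoc S ℂ (Fin d → ℂ)).trans
        ((Homeomorph.refl S).prodCongr
          (Fin.consEquivL ℂ (fun _ : Fin (d + 1) => ℂ)).toHomeomorph)
    have h1 : IsLocalHomeomorph (fun p : Tot Q × (Fin d → ℂ) => ((p.1.1 : S × ℂ), p.2)) :=
      ((IsOpen.isOpenEmbedding_subtypeVal (isOpen_tot Q)).prodMap
        Topology.IsOpenEmbedding.id).isLocalHomeomorph
    have h2 := c.isLocalHomeomorph.comp (h1.comp F.lh)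
    exact h2

open Classical in
/-- the realisation map of the next step -/
def down {Q : Punc S k} (R : ∀ s : S, PVHS (Q.A s) N w)
    (cl : ∀ _ : S, (ℂ → Fin N → ℂ) → (Fin N' → ℂ)) (F : FSp (m + 1) d (Tot Q) Y)
    (ι : Tot Q → (Fin N → ℂ) → Y → ℂ) (s : S) (v : Fin N' → ℂ) (y : Y) : ℂ :=
  if h : ∃ f, (R s).Top f ∧ cl s f = v then ι (F.q y) (h.choose (F.q y).1.2) y else 0

end step

end Crest.Agent.R276.Top8_815
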