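import Mathlib
import Crest.Agent.R276.Mod3_987
import Crest.Agent.R276.SubP_358
import Crest.Agent.R276.Top8b_815

-- ▼ part R276/Gram0_358
section

/-!
# Row 276 (S0419), GRO-LOW, part 0 (helper358): absolute traces on a model

For `b` in the coordinate ring of a model `M : Mdl K n` there are `k` and a polynomial `Q` with
`h(ζ)^k ∑_{y over ζ} y(b) = Q(ζ)` for all `ζ` with `h(ζ) ≠ 0` (`exists_trace`).  Purely algebraic:
for a monic polynomial `μ` with distinct roots `t`, `∑ q(t)` is the coefficient of `X^(d-1)` in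
`(q μ') mod μ` (Euler).  Also: sheets over a point are separated by elements of `B` (`exists_sep`).
-/

set_option autoImplicit false

open Polynomial Topology Filter MeasureTheory

noncomputable section

namespace Crest.Agent.R276.Gram0_358

open Crest.Agent.R271.Defs710 Crest.Agent.R271.Alg255 Crest.Agent.R271.Rd692
open Crest.Agent.R271.AlgB956 Crest.Agent.R271.Ho51 Crest.Agent.R276.Mod1_987

/-! ### Euler's formula -/

section euler

variable {F ι : Type*} [Field F] [DecidableEq ι]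

omit [DecidableEq ι] in
/-- a monic polynomial of degree `#s` vanishing at the distinct nodes is the nodal polynomial -/
lemma eq_nodal {s : Finset ι} {v : ι → F} (hvs : Set.InjOn v s) {μ : F[X]} (hm : μ.Monic)
    (hd : μ.natDegree = s.card) (h0 : ∀ i ∈ s, μ.eval (v i) = 0) : μ = Lagrange.nodal s v := by
  apply Polynomial.eq_of_degree_sub_lt_of_eval_index_eq s hvs
  · have h1 : μ.degree = (Lagrange.nodal s v).degree := by
      rw [Lagrange.degree_nodal, degree_eq_natDegree hm.ne_zero, hd]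
    have h2 := degree_sub_lt_left h1 hm.ne_zero (by
      rw [hm.leadingCoeff, (Lagrange.nodal_monic (s := s) (v := v)).leadingCoeff])
    rw [degree_eq_natDegree hm.ne_zero, hd] at h2
    exact h2
  · intro i hi
    rw [h0 i hi, Lagrange.eval_nodal_at_node hi]

/-- the sum of the values of `q` at the roots of `μ` -/
lemma sum_eval_eq {s : Finset ι} {v : ι → F} (hvs : Set.InjOn v s) {μ : F[X]} (hm : μ.Monic)
    (hd : μ.natDegree = s.card) (h0 : ∀ i ∈ s, μ.eval (v i) = 0) (q : F[X]) :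
    ∑ i ∈ s, q.eval (v i) = ((q * derivative μ) %ₘ μ).coeff (s.card - 1) := by
  have hdeg : ((q * derivative μ) %ₘ μ).degree < s.card := by
    have h1 := degree_modByMonic_lt (q * derivative μ) hm
    rw [degree_eq_natDegree hm.ne_zero, hd] at h1
    exact h1
  rw [Lagrange.coeff_eq_sum hvs hdeg]
  apply Finset.sum_congr rfl
  intro i hi
  have h2 : ((q * derivative μ) %ₘ μ).eval (v i) = q.eval (v i) * (derivative μ).eval (v i) := by
    have h3 := congrArg (Polynomial.eval (v i)) (modByMonic_add_div (q * derivative μ) μ)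
    rw [eval_add, eval_mul, h0 i hi, zero_mul, add_zero, eval_mul] at h3
    exact h3
  have h4 : (derivative μ).eval (v i) = ∏ j ∈ s.erase i, (v i - v j) := by
    rw [eq_nodal hvs hm hd h0, Lagrange.eval_nodal_derivative_eval_node_eq hi,
      Lagrange.eval_nodal]
  have h5 : ∏ j ∈ s.erase i, (v i - v j) ≠ 0 := by
    rw [Finset.prod_ne_zero_iff]
    intro j hj h
    rw [Finset.mem_erase] at hj
    exact hj.1 (hvs hj.2 hi (sub_eq_zero.mp h).symm)
  rw [h2, h4, mul_div_assoc, div_self h5, mul_one]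

end euler

/-! ### finite fibres -/

section model

variable {K : Type} [Field K] [Algebra ℂ K] {n : ℕ} (M : Mdl K n)

lemma fib_finite (ζ : Cn n) : {y : M.Pts | M.pz y = ζ}.Finite := by
  by_cases hζ : MvPolynomial.eval ζ M.h = 0
  · have : {y : M.Pts | M.pz y = ζ} = ∅ := by
      ext y
      simp only [Set.mem_ofPred_eq, Set.mem_empty_iff_false, iff_false]
      intro hy
      exact M.eval_h_ne y (by rw [hy]; exact hζ)
    rw [this]
    exact Set.finite_empty
  · exact Set.toFinite_toSet_of M hζ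
where
  Set.toFinite_toSet_of {K : Type} [Field K] [Algebra ℂ K] {n : ℕ} (M : Mdl K n) {ζ : Cn n}
    (hζ : MvPolynomial.eval ζ M.h ≠ 0) : {y : M.Pts | M.pz y = ζ}.Finite := by
    have h1 := (M.card_fib hζ).2
    exact Set.finite_coe_iff.mp h1

/-- the finite set of points over `ζ` -/
def fs (ζ : Cn n) : Finset M.Pts := (fib_finite M ζ).toFinset

@[simp] lemma mem_fs {ζ : Cn n} {y : M.Pts} : y ∈ fs M ζ ↔ M.pz y = ζ := by
  simp [fs]

lemma card_fs {ζ : Cn n} (hζ : MvPolynomial.eval ζ M.h ≠ 0) : (fs M ζ).card = M.deg := by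
  have h1 := (M.card_fib hζ).1
  rw [← h1]
  have h2 : Nat.card {y : M.Pts // M.pz y = ζ} = Nat.card (fs M ζ) :=
    Nat.card_congr (Equiv.subtypeEquivRight fun y => by simp)
  rw [h2, Nat.card_eq_fintype_card, Fintype.card_coe]

lemma card_fs_le (ζ : Cn n) : (fs M ζ).card ≤ M.deg := by
  by_cases hζ : MvPolynomial.eval ζ M.h = 0
  · have : fs M ζ = ∅ := by
      ext y
      simp only [mem_fs, Finset.notMem_empty, iff_false]
      intro hy
      exact M.eval_h_ne y (by rw [hy]; exact hζ)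
    rw [this]
    simp
  · exact (card_fs M hζ).le

lemma injOn_θ (ζ : Cn n) : Set.InjOn (fun y : M.Pts => y M.θ) (fs M ζ) := by
  intro y hy y' hy' h
  rw [Finset.mem_coe, mem_fs] at hy hy'
  exact M.pt_ext (hy.trans hy'.symm) h

lemma apply_eval₂ (y : M.Pts) (q : Polynomial (MvPolynomial (Fin n) ℂ)) :
    y (Polynomial.eval₂ (az M.z) M.θ q) = (q.map (MvPolynomial.eval (M.pz y))).eval (y M.θ) := by
  have h1 := Polynomial.hom_eval₂ q (az M.z) (y : M.B →+* ℂ) M.θ
  have h2 : (y : M.B →+* ℂ).comp (az M.z) = MvPolynomial.eval (M.pz y) :=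
    RingHom.ext fun p => M.apply_az' y p
  rw [h2] at h1
  rw [eval_map]
  exact h1

/-- **absolute traces are polynomials divided by powers of `h`** -/
theorem exists_trace (b : M.B) : ∃ (k : ℕ) (Q : MvPolynomial (Fin n) ℂ), ∀ ζ : Cn n,
    MvPolynomial.eval ζ M.h ≠ 0 →
    MvPolynomial.eval ζ M.h ^ k * ∑ y ∈ fs M ζ, y b = MvPolynomial.eval ζ Q := by
  classical
  obtain ⟨k, q, hq⟩ := M.gen b
  refine ⟨k, ((q * derivative M.μ) %ₘ M.μ).coeff (M.deg - 1), fun ζ hζ => ?_⟩
  have hm : (M.μ.map (MvPolynomial.eval ζ)).Monic := M.monic.map _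
  have hd : (M.μ.map (MvPolynomial.eval ζ)).natDegree = (fs M ζ).card := by
    rw [card_fs M hζ, M.monic.natDegree_map]
  have h0 : ∀ y ∈ fs M ζ, (M.μ.map (MvPolynomial.eval ζ)).eval (y M.θ) = 0 := by
    intro y hy
    rw [mem_fs] at hy
    have := M.eval_μ_eq_zero y
    rw [hy] at this
    exact this
  have h1 := sum_eval_eq (injOn_θ M ζ) hm hd h0 (q.map (MvPolynomial.eval ζ))
  rw [Finset.mul_sum]
  have h2 : ∀ y ∈ fs M ζ, MvPolynomial.eval ζ M.h ^ k * y b =
      (q.map (MvPolynomial.eval ζ)).eval (y M.θ) := by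
    intro y hy
    rw [mem_fs] at hy
    have h3 := congrArg y hq
    rw [map_mul, M.apply_az', map_pow, apply_eval₂, hy] at h3
    exact h3
  rw [Finset.sum_congr rfl h2, h1, card_fs M hζ, Polynomial.derivative_map, ← Polynomial.map_mul,
    ← Polynomial.map_modByMonic _ M.monic, Polynomial.coeff_map]

/-- an element of `B` which is `1` at `y₀` and `0` at the other points over `pz y₀` -/
theorem exists_sep (y₀ : M.Pts) : ∃ v : M.B, y₀ v = 1 ∧
    ∀ y : M.Pts, M.pz y = M.pz y₀ → y ≠ y₀ → y v = 0 := by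
  classical
  let s := fs M (M.pz y₀)
  have hinj := injOn_θ M (M.pz y₀)
  have hy₀ : y₀ ∈ s := by simp [s]
  let P : ℂ[X] := Lagrange.basis s (fun y : M.Pts => y M.θ) y₀
  have hP : ∀ y : M.Pts, y (aeval M.θ P) = P.eval (y M.θ) := by
    intro y
    rw [← Polynomial.aeval_algHom_apply, Polynomial.aeval_def, Polynomial.eval₂_eq_eval_map]
    simp
  refine ⟨aeval M.θ P, ?_, ?_⟩
  · rw [hP]
    exact Lagrange.eval_basis_self hinj hy₀
  · intro y hy hne
    rw [hP]
    have hys : y ∈ s := (mem_fs M).mpr hy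
    exact Lagrange.eval_basis_of_ne (s := s) (v := fun y : M.Pts => y M.θ) (Ne.symm hne) hys

end model

end Crest.Agent.R276.Gram0_358
end
end

-- ▼ part R276/Gram1_358
section

/-!
# Row 276 (S0419), GRO-LOW, part 1 (helper358): relative models and relative traces

`Rel ML MK`: minimal data of a relative model (`L → K`, `ML.B → MK.B`, the first coordinates of `MK`
are those of `ML`).  `q : MK.Pts → ML.Pts`, `xx` the last `r` coordinates, `fsr w x` the finite set
of points over `(w, x)`.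

`exists_rtrace`: `h(z,x)^k ∑_{y ∈ fsr w x} y(b) = w(a)` for some `a : ML.B`, for all `w` with
`h(pz w, x) ≠ 0`.
-/

set_option autoImplicit false

open Polynomial Topology Filter MeasureTheory

noncomputable section

namespace Crest.Agent.R276.Gram1_358

open Crest.Agent.R271.Defs710 Crest.Agent.R271.Alg255 Crest.Agent.R271.Rd692
open Crest.Agent.R271.AlgB956 Crest.Agent.R271.Ho51 Crest.Agent.R276.Mod1_987
open Crest.Agent.R276.Gram0_358

/-! ### substitution of the last coordinates -/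

section sub

variable {m r : ℕ}

/-- substitution of the last `r` coordinates -/
def sx (x : Cn r) : MvPolynomial (Fin (m + r)) ℂ →ₐ[ℂ] MvPolynomial (Fin m) ℂ :=
  MvPolynomial.aeval (Fin.append (fun i => MvPolynomial.X i) (fun i => MvPolynomial.C (x i)))

lemma eval_sx (x : Cn r) (z : Cn m) (p : MvPolynomial (Fin (m + r)) ℂ) :
    MvPolynomial.eval z (sx x p) = MvPolynomial.eval (Fin.append z x) p := by
  unfold sx
  have h1 := MvPolynomial.comp_aeval_apply (R := ℂ)
    (Fin.append (fun i => (MvPolynomial.X i : MvPolynomial (Fin m) ℂ))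
      (fun i => MvPolynomial.C (x i))) (MvPolynomial.aeval z : MvPolynomial (Fin m) ℂ →ₐ[ℂ] ℂ) p
  have h2 : (fun i => MvPolynomial.aeval z (Fin.append
      (fun i => (MvPolynomial.X i : MvPolynomial (Fin m) ℂ))
      (fun i => MvPolynomial.C (x i)) i)) = Fin.append z x := by
    funext i
    refine Fin.addCases (fun i => ?_) (fun i => ?_) i
    · simp
    · simp
  rw [h2] at h1
  have h3 : ∀ (k : ℕ) (t : Fin k → ℂ) (p : MvPolynomial (Fin k) ℂ),
      MvPolynomial.eval t p = MvPolynomial.aeval t p := fun k t p => by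
    rw [MvPolynomial.aeval_eq_eval]
  rw [h3, h3]
  exact h1

end sub

/-! ### relative models -/

section rel

variable {L K : Type} [Field L] [Algebra ℂ L] [Field K] [Algebra ℂ K] [Algebra L K] {m r : ℕ}

/-- minimal data of a relative model -/
structure Rel (ML : Mdl L m) (MK : Mdl K (m + r)) where
  /-- the inclusion of the coordinate rings -/
  inc : ML.B →ₐ[ℂ] MK.B
  inc_val : ∀ b : ML.B, ((inc b : MK.B) : K) = algebraMap L K b
  hz : ∀ i, MK.z (Fin.castAdd r i) = inc (ML.z i)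

namespace Rel

variable {ML : Mdl L m} {MK : Mdl K (m + r)} (R : Rel ML MK)

/-- the projection -/
def q (y : MK.Pts) : ML.Pts := y.comp R.inc

@[simp] lemma q_apply (y : MK.Pts) (b : ML.B) : R.q y b = y (R.inc b) := rfl

/-- the fibre coordinates -/
def xx (_ : Rel ML MK) (y : MK.Pts) : Cn r := fun i => y (MK.z (Fin.natAdd m i))

lemma pz_eq (y : MK.Pts) : MK.pz y = Fin.append (ML.pz (R.q y)) (R.xx y) := by
  funext i
  refine Fin.addCases (fun i => ?_) (fun i => ?_) i
  · rw [Fin.append_left]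
    change y (MK.z (Fin.castAdd r i)) = y (R.inc (ML.z i))
    rw [R.hz]
  · rw [Fin.append_right]
    rfl

open Classical in
/-- the points over `(w, x)` -/
def fsr (w : ML.Pts) (x : Cn r) : Finset MK.Pts :=
  (fs MK (Fin.append (ML.pz w) x)).filter fun y => R.q y = w

open Classical in
@[simp] lemma mem_fsr {w : ML.Pts} {x : Cn r} {y : MK.Pts} :
    y ∈ R.fsr w x ↔ R.q y = w ∧ R.xx y = x := by
  unfold fsr
  rw [Finset.mem_filter, mem_fs, R.pz_eq]
  constructor
  · rintro ⟨h1, h2⟩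
    refine ⟨h2, ?_⟩
    rw [h2] at h1
    funext i
    have h3 := congrFun h1 (Fin.natAdd m i)
    rw [Fin.append_right, Fin.append_right] at h3
    exact h3
  · rintro ⟨h1, h2⟩
    rw [h1, h2]
    exact ⟨rfl, rfl⟩

open Classical in
lemma card_fsr_le (w : ML.Pts) (x : Cn r) : (R.fsr w x).card ≤ MK.deg :=
  (Finset.card_filter_le _ _).trans (card_fs_le MK _)

/-- **relative traces** -/
theorem exists_rtrace (b : MK.B) (x : Cn r) : ∃ (k : ℕ) (a : ML.B), ∀ w : ML.Pts,
    MvPolynomial.eval (Fin.append (ML.pz w) x) MK.h ≠ 0 →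
    MvPolynomial.eval (Fin.append (ML.pz w) x) MK.h ^ k * ∑ y ∈ R.fsr w x, y b = w a := by
  classical
  -- the quotient `μ / (T - θ)` over `ML.B`
  set μB : Polynomial ML.B := ML.μ.map (az ML.z) with hμB
  have hroot : μB.IsRoot ML.θ := by
    rw [hμB, IsRoot.def, eval_map]
    exact ML.root
  set g : Polynomial ML.B := μB /ₘ (X - C ML.θ) with hg
  have hgm : (X - C ML.θ) * g = μB := mul_divByMonic_eq_iff_isRoot.mpr hroot
  -- the derivative is a unit
  set D : ML.B := (derivative μB).eval ML.θ with hD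
  have hDg : D = g.eval ML.θ := by
    have h1 := congrArg (fun p => (derivative p).eval ML.θ) hgm
    simp only [derivative_mul, derivative_sub, derivative_X, derivative_C, sub_zero, one_mul,
      eval_add, eval_mul, eval_sub, eval_X, eval_C, sub_self, zero_mul, add_zero] at h1
    exact h1.symm
  have hDu : IsUnit D := by
    obtain ⟨a, b, hab⟩ := ML.bez
    have h1 := congrArg (Polynomial.eval₂ (az ML.z) ML.θ) hab
    rw [Polynomial.eval₂_add, Polynomial.eval₂_mul, Polynomial.eval₂_mul, ML.root,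
      Polynomial.eval₂_C, mul_zero, zero_add] at h1
    have h2 : Polynomial.eval₂ (az ML.z) ML.θ (derivative ML.μ) = D := by
      rw [hD, hμB, Polynomial.derivative_map, eval_map]
    rw [h2] at h1
    have h3 : IsUnit (Polynomial.eval₂ (az ML.z) ML.θ b * D) := by
      rw [h1]
      exact ML.h_unit
    exact isUnit_of_mul_isUnit_right h3
  obtain ⟨Du, hDu'⟩ := hDu
  -- absolute traces
  choose k Q hQ using fun j : ℕ => exists_trace MK (b * R.inc ML.θ ^ j)
  set N := g.natDegree + 1 with hN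
  set kk := ∑ j ∈ Finset.range N, k j with hkk
  refine ⟨kk, ((Du⁻¹ : ML.Bˣ) : ML.B) *
    ∑ j ∈ Finset.range N, g.coeff j * az ML.z (sx x (MK.h ^ (kk - k j) * Q j)), fun w hw => ?_⟩
  have hle : ∀ j ∈ Finset.range N, k j ≤ kk := fun j hj =>
    Finset.single_le_sum (f := k) (fun _ _ => Nat.zero_le _) hj
  set ζ := Fin.append (ML.pz w) x with hζ
  -- values of `g` at the sheets
  have hgw : ∀ t : ℂ, (t - w ML.θ) * (g.map (w : ML.B →+* ℂ)).eval t =
      (ML.μ.map (MvPolynomial.eval (ML.pz w))).eval t := by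
    intro t
    have h1 := congrArg (fun p => (p.map (w : ML.B →+* ℂ)).eval t) hgm
    simp only [Polynomial.map_mul, Polynomial.map_sub, Polynomial.map_X, Polynomial.map_C,
      eval_mul, eval_sub, eval_X, eval_C] at h1
    rw [hμB, Polynomial.map_map] at h1
    have h2 : (w : ML.B →+* ℂ).comp (az ML.z) = MvPolynomial.eval (ML.pz w) :=
      RingHom.ext fun p => ML.apply_az' w p
    rw [h2] at h1
    exact h1
  have hsum : ∀ t : ℂ, (g.map (w : ML.B →+* ℂ)).eval t =
      ∑ j ∈ Finset.range N, w (g.coeff j) * t ^ j := by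
    intro t
    rw [eval_map, Polynomial.eval₂_eq_sum_range]
    rfl
  have key : w D * ∑ y ∈ R.fsr w x, y b =
      ∑ y ∈ fs MK ζ, y b * (g.map (w : ML.B →+* ℂ)).eval (y (R.inc ML.θ)) := by
    rw [fsr, Finset.sum_filter, Finset.mul_sum]
    apply Finset.sum_congr rfl
    intro y hy
    rw [mem_fs, R.pz_eq] at hy
    have hz : ML.pz (R.q y) = ML.pz w := by
      funext i
      have h3 := congrFun hy (Fin.castAdd r i)
      rw [Fin.append_left, Fin.append_left] at h3
      exact h3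
    by_cases hyw : R.q y = w
    · rw [if_pos hyw]
      have h4 : y (R.inc ML.θ) = w ML.θ := by
        rw [← R.q_apply, hyw]
      have h5 : (g.map (w : ML.B →+* ℂ)).eval (w ML.θ) = w D := by
        have h6 := Polynomial.eval_map_apply (f := (w : ML.B →+* ℂ)) (p := g) ML.θ
        rw [hDg]
        exact h6
      rw [h4, h5, mul_comm]
    · rw [if_neg hyw, mul_zero]
      have h4 : (ML.μ.map (MvPolynomial.eval (ML.pz w))).eval (y (R.inc ML.θ)) = 0 := by
        have := ML.eval_μ_eq_zero (R.q y)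
        rw [hz] at this
        exact this
      have h5 := hgw (y (R.inc ML.θ))
      rw [h4] at h5
      have h6 : y (R.inc ML.θ) - w ML.θ ≠ 0 := by
        intro h
        apply hyw
        apply ML.pt_ext hz
        exact sub_eq_zero.mp h
      rw [(mul_eq_zero.mp h5).resolve_left h6, mul_zero]
  have key2 : ∑ y ∈ fs MK ζ, y b * (g.map (w : ML.B →+* ℂ)).eval (y (R.inc ML.θ)) =
      ∑ j ∈ Finset.range N, w (g.coeff j) * ∑ y ∈ fs MK ζ, y (b * R.inc ML.θ ^ j) := by
    simp only [hsum, Finset.mul_sum]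
    rw [Finset.sum_comm]
    apply Finset.sum_congr rfl
    intro j _
    apply Finset.sum_congr rfl
    intro y _
    rw [map_mul, map_pow]
    ring
  have hDw : w D * w ((Du⁻¹ : ML.Bˣ) : ML.B) = 1 := by
    rw [← map_mul, ← hDu', Units.mul_inv, map_one]
  have hfin : w (∑ j ∈ Finset.range N, g.coeff j * az ML.z (sx x (MK.h ^ (kk - k j) * Q j))) =
      MvPolynomial.eval ζ MK.h ^ kk * (w D * ∑ y ∈ R.fsr w x, y b) := by
    rw [key, key2, map_sum, Finset.mul_sum]
    apply Finset.sum_congr rfl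
    intro j hj
    rw [map_mul, ML.apply_az', eval_sx, map_mul, map_pow, ← hQ j ζ hw, ← hζ]
    have h7 : MvPolynomial.eval ζ MK.h ^ kk =
        MvPolynomial.eval ζ MK.h ^ (kk - k j) * MvPolynomial.eval ζ MK.h ^ (k j) := by
      rw [← pow_add, Nat.sub_add_cancel (hle j hj)]
    rw [h7]
    ring
  rw [map_mul, hfin]
  calc MvPolynomial.eval ζ MK.h ^ kk * ∑ y ∈ R.fsr w x, y b
      = (w D * w ((Du⁻¹ : ML.Bˣ) : ML.B)) *
        (MvPolynomial.eval ζ MK.h ^ kk * ∑ y ∈ R.fsr w x, y b) := by rw [hDw, one_mul]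
    _ = _ := by ring

/-- relative traces of finitely many elements, with one exponent -/
theorem exists_rtrace_family {ι : Type*} [Fintype ι] (b : ι → MK.B) (x : Cn r) :
    ∃ (k : ℕ) (a : ι → ML.B), ∀ (i : ι) (w : ML.Pts),
      MvPolynomial.eval (Fin.append (ML.pz w) x) MK.h ≠ 0 →
      MvPolynomial.eval (Fin.append (ML.pz w) x) MK.h ^ k * ∑ y ∈ R.fsr w x, y (b i) =
        w (a i) := by
  classical
  choose k a ha using fun i => R.exists_rtrace (b i) x
  refine ⟨∑ i, k i, fun i => az ML.z (sx x MK.h) ^ ((∑ i, k i) - k i) * a i, fun i w hw => ?_⟩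
  have hle : k i ≤ ∑ i, k i :=
    Finset.single_le_sum (f := k) (fun _ _ => Nat.zero_le _) (Finset.mem_univ i)
  rw [map_mul, ← ha i w hw, map_pow, ML.apply_az', eval_sx, ← mul_assoc, ← pow_add,
    Nat.sub_add_cancel hle]

end Rel

end rel

end Crest.Agent.R276.Gram1_358
end
end

-- ▼ part R276/Gram2_358
section

/-!
# Row 276 (S0419), GRO-LOW, part 2 (helper358): the Gram lemma

`exists_gram`: `u : Fin s → MK.B` linearly independent over `L` ⇒ there are `x₁, …, x_s ∈ ℂ^r`,
`P ≠ 0` in `ℂ[z]`, `c > 0`, `A`, `B` such that for ALL `w ∈ ML.Pts` with `P(pz w) ≠ 0` there are points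
`y_j` over `(w, x_j)` with `c |P|^A ≤ |det (y_j u_i)| (1+|z|²)^B` and the same for `|h_K(pz y_j)|`.
-/

set_option autoImplicit false

open Polynomial Topology Filter MeasureTheory

noncomputable section

namespace Crest.Agent.R276.Gram2_358

open Crest.Agent.R271.Defs710 Crest.Agent.R271.Alg255 Crest.Agent.R271.Rd692
open Crest.Agent.R271.AlgB956 Crest.Agent.R271.Ho51 Crest.Agent.R276.Mod1_987
open Crest.Agent.R276.Gram0_358 Crest.Agent.R276.Gram1_358

/-! ### linear algebra -/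

/-- a set of vectors with zero orthogonal complement contains a basis -/
theorem exists_det_ne_zero {F : Type*} [Field F] {s : ℕ} (S : Set (Fin s → F))
    (h : ∀ d : Fin s → F, (∀ c ∈ S, ∑ i, d i * c i = 0) → d = 0) :
    ∃ c : Fin s → Fin s → F, (∀ j, c j ∈ S) ∧ (Matrix.of c).det ≠ 0 := by
  classical
  have hspan : ⊤ ≤ Submodule.span F S := by
    by_contra hlt
    rw [top_le_iff] at hlt
    obtain ⟨f, hf0, hf⟩ := Submodule.exists_le_ker_of_lt_top _ (lt_top_iff_ne_top.mpr hlt)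
    apply hf0
    have h1 : ∀ c : Fin s → F, f c = ∑ i, f (Pi.single i 1) * c i := by
      intro c
      conv_lhs => rw [← (Pi.basisFun F (Fin s)).sum_repr c]
      rw [map_sum]
      apply Finset.sum_congr rfl
      intro i _
      rw [map_smul, Pi.basisFun_repr, Pi.basisFun_apply, smul_eq_mul, mul_comm]
    have h2 := h (fun i => f (Pi.single i 1)) (by
      intro c hc
      rw [← h1 c]
      exact hf (Submodule.subset_span hc))
    ext i
    have h3 := congrFun h2 i
    simpa using h3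
  let b := Module.Basis.ofSpan hspan
  let e := b.indexEquiv (Pi.basisFun F (Fin s))
  let b' := b.reindex e
  refine ⟨fun j => b' j, fun j => ?_, ?_⟩
  · apply Module.Basis.ofSpan_subset hspan
    refine ⟨e.symm j, ?_⟩
    simp [b', b]
  · have h1 : LinearIndependent F (Matrix.of fun j => b' j).row := b'.linearIndependent
    rw [Matrix.linearIndependent_rows_iff_isUnit, Matrix.isUnit_iff_isUnit_det] at h1
    exact h1.ne_zero

/-- multilinear expansion of a determinant whose rows are sums -/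
theorem det_sum_rows {F Y : Type*} [CommRing F] [DecidableEq Y] {s : ℕ} (A : Fin s → Finset Y)
    (t : Fin s → Y → F) (V : Fin s → Y → Fin s → F) :
    (Matrix.of fun j i => ∑ y ∈ A j, t j y * V j y i).det =
      ∑ y ∈ Fintype.piFinset A, (∏ j, t j (y j)) * (Matrix.of fun j i => V j (y j) i).det := by
  have h1 := (Matrix.detRowAlternating (n := Fin s) (R := F)).toMultilinearMap.map_sum_finset
    (fun j y => t j y • V j y) A
  have h2 : (fun j => ∑ y ∈ A j, t j y • V j y) =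
      (Matrix.of fun j i => ∑ y ∈ A j, t j y * V j y i) := by
    ext j i
    simp [Finset.sum_apply]
  have h3 : ∀ y : Fin s → Y, (Matrix.detRowAlternating (n := Fin s) (R := F)).toMultilinearMap
      (fun j => t j (y j) • V j (y j)) =
      (∏ j, t j (y j)) * (Matrix.of fun j i => V j (y j) i).det := by
    intro y
    rw [MultilinearMap.map_smul_univ]
    rfl
  rw [h2] at h1
  simp only [h3] at h1
  exact h1

/-! ### weights -/

section wt

variable {n : ℕ}

/-- the weight `1 + |z|²` -/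
def wt (z : Cn n) : ℝ := 1 + ∑ i, ‖z i‖ ^ 2

lemma one_le_wt (z : Cn n) : 1 ≤ wt z := by
  unfold wt
  have : 0 ≤ ∑ i, ‖z i‖ ^ 2 := Finset.sum_nonneg fun _ _ => by positivity
  linarith

lemma wt_pos (z : Cn n) : 0 < wt z := lt_of_lt_of_le one_pos (one_le_wt z)

lemma norm_le_wt (z : Cn n) (i : Fin n) : ‖z i‖ ≤ wt z := by
  have h1 : ‖z i‖ ^ 2 ≤ ∑ i, ‖z i‖ ^ 2 :=
    Finset.single_le_sum (f := fun i => ‖z i‖ ^ 2) (fun _ _ => by positivity) (Finset.mem_univ i)
  unfold wt
  nlinarith [sq_nonneg (‖z i‖ - 1), norm_nonneg (z i)]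

lemma wt_append {m r : ℕ} (z : Cn m) (x : Cn r) : wt (Fin.append z x) ≤ wt z * wt x := by
  unfold wt
  rw [Fin.sum_univ_add]
  simp only [Fin.append_left, Fin.append_right]
  have h1 : 0 ≤ ∑ i, ‖z i‖ ^ 2 := Finset.sum_nonneg fun _ _ => by positivity
  have h2 : 0 ≤ ∑ i, ‖x i‖ ^ 2 := Finset.sum_nonneg fun _ _ => by positivity
  nlinarith [mul_nonneg h1 h2]

lemma pow_le_wt {z : Cn n} {k l : ℕ} (h : k ≤ l) : wt z ^ k ≤ wt z ^ l :=
  pow_le_pow_right₀ (one_le_wt z) h

/-- polynomials have polynomial growth -/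
theorem exists_poly_bound (p : MvPolynomial (Fin n) ℂ) : ∃ (C : ℝ) (k : ℕ), 0 < C ∧
    ∀ z : Cn n, ‖MvPolynomial.eval z p‖ ≤ C * wt z ^ k := by
  induction p using MvPolynomial.induction_on with
  | C a =>
    refine ⟨‖a‖ + 1, 0, by positivity, fun z => ?_⟩
    rw [MvPolynomial.eval_C, pow_zero, mul_one]
    linarith
  | add p q hp hq =>
    obtain ⟨C, k, hC, h1⟩ := hp
    obtain ⟨D, l, hD, h2⟩ := hq
    refine ⟨C + D, k + l, by positivity, fun z => ?_⟩
    rw [map_add]
    have h3 : wt z ^ k ≤ wt z ^ (k + l) := pow_le_wt (Nat.le_add_right _ _)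
    have h4 : wt z ^ l ≤ wt z ^ (k + l) := pow_le_wt (Nat.le_add_left _ _)
    calc ‖MvPolynomial.eval z p + MvPolynomial.eval z q‖ ≤ C * wt z ^ k + D * wt z ^ l :=
          (norm_add_le _ _).trans (add_le_add (h1 z) (h2 z))
      _ ≤ C * wt z ^ (k + l) + D * wt z ^ (k + l) := by gcongr
      _ = _ := by ring
  | mul_X p i hp =>
    obtain ⟨C, k, hC, h1⟩ := hp
    refine ⟨C, k + 1, hC, fun z => ?_⟩
    rw [map_mul, MvPolynomial.eval_X, norm_mul]
    calc ‖MvPolynomial.eval z p‖ * ‖z i‖ ≤ (C * wt z ^ k) * wt z :=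
          mul_le_mul (h1 z) (norm_le_wt z i) (norm_nonneg _)
            (mul_nonneg hC.le (pow_nonneg (wt_pos z).le _))
      _ = _ := by ring

end wt

/-! ### lower bounds -/

section LB

variable {L : Type} [Field L] [Algebra ℂ L] {m : ℕ} {ML : Mdl L m}

/-- `F` is bounded from below by powers of `P` and of `1 + |z|²` -/
def LB (ML : Mdl L m) (P : MvPolynomial (Fin m) ℂ) (F : ML.Pts → ℝ) : Prop :=
  ∃ (c : ℝ) (A B : ℕ), 0 < c ∧ ∀ w : ML.Pts,
    c * ‖MvPolynomial.eval (ML.pz w) P‖ ^ A ≤ F w * wt (ML.pz w) ^ B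

variable {P : MvPolynomial (Fin m) ℂ}

lemma LB.nonneg {F : ML.Pts → ℝ} (h : LB ML P F) (w : ML.Pts) : 0 ≤ F w := by
  obtain ⟨c, A, B, hc, h1⟩ := h
  have h2 : 0 ≤ F w * wt (ML.pz w) ^ B := le_trans (by positivity) (h1 w)
  exact nonneg_of_mul_nonneg_left h2 (pow_pos (wt_pos _) _)

lemma LB.mul {F G : ML.Pts → ℝ} (hF : LB ML P F) (hG : LB ML P G) :
    LB ML P (fun w => F w * G w) := by
  have hF0 := hF.nonneg
  obtain ⟨c, A, B, hc, h1⟩ := hF
  obtain ⟨d, A', B', hd, h2⟩ := hG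
  refine ⟨c * d, A + A', B + B', mul_pos hc hd, fun w => ?_⟩
  calc c * d * ‖MvPolynomial.eval (ML.pz w) P‖ ^ (A + A')
      = (c * ‖MvPolynomial.eval (ML.pz w) P‖ ^ A) *
        (d * ‖MvPolynomial.eval (ML.pz w) P‖ ^ A') := by ring
    _ ≤ (F w * wt (ML.pz w) ^ B) * (G w * wt (ML.pz w) ^ B') :=
        mul_le_mul (h1 w) (h2 w) (by positivity)
          (mul_nonneg (hF0 w) (pow_nonneg (wt_pos _).le _))
    _ = _ := by ring

lemma LB.const {c : ℝ} (hc : 0 < c) : LB ML P (fun _ => c) :=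
  ⟨c, 0, 0, hc, fun w => by simp⟩

lemma LB.pow {F : ML.Pts → ℝ} (hF : LB ML P F) (k : ℕ) : LB ML P (fun w => F w ^ k) := by
  induction k with
  | zero => simpa using LB.const one_pos
  | succ k ih => simpa [pow_succ] using ih.mul hF

lemma LB.prod {ι : Type*} (T : Finset ι) {F : ι → ML.Pts → ℝ} (hF : ∀ j ∈ T, LB ML P (F j)) :
    LB ML P (fun w => ∏ j ∈ T, F j w) := by
  classical
  induction T using Finset.induction_on with
  | empty => simpa using LB.const one_pos
  | insert a T ha ih =>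
    simp only [Finset.prod_insert ha]
    exact (hF a (Finset.mem_insert_self _ _)).mul
      (ih fun j hj => hF j (Finset.mem_insert_of_mem hj))

/-- comparison up to polynomial factors -/
lemma LB.of_le {F G : ML.Pts → ℝ} (hF : LB ML P F) {C : ℝ} {k : ℕ} (hC : 0 < C)
    (h : ∀ w, F w ≤ C * (G w * wt (ML.pz w) ^ k)) : LB ML P G := by
  obtain ⟨c, A, B, hc, h1⟩ := hF
  refine ⟨c / C, A, k + B, div_pos hc hC, fun w => ?_⟩
  have h2 : 0 ≤ wt (ML.pz w) ^ B := pow_nonneg (wt_pos _).le _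
  have h3 := (h1 w).trans (mul_le_mul_of_nonneg_right (h w) h2)
  rw [div_mul_eq_mul_div, div_le_iff₀ hC]
  calc c * ‖MvPolynomial.eval (ML.pz w) P‖ ^ A
      ≤ C * (G w * wt (ML.pz w) ^ k) * wt (ML.pz w) ^ B := h3
    _ = _ := by ring

lemma LB.of_dvd {Q : MvPolynomial (Fin m) ℂ} (h : Q ∣ P) :
    LB ML P (fun w => ‖MvPolynomial.eval (ML.pz w) Q‖) := by
  obtain ⟨R, hR⟩ := h
  obtain ⟨C, k, hC, h1⟩ := exists_poly_bound R
  refine ⟨1 / C, 1, k, by positivity, fun w => ?_⟩
  rw [pow_one, hR, map_mul, norm_mul, one_div, inv_mul_le_iff₀ hC]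
  calc ‖MvPolynomial.eval (ML.pz w) Q‖ * ‖MvPolynomial.eval (ML.pz w) R‖
      ≤ ‖MvPolynomial.eval (ML.pz w) Q‖ * (C * wt (ML.pz w) ^ k) := by
        gcongr
        exact h1 _
    _ = _ := by ring

/-- a nonzero element of `B` divides a nonzero polynomial -/
theorem exists_poly_dvd {g : ML.B} (hg : g ≠ 0) :
    ∃ P0 : MvPolynomial (Fin m) ℂ, P0 ≠ 0 ∧ ∃ g' : ML.B, az ML.z P0 = g * g' := by
  let _ : Algebra (MvPolynomial (Fin m) ℂ) ML.B := (az ML.z).toAlgebra
  have _ : Algebra.Etale (MvPolynomial (Fin m) ℂ) ML.B := ML.het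
  have h1 := (Crest.Agent.R271.KT661.injective_and_isAlgebraic_of_etale
      (R := MvPolynomial (Fin m) ℂ) (S := ML.B)).2
  obtain ⟨r, hr, h⟩ := (h1.isAlgebraic g).exists_nonzero_dvd (mem_nonZeroDivisors_of_ne_zero hg)
  obtain ⟨g', hg'⟩ := h
  exact ⟨r, hr, g', hg'⟩

/-- growth, with `wt` -/
lemma growth' {K : Type} [Field K] [Algebra ℂ K] {n : ℕ} (M : Mdl K n) (b : M.B) :
    ∃ (C : ℝ) (k l : ℕ), 0 < C ∧ ∀ y : M.Pts,
      ‖MvPolynomial.eval (M.pz y) M.h‖ ^ l * ‖y b‖ ≤ C * wt (M.pz y) ^ k := by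
  obtain ⟨C, k, l, hC, h⟩ := M.growth b
  refine ⟨C + 1, k, l, by positivity, fun y => (h y).trans ?_⟩
  have h1 : 0 ≤ wt (M.pz y) ^ k := pow_nonneg (wt_pos _).le _
  have h2 : (1 + ∑ i, ‖y (M.z i)‖ ^ 2) = wt (M.pz y) := rfl
  rw [h2]
  nlinarith

/-- lower bounds of nonzero elements of `B` -/
theorem LB.elem {g : ML.B} (hg : g ≠ 0) : ∃ P0 : MvPolynomial (Fin m) ℂ, P0 ≠ 0 ∧
    ∀ P : MvPolynomial (Fin m) ℂ, P0 ∣ P → LB ML P (fun w => ‖w g‖) := by
  obtain ⟨P0, hP0, g', hg'⟩ := exists_poly_dvd hg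
  obtain ⟨C, k, l, hC, h1⟩ := growth' ML g'
  refine ⟨P0 * ML.h, mul_ne_zero hP0 ML.h_ne, fun P hP => ?_⟩
  have h2 : LB ML P (fun w => ‖MvPolynomial.eval (ML.pz w) P0‖ *
      ‖MvPolynomial.eval (ML.pz w) ML.h‖ ^ l) :=
    (LB.of_dvd (dvd_trans (dvd_mul_right _ _) hP)).mul
      ((LB.of_dvd (dvd_trans (dvd_mul_left _ _) hP)).pow l)
  refine h2.of_le hC (k := k) fun w => ?_
  have h3 : ‖MvPolynomial.eval (ML.pz w) P0‖ = ‖w g‖ * ‖w g'‖ := by
    rw [← ML.apply_az', hg', map_mul, norm_mul]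
  rw [h3]
  calc ‖w g‖ * ‖w g'‖ * ‖MvPolynomial.eval (ML.pz w) ML.h‖ ^ l
      = ‖w g‖ * (‖MvPolynomial.eval (ML.pz w) ML.h‖ ^ l * ‖w g'‖) := by ring
    _ ≤ ‖w g‖ * (C * wt (ML.pz w) ^ k) := mul_le_mul_of_nonneg_left (h1 w) (norm_nonneg _)
    _ = _ := by ring

end LB

/-! ### the Gram lemma -/

section gram

variable {L K : Type} [Field L] [Algebra ℂ L] [Field K] [Algebra ℂ K] [Algebra L K] {m r : ℕ}
  {ML : Mdl L m} {MK : Mdl K (m + r)} (R : Rel ML MK)

/-- a trace determinant which is not zero -/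
theorem exists_trace_det {s : ℕ} (u : Fin s → MK.B)
    (hu : LinearIndependent L fun i => (u i : K)) :
    ∃ (x : Fin s → Cn r) (v : Fin s → MK.B) (k : Fin s → ℕ) (a : Fin s → Fin s → ML.B),
      (∀ j, sx (m := m) (x j) MK.h ≠ 0) ∧
      (∀ (j i : Fin s) (w : ML.Pts), MvPolynomial.eval (Fin.append (ML.pz w) (x j)) MK.h ≠ 0 →
        MvPolynomial.eval (Fin.append (ML.pz w) (x j)) MK.h ^ (k j) *
          ∑ y ∈ R.fsr w (x j), y (u i * v j) = w (a j i)) ∧
      (Matrix.of a).det ≠ 0 := by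
  classical
  obtain ⟨c, hcS, hdet⟩ := exists_det_ne_zero (F := L) (s := s)
    {c | ∃ (x : Cn r) (v : MK.B) (k : ℕ) (a : Fin s → ML.B), sx (m := m) x MK.h ≠ 0 ∧
      (∀ i, c i = (a i : L)) ∧ ∀ (i : Fin s) (w : ML.Pts),
        MvPolynomial.eval (Fin.append (ML.pz w) x) MK.h ≠ 0 →
        MvPolynomial.eval (Fin.append (ML.pz w) x) MK.h ^ k *
          ∑ y ∈ R.fsr w x, y (u i * v) = w (a i)} (by
    intro d hd
    -- clear denominators
    obtain ⟨e, he⟩ := IsLocalization.exist_integer_multiples (nonZeroDivisors ML.B)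
      (Finset.univ : Finset (Fin s)) d
    choose d' hd' using fun i => he i (Finset.mem_univ i)
    have he0 : ((e : ML.B) : L) ≠ 0 := by
      have h1 : (e : ML.B) ≠ 0 := nonZeroDivisors.ne_zero e.2
      exact fun h => h1 (Subtype.ext h)
    have hd'' : ∀ i, ((d' i : ML.B) : L) = ((e : ML.B) : L) * d i := by
      intro i
      have h1 := hd' i
      rw [Algebra.smul_def] at h1
      exact h1
    by_contra hd0
    set b : MK.B := ∑ i, R.inc (d' i) * u i with hb
    have hb0 : b ≠ 0 := by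
      intro h0
      apply hd0
      have h1 : ∑ i, ((d' i : ML.B) : L) • (u i : K) = 0 := by
        have h2 := congrArg (fun t : MK.B => (t : K)) h0
        rw [hb] at h2
        simp only [AddSubmonoidClass.coe_finsetSum, MulMemClass.coe_mul, R.inc_val,
          ZeroMemClass.coe_zero] at h2
        simp only [Algebra.smul_def]
        exact h2
      have h3 := Fintype.linearIndependent_iff.mp hu _ h1
      funext i
      have h4 := h3 i
      rw [hd''] at h4
      exact (mul_eq_zero.mp h4).resolve_left he0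
    obtain ⟨y₀, hy₀⟩ : ∃ y₀ : MK.Pts, y₀ b ≠ 0 := by
      by_contra hall
      push Not at hall
      exact hb0 (MK.ext_of_pts fun y => by rw [hall y, map_zero])
    obtain ⟨v, hv1, hv2⟩ := exists_sep MK y₀
    set x := R.xx y₀ with hx
    set w := R.q y₀ with hw
    have hζ : MK.pz y₀ = Fin.append (ML.pz w) x := R.pz_eq y₀
    have hne : MvPolynomial.eval (Fin.append (ML.pz w) x) MK.h ≠ 0 := by
      rw [← hζ]
      exact MK.eval_h_ne y₀
    obtain ⟨k, a, ha⟩ := R.exists_rtrace_family (fun i => u i * v) x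
    have hsx : sx (m := m) x MK.h ≠ 0 := by
      intro h0
      apply hne
      rw [← eval_sx, h0, map_zero]
    have h5 := hd (fun i => (a i : L)) ⟨x, v, k, a, hsx, fun _ => rfl, ha⟩
    have h6 : ∑ i, d' i * a i = 0 := by
      apply Subtype.ext
      simp only [AddSubmonoidClass.coe_finsetSum, MulMemClass.coe_mul, ZeroMemClass.coe_zero, hd'']
      simp only [mul_assoc]
      rw [← Finset.mul_sum, h5, mul_zero]
    have h7 : ∀ i, w (a i) = MvPolynomial.eval (Fin.append (ML.pz w) x) MK.h ^ k * y₀ (u i) := by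
      intro i
      rw [← ha i w hne]
      congr 1
      rw [Finset.sum_eq_single y₀]
      · rw [map_mul, hv1, mul_one]
      · intro y hy hyne
        rw [R.mem_fsr] at hy
        rw [map_mul, hv2 y ?_ hyne, mul_zero]
        rw [hζ, R.pz_eq, hy.1, hy.2]
      · intro h
        exact absurd (R.mem_fsr.mpr ⟨rfl, rfl⟩) h
    have h8 := congrArg w h6
    rw [map_zero, map_sum] at h8
    have h9 : ∑ i, w (d' i * a i) =
        MvPolynomial.eval (Fin.append (ML.pz w) x) MK.h ^ k * y₀ b := by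
      rw [hb, map_sum, Finset.mul_sum]
      apply Finset.sum_congr rfl
      intro i _
      rw [map_mul, h7, map_mul, hw, R.q_apply]
      ring
    rw [h9] at h8
    exact (mul_ne_zero (pow_ne_zero _ hne) hy₀) h8)
  choose x v k a h1 h2 h3 using hcS
  refine ⟨x, v, k, a, h1, fun j i w hw => h3 j i w hw, fun h0 => hdet ?_⟩
  have h4 : Matrix.of c = (Matrix.of a).map (algebraMap ML.B L) := by
    ext j i
    exact h2 j i
  rw [h4, ← RingHom.mapMatrix_apply, ← RingHom.map_det, h0, map_zero]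

/-- the value of `h_K` at the chosen points -/
abbrev hx (MK : Mdl K (m + r)) (x : Cn r) (w : ML.Pts) : ℂ :=
  MvPolynomial.eval (Fin.append (ML.pz w) x) MK.h

open Classical in
/-- **Gram lemma**, sum form -/
theorem exists_gram_sum {s : ℕ} (u : Fin s → MK.B)
    (hu : LinearIndependent L fun i => (u i : K)) :
    ∃ (x : Fin s → Cn r) (P0 : MvPolynomial (Fin m) ℂ), P0 ≠ 0 ∧
      ∀ P : MvPolynomial (Fin m) ℂ, P0 ∣ P →
      (∀ j, LB ML P (fun w => ‖hx MK (x j) w‖)) ∧
      LB ML P (fun w => ∑ y ∈ Fintype.piFinset (fun j => R.fsr w (x j)),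
          ‖(Matrix.of fun j i => y j (u i)).det‖) := by
  obtain ⟨x, v, k, a, hx0, ha, hdet⟩ := exists_trace_det R u hu
  set g := (Matrix.of a).det with hg
  obtain ⟨P1, hP1, hLB⟩ := LB.elem (ML := ML) hdet
  refine ⟨x, P1 * ∏ j, sx (m := m) (x j) MK.h, mul_ne_zero hP1 (Finset.prod_ne_zero_iff.mpr
    fun j _ => hx0 j), fun P hP => ?_⟩
  have hLh : ∀ j, LB ML P (fun w => ‖hx MK (x j) w‖) := by
    intro j
    have h1 : sx (m := m) (x j) MK.h ∣ P :=
      ((Finset.dvd_prod_of_mem (fun j => sx (m := m) (x j) MK.h) (Finset.mem_univ j)).trans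
        (dvd_mul_left _ _)).trans hP
    have h2 := LB.of_dvd (ML := ML) h1
    simpa only [eval_sx] using h2
  refine ⟨hLh, ?_⟩
  choose C k' l hC hgr using fun j => growth' MK (v j)
  -- bounds for the factors
  have hfac : ∀ j, ∃ (D : ℝ) (b : ℕ), 0 < D ∧ ∀ w : ML.Pts,
      ‖hx MK (x j) w‖ ^ (k j + 1) * (C j * wt (Fin.append (ML.pz w) (x j)) ^ (k' j)) ≤
        D * wt (ML.pz w) ^ b := by
    intro j
    obtain ⟨D, e, hD, h⟩ := exists_poly_bound (sx (m := m) (x j) MK.h ^ (k j + 1))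
    refine ⟨D * (C j * wt (x j) ^ (k' j)), e + k' j, mul_pos hD (mul_pos (hC j)
      (pow_pos (wt_pos _) _)), fun w => ?_⟩
    have h1 := h (ML.pz w)
    rw [map_pow, norm_pow, eval_sx] at h1
    have h2 : wt (Fin.append (ML.pz w) (x j)) ^ (k' j) ≤
        (wt (ML.pz w) * wt (x j)) ^ (k' j) :=
      pow_le_pow_left₀ (wt_pos _).le (wt_append _ _) _
    have h3 : 0 ≤ wt (Fin.append (ML.pz w) (x j)) ^ (k' j) := pow_nonneg (wt_pos _).le _
    calc ‖hx MK (x j) w‖ ^ (k j + 1) * (C j * wt (Fin.append (ML.pz w) (x j)) ^ (k' j))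
        ≤ (D * wt (ML.pz w) ^ e) * (C j * (wt (ML.pz w) * wt (x j)) ^ (k' j)) := by
          apply mul_le_mul h1 (mul_le_mul_of_nonneg_left h2 (hC j).le)
            (mul_nonneg (hC j).le h3)
          exact mul_nonneg hD.le (pow_nonneg (wt_pos _).le _)
      _ = _ := by rw [mul_pow, pow_add]; ring
  choose D b hD hfac using hfac
  have hF : LB ML P (fun w => ‖w g‖ * ∏ j, ‖hx MK (x j) w‖ ^ (l j + 1)) :=
    (hLB P ((dvd_mul_right _ _).trans hP)).mul (LB.prod _ fun j _ => (hLh j).pow _)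
  refine hF.of_le (C := ∏ j, D j) (k := ∑ j, b j) (Finset.prod_pos fun j _ => hD j) fun w => ?_
  by_cases hne : ∀ j, hx MK (x j) w ≠ 0
  · -- the expansion of the determinant
    have hwg : w g = ∑ y ∈ Fintype.piFinset (fun j => R.fsr w (x j)),
        (∏ j, (hx MK (x j) w ^ (k j) * y j (v j))) *
          (Matrix.of fun j i => y j (u i)).det := by
      have h1 := det_sum_rows (fun j => R.fsr w (x j))
        (fun j (y : MK.Pts) => hx MK (x j) w ^ (k j) * y (v j)) (fun _ y i => y (u i))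
      rw [← h1, hg]
      have h2 : w (Matrix.of a).det = ((w : ML.B →+* ℂ).mapMatrix (Matrix.of a)).det :=
        RingHom.map_det _ _
      rw [h2]
      congr 1
      ext j i
      rw [RingHom.mapMatrix_apply, Matrix.map_apply, Matrix.of_apply, Matrix.of_apply]
      change w (a j i) = _
      rw [← ha j i w (hne j), Finset.mul_sum]
      apply Finset.sum_congr rfl
      intro y _
      rw [map_mul]
      ring
    have hle : ‖w g‖ * ∏ j, ‖hx MK (x j) w‖ ^ (l j + 1) ≤
        ∑ y ∈ Fintype.piFinset (fun j => R.fsr w (x j)),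
          (∏ j, (D j * wt (ML.pz w) ^ (b j))) * ‖(Matrix.of fun j i => y j (u i)).det‖ := by
      rw [hwg]
      refine (mul_le_mul_of_nonneg_right (norm_sum_le _ _)
        (Finset.prod_nonneg fun j _ => by positivity)).trans ?_
      rw [Finset.sum_mul]
      apply Finset.sum_le_sum
      intro y hy
      rw [Fintype.mem_piFinset] at hy
      rw [norm_mul, norm_prod, mul_right_comm, ← Finset.prod_mul_distrib]
      apply mul_le_mul_of_nonneg_right _ (norm_nonneg _)
      apply Finset.prod_le_prod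
      · intro j _
        positivity
      · intro j _
        have hyj := (R.mem_fsr.mp (hy j))
        have hpz : MK.pz (y j) = Fin.append (ML.pz w) (x j) := by
          rw [R.pz_eq, hyj.1, hyj.2]
        have h3 := hgr j (y j)
        rw [hpz] at h3
        calc ‖hx MK (x j) w ^ k j * (y j) (v j)‖ * ‖hx MK (x j) w‖ ^ (l j + 1)
            = ‖hx MK (x j) w‖ ^ (k j + 1) * (‖hx MK (x j) w‖ ^ (l j) * ‖(y j) (v j)‖) := by
              rw [norm_mul, norm_pow]
              ring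
          _ ≤ ‖hx MK (x j) w‖ ^ (k j + 1) *
              (C j * wt (Fin.append (ML.pz w) (x j)) ^ (k' j)) :=
              mul_le_mul_of_nonneg_left h3 (by positivity)
          _ ≤ _ := hfac j w
    refine hle.trans (le_of_eq ?_)
    rw [← Finset.mul_sum, Finset.prod_mul_distrib, Finset.prod_pow_eq_pow_sum]
    ring
  · push Not at hne
    obtain ⟨j, hj⟩ := hne
    have h1 : ∏ j, ‖hx MK (x j) w‖ ^ (l j + 1) = 0 := by
      apply Finset.prod_eq_zero (Finset.mem_univ j)
      rw [hj, norm_zero, zero_pow (Nat.succ_ne_zero _)]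
    rw [h1, mul_zero]
    refine mul_nonneg (Finset.prod_nonneg fun j _ => (hD j).le) (mul_nonneg ?_
      (pow_nonneg (wt_pos _).le _))
    exact Finset.sum_nonneg fun _ _ => norm_nonneg _

/-- **GRAM LEMMA** -/
theorem exists_gram {s : ℕ} (u : Fin s → MK.B)
    (hu : LinearIndependent L fun i => (u i : K)) :
    ∃ (x : Fin s → Cn r) (P0 : MvPolynomial (Fin m) ℂ), P0 ≠ 0 ∧
      ∀ P : MvPolynomial (Fin m) ℂ, P0 ∣ P →
      (∀ j, LB ML P (fun w => ‖hx MK (x j) w‖)) ∧
      ∃ D : ML.Pts → ℝ, LB ML P D ∧ ∀ w : ML.Pts, MvPolynomial.eval (ML.pz w) P ≠ 0 →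
        0 < D w ∧ ∃ y : Fin s → MK.Pts, (∀ j, R.q (y j) = w) ∧ (∀ j, R.xx (y j) = x j) ∧
          D w ≤ ‖(Matrix.of fun j i => y j (u i)).det‖ := by
  classical
  obtain ⟨x, P0, hP0, h⟩ := exists_gram_sum R u hu
  refine ⟨x, P0, hP0, fun P hP => ⟨(h P hP).1, ?_⟩⟩
  have hLB := (h P hP).2
  have hd : (0 : ℝ) < (MK.deg : ℝ) ^ s := pow_pos (Nat.cast_pos.mpr MK.deg_pos) _
  refine ⟨fun w => (∑ y ∈ Fintype.piFinset (fun j => R.fsr w (x j)),
      ‖(Matrix.of fun j i => y j (u i)).det‖) / (MK.deg : ℝ) ^ s, ?_, fun w hw => ?_⟩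
  · refine hLB.of_le (C := (MK.deg : ℝ) ^ s) (k := 0) hd fun w => ?_
    rw [pow_zero, mul_one, mul_div_cancel₀ _ hd.ne']
  · set T := Fintype.piFinset (fun j => R.fsr w (x j)) with hT
    have hpos : 0 < ∑ y ∈ T, ‖(Matrix.of fun j i => y j (u i)).det‖ := by
      obtain ⟨c, A, B, hc, h1⟩ := hLB
      have h2 := h1 w
      have h3 : 0 < ‖MvPolynomial.eval (ML.pz w) P‖ := norm_pos_iff.mpr hw
      have h4 : 0 < (∑ y ∈ T, ‖(Matrix.of fun j i => y j (u i)).det‖) * wt (ML.pz w) ^ B :=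
        lt_of_lt_of_le (by positivity) h2
      exact pos_of_mul_pos_left h4 (pow_pos (wt_pos _) _).le
    refine ⟨div_pos hpos hd, ?_⟩
    by_contra hcon
    push Not at hcon
    have h1 : ∀ y ∈ T, ‖(Matrix.of fun j i => y j (u i)).det‖ <
        (∑ y ∈ T, ‖(Matrix.of fun j i => y j (u i)).det‖) / (MK.deg : ℝ) ^ s := by
      intro y hy
      rw [hT, Fintype.mem_piFinset] at hy
      exact hcon y (fun j => (R.mem_fsr.mp (hy j)).1) (fun j => (R.mem_fsr.mp (hy j)).2)
    have hne : T.Nonempty := by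
      by_contra h2
      rw [Finset.not_nonempty_iff_eq_empty] at h2
      rw [h2, Finset.sum_empty] at hpos
      exact lt_irrefl _ hpos
    have h2 := Finset.sum_lt_sum_of_nonempty hne h1
    rw [Finset.sum_const, nsmul_eq_mul] at h2
    have h3 : (T.card : ℝ) ≤ (MK.deg : ℝ) ^ s := by
      have h4 : T.card ≤ MK.deg ^ s := by
        rw [hT, Fintype.card_piFinset]
        calc ∏ j, (R.fsr w (x j)).card ≤ ∏ _j : Fin s, MK.deg :=
              Finset.prod_le_prod' fun j _ => R.card_fsr_le w (x j)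
          _ = _ := by simp
      exact_mod_cast h4
    have h4 : (T.card : ℝ) * ((∑ y ∈ T, ‖(Matrix.of fun j i => y j (u i)).det‖) /
        (MK.deg : ℝ) ^ s) ≤ (MK.deg : ℝ) ^ s *
        ((∑ y ∈ T, ‖(Matrix.of fun j i => y j (u i)).det‖) / (MK.deg : ℝ) ^ s) :=
      mul_le_mul_of_nonneg_right h3 (div_pos hpos hd).le
    rw [mul_div_cancel₀ _ hd.ne'] at h4
    exact absurd h2 (not_lt.mpr h4)

end gram

end Crest.Agent.R276.Gram2_358
end
end

-- ▼ part R276/Gram3_358
section

/-!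
# Row 276 (S0419), GRO-LOW, part 3 (helper358): Cramer form of the Gram lemma

`exists_sampling`: `u : Fin s → MK.B` linearly independent over `L`, then there are `x_j ∈ ℂ^r`,
`P0 ≠ 0`, and for `P0 ∣ P` a lower bound `E` (`LB ML P E`, `E > 0` where `P ≠ 0`) such that for all `w`
with `P(pz w) ≠ 0` there are `y_j` over `(w, x_j)` with `E w * ‖v‖ ≤ ∑ j, ‖∑ i, v i * y j (u i)‖` for
ALL `v ∈ ℂ^s`.
-/

set_option autoImplicit false

open Polynomial Topology Filter MeasureTheory

noncomputable section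

namespace Crest.Agent.R276.Gram3_358

open Crest.Agent.R271.Defs710 Crest.Agent.R271.Alg255 Crest.Agent.R271.Rd692
open Crest.Agent.R271.AlgB956 Crest.Agent.R271.Ho51 Crest.Agent.R276.Mod1_987
open Crest.Agent.R276.Gram0_358 Crest.Agent.R276.Gram1_358 Crest.Agent.R276.Gram2_358

/-! ### Cramer -/

/-- Cramer's rule with bounds -/
theorem cramer {s : ℕ} (M : Matrix (Fin s) (Fin s) ℂ) {T : ℝ} (hT1 : 1 ≤ T)
    (hT : ∀ j i, ‖M j i‖ ≤ T) (v : Fin s → ℂ) :
    ‖M.det‖ * ‖v‖ ≤ (s.factorial * T ^ s) * ∑ j, ‖(M.mulVec v) j‖ := by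
  have hT0 : 0 ≤ T := le_trans zero_le_one hT1
  have h1 : M.det • v = M.adjugate.mulVec (M.mulVec v) := by
    rw [Matrix.mulVec_mulVec, Matrix.adjugate_mul, Matrix.smul_mulVec, Matrix.one_mulVec]
  rw [← norm_smul, h1]
  have hR : 0 ≤ (s.factorial * T ^ s) * ∑ j, ‖(M.mulVec v) j‖ :=
    mul_nonneg (by positivity) (Finset.sum_nonneg fun _ _ => norm_nonneg _)
  rw [pi_norm_le_iff_of_nonneg hR]
  intro i
  have hadj : ∀ j, ‖M.adjugate i j‖ ≤ s.factorial * T ^ s := by
    intro j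
    rw [Matrix.adjugate_apply]
    have h2 := Matrix.det_le (abv := IsAbsoluteValue.toAbsoluteValue (norm : ℂ → ℝ))
      (A := M.updateRow j (Pi.single i 1)) (x := T) (by
        intro a b
        change ‖(M.updateRow j (Pi.single i 1)) a b‖ ≤ T
        by_cases ha : a = j
        · rw [ha, Matrix.updateRow_self]
          by_cases hb : b = i
          · rw [hb, Pi.single_eq_same, norm_one]
            exact hT1
          · rw [Pi.single_eq_of_ne hb, norm_zero]
            exact hT0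
        · rw [Matrix.updateRow_ne ha]
          exact hT a b)
    rw [Fintype.card_fin, nsmul_eq_mul] at h2
    exact h2
  calc ‖(M.adjugate.mulVec (M.mulVec v)) i‖ = ‖∑ j, M.adjugate i j * (M.mulVec v) j‖ := rfl
    _ ≤ ∑ j, ‖M.adjugate i j * (M.mulVec v) j‖ := norm_sum_le _ _
    _ ≤ ∑ j, (s.factorial * T ^ s) * ‖(M.mulVec v) j‖ := by
        apply Finset.sum_le_sum
        intro j _
        rw [norm_mul]
        exact mul_le_mul_of_nonneg_right (hadj j) (norm_nonneg _)
    _ = _ := by rw [Finset.mul_sum]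

/-! ### real powers of lower bounds -/

section LB

variable {L : Type} [Field L] [Algebra ℂ L] {m : ℕ} {ML : Mdl L m}
  {P : MvPolynomial (Fin m) ℂ}

/-- division of a lower bound by polynomial growth -/
lemma LB.div {F : ML.Pts → ℝ} (hF : LB ML P F) {C : ℝ} (hC : 0 < C) (k : ℕ) :
    LB ML P (fun w => F w / (C * wt (ML.pz w) ^ k)) := by
  refine hF.of_le hC (k := k) fun w => le_of_eq ?_
  have h1 : wt (ML.pz w) ^ k ≠ 0 := (pow_pos (wt_pos _) _).ne'
  field_simp

/-- real powers -/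
theorem LB.rpow {F : ML.Pts → ℝ} (hF : LB ML P F) {p : ℝ} (hp : 0 < p) :
    LB ML P (fun w => F w ^ p) := by
  have hF0 := hF.nonneg
  obtain ⟨c, A, B, hc, h⟩ := hF
  obtain ⟨C, k, hC, hP⟩ := exists_poly_bound (P ^ A)
  -- `t ≤ 1`, `t ≤ F`
  set C' : ℝ := max 1 (c * C) with hC'
  have hC'1 : 1 ≤ C' := le_max_left _ _
  have hC'0 : 0 < C' := lt_of_lt_of_le one_pos hC'1
  set N := ⌈p⌉₊ with hN
  have hpN : p ≤ (N : ℝ) := Nat.le_ceil p
  refine ⟨(c / C') ^ N, A * N, (B + k) * N, pow_pos (div_pos hc hC'0) _, fun w => ?_⟩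
  set a := ‖MvPolynomial.eval (ML.pz w) P‖ with ha
  set W := wt (ML.pz w) with hW
  have hW1 : 1 ≤ W := one_le_wt _
  have hW0 : 0 < W := wt_pos _
  set t : ℝ := (c / C') * a ^ A / W ^ (B + k) with ht
  have ht0 : 0 ≤ t := by positivity
  have haA : a ^ A ≤ C * W ^ k := by
    have := hP (ML.pz w)
    rwa [map_pow, norm_pow] at this
  have ht1 : t ≤ 1 := by
    rw [ht, div_le_one (by positivity)]
    calc (c / C') * a ^ A ≤ (c / C') * (C * W ^ k) :=
          mul_le_mul_of_nonneg_left haA (by positivity)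
      _ = (c * C / C') * W ^ k := by ring
      _ ≤ 1 * W ^ k := by
          apply mul_le_mul_of_nonneg_right _ (by positivity)
          rw [div_le_one hC'0]
          exact le_max_right _ _
      _ ≤ W ^ (B + k) := by
          rw [one_mul]
          exact pow_le_pow_right₀ hW1 (Nat.le_add_left _ _)
  have htF : t ≤ F w := by
    rw [ht, div_le_iff₀ (by positivity)]
    calc (c / C') * a ^ A ≤ c * a ^ A := by
          apply mul_le_mul_of_nonneg_right _ (by positivity)
          exact div_le_self hc.le hC'1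
      _ ≤ F w * W ^ B := h w
      _ ≤ F w * W ^ (B + k) := by
          apply mul_le_mul_of_nonneg_left _ (hF0 w)
          exact pow_le_pow_right₀ hW1 (Nat.le_add_right _ _)
  have h1 : t ^ N ≤ F w ^ p := by
    rcases eq_or_lt_of_le ht0 with h0 | h0
    · rw [← h0, zero_pow (Nat.ceil_pos.mpr hp).ne']
      exact Real.rpow_nonneg (hF0 w) _
    · calc t ^ N = t ^ (N : ℝ) := (Real.rpow_natCast t N).symm
        _ ≤ t ^ p := Real.rpow_le_rpow_of_exponent_ge h0 ht1 hpN
        _ ≤ F w ^ p := Real.rpow_le_rpow ht0 htF hp.le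
  have h2 : t ^ N = (c / C') ^ N * a ^ (A * N) / W ^ ((B + k) * N) := by
    rw [ht, div_pow, mul_pow, ← pow_mul, ← pow_mul]
  rw [h2, div_le_iff₀ (by positivity)] at h1
  exact h1

end LB

/-! ### sampling -/

section samp

variable {L K : Type} [Field L] [Algebra ℂ L] [Field K] [Algebra ℂ K] [Algebra L K] {m r : ℕ}
  {ML : Mdl L m} {MK : Mdl K (m + r)} (R : Rel ML MK)

/-- an upper bound at the points over `(w, x)`: `|y b| |h(z,x)|^l ≤ C (1+|z|²)^k` -/
lemma growth_x (b : MK.B) (x : Cn r) : ∃ (C : ℝ) (k l : ℕ), 0 < C ∧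
    ∀ (w : ML.Pts) (y : MK.Pts), R.q y = w → R.xx y = x →
      ‖hx MK x w‖ ^ l * ‖y b‖ ≤ C * wt (ML.pz w) ^ k := by
  obtain ⟨C, k, l, hC, h⟩ := growth' MK b
  refine ⟨C * wt x ^ k, k, l, mul_pos hC (pow_pos (wt_pos _) _), fun w y hq hxx => ?_⟩
  have h1 := h y
  have h2 : MK.pz y = Fin.append (ML.pz w) x := by rw [R.pz_eq, hq, hxx]
  rw [h2] at h1
  refine h1.trans ?_
  calc C * wt (Fin.append (ML.pz w) x) ^ k ≤ C * (wt (ML.pz w) * wt x) ^ k := by
        apply mul_le_mul_of_nonneg_left _ hC.le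
        exact pow_le_pow_left₀ (wt_pos _).le (wt_append _ _) _
    _ = _ := by rw [mul_pow]; ring

/-- **sampling**: the Gram lemma with Cramer's rule -/
theorem exists_sampling {s : ℕ} (u : Fin s → MK.B)
    (hu : LinearIndependent L fun i => (u i : K)) :
    ∃ (x : Fin s → Cn r) (P0 : MvPolynomial (Fin m) ℂ), P0 ≠ 0 ∧
      ∀ P : MvPolynomial (Fin m) ℂ, P0 ∣ P →
      (∀ j, LB ML P (fun w => ‖hx MK (x j) w‖)) ∧
      ∃ E : ML.Pts → ℝ, LB ML P E ∧ ∀ w : ML.Pts, MvPolynomial.eval (ML.pz w) P ≠ 0 →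
        0 < E w ∧ ∃ y : Fin s → MK.Pts, (∀ j, R.q (y j) = w) ∧ (∀ j, R.xx (y j) = x j) ∧
          ∀ v : Fin s → ℂ, E w * ‖v‖ ≤ ∑ j, ‖∑ i, v i * y j (u i)‖ := by
  classical
  obtain ⟨x, P0, hP0, h⟩ := exists_gram R u hu
  refine ⟨x, P0, hP0, fun P hP => ⟨(h P hP).1, ?_⟩⟩
  obtain ⟨hLh, D, hLD, hD⟩ := h P hP
  choose C k l hC hgr using fun ji : Fin s × Fin s => growth_x R (u ji.2) (x ji.1)
  -- bounds for `h`
  choose Ch kh hCh hhb using fun j : Fin s => exists_poly_bound (sx (m := m) (x j) MK.h)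
  have hhb' : ∀ j w, ‖hx MK (x j) w‖ ≤ Ch j * wt (ML.pz w) ^ (kh j) := by
    intro j w
    have := hhb j (ML.pz w)
    rwa [eval_sx] at this
  -- uniform constants
  set l0 := ∑ ji, l ji with hl0
  set Hf : ML.Pts → ℝ := fun w => ∏ j, ‖hx MK (x j) w‖ ^ l0 with hHf
  have hHf0 : ∀ w, 0 ≤ Hf w := fun w => Finset.prod_nonneg fun j _ => by positivity
  -- each entry, multiplied by `Hf`, has polynomial growth
  have hent : ∀ ji : Fin s × Fin s, ∃ (C' : ℝ) (k' : ℕ), 0 < C' ∧ ∀ (w : ML.Pts) (y : MK.Pts),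
      R.q y = w → R.xx y = x ji.1 → Hf w * ‖y (u ji.2)‖ ≤ C' * wt (ML.pz w) ^ k' := by
    rintro ⟨j, i⟩
    have hle : l (j, i) ≤ l0 :=
      Finset.single_le_sum (f := l) (fun _ _ => Nat.zero_le _) (Finset.mem_univ _)
    refine ⟨(C (j, i)) * ((Ch j) ^ (l0 - l (j, i)) *
      ∏ j' ∈ Finset.univ.erase j, (Ch j') ^ l0),
      k (j, i) + (kh j * (l0 - l (j, i)) + ∑ j' ∈ Finset.univ.erase j, kh j' * l0),
      mul_pos (hC _) (mul_pos (pow_pos (hCh j) _)
        (Finset.prod_pos fun j' _ => pow_pos (hCh j') _)), fun w y hq hxx => ?_⟩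
    have h1 : Hf w = ‖hx MK (x j) w‖ ^ (l (j, i)) * (‖hx MK (x j) w‖ ^ (l0 - l (j, i)) *
        ∏ j' ∈ Finset.univ.erase j, ‖hx MK (x j') w‖ ^ l0) := by
      rw [hHf]
      simp only
      rw [← Finset.mul_prod_erase _ _ (Finset.mem_univ j), ← mul_assoc, ← pow_add,
        Nat.add_sub_cancel' hle]
    have hW : 0 ≤ wt (ML.pz w) := (wt_pos _).le
    have h2 : ‖hx MK (x j) w‖ ^ (l0 - l (j, i)) ≤
        (Ch j) ^ (l0 - l (j, i)) * wt (ML.pz w) ^ (kh j * (l0 - l (j, i))) := by
      rw [pow_mul, ← mul_pow]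
      exact pow_le_pow_left₀ (norm_nonneg _) (hhb' j w) _
    have h3 : ∏ j' ∈ Finset.univ.erase j, ‖hx MK (x j') w‖ ^ l0 ≤
        (∏ j' ∈ Finset.univ.erase j, (Ch j') ^ l0) *
          wt (ML.pz w) ^ (∑ j' ∈ Finset.univ.erase j, kh j' * l0) := by
      rw [← Finset.prod_pow_eq_pow_sum, ← Finset.prod_mul_distrib]
      apply Finset.prod_le_prod
      · intro j' _
        positivity
      · intro j' _
        rw [pow_mul, ← mul_pow]
        exact pow_le_pow_left₀ (norm_nonneg _) (hhb' j' w) _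
    have h4 := hgr (j, i) w y hq hxx
    have h30 : 0 ≤ ∏ j' ∈ Finset.univ.erase j, ‖hx MK (x j') w‖ ^ l0 :=
      Finset.prod_nonneg fun j' _ => by positivity
    have hCp : 0 ≤ ∏ j' ∈ Finset.univ.erase j, (Ch j') ^ l0 :=
      Finset.prod_nonneg fun j' _ => (pow_pos (hCh j') _).le
    calc Hf w * ‖y (u i)‖ = (‖hx MK (x j) w‖ ^ (l (j, i)) * ‖y (u i)‖) *
          (‖hx MK (x j) w‖ ^ (l0 - l (j, i)) *
            ∏ j' ∈ Finset.univ.erase j, ‖hx MK (x j') w‖ ^ l0) := by rw [h1]; ring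
      _ ≤ (C (j, i) * wt (ML.pz w) ^ (k (j, i))) *
          (((Ch j) ^ (l0 - l (j, i)) * wt (ML.pz w) ^ (kh j * (l0 - l (j, i)))) *
            ((∏ j' ∈ Finset.univ.erase j, (Ch j') ^ l0) *
          wt (ML.pz w) ^ (∑ j' ∈ Finset.univ.erase j, kh j' * l0))) := by
          apply mul_le_mul h4
          · exact mul_le_mul h2 h3 h30 (mul_nonneg (pow_nonneg (hCh j).le _) (pow_nonneg hW _))
          · exact mul_nonneg (by positivity) h30
          · exact mul_nonneg (hC _).le (pow_nonneg hW _)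
      _ = _ := by rw [pow_add, pow_add]; ring
  choose C' k' hC' hent using hent
  -- one constant
  obtain ⟨Cb, kb, hCb, hkb⟩ : ∃ (Cb : ℝ) (kb : ℕ), 0 < Cb ∧ ∀ w : ML.Pts,
      Hf w ≤ Cb * wt (ML.pz w) ^ kb := by
    refine ⟨∏ j, (Ch j) ^ l0, ∑ j, kh j * l0, Finset.prod_pos fun j _ => pow_pos (hCh j) _,
      fun w => ?_⟩
    rw [← Finset.prod_pow_eq_pow_sum, ← Finset.prod_mul_distrib]
    apply Finset.prod_le_prod
    · intro j' _
      positivity
    · intro j' _
      rw [pow_mul, ← mul_pow]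
      exact pow_le_pow_left₀ (norm_nonneg _) (hhb' j' w) _
  set CT := Cb + ∑ ji, C' ji with hCT
  set kT := kb + ∑ ji, k' ji with hkT
  have hsumC : 0 ≤ ∑ ji, C' ji := Finset.sum_nonneg fun ji _ => (hC' ji).le
  have hCT0 : 0 < CT := by positivity
  -- the bound `T` for the entries
  set T : ML.Pts → ℝ := fun w => CT * wt (ML.pz w) ^ kT / Hf w with hTdef
  have hfac : (0 : ℝ) < s.factorial := Nat.cast_pos.mpr (Nat.factorial_pos s)
  have hLH : LB ML P Hf := LB.prod _ fun j _ => (hLh j).pow _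
  refine ⟨fun w => D w * Hf w ^ s / ((s.factorial * CT ^ s) * wt (ML.pz w) ^ (kT * s)), ?_,
    fun w hw => ?_⟩
  · exact LB.div (hLD.mul (hLH.pow s)) (mul_pos hfac (pow_pos hCT0 _)) _
  · obtain ⟨hD0, y, hq, hxx, hdet⟩ := hD w hw
    have hne : ∀ j, hx MK (x j) w ≠ 0 := by
      intro j
      have h1 := MK.eval_h_ne (y j)
      rw [R.pz_eq, hq j, hxx j] at h1
      exact h1
    have hHpos : 0 < Hf w := Finset.prod_pos fun j _ => pow_pos (norm_pos_iff.mpr (hne j)) _
    have hWpos : 0 < wt (ML.pz w) := wt_pos _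
    have hW1 : 1 ≤ wt (ML.pz w) := one_le_wt _
    refine ⟨by positivity, y, hq, hxx, fun v => ?_⟩
    have hT1 : 1 ≤ T w := by
      rw [hTdef]
      simp only
      rw [one_le_div hHpos]
      refine (hkb w).trans (mul_le_mul ?_ (pow_le_wt (Nat.le_add_right _ _))
        (pow_nonneg hWpos.le _) hCT0.le)
      rw [hCT]
      linarith
    have hT : ∀ j i, ‖(Matrix.of fun j i => y j (u i)) j i‖ ≤ T w := by
      intro j i
      rw [hTdef]
      simp only [Matrix.of_apply]
      rw [le_div_iff₀ hHpos, mul_comm]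
      refine (hent (j, i) w (y j) (hq j) (hxx j)).trans (mul_le_mul ?_ (pow_le_wt ?_)
        (pow_nonneg hWpos.le _) hCT0.le)
      · have h5 : C' (j, i) ≤ ∑ ji, C' ji :=
          Finset.single_le_sum (f := C') (fun ji _ => (hC' ji).le) (Finset.mem_univ _)
        rw [hCT]
        linarith
      · have h5 : k' (j, i) ≤ ∑ ji, k' ji :=
          Finset.single_le_sum (f := k') (fun _ _ => Nat.zero_le _) (Finset.mem_univ _)
        omega
    have h6 := cramer (Matrix.of fun j i => y j (u i)) hT1 hT v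
    have h7 : ∀ j, ((Matrix.of fun j i => y j (u i)).mulVec v) j = ∑ i, v i * y j (u i) := by
      intro j
      rw [Matrix.mulVec, dotProduct]
      exact Finset.sum_congr rfl fun i _ => mul_comm _ _
    simp only [h7] at h6
    have h8 : D w * ‖v‖ ≤ (s.factorial * T w ^ s) * ∑ j, ‖∑ i, v i * y j (u i)‖ :=
      (mul_le_mul_of_nonneg_right hdet (norm_nonneg _)).trans h6
    have h9 : T w ^ s * Hf w ^ s = CT ^ s * wt (ML.pz w) ^ (kT * s) := by
      rw [← mul_pow, hTdef]
      simp only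
      rw [div_mul_cancel₀ _ hHpos.ne', mul_pow, pow_mul]
    rw [div_mul_eq_mul_div, div_le_iff₀ (by positivity)]
    calc D w * Hf w ^ s * ‖v‖ = (D w * ‖v‖) * Hf w ^ s := by ring
      _ ≤ ((s.factorial * T w ^ s) * ∑ j, ‖∑ i, v i * y j (u i)‖) * Hf w ^ s :=
          mul_le_mul_of_nonneg_right h8 (pow_nonneg hHpos.le _)
      _ = (s.factorial * (T w ^ s * Hf w ^ s)) * ∑ j, ‖∑ i, v i * y j (u i)‖ := by ring
      _ = _ := by rw [h9]; ring

end samp

end Crest.Agent.R276.Gram3_358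
end
end

-- ▼ part R276/GroLow_358

/-!
# Row 276 (S0419), GRO-LOW (helper358): lower bounds of fibre integrals

* `Rel.toFSp` : a relative model as a fibred space `FSp m r ML.Pts MK.Pts` (815's interface);
* `subm` : `‖f y₀‖^p vol(polydisc) ≤ ∫_fibre ‖f‖^p` if the fibre has a section over the polydisc;
* `exists_section` : on a relative model the section exists as long as `h ≠ 0` on the polydisc;
* `gro_low` : `u : Fin s → MK.B` linearly independent over `L` ⇒
  `∫_{fibre over w} ‖∑ v_i u_i‖^p ≥ κ(w) ‖v‖^p` for all `v ∈ ℂ^s`, `κ ≥ c |P|^A (1+|z|²)^(-B)`.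
-/

set_option autoImplicit false

open Polynomial Topology Filter MeasureTheory Metric
open scoped ENNReal

noncomputable section

namespace Crest.Agent.R276.GroLow_358

open Crest.Agent.R271.Defs710 Crest.Agent.R271.Alg255 Crest.Agent.R271.Rd692
open Crest.Agent.R271.AlgB956 Crest.Agent.R271.Ho51 Crest.Agent.R276.Mod1_987
open Crest.Agent.R276.Gram0_358 Crest.Agent.R276.Gram1_358 Crest.Agent.R276.Gram2_358
open Crest.Agent.R276.Gram3_358 Crest.Agent.R276.Top8_815

/-! ### sub-mean value on fibred spaces -/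

section fsp

variable {n d : ℕ} {X Y : Type*} [TopologicalSpace X] [RDom n X] [TopologicalSpace Y]
  (F : FSp n d X Y)

/-- **sub-mean value inequality** on a fibre with a section over a polydisc -/
theorem subm {u : X} {f : Y → ℂ} (hf : F.FH u f) {y₀ : Y} {ρ : ℝ}
    {σ : (Fin d → ℂ) → Y} (hσ : ContinuousOn σ (ball (F.t y₀) ρ))
    (hq : ∀ x ∈ ball (F.t y₀) ρ, F.q (σ x) = u) (ht : ∀ x ∈ ball (F.t y₀) ρ, F.t (σ x) = x)
    (h0 : σ (F.t y₀) = y₀) {p : ℝ} (hp : 0 < p) :
    ‖f y₀‖ₑ ^ p * volume (ball (F.t y₀) ρ) ≤ F.fint u fun y => ‖f y‖ₑ ^ p := by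
  have hd : DifferentiableOn ℂ (fun x => f (σ x)) (ball (F.t y₀) ρ) := by
    intro x hx
    obtain ⟨g, hg, hev⟩ := hf (σ x) (hq x hx)
    rw [ht x hx] at hg
    have hnhds : ball (F.t y₀) ρ ∈ 𝓝 x := isOpen_ball.mem_nhds hx
    have hc : ContinuousAt σ x := hσ.continuousAt hnhds
    have h1 : (fun x => f (σ x)) =ᶠ[𝓝 x] g := by
      filter_upwards [hc.eventually hev, hnhds] with x' hx' hx'b
      have h2 := hx' (hq x' hx'b)
      rw [h2, ht x' hx'b]
    exact (hg.differentiableAt.congr_of_eventuallyEq h1).differentiableWithinAt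
  have h1 := SubP_358.rpow_mul_ball_le (volume : Measure (Fin d → ℂ)) hd hp
  rw [h0] at h1
  refine h1.trans ?_
  unfold FSp.fint
  refine le_trans (setLIntegral_mono' measurableSet_ball ?_) (setLIntegral_le_lintegral _ _)
  intro x hx
  exact ENNReal.le_tsum (f := fun y : {y : Y // F.q y = u ∧ F.t y = x} => ‖f y.1‖ₑ ^ p)
    ⟨σ x, hq x hx, ht x hx⟩

end fsp

/-! ### relative models -/

section rel

variable {L K : Type} [Field L] [Algebra ℂ L] [Field K] [Algebra ℂ K] [Algebra L K] {m r : ℕ}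
  {ML : Mdl L m} {MK : Mdl K (m + r)} (R : Rel ML MK)

lemma continuous_q : Continuous R.q :=
  continuous_iff_ev.mpr fun b => continuous_ev (R.inc b)

lemma continuous_xx : Continuous R.xx := continuous_pi fun _ => continuous_ev _

/-- a relative model as a fibred space -/
def toFSp : FSp m r ML.Pts MK.Pts where
  q := R.q
  t := R.xx
  lh := by
    have h1 : IsLocalHomeomorph (fun p : ML.Pts × Cn r => (ML.pz p.1, p.2)) := by
      refine IsLocalHomeomorph.mk _ fun p => ?_
      obtain ⟨e, he, hee⟩ := isLocalHomeomorph_pr ML.hch p.1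
      refine ⟨e.prod (OpenPartialHomeomorph.refl (Cn r)), ⟨he, trivial⟩, fun x _ => ?_⟩
      change (ML.pz x.1, x.2) = (e x.1, x.2)
      rw [← hee]
    have h2 : IsLocalHomeomorph (fun p : ML.Pts × Cn r => Fin.append (ML.pz p.1) p.2) :=
      ((Fin.appendHomeomorph (X := ℂ) m r).isLocalHomeomorph).comp h1
    have h3 : IsLocalHomeomorph ((fun p : ML.Pts × Cn r => Fin.append (ML.pz p.1) p.2) ∘
        fun y : MK.Pts => (R.q y, R.xx y)) := by
      have h4 : ((fun p : ML.Pts × Cn r => Fin.append (ML.pz p.1) p.2) ∘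
        fun y : MK.Pts => (R.q y, R.xx y)) = MK.pz := by
        funext y
        exact (R.pz_eq y).symm
      rw [h4]
      exact isLocalHomeomorph_pr MK.hch
    exact h3.of_comp h2 ((continuous_q R).prodMk (continuous_xx R))

/-- sections over polydiscs -/
theorem exists_section (y₀ : MK.Pts) {ρ : ℝ} (hρ : 0 < ρ)
    (hh : ∀ x ∈ ball (R.xx y₀) ρ,
      MvPolynomial.eval (Fin.append (ML.pz (R.q y₀)) x) MK.h ≠ 0) :
    ∃ σ : Cn r → MK.Pts, ContinuousOn σ (ball (R.xx y₀) ρ) ∧
      (∀ x ∈ ball (R.xx y₀) ρ, R.q (σ x) = R.q y₀) ∧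
      (∀ x ∈ ball (R.xx y₀) ρ, R.xx (σ x) = x) ∧ σ (R.xx y₀) = y₀ := by
  classical
  set A := ball (R.xx y₀) ρ with hA
  have ha : R.xx y₀ ∈ A := mem_ball_self hρ
  have hne : A.Nonempty := ⟨_, ha⟩
  have _ : ContractibleSpace A := (convex_ball (R.xx y₀) ρ).contractibleSpace hne
  have _ : LocallyPathConnectedSpace A := (isOpen_ball (x := R.xx y₀) (ε := ρ)).locallyPathConnectedSpace
  let f : C(A, MK.U) := ⟨fun x => ⟨Fin.append (ML.pz (R.q y₀)) x.1, hh x.1 x.2⟩, by
    refine Continuous.subtype_mk ?_ _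
    have h1 : Continuous (fun x : A => ((ML.pz (R.q y₀), x.1) : Cn m × Cn r)) :=
      continuous_const.prodMk continuous_subtype_val
    exact (Fin.appendHomeomorph (X := ℂ) m r).continuous.comp h1⟩
  obtain ⟨G, ⟨hG0, hG⟩, _⟩ := MK.isCoveringMap.existsUnique_continuousMap_lifts f ⟨R.xx y₀, ha⟩ y₀
    (Subtype.ext (R.pz_eq y₀))
  have hGz : ∀ a : A, MK.pz (G a) = Fin.append (ML.pz (R.q y₀)) a.1 := fun a =>
    congrArg Subtype.val (congrFun hG a)
  have hGq : ∀ a : A, R.q (G a) = R.q y₀ := by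
    intro a
    have h1 : (fun a : A => R.q (G a)) = fun _ => R.q y₀ := by
      refine ML.isCoveringMap.eq_of_comp_eq ((continuous_q R).comp G.continuous)
        continuous_const ?_ ⟨R.xx y₀, ha⟩ ?_
      · funext a
        apply Subtype.ext
        change ML.pz (R.q (G a)) = ML.pz (R.q y₀)
        have h2 := hGz a
        rw [R.pz_eq] at h2
        funext i
        have h3 := congrFun h2 (Fin.castAdd r i)
        rw [Fin.append_left, Fin.append_left] at h3
        exact h3
      · rw [hG0]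
    exact congrFun h1 a
  refine ⟨fun x => if h : x ∈ A then G ⟨x, h⟩ else y₀, ?_, ?_, ?_, ?_⟩
  · rw [continuousOn_iff_continuous_domRestrict]
    have h1 : A.domRestrict (fun x => if h : x ∈ A then G ⟨x, h⟩ else y₀) = G := by
      funext a
      rw [Set.domRestrict_apply, dif_pos a.2]
    rw [h1]
    exact G.continuous
  · intro x hx
    simp only [dif_pos hx]
    exact hGq _
  · intro x hx
    simp only [dif_pos hx]
    have h2 := hGz ⟨x, hx⟩
    rw [R.pz_eq] at h2
    funext i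
    have h3 := congrFun h2 (Fin.natAdd m i)
    rw [Fin.append_right, Fin.append_right] at h3
    exact h3
  · simp only [dif_pos ha]
    exact hG0

/-- elements of `B` are holomorphic on the fibres -/
lemma fh_elem (w : ML.Pts) (b : MK.B) : (toFSp R).FH w fun y => y b := by
  intro y hy
  change R.q y = w at hy
  obtain ⟨C⟩ := MK.hch y
  have hpz : ∀ y' : MK.Pts, R.q y' = w → MK.pz y' - MK.pz y =
      Fin.append 0 (R.xx y' - R.xx y) := by
    intro y' hy'
    rw [R.pz_eq, R.pz_eq, hy', hy]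
    funext i
    refine Fin.addCases (fun i => ?_) (fun i => ?_) i
    · rw [Pi.sub_apply, Fin.append_left, Fin.append_left, Fin.append_left, sub_self]
      rfl
    · rw [Pi.sub_apply, Fin.append_right, Fin.append_right, Fin.append_right]
      rfl
  have hlin : AnalyticAt ℂ (fun x : Cn r => (Fin.append 0 (x - R.xx y) : Cn (m + r)))
      (R.xx y) := by
    rw [analyticAt_pi_iff]
    intro i
    refine Fin.addCases (fun i => ?_) (fun i => ?_) i
    · simp only [Fin.append_left]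
      exact analyticAt_const
    · simp only [Fin.append_right, Pi.sub_apply]
      exact ((ContinuousLinearMap.proj (R := ℂ) (φ := fun _ : Fin r => ℂ) i).analyticAt _).sub
        analyticAt_const
  have h0 : (Fin.append 0 (R.xx y - R.xx y) : Cn (m + r)) = 0 := by
    rw [← hpz y hy, sub_self]
  refine ⟨fun x => C.s (Fin.append 0 (x - R.xx y)) b, ?_, ?_⟩
  · have h1 := C.anal b 0 (Metric.mem_ball_self C.r_pos)
    rw [← h0] at h1
    exact AnalyticAt.comp (g := fun ζ => C.s ζ b)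
      (f := fun x : Cn r => (Fin.append 0 (x - R.xx y) : Cn (m + r))) h1 hlin
  · filter_upwards [(isOpen_sheet MK.hch C).mem_nhds (self_mem_sheet C)] with y' hy' hq
    have h1 := hy'.2
    have h2 : pr MK.z y' - pr MK.z y = Fin.append 0 (R.xx y' - R.xx y) := hpz y' hq
    rw [h2] at h1
    conv_lhs => rw [h1]
    rfl

/-! ### radii -/

/-- Lipschitz estimate for polynomials -/
theorem exists_lip {n : ℕ} (p : MvPolynomial (Fin n) ℂ) : ∃ (C : ℝ) (k : ℕ), 0 < C ∧
    ∀ z z' : Cn n, ‖z' - z‖ ≤ 1 →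
      ‖MvPolynomial.eval z' p - MvPolynomial.eval z p‖ ≤ C * wt z ^ k * ‖z' - z‖ := by
  induction p using MvPolynomial.induction_on with
  | C a =>
    refine ⟨1, 0, one_pos, fun z z' _ => ?_⟩
    rw [MvPolynomial.eval_C, MvPolynomial.eval_C, sub_self, norm_zero]
    positivity
  | add p q hp hq =>
    obtain ⟨C, k, hC, h1⟩ := hp
    obtain ⟨D, l, hD, h2⟩ := hq
    refine ⟨C + D, k + l, by positivity, fun z z' hz => ?_⟩
    rw [map_add, map_add]
    have h3 : wt z ^ k ≤ wt z ^ (k + l) := pow_le_wt (Nat.le_add_right _ _)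
    have h4 : wt z ^ l ≤ wt z ^ (k + l) := pow_le_wt (Nat.le_add_left _ _)
    have h5 : MvPolynomial.eval z' p + MvPolynomial.eval z' q -
        (MvPolynomial.eval z p + MvPolynomial.eval z q) =
        (MvPolynomial.eval z' p - MvPolynomial.eval z p) +
        (MvPolynomial.eval z' q - MvPolynomial.eval z q) := by ring
    rw [h5]
    calc ‖(MvPolynomial.eval z' p - MvPolynomial.eval z p) +
        (MvPolynomial.eval z' q - MvPolynomial.eval z q)‖ ≤
          C * wt z ^ k * ‖z' - z‖ + D * wt z ^ l * ‖z' - z‖ :=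
          (norm_add_le _ _).trans (add_le_add (h1 z z' hz) (h2 z z' hz))
      _ ≤ C * wt z ^ (k + l) * ‖z' - z‖ + D * wt z ^ (k + l) * ‖z' - z‖ := by gcongr
      _ = _ := by ring
  | mul_X p i hp =>
    obtain ⟨C, k, hC, h1⟩ := hp
    obtain ⟨D, l, hD, h2⟩ := exists_poly_bound p
    refine ⟨2 * C + D, (k + 1) + l, by positivity, fun z z' hz => ?_⟩
    rw [map_mul, map_mul, MvPolynomial.eval_X, MvPolynomial.eval_X]
    have h5 : MvPolynomial.eval z' p * z' i - MvPolynomial.eval z p * z i =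
        (MvPolynomial.eval z' p - MvPolynomial.eval z p) * z' i +
        MvPolynomial.eval z p * (z' i - z i) := by ring
    have h6 : ‖z' i - z i‖ ≤ ‖z' - z‖ := norm_le_pi_norm (z' - z) i
    have h7 : ‖z' i‖ ≤ 2 * wt z := by
      have h8 : ‖z' i‖ ≤ ‖z' i - z i‖ + ‖z i‖ := by
        have := norm_add_le (z' i - z i) (z i)
        simpa using this
      have h9 := norm_le_wt z i
      have h10 := one_le_wt z
      linarith
    have h3 : wt z ^ (k + 1) ≤ wt z ^ ((k + 1) + l) := pow_le_wt (Nat.le_add_right _ _)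
    have h4 : wt z ^ l ≤ wt z ^ ((k + 1) + l) := pow_le_wt (Nat.le_add_left _ _)
    have hW : 0 < wt z := wt_pos z
    rw [h5]
    calc ‖(MvPolynomial.eval z' p - MvPolynomial.eval z p) * z' i +
        MvPolynomial.eval z p * (z' i - z i)‖
        ≤ ‖MvPolynomial.eval z' p - MvPolynomial.eval z p‖ * ‖z' i‖ +
          ‖MvPolynomial.eval z p‖ * ‖z' i - z i‖ := by
          refine (norm_add_le _ _).trans (le_of_eq ?_)
          rw [norm_mul, norm_mul]
      _ ≤ (C * wt z ^ k * ‖z' - z‖) * (2 * wt z) + (D * wt z ^ l) * ‖z' - z‖ := by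
          gcongr
          · exact h1 z z' hz
          · exact h2 z
      _ = 2 * C * wt z ^ (k + 1) * ‖z' - z‖ + D * wt z ^ l * ‖z' - z‖ := by ring
      _ ≤ 2 * C * wt z ^ ((k + 1) + l) * ‖z' - z‖ + D * wt z ^ ((k + 1) + l) * ‖z' - z‖ := by
          gcongr
      _ = _ := by ring

omit [Algebra L K] in
/-- radii on which `h` does not vanish -/
theorem exists_radius {P : MvPolynomial (Fin m) ℂ} (x₀ : Cn r)
    (hP : LB ML P (fun w => ‖hx MK x₀ w‖)) :
    ∃ ρ : ML.Pts → ℝ, LB ML P ρ ∧ (∀ w, ρ w ≤ 1) ∧ ∀ w : ML.Pts, hx MK x₀ w ≠ 0 →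
      0 < ρ w ∧ ∀ x ∈ ball x₀ (ρ w), MvPolynomial.eval (Fin.append (ML.pz w) x) MK.h ≠ 0 := by
  obtain ⟨C, k, hC, h1⟩ := exists_lip MK.h
  obtain ⟨D, l, hD, h2⟩ := exists_poly_bound (sx (m := m) x₀ MK.h)
  set C1 := D + 2 * C * wt x₀ ^ k with hC1
  have hx0 : 0 < wt x₀ := wt_pos _
  have hC10 : 0 < C1 := by positivity
  refine ⟨fun w => ‖hx MK x₀ w‖ / (C1 * wt (ML.pz w) ^ (l + k)), LB.div hP hC10 _,
    fun w => ?_, fun w hw => ?_⟩
  · have hW : 0 < wt (ML.pz w) := wt_pos _
    rw [div_le_one (by positivity)]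
    have h3 := h2 (ML.pz w)
    rw [eval_sx] at h3
    refine h3.trans (mul_le_mul ?_ (pow_le_wt (Nat.le_add_right _ _)) (pow_nonneg hW.le _) hC10.le)
    rw [hC1]
    have : 0 ≤ 2 * C * wt x₀ ^ k := by positivity
    linarith
  · have hW : 0 < wt (ML.pz w) := wt_pos _
    have hpos : 0 < ‖hx MK x₀ w‖ := norm_pos_iff.mpr hw
    have hρ1 : ‖hx MK x₀ w‖ / (C1 * wt (ML.pz w) ^ (l + k)) ≤ 1 := by
      rw [div_le_one (by positivity)]
      have h3 := h2 (ML.pz w)
      rw [eval_sx] at h3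
      refine h3.trans (mul_le_mul ?_ (pow_le_wt (Nat.le_add_right _ _))
        (pow_nonneg hW.le _) hC10.le)
      rw [hC1]
      have : 0 ≤ 2 * C * wt x₀ ^ k := by positivity
      linarith
    refine ⟨by positivity, fun x hx' h0 => ?_⟩
    rw [mem_ball, dist_eq_norm] at hx'
    have hnorm : ‖Fin.append (ML.pz w) x - Fin.append (ML.pz w) x₀‖ ≤ ‖x - x₀‖ := by
      rw [pi_norm_le_iff_of_nonneg (norm_nonneg _)]
      intro i
      refine Fin.addCases (fun i => ?_) (fun i => ?_) i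
      · rw [Pi.sub_apply, Fin.append_left, Fin.append_left, sub_self, norm_zero]
        exact norm_nonneg _
      · rw [Pi.sub_apply, Fin.append_right, Fin.append_right]
        exact norm_le_pi_norm (x - x₀) i
    have h3 := h1 (Fin.append (ML.pz w) x₀) (Fin.append (ML.pz w) x)
      (hnorm.trans (hx'.le.trans hρ1))
    rw [h0, zero_sub, norm_neg] at h3
    have h4 : C * wt (Fin.append (ML.pz w) x₀) ^ k ≤
        C1 / 2 * wt (ML.pz w) ^ (l + k) := by
      calc C * wt (Fin.append (ML.pz w) x₀) ^ k ≤ C * (wt (ML.pz w) * wt x₀) ^ k := by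
            apply mul_le_mul_of_nonneg_left _ hC.le
            exact pow_le_pow_left₀ (wt_pos _).le (wt_append _ _) _
        _ = (C * wt x₀ ^ k) * wt (ML.pz w) ^ k := by rw [mul_pow]; ring
        _ ≤ _ := by
            refine mul_le_mul ?_ (pow_le_wt (Nat.le_add_left _ _)) (pow_nonneg hW.le _)
              (by positivity)
            rw [hC1]
            linarith
    have h5 : ‖hx MK x₀ w‖ ≤ C1 / 2 * wt (ML.pz w) ^ (l + k) * ‖x - x₀‖ :=
      h3.trans (mul_le_mul h4 hnorm (norm_nonneg _) (by positivity))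
    have h6 : C1 / 2 * wt (ML.pz w) ^ (l + k) * ‖x - x₀‖ ≤ ‖hx MK x₀ w‖ / 2 := by
      calc C1 / 2 * wt (ML.pz w) ^ (l + k) * ‖x - x₀‖
          ≤ C1 / 2 * wt (ML.pz w) ^ (l + k) *
            (‖hx MK x₀ w‖ / (C1 * wt (ML.pz w) ^ (l + k))) := by
            apply mul_le_mul_of_nonneg_left hx'.le (by positivity)
        _ = _ := by field_simp
    linarith

/-- sub-mean value inequality on a model -/
theorem subm_model {w : ML.Pts} {f : MK.Pts → ℂ} (hf : (toFSp R).FH w f) {y₀ : MK.Pts}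
    (hy₀ : R.q y₀ = w) {ρ : ℝ} (hρ : 0 < ρ)
    (hh : ∀ x ∈ ball (R.xx y₀) ρ, MvPolynomial.eval (Fin.append (ML.pz w) x) MK.h ≠ 0)
    {p : ℝ} (hp : 0 < p) :
    ‖f y₀‖ₑ ^ p * volume (ball (R.xx y₀) ρ) ≤ (toFSp R).fint w fun y => ‖f y‖ₑ ^ p := by
  obtain ⟨σ, h1, h2, h3, h4⟩ := exists_section R y₀ hρ (by rw [hy₀]; exact hh)
  rw [hy₀] at h2
  exact subm (toFSp R) hf (σ := σ) h1 h2 h3 h4 hp

lemma fh_sum (w : ML.Pts) {s : ℕ} (u : Fin s → MK.B) (v : Fin s → ℂ) :
    (toFSp R).FH w fun y => ∑ i, v i * y (u i) := by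
  have h1 : (fun y : MK.Pts => ∑ i, v i * y (u i)) = fun y => y (∑ i, v i • u i) := by
    funext y
    rw [map_sum]
    exact Finset.sum_congr rfl fun i _ => by rw [map_smul, smul_eq_mul]
  rw [h1]
  exact fh_elem R w _

/-- the volume of a polydisc -/
lemma volume_ball' (x : Cn r) {ρ : ℝ} (hρ : 0 < ρ) :
    volume (ball x ρ) = ENNReal.ofReal (ρ ^ (2 * r) * (volume (ball (0 : Cn r) 1)).toReal) := by
  have h1 := Measure.addHaar_ball_of_pos (volume : Measure (Cn r)) x hρ
  have h2 : Module.finrank ℝ (Cn r) = 2 * r := by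
    rw [Module.finrank_pi_fintype]
    simp [Complex.finrank_real_complex, mul_comm]
  rw [h1, h2, ENNReal.ofReal_mul (by positivity), ENNReal.ofReal_toReal measure_ball_lt_top.ne]

/-- **GRO-LOW**: lower bound of the fibre integrals `∫ ‖∑ v_i u_i‖^p` -/
theorem gro_low {s : ℕ} (u : Fin s → MK.B) (hu : LinearIndependent L fun i => (u i : K))
    {p : ℝ} (hp : 0 < p) :
    ∃ P0 : MvPolynomial (Fin m) ℂ, P0 ≠ 0 ∧ ∀ P : MvPolynomial (Fin m) ℂ, P0 ∣ P →
      ∃ κ : ML.Pts → ℝ, LB ML P κ ∧ ∀ w : ML.Pts, MvPolynomial.eval (ML.pz w) P ≠ 0 →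
        0 < κ w ∧ ∀ v : Fin s → ℂ, ENNReal.ofReal (κ w * ‖v‖ ^ p) ≤
          (toFSp R).fint w fun y => ‖∑ i, v i * y (u i)‖ₑ ^ p := by
  classical
  obtain ⟨x, P0, hP0, h⟩ := exists_sampling R u hu
  refine ⟨P0, hP0, fun P hP => ?_⟩
  obtain ⟨hLh, E, hLE, hE⟩ := h P hP
  choose ρ hLρ hρ1 hρ using fun j => exists_radius (MK := MK) (x j) (hLh j)
  set V := (volume (ball (0 : Cn r) 1)).toReal with hV
  have hV0 : 0 < V := ENNReal.toReal_pos (measure_ball_pos _ _ one_pos).ne' measure_ball_lt_top.ne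
  have hs1 : (0 : ℝ) < s + 1 := by positivity
  refine ⟨fun w => (E w / (s + 1)) ^ p * ((∏ j, ρ j w) ^ (2 * r) * V), ?_, fun w hw => ?_⟩
  · have h1 : LB ML P (fun w => E w / (s + 1)) := by
      have := LB.div hLE hs1 0
      simpa using this
    exact (LB.rpow h1 hp).mul (((LB.prod _ fun j _ => hLρ j).pow _).mul (LB.const hV0))
  · obtain ⟨hE0, y, hq, hxx, hy⟩ := hE w hw
    have hne : ∀ j, hx MK (x j) w ≠ 0 := by
      intro j
      have h1 := MK.eval_h_ne (y j)
      rw [R.pz_eq, hq j, hxx j] at h1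
      exact h1
    have hρpos : ∀ j, 0 < ρ j w := fun j => (hρ j w (hne j)).1
    have hprod : 0 < ∏ j, ρ j w := Finset.prod_pos fun j _ => hρpos j
    have hEp : 0 < (E w / (s + 1)) ^ p := Real.rpow_pos_of_pos (div_pos hE0 hs1) _
    refine ⟨by positivity, fun v => ?_⟩
    rcases Nat.eq_zero_or_pos s with hs | hs
    · have h1 : ‖v‖ = 0 := by
        rw [norm_eq_zero]
        funext i
        subst hs
        exact i.elim0
      rw [h1, Real.zero_rpow hp.ne', mul_zero, ENNReal.ofReal_zero]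
      exact zero_le
    · -- a point where the value is large
      obtain ⟨j, hj⟩ : ∃ j, E w / (s + 1) * ‖v‖ ≤ ‖∑ i, v i * y j (u i)‖ := by
        by_contra hcon
        push Not at hcon
        have h1 : ∑ j : Fin s, ‖∑ i, v i * y j (u i)‖ ≤ ∑ _j : Fin s, E w / (s + 1) * ‖v‖ :=
          Finset.sum_le_sum fun j _ => (hcon j).le
        rw [Finset.sum_const, Finset.card_univ, Fintype.card_fin, nsmul_eq_mul] at h1
        have h2 := (hy v).trans h1
        have h3 : 0 < ‖v‖ := by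
          have h4 := hcon ⟨0, hs⟩
          have h5 : 0 < E w / (s + 1) * ‖v‖ := lt_of_le_of_lt (norm_nonneg _) h4
          exact pos_of_mul_pos_right h5 (div_pos hE0 hs1).le
        have h6 : (s : ℝ) * (E w / (s + 1) * ‖v‖) < E w * ‖v‖ := by
          have h7 : (s : ℝ) * (E w / (s + 1) * ‖v‖) = (E w * ‖v‖) * (s / (s + 1)) := by ring
          rw [h7]
          have h8 : (s : ℝ) / (s + 1) < 1 := by
            rw [div_lt_one hs1]
            linarith
          calc (E w * ‖v‖) * (s / (s + 1)) < (E w * ‖v‖) * 1 :=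
                mul_lt_mul_of_pos_left h8 (mul_pos hE0 h3)
            _ = _ := mul_one _
        exact absurd h2 (not_le.mpr h6)
      have hball := (hρ j w (hne j)).2
      rw [← hxx j] at hball
      have h1 := subm_model R (fh_sum R w u v) (hq j) (hρpos j) hball hp
      refine le_trans ?_ h1
      rw [volume_ball' _ (hρpos j)]
      have h2 : ‖∑ i, v i * y j (u i)‖ₑ ^ p = ENNReal.ofReal (‖∑ i, v i * y j (u i)‖ ^ p) := by
        rw [← ENNReal.ofReal_rpow_of_nonneg (norm_nonneg _) hp.le, ofReal_norm]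
      rw [h2, ← ENNReal.ofReal_mul (by positivity)]
      apply ENNReal.ofReal_le_ofReal
      have h3 : (E w / (s + 1)) ^ p * ‖v‖ ^ p ≤ ‖∑ i, v i * y j (u i)‖ ^ p := by
        rw [← Real.mul_rpow (div_pos hE0 hs1).le (norm_nonneg _)]
        exact Real.rpow_le_rpow (by positivity) hj hp.le
      have h4 : (∏ j, ρ j w) ≤ ρ j w := by
        rw [← Finset.mul_prod_erase _ _ (Finset.mem_univ j)]
        have h5 : ∏ j' ∈ Finset.univ.erase j, ρ j' w ≤ 1 :=
          Finset.prod_le_one (fun j' _ => (hρpos j').le) fun j' _ => hρ1 j' w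
        calc ρ j w * ∏ j' ∈ Finset.univ.erase j, ρ j' w ≤ ρ j w * 1 :=
              mul_le_mul_of_nonneg_left h5 (hρpos j).le
          _ = _ := mul_one _
      calc (E w / (s + 1)) ^ p * ((∏ j, ρ j w) ^ (2 * r) * V) * ‖v‖ ^ p
          = ((E w / (s + 1)) ^ p * ‖v‖ ^ p) * ((∏ j, ρ j w) ^ (2 * r) * V) := by ring
        _ ≤ ‖∑ i, v i * y j (u i)‖ ^ p * (ρ j w ^ (2 * r) * V) := by
            gcongr

/-- explicit form of `gro_low` -/
theorem gro_low' {s : ℕ} (u : Fin s → MK.B) (hu : LinearIndependent L fun i => (u i : K))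
    {p : ℝ} (hp : 0 < p) :
    ∃ P0 : MvPolynomial (Fin m) ℂ, P0 ≠ 0 ∧ ∀ P : MvPolynomial (Fin m) ℂ, P0 ∣ P →
      ∃ (c : ℝ) (A B : ℕ), 0 < c ∧ ∀ w : ML.Pts, MvPolynomial.eval (ML.pz w) P ≠ 0 →
        ∀ v : Fin s → ℂ, ENNReal.ofReal (c * ‖MvPolynomial.eval (ML.pz w) P‖ ^ A /
          (1 + ∑ i, ‖ML.pz w i‖ ^ 2) ^ B * ‖v‖ ^ p) ≤
          (toFSp R).fint w fun y => ‖∑ i, v i * y (u i)‖ₑ ^ p := by
  obtain ⟨P0, hP0, h⟩ := gro_low R u hu hp
  refine ⟨P0, hP0, fun P hP => ?_⟩
  obtain ⟨κ, ⟨c, A, B, hc, h1⟩, h2⟩ := h P hP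
  refine ⟨c, A, B, hc, fun w hw v => le_trans (ENNReal.ofReal_le_ofReal ?_) ((h2 w hw).2 v)⟩
  apply mul_le_mul_of_nonneg_right _ (by positivity)
  rw [div_le_iff₀ (by positivity)]
  exact h1 w


end rel

end Crest.Agent.R276.GroLow_358
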