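import Mathlib
import Crest.Agent.R276.Lq_464
import Crest.Agent.R276.AB2_590
import Crest.Agent.R271.RExt2_747
import Crest.Agent.R276.Mod7_987

-- ▼ part R276/LqG_464
section

/-!
# R276, leaf FLATALG (helper464): growth from `L^q` integrability

`growth_of_lq` : `f` holomorphic on `{g ≠ 0} ⊆ ℂⁿ`, `∫ ‖f‖^q (1+‖ζ‖)^{-L} < ∞`, `q > 0` ⟹
`‖f ζ‖ ‖g ζ‖^b ≤ C (1+‖ζ‖)^a`.
-/

set_option autoImplicit false

open MeasureTheory Metric Set Filter Topology
open scoped ENNReal Real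

namespace Crest.Agent.R276.LqG_464

variable {n : ℕ}

/-- growth and Lipschitz estimate for polynomials -/
theorem poly_bound (g : MvPolynomial (Fin n) ℂ) : ∃ (C : ℝ) (D : ℕ), 1 ≤ C ∧
    (∀ ζ : Fin n → ℂ, ‖MvPolynomial.eval ζ g‖ ≤ C * (1 + ‖ζ‖) ^ D) ∧
    ∀ ζ w : Fin n → ℂ, ‖w‖ ≤ 1 →
      ‖MvPolynomial.eval (ζ + w) g - MvPolynomial.eval ζ g‖ ≤ C * (1 + ‖ζ‖) ^ D * ‖w‖ := by
  induction g using MvPolynomial.induction_on with
  | C a =>
    refine ⟨1 + ‖a‖, 0, by linarith [norm_nonneg a], fun ζ => ?_, fun ζ w hw => ?_⟩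
    · simp only [MvPolynomial.eval_C, pow_zero, mul_one]; linarith
    · simp only [MvPolynomial.eval_C, sub_self, norm_zero]; positivity
  | add p q hp hq =>
    obtain ⟨C1, D1, h1, h2, h3⟩ := hp
    obtain ⟨C2, D2, h4, h5, h6⟩ := hq
    have key : ∀ ζ : Fin n → ℂ, C1 * (1 + ‖ζ‖) ^ D1 + C2 * (1 + ‖ζ‖) ^ D2 ≤
        (C1 + C2) * (1 + ‖ζ‖) ^ (D1 + D2) := by
      intro ζ
      have h0 : 1 ≤ 1 + ‖ζ‖ := by linarith [norm_nonneg ζ]
      have e1 : (1 + ‖ζ‖) ^ D1 ≤ (1 + ‖ζ‖) ^ (D1 + D2) := pow_le_pow_right₀ h0 (by omega)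
      have e2 : (1 + ‖ζ‖) ^ D2 ≤ (1 + ‖ζ‖) ^ (D1 + D2) := pow_le_pow_right₀ h0 (by omega)
      nlinarith
    refine ⟨C1 + C2, D1 + D2, by linarith, fun ζ => ?_, fun ζ w hw => ?_⟩
    · rw [map_add]
      exact ((norm_add_le _ _).trans (add_le_add (h2 ζ) (h5 ζ))).trans (key ζ)
    · rw [map_add, map_add]
      have e : MvPolynomial.eval (ζ + w) p + MvPolynomial.eval (ζ + w) q -
          (MvPolynomial.eval ζ p + MvPolynomial.eval ζ q) =
          (MvPolynomial.eval (ζ + w) p - MvPolynomial.eval ζ p) +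
          (MvPolynomial.eval (ζ + w) q - MvPolynomial.eval ζ q) := by ring
      rw [e]
      refine ((norm_add_le _ _).trans (add_le_add (h3 ζ w hw) (h6 ζ w hw))).trans ?_
      rw [← add_mul]
      exact mul_le_mul_of_nonneg_right (key ζ) (norm_nonneg _)
  | mul_X p i hp =>
    obtain ⟨C1, D1, h1, h2, h3⟩ := hp
    refine ⟨3 * C1, D1 + 1, by linarith, fun ζ => ?_, fun ζ w hw => ?_⟩
    · rw [map_mul, norm_mul, MvPolynomial.eval_X]
      have e1 : ‖ζ i‖ ≤ 1 + ‖ζ‖ := (norm_le_pi_norm ζ i).trans (by linarith)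
      have e0 : 0 ≤ 1 + ‖ζ‖ := by positivity
      calc ‖MvPolynomial.eval ζ p‖ * ‖ζ i‖ ≤ (C1 * (1 + ‖ζ‖) ^ D1) * (1 + ‖ζ‖) :=
            mul_le_mul (h2 ζ) e1 (norm_nonneg _) (by positivity)
        _ = C1 * (1 + ‖ζ‖) ^ (D1 + 1) := by ring
        _ ≤ 3 * C1 * (1 + ‖ζ‖) ^ (D1 + 1) := by
          have : 0 ≤ C1 * (1 + ‖ζ‖) ^ (D1 + 1) := by positivity
          linarith
    · rw [map_mul, map_mul, MvPolynomial.eval_X, MvPolynomial.eval_X, Pi.add_apply]
      have e : MvPolynomial.eval (ζ + w) p * (ζ i + w i) - MvPolynomial.eval ζ p * ζ i =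
          (MvPolynomial.eval (ζ + w) p - MvPolynomial.eval ζ p) * ζ i +
          (MvPolynomial.eval (ζ + w) p - MvPolynomial.eval ζ p) * w i +
          MvPolynomial.eval ζ p * w i := by ring
      rw [e]
      have e1 : ‖ζ i‖ ≤ ‖ζ‖ := norm_le_pi_norm ζ i
      have e2 : ‖w i‖ ≤ ‖w‖ := norm_le_pi_norm w i
      have e0 : 0 ≤ ‖ζ‖ := norm_nonneg _
      have e3 := h3 ζ w hw
      have e4 := h2 ζ
      set P := C1 * (1 + ‖ζ‖) ^ D1 with hP
      have hP0 : 0 ≤ P := by positivity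
      have w0 : 0 ≤ ‖w‖ := norm_nonneg _
      calc _ ≤ ‖(MvPolynomial.eval (ζ + w) p - MvPolynomial.eval ζ p) * ζ i +
            (MvPolynomial.eval (ζ + w) p - MvPolynomial.eval ζ p) * w i‖ +
            ‖MvPolynomial.eval ζ p * w i‖ := norm_add_le _ _
        _ ≤ (‖(MvPolynomial.eval (ζ + w) p - MvPolynomial.eval ζ p) * ζ i‖ +
            ‖(MvPolynomial.eval (ζ + w) p - MvPolynomial.eval ζ p) * w i‖) +
            ‖MvPolynomial.eval ζ p * w i‖ := by gcongr; exact norm_add_le _ _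
        _ ≤ (P * ‖w‖ * ‖ζ‖ + P * ‖w‖ * 1) + P * ‖w‖ := by
          rw [norm_mul, norm_mul, norm_mul]
          gcongr
          exact e2.trans hw
        _ ≤ 3 * C1 * (1 + ‖ζ‖) ^ (D1 + 1) * ‖w‖ := by
          have : 3 * C1 * (1 + ‖ζ‖) ^ (D1 + 1) * ‖w‖ = 3 * (P * ‖w‖) * (1 + ‖ζ‖) := by
            rw [hP]; ring
          rw [this]
          have h7 : 0 ≤ P * ‖w‖ := by positivity
          nlinarith

/-- volume of sup norm balls in `ℂⁿ` -/
theorem vol_ball (x : Fin n → ℂ) {r : ℝ} (hr : 0 < r) :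
    volume (ball x r) = ENNReal.ofReal ((π * r ^ 2) ^ n) := by
  rw [MeasureTheory.volume_pi_ball _ hr]
  have h1 : ∀ i : Fin n, volume (ball (x i) r) = ENNReal.ofReal (π * r ^ 2) := by
    intro i
    rw [Complex.volume_ball, ENNReal.ofReal_mul Real.pi_pos.le, mul_comm, ENNReal.ofReal_pow hr.le]
    congr 1
    rw [← NNReal.coe_real_pi, ENNReal.ofReal_coe_nnreal]
  rw [Finset.prod_congr rfl fun i _ => h1 i, Finset.prod_const, Finset.card_univ,
    Fintype.card_fin, ENNReal.ofReal_pow (by positivity)]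


end Crest.Agent.R276.LqG_464
end

-- ▼ part R276/AlgLq_464
section

/-!
# R276, leaf FLATALG (helper464): algebraicity from `L^q` integrability, every `q > 0`

`mem_of_lq` : `F` holomorphic on `M = Hom(B,ℂ)` (`B` a domain of finite type, étale over `ℂ[z]`),
`∫_M (‖F‖ ‖u‖^N)^q (1+|z|²)^{-M} < ∞` with `u ≠ 0`, `q > 0` ⟹ `F ∈ B`.
-/

set_option autoImplicit false

open Topology Filter MeasureTheory Set
open scoped ENNReal

noncomputable section

namespace Crest.Agent.R276.AlgLq_464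

open Crest.Agent.R271 Crest.Agent.R271.Defs710 Crest.Agent.R271.AlgB956
open Crest.Agent.R276.AB2_590

variable {n : ℕ} {B : Type} [CommRing B] [Algebra ℂ B] {z : Fin n → B}



/-- norm comparison -/
theorem one_add_norm_le (ζ : Cn n) : 1 + ‖ζ‖ ≤ 2 * (1 + ∑ i, ‖ζ i‖ ^ 2) := by
  have h0 : 0 ≤ ∑ i, ‖ζ i‖ ^ 2 := by positivity
  have h1 : ‖ζ‖ ≤ 1 + ∑ i, ‖ζ i‖ ^ 2 := by
    rw [pi_norm_le_iff_of_nonneg (by positivity)]
    intro i
    have h2 : ‖ζ i‖ ^ 2 ≤ ∑ i, ‖ζ i‖ ^ 2 :=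
      Finset.single_le_sum (f := fun i => ‖ζ i‖ ^ 2) (fun i _ => by positivity) (Finset.mem_univ i)
    nlinarith [norm_nonneg (ζ i), sq_nonneg (‖ζ i‖ - 1)]
  linarith



end Crest.Agent.R276.AlgLq_464
end
end

-- ▼ part R276/SatA_210
section

/-!
# Row 276 (S0419), SAT (helper210), part A: anisotropic growth

Coordinates `ζ = (z, x)` on `ℂ^{m+r}` (`zc ζ`, `xc ζ`).  `f` holomorphic on `{g ≠ 0}`,
`∫_{g ≠ 0} |f|^q |p(z)|^b (1+|z|)^{-a} (1+|x|)^{-L} < ∞`.  Then `f g^{K₁} p(z)^e` is a polynomial whose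
degree in `x` is at most `K₂`, where `K₁`, `K₂` depend only on `g`, `q`, `L` (not on `f`, `p`, `a`, `b`).
-/

set_option autoImplicit false

noncomputable section

open Set Filter Topology Metric MeasureTheory
open scoped ENNReal Real

namespace Crest.Agent.R276.SatA_210

open Crest.Agent.R276 Crest.Agent.R276.LqG_464 Crest.Agent.R271

variable {m r : ℕ}

/-- the first coordinates -/
def zc (ζ : Fin (m + r) → ℂ) : Fin m → ℂ := fun i => ζ (Fin.castAdd r i)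

/-- the last coordinates -/
def xc (ζ : Fin (m + r) → ℂ) : Fin r → ℂ := fun j => ζ (Fin.natAdd m j)

lemma norm_zc_le (ζ : Fin (m + r) → ℂ) : ‖zc ζ‖ ≤ ‖ζ‖ :=
  (pi_norm_le_iff_of_nonneg (norm_nonneg _)).2 fun _ => norm_le_pi_norm ζ _

lemma norm_xc_le (ζ : Fin (m + r) → ℂ) : ‖xc ζ‖ ≤ ‖ζ‖ :=
  (pi_norm_le_iff_of_nonneg (norm_nonneg _)).2 fun _ => norm_le_pi_norm ζ _

lemma one_add_norm_le_mul (ζ : Fin (m + r) → ℂ) : 1 + ‖ζ‖ ≤ (1 + ‖zc ζ‖) * (1 + ‖xc ζ‖) := by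
  have h : ‖ζ‖ ≤ ‖zc ζ‖ + ‖xc ζ‖ := by
    refine (pi_norm_le_iff_of_nonneg (by positivity)).2 fun i => ?_
    refine Fin.addCases (fun i => ?_) (fun j => ?_) i
    · have h1 : ‖zc ζ i‖ ≤ ‖zc ζ‖ := norm_le_pi_norm (zc ζ) i
      have h2 : ‖ζ (Fin.castAdd r i)‖ = ‖zc ζ i‖ := rfl
      rw [h2]
      linarith [norm_nonneg (xc ζ)]
    · have h1 : ‖xc ζ j‖ ≤ ‖xc ζ‖ := norm_le_pi_norm (xc ζ) j
      have h2 : ‖ζ (Fin.natAdd m j)‖ = ‖xc ζ j‖ := rfl
      rw [h2]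
      linarith [norm_nonneg (zc ζ)]
  nlinarith [norm_nonneg (zc ζ), norm_nonneg (xc ζ)]

lemma zc_add (ζ w : Fin (m + r) → ℂ) : zc (ζ + w) = zc ζ + zc w := rfl

lemma xc_add (ζ w : Fin (m + r) → ℂ) : xc (ζ + w) = xc ζ + xc w := rfl

lemma continuous_zc : Continuous (zc : (Fin (m + r) → ℂ) → Fin m → ℂ) := by
  unfold zc; fun_prop

lemma continuous_xc : Continuous (xc : (Fin (m + r) → ℂ) → Fin r → ℂ) := by
  unfold xc; fun_prop

/-- the weight in the integrals -/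
def wt (p : MvPolynomial (Fin m) ℂ) (a b L : ℕ) (ζ : Fin (m + r) → ℂ) : ℝ :=
  ‖MvPolynomial.eval (zc ζ) p‖ ^ b / ((1 + ‖zc ζ‖) ^ a * (1 + ‖xc ζ‖) ^ L)

lemma wt_nonneg (p : MvPolynomial (Fin m) ℂ) (a b L : ℕ) (ζ : Fin (m + r) → ℂ) :
    0 ≤ wt p a b L ζ := by unfold wt; positivity

/-- **anisotropic growth**, pointwise estimate -/
theorem growth_pt (g : MvPolynomial (Fin (m + r)) ℂ) (L : ℕ) : ∃ K : ℕ,
    ∀ (f : (Fin (m + r) → ℂ) → ℂ),
    DifferentiableOn ℂ f {ζ | MvPolynomial.eval ζ g ≠ 0} → ∀ (q : ℝ), 0 < q →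
    ∀ (p : MvPolynomial (Fin m) ℂ) (a b : ℕ),
    (∫⁻ ζ in {ζ | MvPolynomial.eval ζ g ≠ 0}, ‖f ζ‖ₑ ^ q * ENNReal.ofReal (wt p a b L ζ) < ∞) →
    ∃ (E : ℝ) (a' b' : ℕ), 0 ≤ E ∧ ∀ ζ, MvPolynomial.eval ζ g ≠ 0 →
      MvPolynomial.eval (zc ζ) p ≠ 0 →
      ‖f ζ‖ ^ q * (‖MvPolynomial.eval ζ g‖ ^ (2 * (m + r)) * ‖MvPolynomial.eval (zc ζ) p‖ ^ b') ≤
        E * ((1 + ‖zc ζ‖) ^ a' * (1 + ‖xc ζ‖) ^ K) := by
  obtain ⟨C, D, hC, hg1, hg2⟩ := poly_bound g
  refine ⟨L + 2 * (m + r) * D, ?_⟩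
  intro f hf q hq p a b hint
  obtain ⟨C', D', hC', hp1, hp2⟩ := poly_bound p
  set Ω : Set (Fin (m + r) → ℂ) := {ζ | MvPolynomial.eval ζ g ≠ 0} with hΩ
  have hΩo : IsOpen Ω := isOpen_ne.preimage (MvPolynomial.continuous_eval g)
  set I : ℝ := (∫⁻ ζ in Ω, ‖f ζ‖ₑ ^ q * ENNReal.ofReal (wt p a b L ζ)).toReal with hI
  have hI0 : 0 ≤ I := ENNReal.toReal_nonneg
  refine ⟨I * (2 ^ b * (2 ^ a * 2 ^ L)) * ((4 * C * C') ^ 2) ^ (m + r), a + 2 * (m + r) * D + 2 * (m + r) * D',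
    2 * (m + r) + b, by positivity, ?_⟩
  intro ζ hζ hζp
  have hG0 : 0 < ‖MvPolynomial.eval ζ g‖ := norm_pos_iff.2 hζ
  have hP0 : 0 < ‖MvPolynomial.eval (zc ζ) p‖ := norm_pos_iff.2 hζp
  set G := ‖MvPolynomial.eval ζ g‖ with hG
  set Q := ‖MvPolynomial.eval (zc ζ) p‖ with hQ
  set S := 1 + ‖ζ‖ with hS
  set Z := 1 + ‖zc ζ‖ with hZ
  set X := 1 + ‖xc ζ‖ with hX
  have hS1 : 1 ≤ S := by rw [hS]; linarith [norm_nonneg ζ]
  have hZ1 : 1 ≤ Z := by rw [hZ]; linarith [norm_nonneg (zc ζ)]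
  have hX1 : 1 ≤ X := by rw [hX]; linarith [norm_nonneg (xc ζ)]
  have hS0 : 0 < S := by linarith
  have hZ0 : 0 < Z := by linarith
  have hX0 : 0 < X := by linarith
  have hSZX : S ≤ Z * X := one_add_norm_le_mul ζ
  have hC0 : 0 < C := by linarith
  have hC0' : 0 < C' := by linarith
  have hCD : 0 < C * S ^ D := by positivity
  have hCD' : 0 < C' * Z ^ D' := by positivity
  set t : ℝ := G / (2 * (C * S ^ D)) with ht
  set s : ℝ := Q / (2 * (C' * Z ^ D')) with hs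
  have ht0 : 0 < t := by positivity
  have hs0 : 0 < s := by positivity
  have ht1 : t ≤ 1 / 2 := by
    rw [ht, div_le_div_iff₀ (by positivity) (by norm_num)]
    have := hg1 ζ
    nlinarith
  have hs1 : s ≤ 1 / 2 := by
    rw [hs, div_le_div_iff₀ (by positivity) (by norm_num)]
    have := hp1 (zc ζ)
    nlinarith
  set ρ : ℝ := t * s with hρ
  have hρ0 : 0 < ρ := by positivity
  have hρt : ρ ≤ t := by rw [hρ]; nlinarith
  have hρs : ρ ≤ s := by rw [hρ]; nlinarith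
  have hρ1 : ρ ≤ 1 := by linarith
  have hsub : closedBall ζ ρ ⊆ Ω := by
    intro y hy
    have hw : ‖y - ζ‖ ≤ ρ := by simpa [dist_eq_norm] using hy
    have h1 := hg2 ζ (y - ζ) (hw.trans hρ1)
    rw [add_sub_cancel] at h1
    intro h0
    have h0' : MvPolynomial.eval y g = 0 := h0
    rw [h0', zero_sub, norm_neg] at h1
    have h2 : C * S ^ D * ‖y - ζ‖ ≤ C * S ^ D * t := by
      have := hw.trans hρt
      gcongr
    have h3 : C * S ^ D * t = G / 2 := by rw [ht]; field_simp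
    have h4 : G ≤ C * S ^ D * ‖y - ζ‖ := h1
    linarith
  have hmv := Lq_464.submean hΩo hf hsub hq
  have hle : ∫⁻ y in ball ζ ρ, ‖f y‖ₑ ^ q ≤
      ENNReal.ofReal (2 ^ b * (2 ^ a * 2 ^ L) * (Z ^ a * X ^ L) / Q ^ b) * ENNReal.ofReal I := by
    calc ∫⁻ y in ball ζ ρ, ‖f y‖ₑ ^ q
        ≤ ∫⁻ y in ball ζ ρ, ENNReal.ofReal (2 ^ b * (2 ^ a * 2 ^ L) * (Z ^ a * X ^ L) / Q ^ b) *
            (‖f y‖ₑ ^ q * ENNReal.ofReal (wt p a b L y)) := by
          refine setLIntegral_mono' measurableSet_ball fun y hy => ?_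
          have hw : ‖y - ζ‖ < ρ := by simpa [dist_eq_norm] using hy
          have hyd : y = ζ + (y - ζ) := by abel
          have hz1 : ‖zc y‖ ≤ ‖zc ζ‖ + 1 := by
            rw [hyd, zc_add]
            refine (norm_add_le _ _).trans ?_
            have := norm_zc_le (y - ζ)
            linarith
          have hx1 : ‖xc y‖ ≤ ‖xc ζ‖ + 1 := by
            rw [hyd, xc_add]
            refine (norm_add_le _ _).trans ?_
            have := norm_xc_le (y - ζ)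
            linarith
          have hz2 : 1 + ‖zc y‖ ≤ 2 * Z := by linarith
          have hx2 : 1 + ‖xc y‖ ≤ 2 * X := by linarith
          have hpy : Q / 2 ≤ ‖MvPolynomial.eval (zc y) p‖ := by
            have hzz : ‖zc (y - ζ)‖ ≤ ρ := (norm_zc_le _).trans hw.le
            have h1 := hp2 (zc ζ) (zc (y - ζ)) (hzz.trans hρ1)
            rw [← zc_add, add_sub_cancel] at h1
            have h2 : C' * Z ^ D' * ‖zc (y - ζ)‖ ≤ C' * Z ^ D' * s := by
              have := hzz.trans hρs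
              gcongr
            have h3 : C' * Z ^ D' * s = Q / 2 := by rw [hs]; field_simp
            have h4 : Q ≤ ‖MvPolynomial.eval (zc y) p‖ +
                ‖MvPolynomial.eval (zc y) p - MvPolynomial.eval (zc ζ) p‖ := by
              have h5 := norm_sub_norm_le (MvPolynomial.eval (zc ζ) p) (MvPolynomial.eval (zc y) p)
              rw [norm_sub_rev] at h5
              linarith
            have h6 : ‖MvPolynomial.eval (zc y) p - MvPolynomial.eval (zc ζ) p‖ ≤ Q / 2 := by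
              refine h1.trans ?_
              rw [← h3]
              exact h2
            linarith
          have h3 : (1 : ℝ) ≤ 2 ^ b * (2 ^ a * 2 ^ L) * (Z ^ a * X ^ L) / Q ^ b *
              wt p a b L y := by
            unfold wt
            have e1 : Q ^ b ≤ 2 ^ b * ‖MvPolynomial.eval (zc y) p‖ ^ b := by
              calc Q ^ b = 2 ^ b * (Q / 2) ^ b := by
                    rw [← mul_pow]; congr 1; ring
                _ ≤ 2 ^ b * ‖MvPolynomial.eval (zc y) p‖ ^ b := by gcongr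
            have e2 : (1 + ‖zc y‖) ^ a ≤ 2 ^ a * Z ^ a := by
              rw [← mul_pow]; gcongr
            have e3 : (1 + ‖xc y‖) ^ L ≤ 2 ^ L * X ^ L := by
              rw [← mul_pow]; gcongr
            rw [div_mul_div_comm, one_le_div (by positivity)]
            calc Q ^ b * ((1 + ‖zc y‖) ^ a * (1 + ‖xc y‖) ^ L)
                ≤ (2 ^ b * ‖MvPolynomial.eval (zc y) p‖ ^ b) *
                    ((2 ^ a * Z ^ a) * (2 ^ L * X ^ L)) := by gcongr
              _ = _ := by ring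
          calc ‖f y‖ₑ ^ q = 1 * ‖f y‖ₑ ^ q := by rw [one_mul]
            _ ≤ ENNReal.ofReal (2 ^ b * (2 ^ a * 2 ^ L) * (Z ^ a * X ^ L) / Q ^ b *
                wt p a b L y) * ‖f y‖ₑ ^ q := by
              gcongr
              rw [← ENNReal.ofReal_one]
              exact ENNReal.ofReal_le_ofReal h3
            _ = _ := by
              rw [ENNReal.ofReal_mul (by positivity)]; ring
      _ = ENNReal.ofReal (2 ^ b * (2 ^ a * 2 ^ L) * (Z ^ a * X ^ L) / Q ^ b) *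
            ∫⁻ y in ball ζ ρ, ‖f y‖ₑ ^ q * ENNReal.ofReal (wt p a b L y) :=
          lintegral_const_mul' _ _ ENNReal.ofReal_ne_top
      _ ≤ ENNReal.ofReal (2 ^ b * (2 ^ a * 2 ^ L) * (Z ^ a * X ^ L) / Q ^ b) * ∫⁻ y in Ω,
            ‖f y‖ₑ ^ q * ENNReal.ofReal (wt p a b L y) := by
          gcongr
          exact ball_subset_closedBall.trans hsub
      _ = _ := by rw [hI, ENNReal.ofReal_toReal hint.ne]
  have h5 := hmv.trans hle
  rw [vol_ball ζ hρ0, ← ENNReal.ofReal_mul (by positivity)] at h5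
  have h6 : ‖f ζ‖ₑ ^ q = ENNReal.ofReal (‖f ζ‖ ^ q) := by
    rw [← ENNReal.ofReal_rpow_of_nonneg (norm_nonneg _) hq.le, ofReal_norm]
  rw [h6, ← ENNReal.ofReal_mul (by positivity), ENNReal.ofReal_le_ofReal_iff (by positivity)] at h5
  have h7 : (ρ ^ 2) ^ (m + r) * ‖f ζ‖ ^ q ≤
      2 ^ b * (2 ^ a * 2 ^ L) * (Z ^ a * X ^ L) / Q ^ b * I := by
    refine le_trans ?_ h5
    gcongr
    have : (1 : ℝ) ≤ π := by linarith [Real.pi_gt_three]
    nlinarith [sq_nonneg ρ]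
  have e1 : (ρ ^ 2) ^ (m + r) * (((4 * C * C') ^ 2) ^ (m + r) * ((S ^ D * Z ^ D') ^ 2) ^ (m + r)) =
      (G ^ (2 * (m + r))) * Q ^ (2 * (m + r)) := by
    have e0 : ρ * (4 * C * C' * (S ^ D * Z ^ D')) = G * Q := by
      rw [hρ, ht, hs]
      field_simp
      ring
    rw [← mul_pow, ← mul_pow, ← mul_pow, ← mul_pow, e0, ← pow_mul, mul_pow]
  have e2 : ((S ^ D * Z ^ D') ^ 2) ^ (m + r) ≤ Z ^ (2 * (m + r) * D + 2 * (m + r) * D') * X ^ (2 * (m + r) * D) := by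
    calc ((S ^ D * Z ^ D') ^ 2) ^ (m + r) ≤ (((Z * X) ^ D * Z ^ D') ^ 2) ^ (m + r) := by gcongr
      _ = Z ^ (2 * (m + r) * D + 2 * (m + r) * D') * X ^ (2 * (m + r) * D) := by
        rw [← pow_mul, mul_pow, ← pow_mul, ← pow_mul, mul_pow, pow_add,
          show 2 * (m + r) * D = D * (2 * (m + r)) by ring,
          show 2 * (m + r) * D' = D' * (2 * (m + r)) by ring]
        ring
  calc ‖f ζ‖ ^ q * (G ^ (2 * (m + r)) * Q ^ (2 * (m + r) + b))
      = (‖f ζ‖ ^ q * (ρ ^ 2) ^ (m + r)) * Q ^ b *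
          (((4 * C * C') ^ 2) ^ (m + r) * ((S ^ D * Z ^ D') ^ 2) ^ (m + r)) := by
        rw [pow_add, show ‖f ζ‖ ^ q * (G ^ (2 * (m + r)) * (Q ^ (2 * (m + r)) * Q ^ b)) =
          ‖f ζ‖ ^ q * (G ^ (2 * (m + r)) * Q ^ (2 * (m + r))) * Q ^ b by ring, ← e1]
        ring
    _ ≤ (2 ^ b * (2 ^ a * 2 ^ L) * (Z ^ a * X ^ L) / Q ^ b * I) * Q ^ b *
          (((4 * C * C') ^ 2) ^ (m + r) * (Z ^ (2 * (m + r) * D + 2 * (m + r) * D') * X ^ (2 * (m + r) * D))) := by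
        refine mul_le_mul (mul_le_mul_of_nonneg_right ?_ (by positivity)) ?_ (by positivity)
          (by positivity)
        · rw [mul_comm]
          exact h7
        · exact mul_le_mul_of_nonneg_left e2 (by positivity)
    _ = I * (2 ^ b * (2 ^ a * 2 ^ L)) * ((4 * C * C') ^ 2) ^ (m + r) *
          (Z ^ (a + 2 * (m + r) * D + 2 * (m + r) * D') * X ^ (L + 2 * (m + r) * D)) := by
        have hQb : Q ^ b ≠ 0 := by positivity
        rw [pow_add X L, pow_add Z (a + 2 * (m + r) * D), pow_add Z a, pow_add Z (2 * (m + r) * D)]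
        field_simp

/-! ### polynomials in `(z, x)` as polynomials in `x` over `ℂ[z]` -/

/-- `ℂ[z,x] = ℂ[z][x]` -/
def split : MvPolynomial (Fin (m + r)) ℂ ≃ₐ[ℂ] MvPolynomial (Fin r) (MvPolynomial (Fin m) ℂ) :=
  (MvPolynomial.renameEquiv ℂ (finSumFinEquiv.symm.trans (Equiv.sumComm (Fin m) (Fin r)))).trans
    (MvPolynomial.sumAlgEquiv ℂ (Fin r) (Fin m))

lemma split_X_z (i : Fin m) : split (MvPolynomial.X (Fin.castAdd r i) : MvPolynomial (Fin (m + r)) ℂ) =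
    MvPolynomial.C (MvPolynomial.X i) := by
  simp [split]

lemma split_X_x (j : Fin r) : split (MvPolynomial.X (Fin.natAdd m j) : MvPolynomial (Fin (m + r)) ℂ) =
    MvPolynomial.X j := by
  simp [split]

/-- evaluation of `split P` in any commutative algebra -/
lemma eval₂_split {A : Type*} [CommRing A] [Algebra ℂ A] (u : Fin (m + r) → A)
    (P : MvPolynomial (Fin (m + r)) ℂ) :
    MvPolynomial.eval₂ ((MvPolynomial.aeval fun i : Fin m => u (Fin.castAdd r i) :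
      MvPolynomial (Fin m) ℂ →ₐ[ℂ] A) : MvPolynomial (Fin m) ℂ →+* A)
      (fun j => u (Fin.natAdd m j)) (split P) = MvPolynomial.aeval u P := by
  induction P using MvPolynomial.induction_on with
  | C a =>
    have h : split (MvPolynomial.C a : MvPolynomial (Fin (m + r)) ℂ) =
        MvPolynomial.C (MvPolynomial.C a) := by
      have := (split (m := m) (r := r)).commutes a
      rw [MvPolynomial.algebraMap_eq] at this
      rw [this]
      rfl
    rw [h]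
    simp
  | add p q hp hq => rw [map_add, MvPolynomial.eval₂_add, hp, hq, map_add]
  | mul_X p i hp =>
    rw [map_mul, MvPolynomial.eval₂_mul, hp, map_mul]
    congr 1
    refine Fin.addCases (fun i => ?_) (fun j => ?_) i
    · rw [split_X_z]; simp
    · rw [split_X_x]; simp

lemma eval_split (ζ : Fin (m + r) → ℂ) (P : MvPolynomial (Fin (m + r)) ℂ) :
    MvPolynomial.eval (xc ζ) (MvPolynomial.map (MvPolynomial.eval (zc ζ)) (split P)) =
      MvPolynomial.eval ζ P := by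
  have h := eval₂_split ζ P
  rw [MvPolynomial.eval_map]
  rw [MvPolynomial.coe_aeval_eq_eval] at h
  exact h

lemma zc_append (z : Fin m → ℂ) (x : Fin r → ℂ) : zc (Fin.append z x) = z := by
  funext i; simp [zc]

lemma xc_append (z : Fin m → ℂ) (x : Fin r → ℂ) : xc (Fin.append z x) = x := by
  funext i; simp [xc]

/-- growth bounds the degree in `x` -/
theorem totalDegree_split_le {P : MvPolynomial (Fin (m + r)) ℂ} {C : ℝ} {A K : ℕ}
    (h : ∀ ζ, ‖MvPolynomial.eval ζ P‖ ≤ C * ((1 + ‖zc ζ‖) ^ A * (1 + ‖xc ζ‖) ^ K)) :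
    (split P).totalDegree ≤ K := by
  rw [MvPolynomial.totalDegree]
  refine Finset.sup_le fun β hβ => ?_
  have hc : (split P).coeff β ≠ 0 := MvPolynomial.mem_support_iff.1 hβ
  obtain ⟨z0, hz0⟩ : ∃ z0, MvPolynomial.eval z0 ((split P).coeff β) ≠ 0 := by
    by_contra hcon
    push Not at hcon
    exact hc (MvPolynomial.funext fun z => by rw [hcon z, map_zero])
  set P0 := MvPolynomial.map (MvPolynomial.eval z0) (split P) with hP0
  have hev : ∀ x : Fin r → ℂ, MvPolynomial.eval x P0 = MvPolynomial.eval (Fin.append z0 x) P := by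
    intro x
    have := eval_split (Fin.append z0 x) P
    rw [zc_append, xc_append] at this
    exact this
  have hC : Differentiable ℂ fun x : Fin r → ℂ => MvPolynomial.eval x P0 := fun x =>
    (RExt747.analyticAt_eval P0 x).differentiableAt
  obtain ⟨p', hp', hpe⟩ := RExt747.poly_of_growth (C := C * (1 + ‖z0‖) ^ A) (N := K) hC (by
    intro x
    rw [hev]
    refine (h _).trans (le_of_eq ?_)
    rw [zc_append, xc_append]
    ring)
  have hPp : P0 = p' := MvPolynomial.funext hpe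
  have hcoef : P0.coeff β ≠ 0 := by
    rw [hP0, MvPolynomial.coeff_map]
    exact hz0
  rw [hPp] at hcoef
  exact (MvPolynomial.le_totalDegree (MvPolynomial.mem_support_iff.2 hcoef)).trans hp'

/-- a polynomial in the first coordinates, as a polynomial in all coordinates -/
lemma eval_rename_castAdd (p : MvPolynomial (Fin m) ℂ) (ζ : Fin (m + r) → ℂ) :
    MvPolynomial.eval ζ (MvPolynomial.rename (Fin.castAdd r) p) = MvPolynomial.eval (zc ζ) p := by
  rw [MvPolynomial.eval_rename]; rfl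

/-- **`L^{2/N}` functions are polynomials after multiplication by `g^{K₁} p^e`**, the degree in `x` being
bounded independently of `f`, `p`, `a`, `b`. -/
theorem poly_of_lq {g : MvPolynomial (Fin (m + r)) ℂ} (hg : g ≠ 0) (L : ℕ) {N : ℕ} (hN : 0 < N) :
    ∃ K1 K2 : ℕ, ∀ (f : (Fin (m + r) → ℂ) → ℂ),
    DifferentiableOn ℂ f {ζ | MvPolynomial.eval ζ g ≠ 0} →
    ∀ (p : MvPolynomial (Fin m) ℂ) (a b : ℕ), p ≠ 0 →
    (∫⁻ ζ in {ζ | MvPolynomial.eval ζ g ≠ 0},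
      ‖f ζ‖ₑ ^ (2 / N : ℝ) * ENNReal.ofReal (wt p a b L ζ) < ∞) →
    ∃ (e : ℕ) (P : MvPolynomial (Fin (m + r)) ℂ), (split P).totalDegree ≤ K2 ∧
      ∀ ζ, MvPolynomial.eval ζ g ≠ 0 →
        MvPolynomial.eval ζ P = f ζ * MvPolynomial.eval ζ g ^ K1 * MvPolynomial.eval (zc ζ) p ^ e := by
  obtain ⟨K, hK⟩ := growth_pt g L
  refine ⟨(m + r) * N, K * N, ?_⟩
  intro f hf p a b hp hint
  have hN' : (0 : ℝ) < N := by exact_mod_cast hN
  obtain ⟨E, a', b', hE, hE2⟩ := hK f hf (2 / N) (by positivity) p a b hint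
  obtain ⟨C', D', hC', hp1, -⟩ := poly_bound p
  set Ω : Set (Fin (m + r) → ℂ) := {ζ | MvPolynomial.eval ζ g ≠ 0} with hΩ
  have hΩo : IsOpen Ω := isOpen_ne.preimage (MvPolynomial.continuous_eval g)
  set e : ℕ := b' * N + 1 with he
  set e2 : ℕ := b' * N + 2 with he2
  set F : (Fin (m + r) → ℂ) → ℂ := fun ζ =>
    f ζ * MvPolynomial.eval ζ g ^ ((m + r) * N) * MvPolynomial.eval (zc ζ) p ^ e with hF
  have hzd : Differentiable ℂ (zc : (Fin (m + r) → ℂ) → Fin m → ℂ) := by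
    unfold zc; fun_prop
  have hpd : Differentiable ℂ fun ζ : Fin (m + r) → ℂ => MvPolynomial.eval (zc ζ) p := fun ζ =>
    (RExt747.analyticAt_eval p (zc ζ)).differentiableAt.comp ζ (hzd ζ)
  have hgd : Differentiable ℂ fun ζ : Fin (m + r) → ℂ => MvPolynomial.eval ζ g := fun ζ =>
    (RExt747.analyticAt_eval g ζ).differentiableAt
  have hFd : DifferentiableOn ℂ F Ω :=
    (hf.mul (hgd.pow _).differentiableOn).mul (hpd.pow _).differentiableOn
  have hC0 : 0 < C' := by linarith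
  set E' : ℝ := E ^ N * C' ^ e2 with hE'
  have hE'0 : 0 ≤ E' := by positivity
  set A' : ℕ := a' * N + D' * e2 with hA'
  -- the bound for `‖F‖ ^ 2`
  have hFb : ∀ ζ ∈ Ω, ‖F ζ‖ ^ 2 ≤ E' * ((1 + ‖zc ζ‖) ^ A' * (1 + ‖xc ζ‖) ^ (K * N)) := by
    intro ζ hζ
    by_cases hz : MvPolynomial.eval (zc ζ) p = 0
    · have : F ζ = 0 := by simp [hF, hz, he]
      rw [this, norm_zero, zero_pow two_ne_zero]
      positivity
    · have h1 := hE2 ζ hζ hz
      set G := ‖MvPolynomial.eval ζ g‖ with hG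
      set Q := ‖MvPolynomial.eval (zc ζ) p‖ with hQ
      set Z := 1 + ‖zc ζ‖ with hZ
      set X := 1 + ‖xc ζ‖ with hX
      have hZ0 : 0 < Z := by rw [hZ]; positivity
      have hX0 : 0 < X := by rw [hX]; positivity
      have h2 : (‖f ζ‖ ^ (2 / N : ℝ)) ^ N = ‖f ζ‖ ^ 2 := by
        rw [← Real.rpow_natCast, ← Real.rpow_mul (norm_nonneg _), div_mul_cancel₀ _ hN'.ne']
        norm_num
      have h3 : ‖f ζ‖ ^ 2 * (G ^ (2 * (m + r)) * Q ^ b') ^ N ≤ E ^ N * (Z ^ a' * X ^ K) ^ N := by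
        rw [← h2, ← mul_pow, ← mul_pow]
        exact pow_le_pow_left₀ (by positivity) h1 N
      have h4 : Q ^ e2 ≤ C' ^ e2 * Z ^ (D' * e2) := by
        calc Q ^ e2 ≤ (C' * Z ^ D') ^ e2 := by gcongr; exact hp1 (zc ζ)
          _ = _ := by rw [mul_pow, ← pow_mul]
      calc ‖F ζ‖ ^ 2 = (‖f ζ‖ ^ 2 * (G ^ (2 * (m + r)) * Q ^ b') ^ N) * Q ^ e2 := by
            simp only [hF, norm_mul, norm_pow, he, he2]
            ring
        _ ≤ (E ^ N * (Z ^ a' * X ^ K) ^ N) * (C' ^ e2 * Z ^ (D' * e2)) := by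
            gcongr
        _ = _ := by
            rw [hE', hA', mul_pow, ← pow_mul, ← pow_mul, pow_add]; ring
  -- extension
  obtain ⟨W, hW, hWF⟩ := RExt747.riemann_ext_poly (f := F) hg hFd (by
    intro c
    refine ⟨ball c 1, ball_mem_nhds c one_pos, ?_⟩
    have hm : MeasurableSet (ball c 1 ∩ {ζ | MvPolynomial.eval ζ g ≠ 0}) :=
      isOpen_ball.measurableSet.inter hΩo.measurableSet
    calc ∫⁻ ζ in ball c 1 ∩ {ζ | MvPolynomial.eval ζ g ≠ 0}, ‖F ζ‖ₑ ^ 2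
        ≤ ∫⁻ _ in ball c 1 ∩ {ζ | MvPolynomial.eval ζ g ≠ 0},
          ENNReal.ofReal (E' * ((2 + ‖c‖) ^ A' * (2 + ‖c‖) ^ (K * N))) := by
          refine setLIntegral_mono' hm ?_
          rintro ζ ⟨hζ1, hζ2⟩
          have h1 := hFb ζ hζ2
          have h2 : ‖ζ‖ ≤ 1 + ‖c‖ := by
            have h3 : ‖ζ - c‖ < 1 := by simpa [dist_eq_norm] using hζ1
            have h4 : ‖ζ‖ ≤ ‖ζ - c‖ + ‖c‖ := by
              have : ζ = (ζ - c) + c := by abel
              conv_lhs => rw [this]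
              exact norm_add_le _ _
            linarith
          have h5 : 1 + ‖zc ζ‖ ≤ 2 + ‖c‖ := by linarith [norm_zc_le ζ]
          have h6 : 1 + ‖xc ζ‖ ≤ 2 + ‖c‖ := by linarith [norm_xc_le ζ]
          rw [← ofReal_norm, ← ENNReal.ofReal_pow (norm_nonneg _)]
          apply ENNReal.ofReal_le_ofReal
          refine h1.trans ?_
          gcongr
      _ = ENNReal.ofReal (E' * ((2 + ‖c‖) ^ A' * (2 + ‖c‖) ^ (K * N))) *
          volume (ball c 1 ∩ {ζ | MvPolynomial.eval ζ g ≠ 0}) := setLIntegral_const _ _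
      _ < ∞ := ENNReal.mul_lt_top ENNReal.ofReal_lt_top
          (lt_of_le_of_lt (measure_mono inter_subset_left) measure_ball_lt_top))
  -- the bound for the extension
  have hΩd : Dense Ω := by
    intro ζ
    rw [mem_closure_iff_nhds]
    intro U hU
    by_contra hcon
    rw [not_nonempty_iff_eq_empty] at hcon
    refine RExt747.poly_not_eventually_zero hg ζ ?_
    filter_upwards [hU] with y hy
    by_contra hne
    have : y ∈ U ∩ Ω := ⟨hy, hne⟩
    rw [hcon] at this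
    exact this
  have hWb : ∀ ζ, ‖W ζ‖ ^ 2 ≤ E' * ((1 + ‖zc ζ‖) ^ A' * (1 + ‖xc ζ‖) ^ (K * N)) := by
    have hcl : IsClosed {ζ | ‖W ζ‖ ^ 2 ≤ E' * ((1 + ‖zc ζ‖) ^ A' * (1 + ‖xc ζ‖) ^ (K * N))} := by
      refine isClosed_le ((hW.continuous.norm).pow 2) ?_
      exact continuous_const.mul (((continuous_const.add continuous_zc.norm).pow _).mul
        ((continuous_const.add continuous_xc.norm).pow _))
    have hsub : Ω ⊆ {ζ | ‖W ζ‖ ^ 2 ≤ E' * ((1 + ‖zc ζ‖) ^ A' * (1 + ‖xc ζ‖) ^ (K * N))} := by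
      intro ζ hζ
      rw [mem_ofPred_eq, hWF ζ hζ]
      exact hFb ζ hζ
    intro ζ
    exact (hcl.closure_subset_iff.2 hsub) (hΩd ζ)
  have hsq : ∀ (x y : ℝ), 0 ≤ x → 0 ≤ y → x ^ 2 ≤ y → x ≤ 1 + y := by
    intro x y hx hy h
    nlinarith [sq_nonneg (x - 1)]
  have hWb2 : ∀ ζ, ‖W ζ‖ ≤ (1 + E') * ((1 + ‖zc ζ‖) ^ A' * (1 + ‖xc ζ‖) ^ (K * N)) := by
    intro ζ
    have hZ1 : 1 ≤ 1 + ‖zc ζ‖ := by linarith [norm_nonneg (zc ζ)]
    have hX1 : 1 ≤ 1 + ‖xc ζ‖ := by linarith [norm_nonneg (xc ζ)]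
    have h1 := hsq _ _ (norm_nonneg (W ζ)) (by positivity) (hWb ζ)
    have h2 : 1 ≤ (1 + ‖zc ζ‖) ^ A' * (1 + ‖xc ζ‖) ^ (K * N) := by
      have := one_le_pow₀ hZ1 (n := A')
      have h3 := one_le_pow₀ hX1 (n := K * N)
      nlinarith
    nlinarith
  obtain ⟨P, -, hP⟩ := RExt747.poly_of_growth (g := W) hW (C := 1 + E') (N := A' + K * N) (by
    intro ζ
    refine (hWb2 ζ).trans ?_
    rw [pow_add (1 + ‖ζ‖) A' (K * N)]
    have h1 := norm_zc_le ζ
    have h2 := norm_xc_le ζ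
    gcongr)
  refine ⟨e, P, ?_, fun ζ hζ => ?_⟩
  · refine totalDegree_split_le (C := 1 + E') (A := A') fun ζ => ?_
    rw [← hP]
    exact hWb2 ζ
  · rw [← hP, hWF ζ hζ]

end Crest.Agent.R276.SatA_210
end
end

-- ▼ part R276/SatB_210
section

/-!
# Row 276 (S0419), SAT (helper210), part B: the spaces `V_N`

`R : RMdl L K m r` a relative model.
* `InW R N G` : `∫_{MK} |G|^{2/N} |p(z)| (1+|z|)^{-a} < ∞` for some `p ≠ 0` in `ℂ[z]` and some `a`;
* `VN R N : Submodule L K` : the `v` such that `c v = b ∈ B_K`, `InW b`, for some `c ≠ 0` in `B_L`;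
* `VN_mul` : `V_N V_N' ⊆ V_{N+N'}`;
* `VN_finite` : `V_N` is finite dimensional over `L`.
-/

set_option autoImplicit false

noncomputable section

open Set Filter Topology Metric MeasureTheory
open scoped ENNReal Real

namespace Crest.Agent.R276.SatB_210

open Crest.Agent.R271 Crest.Agent.R271.Defs710 Crest.Agent.R271.Alg255 Crest.Agent.R271.Rd692
open Crest.Agent.R271.AlgB956 Crest.Agent.R271.Ho51
open Crest.Agent.R276 Crest.Agent.R276.AB2_590 Crest.Agent.R276.Mod1_987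
open Crest.Agent.R276.SatA_210 Crest.Agent.R276.LqG_464

variable {L K : Type} [Field L] [Field K] [Algebra ℂ L] [Algebra ℂ K] [Algebra L K]
  [IsScalarTower ℂ L K] {m r : ℕ} (R : RMdl L K m r)

/-- weights on the base -/
def wL (p : MvPolynomial (Fin m) ℂ) (a : ℕ) (w : R.ML.Pts) : ℝ :=
  ‖MvPolynomial.eval (R.ML.pz w) p‖ / (1 + ‖R.ML.pz w‖) ^ a

lemma wL_nonneg (p : MvPolynomial (Fin m) ℂ) (a : ℕ) (w : R.ML.Pts) : 0 ≤ wL R p a w := by
  unfold wL; positivity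

lemma continuous_wL (p : MvPolynomial (Fin m) ℂ) (a : ℕ) : Continuous (wL R p a) := by
  unfold wL
  have h1 : Continuous R.ML.pz := continuous_pr R.ML.z
  refine Continuous.div ?_ ?_ fun w => by positivity
  · exact ((MvPolynomial.continuous_eval p).comp h1).norm
  · exact (continuous_const.add h1.norm).pow a

lemma pz_q' (y : R.MK.Pts) : R.ML.pz (R.q y) = zc (R.MK.pz y) := funext fun i => R.pz_q y i

/-- domination of weights -/
lemma wL_dom (p1 p2 : MvPolynomial (Fin m) ℂ) (a1 : ℕ) : ∃ (D : ℕ), ∀ a, a1 + D ≤ a →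
    ∃ C : ℝ, 0 ≤ C ∧ ∀ w, wL R (p1 * p2) a w ≤ C * wL R p1 a1 w := by
  obtain ⟨C, D, hC, h1, -⟩ := poly_bound p2
  refine ⟨D, fun a ha => ⟨C, by linarith, fun w => ?_⟩⟩
  unfold wL
  set Z := 1 + ‖R.ML.pz w‖ with hZ
  have hZ1 : 1 ≤ Z := by rw [hZ]; linarith [norm_nonneg (R.ML.pz w)]
  have hZ0 : 0 < Z := by linarith
  rw [map_mul, norm_mul, ← mul_div_assoc, div_le_div_iff₀ (by positivity) (by positivity)]
  have h2 := h1 (R.ML.pz w)
  calc ‖MvPolynomial.eval (R.ML.pz w) p1‖ * ‖MvPolynomial.eval (R.ML.pz w) p2‖ * Z ^ a1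
      ≤ ‖MvPolynomial.eval (R.ML.pz w) p1‖ * (C * Z ^ D) * Z ^ a1 := by gcongr
    _ = C * ‖MvPolynomial.eval (R.ML.pz w) p1‖ * Z ^ (a1 + D) := by rw [pow_add]; ring
    _ ≤ C * ‖MvPolynomial.eval (R.ML.pz w) p1‖ * Z ^ a := by
      gcongr

/-- weighted `L^{2/N}` functions -/
def InW (N : ℕ) (G : R.MK.Pts → ℂ) : Prop := ∃ (p : MvPolynomial (Fin m) ℂ) (a : ℕ), p ≠ 0 ∧
  lintM R.MK.z (fun y => ENNReal.ofReal (‖G y‖ ^ (2 / N : ℝ) * wL R p a (R.q y))) < ∞

/-- general form: weighted integrable functions -/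
def InL (F : R.MK.Pts → ℝ) : Prop := ∃ (p : MvPolynomial (Fin m) ℂ) (a : ℕ), p ≠ 0 ∧
  lintM R.MK.z (fun y => ENNReal.ofReal (F y * wL R p a (R.q y))) < ∞

variable {R}

lemma lintM_const_mul {n : ℕ} {B : Type} [CommRing B] [Algebra ℂ B] (z : Fin n → B) (k : ℝ≥0∞)
    (hk : k ≠ ∞) (g : (B →ₐ[ℂ] ℂ) → ℝ≥0∞) : lintM z (fun y => k * g y) = k * lintM z g := by
  unfold lintM
  rw [← lintegral_const_mul' _ _ hk]
  exact lintegral_congr fun ζ => ENNReal.tsum_mul_left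

lemma lintM_add' (M : Mdl K (m + r)) {f g : M.Pts → ℝ≥0∞} (hf : Measurable f) (hg : Measurable g) :
    lintM M.z (fun y => f y + g y) = lintM M.z f + lintM M.z g := by
  obtain ⟨μ, hμ⟩ := M.exists_leb
  rw [M.lintM_eq hμ hf, M.lintM_eq hμ hg]
  have h := M.lintM_eq hμ (g := fun y => f y + g y) (hf.add hg)
  rw [h]
  exact lintegral_add_left hf _

lemma InL.mono {F F' : R.MK.Pts → ℝ} (h : InL R F) {C : ℝ} (hC0 : 0 ≤ C)
    (hC : ∀ y, F' y ≤ C * F y) : InL R F' := by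
  obtain ⟨p, a, hp, hi⟩ := h
  refine ⟨p, a, hp, lt_of_le_of_lt (lintM_mono _ (g := fun y => ENNReal.ofReal C *
    ENNReal.ofReal (F y * wL R p a (R.q y))) fun y => ?_) ?_⟩
  · rw [← ENNReal.ofReal_mul hC0]
    apply ENNReal.ofReal_le_ofReal
    rw [← mul_assoc]
    exact mul_le_mul_of_nonneg_right (hC y) (wL_nonneg R p a _)
  · rw [lintM_const_mul _ _ ENNReal.ofReal_ne_top]
    exact ENNReal.mul_lt_top ENNReal.ofReal_lt_top hi

/-- multiplication by functions of polynomial growth on the base -/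
lemma InL.mul_growth {F F' : R.MK.Pts → ℝ} (h : InL R F)
    {p2 : MvPolynomial (Fin m) ℂ} (hp2 : p2 ≠ 0) {C : ℝ} {k : ℕ} (hC0 : 0 ≤ C)
    (hC : ∀ y, F' y * ‖MvPolynomial.eval (R.ML.pz (R.q y)) p2‖ ≤
      C * (1 + ‖R.ML.pz (R.q y)‖) ^ k * F y) : InL R F' := by
  obtain ⟨p, a, hp, hi⟩ := h
  refine ⟨p * p2, a + k, mul_ne_zero hp hp2, lt_of_le_of_lt (lintM_mono _ (g := fun y =>
    ENNReal.ofReal C * ENNReal.ofReal (F y * wL R p a (R.q y))) fun y => ?_) ?_⟩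
  · rw [← ENNReal.ofReal_mul hC0]
    apply ENNReal.ofReal_le_ofReal
    unfold wL
    set Z := 1 + ‖R.ML.pz (R.q y)‖ with hZ
    have hZ0 : 0 < Z := by rw [hZ]; positivity
    rw [map_mul, norm_mul, mul_div_assoc', mul_div_assoc', mul_div_assoc',
      div_le_div_iff₀ (by positivity) (by positivity)]
    calc F' y * (‖MvPolynomial.eval (R.ML.pz (R.q y)) p‖ *
          ‖MvPolynomial.eval (R.ML.pz (R.q y)) p2‖) * Z ^ a
        = (F' y * ‖MvPolynomial.eval (R.ML.pz (R.q y)) p2‖) *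
          (‖MvPolynomial.eval (R.ML.pz (R.q y)) p‖ * Z ^ a) := by ring
      _ ≤ (C * Z ^ k * F y) * (‖MvPolynomial.eval (R.ML.pz (R.q y)) p‖ * Z ^ a) :=
        mul_le_mul_of_nonneg_right (hC y) (by positivity)
      _ = C * (F y * ‖MvPolynomial.eval (R.ML.pz (R.q y)) p‖) * Z ^ (a + k) := by
        rw [pow_add]; ring
  · rw [lintM_const_mul _ _ ENNReal.ofReal_ne_top]
    exact ENNReal.mul_lt_top ENNReal.ofReal_lt_top hi

/-- sums -/
lemma InL.add {F F' : R.MK.Pts → ℝ} (h : InL R F) (h' : InL R F') (h0 : ∀ y, 0 ≤ F y)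
    (h0' : ∀ y, 0 ≤ F' y) (hm : Measurable F) (hm' : Measurable F') :
    InL R fun y => F y + F' y := by
  obtain ⟨p, a, hp, hi⟩ := h
  obtain ⟨p', a', hp', hi'⟩ := h'
  obtain ⟨D, hD⟩ := wL_dom R p p' a
  obtain ⟨D', hD'⟩ := wL_dom R p' p a'
  obtain ⟨C, hC0, hC⟩ := hD (a + D + (a' + D')) (by omega)
  obtain ⟨C', hC0', hC'⟩ := hD' (a + D + (a' + D')) (by omega)
  refine ⟨p * p', a + D + (a' + D'), mul_ne_zero hp hp', ?_⟩
  have hq : Measurable R.q := R.continuous_q.measurable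
  have hw : ∀ p a, Measurable fun y => wL R p a (R.q y) := fun p a =>
    (continuous_wL R p a).measurable.comp hq
  refine lt_of_le_of_lt (lintM_mono _ (g := fun y =>
    (ENNReal.ofReal C * ENNReal.ofReal (F y * wL R p a (R.q y))) +
    (ENNReal.ofReal C' * ENNReal.ofReal (F' y * wL R p' a' (R.q y)))) fun y => ?_) ?_
  · rw [← ENNReal.ofReal_mul hC0, ← ENNReal.ofReal_mul hC0', ← ENNReal.ofReal_add
      (mul_nonneg hC0 (mul_nonneg (h0 y) (wL_nonneg _ _ _ _)))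
      (mul_nonneg hC0' (mul_nonneg (h0' y) (wL_nonneg _ _ _ _)))]
    apply ENNReal.ofReal_le_ofReal
    rw [add_mul]
    apply add_le_add
    · have := mul_le_mul_of_nonneg_left (hC (R.q y)) (h0 y)
      linarith
    · have := mul_le_mul_of_nonneg_left (hC' (R.q y)) (h0' y)
      rw [mul_comm p' p] at this
      linarith
  · have e1 : Measurable fun y => ENNReal.ofReal C * ENNReal.ofReal (F y * wL R p a (R.q y)) :=
      (hm.mul (hw p a)).ennreal_ofReal.const_mul _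
    have e2 : Measurable fun y => ENNReal.ofReal C' * ENNReal.ofReal (F' y * wL R p' a' (R.q y)) :=
      (hm'.mul (hw p' a')).ennreal_ofReal.const_mul _
    rw [lintM_add' R.MK e1 e2, lintM_const_mul _ _ ENNReal.ofReal_ne_top,
      lintM_const_mul _ _ ENNReal.ofReal_ne_top]
    exact ENNReal.add_lt_top.2 ⟨ENNReal.mul_lt_top ENNReal.ofReal_lt_top hi,
      ENNReal.mul_lt_top ENNReal.ofReal_lt_top hi'⟩

lemma inW_iff {N : ℕ} {G : R.MK.Pts → ℂ} : InW R N G ↔ InL R fun y => ‖G y‖ ^ (2 / N : ℝ) :=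
  Iff.rfl

/-- growth of the elements of `B_L`: `‖c‖^s ‖h_L‖^{2l} ≤ C (1+|z|)^k` for `0 ≤ s ≤ 2` -/
lemma growth_L (c : R.ML.B) : ∃ (C : ℝ) (k : ℕ) (p : MvPolynomial (Fin m) ℂ), 0 ≤ C ∧ p ≠ 0 ∧
    ∀ (s : ℝ), 0 ≤ s → s ≤ 2 → ∀ w : R.ML.Pts,
      ‖w c‖ ^ s * ‖MvPolynomial.eval (R.ML.pz w) p‖ ≤ C * (1 + ‖R.ML.pz w‖) ^ k := by
  obtain ⟨C, k, l, hC, h⟩ := R.ML.growth c
  obtain ⟨C1, D1, hC1, h1, -⟩ := poly_bound (R.ML.h ^ (2 * l))
  refine ⟨C1 + C ^ 2 * (m + 1 : ℝ) ^ (2 * k), D1 + 4 * k, R.ML.h ^ (2 * l), by positivity,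
    pow_ne_zero _ R.ML.h_ne, fun s hs0 hs2 w => ?_⟩
  set Z := 1 + ‖R.ML.pz w‖ with hZ
  have hZ1 : 1 ≤ Z := by rw [hZ]; linarith [norm_nonneg (R.ML.pz w)]
  have hZ0 : 0 < Z := by linarith
  have h2 : ‖w c‖ ^ s ≤ 1 + ‖w c‖ ^ 2 := by
    rcases le_total ‖w c‖ 1 with h | h
    · have := Real.rpow_le_one (norm_nonneg _) h hs0
      nlinarith [sq_nonneg ‖w c‖]
    · have := Real.rpow_le_rpow_of_exponent_le h hs2
      rw [Real.rpow_ofNat] at this
      linarith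
  have h3 := h1 (R.ML.pz w)
  have h4 := h w
  have h5 : (1 + ∑ i, ‖w (R.ML.z i)‖ ^ 2) ≤ (m + 1 : ℝ) * Z ^ 2 :=
    AlgC956.one_add_sum_le (R.ML.pz w)
  have h6 : ‖w c‖ ^ 2 * ‖MvPolynomial.eval (R.ML.pz w) (R.ML.h ^ (2 * l))‖ ≤
      C ^ 2 * (m + 1 : ℝ) ^ (2 * k) * Z ^ (4 * k) := by
    calc ‖w c‖ ^ 2 * ‖MvPolynomial.eval (R.ML.pz w) (R.ML.h ^ (2 * l))‖
        = (‖MvPolynomial.eval (R.ML.pz w) R.ML.h‖ ^ l * ‖w c‖) ^ 2 := by
          rw [map_pow, norm_pow, mul_pow, ← pow_mul, mul_comm l 2]; ring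
      _ ≤ (C * (1 + ∑ i, ‖w (R.ML.z i)‖ ^ 2) ^ k) ^ 2 := by gcongr
      _ ≤ (C * ((m + 1 : ℝ) * Z ^ 2) ^ k) ^ 2 := by gcongr
      _ = _ := by
        rw [mul_pow (m + 1 : ℝ) (Z ^ 2) k, ← pow_mul Z 2 k, show 4 * k = 2 * k * 2 by ring,
          pow_mul Z (2 * k) 2, pow_mul' (m + 1 : ℝ) 2 k]
        ring
  calc ‖w c‖ ^ s * ‖MvPolynomial.eval (R.ML.pz w) (R.ML.h ^ (2 * l))‖
      ≤ (1 + ‖w c‖ ^ 2) * ‖MvPolynomial.eval (R.ML.pz w) (R.ML.h ^ (2 * l))‖ := by gcongr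
    _ = ‖MvPolynomial.eval (R.ML.pz w) (R.ML.h ^ (2 * l))‖ +
        ‖w c‖ ^ 2 * ‖MvPolynomial.eval (R.ML.pz w) (R.ML.h ^ (2 * l))‖ := by ring
    _ ≤ C1 * Z ^ D1 + C ^ 2 * (m + 1 : ℝ) ^ (2 * k) * Z ^ (4 * k) := add_le_add h3 h6
    _ ≤ C1 * Z ^ (D1 + 4 * k) + C ^ 2 * (m + 1 : ℝ) ^ (2 * k) * Z ^ (D1 + 4 * k) := by
      have e1 : Z ^ D1 ≤ Z ^ (D1 + 4 * k) := pow_le_pow_right₀ hZ1 (by omega)
      have e2 : Z ^ (4 * k) ≤ Z ^ (D1 + 4 * k) := pow_le_pow_right₀ hZ1 (by omega)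
      gcongr
    _ = _ := by ring

/-- multiplication by `c ∈ B_L` -/
lemma InW.mul_L {N : ℕ} (hN : 0 < N) {G : R.MK.Pts → ℂ} (h : InW R N G) (c : R.ML.B) :
    InW R N fun y => R.q y c * G y := by
  obtain ⟨C, k, p, hC, hp, hg⟩ := growth_L (R := R) c
  have hN' : (1 : ℝ) ≤ N := by exact_mod_cast hN
  refine InL.mul_growth (k := k) (inW_iff.1 h) hp hC fun y => ?_
  have h1 := hg (2 / N) (by positivity) (by
    rw [div_le_iff₀ (by linarith)]; linarith) (R.q y)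
  rw [norm_mul, Real.mul_rpow (norm_nonneg _) (norm_nonneg _)]
  calc ‖R.q y c‖ ^ (2 / N : ℝ) * ‖G y‖ ^ (2 / N : ℝ) * ‖MvPolynomial.eval (R.ML.pz (R.q y)) p‖
      = (‖R.q y c‖ ^ (2 / N : ℝ) * ‖MvPolynomial.eval (R.ML.pz (R.q y)) p‖) *
        ‖G y‖ ^ (2 / N : ℝ) := by ring
    _ ≤ _ := mul_le_mul_of_nonneg_right h1 (by positivity)

lemma rpow_add_le {a b s : ℝ} (ha : 0 ≤ a) (hb : 0 ≤ b) (hs : 0 ≤ s) (hs2 : s ≤ 2) :
    (a + b) ^ s ≤ 4 * (a ^ s + b ^ s) := by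
  have h1 : a + b ≤ 2 * max a b := by
    rcases le_total a b with h | h
    · rw [max_eq_right h]; linarith
    · rw [max_eq_left h]; linarith
  have h2 : (max a b) ^ s ≤ a ^ s + b ^ s := by
    have h3 : 0 ≤ a ^ s := by positivity
    have h4 : 0 ≤ b ^ s := by positivity
    rcases le_total a b with h | h
    · rw [max_eq_right h]; linarith
    · rw [max_eq_left h]; linarith
  have h5 : (2 : ℝ) ^ s ≤ 4 := by
    have := Real.rpow_le_rpow_of_exponent_le (one_le_two : (1 : ℝ) ≤ 2) hs2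
    rw [Real.rpow_ofNat] at this
    linarith
  calc (a + b) ^ s ≤ (2 * max a b) ^ s := Real.rpow_le_rpow (by positivity) h1 hs
    _ = 2 ^ s * (max a b) ^ s := Real.mul_rpow (by norm_num) (le_max_of_le_left ha)
    _ ≤ 4 * (a ^ s + b ^ s) := by gcongr

lemma InW.add {N : ℕ} (hN : 0 < N) {G G' : R.MK.Pts → ℂ} (h : InW R N G) (h' : InW R N G')
    (hG : Continuous G) (hG' : Continuous G') : InW R N fun y => G y + G' y := by
  have hN' : (1 : ℝ) ≤ N := by exact_mod_cast hN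
  have hs : (2 / N : ℝ) ≤ 2 := by rw [div_le_iff₀ (by linarith)]; linarith
  have hm : ∀ G : R.MK.Pts → ℂ, Continuous G → Measurable fun y => ‖G y‖ ^ (2 / N : ℝ) :=
    fun G hG => (hG.norm.rpow_const fun _ => Or.inr (by positivity)).measurable
  have h1 := InL.add (inW_iff.1 h) (inW_iff.1 h') (fun y => by positivity) (fun y => by positivity)
    (hm G hG) (hm G' hG')
  refine InL.mono (C := 4) h1 (by norm_num) fun y => ?_
  calc ‖G y + G' y‖ ^ (2 / N : ℝ) ≤ (‖G y‖ + ‖G' y‖) ^ (2 / N : ℝ) :=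
        Real.rpow_le_rpow (norm_nonneg _) (norm_add_le _ _) (by positivity)
    _ ≤ _ := rpow_add_le (norm_nonneg _) (norm_nonneg _) (by positivity) hs

/-- **products** -/
lemma InW.mul {N N' : ℕ} (hN : 0 < N) (hN' : 0 < N') {G G' : R.MK.Pts → ℂ} (h : InW R N G)
    (h' : InW R N' G') (hG : Continuous G) (hG' : Continuous G') :
    InW R (N + N') fun y => G y * G' y := by
  have hm : ∀ (N : ℕ) (G : R.MK.Pts → ℂ), Continuous G → Measurable fun y => ‖G y‖ ^ (2 / N : ℝ) :=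
    fun N G hG => (hG.norm.rpow_const fun _ => Or.inr (by positivity)).measurable
  have h1 := InL.add (inW_iff.1 h) (inW_iff.1 h') (fun y => by positivity) (fun y => by positivity)
    (hm N G hG) (hm N' G' hG')
  refine InL.mono (C := 1) h1 (by norm_num) fun y => ?_
  rw [one_mul]
  have hN0 : (0 : ℝ) < N := by exact_mod_cast hN
  have hN0' : (0 : ℝ) < N' := by exact_mod_cast hN'
  push_cast
  set S : ℝ := N + N' with hS
  have hS0 : 0 < S := by positivity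
  set A := ‖G y‖ ^ (2 / N : ℝ) with hA
  set A' := ‖G' y‖ ^ (2 / N' : ℝ) with hA'
  have hA0 : 0 ≤ A := by positivity
  have hA0' : 0 ≤ A' := by positivity
  have e1 : ‖G y‖ ^ (2 / S) = A ^ (N / S) := by
    rw [hA, ← Real.rpow_mul (norm_nonneg _)]
    congr 1
    field_simp
  have e2 : ‖G' y‖ ^ (2 / S) = A' ^ (N' / S) := by
    rw [hA', ← Real.rpow_mul (norm_nonneg _)]
    congr 1
    field_simp
  have hsum : (N : ℝ) / S + N' / S = 1 := by rw [← add_div, hS, div_self hS0.ne']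
  have h2 := Real.geom_mean_le_arith_mean2_weighted (w₁ := N / S) (w₂ := N' / S) (by positivity)
    (by positivity) hA0 hA0' hsum
  have h3 : (N : ℝ) / S ≤ 1 := by
    have : (0 : ℝ) ≤ N' / S := by positivity
    linarith
  have h4 : (N' : ℝ) / S ≤ 1 := by
    have : (0 : ℝ) ≤ N / S := by positivity
    linarith
  rw [norm_mul, Real.mul_rpow (norm_nonneg _) (norm_nonneg _), e1, e2]
  calc A ^ (N / S) * A' ^ (N' / S) ≤ N / S * A + N' / S * A' := h2
    _ ≤ 1 * A + 1 * A' := by gcongr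
    _ = _ := by ring

lemma continuous_evK (b : R.MK.B) : Continuous fun y : R.MK.Pts => y b := continuous_ev b

variable (R)

/-- **the spaces `V_N`** -/
def VN {N : ℕ} (hN : 0 < N) : Submodule L K where
  carrier := {v | ∃ (c : R.ML.B) (b : R.MK.B), c ≠ 0 ∧ (b : K) = algebraMap L K c * v ∧
    InW R N fun y => y b}
  zero_mem' := by
    refine ⟨1, 0, one_ne_zero, by simp, 1, 0, one_ne_zero, ?_⟩
    have hN' : (0 : ℝ) < N := by exact_mod_cast hN
    have h0 : (0 : ℝ) ^ (2 / N : ℝ) = 0 := Real.zero_rpow (by positivity)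
    have : (fun y : R.MK.Pts => ENNReal.ofReal (‖y (0 : R.MK.B)‖ ^ (2 / N : ℝ) *
        wL R 1 0 (R.q y))) = fun _ => 0 := by
      funext y
      rw [map_zero, norm_zero, h0, zero_mul, ENNReal.ofReal_zero]
    rw [this]
    simp [lintM]
  add_mem' := by
    rintro v v' ⟨c, b, hc, hb, h⟩ ⟨c', b', hc', hb', h'⟩
    refine ⟨c * c', R.incl c' * b + R.incl c * b', mul_ne_zero hc hc', ?_, ?_⟩
    · simp only [MulMemClass.coe_mul, AddMemClass.coe_add, RMdl.incl_coe, map_mul, hb, hb']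
      ring
    · have h1 := InW.add hN (InW.mul_L hN h c') (InW.mul_L hN h' c)
        (((continuous_ev _).comp R.continuous_q).mul (continuous_evK b))
        (((continuous_ev _).comp R.continuous_q).mul (continuous_evK b'))
      have e : (fun y : R.MK.Pts => y (R.incl c' * b + R.incl c * b')) =
          fun y => R.q y c' * y b + R.q y c * y b' := by
        funext y
        rw [map_add, map_mul, map_mul]
        rfl
      rw [e]
      exact h1
  smul_mem' := by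
    rintro l v ⟨c, b, hc, hb, h⟩
    obtain ⟨c1, c2, hc2, hl⟩ := R.ML.frac l
    refine ⟨c2 * c, R.incl c1 * b, mul_ne_zero hc2 hc, ?_, ?_⟩
    · have : algebraMap L K (c2 : L) ≠ 0 := by
        rw [Ne, map_eq_zero]
        exact fun h => hc2 (Subtype.ext h)
      simp only [MulMemClass.coe_mul, RMdl.incl_coe, map_mul, hb, hl, map_div₀, Algebra.smul_def]
      field_simp
    · have e : (fun y : R.MK.Pts => y (R.incl c1 * b)) = fun y => R.q y c1 * y b := by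
        funext y
        rw [map_mul]
        rfl
      rw [e]
      exact InW.mul_L hN h c1

variable {R}



/-! ### finiteness -/

/-- uniform `L^q` bound of the fibre sums (after 464's `HH_bound_q`) -/
theorem HH_bound_unif {n : ℕ} {B : Type} [CommRing B] [Algebra ℂ B] {z : Fin n → B} {θ : B}
    {μ : Polynomial (MvPolynomial (Fin n) ℂ)} {g : MvPolynomial (Fin n) ℂ}
    (hF : FibData z θ μ g) (d : ℕ) {q : ℝ} (hq : 0 < q) :
    ∃ (c : ℝ) (L : ℕ), 0 ≤ c ∧ ∀ (G : (B →ₐ[ℂ] ℂ) → ℂ), ∀ k < d, ∀ ζ : Cn n,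
      MvPolynomial.eval ζ g ≠ 0 →
      ‖HH z θ μ g G k ζ‖ₑ ^ q ≤ ENNReal.ofReal (c * (1 + ‖ζ‖) ^ L) *
        ∑' y : Fib z ζ, ENNReal.ofReal (‖G y.1‖ ^ q) := by
  have hk : ∀ k, ∃ (c : ℝ) (L : ℕ), 0 ≤ c ∧ ∀ (G : (B →ₐ[ℂ] ℂ) → ℂ), ∀ ζ : Cn n,
      MvPolynomial.eval ζ g ≠ 0 →
      ‖HH z θ μ g G k ζ‖ₑ ^ q ≤ ENNReal.ofReal (c * (1 + ‖ζ‖) ^ L) *
        ∑' y : Fib z ζ, ENNReal.ofReal (‖G y.1‖ ^ q) := by
    intro k
    obtain ⟨A, K, hA, hgr⟩ := AlgD956.PG_coeff hF.monic hF.root k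
    obtain ⟨m, hm⟩ := exists_nat_ge ((K : ℝ) * q)
    refine ⟨((μ.natDegree : ℝ) * A) ^ q * (n + 1 : ℝ) ^ m, 2 * m, by positivity, ?_⟩
    intro G ζ hζ
    have hfin := (natCard_fib hF hζ).2
    have hft : Fintype (Fib z ζ) := Fintype.ofFinite _
    set S : ℝ := 1 + ∑ i, ‖ζ i‖ ^ 2 with hS
    have hS1 : 1 ≤ S := by
      rw [hS]
      have : 0 ≤ ∑ i, ‖ζ i‖ ^ 2 := by positivity
      linarith
    have hS0 : 0 < S := by linarith
    have hyS : ∀ y : Fib z ζ, (1 + ∑ i, ‖y.1 (z i)‖ ^ 2) = S := by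
      intro y; simp only [y.2, hS]
    have hcard : Fintype.card (Fib z ζ) = μ.natDegree := by
      rw [← Nat.card_eq_fintype_card, (natCard_fib hF hζ).1]
    set T : ℝ := A * S ^ K with hT
    have hT0 : 0 ≤ T := by positivity
    have h1 : ‖HH z θ μ g G k ζ‖ ^ q ≤
        ((μ.natDegree : ℝ) * T) ^ q * ∑ y : Fib z ζ, ‖G y.1‖ ^ q := by
      by_cases hne : Nonempty (Fib z ζ)
      · obtain ⟨y0, -, hy0⟩ := Finset.exists_max_image (Finset.univ : Finset (Fib z ζ))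
          (fun y => ‖G y.1‖) Finset.univ_nonempty
        have h2 : ‖HH z θ μ g G k ζ‖ ≤ (μ.natDegree : ℝ) * T * ‖G y0.1‖ := by
          rw [HH_eq hF G k hζ]
          calc ‖∑ y : Fib z ζ, G y.1 * y.1 ((qq z θ μ).coeff k)‖
              ≤ ∑ y : Fib z ζ, ‖G y.1 * y.1 ((qq z θ μ).coeff k)‖ := norm_sum_le _ _
            _ ≤ ∑ _y : Fib z ζ, ‖G y0.1‖ * T := by
              refine Finset.sum_le_sum fun y _ => ?_
              rw [norm_mul]
              have h3 : ‖y.1 ((qq z θ μ).coeff k)‖ ≤ A * (1 + ∑ i, ‖y.1 (z i)‖ ^ 2) ^ K := hgr y.1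
              rw [hyS] at h3
              exact mul_le_mul (hy0 y (Finset.mem_univ _)) h3 (norm_nonneg _) (norm_nonneg _)
            _ = (μ.natDegree : ℝ) * T * ‖G y0.1‖ := by
              rw [Finset.sum_const, Finset.card_univ, hcard, nsmul_eq_mul]; ring
        calc ‖HH z θ μ g G k ζ‖ ^ q ≤ ((μ.natDegree : ℝ) * T * ‖G y0.1‖) ^ q :=
              Real.rpow_le_rpow (norm_nonneg _) h2 hq.le
          _ = ((μ.natDegree : ℝ) * T) ^ q * ‖G y0.1‖ ^ q :=
              Real.mul_rpow (by positivity) (norm_nonneg _)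
          _ ≤ _ := by
            gcongr
            exact Finset.single_le_sum (f := fun y : Fib z ζ => ‖G y.1‖ ^ q)
              (fun y _ => by positivity) (Finset.mem_univ y0)
      · have : IsEmpty (Fib z ζ) := not_nonempty_iff.1 hne
        rw [HH_eq hF G k hζ]
        simp [Real.zero_rpow hq.ne']
    have h4 : ‖HH z θ μ g G k ζ‖ₑ ^ q = ENNReal.ofReal (‖HH z θ μ g G k ζ‖ ^ q) := by
      rw [← ENNReal.ofReal_rpow_of_nonneg (norm_nonneg _) hq.le, ofReal_norm]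
    rw [h4, tsum_fintype, ← ENNReal.ofReal_sum_of_nonneg (fun _ _ => by positivity),
      ← ENNReal.ofReal_mul (by positivity)]
    apply ENNReal.ofReal_le_ofReal
    refine h1.trans ?_
    refine mul_le_mul_of_nonneg_right ?_ (Finset.sum_nonneg fun _ _ => by positivity)
    have h6 : S ≤ (n + 1 : ℝ) * (1 + ‖ζ‖) ^ 2 := AlgC956.one_add_sum_le ζ
    have h7 : (S ^ K) ^ q ≤ S ^ m := by
      rw [← Real.rpow_natCast S K, ← Real.rpow_mul hS0.le, ← Real.rpow_natCast S m]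
      exact Real.rpow_le_rpow_of_exponent_le hS1 hm
    calc ((μ.natDegree : ℝ) * T) ^ q
        = ((μ.natDegree : ℝ) * A) ^ q * (S ^ K) ^ q := by
          rw [hT, ← mul_assoc, Real.mul_rpow (by positivity) (by positivity)]
      _ ≤ ((μ.natDegree : ℝ) * A) ^ q * S ^ m := by gcongr
      _ ≤ ((μ.natDegree : ℝ) * A) ^ q * ((n + 1 : ℝ) * (1 + ‖ζ‖) ^ 2) ^ m := by gcongr
      _ = _ := by rw [mul_pow, ← pow_mul]; ring
  choose c L hc hL using hk
  refine ⟨∑ k ∈ Finset.range d, c k, ∑ k ∈ Finset.range d, L k,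
    Finset.sum_nonneg fun k _ => hc k, fun G k hkd ζ hζ => (hL k G ζ hζ).trans ?_⟩
  have e1 : c k ≤ ∑ k ∈ Finset.range d, c k :=
    Finset.single_le_sum (f := c) (fun k _ => hc k) (Finset.mem_range.2 hkd)
  have e2 : L k ≤ ∑ k ∈ Finset.range d, L k :=
    Finset.single_le_sum (f := L) (fun k _ => Nat.zero_le _) (Finset.mem_range.2 hkd)
  have e3 : (1 + ‖ζ‖) ^ L k ≤ (1 + ‖ζ‖) ^ (∑ k ∈ Finset.range d, L k) :=
    pow_le_pow_right₀ (by linarith [norm_nonneg ζ]) e2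
  refine mul_le_mul_left ?_ _
  apply ENNReal.ofReal_le_ofReal
  exact mul_le_mul e1 e3 (by positivity) (Finset.sum_nonneg fun k _ => hc k)

/-- the fibre sums of `G ∈ W_N` satisfy the hypothesis of `poly_of_lq` -/
theorem HH_lq {N : ℕ} (hN : 0 < N) (d : ℕ) : ∃ L' : ℕ, ∀ (G : R.MK.Pts → ℂ), InW R N G →
    ∃ (p : MvPolynomial (Fin m) ℂ) (a : ℕ), p ≠ 0 ∧ ∀ k < d,
      ∫⁻ ζ in {ζ | MvPolynomial.eval ζ R.MK.h ≠ 0},
        ‖HH R.MK.z R.MK.θ R.MK.μ R.MK.h G k ζ‖ₑ ^ (2 / N : ℝ) *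
          ENNReal.ofReal (SatA_210.wt p a 1 L' ζ) < ∞ := by
  have hN' : (0 : ℝ) < N := by exact_mod_cast hN
  obtain ⟨c, L', hc, hb⟩ := HH_bound_unif R.MK.fd d (q := 2 / N) (by positivity)
  refine ⟨L', fun G hG => ?_⟩
  obtain ⟨p, a, hp, hi⟩ := hG
  refine ⟨p, a + L', hp, fun k hk => ?_⟩
  have hopen : IsOpen {ζ : Cn (m + r) | MvPolynomial.eval ζ R.MK.h ≠ 0} :=
    isOpen_ne.preimage (MvPolynomial.continuous_eval R.MK.h)
  rw [lintM] at hi
  refine lt_of_le_of_lt (b := ENNReal.ofReal c * ∫⁻ ζ : Cn (m + r),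
    ∑' y : {y : R.MK.B →ₐ[ℂ] ℂ // ∀ i, y (R.MK.z i) = ζ i},
      ENNReal.ofReal (‖G y.1‖ ^ (2 / N : ℝ) * wL R p a (R.q y.1))) ?_
    (ENNReal.mul_lt_top ENNReal.ofReal_lt_top hi)
  rw [← lintegral_const_mul' _ _ ENNReal.ofReal_ne_top]
  refine (setLIntegral_mono' hopen.measurableSet fun ζ hζ => ?_).trans
    (setLIntegral_le_lintegral _ _)
  refine (mul_le_mul_left (hb G k hk ζ hζ) _).trans ?_
  have hw : ∀ y : {y : R.MK.B →ₐ[ℂ] ℂ // ∀ i, y (R.MK.z i) = ζ i},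
      wL R p a (R.q y.1) = ‖MvPolynomial.eval (zc ζ) p‖ / (1 + ‖zc ζ‖) ^ a := by
    intro y
    have h1 : R.MK.pz y.1 = ζ := funext y.2
    unfold wL
    rw [pz_q', h1]
  set Z := 1 + ‖zc ζ‖ with hZ
  set X := 1 + ‖xc ζ‖ with hX
  have hZ0 : 0 < Z := by rw [hZ]; positivity
  have hX0 : 0 < X := by rw [hX]; positivity
  set Q := ‖MvPolynomial.eval (zc ζ) p‖ with hQ
  have h2 : ∀ y : {y : R.MK.B →ₐ[ℂ] ℂ // ∀ i, y (R.MK.z i) = ζ i},
      ENNReal.ofReal (‖G y.1‖ ^ (2 / N : ℝ) * wL R p a (R.q y.1)) =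
        ENNReal.ofReal (Q / Z ^ a) * ENNReal.ofReal (‖G y.1‖ ^ (2 / N : ℝ)) := by
    intro y
    rw [hw, mul_comm, ENNReal.ofReal_mul (by positivity)]
  simp_rw [h2]
  rw [ENNReal.tsum_mul_left]
  have h3 : c * (1 + ‖ζ‖) ^ L' * SatA_210.wt p (a + L') 1 L' ζ ≤ c * (Q / Z ^ a) := by
    unfold SatA_210.wt
    rw [pow_one, mul_assoc]
    refine mul_le_mul_of_nonneg_left ?_ hc
    rw [mul_div_assoc', div_le_div_iff₀ (by positivity) (by positivity)]
    have h4 : (1 + ‖ζ‖) ^ L' ≤ (Z * X) ^ L' := by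
      gcongr
      exact one_add_norm_le_mul ζ
    calc (1 + ‖ζ‖) ^ L' * Q * Z ^ a ≤ (Z * X) ^ L' * Q * Z ^ a := by gcongr
      _ = Q * (Z ^ (a + L') * X ^ L') := by rw [mul_pow, pow_add]; ring
  calc ENNReal.ofReal (c * (1 + ‖ζ‖) ^ L') *
        (∑' y : Fib R.MK.z ζ, ENNReal.ofReal (‖G y.1‖ ^ (2 / N : ℝ))) *
        ENNReal.ofReal (SatA_210.wt p (a + L') 1 L' ζ)
      = ENNReal.ofReal (c * (1 + ‖ζ‖) ^ L' * SatA_210.wt p (a + L') 1 L' ζ) *
        ∑' y : Fib R.MK.z ζ, ENNReal.ofReal (‖G y.1‖ ^ (2 / N : ℝ)) := by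
        rw [ENNReal.ofReal_mul (p := c * (1 + ‖ζ‖) ^ L') (by positivity)]; ring
    _ ≤ ENNReal.ofReal (c * (Q / Z ^ a)) *
        ∑' y : Fib R.MK.z ζ, ENNReal.ofReal (‖G y.1‖ ^ (2 / N : ℝ)) := by gcongr
    _ = _ := by rw [ENNReal.ofReal_mul hc, mul_assoc]

lemma split_rename (p : MvPolynomial (Fin m) ℂ) :
    split (MvPolynomial.rename (Fin.castAdd r) p) = MvPolynomial.C p := by
  induction p using MvPolynomial.induction_on with
  | C a =>
    rw [MvPolynomial.rename_C]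
    have := (split (m := m) (r := r)).commutes a
    rw [MvPolynomial.algebraMap_eq] at this
    rw [this]
    rfl
  | add p q hp hq => rw [map_add, map_add, hp, hq, map_add]
  | mul_X p i hp => rw [map_mul, map_mul, hp, MvPolynomial.rename_X, split_X_z, map_mul]

/-- the elements of `ℂ[z,x]` of degree `≤ K₂` in `x` are in the `L`-span of the monomials in `x` -/
lemma aK_mem_span {q : MvPolynomial (Fin (m + r)) ℂ} {K2 : ℕ} (hq : (split q).totalDegree ≤ K2) :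
    ∃ a : (Fin r → Fin (K2 + 1)) → L, R.MK.aK q =
      ∑ β, algebraMap L K (a β) * ∏ j, R.MK.zK (Fin.natAdd m j) ^ (β j : ℕ) := by
  classical
  have h1 := eval₂_split (A := K) R.MK.zK q
  have h2 : ((MvPolynomial.aeval fun i : Fin m => R.MK.zK (Fin.castAdd r i) :
      MvPolynomial (Fin m) ℂ →ₐ[ℂ] K) : MvPolynomial (Fin m) ℂ →+* K) =
      (algebraMap L K).comp R.ML.aK := by
    refine RingHom.ext fun p => ?_
    have h3 := R.aK_rename p
    rw [RingHom.comp_apply, ← h3]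
    change MvPolynomial.aeval (fun i : Fin m => R.MK.zK (Fin.castAdd r i)) p =
      MvPolynomial.aeval R.MK.zK (MvPolynomial.rename (Fin.castAdd r) p)
    rw [MvPolynomial.aeval_rename]
    rfl
  rw [h2, MvPolynomial.eval₂_eq'] at h1
  -- the support injects
  let F : (Fin r → Fin (K2 + 1)) → (Fin r →₀ ℕ) := fun β =>
    Finsupp.equivFunOnFinite.symm fun j => (β j : ℕ)
  have hF : Function.Injective F := by
    intro β β' h
    funext j
    have := DFunLike.congr_fun h j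
    exact Fin.ext this
  refine ⟨fun β => R.ML.aK ((split q).coeff (F β)), ?_⟩
  have h4 : R.MK.aK q = MvPolynomial.aeval R.MK.zK q := rfl
  rw [h4, ← h1]
  have h5 : (split q).support ⊆ Finset.univ.image F := by
    intro s hs
    have hs' : ∀ j, s j ≤ K2 := by
      intro j
      have h6 : (s.sum fun _ e => e) ≤ K2 := (MvPolynomial.le_totalDegree hs).trans hq
      refine le_trans ?_ h6
      rw [Finsupp.sum_fintype _ _ (fun _ => rfl)]
      exact Finset.single_le_sum (f := fun j => s j) (fun _ _ => Nat.zero_le _) (Finset.mem_univ j)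
    refine Finset.mem_image.2 ⟨fun j => ⟨s j, Nat.lt_succ_of_le (hs' j)⟩, Finset.mem_univ _, ?_⟩
    ext j
    rfl
  rw [Finset.sum_subset h5 (fun s _ hs => by
    rw [MvPolynomial.notMem_support_iff.1 hs, map_zero, zero_mul])]
  rw [Finset.sum_image fun a _ b _ h => hF h]
  rfl

/-- **finiteness of `V_N`** -/
theorem VN_span {N : ℕ} (hN : 0 < N) : ∃ S : Finset K, VN R hN ≤ Submodule.span L (S : Set K) := by
  classical
  set M := R.MK with hM
  set d : ℕ := (qq M.z M.θ M.μ).natDegree + 1 with hd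
  obtain ⟨L', hL'⟩ := HH_lq (R := R) hN d
  obtain ⟨K1, K2, hK⟩ := poly_of_lq M.h_ne L' hN
  set D : K := (dd M.z M.θ M.μ : M.B) * M.aK M.h ^ K1 with hDdef
  let gen : (Fin r → Fin (K2 + 1)) × Fin d → K := fun e =>
    (∏ j, M.zK (Fin.natAdd m j) ^ (e.1 j : ℕ)) * (M.θ : K) ^ (e.2 : ℕ) * D⁻¹
  refine ⟨Finset.univ.image gen, ?_⟩
  rintro v ⟨c, b, hc, hb, hW⟩
  obtain ⟨p, a, hp, hint⟩ := hL' _ hW
  have hP : ∀ k : Fin d, ∃ (e : ℕ) (P : MvPolynomial (Fin (m + r)) ℂ),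
      (split P).totalDegree ≤ K2 ∧ ∀ ζ, MvPolynomial.eval ζ M.h ≠ 0 → MvPolynomial.eval ζ P =
        HH M.z M.θ M.μ M.h (fun y : M.Pts => y b) k ζ * MvPolynomial.eval ζ M.h ^ K1 *
          MvPolynomial.eval (zc ζ) p ^ e := by
    intro k
    refine hK _ (fun ζ hζ => ?_) p a 1 hp (hint k k.2)
    exact (HH_differentiableAt M.fd M.hch (fun y C => holB_ev b y C) k hζ).differentiableWithinAt
  choose e P hPd hPe using hP
  set E : ℕ := ∑ k, e k with hE
  have hek : ∀ k, e k ≤ E := fun k =>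
    Finset.single_le_sum (f := e) (fun _ _ => Nat.zero_le _) (Finset.mem_univ k)
  set p' : MvPolynomial (Fin (m + r)) ℂ := MvPolynomial.rename (Fin.castAdd r) p with hp'
  let Q : Fin d → MvPolynomial (Fin (m + r)) ℂ := fun k => P k * p' ^ (E - e k)
  have hQd : ∀ k, (split (Q k)).totalDegree ≤ K2 := by
    intro k
    have h0 : split (Q k) = split (P k) * MvPolynomial.C (p ^ (E - e k)) := by
      simp only [Q, map_mul, map_pow, hp', split_rename]
    rw [h0]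
    refine (MvPolynomial.totalDegree_mul _ _).trans ?_
    rw [MvPolynomial.totalDegree_C, add_zero]
    exact hPd k
  -- the identity in `B`
  have hid : b * dd M.z M.θ M.μ * az M.z M.h ^ K1 * az M.z p' ^ E =
      ∑ k : Fin d, az M.z (Q k) * M.θ ^ (k : ℕ) := by
    apply M.ext_of_pts
    intro y
    have hh := M.eval_h_ne y
    have h1 := interp M.fd (fun y : M.Pts => y b) hh y (fun _ => rfl)
    rw [← hd, Finset.sum_range] at h1
    rw [map_mul, map_mul, map_mul, map_pow, map_pow, M.apply_az', M.apply_az', map_sum, h1,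
      Finset.sum_mul, Finset.sum_mul]
    refine Finset.sum_congr rfl fun k _ => ?_
    rw [map_mul, map_pow, M.apply_az']
    have h2 : MvPolynomial.eval (M.pz y) p' = MvPolynomial.eval (zc (M.pz y)) p :=
      eval_rename_castAdd p _
    simp only [Q, map_mul, map_pow, h2]
    rw [hPe k _ hh]
    have h3 : MvPolynomial.eval (zc (M.pz y)) p ^ E =
        MvPolynomial.eval (zc (M.pz y)) p ^ e k * MvPolynomial.eval (zc (M.pz y)) p ^ (E - e k) := by
      rw [← pow_add, Nat.add_sub_cancel' (hek k)]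
    rw [h3]
    ring
  -- the identity in `K`
  have hidK : (algebraMap L K c * v) * D * algebraMap L K (R.ML.aK p) ^ E =
      ∑ k : Fin d, M.aK (Q k) * (M.θ : K) ^ (k : ℕ) := by
    have h1 := congrArg (fun b : M.B => (b : K)) hid
    simp only [MulMemClass.coe_mul, SubmonoidClass.coe_pow, AddSubmonoidClass.coe_finsetSum] at h1
    rw [hb] at h1
    simp only [← M.aK_eq] at h1
    have h2 : M.aK (MvPolynomial.rename (Fin.castAdd r) p) = algebraMap L K (R.ML.aK p) :=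
      R.aK_rename p
    rw [hp', h2] at h1
    rw [← h1, hDdef]
    ring
  have hD0 : D ≠ 0 := by
    rw [hDdef]
    refine mul_ne_zero ?_ (pow_ne_zero _ ?_)
    · intro h
      exact M.fd.der (Subtype.ext h)
    · rw [Ne, map_eq_zero_iff _ M.aK_injective]
      exact M.h_ne
  have hc0 : algebraMap L K (c : L) ≠ 0 := by
    rw [Ne, map_eq_zero]
    exact fun h => hc (Subtype.ext h)
  have hp0 : algebraMap L K (R.ML.aK p) ≠ 0 := by
    rw [Ne, map_eq_zero, map_eq_zero_iff _ R.ML.aK_injective]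
    exact hp
  have hv : v = ∑ k : Fin d, ((c : L) * R.ML.aK p ^ E)⁻¹ • (M.aK (Q k) * (M.θ : K) ^ (k : ℕ) * D⁻¹) := by
    rw [← Finset.smul_sum, ← Finset.sum_mul, ← hidK, Algebra.smul_def, map_inv₀, map_mul, map_pow]
    field_simp
  rw [hv]
  refine Submodule.sum_mem _ fun k _ => Submodule.smul_mem _ _ ?_
  obtain ⟨α, hα⟩ := aK_mem_span (R := R) (hQd k)
  have hα' : M.aK (Q k) = ∑ β, algebraMap L K (α β) * ∏ j, M.zK (Fin.natAdd m j) ^ (β j : ℕ) := hα
  rw [hα', Finset.sum_mul, Finset.sum_mul]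
  refine Submodule.sum_mem _ fun β _ => ?_
  have h1 : algebraMap L K (α β) * (∏ j, M.zK (Fin.natAdd m j) ^ (β j : ℕ)) * (M.θ : K) ^ (k : ℕ) *
      D⁻¹ = α β • gen (β, k) := by
    rw [Algebra.smul_def]
    simp only [gen]
    ring
  rw [h1]
  refine Submodule.smul_mem _ _ (Submodule.subset_span ?_)
  exact Finset.mem_coe.2 (Finset.mem_image.2 ⟨(β, k), Finset.mem_univ _, rfl⟩)

instance VN_finite {N : ℕ} (hN : 0 < N) : Module.Finite L (VN R hN) := by
  obtain ⟨S, hS⟩ := VN_span (R := R) hN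
  have : FiniteDimensional L (Submodule.span L (S : Set K)) :=
    FiniteDimensional.span_finset L S
  exact Submodule.finiteDimensional_of_le hS

end Crest.Agent.R276.SatB_210
end
end

-- ▼ part R276/SatC_210

/-!
# Row 276 (S0419), SAT (helper210), part C: saturation of `V_N`

`InE R F` : `∫_{MK} F |p(z)| (1+|z|)^{-a} < ∞` for some `p ≠ 0`, `a` (`F` with values in `[0,∞]`).
`kk u y = ∑ ‖u_i(y)‖²`.
`saturated` : if `u_i ∈ W_N`, `G` holomorphic on `MK` and `InE (‖G‖² kk^{-(N-1)/N})` then `G ∈ B_K ∩ W_N`.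
-/

set_option autoImplicit false

noncomputable section

open Set Filter Topology Metric MeasureTheory
open scoped ENNReal Real

namespace Crest.Agent.R276.SatC_210

open Crest.Agent.R271 Crest.Agent.R271.Defs710 Crest.Agent.R271.Alg255 Crest.Agent.R271.Rd692
open Crest.Agent.R271.AlgB956 Crest.Agent.R271.Ho51
open Crest.Agent.R276 Crest.Agent.R276.AB2_590 Crest.Agent.R276.Mod1_987
open Crest.Agent.R276.SatA_210 Crest.Agent.R276.LqG_464 Crest.Agent.R276.SatB_210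

variable {L K : Type} [Field L] [Field K] [Algebra ℂ L] [Algebra ℂ K] [Algebra L K]
  [IsScalarTower ℂ L K] {m r : ℕ} (R : RMdl L K m r)

/-- weighted integrable functions with values in `[0,∞]` -/
def InE (F : R.MK.Pts → ℝ≥0∞) : Prop := ∃ (p : MvPolynomial (Fin m) ℂ) (a : ℕ), p ≠ 0 ∧
  lintM R.MK.z (fun y => F y * ENNReal.ofReal (wL R p a (R.q y))) < ∞

variable {R}

lemma inL_iff_inE {F : R.MK.Pts → ℝ} (h0 : ∀ y, 0 ≤ F y) :
    InL R F ↔ InE R fun y => ENNReal.ofReal (F y) := by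
  unfold InL InE
  have h1 : ∀ (p : MvPolynomial (Fin m) ℂ) (a : ℕ),
      (fun y => ENNReal.ofReal (F y * wL R p a (R.q y))) =
        fun y => ENNReal.ofReal (F y) * ENNReal.ofReal (wL R p a (R.q y)) := fun p a =>
    funext fun y => ENNReal.ofReal_mul (h0 y)
  simp only [h1]

lemma enorm_rpow_eq (x : ℂ) {s : ℝ} (hs : 0 ≤ s) : ‖x‖ₑ ^ s = ENNReal.ofReal (‖x‖ ^ s) := by
  rw [← ENNReal.ofReal_rpow_of_nonneg (norm_nonneg _) hs, ofReal_norm]

lemma inW_iff_inE {N : ℕ} {G : R.MK.Pts → ℂ} :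
    InW R N G ↔ InE R fun y => ‖G y‖ₑ ^ (2 / N : ℝ) := by
  rw [inW_iff, inL_iff_inE fun y => by positivity]
  have h1 : (fun y => ‖G y‖ₑ ^ (2 / N : ℝ)) = fun y => ENNReal.ofReal (‖G y‖ ^ (2 / N : ℝ)) :=
    funext fun y => enorm_rpow_eq (G y) (by positivity)
  rw [h1]

lemma InE.mono {F F' : R.MK.Pts → ℝ≥0∞} (h : InE R F) {C : ℝ≥0∞} (hC0 : C ≠ ∞)
    (hC : ∀ y, F' y ≤ C * F y) : InE R F' := by
  obtain ⟨p, a, hp, hi⟩ := h
  refine ⟨p, a, hp, lt_of_le_of_lt (lintM_mono _ (g := fun y => C *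
    (F y * ENNReal.ofReal (wL R p a (R.q y)))) fun y => ?_) ?_⟩
  · rw [← mul_assoc]
    exact mul_le_mul_left (hC y) _
  · rw [lintM_const_mul _ _ hC0]
    exact ENNReal.mul_lt_top hC0.lt_top hi

lemma InE.add {F F' : R.MK.Pts → ℝ≥0∞} (h : InE R F) (h' : InE R F') (hm : Measurable F)
    (hm' : Measurable F') : InE R fun y => F y + F' y := by
  obtain ⟨p, a, hp, hi⟩ := h
  obtain ⟨p', a', hp', hi'⟩ := h'
  obtain ⟨D, hD⟩ := wL_dom R p p' a
  obtain ⟨D', hD'⟩ := wL_dom R p' p a'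
  obtain ⟨C, hC0, hC⟩ := hD (a + D + (a' + D')) (by omega)
  obtain ⟨C', hC0', hC'⟩ := hD' (a + D + (a' + D')) (by omega)
  refine ⟨p * p', a + D + (a' + D'), mul_ne_zero hp hp', ?_⟩
  have hq : Measurable R.q := R.continuous_q.measurable
  have hw : ∀ p a, Measurable fun y => ENNReal.ofReal (wL R p a (R.q y)) := fun p a =>
    ((continuous_wL R p a).measurable.comp hq).ennreal_ofReal
  refine lt_of_le_of_lt (lintM_mono _ (g := fun y =>
    (ENNReal.ofReal C * (F y * ENNReal.ofReal (wL R p a (R.q y)))) +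
    (ENNReal.ofReal C' * (F' y * ENNReal.ofReal (wL R p' a' (R.q y))))) fun y => ?_) ?_
  · rw [add_mul]
    apply add_le_add
    · have := ENNReal.ofReal_le_ofReal (hC (R.q y))
      rw [ENNReal.ofReal_mul hC0] at this
      calc F y * ENNReal.ofReal (wL R (p * p') (a + D + (a' + D')) (R.q y))
          ≤ F y * (ENNReal.ofReal C * ENNReal.ofReal (wL R p a (R.q y))) := by gcongr
        _ = _ := by ring
    · have := ENNReal.ofReal_le_ofReal (hC' (R.q y))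
      rw [ENNReal.ofReal_mul hC0', mul_comm p' p] at this
      calc F' y * ENNReal.ofReal (wL R (p * p') (a + D + (a' + D')) (R.q y))
          ≤ F' y * (ENNReal.ofReal C' * ENNReal.ofReal (wL R p' a' (R.q y))) := by gcongr
        _ = _ := by ring
  · have e1 : Measurable fun y => ENNReal.ofReal C * (F y * ENNReal.ofReal (wL R p a (R.q y))) :=
      (hm.mul (hw p a)).const_mul _
    have e2 : Measurable fun y =>
        ENNReal.ofReal C' * (F' y * ENNReal.ofReal (wL R p' a' (R.q y))) :=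
      (hm'.mul (hw p' a')).const_mul _
    rw [lintM_add' R.MK e1 e2, lintM_const_mul _ _ ENNReal.ofReal_ne_top,
      lintM_const_mul _ _ ENNReal.ofReal_ne_top]
    exact ENNReal.add_lt_top.2 ⟨ENNReal.mul_lt_top ENNReal.ofReal_lt_top hi,
      ENNReal.mul_lt_top ENNReal.ofReal_lt_top hi'⟩

lemma inE_zero : InE R fun _ => 0 := by
  refine ⟨1, 0, one_ne_zero, ?_⟩
  simp [lintM]

lemma InE.sum {ι : Type*} (s : Finset ι) {F : ι → R.MK.Pts → ℝ≥0∞} (h : ∀ i ∈ s, InE R (F i))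
    (hm : ∀ i, Measurable (F i)) : InE R fun y => ∑ i ∈ s, F i y := by
  classical
  induction s using Finset.induction_on with
  | empty => simpa using inE_zero
  | insert a s ha ih =>
    simp only [Finset.sum_insert ha]
    exact (h a (Finset.mem_insert_self _ _)).add (ih fun i hi => h i (Finset.mem_insert_of_mem hi))
      (hm a) (Finset.measurable_sum _ fun i _ => hm i)

/-! ### the kernel -/

variable {s : ℕ}

/-- `∑ ‖u_i‖²` -/
def kk (u : Fin s → R.MK.B) (y : R.MK.Pts) : ℝ := ∑ i, ‖y (u i)‖ ^ 2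

lemma kk_nonneg (u : Fin s → R.MK.B) (y : R.MK.Pts) : 0 ≤ kk u y :=
  Finset.sum_nonneg fun _ _ => by positivity

lemma continuous_kk (u : Fin s → R.MK.B) : Continuous (kk u) :=
  continuous_finsetSum _ fun i _ => (continuous_evK (u i)).norm.pow 2

/-- the weight `kk^{-(N-1)/N}` -/
def kw (N : ℕ) (u : Fin s → R.MK.B) (y : R.MK.Pts) : ℝ≥0∞ :=
  (ENNReal.ofReal (kk u y)) ^ (-((N - 1 : ℝ) / N))




/-- `(∑ a_i)^t ≤ ∑ a_i^t` for `0 < t ≤ 1` -/
lemma sum_rpow_le {ι : Type*} (s : Finset ι) (a : ι → ℝ≥0∞) {t : ℝ} (ht : 0 < t) (ht1 : t ≤ 1) :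
    (∑ i ∈ s, a i) ^ t ≤ ∑ i ∈ s, a i ^ t := by
  classical
  induction s using Finset.induction_on with
  | empty => simp [ENNReal.zero_rpow_of_pos ht]
  | insert i s hi ih =>
    rw [Finset.sum_insert hi, Finset.sum_insert hi]
    exact (ENNReal.rpow_add_le_add_rpow _ _ ht.le ht1).trans (add_le_add_right ih _)

lemma kk_rpow_le {N : ℕ} (hN : 0 < N) (u : Fin s → R.MK.B) (y : R.MK.Pts) :
    ENNReal.ofReal (kk u y) ^ (1 / N : ℝ) ≤ ∑ i, ‖y (u i)‖ₑ ^ (2 / N : ℝ) := by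
  have hN1 : (1 : ℝ) ≤ N := by exact_mod_cast hN
  have hN0 : (0 : ℝ) < N := by linarith
  have h1 : ENNReal.ofReal (kk u y) = ∑ i, ‖y (u i)‖ₑ ^ (2 : ℕ) := by
    unfold kk
    rw [ENNReal.ofReal_sum_of_nonneg fun _ _ => by positivity]
    refine Finset.sum_congr rfl fun i _ => ?_
    rw [ENNReal.ofReal_pow (norm_nonneg _), ofReal_norm]
  rw [h1]
  refine (sum_rpow_le _ _ (by positivity) (by rw [div_le_one hN0]; exact hN1)).trans
    (le_of_eq ?_)
  refine Finset.sum_congr rfl fun i _ => ?_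
  rw [← ENNReal.rpow_natCast, ← ENNReal.rpow_mul]
  congr 1
  push_cast
  ring

/-- `∫ kk^{1/N} < ∞` -/
lemma inE_kk {N : ℕ} (hN : 0 < N) {u : Fin s → R.MK.B} (hu : ∀ i, InW R N fun y => y (u i)) :
    InE R fun y => ENNReal.ofReal (kk u y) ^ (1 / N : ℝ) := by
  have h1 : InE R fun y => ∑ i, ‖y (u i)‖ₑ ^ (2 / N : ℝ) :=
    InE.sum _ (fun i _ => inW_iff_inE.1 (hu i)) fun i =>
      ((continuous_evK (u i)).enorm.measurable).pow_const _
  exact h1.mono ENNReal.one_ne_top fun y => by rw [one_mul]; exact kk_rpow_le hN u y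


/-- `k^{-α} ≥ 1/(1+k)` -/
lemma le_kw {N : ℕ} (hN : 0 < N) (u : Fin s → R.MK.B) (y : R.MK.Pts) :
    ENNReal.ofReal (1 / (1 + kk u y)) ≤ kw N u y := by
  have hN1 : (1 : ℝ) ≤ N := by exact_mod_cast hN
  have hN0 : (0 : ℝ) < N := by linarith
  have ha : 0 ≤ (N - 1 : ℝ) / N := div_nonneg (by linarith) hN0.le
  have ha1 : (N - 1 : ℝ) / N ≤ 1 := by rw [div_le_one hN0]; linarith
  have hk := kk_nonneg u y
  unfold kw
  rw [ENNReal.rpow_neg]
  rw [one_div, ENNReal.ofReal_inv_of_pos (by linarith)]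
  apply ENNReal.inv_le_inv.2
  calc ENNReal.ofReal (kk u y) ^ ((N - 1 : ℝ) / N)
      ≤ ENNReal.ofReal (1 + kk u y) ^ ((N - 1 : ℝ) / N) := by
        gcongr
        linarith
    _ ≤ ENNReal.ofReal (1 + kk u y) ^ (1 : ℝ) := by
        apply ENNReal.rpow_le_rpow_of_exponent_le _ ha1
        rw [← ENNReal.ofReal_one]
        exact ENNReal.ofReal_le_ofReal (by linarith)
    _ = _ := ENNReal.rpow_one _

/-- saturation, algebraicity part -/
theorem alg_of_inE {N : ℕ} (hN : 0 < N) {u : Fin s → R.MK.B} {G : R.MK.Pts → ℂ}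
    (hG : HolB R.MK.z G) (h : InE R fun y => ‖G y‖ₑ ^ 2 * kw N u y) :
    ∃ b : R.MK.B, ∀ y : R.MK.Pts, G y = y b := by
  obtain ⟨p, a, hp, hi⟩ := h
  set p' : MvPolynomial (Fin (m + r)) ℂ := MvPolynomial.rename (Fin.castAdd r) p with hp'
  -- growth of the data
  choose C k l hC hg using fun i => R.MK.growth (u i)
  obtain ⟨Ch, Dh, hCh, hh1, -⟩ := poly_bound R.MK.h
  obtain ⟨Cp, Dp, hCp, hp1, -⟩ := poly_bound p
  set lT : ℕ := ∑ i, l i with hlT
  set kT : ℕ := ∑ i, k i with hkT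
  have hlle : ∀ i, l i ≤ lT := fun i =>
    Finset.single_le_sum (f := l) (fun _ _ => Nat.zero_le _) (Finset.mem_univ i)
  have hkle : ∀ i, k i ≤ kT := fun i =>
    Finset.single_le_sum (f := k) (fun _ _ => Nat.zero_le _) (Finset.mem_univ i)
  clear_value lT kT
  -- `h ^ lT * p'` is the denominator
  set U : R.MK.B := az R.MK.z (R.MK.h ^ lT * p') with hU
  have hU0 : U ≠ 0 := by
    intro h0
    have h1 : (R.MK.h ^ lT * p') = 0 := R.MK.az_injective (by rw [← hU, h0, map_zero])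
    rcases mul_eq_zero.1 h1 with h2 | h2
    · exact pow_ne_zero _ R.MK.h_ne h2
    · rw [hp', map_eq_zero_iff _ (MvPolynomial.rename_injective _ (Fin.castAdd_injective m r))] at h2
      exact hp h2
  have hUy : ∀ y : R.MK.Pts, ‖y U‖ = ‖MvPolynomial.eval (R.MK.pz y) R.MK.h‖ ^ lT *
      ‖MvPolynomial.eval (zc (R.MK.pz y)) p‖ := by
    intro y
    rw [hU, R.MK.apply_az', map_mul, map_pow, norm_mul, norm_pow, hp', eval_rename_castAdd]
  -- the lower bound of the weight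
  obtain ⟨c, M', hc, hW⟩ : ∃ (c : ℝ) (M' : ℕ), 0 < c ∧ ∀ y : R.MK.Pts,
      ENNReal.ofReal (c * ‖y U‖ ^ (2 * 1) / (1 + ∑ i, ‖y (R.MK.z i)‖ ^ 2) ^ M') ≤
        kw N u y * ENNReal.ofReal (wL R p a (R.q y)) := by
    set c0 : ℝ := (Ch * 2 ^ Dh) ^ (2 * lT) * (1 + ∑ i, C i ^ 2) * (Cp * 2 ^ (Dp + a)) with hc0
    have hsum0 : 0 ≤ ∑ i, C i ^ 2 := Finset.sum_nonneg fun _ _ => by positivity
    have hc00 : 0 < c0 := by positivity
    refine ⟨c0⁻¹, 2 * lT * Dh + 2 * kT + (Dp + a), by positivity, fun y => ?_⟩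
    refine le_trans ?_ (mul_le_mul_left (le_kw hN u y) _)
    rw [← ENNReal.ofReal_mul (by have := kk_nonneg u y; positivity)]
    apply ENNReal.ofReal_le_ofReal
    set S : ℝ := 1 + ∑ i, ‖y (R.MK.z i)‖ ^ 2 with hS
    have hS1 : 1 ≤ S := by
      have : 0 ≤ ∑ i, ‖y (R.MK.z i)‖ ^ 2 := Finset.sum_nonneg fun _ _ => by positivity
      rw [hS]; linarith
    have hS0 : 0 < S := by linarith
    have hζS : 1 + ‖R.MK.pz y‖ ≤ 2 * S := AlgLq_464.one_add_norm_le (R.MK.pz y)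
    have hzS : 1 + ‖zc (R.MK.pz y)‖ ≤ 2 * S := by
      have := norm_zc_le (R.MK.pz y)
      linarith
    set H : ℝ := ‖MvPolynomial.eval (R.MK.pz y) R.MK.h‖ with hH
    set Q : ℝ := ‖MvPolynomial.eval (zc (R.MK.pz y)) p‖ with hQ
    have hH0 : 0 ≤ H := norm_nonneg _
    have hQ0 : 0 ≤ Q := norm_nonneg _
    set B0 : ℝ := Ch * (2 * S) ^ Dh with hB0
    have hB1 : 1 ≤ B0 := by
      have : 1 ≤ (2 * S) ^ Dh := one_le_pow₀ (by linarith)
      rw [hB0]; nlinarith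
    have hHB : H ≤ B0 := by
      refine (hh1 _).trans ?_
      rw [hB0]
      gcongr
    have hQB : Q ≤ Cp * (2 * S) ^ Dp := by
      refine (hp1 _).trans ?_
      gcongr
    -- the kernel
    have hu1 : ∀ i, H ^ (2 * lT) * ‖y (u i)‖ ^ 2 ≤ B0 ^ (2 * lT) * (C i ^ 2 * S ^ (2 * kT)) := by
      intro i
      have h1 := hlle i
      have h2 := hkle i
      have h3 : H ^ l i * ‖y (u i)‖ ≤ C i * S ^ k i := hg i y
      have h4 : H ^ lT * ‖y (u i)‖ ≤ B0 ^ lT * (C i * S ^ kT) := by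
        calc H ^ lT * ‖y (u i)‖ = H ^ (lT - l i) * (H ^ l i * ‖y (u i)‖) := by
              rw [← mul_assoc, ← pow_add, Nat.sub_add_cancel h1]
          _ ≤ B0 ^ (lT - l i) * (C i * S ^ k i) := by gcongr
          _ ≤ B0 ^ lT * (C i * S ^ kT) := by
              have e1 : B0 ^ (lT - l i) ≤ B0 ^ lT := pow_le_pow_right₀ hB1 (Nat.sub_le _ _)
              have e2 : S ^ k i ≤ S ^ kT := pow_le_pow_right₀ hS1 h2
              have := hC i
              gcongr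
      calc H ^ (2 * lT) * ‖y (u i)‖ ^ 2 = (H ^ lT * ‖y (u i)‖) ^ 2 := by
            rw [mul_pow, ← pow_mul, mul_comm lT 2]
        _ ≤ (B0 ^ lT * (C i * S ^ kT)) ^ 2 := by gcongr
        _ = _ := by
          rw [mul_pow (B0 ^ lT), ← pow_mul B0, mul_pow (C i), ← pow_mul S, mul_comm lT 2,
            mul_comm kT 2]
    have hkk : H ^ (2 * lT) * (1 + kk u y) ≤
        B0 ^ (2 * lT) * ((1 + ∑ i, C i ^ 2) * S ^ (2 * kT)) := by
      have h1 : H ^ (2 * lT) * kk u y ≤ B0 ^ (2 * lT) * ((∑ i, C i ^ 2) * S ^ (2 * kT)) := by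
        unfold kk
        rw [Finset.mul_sum, Finset.sum_mul, Finset.mul_sum]
        exact Finset.sum_le_sum fun i _ => hu1 i
      have h2 : H ^ (2 * lT) ≤ B0 ^ (2 * lT) * S ^ (2 * kT) := by
        have e1 : H ^ (2 * lT) ≤ B0 ^ (2 * lT) := by gcongr
        have e2 : 1 ≤ S ^ (2 * kT) := one_le_pow₀ hS1
        have e3 : 0 ≤ B0 ^ (2 * lT) := by positivity
        nlinarith
      calc H ^ (2 * lT) * (1 + kk u y) = H ^ (2 * lT) + H ^ (2 * lT) * kk u y := by ring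
        _ ≤ B0 ^ (2 * lT) * S ^ (2 * kT) + B0 ^ (2 * lT) * ((∑ i, C i ^ 2) * S ^ (2 * kT)) :=
          add_le_add h2 h1
        _ = _ := by ring
    have hkk0 := kk_nonneg u y
    have hZ0 : 0 < 1 + ‖zc (R.MK.pz y)‖ := by positivity
    have hwL : wL R p a (R.q y) = Q / (1 + ‖zc (R.MK.pz y)‖) ^ a := by
      unfold wL
      rw [pz_q']
    rw [hwL, hUy y, mul_one, div_mul_div_comm, one_mul, div_le_div_iff₀ (by positivity)
      (by positivity), ← hH, ← hQ]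
    calc c0⁻¹ * (H ^ lT * Q) ^ 2 * ((1 + kk u y) * (1 + ‖zc (R.MK.pz y)‖) ^ a)
        = c0⁻¹ * (H ^ (2 * lT) * (1 + kk u y)) * (Q * (Q * (1 + ‖zc (R.MK.pz y)‖) ^ a)) := by
          rw [mul_pow, ← pow_mul, mul_comm lT 2]; ring
      _ ≤ c0⁻¹ * (B0 ^ (2 * lT) * ((1 + ∑ i, C i ^ 2) * S ^ (2 * kT))) *
            (Q * ((Cp * (2 * S) ^ Dp) * (2 * S) ^ a)) := by
          gcongr
      _ = Q * S ^ (2 * lT * Dh + 2 * kT + (Dp + a)) := by
          rw [hB0, hc0, mul_pow 2 S, mul_pow 2 S, mul_pow 2 S, pow_add S, pow_add S,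
            pow_add S, pow_add 2]
          rw [show (Ch * (2 ^ Dh * S ^ Dh)) ^ (2 * lT) =
            (Ch * 2 ^ Dh) ^ (2 * lT) * S ^ (2 * lT * Dh) by
            rw [← mul_assoc, mul_pow, ← pow_mul S, mul_comm Dh (2 * lT)]]
          field_simp
  refine mem_of_weight R.MK.het hG hU0 one_ne_zero 1 M' hc (fun y _ => hW y) ?_
  refine lt_of_le_of_lt (le_of_eq ?_) hi
  congr 1
  funext y
  rw [ENNReal.ofReal_pow (norm_nonneg _), ofReal_norm]
  ring

end Crest.Agent.R276.SatC_210
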