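import Mathlib
import Crest.Agent.R276.ExtC_723
import Crest.Agent.R276.FlatDefs_236
import Crest.Agent.R276.SatC_210
import Crest.Agent.R276.GroLow_358
import Crest.Agent.R276.CJ_505

-- ▼ part R276/SatC_886
section

/-!
# Row 276 (S0419): SAT (C) (helper886)

`R : RMdl L K m r`, `u : Fin s → R.MK.B`, `α ≥ 0`.  Black box `ClosB R α u` (part (B) of SAT):
every holomorphic `F` on `M_K` with `∫ |F|² / (K^α (1+|z|²)^k) < ∞`, `K = ∑ |u_i|²`, is an
`L`-combination of the `u_i`.  Then for EVERY `w` with `u_i | Fib w` linearly independent, every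
holomorphic `f` on `Fib w` with `∫ |f|² K^{-α} < ∞` is a combination of the `u_i` on `Fib w`
(`clos_of`).  Tools: extension from the fibre (`End_723.ext_fib`, Ohsawa–Takegoshi) and Cramer.
-/

set_option autoImplicit false
set_option linter.unusedSectionVars false

open Set Filter Topology MeasureTheory
open scoped ENNReal Matrix

noncomputable section

namespace Crest.Agent.R276.SatC_886

open Crest.Agent.R271 Crest.Agent.R271.Defs710 Crest.Agent.R271.Ho51 Crest.Agent.R271.Rd692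
open Crest.Agent.R271.Alg255 Crest.Agent.R271.AlgB956
open Crest.Agent.R276.AB2_590 Crest.Agent.R276.Mod1_987 Crest.Agent.R276.End_723
open Crest.Agent.R276.EngU_29 Crest.Agent.R276.FlatDefs_236
open Crest.Agent.R276.Sat_210 (IK IW KK)

/-! ### linear algebra -/

/-- evaluation points for a finite family of linearly independent functions -/
theorem exists_points {Y : Type*} {s : ℕ} {v : Y → Fin s → ℂ}
    (h : ∀ a : Fin s → ℂ, (∀ y, ∑ i, a i * v y i = 0) → a = 0) :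
    ∃ y : Fin s → Y, (Matrix.of fun j i => v (y j) i).det ≠ 0 := by
  classical
  have hspan : Submodule.span ℂ (range v) = ⊤ := by
    by_contra hne
    obtain ⟨f, hf0, hf⟩ := Submodule.exists_le_ker_of_lt_top _ (lt_top_iff_ne_top.2 hne)
    apply hf0
    have h1 : (fun i => f (Pi.single i 1)) = (0 : Fin s → ℂ) := by
      apply h
      intro y
      have h2 : f (v y) = 0 := hf (Submodule.subset_span ⟨y, rfl⟩)
      rw [← h2]
      conv_rhs => rw [pi_eq_sum_univ' (v y)]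
      rw [map_sum]
      refine Finset.sum_congr rfl fun i _ => ?_
      rw [map_smul, smul_eq_mul, mul_comm]
    refine LinearMap.pi_ext' fun i => ?_
    refine LinearMap.ext_ring ?_
    simpa using congrFun h1 i
  obtain ⟨f, hf, hfs, hfi⟩ := Submodule.exists_fun_fin_finrank_span_eq ℂ (range v)
  have hr : Module.finrank ℂ (Submodule.span ℂ (range v)) = s := by
    rw [hspan, finrank_top, Module.finrank_fin_fun]
  choose y hy using hf
  refine ⟨fun j => y (Fin.cast hr.symm j), ?_⟩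
  have h3 : LinearIndependent ℂ (fun j : Fin s => f (Fin.cast hr.symm j)) :=
    hfi.comp _ (Fin.cast_injective _)
  have h4 : (Matrix.of fun j i => v (y (Fin.cast hr.symm j)) i) =
      fun j : Fin s => f (Fin.cast hr.symm j) := by
    funext j i
    rw [Matrix.of_apply, hy]
  rw [h4]
  have h5 := (Matrix.linearIndependent_rows_iff_isUnit
    (A := (fun j : Fin s => f (Fin.cast hr.symm j) : Matrix (Fin s) (Fin s) ℂ))).1 h3
  exact ((Matrix.isUnit_iff_isUnit_det _).1 h5).ne_zero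

variable {L K : Type} [Field L] [Field K] [Algebra ℂ L] [Algebra ℂ K] [Algebra L K]
  [IsScalarTower ℂ L K] {m r : ℕ} (R : RMdl L K m r)

/-! ### local sections of `q` -/

/-- a local section of `q` through `y` -/
theorem exists_section (y : R.MK.Pts) : ∃ σ : R.ML.Pts → R.MK.Pts, σ (R.q y) = y ∧
    ContinuousAt σ (R.q y) ∧ ∀ᶠ w in 𝓝 (R.q y), R.q (σ w) = w := by
  obtain ⟨e, he, hfe⟩ := R.isLocalHomeomorph_φ y
  have hy : e y = (R.q y, R.x y) := (congrFun hfe y).symm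
  have hT : (R.q y, R.x y) ∈ e.target := by
    rw [← hy]
    exact e.map_source he
  have hc : Continuous fun w : R.ML.Pts => (w, R.x y) := by fun_prop
  refine ⟨fun w => e.symm (w, R.x y), ?_, ?_, ?_⟩
  · simp only
    rw [← hy, e.left_inv he]
  · exact (e.symm.continuousAt (x := (R.q y, R.x y)) (by simpa using hT)).comp
      (f := fun w : R.ML.Pts => (w, R.x y)) hc.continuousAt
  · filter_upwards [hc.continuousAt.preimage_mem_nhds (e.open_target.mem_nhds hT)] with w hw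
    have h1 : R.φ (e.symm (w, R.x y)) = e (e.symm (w, R.x y)) := congrFun hfe _
    rw [e.right_inv hw] at h1
    exact congrArg Prod.fst h1

/-- a nonzero polynomial does not vanish near any point -/
theorem frequently_eval_ne {n : ℕ} {P : MvPolynomial (Fin n) ℂ} (hP : P ≠ 0) (a : Fin n → ℂ) :
    ∃ᶠ z in 𝓝 a, MvPolynomial.eval z P ≠ 0 := by
  have h1 := Null956.ae_eval_ne hP
  rw [Filter.Frequently]
  intro hcon
  simp only [ne_eq, not_not] at hcon
  obtain ⟨U, hU, hUo, haU⟩ := mem_nhds_iff.1 hcon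
  have h2 : 0 < volume U := hUo.measure_pos volume ⟨a, haU⟩
  have h3 : volume U = 0 := by
    rw [ae_iff] at h1
    refine measure_mono_null ?_ h1
    intro z hz
    simpa using hU hz
  exact h2.ne' h3

/-- a nonzero element of the coordinate ring does not vanish near any point -/
theorem frequently_ne_zero {K₀ : Type} [Field K₀] [Algebra ℂ K₀] {n : ℕ} (M : Mdl K₀ n) {d : M.B}
    (hd : d ≠ 0) (w : M.Pts) : ∃ᶠ w' in 𝓝 w, (w' : M.B →ₐ[ℂ] ℂ) d ≠ 0 := by
  obtain ⟨p, hp, c', hc'⟩ := exists_poly_dvd M.het hd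
  have h1 : ∃ᶠ ζ in 𝓝 (M.pz w), MvPolynomial.eval ζ p ≠ 0 := frequently_eval_ne hp _
  have h2 : ∃ᶠ ζ in 𝓝 (cp w), MvPolynomial.eval ζ p ≠ 0 := h1
  have h3 : Tendsto (ch w).symm (𝓝 (cp w)) (𝓝 w) := by
    have h4 : ContinuousAt (ch w).symm (cp w) :=
      (ch w).symm.continuousAt (by simpa using (isCh_ch w).cp_mem (mem_ch w))
    have h5 := h4.tendsto
    rwa [(isCh_ch w).symm_cp (mem_ch w)] at h5
  refine h3.frequently (h2.mp ?_)
  filter_upwards [(ch w).open_target.mem_nhds ((isCh_ch w).cp_mem (mem_ch w))] with ζ hζ hne hd0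
  apply hne
  have h6 : M.pz ((ch w).symm ζ) = ζ := (isCh_ch w).cp_symm hζ
  have h7 := M.apply_az' ((ch w).symm ζ) p
  rw [h6] at h7
  rw [← h7]
  have h8 : az M.z p = d * c' := hc'
  rw [h8, map_mul, hd0, zero_mul]

/-! ### Cramer -/

variable {R} {s : ℕ}

/-- **Cramer**: a continuous function `F` on `M_K` which is generically an `L`-combination of the
`u_i` is a combination of the `u_i` on EVERY fibre on which the `u_i` are independent. -/
theorem comb_of_generic (u : Fin s → R.MK.B) {F : R.MK.Pts → ℂ} (hF : Continuous F) {d : R.ML.B}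
    (hd : d ≠ 0) (a : Fin s → R.ML.B)
    (hrel : ∀ y : R.MK.Pts, (R.q y : R.ML.B →ₐ[ℂ] ℂ) d * F y =
      ∑ i, (R.q y : R.ML.B →ₐ[ℂ] ℂ) (a i) * (y : R.MK.B →ₐ[ℂ] ℂ) (u i))
    (w : R.ML.Pts) (hw : ∀ c : Fin s → ℂ, (∀ y : R.Fib w, ∑ i, c i * sg u w y i = 0) → c = 0) :
    ∃ b : Fin s → ℂ, ∀ y : R.Fib w, F y.val = ∑ i, b i * sg u w y i := by
  classical
  obtain ⟨Y, hY⟩ := exists_points (v := fun y : R.Fib w => sg u w y) hw
  have hq : ∀ j, R.q (Y j).val = w := fun j => (Y j).q_eq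
  choose σ hσ0 hσc hσq using fun j => exists_section R (Y j).val
  simp only [hq] at hσ0 hσc hσq
  have hu : ∀ i, Continuous fun y : R.MK.Pts => (y : R.MK.B →ₐ[ℂ] ℂ) (u i) := fun i =>
    continuous_ev _
  set U : R.ML.Pts → Matrix (Fin s) (Fin s) ℂ := fun w' =>
    Matrix.of fun j i => (σ j w' : R.MK.B →ₐ[ℂ] ℂ) (u i) with hU
  have hUw : U w = Matrix.of fun j i => sg u w (Y j) i := by
    ext j i
    simp only [hU, Matrix.of_apply, hσ0]
    rfl
  have hUc : ContinuousAt U w := by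
    refine continuousAt_pi.2 fun j => continuousAt_pi.2 fun i => ?_
    exact ContinuousAt.comp (g := fun y : R.MK.Pts => (y : R.MK.B →ₐ[ℂ] ℂ) (u i))
      (f := σ j) (hu i).continuousAt (hσc j)
  have hdet : (U w).det ≠ 0 := by rw [hUw]; exact hY
  have hdetc : ContinuousAt (fun w' => (U w').det) w :=
    ContinuousAt.comp (g := Matrix.det) (f := U) (Continuous.matrix_det continuous_id).continuousAt
      hUc
  set b : R.ML.Pts → Fin s → ℂ := fun w' => (U w')⁻¹ *ᵥ (fun j => F (σ j w')) with hb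
  have hinvc : ContinuousAt (fun w' => (U w')⁻¹) w := by
    have h1 : (fun w' => (U w')⁻¹) = fun w' => ((U w').det)⁻¹ • (U w').adjugate := by
      funext w'
      rw [Matrix.inv_def, Ring.inverse_eq_inv']
    rw [h1]
    refine (hdetc.inv₀ hdet).smul ?_
    exact ContinuousAt.comp (g := Matrix.adjugate) (f := U)
      (Continuous.matrix_adjugate continuous_id).continuousAt hUc
  have hbc : ContinuousAt b w := by
    refine continuousAt_pi.2 fun i => ?_
    have h1 : ∀ j, ContinuousAt (fun w' => (U w')⁻¹ i j) w := fun j =>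
      (continuousAt_pi.1 (continuousAt_pi.1 hinvc i)) j
    have h2 : ∀ j, ContinuousAt (fun w' => F (σ j w')) w := fun j =>
      ContinuousAt.comp (g := F) (f := σ j) hF.continuousAt (hσc j)
    have h3 : (fun w' => b w' i) = fun w' => ∑ j, (U w')⁻¹ i j * F (σ j w') := by
      funext w'
      rfl
    rw [h3]
    exact tendsto_finsetSum _ fun j _ => (h1 j).mul (h2 j)
  refine ⟨b w, fun y => ?_⟩
  obtain ⟨τ, hτ0, hτc, hτq⟩ := exists_section R y.val
  rw [y.q_eq] at hτ0 hτc hτq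
  -- near `w`, off `{d = 0}`
  have hfr := frequently_ne_zero R.ML hd w
  have hdet' : ∀ᶠ w' in 𝓝 w, (U w').det ≠ 0 := hdetc.eventually_ne hdet
  have hσq' : ∀ᶠ w' in 𝓝 w, ∀ j, R.q (σ j w') = w' := eventually_all.2 hσq
  have key : ∃ᶠ w' in 𝓝 w, F (τ w') - ∑ i, b w' i * (τ w' : R.MK.B →ₐ[ℂ] ℂ) (u i) = 0 := by
    refine hfr.mp ?_
    filter_upwards [hdet', hσq', hτq] with w' h1 h2 h3 h4
    have h5 : U w' *ᵥ (fun i => (w' : R.ML.B →ₐ[ℂ] ℂ) (a i) / (w' : R.ML.B →ₐ[ℂ] ℂ) d) =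
        fun j => F (σ j w') := by
      funext j
      have h6 := hrel (σ j w')
      rw [h2 j] at h6
      simp only [Matrix.mulVec, dotProduct, hU, Matrix.of_apply]
      rw [eq_comm, ← mul_right_inj' h4, h6, Finset.mul_sum]
      refine Finset.sum_congr rfl fun i _ => ?_
      field_simp
    have h7 : b w' = fun i => (w' : R.ML.B →ₐ[ℂ] ℂ) (a i) / (w' : R.ML.B →ₐ[ℂ] ℂ) d := by
      simp only [hb]
      rw [← h5, Matrix.mulVec_mulVec, Matrix.nonsing_inv_mul _ (Ne.isUnit h1), Matrix.one_mulVec]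
    rw [h7]
    have h8 := hrel (τ w')
    rw [h3] at h8
    rw [sub_eq_zero, ← mul_right_inj' h4, h8, Finset.mul_sum]
    refine Finset.sum_congr rfl fun i _ => ?_
    field_simp
  have hcont : ContinuousAt (fun w' => F (τ w') -
      ∑ i, b w' i * (τ w' : R.MK.B →ₐ[ℂ] ℂ) (u i)) w := by
    refine (ContinuousAt.comp (g := F) (f := τ) hF.continuousAt hτc).sub ?_
    refine tendsto_finsetSum _ fun i _ => ?_
    exact ((continuousAt_pi.1 hbc i).mul (ContinuousAt.comp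
      (g := fun y : R.MK.Pts => (y : R.MK.B →ₐ[ℂ] ℂ) (u i)) (f := τ) (hu i).continuousAt hτc))
  have h0 : F (τ w) - ∑ i, b w i * (τ w : R.MK.B →ₐ[ℂ] ℂ) (u i) = 0 := by
    by_contra hne
    have h9 := hcont.eventually_ne hne
    obtain ⟨w', h10, h11⟩ := (key.and_eventually h9).exists
    exact h11 h10
  rw [hτ0, sub_eq_zero] at h0
  exact h0

/-! ### the closure condition on every fibre -/

/-- the weight `(∑ |u_i|²)^α` on `M_K` -/
def Bw (u : Fin s → R.MK.B) (α : ℝ) (y : R.MK.Pts) : ℝ :=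
  (∑ i, ‖(y : R.MK.B →ₐ[ℂ] ℂ) (u i)‖ ^ 2) ^ α

lemma lpsh_Bw (u : Fin s → R.MK.B) {α : ℝ} (hα : 0 ≤ α) (l : ℕ) :
    LPsh (fun y : R.MK.Pts => Bw u α y ^ l) := by
  refine LPsh.pow ?_ l
  unfold Bw
  exact LPsh.rpow (LPsh.sum_hol Finset.univ fun i _ => R.MK.hol51_ev (u i)) hα

lemma KK_eq {X : Type*} [MeasurableSpace X] (v : Fin s → X → ℂ) (x : X) :
    KK v x = ENNReal.ofReal (∑ i, ‖v i x‖ ^ 2) := by
  unfold KK
  rw [ENNReal.ofReal_sum_of_nonneg fun i _ => by positivity]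
  refine Finset.sum_congr rfl fun i _ => ?_
  rw [← ofReal_norm, ENNReal.ofReal_rpow_of_nonneg (norm_nonneg _) (by norm_num), Real.rpow_two]

lemma ofReal_Bw_inv (u : Fin s → R.MK.B) {α : ℝ} (hα : 0 ≤ α) {w : R.ML.Pts} (x : R.Fib w) :
    KK (fun i y => sg u w y i) x ^ (-α) = (ENNReal.ofReal (Bw u α x.val))⁻¹ := by
  rw [KK_eq, ENNReal.rpow_neg]
  congr 1
  unfold Bw sg
  rw [ENNReal.ofReal_rpow_of_nonneg (Finset.sum_nonneg fun i _ => by positivity) hα]

/-- BLACK BOX (B): `F` holomorphic on `M_K` with `∫ |F|² / (K^α (1+|z|²)^k) < ∞` is an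
`L`-combination of the `u_i` -/
def ClosB (R : RMdl L K m r) (α : ℝ) (u : Fin s → R.MK.B) : Prop :=
  ∀ F : (R.MK.B →ₐ[ℂ] ℂ) → ℂ, HolB R.MK.z F →
    (∃ k : ℕ, Fin2 (etChart R.MK) (Bw u α) (sb m r) 1 k F) →
    ∃ d : R.ML.B, d ≠ 0 ∧ ∃ a : Fin s → R.ML.B, ∀ y : R.MK.Pts,
      (R.q y : R.ML.B →ₐ[ℂ] ℂ) d * F y =
        ∑ i, (R.q y : R.ML.B →ₐ[ℂ] ℂ) (a i) * (y : R.MK.B →ₐ[ℂ] ℂ) (u i)

/-- **(C) of SAT**: the closure condition on EVERY fibre with independent sections -/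
theorem clos_of {α : ℝ} (hα : 0 ≤ α) (u : Fin s → R.MK.B) (hB : ClosB R α u)
    (w : R.ML.Pts) (hw : ∀ c : Fin s → ℂ, (∀ y : R.Fib w, ∑ i, c i * sg u w y i = 0) → c = 0)
    (f : R.Fib w → ℂ) (hf : Ho51.Hol f)
    (hint : IK (nu R w) α f (fun i y => sg u w y i) ≠ ∞) :
    ∃ b : Fin s → ℂ, ∀ y : R.Fib w, f y = ∑ i, b i * sg u w y i := by
  have hint' : ∫⁻ x, ENNReal.ofReal (‖f x‖ ^ 2) / ENNReal.ofReal (Bw u α x.val ^ 1) ∂(nu R w) <
      ∞ := by
    refine lt_of_eq_of_lt ?_ (lt_top_iff_ne_top.2 hint)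
    unfold IK
    refine lintegral_congr fun x => ?_
    rw [ofReal_Bw_inv u hα, pow_one, ← ofReal_norm,
      ENNReal.ofReal_rpow_of_nonneg (norm_nonneg _) (by norm_num), Real.rpow_two, div_eq_mul_inv]
  obtain ⟨F, hF, hFf, hFi⟩ := ext_fib R otSlice restrLPsh (lpsh_Bw u hα 1) (nu_leb R w) f hf hint'
  obtain ⟨d, hd, a, hrel⟩ := hB F hF ⟨_, hFi⟩
  have hFc : Continuous F := by
    have h1 : AB2_590.HolA (M := (R.MK.B →ₐ[ℂ] ℂ)) F := (holA_iff R.MK.hch).2 hF
    have h2 : Ho51.Hol (M := (R.MK.B →ₐ[ℂ] ℂ)) F := hol51_iff.2 h1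
    exact (Crest.Agent.R273.OTA_34.hol_of _ h2).sm.continuous
  obtain ⟨b, hb⟩ := comb_of_generic u hFc hd a hrel w hw
  exact ⟨b, fun y => by rw [← hFf, hb]⟩

end Crest.Agent.R276.SatC_886
end
end

-- ▼ part R276/SatC2_886

/-!
# Row 276 (S0419): SAT (C2), (D) (helper886)

`R : RMdl L K m r`, `u : Fin s → R.MK.B`, `N > 0`, weight `kw N u = (∑ ‖u_i‖²)^{-(N-1)/N}` (210).

* `closB_of` : black box `ClosB` from (B2) "`b ∈ B_K`, `∫ |b|² kw < ∞` (weighted) implies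
  `b ∈ span_L u`" (and 210's `alg_of_inE`);
* `exists_indep` : `u` linearly independent over `L` implies independence on the fibres over the
  complement of a hypersurface;
* `ae_fin` : `u_i ∈ InW` implies `Phi N u w a < ∞` for all `w` over almost every point of `ℂ^m`;
* `sat_clos` : `indep` and `clos` of `SatFam` off a hypersurface.
-/

set_option autoImplicit false
set_option linter.unusedSectionVars false

open Set Filter Topology MeasureTheory
open scoped ENNReal Matrix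

noncomputable section

namespace Crest.Agent.R276.SatC_886

open Crest.Agent.R271 Crest.Agent.R271.Defs710 Crest.Agent.R271.Ho51 Crest.Agent.R271.Rd692
open Crest.Agent.R271.Alg255 Crest.Agent.R271.AlgB956
open Crest.Agent.R276.AB2_590 Crest.Agent.R276.Mod1_987 Crest.Agent.R276.End_723
open Crest.Agent.R276.EngU_29 Crest.Agent.R276.FlatDefs_236
open Crest.Agent.R276.Sat_210 (IK IW KK)

variable {L K : Type} [Field L] [Field K] [Algebra ℂ L] [Algebra ℂ K] [Algebra L K]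
  [IsScalarTower ℂ L K] {m r : ℕ} {R : RMdl L K m r} {s : ℕ}

/-! ### from `Fin2` to 210's `InE` -/

lemma tn_le (y : R.MK.Pts) : tn (etChart R.MK) (sb m r) y ≤
    (1 + m) * (1 + ‖R.ML.pz (R.q y)‖) ^ 2 := by
  unfold tn sb
  rw [Finset.sum_map]
  have h1 : ∀ i : Fin m, ‖(y : R.MK.B →ₐ[ℂ] ℂ)
      (BC_986.zA (etChart R.MK) (Fin.castAddEmb r i))‖ ^ 2 ≤ ‖R.ML.pz (R.q y)‖ ^ 2 := by
    intro i
    have h2 : (y : R.MK.B →ₐ[ℂ] ℂ) (BC_986.zA (etChart R.MK) (Fin.castAddEmb r i)) =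
        R.ML.pz (R.q y) i := (R.pz_q y i).symm
    rw [h2]
    gcongr
    exact norm_le_pi_norm _ i
  have h3 := Finset.sum_le_sum fun (i : Fin m) (_ : i ∈ Finset.univ) => h1 i
  rw [Finset.sum_const, Finset.card_univ, Fintype.card_fin, nsmul_eq_mul] at h3
  have h4 : 0 ≤ ‖R.ML.pz (R.q y)‖ := norm_nonneg _
  have h5 : (0 : ℝ) ≤ m := Nat.cast_nonneg m
  nlinarith [mul_nonneg h5 h4]

/-- the weights of `Fin2` and `InE` -/
lemma inE_of_fin2 {N : ℕ} (hN : 0 < N) {u : Fin s → R.MK.B} {F : R.MK.Pts → ℂ} {k : ℕ}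
    (h : End_723.Fin2 (etChart R.MK) (Bw u (((N : ℝ) - 1) / N)) (sb m r) 1 k F) :
    SatC_210.InE R fun y => ‖F y‖ₑ ^ 2 * SatC_210.kw N u y := by
  have hN1 : (1 : ℝ) ≤ N := by exact_mod_cast hN
  have hα : 0 ≤ ((N : ℝ) - 1) / N := div_nonneg (by linarith) (by linarith)
  refine ⟨1, 2 * k, one_ne_zero, ?_⟩
  unfold End_723.Fin2 at h
  rw [zA_etChart] at h
  set C : ℝ := (1 + (m : ℝ)) ^ k with hC
  have hC0 : 0 < C := by positivity
  refine lt_of_le_of_lt (lintM_mono _ (g := fun y => ENNReal.ofReal C * (ENNReal.ofReal (‖F y‖ ^ 2) *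
    (ENNReal.ofReal (Bw u (((N : ℝ) - 1) / N) y ^ 1 * tn (etChart R.MK) (sb m r) y ^ k))⁻¹))
    fun y => ?_) ?_
  · have ht1 := one_le_tn (etChart R.MK) (sb m r) y
    set t := tn (etChart R.MK) (sb m r) y with ht
    have ht0 : 0 < t := by linarith
    have hB0 : 0 ≤ Bw u (((N : ℝ) - 1) / N) y := by unfold Bw; positivity
    have h1 : SatC_210.kw N u y = (ENNReal.ofReal (Bw u (((N : ℝ) - 1) / N) y))⁻¹ := by
      unfold SatC_210.kw Bw SatC_210.kk
      rw [ENNReal.rpow_neg, ENNReal.ofReal_rpow_of_nonneg (by positivity) hα]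
    have h2 : SatB_210.wL R 1 (2 * k) (R.q y) ≤ C * (t ^ k)⁻¹ := by
      unfold SatB_210.wL
      rw [map_one, norm_one]
      have h3 := tn_le y
      rw [← ht] at h3
      have h4 : t ^ k ≤ C * (1 + ‖R.ML.pz (R.q y)‖) ^ (2 * k) := by
        calc t ^ k ≤ ((1 + m) * (1 + ‖R.ML.pz (R.q y)‖) ^ 2) ^ k :=
              pow_le_pow_left₀ ht0.le h3 k
          _ = _ := by rw [mul_pow, ← pow_mul]
      rw [div_le_iff₀ (by positivity), mul_assoc, mul_comm, mul_assoc, ← div_eq_inv_mul,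
        le_div_iff₀ (by positivity), one_mul, mul_comm]
      exact h4
    beta_reduce
    rw [h1, pow_one, ENNReal.ofReal_mul hB0, ENNReal.mul_inv (Or.inr ENNReal.ofReal_ne_top)
      (Or.inr (by simpa using pow_pos ht0 k)), ← ENNReal.ofReal_inv_of_pos (pow_pos ht0 k)]
    have h5 : ENNReal.ofReal (SatB_210.wL R 1 (2 * k) (R.q y)) ≤
        ENNReal.ofReal C * ENNReal.ofReal (t ^ k)⁻¹ := by
      rw [← ENNReal.ofReal_mul hC0.le]
      exact ENNReal.ofReal_le_ofReal h2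
    have h6 : ‖F y‖ₑ ^ 2 = ENNReal.ofReal (‖F y‖ ^ 2) := by
      rw [← ofReal_norm, ENNReal.ofReal_pow (norm_nonneg _)]
    rw [h6]
    calc ENNReal.ofReal (‖F y‖ ^ 2) * (ENNReal.ofReal (Bw u (((N : ℝ) - 1) / N) y))⁻¹ *
          ENNReal.ofReal (SatB_210.wL R 1 (2 * k) (R.q y))
        ≤ ENNReal.ofReal (‖F y‖ ^ 2) * (ENNReal.ofReal (Bw u (((N : ℝ) - 1) / N) y))⁻¹ *
          (ENNReal.ofReal C * ENNReal.ofReal (t ^ k)⁻¹) := by gcongr
      _ = _ := by ring
  · rw [SatB_210.lintM_const_mul _ _ ENNReal.ofReal_ne_top]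
    exact ENNReal.mul_lt_top ENNReal.ofReal_lt_top h

/-- common denominators -/
lemma exists_den (u : Fin s → R.MK.B) {b : R.MK.B}
    (hb : (b : K) ∈ Submodule.span L (range fun i => (u i : K))) :
    ∃ d : R.ML.B, d ≠ 0 ∧ ∃ a : Fin s → R.ML.B, R.incl d * b = ∑ i, R.incl (a i) * u i := by
  obtain ⟨c, hc⟩ := (Submodule.mem_span_range_iff_exists_fun L).1 hb
  choose x y hy hxy using fun i => R.ML.frac (c i)
  refine ⟨∏ j, y j, Finset.prod_ne_zero_iff.2 fun j _ => hy j,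
    fun i => x i * ∏ j ∈ Finset.univ.erase i, y j, ?_⟩
  apply Subtype.ext
  push_cast
  simp only [RMdl.incl_coe]
  rw [← hc, Finset.mul_sum]
  refine Finset.sum_congr rfl fun i _ => ?_
  rw [Algebra.smul_def, ← mul_assoc]
  congr 1
  rw [← map_mul]
  congr 1
  rw [hxy i]
  have h0 : (y i : L) ≠ 0 := fun h => hy i (Subtype.ext h)
  have h1 : (∏ j, (y j : L)) = (y i : L) * ∏ j ∈ Finset.univ.erase i, (y j : L) :=
    (Finset.mul_prod_erase _ _ (Finset.mem_univ i)).symm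
  push_cast
  rw [h1]
  field_simp

/-- the black box `ClosB` from (B2) -/
theorem closB_of {N : ℕ} (hN : 0 < N) {u : Fin s → R.MK.B}
    (hB : ∀ b : R.MK.B, SatC_210.InE R (fun y => ‖(y : R.MK.B →ₐ[ℂ] ℂ) b‖ₑ ^ 2 * SatC_210.kw N u y) →
      (b : K) ∈ Submodule.span L (range fun i => (u i : K))) :
    ClosB R (((N : ℝ) - 1) / N) u := by
  rintro F hF ⟨k, hk⟩
  have h1 := inE_of_fin2 hN hk
  obtain ⟨b, hb⟩ := SatC_210.alg_of_inE hN hF h1
  have h2 : SatC_210.InE R (fun y => ‖(y : R.MK.B →ₐ[ℂ] ℂ) b‖ₑ ^ 2 * SatC_210.kw N u y) := by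
    have h3 : (fun y : R.MK.Pts => ‖F y‖ₑ ^ 2 * SatC_210.kw N u y) =
        fun y : R.MK.Pts => ‖(y : R.MK.B →ₐ[ℂ] ℂ) b‖ₑ ^ 2 * SatC_210.kw N u y := by
      funext y
      rw [hb]
    rw [← h3]
    exact h1
  obtain ⟨d, hd, a, ha⟩ := exists_den u (hB b h2)
  refine ⟨d, hd, a, fun y => ?_⟩
  have h4 := congrArg (fun c => (y : R.MK.B →ₐ[ℂ] ℂ) c) ha
  simp only [map_mul, map_sum] at h4
  rw [hb]
  simpa only [RMdl.q_apply] using h4

/-! ### independence on the fibres -/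

/-- 358's relative model -/
def rel' (R : RMdl L K m r) : Gram1_358.Rel R.ML R.MK where
  inc := R.incl
  inc_val _ := rfl
  hz i := Subtype.ext (R.z_eq i)

/-- independence over `L` implies independence on the fibres off a hypersurface -/
theorem exists_indep {u : Fin s → R.MK.B} (hu : LinearIndependent L fun i => (u i : K)) :
    ∃ P : MvPolynomial (Fin m) ℂ, P ≠ 0 ∧ ∀ w : R.ML.Pts, MvPolynomial.eval (R.ML.pz w) P ≠ 0 →
      ∀ a : Fin s → ℂ, (∀ y : R.Fib w, ∑ i, a i * sg u w y i = 0) → a = 0 := by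
  obtain ⟨P0, hP0, h⟩ := GroLow_358.gro_low' (rel' R) u hu one_pos
  obtain ⟨c, A, B, hc, h1⟩ := h P0 dvd_rfl
  refine ⟨P0, hP0, fun w hw a ha => ?_⟩
  by_contra hne
  have h2 := h1 w hw a
  have h3 : (GroLow_358.toFSp (rel' R)).fint w (fun y => ‖∑ i, a i * y (u i)‖ₑ ^ (1 : ℝ)) =
      R.fint w fun y => ‖∑ i, a i * (y : R.MK.B →ₐ[ℂ] ℂ) (u i)‖ₑ ^ (1 : ℝ) := rfl
  have h4 : (R.fint w fun y => ‖∑ i, a i * (y : R.MK.B →ₐ[ℂ] ℂ) (u i)‖ₑ ^ (1 : ℝ)) = 0 := by
    unfold RMdl.fint RMdl.fsumR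
    have h5 : ∀ ξ, ∑' y : {y : R.MK.Pts // R.q y = w ∧ R.x y = ξ},
        ‖∑ i, a i * (y.1 : R.MK.B →ₐ[ℂ] ℂ) (u i)‖ₑ ^ (1 : ℝ) = 0 := by
      intro ξ
      rw [ENNReal.tsum_eq_zero]
      rintro ⟨y, hy, -⟩
      have h6 : ∑ i, a i * (y : R.MK.B →ₐ[ℂ] ℂ) (u i) = 0 := ha ⟨y, hy⟩
      simp only [h6, enorm_zero]
      simp
    simp only [h5, lintegral_zero]
  rw [h3, h4] at h2
  have h7 := ENNReal.ofReal_eq_zero.1 (nonpos_iff_eq_zero.1 h2)
  have h8 : 0 < ‖a‖ := norm_pos_iff.2 hne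
  have h9 : 0 < ‖MvPolynomial.eval (R.ML.pz w) P0‖ := norm_pos_iff.2 hw
  have h10 : 0 < c * ‖MvPolynomial.eval (R.ML.pz w) P0‖ ^ A /
      (1 + ∑ i, ‖R.ML.pz w i‖ ^ 2) ^ B * ‖a‖ ^ (1 : ℝ) := by positivity
  linarith

/-! ### finiteness almost everywhere -/

/-- weighted integrability on `M_K` implies integrability on almost all fibres -/
theorem ae_fint_of_inE {g : R.MK.Pts → ℝ≥0∞} (hg : Measurable g) (h : SatC_210.InE R g) :
    ∀ᵐ c : Cn m, ∀ w : R.ML.Pts, R.ML.pz w = c → R.fint w g < ∞ := by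
  obtain ⟨p, a, hp, hi⟩ := h
  obtain ⟨μ, hμ⟩ := R.MK.exists_leb
  have hm : Measurable fun y : R.MK.Pts => g y * ENNReal.ofReal (SatB_210.wL R p a (R.q y)) :=
    hg.mul (((SatB_210.continuous_wL R p a).comp R.continuous_q).measurable.ennreal_ofReal)
  rw [R.MK.lintM_eq hμ hm] at hi
  filter_upwards [CJ_505.ae_fint R hμ hm hi.ne, Null956.ae_eval_ne hp] with c hc hpc w hw
  have h1 := hc w hw
  have hw0 : 0 < SatB_210.wL R p a w := by
    unfold SatB_210.wL
    rw [hw]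
    have h2 : 0 < ‖MvPolynomial.eval c p‖ := norm_pos_iff.2 hpc
    positivity
  have h3 : R.fint w (fun y => g y * ENNReal.ofReal (SatB_210.wL R p a (R.q y))) =
      R.fint w g * ENNReal.ofReal (SatB_210.wL R p a w) := by
    unfold RMdl.fint RMdl.fsumR
    rw [← lintegral_mul_const' _ _ ENNReal.ofReal_ne_top]
    refine lintegral_congr fun ξ => ?_
    rw [← ENNReal.tsum_mul_right]
    refine tsum_congr fun y => ?_
    beta_reduce
    rw [y.2.1]
  rw [h3] at h1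
  by_contra hcon
  rw [not_lt, top_le_iff] at hcon
  rw [hcon, ENNReal.top_mul (by simpa using hw0)] at h1
  exact lt_irrefl _ h1



/-- **SAT, `indep` and `clos`** off a hypersurface, from (B2) -/
theorem sat_clos {N : ℕ} (hN : 0 < N) {u : Fin s → R.MK.B}
    (hu : LinearIndependent L fun i => (u i : K))
    (hB : ∀ b : R.MK.B, SatC_210.InE R (fun y => ‖(y : R.MK.B →ₐ[ℂ] ℂ) b‖ₑ ^ 2 * SatC_210.kw N u y) →
      (b : K) ∈ Submodule.span L (range fun i => (u i : K))) :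
    ∃ P : MvPolynomial (Fin m) ℂ, P ≠ 0 ∧ ∀ w : R.ML.Pts, MvPolynomial.eval (R.ML.pz w) P ≠ 0 →
      (∀ a : Fin s → ℂ, (∀ y : R.Fib w, ∑ i, a i * sg u w y i = 0) → a = 0) ∧
      ∀ f : R.Fib w → ℂ, Ho51.Hol f →
        IK (nu R w) (((N : ℝ) - 1) / N) f (fun i y => sg u w y i) ≠ ∞ →
        ∃ b : Fin s → ℂ, ∀ y : R.Fib w, f y = ∑ i, b i * sg u w y i := by
  obtain ⟨P, hP, h⟩ := exists_indep hu
  have hN1 : (1 : ℝ) ≤ N := by exact_mod_cast hN
  have hα : 0 ≤ ((N : ℝ) - 1) / N := div_nonneg (by linarith) (by linarith)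
  exact ⟨P, hP, fun w hw => ⟨h w hw, fun f hf hint =>
    clos_of hα u (closB_of hN hB) w (h w hw) f hf hint⟩⟩

end Crest.Agent.R276.SatC_886
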