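import Mathlib
import Crest.Agent.R276.FKDefs_779
import Crest.Agent.R271.Br2_958

-- ▼ part R276/PFinA_337
section

/-!
# Row 276, PFIN part A (helper337): coordinates of differentials, change of basis of the Jacobian,
the bound for the Jacobian over the integral closure of a stable subring.
-/

set_option autoImplicit false

noncomputable section

open KaehlerDifferential Crest.Agent.R276.FKDefs_779

namespace Crest.Agent.R276.PFinA_337

section coord

variable {k K : Type*} [Field k] [Field K] [Algebra k K] {n : ℕ}

/-- the coefficients of `dz` in the basis `b` -/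
def co (b : Module.Basis (Fin n) K (Ω[K⁄k])) (i : Fin n) (z : K) : K := b.repr (D k K z) i

variable (b : Module.Basis (Fin n) K (Ω[K⁄k]))

lemma co_add (i : Fin n) (x y : K) : co b i (x + y) = co b i x + co b i y := by
  simp [co]

lemma co_mul (i : Fin n) (x y : K) : co b i (x * y) = x * co b i y + y * co b i x := by
  simp [co]


lemma co_zero (i : Fin n) : co b i 0 = 0 := by simp [co]



/-- quotient rule, denominators cleared -/
lemma co_div (i : Fin n) {z u v : K} (h : z * v = u) :
    v * v * co b i z = co b i u * v - u * co b i v := by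
  have h1 := co_mul b i z v
  rw [h] at h1
  rw [h1, ← h]
  ring

lemma jac_eq (z : Fin n → K) : jac k b z = Matrix.det (Matrix.of fun i j => co b i (z j)) := rfl

lemma jac_change (b' : Module.Basis (Fin n) K (Ω[K⁄k])) (z : Fin n → K) :
    jac k b z = b.det b' * jac k b' z := by
  unfold jac
  rw [b.det_apply, b.det_apply, b'.det_apply, ← Matrix.det_mul, b.toMatrix_mul_toMatrix]

lemma det_mul_det (b' : Module.Basis (Fin n) K (Ω[K⁄k])) :
    b.det b' * b'.det b = 1 := by
  rw [b.det_apply, b'.det_apply, ← Matrix.det_mul,
    Module.Basis.toMatrix_mul_toMatrix_flip, Matrix.det_one]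

lemma det_basis_ne_zero (b' : Module.Basis (Fin n) K (Ω[K⁄k])) : b.det b' ≠ 0 :=
  left_ne_zero_of_mul_eq_one (det_mul_det b b')

end coord

section bound

variable {k K : Type*} [Field k] [Field K] [Algebra k K] {n : ℕ}
variable {P : Type*} (E : Type*) [CommRing P] [IsDomain P] [Algebra P K] [Field E] [Algebra P E]
  [IsFractionRing P E] [Algebra E K] [IsScalarTower P E K] [FiniteDimensional E K]

include E

/-- If `P ⊆ K` is stable under the derivations dual to the basis `b`, then there is a common
denominator for the derivatives of all elements of the integral closure of `P`. -/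
theorem exists_bound (b : Module.Basis (Fin n) K (Ω[K⁄k]))
    (hfin : IsNoetherian P (integralClosure P K))
    (hst : ∀ (s : P) (i : Fin n), ∃ t : P, co b i (algebraMap P K s) = algebraMap P K t) :
    ∃ a : P, a ≠ 0 ∧ ∀ z : K, IsIntegral P z → ∀ i, IsIntegral P (algebraMap P K a * co b i z) := by
  classical
  have hfg : (Subalgebra.toSubmodule (integralClosure P K)).FG :=
    (Module.Finite.iff_fg (N := Subalgebra.toSubmodule (integralClosure P K))).mp
      (Module.IsNoetherian.finite P (integralClosure P K))
  obtain ⟨T, hT⟩ := hfg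
  obtain ⟨a, ha, hTa⟩ := exists_integral_multiples P E (L := K)
    ((T ×ˢ Finset.univ).image fun ti : K × Fin n => co b ti.2 ti.1)
  refine ⟨a, ha, ?_⟩
  have hint : ∀ z : K, z ∈ Submodule.span P (T : Set K) ↔ IsIntegral P z := by
    intro z
    rw [hT]
    exact Iff.rfl
  intro z hz
  rw [← hint] at hz
  induction hz using Submodule.span_induction with
  | mem x hx =>
    intro i
    have := hTa (co b i x) (Finset.mem_image.mpr ⟨(x, i), by simpa using hx, rfl⟩)
    rwa [Algebra.smul_def] at this
  | zero => intro i; rw [co_zero, mul_zero]; exact isIntegral_zero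
  | add x y _ _ hx hy => intro i; rw [co_add, mul_add]; exact (hx i).add (hy i)
  | smul s x hxm hx =>
    intro i
    obtain ⟨t, ht⟩ := hst s i
    rw [Algebra.smul_def, co_mul, ht]
    have h1 : algebraMap P K a * (algebraMap P K s * co b i x + x * algebraMap P K t) =
        algebraMap P K s * (algebraMap P K a * co b i x) +
          algebraMap P K (a * t) * x := by
      rw [map_mul]; ring
    rw [h1]
    exact (isIntegral_algebraMap.mul (hx i)).add
      (isIntegral_algebraMap.mul ((hint x).mp hxm))

end bound

section loc

variable {A K : Type*} [CommRing A] [IsDomain A] [Field K] [Algebra A K] [IsFractionRing A K]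

/-- the localisation of `A` at `p` as a valuation subring of the fraction field -/
def locVal (K : Type*) [Field K] [Algebra A K] [IsFractionRing A K] (p : Ideal A) [hp : p.IsPrime]
    (hv : ValuationRing (Localization.AtPrime p)) : ValuationSubring K where
  carrier := {z | ∃ u v : A, v ∉ p ∧ z * algebraMap A K v = algebraMap A K u}
  mul_mem' := by
    rintro z z' ⟨u, v, hv, h⟩ ⟨u', v', hv', h'⟩
    refine ⟨u * u', v * v', fun h0 => (hp.mem_or_mem h0).elim hv hv', ?_⟩
    rw [map_mul, map_mul, ← h, ← h']
    ring
  one_mem' := ⟨1, 1, fun h => hp.ne_top ((Ideal.eq_top_iff_one p).mpr h), by simp⟩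
  add_mem' := by
    rintro z z' ⟨u, v, hv, h⟩ ⟨u', v', hv', h'⟩
    refine ⟨u * v' + u' * v, v * v', fun h0 => (hp.mem_or_mem h0).elim hv hv', ?_⟩
    rw [map_mul, map_add, map_mul, map_mul, ← h, ← h']
    ring
  zero_mem' := ⟨0, 1, fun h => hp.ne_top ((Ideal.eq_top_iff_one p).mpr h), by simp⟩
  neg_mem' := by
    rintro z ⟨u, v, hv, h⟩
    exact ⟨-u, v, hv, by rw [map_neg, ← h]; ring⟩
  mem_or_inv_mem' := by
    intro z
    obtain ⟨u, v, hv0, rfl⟩ := IsFractionRing.div_surjective (A := A) z
    have hv : v ≠ 0 := nonZeroDivisors.ne_zero hv0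
    have hinj : Function.Injective (algebraMap A K) := IsFractionRing.injective A K
    have hv' : algebraMap A K v ≠ 0 := (map_ne_zero_iff _ hinj).mpr hv
    by_cases hu : u = 0
    · left
      exact ⟨0, 1, fun h => hp.ne_top ((Ideal.eq_top_iff_one p).mpr h), by simp [hu]⟩
    have hu' : algebraMap A K u ≠ 0 := (map_ne_zero_iff _ hinj).mpr hu
    have hinj2 : Function.Injective (algebraMap A (Localization.AtPrime p)) :=
      IsLocalization.injective _ (Ideal.primeCompl_le_nonZeroDivisors p)
    have key : ∀ r s : A, algebraMap A (Localization.AtPrime p) r ∣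
        algebraMap A (Localization.AtPrime p) s → ∃ c t : A, t ∉ p ∧ s * t = r * c := by
      rintro r s ⟨d, hd⟩
      obtain ⟨c, t, rfl⟩ := IsLocalization.exists_mk'_eq p.primeCompl d
      refine ⟨c, t, t.2, hinj2 ?_⟩
      rw [map_mul, map_mul, hd, mul_assoc, IsLocalization.mk'_spec]
    rcases ValuationRing.dvd_total (algebraMap A (Localization.AtPrime p) v)
      (algebraMap A (Localization.AtPrime p) u) with h | h
    · left
      obtain ⟨c, t, ht, hct⟩ := key _ _ h
      refine ⟨c, t, ht, ?_⟩
      have := congrArg (algebraMap A K) hct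
      rw [map_mul, map_mul] at this
      field_simp
      exact this
    · right
      obtain ⟨c, t, ht, hct⟩ := key _ _ h
      refine ⟨c, t, ht, ?_⟩
      have := congrArg (algebraMap A K) hct
      rw [map_mul, map_mul] at this
      rw [inv_div]
      field_simp
      exact this

variable {p : Ideal A} [hp : p.IsPrime] {hv : ValuationRing (Localization.AtPrime p)}


lemma algebraMap_mem (a : A) : algebraMap A K a ∈ locVal K p hv :=
  ⟨a, 1, fun h => hp.ne_top ((Ideal.eq_top_iff_one p).mpr h), by simp⟩

lemma valuation_eq_one {v : A} (h : v ∉ p) :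
    (locVal K p hv).valuation (algebraMap A K v) = 1 := by
  have hv0 : v ≠ 0 := by rintro rfl; exact h p.zero_mem
  have hinj : Function.Injective (algebraMap A K) := IsFractionRing.injective A K
  have hv' : algebraMap A K v ≠ 0 := (map_ne_zero_iff _ hinj).mpr hv0
  have h1 : (locVal K p hv).valuation (algebraMap A K v) ≤ 1 :=
    ((locVal K p hv).valuation_le_one_iff _).mpr (algebraMap_mem v)
  have h2 : (locVal K p hv).valuation (algebraMap A K v)⁻¹ ≤ 1 := by
    rw [(locVal K p hv).valuation_le_one_iff]
    exact ⟨1, v, h, by rw [inv_mul_cancel₀ hv', map_one]⟩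
  rw [map_inv₀] at h2
  refine le_antisymm h1 ?_
  have h3 : (locVal K p hv).valuation (algebraMap A K v) ≠ 0 :=
    (Valuation.ne_zero_iff _).mpr hv'
  exact (inv_le_one₀ (zero_lt_iff.mpr h3)).mp h2

lemma ne_top (hp0 : p ≠ ⊥) : locVal K p hv ≠ ⊤ := by
  intro htop
  obtain ⟨u, hu, hu0⟩ := Submodule.exists_mem_ne_zero_of_ne_bot hp0
  have hinj : Function.Injective (algebraMap A K) := IsFractionRing.injective A K
  have hu' : algebraMap A K u ≠ 0 := (map_ne_zero_iff _ hinj).mpr hu0
  have h1 : (algebraMap A K u)⁻¹ ∈ locVal K p hv := by rw [htop]; trivial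
  obtain ⟨w, v, hv', h⟩ := h1
  apply hv'
  have h2 : v = w * u := hinj (by rw [map_mul, ← h]; field_simp)
  rw [h2]
  exact p.mul_mem_left w hu

/-- a height one prime of a Noetherian integrally closed domain gives a valuation ring -/
lemma valuationRing_of_height_one {A : Type*} [CommRing A] [IsDomain A] [IsNoetherianRing A]
    [IsIntegrallyClosed A] (p : Ideal A) [hp : p.IsPrime] (h : p.height = 1) :
    ValuationRing (Localization.AtPrime p) := by
  have hpc : p.primeCompl ≤ nonZeroDivisors A := Ideal.primeCompl_le_nonZeroDivisors p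
  have hic : IsIntegrallyClosed (Localization.AtPrime p) :=
    isIntegrallyClosed_of_isLocalization _ p.primeCompl hpc
  have key : ValuationRing (Localization.AtPrime p) ↔ IsIntegrallyClosed (Localization.AtPrime p) ∧
      ∀ P : Ideal (Localization.AtPrime p), P ≠ ⊥ → P.IsPrime → P = IsLocalRing.maximalIdeal _ :=
    (tfae_of_isNoetherianRing_of_isLocalRing_of_isDomain (Localization.AtPrime p)).out 1 3
  refine key.mpr ⟨hic, ?_⟩
  intro Q hQ hQp
  have h1 : Ideal.map (algebraMap A (Localization.AtPrime p)) (Ideal.under A Q) = Q :=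
    IsLocalization.map_under p.primeCompl _ Q
  have h2 : Ideal.under A (IsLocalRing.maximalIdeal (Localization.AtPrime p)) = p :=
    Localization.AtPrime.under_maximalIdeal
  have h3 : Ideal.under A Q ≤ p :=
    (Ideal.comap_mono (IsLocalRing.le_maximalIdeal_of_isPrime Q)).trans h2.le
  have hprime : (Ideal.under A Q).IsPrime := inferInstance
  rcases h3.lt_or_eq with hlt | heq
  · exfalso
    have h4 := Ideal.height_add_one_le_of_lt_of_isPrime hlt
    rw [h] at h4
    have h5 : (Ideal.under A Q).height = 0 := by
      by_contra h0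
      have : 1 ≤ (Ideal.under A Q).height := Order.one_le_iff_ne_zero.mpr h0
      have h6 : (1 : ℕ∞) + 1 ≤ 1 := le_trans (by gcongr) h4
      norm_num at h6
    rw [Ideal.height_eq_zero_iff_eq_bot] at h5
    apply hQ
    rw [← h1, h5, Ideal.map_bot]
  · rw [← h1, heq, ← IsLocalization.map_under p.primeCompl _
      (IsLocalRing.maximalIdeal (Localization.AtPrime p))]
    exact congrArg _ h2.symm

end loc

end Crest.Agent.R276.PFinA_337
end
end

-- ▼ part R276/PFinB_337
section

/-!
# Row 276, PFIN part B (helper337): differentials and transcendence bases in characteristic zero.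
-/

set_option autoImplicit false

noncomputable section

open KaehlerDifferential Crest.Agent.R276.FKDefs_779 Crest.Agent.R276.PFinA_337 MvPolynomial

namespace Crest.Agent.R276.PFinB_337

variable {k K : Type*} [Field k] [Field K] [Algebra k K] {n : ℕ}

/-- chain rule -/
lemma D_aeval (x : Fin n → K) (p : MvPolynomial (Fin n) k) :
    D k K (aeval x p) = ∑ i, aeval x (pderiv i p) • D k K (x i) := by
  induction p using MvPolynomial.induction_on with
  | C a => simp
  | add p q hp hq =>
    simp only [map_add, hp, hq, add_smul, Finset.sum_add_distrib]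
  | mul_X p j hp =>
    rw [map_mul, Derivation.leibniz, hp, aeval_X]
    have h1 : ∀ i, aeval x (pderiv i (p * X j)) =
        x j * aeval x (pderiv i p) + if i = j then aeval x p else 0 := by
      intro i
      rw [pderiv_mul, map_add, map_mul, map_mul, aeval_X, mul_comm (aeval x (pderiv i p))]
      congr 1
      by_cases hij : i = j
      · subst hij; simp
      · rw [pderiv_X_of_ne (Ne.symm hij)]; simp [hij]
    simp only [h1, add_smul, Finset.sum_add_distrib, ite_smul, zero_smul, Finset.sum_ite_eq',
      Finset.mem_univ, if_true, mul_smul, ← Finset.smul_sum]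
    rw [add_comm]

lemma co_aeval (b : Module.Basis (Fin n) K (Ω[K⁄k])) (x : Fin n → K)
    (hb : ∀ i, b i = D k K (x i)) (i : Fin n) (p : MvPolynomial (Fin n) k) :
    co b i (aeval x p) = aeval x (pderiv i p) := by
  classical
  unfold co
  rw [D_aeval]
  simp only [← hb, map_sum, map_smul, b.repr_self, Finsupp.coe_finsetSum, Finset.sum_apply,
    Finsupp.smul_apply, smul_eq_mul]
  rw [Finset.sum_eq_single i]
  · simp
  · intro j _ hj; simp [hj]
  · simp

/-- elements with linearly independent differentials are algebraically independent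
(characteristic zero) -/
theorem algInd [CharZero k] (x : Fin n → K)
    (hx : LinearIndependent K (fun i => D k K (x i))) : AlgebraicIndependent k x := by
  classical
  rw [algebraicIndependent_iff]
  suffices H : ∀ (N : ℕ) (p : MvPolynomial (Fin n) k), p.totalDegree < N →
      aeval x p = 0 → p = 0 from fun p hp => H (p.totalDegree + 1) p (Nat.lt_succ_self _) hp
  intro N
  induction N with
  | zero => intro p hp; omega
  | succ N ih =>
    intro p hp h0
    have h1 : ∑ i, aeval x (pderiv i p) • D k K (x i) = 0 := by
      rw [← D_aeval, h0, map_zero]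
    have h2 : ∀ i, aeval x (pderiv i p) = 0 := by
      intro i
      exact Fintype.linearIndependent_iff.mp hx _ h1 i
    have h3 : ∀ i, pderiv i p = 0 := by
      intro i
      by_cases hc : pderiv i p = 0
      · exact hc
      apply ih _ _ (h2 i)
      rw [Nat.lt_succ_iff] at hp
      refine lt_of_lt_of_le ?_ hp
      -- degree drops
      have : ∀ m ∈ (pderiv i p).support, (m.sum fun _ e => e) < p.totalDegree := by
        intro m hm
        rw [mem_support_iff, coeff_pderiv] at hm
        have hm' : m + Finsupp.single i 1 ∈ p.support := by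
          rw [mem_support_iff]
          intro h
          apply hm
          rw [h, zero_mul]
        have := le_totalDegree hm'
        rw [Finsupp.sum_add_index' (by simp) (by simp), Finsupp.sum_single_index (by simp)] at this
        omega
      rw [totalDegree, Finset.sup_lt_iff]
      · exact this
      · obtain ⟨m, hm⟩ := MvPolynomial.support_nonempty.mpr hc
        exact lt_of_le_of_lt (Nat.zero_le _) (this m hm)
    -- p is constant
    have h4 : p = C (coeff 0 p) := by
      ext m
      rw [coeff_C]
      by_cases hm : 0 = m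
      · subst hm; simp
      · rw [if_neg hm]
        obtain ⟨i, hi⟩ : ∃ i, m i ≠ 0 := by
          by_contra hcon
          push Not at hcon
          exact hm (Finsupp.ext fun i => (hcon i).symm)
        have h5 := coeff_pderiv (i := i) p (m - Finsupp.single i 1)
        have h6 : m - Finsupp.single i 1 + Finsupp.single i 1 = m :=
          tsub_add_cancel_of_le (Finsupp.single_le_iff.mpr (Nat.one_le_iff_ne_zero.mpr hi))
        rw [h3 i, coeff_zero, h6] at h5
        rcases mul_eq_zero.mp h5.symm with h7 | h7
        · exact h7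
        · exfalso
          have : ((((m - Finsupp.single i 1 : Fin n →₀ ℕ) i + 1 : ℕ)) : k) = 0 := by
            push_cast; exact h7
          exact absurd (Nat.cast_eq_zero.mp this) (Nat.succ_ne_zero _)
    rw [h4] at h0 ⊢
    rw [aeval_C] at h0
    have : coeff 0 p = 0 := (map_eq_zero _).mp h0
    rw [this, C_0]

/-- if the differentials of `x` form a basis then `K` is finite and separable over `k(x)` -/
theorem finite_of_basis [CharZero k] (hfg : FGF k K) (b : Module.Basis (Fin n) K (Ω[K⁄k]))
    (x : Fin n → K) (hb : ∀ i, b i = D k K (x i)) (E : IntermediateField k K)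
    (hE : ∀ i, x i ∈ E) : FiniteDimensional E K := by
  have h1 : Algebra.EssFiniteType k (⊤ : IntermediateField k K) :=
    IntermediateField.essFiniteType_iff.mpr hfg
  have h2 : Algebra.EssFiniteType k K :=
    Algebra.EssFiniteType.iff_of_algEquiv (IntermediateField.topEquiv (F := k) (E := K)) |>.mp h1
  have h3 : Algebra.EssFiniteType E K := Algebra.EssFiniteType.of_comp k E K
  have h4 : Subsingleton (Ω[K⁄E]) := by
    rw [subsingleton_iff_forall_eq 0]
    intro w
    obtain ⟨w', rfl⟩ := KaehlerDifferential.map_surjective k E K w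
    rw [← b.linearCombination_repr w', Finsupp.linearCombination_apply, Finsupp.sum, map_sum]
    refine Finset.sum_eq_zero fun i _ => ?_
    rw [map_smul, hb, KaehlerDifferential.map_D]
    have : D E K (algebraMap K K (x i)) = 0 := by
      have h5 := (D E K).map_algebraMap ⟨x i, hE i⟩
      exact h5
    rw [this, smul_zero]
  have h5 : Algebra.FormallyUnramified E K := ⟨h4⟩
  exact Algebra.FormallyUnramified.finite_of_free E K

end Crest.Agent.R276.PFinB_337
end
end

-- ▼ part R276/PFinC_337

/-!
# Row 276, PFIN part C (helper337): height one primes of integral closures of polynomial rings are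
divisorial; pluricanonical forms have a common denominator on an affine chart.
-/

set_option autoImplicit false
set_option linter.style.haveILetI false

noncomputable section

open KaehlerDifferential Crest.Agent.R276.FKDefs_779 Crest.Agent.R276.PFinA_337
  Crest.Agent.R276.PFinB_337 MvPolynomial

namespace Crest.Agent.R276.PFinC_337

section div

variable {k K : Type*} [Field k] [Field K] [Algebra k K] {n : ℕ}
  [Algebra (MvPolynomial (Fin (n + 1)) k) K] [IsScalarTower k (MvPolynomial (Fin (n + 1)) k) K]

/-- A height one prime of (a ring `A` integral over) the polynomial ring is divisorial. -/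
theorem isDiv_locVal {A : Type*} [CommRing A] [IsDomain A]
    [Algebra (MvPolynomial (Fin (n + 1)) k) A] [Algebra A K] [IsFractionRing A K]
    [IsScalarTower (MvPolynomial (Fin (n + 1)) k) A K]
    [Algebra.IsIntegral (MvPolynomial (Fin (n + 1)) k) A]
    [FaithfulSMul (MvPolynomial (Fin (n + 1)) k) A]
    (p : Ideal A) [hp : p.IsPrime] (h : p.height = 1) (hv : ValuationRing (Localization.AtPrime p)) :
    IsDiv k (n + 1) (locVal K p hv) := by
  classical
  have hp0 : p ≠ ⊥ := Ideal.ne_bot_of_height_eq_one h
  have hmem : ∀ q : MvPolynomial (Fin (n + 1)) k, algebraMap _ K q ∈ locVal K p hv := by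
    intro q
    rw [IsScalarTower.algebraMap_apply (MvPolynomial (Fin (n + 1)) k) A K]
    exact algebraMap_mem _
  refine ⟨fun c => ?_, ne_top hp0, ?_⟩
  · rw [IsScalarTower.algebraMap_apply k (MvPolynomial (Fin (n + 1)) k) K]
    exact hmem _
  · -- the trace of `p` on the polynomial ring is principal
    set q : Ideal (MvPolynomial (Fin (n + 1)) k) := p.under (MvPolynomial (Fin (n + 1)) k) with hq
    have hqp : q.IsPrime := inferInstance
    have hq0 : q ≠ ⊥ := fun h0 => hp0 (Ideal.eq_bot_of_comap_eq_bot h0)
    obtain ⟨f, hfq, hf⟩ := hqp.exists_mem_prime_of_ne_bot hq0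
    have hqf : q = Ideal.span {f} := by
      by_contra hne
      have hfp : (Ideal.span {f}).IsPrime := by
        rw [Ideal.span_singleton_prime hf.ne_zero]; exact hf
      have hlt : Ideal.span {f} < q :=
        lt_of_le_of_ne ((Ideal.span_singleton_le_iff_mem _).mpr hfq) (Ne.symm hne)
      obtain ⟨P', hP', hP'p, hP'o⟩ := Ideal.exists_ideal_lt_liesOver_of_lt (S := A) p hlt
      have h1 := Ideal.height_add_one_le_of_lt_of_isPrime hP'
      rw [h] at h1
      have h2 : P'.height = 0 := by
        by_contra h0
        have : 1 ≤ P'.height := Order.one_le_iff_ne_zero.mpr h0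
        have h6 : (1 : ℕ∞) + 1 ≤ 1 := le_trans (by gcongr) h1
        norm_num at h6
      rw [Ideal.height_eq_zero_iff_eq_bot] at h2
      have h3 : f ∈ P'.under (MvPolynomial (Fin (n + 1)) k) := by
        rw [← hP'o.over]
        exact Ideal.mem_span_singleton_self f
      rw [h2, Ideal.under_def, Ideal.mem_comap, Ideal.mem_bot] at h3
      exact hf.ne_zero ((FaithfulSMul.algebraMap_eq_zero_iff _ _).mp h3)
    -- a variable occurring in `f`
    obtain ⟨i, hi⟩ : ∃ i, 0 < degreeOf i f := by
      by_contra hcon
      push Not at hcon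
      have h0 : f.vars = ∅ := by
        rw [Finset.eq_empty_iff_forall_notMem]
        intro i hi
        obtain ⟨d, hd, hid⟩ := (mem_vars_iff_mem_support i).mp hi
        have h2 := monomial_le_degreeOf i hd
        have h3 := hcon i
        have h4 := Finsupp.mem_support_iff.mp hid
        omega
      have hc := vars_eq_empty_iff_eq_C.mp h0
      have hc0 : f.coeff 0 ≠ 0 := by intro h; exact hf.ne_zero (by rw [hc, h, C_0])
      apply hf.not_isUnit
      rw [hc]
      exact (isUnit_iff_ne_zero.mpr hc0).map C
    refine ⟨fun j => algebraMap _ K (X (i.succAbove j) : MvPolynomial (Fin (n + 1)) k),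
      fun j => hmem _, ?_⟩
    intro Q hQ
    change MvPolynomial (Fin n) k at Q
    have h1 : aeval (fun j => algebraMap _ K (X (i.succAbove j) : MvPolynomial (Fin (n + 1)) k)) Q =
        algebraMap A K (algebraMap (MvPolynomial (Fin (n + 1)) k) A (rename i.succAbove Q)) := by
      rw [← IsScalarTower.algebraMap_apply (MvPolynomial (Fin (n + 1)) k) A K]
      have : (aeval (fun j => algebraMap _ K (X (i.succAbove j) : MvPolynomial (Fin (n + 1)) k)) :
          MvPolynomial (Fin n) k →ₐ[k] K) =
          (IsScalarTower.toAlgHom k (MvPolynomial (Fin (n + 1)) k) K).comp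
            (rename i.succAbove) := by
        ext j
        simp
      rw [this]
      rfl
    have goal : (locVal K p hv).valuation (algebraMap A K
        (algebraMap (MvPolynomial (Fin (n + 1)) k) A (rename i.succAbove Q))) = 1 := ?_
    · exact (congrArg _ h1).trans goal
    apply valuation_eq_one
    intro h2
    have h3 : rename i.succAbove Q ∈ q := h2
    rw [hqf, Ideal.mem_span_singleton] at h3
    obtain ⟨g, hg⟩ := h3
    have hr0 : rename i.succAbove Q ≠ 0 := by
      rw [Ne, rename_eq_zero_iff_of_injective Q Fin.succAbove_right_injective]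
      exact hQ
    have hg0 : g ≠ 0 := by rintro rfl; exact hr0 (by rw [hg, mul_zero])
    have h4 := congrArg (degreeOf i) hg
    rw [degreeOf_mul_eq hf.ne_zero hg0] at h4
    have h5 : degreeOf i (rename i.succAbove Q) = 0 := by
      by_contra h6
      rw [degreeOf_eq_sup, ← Ne, ← Nat.pos_iff_ne_zero, Finset.lt_sup_iff] at h6
      obtain ⟨d, hd, hdi⟩ := h6
      have h7 : i ∈ (rename i.succAbove Q).vars :=
        (mem_vars_iff_mem_support i).mpr ⟨d, hd, Finsupp.mem_support_iff.mpr (by omega)⟩
      obtain ⟨j, -, hj⟩ := mem_vars_rename _ _ h7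
      exact Fin.succAbove_ne i j hj
    omega

end div

section chart

variable {k K : Type*} [Field k] [Field K] [Algebra k K] {n : ℕ}

/-- `z` is integral over `k[y₁, …, yₙ]` -/
def IntOver (k : Type*) {K : Type*} [Field k] [Field K] [Algebra k K] {n : ℕ} (y : Fin n → K)
    (z : K) : Prop :=
  ((aeval y : MvPolynomial (Fin n) k →ₐ[k] K) : MvPolynomial (Fin n) k →+* K).IsIntegralElem z

/-- membership in a valuation ring containing a localisation: the coefficients of the differential
of an element of `R` have the common denominator `a` -/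
lemma co_mem {A : Type*} [CommRing A] [IsDomain A] [Algebra A K] [IsFractionRing A K]
    (b : Module.Basis (Fin n) K (Ω[K⁄k])) (a : K) {p : Ideal A} [hp : p.IsPrime]
    {hv : ValuationRing (Localization.AtPrime p)}
    (ha : ∀ u : A, ∀ i, a * co b i (algebraMap A K u) ∈ (algebraMap A K).range)
    {z : K} (hz : z ∈ locVal K p hv) (i : Fin n) : a * co b i z ∈ locVal K p hv := by
  obtain ⟨u, v, hvp, huv⟩ := hz
  have hv0 : algebraMap A K v ≠ 0 := by
    intro h0
    have : v = 0 := (IsFractionRing.injective A K) (by rw [h0, map_zero])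
    exact hvp (this ▸ p.zero_mem)
  have h1 := co_div b i huv
  obtain ⟨u', hu'⟩ := ha u i
  obtain ⟨v', hv'⟩ := ha v i
  refine ⟨u' * v - u * v', v * v, fun h => (hp.mem_or_mem h).elim hvp hvp, ?_⟩
  rw [map_mul, map_sub, map_mul, map_mul, hu', hv']
  linear_combination a * h1

/-- **Common denominators on a chart.** -/
theorem exists_mult [CharZero k] (hfg : FGF k K) (b₀ b : Module.Basis (Fin (n + 1)) K (Ω[K⁄k]))
    (y : Fin (n + 1) → K) (hb : ∀ i, b i = D k K (y i)) (m : ℕ) :
    ∃ a : MvPolynomial (Fin (n + 1)) k, a ≠ 0 ∧ ∀ g : K,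
      (∀ R : ValuationSubring K, IsDiv k (n + 1) R → (∀ i, y i ∈ R) → RegAt k R b₀ m g) →
      IntOver k y (aeval y a * g) := by
  classical
  let P := MvPolynomial (Fin (n + 1)) k
  have hai : AlgebraicIndependent k y := algInd y (by
    have := b.linearIndependent
    simpa only [← hb] using this)
  let E : IntermediateField k K := IntermediateField.adjoin k (Set.range y)
  have hyE : ∀ i, y i ∈ E := fun i => IntermediateField.subset_adjoin k _ ⟨i, rfl⟩
  letI algPK : Algebra P K := ((aeval y : P →ₐ[k] K) : P →+* K).toAlgebra
  have hPK : ∀ p : P, algebraMap P K p = aeval y p := fun p => rfl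
  letI algPE : Algebra P E := ((aeval (fun i => (⟨y i, hyE i⟩ : E)) : P →ₐ[k] E) : P →+* E).toAlgebra
  have hPE : ∀ p : P, algebraMap P E p = aeval (fun i => (⟨y i, hyE i⟩ : E)) p := fun p => rfl
  haveI st1 : IsScalarTower k P K := IsScalarTower.of_algebraMap_eq fun c => by
    rw [hPK]; simp [P]
  haveI st2 : IsScalarTower P E K := IsScalarTower.of_algebraMap_eq fun p => by
    rw [hPK, hPE]
    have := aeval_algebraMap_apply K (fun i => (⟨y i, hyE i⟩ : E)) p
    exact this
  have hinjK : Function.Injective (algebraMap P K) := hai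
  haveI fsK : FaithfulSMul P K := (faithfulSMul_iff_algebraMap_injective P K).mpr hinjK
  have hinjE : Function.Injective (algebraMap P E) := by
    intro p q hpq
    apply hinjK
    rw [IsScalarTower.algebraMap_apply P E K, IsScalarTower.algebraMap_apply P E K, hpq]
  haveI fsE : FaithfulSMul P E := (faithfulSMul_iff_algebraMap_injective P E).mpr hinjE
  haveI frE : IsFractionRing P E := by
    refine IsFractionRing.of_field P E fun z => ?_
    obtain ⟨r, s, hrs⟩ := (IntermediateField.mem_adjoin_range_iff k y (z : K)).mp z.2
    refine ⟨r, s, Subtype.ext ?_⟩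
    rw [hrs]
    push_cast
    have h := fun q : P => (IsScalarTower.algebraMap_apply P E K q)
    have h2 : ∀ q : P, ((algebraMap P E q : E) : K) = aeval y q := fun q => (h q).symm
    rw [h2, h2]
  haveI fdE : FiniteDimensional E K := finite_of_basis hfg b y hb E hyE
  haveI : CharZero E := charZero_of_injective_algebraMap (algebraMap k E).injective
  haveI sep : Algebra.IsSeparable E K := inferInstance
  let A := integralClosure P K
  have noeth : IsNoetherian P A := IsIntegralClosure.isNoetherian P E K A
  haveI : IsNoetherianRing A := isNoetherian_of_tower P noeth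
  haveI : IsIntegrallyClosed A := integralClosure.isIntegrallyClosedOfFiniteExtension E
  haveI : IsFractionRing A K := integralClosure.isFractionRing_of_finite_extension E K
  haveI : FaithfulSMul P A := (faithfulSMul_iff_algebraMap_injective P A).mpr (by
    intro p q hpq
    apply hinjK
    exact congrArg Subtype.val hpq)
  obtain ⟨a₀, ha₀, hbd⟩ := exists_bound E b noeth (fun s i => ⟨pderiv i s, by
    rw [hPK, hPK, co_aeval b y hb]⟩)
  have ha₀K : algebraMap P K a₀ ≠ 0 := (map_ne_zero_iff _ hinjK).mpr ha₀
  -- the change of basis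
  set j : K := b₀.det b with hj
  have hj0 : j ≠ 0 := det_basis_ne_zero b₀ b
  obtain ⟨c, hc0, hc⟩ := exists_integral_multiples P E (L := K) {j ^ m}
  refine ⟨c * a₀ ^ ((n + 1) * m), mul_ne_zero hc0 (pow_ne_zero _ ha₀), fun g hg => ?_⟩
  have key : ∃ a : A, algebraMap A K a = algebraMap P K a₀ ^ ((n + 1) * m) * g / j ^ m := by
    apply Crest.Agent.R271.Br958.hartogs
    intro p hp hp1
    have hv := valuationRing_of_height_one p hp1
    have hdiv : IsDiv k (n + 1) (locVal K p hv) := isDiv_locVal p hp1 hv
    have hyR : ∀ i, y i ∈ locVal K p hv := by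
      intro i
      have h1 : y i = algebraMap A K (algebraMap P A (X i)) := by
        rw [← IsScalarTower.algebraMap_apply P A K, hPK, aeval_X]
      rw [h1]
      exact algebraMap_mem _
    obtain ⟨z, hz, hvg⟩ := hg _ hdiv hyR
    set R := locVal K p hv with hR
    have hco : ∀ i l, algebraMap P K a₀ * co b i (z l) ∈ R := by
      intro i l
      refine co_mem b _ (fun u i => ?_) (hz l) i
      exact ⟨⟨_, hbd (algebraMap A K u) u.2 i⟩, rfl⟩
    have hdet : algebraMap P K a₀ ^ (n + 1) * jac k b z ∈ R := by
      rw [jac_eq]
      have h1 : algebraMap P K a₀ ^ (n + 1) * Matrix.det (Matrix.of fun i l => co b i (z l)) =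
          Matrix.det (Matrix.of fun i l => algebraMap P K a₀ * co b i (z l)) := by
        have := Matrix.det_smul (Matrix.of fun i l => co b i (z l)) (algebraMap P K a₀)
        rw [Fintype.card_fin] at this
        exact this.symm
      rw [h1, Matrix.det_apply]
      refine sum_mem fun σ _ => ?_
      rw [Units.smul_def, zsmul_eq_mul]
      refine mul_mem ?_ (prod_mem fun i _ => hco _ _)
      exact intCast_mem R _
    have hval : R.valuation (algebraMap P K a₀ ^ ((n + 1) * m) * g / j ^ m) ≤ 1 := by
      have h2 : R.valuation (algebraMap P K a₀ ^ (n + 1) * jac k b z) ≤ 1 :=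
        (R.valuation_le_one_iff _).mpr hdet
      have hj0' : R.valuation j ≠ 0 := (Valuation.ne_zero_iff _).mpr hj0
      rw [map_div₀, map_mul, map_pow, map_pow]
      rw [jac_change b₀ b z, map_mul, ← hj, mul_pow] at hvg
      rw [map_mul, map_pow] at h2
      calc R.valuation (algebraMap P K a₀) ^ ((n + 1) * m) * R.valuation g / R.valuation j ^ m
          ≤ R.valuation (algebraMap P K a₀) ^ ((n + 1) * m) *
            (R.valuation j ^ m * R.valuation (jac k b z) ^ m) / R.valuation j ^ m := by
            gcongr
            exact zero_le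
        _ = (R.valuation (algebraMap P K a₀) ^ (n + 1) * R.valuation (jac k b z)) ^ m := by
            rw [mul_pow, ← pow_mul, mul_comm (R.valuation j ^ m), ← mul_assoc,
              mul_div_assoc, div_self (pow_ne_zero _ hj0'), mul_one]
        _ ≤ 1 := pow_le_one₀ (zero_le) h2
    rw [R.valuation_le_one_iff] at hval
    obtain ⟨u, v, hvp, huv⟩ := hval
    exact ⟨u, v, hvp, by rw [← huv]; ring⟩
  obtain ⟨w, hw⟩ := key
  have hwi : IsIntegral P (algebraMap P K a₀ ^ ((n + 1) * m) * g / j ^ m) := by
    rw [← hw]; exact w.2
  have hfin := (hc (j ^ m) (Finset.mem_singleton_self _)).mul hwi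
  have heq : c • j ^ m * (algebraMap P K a₀ ^ ((n + 1) * m) * g / j ^ m) =
      aeval y (c * a₀ ^ ((n + 1) * m)) * g := by
    rw [Algebra.smul_def, map_mul, map_pow, ← hPK, ← hPK]
    field_simp
  rw [heq] at hfin
  exact hfin

end chart

end Crest.Agent.R276.PFinC_337
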