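import Mathlib
import Crest.Agent.R271.Null_956
import Crest.Agent.R276.FKDefs_779
import Crest.Agent.R276.GroUpB_845

-- ▼ part R276/GroUpC_845
section

/-!
# GRO-UP, degree bound (helper845, row 276)

`K/L` finitely generated of characteristic zero, `y : Fin r → K` with `jac y ≠ 0`.  For `b ∈ K` there is
a nonzero `P ∈ L[Y][X]` with `P(y,b) = 0`; hence, uniformly in the point `z` of a model of `L` and for
almost every `η ∈ ℂ^r`, `b` takes at most `deg P` values at the points over `(z, η)`.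
-/

set_option autoImplicit false

open scoped Topology ENNReal
open Filter Set MeasureTheory

noncomputable section

namespace Crest.Agent.R276.GroUpC_845

section alg

variable {L K : Type} [Field L] [Field K] [Algebra L K] {r : ℕ}

/-- the coefficients of the coefficients -/
def cofs (P : Polynomial (MvPolynomial (Fin r) L)) : Finset L := by
  classical
  exact P.support.biUnion fun n => (P.coeff n).coeffs

lemma mem_cofs {P : Polynomial (MvPolynomial (Fin r) L)} {n : ℕ} {c : L}
    (hc : c ∈ (P.coeff n).coeffs) : c ∈ cofs P := by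
  classical
  simp only [cofs, Finset.mem_biUnion]
  refine ⟨n, ?_, hc⟩
  rw [Polynomial.mem_support_iff]
  intro h
  rw [h] at hc
  simp at hc

/-- lifting of the coefficients -/
lemma exists_lift {A : Type} [CommRing A] (jA : A →+* L) (P : Polynomial (MvPolynomial (Fin r) L))
    (hA : ∀ a ∈ cofs P, ∃ a', jA a' = a) :
    ∃ P0 : Polynomial (MvPolynomial (Fin r) A), P0.map (MvPolynomial.map jA) = P := by
  rw [← Polynomial.mem_lifts, Polynomial.lifts_iff_coeff_lifts]
  intro n
  rw [MvPolynomial.mem_range_map_iff_coeffs_subset]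
  intro c hc
  exact hA c (mem_cofs hc)

/-- **(DEG)** -/
theorem deg_bound {P : Polynomial (MvPolynomial (Fin r) L)} (hP : P ≠ 0) {y : Fin r → K} {b : K}
    (hPb : Polynomial.eval₂ (MvPolynomial.aeval y : MvPolynomial (Fin r) L →ₐ[L] K).toRingHom b P = 0)
    {A B : Type} [CommRing A] [CommRing B] (jA : A →+* L) (jB : B →+* K) (i : A →+* B)
    (hcomm : ∀ a, jB (i a) = algebraMap L K (jA a)) (hjB : Function.Injective jB)
    (hjA : Function.Injective jA)
    (hA : ∀ a ∈ cofs P, ∃ a', jA a' = a) (hA' : ∀ a ∈ cofs P, ∃ a', jA a' = a⁻¹)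
    {yB : Fin r → B} (hy : ∀ l, jB (yB l) = y l) {bB : B} (hb : jB bB = b) (φ : A →+* ℂ) :
    ∀ᵐ η : Fin r → ℂ, ∃ s : Finset ℂ, s.card ≤ P.natDegree ∧
      ∀ ψ : B →+* ℂ, (∀ a, ψ (i a) = φ a) → (∀ l, ψ (yB l) = η l) → ψ bB ∈ s := by
  classical
  obtain ⟨P0, hP0⟩ := exists_lift jA P hA
  -- the leading coefficient does not vanish after specialisation
  have hlead : P.leadingCoeff ≠ 0 := by rwa [Ne, Polynomial.leadingCoeff_eq_zero]
  have hmapinj : Function.Injective (MvPolynomial.map jA : MvPolynomial (Fin r) A →+* MvPolynomial (Fin r) L) :=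
    MvPolynomial.map_injective _ hjA
  have hdeg : P0.natDegree = P.natDegree := by
    rw [← hP0, Polynomial.natDegree_map_eq_of_injective hmapinj]
  obtain ⟨m, hm⟩ : ∃ m, MvPolynomial.coeff m P.leadingCoeff ≠ 0 := by
    by_contra h
    push Not at h
    apply hlead
    ext m
    simpa using h m
  have hcoeff : P.leadingCoeff = MvPolynomial.map jA (P0.coeff P.natDegree) := by
    conv_lhs => rw [Polynomial.leadingCoeff, ← hP0]
    rw [Polynomial.coeff_map, hP0]
  have hc0 : MvPolynomial.map φ (P0.coeff P.natDegree) ≠ 0 := by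
    intro h0
    have h1 : φ (MvPolynomial.coeff m (P0.coeff P.natDegree)) = 0 := by
      rw [← MvPolynomial.coeff_map, h0, MvPolynomial.coeff_zero]
    have h2 : jA (MvPolynomial.coeff m (P0.coeff P.natDegree)) = MvPolynomial.coeff m P.leadingCoeff := by
      rw [hcoeff, MvPolynomial.coeff_map]
    have h3 : MvPolynomial.coeff m P.leadingCoeff ∈ cofs P := by
      apply mem_cofs (n := P.natDegree)
      rw [Polynomial.coeff_natDegree]
      exact MvPolynomial.coeff_mem_coeffs m hm
    obtain ⟨a', ha'⟩ := hA' _ h3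
    have h4 : MvPolynomial.coeff m (P0.coeff P.natDegree) * a' = 1 := by
      apply hjA
      rw [map_mul, h2, ha', map_one, mul_inv_cancel₀ hm]
    have h5 := congrArg φ h4
    rw [map_mul, h1, zero_mul, map_one] at h5
    exact zero_ne_one h5
  filter_upwards [Crest.Agent.R271.Null956.ae_eval_ne hc0] with η hη
  -- specialised polynomial
  set ev : MvPolynomial (Fin r) A →+* ℂ := MvPolynomial.eval₂Hom φ η with hev
  set Q : Polynomial ℂ := P0.map ev with hQ
  have hQ0 : Q ≠ 0 := by
    intro h0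
    have h1 : Q.coeff P.natDegree = 0 := by rw [h0, Polynomial.coeff_zero]
    rw [hQ, Polynomial.coeff_map] at h1
    apply hη
    rw [MvPolynomial.eval_map]
    exact h1
  refine ⟨Q.roots.toFinset, ?_, ?_⟩
  · calc Q.roots.toFinset.card ≤ Multiset.card Q.roots := Multiset.toFinset_card_le _
      _ ≤ Q.natDegree := Polynomial.card_roots' Q
      _ ≤ P0.natDegree := Polynomial.natDegree_map_le
      _ = P.natDegree := hdeg
  · intro ψ hψ hψy
    rw [Multiset.mem_toFinset, Polynomial.mem_roots hQ0, Polynomial.IsRoot.def, hQ,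
      Polynomial.eval_map]
    -- evaluate `P0` in `B`
    have h1 : Polynomial.eval₂ (MvPolynomial.eval₂Hom i yB) bB P0 = 0 := by
      apply hjB
      rw [map_zero, Polynomial.hom_eval₂, hb]
      have h2 : jB.comp (MvPolynomial.eval₂Hom i yB) =
          ((MvPolynomial.aeval y : MvPolynomial (Fin r) L →ₐ[L] K).toRingHom).comp
            (MvPolynomial.map jA) := by
        apply MvPolynomial.ringHom_ext
        · intro a
          simp [hcomm]
        · intro l
          simp [hy]
      rw [h2, ← Polynomial.eval₂_map, hP0]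
      exact hPb
    have h3 := congrArg ψ h1
    rw [map_zero, Polynomial.hom_eval₂] at h3
    have h4 : ψ.comp (MvPolynomial.eval₂Hom i yB) = ev := by
      apply MvPolynomial.ringHom_ext
      · intro a
        simp [hev, hψ]
      · intro l
        simp [hev, hψy]
    rw [h4] at h3
    exact h3

open KaehlerDifferential in
/-- if `D y₁, …, D y_r` is a basis of `Ω[K⁄L]` then `K` is algebraic over `L(y)` -/
theorem algebraic_of_basis [CharZero L] [Algebra.EssFiniteType L K] {y : Fin r → K}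
    (hy : Submodule.span K (Set.range fun l => D L K (y l)) = ⊤) :
    Algebra.IsAlgebraic (IntermediateField.adjoin L (Set.range y)) K := by
  set F := IntermediateField.adjoin L (Set.range y) with hF
  have : Algebra.EssFiniteType F K := Algebra.EssFiniteType.of_comp L F K
  have hsub : Subsingleton (Ω[K⁄F]) := by
    rw [← Submodule.subsingleton_iff K, ← subsingleton_iff_bot_eq_top]
    have hsurj := KaehlerDifferential.map_surjective L F K
    have h1 : LinearMap.range (KaehlerDifferential.map L F K K) = ⊤ :=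
      LinearMap.range_eq_top.2 hsurj
    rw [← h1, ← Submodule.map_top, ← hy, Submodule.map_span, eq_comm, Submodule.span_eq_bot]
    rintro _ ⟨_, ⟨l, rfl⟩, rfl⟩
    simp only [KaehlerDifferential.map_D]
    have h2 : algebraMap K K (y l) = algebraMap F K ⟨y l, IntermediateField.subset_adjoin L _ ⟨l, rfl⟩⟩ := rfl
    rw [h2, Derivation.map_algebraMap]
  have hun : Algebra.FormallyUnramified F K := ⟨hsub⟩
  have hsep : Algebra.IsSeparable F K := (Algebra.FormallyUnramified.iff_isSeparable F K).1 hun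
  infer_instance

/-- existence of the polynomial of `deg_bound` -/
theorem exists_poly {y : Fin r → K}
    (hy : Algebra.IsAlgebraic (IntermediateField.adjoin L (Set.range y)) K) (b : K) :
    ∃ P : Polynomial (MvPolynomial (Fin r) L), P ≠ 0 ∧
      Polynomial.eval₂ (MvPolynomial.aeval y : MvPolynomial (Fin r) L →ₐ[L] K).toRingHom b P = 0 := by
  classical
  obtain ⟨p, hp0, hp⟩ := hy.isAlgebraic b
  -- clear denominators
  have hmem : ∀ n, ∃ a c : MvPolynomial (Fin r) L, MvPolynomial.aeval y c ≠ 0 ∧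
      ((p.coeff n : IntermediateField.adjoin L (Set.range y)) : K) * MvPolynomial.aeval y c =
        MvPolynomial.aeval y a := by
    intro n
    have h1 := (p.coeff n).2
    rw [IntermediateField.mem_adjoin_range_iff] at h1
    obtain ⟨a, c, hac⟩ := h1
    by_cases hc : MvPolynomial.aeval y c = 0
    · refine ⟨0, 1, by simp, ?_⟩
      rw [hac, hc]
      simp
    · refine ⟨a, c, hc, ?_⟩
      rw [hac]
      field_simp
  choose a c hc hac using hmem
  set s := p.support with hs
  -- common denominator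
  set d : MvPolynomial (Fin r) L := ∏ n ∈ s, c n with hd
  have hdne : MvPolynomial.aeval y d ≠ 0 := by
    rw [hd, map_prod]
    exact Finset.prod_ne_zero_iff.2 fun n _ => hc n
  set e : ℕ → MvPolynomial (Fin r) L := fun n => a n * ∏ m ∈ s.erase n, c m with he
  have hen : ∀ n ∈ s, MvPolynomial.aeval y (e n) =
      ((p.coeff n : IntermediateField.adjoin L (Set.range y)) : K) * MvPolynomial.aeval y d := by
    intro n hn
    rw [he, hd, ← Finset.mul_prod_erase s c hn]
    simp only [map_mul]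
    rw [← hac n]
    ring
  set P : Polynomial (MvPolynomial (Fin r) L) := ∑ n ∈ s, Polynomial.monomial n (e n) with hP
  have hPc : ∀ n ∈ s, P.coeff n = e n := by
    intro n hn
    rw [hP, Polynomial.finsetSum_coeff, Finset.sum_eq_single n]
    · rw [Polynomial.coeff_monomial, if_pos rfl]
    · intro m _ hmn
      rw [Polynomial.coeff_monomial, if_neg hmn]
    · intro h
      exact absurd hn h
  refine ⟨P, ?_, ?_⟩
  · intro h0
    obtain ⟨n, hn⟩ : s.Nonempty := by
      rw [hs]
      exact Polynomial.nonempty_support_iff.2 hp0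
    have h1 := hen n hn
    rw [← hPc n hn, h0, Polynomial.coeff_zero, map_zero] at h1
    have h2 : p.coeff n ≠ 0 := by
      rw [hs, Polynomial.mem_support_iff] at hn
      exact hn
    have h3 : ((p.coeff n : IntermediateField.adjoin L (Set.range y)) : K) ≠ 0 := by
      intro h
      apply h2
      exact_mod_cast h
    exact (mul_ne_zero h3 hdne) h1.symm
  · rw [hP, Polynomial.eval₂_finsetSum]
    have h1 : ∀ n ∈ s, Polynomial.eval₂ (MvPolynomial.aeval y : MvPolynomial (Fin r) L →ₐ[L] K).toRingHom b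
        (Polynomial.monomial n (e n)) =
        (((p.coeff n : IntermediateField.adjoin L (Set.range y)) : K) * b ^ n) * MvPolynomial.aeval y d := by
      intro n hn
      rw [Polynomial.eval₂_monomial]
      have := hen n hn
      simp only [AlgHom.toRingHom_eq_coe, RingHom.coe_coe]
      rw [this]
      ring
    rw [Finset.sum_congr rfl h1, ← Finset.sum_mul]
    have h2 : ∑ n ∈ s, ((p.coeff n : IntermediateField.adjoin L (Set.range y)) : K) * b ^ n = 0 := by
      rw [Polynomial.aeval_def, Polynomial.eval₂_eq_sum, Polynomial.sum_def] at hp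
      exact hp
    rw [h2, zero_mul]

end alg

end Crest.Agent.R276.GroUpC_845
end
end

-- ▼ part R276/GroUpD_845
section

/-!
# GRO-UP: integrals over the fibres of a relative model (helper845, row 276)

`IsFib` : a Riemann domain `M` of dimension `r` (fibre `M_z`) with evaluations `ev x : B → ℂ` over a fixed
evaluation `φ : A → ℂ` (the point `z`).  `main` : if the tuples `(h i, y i)` cover the Zariski-Riemann
space of `K/L`, then `M` is covered by finitely many pieces `{|h i| ≤ T, |y i| ≤ T}`, `T` polynomial in the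
values at `z` of finitely many elements of `L`, and integrals over the pieces are bounded by integrals over
the polydisc of radius `T`.
-/

set_option autoImplicit false

open scoped Topology ENNReal
open Filter Set MeasureTheory

noncomputable section

namespace Crest.Agent.R276.GroUpD_845

open Crest.Agent.R271.Ho51 Crest.Agent.R276.Area_448 Crest.Agent.R276.FKDefs_779
open Crest.Agent.R276.GroUpA_845 Crest.Agent.R276.GroUpB_845 Crest.Agent.R276.GroUpC_845

variable {L K : Type} [Field L] [Field K] [Algebra L K] {r : ℕ}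

/-- the fibre over `φ` of a relative model -/
structure IsFib (bas : Module.Basis (Fin r) K (Ω[K⁄L])) {A B : Type} [CommRing A] [CommRing B]
    (jA : A →+* L) (jB : B →+* K) (i : A →+* B) (φ : A →+* ℂ)
    {M : Type} [TopologicalSpace M] [RDom r M] (ev : M → B →+* ℂ) : Prop where
  comm : ∀ a, jB (i a) = algebraMap L K (jA a)
  injA : Function.Injective jA
  injB : Function.Injective jB
  ev_i : ∀ x a, ev x (i a) = φ a
  cont : ∀ b, Continuous fun x => ev x b
  der : ∀ (b : B) (b' : Fin r → B),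
    (∀ l, jB (b' l) = bas.repr (KaehlerDifferential.D L K (jB b)) l) → ∀ x : M,
      HasStrictFDerivAt ((fun y => ev y b) ∘ (ch x).symm)
        (∑ l, ev x (b' l) • (ContinuousLinearMap.proj l : (Fin r → ℂ) →L[ℂ] ℂ)) (cp x)

section one

variable {bas : Module.Basis (Fin r) K (Ω[K⁄L])} {A B : Type} [CommRing A] [CommRing B]
  {jA : A →+* L} {jB : B →+* K} {i : A →+* B} {φ : A →+* ℂ}
  {M : Type} [TopologicalSpace M] [RDom r M] {ev : M → B →+* ℂ}

/-- the Jacobian matrix -/
def jm (ev : M → B →+* ℂ) (b' : Fin r → Fin r → B) (x : M) : (Fin r → ℂ) →L[ℂ] (Fin r → ℂ) :=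
  ContinuousLinearMap.pi fun l => ∑ m, ev x (b' l m) • (ContinuousLinearMap.proj m : (Fin r → ℂ) →L[ℂ] ℂ)

omit [TopologicalSpace M] [RDom r M] in
lemma jm_apply (b' : Fin r → Fin r → B) (x : M) (v : Fin r → ℂ) (l : Fin r) :
    jm ev b' x v l = ∑ m, ev x (b' l m) * v m := by
  simp [jm]

omit [TopologicalSpace M] [RDom r M] in
lemma det_jm (b' : Fin r → Fin r → B) (x : M) :
    (jm ev b' x).det = ev x (Matrix.of b').det := by
  have h1 : (jm ev b' x : (Fin r → ℂ) →ₗ[ℂ] (Fin r → ℂ)) =
      Matrix.toLin' (Matrix.of fun l m => ev x (b' l m)) := by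
    apply LinearMap.ext
    intro v
    funext l
    change jm ev b' x v l = _
    rw [jm_apply, Matrix.toLin'_apply]
    simp [Matrix.mulVec, dotProduct]
  rw [ContinuousLinearMap.det, h1, LinearMap.det_toLin', RingHom.map_det]
  rfl

lemma IsFib.sd (h : IsFib bas jA jB i φ ev) {yB : Fin r → B} {b' : Fin r → Fin r → B}
    (hb' : ∀ l m, jB (b' l m) = bas.repr (KaehlerDifferential.D L K (jB (yB l))) m) :
    SD (fun (x : M) l => ev x (yB l)) (jm ev b') := by
  intro x
  rw [hasStrictFDerivAt_pi']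
  intro l
  exact h.der (yB l) (b' l) (hb' l) x

lemma jB_det {yB : Fin r → B} {b' : Fin r → Fin r → B}
    (hb' : ∀ l m, jB (b' l m) = bas.repr (KaehlerDifferential.D L K (jB (yB l))) m) :
    jB (Matrix.of b').det = jac L bas (fun l => jB (yB l)) := by
  rw [jac, Module.Basis.det_apply, RingHom.map_det, ← Matrix.det_transpose]
  congr 1
  ext l m
  simp [Module.Basis.toMatrix_apply, hb']

/-- the integral over one piece -/
theorem piece_le [MeasurableSpace M] [BorelSpace M] [SecondCountableTopology M] {μ : Measure M}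
    (hμ : IsLeb μ) (h : IsFib bas jA jB i φ ev) {yB : Fin r → B} {b' : Fin r → Fin r → B}
    (hb' : ∀ l m, jB (b' l m) = bas.repr (KaehlerDifferential.D L K (jB (yB l))) m)
    {hB : B} {T : ℝ} {ν : Type} [Fintype ν] {gB : ν → B} {g : ν → K} (hg : ∀ k, jB (gB k) = g k)
    (hsep : ∀ x x' : M, (∀ k, ev x (gB k) = ev x' (gB k)) → x = x')
    {P : ν → Polynomial (MvPolynomial (Fin r) L)} (hP : ∀ k, P k ≠ 0)
    (hPg : ∀ k, Polynomial.eval₂ (MvPolynomial.aeval (fun l => jB (yB l)) :
      MvPolynomial (Fin r) L →ₐ[L] K).toRingHom (g k) (P k) = 0)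
    (hA : ∀ k, ∀ a ∈ cofs (P k), ∃ a', jA a' = a) (hA' : ∀ k, ∀ a ∈ cofs (P k), ∃ a', jA a' = a⁻¹)
    {w : (Fin r → ℂ) → ℝ≥0∞} (hw : Measurable w) {F : M → ℝ≥0∞}
    (hF : ∀ x, ‖ev x hB‖ ≤ T → (∀ l, ‖ev x (yB l)‖ ≤ T) →
      F x ≤ ENNReal.ofReal (‖ev x (Matrix.of b').det‖ ^ 2) * w (fun l => ev x (yB l))) :
    ∫⁻ x in {x | ‖ev x hB‖ ≤ T ∧ ∀ l, ‖ev x (yB l)‖ ≤ T}, F x ∂μ ≤
      ((∏ k, (P k).natDegree : ℕ) : ℝ≥0∞) * ∫⁻ η in {η : Fin r → ℂ | ∀ l, ‖η l‖ ≤ T}, w η := by
  classical
  have hsd := h.sd hb'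
  set E : Set M := {x | ‖ev x hB‖ ≤ T ∧ ∀ l, ‖ev x (yB l)‖ ≤ T} with hE
  have hEm : MeasurableSet E := by
    apply IsClosed.measurableSet
    apply IsClosed.inter
    · exact isClosed_le (h.cont hB).norm continuous_const
    · have : {x : M | ∀ l, ‖ev x (yB l)‖ ≤ T} = ⋂ l, {x | ‖ev x (yB l)‖ ≤ T} := by
        ext x; simp
      change IsClosed {x : M | ∀ l, ‖ev x (yB l)‖ ≤ T}
      rw [this]
      exact isClosed_iInter fun l => isClosed_le (h.cont (yB l)).norm continuous_const
  have hWm : MeasurableSet {η : Fin r → ℂ | ∀ l, ‖η l‖ ≤ T} := by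
    apply IsClosed.measurableSet
    have : {η : Fin r → ℂ | ∀ l, ‖η l‖ ≤ T} = ⋂ l, {η | ‖η l‖ ≤ T} := by
      ext x; simp
    rw [this]
    exact isClosed_iInter fun l => isClosed_le (continuous_apply l).norm continuous_const
  have hdet : ∀ x, (jm ev b' x).det = ev x (Matrix.of b').det := det_jm b'
  refine area_ae_le hμ hsd (by simp_rw [hdet]; exact h.cont _) hEm hWm
    (fun x hx _ => hx.2) ?_ hw ?_
  · have hae : ∀ᵐ η : Fin r → ℂ, ∀ k, ∃ s : Finset ℂ, s.card ≤ (P k).natDegree ∧
        ∀ ψ : B →+* ℂ, (∀ a, ψ (i a) = φ a) → (∀ l, ψ (yB l) = η l) → ψ (gB k) ∈ s := by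
      rw [ae_all_iff]
      intro k
      exact deg_bound (hP k) (hPg k) jA jB i h.comm h.injB h.injA (hA k) (hA' k) (fun l => rfl)
        (hg k) φ
    filter_upwards [hae] with η hη
    choose s hs1 hs2 using hη
    have h1 : {x : M | x ∈ E ∧ (jm ev b' x).det ≠ 0 ∧ (fun l => ev x (yB l)) = η}.encard ≤
        ((Fintype.piFinset s : Finset (ν → ℂ)) : Set (ν → ℂ)).encard := by
      apply Set.encard_le_encard_of_injOn (f := fun x k => ev x (gB k))
      · rintro x ⟨_, _, hx⟩
        rw [Finset.mem_coe, Fintype.mem_piFinset]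
        intro k
        exact hs2 k (ev x) (h.ev_i x) (fun l => congrFun hx l)
      · intro x _ x' _ hxx
        exact hsep x x' fun k => congrFun hxx k
    refine h1.trans ?_
    rw [Set.encard_coe_eq_coe_finsetCard, Fintype.card_piFinset]
    exact_mod_cast Finset.prod_le_prod' fun k _ => hs1 k
  · rintro x ⟨hx1, hx2⟩
    rw [hdet]
    exact hF x hx1 hx2

end one

/-- **MAIN THEOREM.** -/
theorem main [CharZero L] [Algebra.EssFiniteType L K] (bas : Module.Basis (Fin r) K (Ω[K⁄L]))
    {ι : Type} (h : ι → K) (y : ι → Fin r → K) (hJ : ∀ i, jac L bas (y i) ≠ 0)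
    (H : ∀ V : ValuationSubring K, (∀ a : L, algebraMap L K a ∈ V) → ∃ i, h i ∈ V ∧ ∀ l, y i l ∈ V)
    (GG : Finset K) :
    ∃ (S : Finset ι) (AA : Finset L) (BB : Finset K) (C : ℝ) (n : ℕ) (d : ι → ℕ), 1 ≤ C ∧
      ∀ (A B : Type) [CommRing A] [CommRing B] (jA : A →+* L) (jB : B →+* K) (inc : A →+* B)
        (φ : A →+* ℂ) (M : Type) [TopologicalSpace M] [RDom r M] [MeasurableSpace M] [BorelSpace M]
        [SecondCountableTopology M] (ev : M → B →+* ℂ) (μ : Measure M), IsLeb μ →
        IsFib bas jA jB inc φ ev →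
        (∀ a ∈ AA, ∃ a', jA a' = a) → (∀ a ∈ AA, ∃ a', jA a' = a⁻¹) →
        (∀ b ∈ BB, ∃ b', jB b' = b) → (∀ b ∈ BB, ∃ b', jB b' = b⁻¹) →
        (∀ x x' : M, (∀ b, jB b ∈ GG → ev x b = ev x' b) → x = x') →
        ∀ R : ℝ, 0 ≤ R → (∀ a ∈ AA, ∀ a', jA a' = a → ‖φ a'‖ ≤ R) →
        (∀ x : M, ∃ i ∈ S, (∀ b, jB b = h i → ‖ev x b‖ ≤ C * (1 + R) ^ n) ∧
          ∀ l b, jB b = y i l → ‖ev x b‖ ≤ C * (1 + R) ^ n) ∧
        ∀ w : ι → (Fin r → ℂ) → ℝ≥0∞, (∀ i, Measurable (w i)) → ∀ F : M → ℝ≥0∞,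
          (∀ i ∈ S, ∀ (hB JB : B) (yB : Fin r → B), jB hB = h i → jB JB = jac L bas (y i) →
            (∀ l, jB (yB l) = y i l) → ∀ x, ‖ev x hB‖ ≤ C * (1 + R) ^ n →
            (∀ l, ‖ev x (yB l)‖ ≤ C * (1 + R) ^ n) →
            F x ≤ ENNReal.ofReal (‖ev x JB‖ ^ 2) * w i (fun l => ev x (yB l))) →
          ∫⁻ x, F x ∂μ ≤ ∑ i ∈ S, (d i : ℝ≥0∞) *
            ∫⁻ η in {η : Fin r → ℂ | ∀ l, ‖η l‖ ≤ C * (1 + R) ^ n}, w i η := by
  classical
  let f : ι → Option (Fin r) → K := fun i o => o.elim (h i) (y i)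
  have Hf : ∀ V : ValuationSubring K, (∀ a : L, algebraMap L K a ∈ V) → ∃ i, ∀ o, f i o ∈ V := by
    intro V hV
    obtain ⟨i, h1, h2⟩ := H V hV
    refine ⟨i, fun o => ?_⟩
    cases o with
    | none => exact h1
    | some l => exact h2 l
  obtain ⟨S, A0, C, n, hC, hcov⟩ := cover (k := L) f Hf
  -- the polynomials
  have halg : ∀ i, Algebra.IsAlgebraic (IntermediateField.adjoin L (Set.range (y i))) K := by
    intro i
    apply algebraic_of_basis
    have h1 := hJ i
    rw [jac] at h1
    exact ((Module.Basis.is_basis_iff_det bas).2 (IsUnit.mk0 _ h1)).2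
  choose P hP0 hPe using fun (i : ι) (b : K) => exists_poly (halg i) b
  let AA : Finset L := A0 ∪ S.biUnion fun i => GG.biUnion fun b => cofs (P i b)
  let BB : Finset K := GG ∪ S.biUnion fun i => insert (h i) (Finset.univ.biUnion fun l : Fin r =>
    insert (y i l) (Finset.univ.image fun m : Fin r =>
      bas.repr (KaehlerDifferential.D L K (y i l)) m))
  have hBBh : ∀ i ∈ S, h i ∈ BB := fun i hi => Finset.mem_union_right _
    (Finset.mem_biUnion.2 ⟨i, hi, Finset.mem_insert_self _ _⟩)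
  have hBBy : ∀ i ∈ S, ∀ l, y i l ∈ BB := fun i hi l => Finset.mem_union_right _
    (Finset.mem_biUnion.2 ⟨i, hi, Finset.mem_insert_of_mem
      (Finset.mem_biUnion.2 ⟨l, Finset.mem_univ _, Finset.mem_insert_self _ _⟩)⟩)
  have hBBd : ∀ i ∈ S, ∀ l m, bas.repr (KaehlerDifferential.D L K (y i l)) m ∈ BB :=
    fun i hi l m => Finset.mem_union_right _
      (Finset.mem_biUnion.2 ⟨i, hi, Finset.mem_insert_of_mem
        (Finset.mem_biUnion.2 ⟨l, Finset.mem_univ _, Finset.mem_insert_of_mem
          (Finset.mem_image.2 ⟨m, Finset.mem_univ _, rfl⟩)⟩)⟩)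
  refine ⟨S, AA, BB, C, n, fun i => ∏ k : GG, (P i k.1).natDegree, hC, ?_⟩
  intro A B _ _ jA jB inc φ M _ _ _ _ _ ev μ hμ hfib hA hA' hB hB' hsep R hR hRA
  have hcov' : ∀ x : M, ∃ i ∈ S, ∀ o, ∀ b, jB b = f i o → ‖ev x b‖ ≤ C * (1 + R) ^ n := by
    intro x
    apply hcov B jB (ev x) R hfib.injB hR
    · intro i hi o
      cases o with
      | none => exact hB _ (hBBh i hi)
      | some l => exact hB _ (hBBy i hi l)
    · intro i hi o
      cases o with
      | none => exact hB' _ (hBBh i hi)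
      | some l => exact hB' _ (hBBy i hi l)
    · intro a ha
      obtain ⟨a', ha'⟩ := hA a (Finset.mem_union_left _ ha)
      refine ⟨inc a', by rw [hfib.comm, ha'], ?_⟩
      rw [hfib.ev_i]
      exact hRA a (Finset.mem_union_left _ ha) a' ha'
  refine ⟨fun x => ?_, ?_⟩
  · obtain ⟨i, hi, h1⟩ := hcov' x
    exact ⟨i, hi, fun b hb => h1 none b hb, fun l b hb => h1 (some l) b hb⟩
  · intro w hw F hF
    set T : ℝ := C * (1 + R) ^ n with hT
    -- choose representatives
    have hrep : ∀ i : S, ∃ (hb : B) (yb : Fin r → B) (b' : Fin r → Fin r → B), jB hb = h i ∧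
        (∀ l, jB (yb l) = y i l) ∧
        (∀ l m, jB (b' l m) = bas.repr (KaehlerDifferential.D L K (jB (yb l))) m) := by
      intro i
      obtain ⟨hb, hhb⟩ := hB _ (hBBh i i.2)
      choose yb hyb using fun l => hB _ (hBBy i i.2 l)
      choose b' hb' using fun l m => hB _ (hBBd i i.2 l m)
      exact ⟨hb, yb, b', hhb, hyb, fun l m => by rw [hb', hyb]⟩
    choose hb yb b' hhb hyb hb' using hrep
    have hGG : ∀ k : GG, ∃ b, jB b = k.1 := fun k => hB _ (Finset.mem_union_left _ k.2)
    choose gB hgB using hGG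
    -- union of the pieces
    have hun : (Set.univ : Set M) ⊆ ⋃ i : S,
        {x | ‖ev x (hb i)‖ ≤ T ∧ ∀ l, ‖ev x (yb i l)‖ ≤ T} := by
      intro x _
      obtain ⟨i, hi, h1⟩ := hcov' x
      simp only [Set.mem_iUnion]
      refine ⟨⟨i, hi⟩, ?_, fun l => ?_⟩
      · exact h1 none _ (hhb ⟨i, hi⟩)
      · exact h1 (some l) _ (hyb ⟨i, hi⟩ l)
    calc ∫⁻ x, F x ∂μ = ∫⁻ x in Set.univ, F x ∂μ := by rw [Measure.restrict_univ]
      _ ≤ ∫⁻ x in ⋃ i : S,
        {x | ‖ev x (hb i)‖ ≤ T ∧ ∀ l, ‖ev x (yb i l)‖ ≤ T}, F x ∂μ := lintegral_mono_set hun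
      _ ≤ ∑' i : S, ∫⁻ x in {x | ‖ev x (hb i)‖ ≤ T ∧ ∀ l, ‖ev x (yb i l)‖ ≤ T}, F x ∂μ :=
          lintegral_iUnion_le _ _
      _ = ∑ i ∈ (Finset.univ : Finset S),
          ∫⁻ x in {x | ‖ev x (hb i)‖ ≤ T ∧ ∀ l, ‖ev x (yb i l)‖ ≤ T}, F x ∂μ := tsum_fintype _
      _ ≤ ∑ i ∈ (Finset.univ : Finset S), ((∏ k : GG, (P i.1 k.1).natDegree : ℕ) : ℝ≥0∞) *
            ∫⁻ η in {η : Fin r → ℂ | ∀ l, ‖η l‖ ≤ T}, w i.1 η := by
          apply Finset.sum_le_sum
          intro i _
          refine piece_le hμ hfib (hb' i) (T := T) (hB := hb i) (ν := GG) (gB := gB)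
            (g := fun k => k.1) hgB ?_ (P := fun k => P i.1 k.1) (fun k => hP0 _ _) ?_ ?_ ?_
            (hw i.1) ?_
          · intro x x' hxx
            apply hsep
            intro b hb
            have h1 := hxx ⟨jB b, hb⟩
            have h2 : gB ⟨jB b, hb⟩ = b := hfib.injB (hgB ⟨jB b, hb⟩)
            rwa [h2] at h1
          · intro k
            have h1 : (fun l => jB (yb i l)) = y i.1 := funext (hyb i)
            rw [h1]
            exact hPe i.1 k.1
          · intro k a ha
            exact hA a (Finset.mem_union_right _ (Finset.mem_biUnion.2 ⟨i.1, i.2,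
              Finset.mem_biUnion.2 ⟨k.1, k.2, ha⟩⟩))
          · intro k a ha
            exact hA' a (Finset.mem_union_right _ (Finset.mem_biUnion.2 ⟨i.1, i.2,
              Finset.mem_biUnion.2 ⟨k.1, k.2, ha⟩⟩))
          · intro x hx1 hx2
            refine hF i.1 i.2 (hb i) _ (yb i) (hhb i) ?_ (hyb i) x hx1 hx2
            rw [jB_det (hb' i)]
            congr 1
            exact funext (hyb i)
      _ = ∑ i ∈ S, ((∏ k : GG, (P i k.1).natDegree : ℕ) : ℝ≥0∞) *
            ∫⁻ η in {η : Fin r → ℂ | ∀ l, ‖η l‖ ≤ T}, w i η := by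
          rw [Finset.univ_eq_attach]
          exact Finset.sum_attach S (fun i => ((∏ k : GG, (P i k.1).natDegree : ℕ) : ℝ≥0∞) *
            ∫⁻ η in {η : Fin r → ℂ | ∀ l, ‖η l‖ ≤ T}, w i η)

end Crest.Agent.R276.GroUpD_845
end
end

-- ▼ part R276/GroUpE_845

/-!
# INT / GRO-UP (helper845, row 276)

`int_le` : `g · b^N` relative `N`-form of `K/L`, regular at all valuation rings of `K` containing `L`
(`PluriS`): then `∫_{M_z} |g|^{2/N} ≤ C (1 + R(z))^n` at EVERY point `z` of a (shrunk) model of `L`, `R(z)` a bound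
for the values at `z` of finitely many elements of `L`.
-/

set_option autoImplicit false

open scoped Topology ENNReal
open Filter Set MeasureTheory

noncomputable section

namespace Crest.Agent.R276.GroUpE_845

open Crest.Agent.R271.Ho51 Crest.Agent.R276.Area_448 Crest.Agent.R276.FKDefs_779
open Crest.Agent.R276.GroUpD_845

variable {L K : Type} [Field L] [Field K] [Algebra L K] {r : ℕ}

/-- the tuples attached to a strongly regular form -/
theorem exists_tuples (bas : Module.Basis (Fin r) K (Ω[K⁄L])) {N : ℕ} (hN : 0 < N) {g : K} (hg : g ≠ 0)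
    (hS : PluriS L bas N g) :
    ∀ V : ValuationSubring K, (∀ a : L, algebraMap L K a ∈ V) →
      ∃ t : {t : K × (Fin r → K) // jac L bas t.2 ≠ 0 ∧ g = t.1 * jac L bas t.2 ^ N},
        t.1.1 ∈ V ∧ ∀ l, t.1.2 l ∈ V := by
  intro V hV
  obtain ⟨y, hy, hv⟩ := hS V hV
  have hj : jac L bas y ≠ 0 := by
    intro h0
    rw [h0, map_zero, zero_pow hN.ne', le_zero_iff, map_eq_zero] at hv
    exact hg hv
  refine ⟨⟨(g / jac L bas y ^ N, y), hj, ?_⟩, ?_, hy⟩
  · simp only
    field_simp
  · simp only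
    rw [← ValuationSubring.valuation_le_one_iff, map_div₀, map_pow]
    apply div_le_one_of_le₀ hv
    exact zero_le

lemma volume_polydisc {T : ℝ} :
    volume {η : Fin r → ℂ | ∀ l, ‖η l‖ ≤ T} = (ENNReal.ofReal T ^ 2 * NNReal.pi) ^ r := by
  have h1 : {η : Fin r → ℂ | ∀ l, ‖η l‖ ≤ T} = Set.pi Set.univ (fun _ => Metric.closedBall (0 : ℂ) T) := by
    ext η
    simp
  rw [h1, MeasureTheory.volume_pi_pi]
  simp [Complex.volume_closedBall]

lemma volume_polydisc' {T : ℝ} (hT : 0 ≤ T) :
    volume {η : Fin r → ℂ | ∀ l, ‖η l‖ ≤ T} = ENNReal.ofReal ((T ^ 2 * Real.pi) ^ r) := by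
  rw [volume_polydisc, ENNReal.ofReal_pow (by positivity), ENNReal.ofReal_mul (by positivity),
    ENNReal.ofReal_pow hT]
  congr 2
  rw [← NNReal.coe_real_pi, ENNReal.ofReal_coe_nnreal]


end Crest.Agent.R276.GroUpE_845
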