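import Mathlib
import Crest.Prelude.Def_SmoothDivisors
import Crest.Agent.R271.Br1_958
import Crest.Agent.R271.Fr_960
import Crest.Prelude.Def_KodairaDim
import Crest.Agent.R271.Br5_958
import Crest.Agent.R271.UfdG_243
import Crest.Agent.R276.FKB1_594
import Crest.Agent.R271.PCtx2_961
import Crest.Agent.R276.FKDefs_779
import Crest.Agent.R271.Br4_958

-- ▼ part R271/Val_985
section

/-!
Row 271 (S0413), bridge piece P3: valuative properness in terms of the function field.
Every valuation subring of `K(X)` containing the base field dominates the stalk of a point.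
-/

set_option autoImplicit false

open AlgebraicGeometry CategoryTheory Crest.AlgGeometry.Divisors IsLocalRing

noncomputable section

namespace Crest.Agent.R271.Val985

universe u

/-- The constants in the function field. -/
def constHom (k : Type u) [Field k] (X : Scheme.{u}) [Algebra k Γ(X, ⊤)] [IrreducibleSpace X] :
    k →+* X.functionField :=
  (X.presheaf.germ ⊤ (genericPoint X) trivial).hom.comp (algebraMap k Γ(X, ⊤))

theorem fromSpecStalk_structureMorphism (k : Type u) [Field k] (X : Scheme.{u})
    [Algebra k Γ(X, ⊤)] (x : X) :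
    X.fromSpecStalk x ≫ structureMorphism k X =
      Spec.map (CommRingCat.ofHom
        ((X.presheaf.germ ⊤ x trivial).hom.comp (algebraMap k Γ(X, ⊤)))) := by
  rw [structureMorphism, ← Category.assoc]
  have h : X.fromSpecStalk x ≫ X.toSpecΓ = Spec.map (X.presheaf.germ ⊤ x trivial) := by
    exact Scheme.fromSpecStalk_toSpecΓ X x
  rw [h, ← Spec.map_comp]
  rfl

/-- (P3) every valuation subring of the function field containing the constants dominates the
local ring of some point. -/
theorem exists_center (k : Type u) [Field k] (X : Scheme.{u}) [Algebra k Γ(X, ⊤)] [IsIntegral X]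
    (hp : IsProper (structureMorphism k X)) (V : ValuationSubring X.functionField)
    (hV : ∀ c : k, constHom k X c ∈ V) :
    ∃ x : X, (∀ a : X.presheaf.stalk x, algebraMap (X.presheaf.stalk x) X.functionField a ∈ V) ∧
      ∀ a : X.presheaf.stalk x, a ∈ maximalIdeal (X.presheaf.stalk x) →
        V.valuation (algebraMap (X.presheaf.stalk x) X.functionField a) < 1 := by
  classical
  let K := X.functionField
  let φ : k →+* V := (constHom k X).codRestrict V.toSubring hV
  let i₂ : Spec (.of V) ⟶ Spec (CommRingCat.of k) := Spec.map (CommRingCat.ofHom φ)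
  let i₁ : Spec (.of X.functionField) ⟶ X := X.fromSpecStalk (genericPoint X)
  have hsq : CommSq i₁ (Spec.map (CommRingCat.ofHom (algebraMap V X.functionField)))
      (structureMorphism k X) i₂ := by
    constructor
    change X.fromSpecStalk (genericPoint X) ≫ structureMorphism k X = _
    rw [fromSpecStalk_structureMorphism, ← Spec.map_comp]
    rfl
  let S : ValuativeCommSq (structureMorphism k X) :=
    { R := V, K := X.functionField, i₁ := i₁, i₂ := i₂, commSq := hsq }
  have hvc : ValuativeCriterion (structureMorphism k X) := by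
    have := (IsProper.eq_valuativeCriterion ▸ hp :
      (ValuativeCriterion ⊓ @QuasiCompact ⊓ @QuasiSeparated ⊓ @LocallyOfFiniteType)
        (structureMorphism k X))
    exact this.1.1.1
  obtain ⟨l, hl₁, hl₂⟩ := (hvc.existence S).exists_lift
  let l' : Spec (.of V) ⟶ X := l
  let x : X := l' (closedPoint V)
  let α : X.presheaf.stalk x ⟶ .of V := Scheme.stalkClosedPointTo l'
  have hα : Spec.map α ≫ X.fromSpecStalk x = l' := Scheme.Spec_stalkClosedPointTo_fromSpecStalk l'
  have hloc : IsLocalHom α.hom := inferInstance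
  have key : α ≫ CommRingCat.ofHom (algebraMap V X.functionField) =
      X.presheaf.stalkSpecializes ((genericPoint_spec X).specializes trivial) := by
    apply Spec.map_injective
    rw [← cancel_mono (X.fromSpecStalk x), Spec.map_comp, Category.assoc, hα]
    rw [Scheme.SpecMap_stalkSpecializes_fromSpecStalk]
    exact hl₁
  have key' : ∀ a : X.presheaf.stalk x,
      ((α.hom a : V) : X.functionField) = algebraMap (X.presheaf.stalk x) X.functionField a := by
    intro a
    have := congrArg (fun f => f.hom a) key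
    exact this
  refine ⟨x, fun a => ?_, fun a ha => ?_⟩
  · rw [← key']; exact (α.hom a : V).2
  · rw [← key']
    have hnu : ¬ IsUnit (α.hom a) := by
      intro hu
      exact ha (isUnit_of_map_unit α.hom a hu)
    exact (V.valuation_lt_one_iff _).1 hnu

end Crest.Agent.R271.Val985
end
end

-- ▼ part R271/Kx1_735
section

/-!
Row 271, bridge (helper735): closed point reduction, canonical divisors, section criterion.
-/

set_option autoImplicit false
set_option linter.unusedSectionVars false

open AlgebraicGeometry Crest.AlgGeometry.Divisors Order CategoryTheory TopologicalSpace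

noncomputable section

namespace Crest.Agent.R271.Kx735

set_option warn.classDefReducibility false in
attribute [local instance] fnFieldAlgebra

open Crest.Agent.R271.Br958

variable {X : Scheme.{0}} [IsIntegral X] [IsLocallyNoetherian X]



lemma det_toMatrix_ne_zero {K V ι : Type*} [Field K] [AddCommGroup V] [Module K V] [Fintype ι]
    [DecidableEq ι] (b b' : Module.Basis ι K V) : (b.toMatrix b').det ≠ 0 := by
  have h1 := congrArg Matrix.det (b.toMatrix_mul_toMatrix_flip b')
  rw [Matrix.det_mul, Matrix.det_one] at h1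
  exact left_ne_zero_of_mul_eq_one h1

variable [Algebra ℂ Γ(X, ⊤)]

/-- (K2) the order formula for a canonical divisor against an arbitrary basis -/
theorem canonical_ord {n : ℕ} {K : WeilDiv X} (hK : IsCanonicalDivisor ℂ X n K)
    (b' : Module.Basis (Fin n) X.functionField (Ω[X.functionField⁄ℂ])) :
    ∃ c : X.functionField, c ≠ 0 ∧ ∀ (z : PrimeDivisor X)
      (b : Module.Basis (Fin n) X.functionField (Ω[X.functionField⁄ℂ])),
      IsLocalFrameAt ℂ X z.1 ⇑b →
        K z = Scheme.ord c z.1 + Scheme.ord (b.toMatrix b').det z.1 := by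
  obtain ⟨ω, ⟨b₀, hb₀⟩, hω⟩ := hK
  have hc : ω.coef b' ≠ 0 := by
    intro h0
    have := ω.law b₀ b'
    rw [h0, zero_mul] at this
    exact hb₀ this.symm
  refine ⟨ω.coef b', hc, fun z b hb => ?_⟩
  rw [hω z b hb, ← ω.law b b', Scheme.ord_mul hc (det_toMatrix_ne_zero b b')]



end Crest.Agent.R271.Kx735
end
end

-- ▼ part R276/FKB_375
section

/-!
Row 276, leaf FK2 (helper375): bridge between `KodairaDimGe` on a smooth proper scheme over `ℂ`
and pluricanonical forms of the function field that are regular at every valuation ring.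
-/

set_option autoImplicit false
set_option linter.unusedSectionVars false
set_option linter.style.haveILetI false

open AlgebraicGeometry Order CategoryTheory Crest.AlgGeometry.Divisors TopologicalSpace
open Crest.Agent.R271.Br958 Crest.Agent.R271.Bs960 Crest.Agent.R271.Kx735

noncomputable section

namespace Crest.Agent.R276.FKB_375

set_option warn.classDefReducibility false in
attribute [local instance] fnFieldAlgebra

variable {X : Scheme.{0}} [Algebra ℂ Γ(X, ⊤)] [IsIntegral X] [IsLocallyNoetherian X] {n : ℕ}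

theorem normalSch (hX : IsSmoothProperVariety ℂ X n) : NormalSch X :=
  ⟨fun x => by
    have := Crest.Agent.R271.UFD243.stalk_ufd X hX x
    infer_instance⟩

/-- local frame given by coordinates at an arbitrary point -/
theorem exists_coord_frame (hX : IsSmoothProperVariety ℂ X n) (x : X) :
    ∃ (y : Fin n → X.presheaf.stalk x)
      (b : Module.Basis (Fin n) X.functionField (Ω[X.functionField⁄ℂ])),
      (∀ i, b i = KaehlerDifferential.D ℂ X.functionField
        (algebraMap (X.presheaf.stalk x) X.functionField (y i))) ∧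
      ∀ z : X, z ⤳ x → IsLocalFrameAt ℂ X z ⇑b := by
  obtain ⟨V, hV, hxV, w, hw⟩ := exists_etale_chart hX x
  letI := secAlg X V
  have hne : Nonempty V := ⟨⟨x, hxV⟩⟩
  obtain ⟨b, hb, hbf⟩ := frame_of_etale X hV w (ECoord.fe hw)
  refine ⟨fun i => X.presheaf.germ V x hxV (w i), b, fun i => ?_, fun z hz =>
    hbf z (hz.mem_open V.isOpen hxV)⟩
  rw [hb]
  congr 1
  exact (Scheme.algebraMap_germ_eq_germToFunctionField X hxV (w i)).symm

lemma det_mul_det (b b' : Module.Basis (Fin n) X.functionField (Ω[X.functionField⁄ℂ])) :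
    b'.det b * (b.toMatrix b').det = 1 := by
  rw [Module.Basis.det_apply, ← Matrix.det_mul, Module.Basis.toMatrix_mul_toMatrix_flip,
    Matrix.det_one]

/-- Sections of `m K_X` are regular `m`-canonical forms at every valuation ring. -/
theorem pluri_of_section (hX : IsSmoothProperVariety ℂ X n)
    (b' : Module.Basis (Fin n) X.functionField (Ω[X.functionField⁄ℂ]))
    {K : WeilDiv X} {c : X.functionField} (hc : c ≠ 0)
    (hcK : ∀ (z : PrimeDivisor X)
      (b : Module.Basis (Fin n) X.functionField (Ω[X.functionField⁄ℂ])),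
      IsLocalFrameAt ℂ X z.1 ⇑b →
        K z = Scheme.ord c z.1 + Scheme.ord (b.toMatrix b').det z.1)
    (m : ℕ) {f : X.functionField} (hf : IsSection (m • K) f)
    (R : ValuationSubring X.functionField)
    (hR : ∀ a : ℂ, algebraMap ℂ X.functionField a ∈ R) :
    ∃ y : Fin n → X.functionField, (∀ i, y i ∈ R) ∧
      b'.det (fun i => KaehlerDifferential.D ℂ X.functionField (y i)) ≠ 0 ∧
      f * c ^ m / b'.det (fun i => KaehlerDifferential.D ℂ X.functionField (y i)) ^ m ∈ R := by
  have hn := normalSch hX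
  obtain ⟨x, hx⟩ := Crest.Agent.R271.Br958.exists_center hX.2.1 R hR
  obtain ⟨y, b, hb, hbf⟩ := exists_coord_frame hX x
  have hD : (fun i => KaehlerDifferential.D ℂ X.functionField
      (algebraMap (X.presheaf.stalk x) X.functionField (y i))) = ⇑b := by
    funext i; rw [hb]
  refine ⟨fun i => algebraMap (X.presheaf.stalk x) X.functionField (y i), fun i => hx _, ?_, ?_⟩
  · rw [hD]
    exact left_ne_zero_of_mul_eq_one (det_mul_det b b')
  · rw [hD]
    have hJ : b'.det b ≠ 0 := left_ne_zero_of_mul_eq_one (det_mul_det b b')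
    have hdet : (b.toMatrix b').det ≠ 0 := right_ne_zero_of_mul_eq_one (det_mul_det b b')
    have hfc : f * c ^ m ≠ 0 := mul_ne_zero hf.1 (pow_ne_zero m hc)
    obtain ⟨a, ha⟩ := mem_stalk_of_ord_nonneg_all x (f * c ^ m / b'.det b ^ m)
      (div_ne_zero hfc (pow_ne_zero m hJ)) (fun z hz hzx => by
        have h1 := hcK ⟨z, hz⟩ b (hbf z hzx)
        have h2 := hf.2 ⟨z, hz⟩
        have h3 := congrArg (fun g => Scheme.ord g z) (det_mul_det b b')
        rw [Scheme.ord_mul hJ hdet, ord_one] at h3
        rw [ord_div hfc (pow_ne_zero m hJ), Scheme.ord_mul hf.1 (pow_ne_zero m hc), ord_pow hc,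
          ord_pow hJ]
        simp only [Finsupp.smul_apply, nsmul_eq_mul] at h2
        have h4 : Scheme.ord (b'.det b) z = - Scheme.ord (b.toMatrix b').det z := by omega
        rw [h4]
        rw [h1] at h2
        nlinarith)
    rw [← ha]
    exact hx a

/-- the valuation subring of a prime divisor -/
def stalkVal (z : X) (hd : IsDiscreteValuationRing (X.presheaf.stalk z)) :
    ValuationSubring X.functionField where
  toSubring := (algebraMap (X.presheaf.stalk z) X.functionField).range
  mem_or_inv_mem' x := by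
    rcases ValuationRing.isInteger_or_isInteger (X.presheaf.stalk z) x with h | h
    · obtain ⟨a, ha⟩ := h
      exact Or.inl ⟨a, ha⟩
    · obtain ⟨a, ha⟩ := h
      exact Or.inr ⟨a, ha⟩

lemma mem_stalkVal (z : X) (hd : IsDiscreteValuationRing (X.presheaf.stalk z))
    (x : X.functionField) :
    x ∈ stalkVal z hd ↔ ∃ a, algebraMap (X.presheaf.stalk z) X.functionField a = x := Iff.rfl

lemma const_mem_stalkVal (z : X) (hd : IsDiscreteValuationRing (X.presheaf.stalk z)) (a : ℂ) :
    algebraMap ℂ X.functionField a ∈ stalkVal z hd := by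
  letI := stalkAlgebra ℂ X z
  have := tower_stalk_fn X z
  exact ⟨algebraMap ℂ (X.presheaf.stalk z) a, (IsScalarTower.algebraMap_apply ℂ _ _ a).symm⟩

lemma repr_sum_smul {ι F M : Type*} [Fintype ι] [Field F] [AddCommGroup M]
    [Module F M] (b : Module.Basis ι F M) (c : ι → F) (j : ι) :
    b.repr (∑ i, c i • b i) j = c j := by
  rw [b.repr_sum_self]

/-- the determinant of differentials of regular functions against a local frame is regular -/
lemma det_mem (z : X) (b : Module.Basis (Fin n) X.functionField (Ω[X.functionField⁄ℂ]))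
    (hb : IsLocalFrameAt ℂ X z ⇑b) (y : Fin n → X.presheaf.stalk z) :
    ∃ a : X.presheaf.stalk z, algebraMap (X.presheaf.stalk z) X.functionField a =
      b.det (fun i => KaehlerDifferential.D ℂ X.functionField
        (algebraMap (X.presheaf.stalk z) X.functionField (y i))) := by
  letI := stalkAlgebra ℂ X z
  obtain ⟨ht, e, he, hspan⟩ := hb
  have h1 : ∀ i, ∃ A : Fin n → X.presheaf.stalk z,
      ∑ j, A j • e j = KaehlerDifferential.D ℂ (X.presheaf.stalk z) (y i) := by
    intro i
    have : KaehlerDifferential.D ℂ (X.presheaf.stalk z) (y i) ∈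
        Submodule.span (X.presheaf.stalk z) (Set.range e) := by
      rw [hspan]; trivial
    exact (Submodule.mem_span_range_iff_exists_fun _).1 this
  choose A hA using h1
  refine ⟨(Matrix.of fun j i => A i j).det, ?_⟩
  rw [Module.Basis.det_apply, RingHom.map_det]
  congr 1
  ext j i
  rw [Module.Basis.toMatrix_apply]
  have h2 : KaehlerDifferential.D ℂ X.functionField
      (algebraMap (X.presheaf.stalk z) X.functionField (y i)) =
      ∑ j, algebraMap (X.presheaf.stalk z) X.functionField (A i j) • b j := by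
    have h3 := congrArg (KaehlerDifferential.map ℂ ℂ (X.presheaf.stalk z) X.functionField) (hA i)
    rw [KaehlerDifferential.map_D, map_sum] at h3
    rw [← h3]
    refine Finset.sum_congr rfl fun j _ => ?_
    rw [map_smul, he, algebraMap_smul]
  rw [h2, repr_sum_smul]
  rfl


end Crest.Agent.R276.FKB_375
end
end

-- ▼ part R276/FKB3_594
section

/-!
# Row 276 (S0419), FK2: the valuation ring of a prime divisor is divisorial (helper594).
-/

set_option autoImplicit false
set_option linter.style.haveILetI false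
set_option linter.unusedSectionVars false

open AlgebraicGeometry Order CategoryTheory Crest.AlgGeometry.Divisors TopologicalSpace
open Crest.Agent.R271.Br958 Crest.Agent.R271.Bs960 Crest.Agent.R276.FKB_375 IsLocalRing

noncomputable section

namespace Crest.Agent.R276.FKB3_594

/-- transcendence degree of the residue field of a localisation at a prime -/
theorem trdeg_residueField {A R : Type} [CommRing A] [CommRing R] [Algebra ℂ A] [Algebra ℂ R]
    [Algebra A R] [IsScalarTower ℂ A R] [IsLocalRing R] (p : Ideal A) [hp : p.IsPrime]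
    [hloc : IsLocalization.AtPrime R p] :
    Algebra.trdeg ℂ (ResidueField R) = Algebra.trdeg ℂ (A ⧸ p) := by
  have hker : ∀ a ∈ p, residue R (algebraMap A R a) = 0 := by
    intro a ha
    rw [residue_eq_zero_iff]
    exact ((IsLocalization.AtPrime.to_map_mem_maximal_iff R p a).2 ha)
  let φ : A ⧸ p →ₐ[ℂ] ResidueField R :=
    Ideal.Quotient.liftₐ p ((IsScalarTower.toAlgHom ℂ R (ResidueField R)).comp
      (IsScalarTower.toAlgHom ℂ A R)) (fun a ha => hker a ha)
  have hφ : ∀ a : A, φ (Ideal.Quotient.mk p a) = residue R (algebraMap A R a) := fun a => rfl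
  have hinj : Function.Injective φ := by
    rw [injective_iff_map_eq_zero]
    intro x hx
    obtain ⟨a, rfl⟩ := Ideal.Quotient.mk_surjective x
    rw [hφ, residue_eq_zero_iff, IsLocalization.AtPrime.to_map_mem_maximal_iff R p] at hx
    exact Ideal.Quotient.eq_zero_iff_mem.2 hx
  letI : Algebra (A ⧸ p) (ResidueField R) := φ.toRingHom.toAlgebra
  haveI : IsScalarTower ℂ (A ⧸ p) (ResidueField R) :=
    IsScalarTower.of_algebraMap_eq fun c => (φ.commutes c).symm
  haveI : FaithfulSMul (A ⧸ p) (ResidueField R) :=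
    (faithfulSMul_iff_algebraMap_injective _ _).2 hinj
  haveI : IsDomain (A ⧸ p) := Ideal.Quotient.isDomain p
  haveI : FaithfulSMul ℂ (A ⧸ p) :=
    (faithfulSMul_iff_algebraMap_injective _ _).2 (algebraMap ℂ (A ⧸ p)).injective
  haveI halg : Algebra.IsAlgebraic (A ⧸ p) (ResidueField R) := by
    refine ⟨fun x => ?_⟩
    obtain ⟨r, rfl⟩ := IsLocalRing.residue_surjective x
    obtain ⟨⟨a, s⟩, has⟩ := IsLocalization.surj p.primeCompl r
    have h1 : algebraMap (A ⧸ p) (ResidueField R) (Ideal.Quotient.mk p s.1) * residue R r =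
        algebraMap (A ⧸ p) (ResidueField R) (Ideal.Quotient.mk p a) := by
      change residue R (algebraMap A R s.1) * residue R r = residue R (algebraMap A R a)
      rw [← map_mul, mul_comm, has]
    have hs0 : Ideal.Quotient.mk p s.1 ≠ 0 := fun h =>
      s.2 (Ideal.Quotient.eq_zero_iff_mem.1 h)
    refine ⟨Polynomial.C (Ideal.Quotient.mk p s.1) * Polynomial.X -
      Polynomial.C (Ideal.Quotient.mk p a), ?_, ?_⟩
    · intro h0
      have := congrArg (fun P => Polynomial.coeff P 1) h0
      simp only [Polynomial.coeff_sub, Polynomial.coeff_C_mul, Polynomial.coeff_X_one, mul_one,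
        Polynomial.coeff_C_succ, sub_zero, Polynomial.coeff_zero] at this
      exact hs0 this
    · simp only [map_sub, map_mul, Polynomial.aeval_C, Polynomial.aeval_X]
      rw [h1, sub_self]
  have h := trdeg_add_eq ℂ (A ⧸ p) (A := ResidueField R)
  have h0 : Algebra.trdeg (A ⧸ p) (ResidueField R) = 0 := trdeg_eq_zero
  rw [h0, add_zero] at h
  exact h.symm

set_option warn.classDefReducibility false in
attribute [local instance] fnFieldAlgebra

variable {X : Scheme.{0}} [Algebra ℂ Γ(X, ⊤)] [IsIntegral X] [IsLocallyNoetherian X] {n : ℕ}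

/-- the residue field of a prime divisor has transcendence degree `n - 1` -/
theorem trdeg_residueField_stalk (hX : IsSmoothProperVariety ℂ X n) (z : X)
    (hz : coheight z = 1) :
    letI := stalkAlgebra ℂ X z
    Algebra.trdeg ℂ (ResidueField (X.presheaf.stalk z)) + 1 = n := by
  letI := stalkAlgebra ℂ X z
  obtain ⟨V, hV, hzV, w, hw⟩ := exists_etale_chart hX z
  letI := secAlg X V
  haveI hne : Nonempty V := ⟨⟨z, hzV⟩⟩
  letI : Algebra Γ(X, V) (X.presheaf.stalk z) := (X.presheaf.germ V z hzV).hom.toAlgebra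
  haveI := tower_sec_stalk X V z hzV
  haveI hloc : IsLocalization.AtPrime (X.presheaf.stalk z)
      (hV.primeIdealOf ⟨z, hzV⟩).asIdeal := hV.isLocalization_stalk ⟨z, hzV⟩
  have hh : (hV.primeIdealOf ⟨z, hzV⟩).asIdeal.height = 1 := by
    have h1 := coheight_fromSpec hV (hV.primeIdealOf ⟨z, hzV⟩)
    rw [hV.fromSpec_primeIdealOf ⟨z, hzV⟩] at h1
    rw [← h1]
    exact hz
  obtain ⟨j, -, hj⟩ := FKB1_594.trdeg_quotient w hw (hV.primeIdealOf ⟨z, hzV⟩).asIdeal hh
  rw [trdeg_residueField (R := X.presheaf.stalk z) (hV.primeIdealOf ⟨z, hzV⟩).asIdeal]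
  exact hj

/-- `O_{X,z} ≃ stalkVal z` -/
def stalkEquiv (z : X) (hd : IsDiscreteValuationRing (X.presheaf.stalk z)) :
    X.presheaf.stalk z ≃+* stalkVal z hd :=
  RingEquiv.ofBijective
    ((algebraMap (X.presheaf.stalk z) X.functionField).codRestrict (stalkVal z hd).toSubring
      (fun a => ⟨a, rfl⟩))
    ⟨fun _ _ h => IsFractionRing.injective (X.presheaf.stalk z) X.functionField
      (congrArg Subtype.val h), fun ⟨_, a, ha⟩ => ⟨a, Subtype.ext ha⟩⟩




end Crest.Agent.R276.FKB3_594
end
end

-- ▼ part R276/FKB4_594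

/-!
# Row 276 (S0419), FK2: `KodairaDimGe` of a smooth proper variety is `KapGe` of its function field
(helper594).

* `kodairaDimGe_iff`  : `KodairaDimGe ℂ X KX d ↔ KapGe ℂ K(X) d`
* `kodairaDimGe_iffS` : the same with `KapGeS` (all valuation rings)
* `kodairaDimGe_of_kapGeF` : the finite test version suffices.
-/

set_option autoImplicit false
set_option linter.style.haveILetI false
set_option linter.unusedSectionVars false

open AlgebraicGeometry Order CategoryTheory Crest.AlgGeometry.Divisors TopologicalSpace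
open Crest.Agent.R271.Br958 Crest.Agent.R271.Bs960 Crest.Agent.R276.FKB_375 IsLocalRing
open Crest.Agent.R276.FKDefs_779 Crest.Agent.R276.FKB3_594 Crest.Agent.R271.Kx735

noncomputable section

namespace Crest.Agent.R276.FKB4_594

set_option warn.classDefReducibility false in
attribute [local instance] fnFieldAlgebra

variable {X : Scheme.{0}} [Algebra ℂ Γ(X, ⊤)] [IsIntegral X] [IsLocallyNoetherian X] {n : ℕ}

lemma valuation_le_one_iff (z : X) (hd : IsDiscreteValuationRing (X.presheaf.stalk z))
    (x : X.functionField) : (stalkVal z hd).valuation x ≤ 1 ↔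
      ∃ a, algebraMap (X.presheaf.stalk z) X.functionField a = x := by
  rw [ValuationSubring.valuation_le_one_iff]
  exact mem_stalkVal z hd x

lemma valuation_eq_one (z : X) (hd : IsDiscreteValuationRing (X.presheaf.stalk z))
    {a : X.presheaf.stalk z} (ha : IsUnit a) :
    (stalkVal z hd).valuation (algebraMap _ X.functionField a) = 1 := by
  have h1 : IsUnit (stalkEquiv z hd a) := ha.map (stalkEquiv z hd)
  exact ((stalkVal z hd).valuation_eq_one_iff _).1 h1

/-- the valuation ring of a prime divisor is divisorial -/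
theorem isDiv_stalkVal (hX : IsSmoothProperVariety ℂ X n) (z : X) (hz : coheight z = 1)
    (hd : IsDiscreteValuationRing (X.presheaf.stalk z)) : IsDiv ℂ n (stalkVal z hd) where
  alg := const_mem_stalkVal z hd
  ne_top := by
    intro htop
    obtain ⟨ϖ, hϖ⟩ := IsDiscreteValuationRing.exists_irreducible (X.presheaf.stalk z)
    have h1 : (algebraMap (X.presheaf.stalk z) X.functionField ϖ)⁻¹ ∈ stalkVal z hd := by
      rw [htop]; trivial
    obtain ⟨a, ha⟩ := (mem_stalkVal z hd _).1 h1
    have h0 : algebraMap (X.presheaf.stalk z) X.functionField ϖ ≠ 0 := by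
      rw [map_ne_zero_iff _ (IsFractionRing.injective (X.presheaf.stalk z) X.functionField)]
      exact hϖ.ne_zero
    apply hϖ.not_isUnit
    refine IsUnit.of_mul_eq_one a ?_
    apply IsFractionRing.injective (X.presheaf.stalk z) X.functionField
    rw [map_mul, ha, map_one, mul_inv_cancel₀ h0]
  res := by
    classical
    obtain ⟨V, hV, hzV, w, hw⟩ := exists_etale_chart hX z
    letI := secAlg X V
    haveI hne : Nonempty V := ⟨⟨z, hzV⟩⟩
    haveI ht := tower_sec_fn X V
    letI : Algebra Γ(X, V) (X.presheaf.stalk z) := (X.presheaf.germ V z hzV).hom.toAlgebra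
    haveI hloc : IsLocalization.AtPrime (X.presheaf.stalk z)
        (hV.primeIdealOf ⟨z, hzV⟩).asIdeal := hV.isLocalization_stalk ⟨z, hzV⟩
    have hh : (hV.primeIdealOf ⟨z, hzV⟩).asIdeal.height = 1 := by
      have h1 := coheight_fromSpec hV (hV.primeIdealOf ⟨z, hzV⟩)
      rw [hV.fromSpec_primeIdealOf ⟨z, hzV⟩] at h1
      rw [← h1]
      exact hz
    obtain ⟨j, hj, -⟩ := FKB1_594.trdeg_quotient w hw (hV.primeIdealOf ⟨z, hzV⟩).asIdeal hh
    have hn : n - 1 + 1 = n := Nat.succ_pred_eq_of_pos (Fin.pos j)
    have hcard : Fintype.card {i // i ≠ j} = n - 1 := by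
      rw [Fintype.card_subtype_compl]; simp
    let e : Fin (n - 1) ≃ {i // i ≠ j} := (Fintype.equivFinOfCardEq hcard).symm
    refine ⟨fun i => X.germToFunctionField V (w (e i).1), fun i => ?_, fun P hP => ?_⟩
    · refine (mem_stalkVal z hd _).2 ⟨X.presheaf.germ V z hzV (w (e i).1), ?_⟩
      exact Scheme.algebraMap_germ_eq_germToFunctionField X hzV _
    · have h1 : MvPolynomial.aeval (fun i => X.germToFunctionField V (w (e i).1)) P =
          algebraMap (X.presheaf.stalk z) X.functionField
            (algebraMap Γ(X, V) (X.presheaf.stalk z)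
              (MvPolynomial.aeval (fun i => w (e i).1) P)) := by
        have h2 : ∀ s : Γ(X, V), algebraMap (X.presheaf.stalk z) X.functionField
            (algebraMap Γ(X, V) (X.presheaf.stalk z) s) =
            IsScalarTower.toAlgHom ℂ Γ(X, V) X.functionField s := fun s =>
          Scheme.algebraMap_germ_eq_germToFunctionField X hzV s
        rw [h2, ← AlgHom.comp_apply, MvPolynomial.comp_aeval]
        rfl
      rw [h1]
      apply valuation_eq_one
      have h3 : MvPolynomial.aeval (fun i => w (e i).1) P ∉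
          (hV.primeIdealOf ⟨z, hzV⟩).asIdeal := by
        intro hmem
        apply hP
        have hj2 : AlgebraicIndependent ℂ (fun i : Fin (n - 1) =>
            Ideal.Quotient.mk (hV.primeIdealOf ⟨z, hzV⟩).asIdeal (w (e i).1)) :=
          hj.comp e e.injective
        rw [algebraicIndependent_iff] at hj2
        apply hj2
        have h4 : Ideal.Quotient.mkₐ ℂ (hV.primeIdealOf ⟨z, hzV⟩).asIdeal
            (MvPolynomial.aeval (fun i => w (e i).1) P) = 0 :=
          Ideal.Quotient.eq_zero_iff_mem.2 hmem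
        rw [← AlgHom.comp_apply, MvPolynomial.comp_aeval] at h4
        exact h4
      exact IsLocalization.map_units (X.presheaf.stalk z)
        (⟨_, h3⟩ : (hV.primeIdealOf ⟨z, hzV⟩).asIdeal.primeCompl)

/-- sections are regular at all valuation rings -/
theorem pluriS_of_isSection (hX : IsSmoothProperVariety ℂ X n)
    (b' : Module.Basis (Fin n) X.functionField (Ω[X.functionField⁄ℂ]))
    {D : WeilDiv X} {c : X.functionField} (hc : c ≠ 0)
    (hcK : ∀ (z : PrimeDivisor X)
      (b : Module.Basis (Fin n) X.functionField (Ω[X.functionField⁄ℂ])),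
      IsLocalFrameAt ℂ X z.1 ⇑b →
        D z = Scheme.ord c z.1 + Scheme.ord (b.toMatrix b').det z.1)
    (m : ℕ) {f : X.functionField} (hf : IsSection (m • D) f) :
    PluriS ℂ b' m (f * c ^ m) := by
  intro R hR
  obtain ⟨y, hy, hJ, hreg⟩ := pluri_of_section hX b' hc hcK m hf R hR
  refine ⟨y, hy, ?_⟩
  have h0 : R.valuation (b'.det fun i => KaehlerDifferential.D ℂ X.functionField (y i)) ≠ 0 := by
    rwa [Ne, map_eq_zero]
  have h1 := (R.valuation_le_one_iff _).2 hreg
  rw [map_div₀, map_pow, div_le_one₀ (pow_pos (zero_lt_iff.2 h0) m)] at h1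
  exact h1

/-- a form which is regular at all prime divisors is a section -/
theorem isSection_of_regAt (hX : IsSmoothProperVariety ℂ X n)
    (b' : Module.Basis (Fin n) X.functionField (Ω[X.functionField⁄ℂ]))
    {D : WeilDiv X} {c : X.functionField} (hc : c ≠ 0)
    (hcK : ∀ (z : PrimeDivisor X)
      (b : Module.Basis (Fin n) X.functionField (Ω[X.functionField⁄ℂ])),
      IsLocalFrameAt ℂ X z.1 ⇑b →
        D z = Scheme.ord c z.1 + Scheme.ord (b.toMatrix b').det z.1)
    (m : ℕ) {g : X.functionField} (hg : g ≠ 0)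
    (hreg : ∀ (z : PrimeDivisor X) (hd : IsDiscreteValuationRing (X.presheaf.stalk z.1)),
      RegAt ℂ (stalkVal z.1 hd) b' m g) :
    IsSection (m • D) (g / c ^ m) := by
  refine ⟨div_ne_zero hg (pow_ne_zero m hc), fun z => ?_⟩
  have hd : IsDiscreteValuationRing (X.presheaf.stalk z.1) :=
    Crest.Agent.R271.UFD243.dvr_stalk X hX z.1 z.2
  obtain ⟨y, hy, hle⟩ := hreg z hd
  obtain ⟨y0, b, hb, hbf⟩ := exists_coord_frame hX z.1
  have hfr := hbf z.1 (specializes_refl _)
  choose a ha using fun i => (mem_stalkVal z.1 hd (y i)).1 (hy i)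
  obtain ⟨q, hq⟩ := det_mem z.1 b hfr a
  have hfun : (fun i => KaehlerDifferential.D ℂ X.functionField
      (algebraMap (X.presheaf.stalk z.1) X.functionField (a i))) =
      fun i => KaehlerDifferential.D ℂ X.functionField (y i) := by
    funext i; rw [ha]
  rw [hfun] at hq
  have hJJ : jac ℂ b' y = b'.det b * algebraMap _ X.functionField q := by
    rw [hq, jac, Module.Basis.det_apply, Module.Basis.det_apply, Module.Basis.det_apply,
      ← Matrix.det_mul, Module.Basis.toMatrix_mul_toMatrix]
  -- `g = u * jac^m` with `u` regular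
  obtain ⟨u, hu⟩ : ∃ u : X.presheaf.stalk z.1, g = algebraMap _ X.functionField u *
      jac ℂ b' y ^ m := by
    by_cases hJ : jac ℂ b' y ^ m = 0
    · rw [← map_pow, hJ, map_zero, le_zero_iff, map_eq_zero] at hle
      exact absurd hle hg
    · have h0 : (stalkVal z.1 hd).valuation (jac ℂ b' y ^ m) ≠ 0 := by
        rwa [Ne, map_eq_zero]
      have h1 : (stalkVal z.1 hd).valuation (g / jac ℂ b' y ^ m) ≤ 1 := by
        rw [map_div₀, div_le_one₀ (zero_lt_iff.2 h0), map_pow]
        exact hle
      obtain ⟨u, hu⟩ := (valuation_le_one_iff z.1 hd _).1 h1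
      exact ⟨u, by rw [hu, div_mul_cancel₀ _ hJ]⟩
  have hb0 : b'.det b ≠ 0 := left_ne_zero_of_mul_eq_one (det_mul_det b b')
  have hdet : (b.toMatrix b').det ≠ 0 := right_ne_zero_of_mul_eq_one (det_mul_det b b')
  have h3 := congrArg (fun g => Scheme.ord g z.1) (det_mul_det b b')
  rw [Scheme.ord_mul hb0 hdet, ord_one] at h3
  have hg2 : g = algebraMap _ X.functionField (u * q ^ m) * b'.det b ^ m := by
    rw [hu, hJJ, map_mul, map_pow, mul_pow]
    ring
  have hu0 : algebraMap _ X.functionField (u * q ^ m) ≠ 0 := by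
    intro h
    rw [h, zero_mul] at hg2
    exact hg hg2
  have h5 : 0 ≤ Scheme.ord (algebraMap _ X.functionField (u * q ^ m)) z.1 :=
    ord_nonneg_of_mem_stalk z.2 _
  have h6 := hcK z b hfr
  rw [ord_div hg (pow_ne_zero m hc), ord_pow hc, hg2, Scheme.ord_mul hu0 (pow_ne_zero m hb0),
    ord_pow hb0]
  simp only [Finsupp.smul_apply, nsmul_eq_mul]
  rw [h6]
  have h7 : (m : ℤ) * (Scheme.ord c z.1 + Scheme.ord (b.toMatrix b').det z.1) =
    m * Scheme.ord c z.1 + m * Scheme.ord (b.toMatrix b').det z.1 := by ring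
  have h8 : (m : ℤ) * Scheme.ord (b'.det b) z.1 + m * Scheme.ord (b.toMatrix b').det z.1 = 0 := by
    rw [← mul_add, h3, mul_zero]
  linarith

/-- `Ω[K(X)⁄ℂ]` has rank `n` -/
theorem card_eq (hX : IsSmoothProperVariety ℂ X n) {n' : ℕ}
    (b : Module.Basis (Fin n') X.functionField (Ω[X.functionField⁄ℂ])) : n' = n := by
  obtain ⟨y0, b', hb, hbf⟩ := exists_coord_frame hX (genericPoint X)
  have := b.indexEquiv b'
  simpa using Fintype.card_congr this

theorem kodairaDimGe_imp_kapGeS (hX : IsSmoothProperVariety ℂ X n) {D : WeilDiv X}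
    (hD : IsCanonicalDivisor ℂ X n D) {d : ℕ} (h : KodairaDimGe ℂ X D d) :
    KapGeS ℂ X.functionField d := by
  obtain ⟨y0, b', -, -⟩ := exists_coord_frame hX (genericPoint X)
  obtain ⟨c, hc, hcK⟩ := canonical_ord hD b'
  obtain ⟨m, hm, f, hf, hai⟩ := h
  refine ⟨n, b', m, hm, fun i => f i * c ^ m, fun i =>
    ⟨mul_ne_zero (hf i).1 (pow_ne_zero m hc), pluriS_of_isSection hX b' hc hcK m (hf i)⟩, ?_⟩
  have : (fun i : Fin d => f i.succ * c ^ m / (f 0 * c ^ m)) = fun i : Fin d => f i.succ / f 0 := by
    funext i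
    rw [mul_div_mul_right _ _ (pow_ne_zero m hc)]
  rw [this]
  exact hai

theorem kapGe_of_kapGeS {k K : Type*} [Field k] [Field K] [Algebra k K] {d : ℕ}
    (h : KapGeS k K d) : KapGe k K d := by
  obtain ⟨n, b, m, hm, f, hf, hai⟩ := h
  exact ⟨n, b, m, hm, f, fun i => ⟨(hf i).1, fun R hR => (hf i).2 R hR.alg⟩, hai⟩

/-- a common finishing step -/
theorem kodairaDimGe_of_regAt (hX : IsSmoothProperVariety ℂ X n) {D : WeilDiv X}
    (hD : IsCanonicalDivisor ℂ X n D) {d : ℕ}
    (b' : Module.Basis (Fin n) X.functionField (Ω[X.functionField⁄ℂ])) (m : ℕ) (hm : 0 < m)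
    (f : Fin (d + 1) → X.functionField) (hf0 : ∀ i, f i ≠ 0)
    (hf : ∀ i, ∀ (z : PrimeDivisor X) (hd : IsDiscreteValuationRing (X.presheaf.stalk z.1)),
      RegAt ℂ (stalkVal z.1 hd) b' m (f i))
    (hai : AlgebraicIndependent ℂ (fun i : Fin d => f i.succ / f 0)) :
    KodairaDimGe ℂ X D d := by
  obtain ⟨c, hc, hcK⟩ := canonical_ord hD b'
  refine ⟨m, hm, fun i => f i / c ^ m, fun i =>
    isSection_of_regAt hX b' hc hcK m (hf0 i) (hf i), ?_⟩
  have : (fun i : Fin d => f i.succ / c ^ m / (f 0 / c ^ m)) = fun i : Fin d => f i.succ / f 0 := by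
    funext i
    rw [div_div_div_cancel_right₀ (pow_ne_zero m hc)]
  rw [this]
  exact hai

theorem kodairaDimGe_of_kapGe (hX : IsSmoothProperVariety ℂ X n) {D : WeilDiv X}
    (hD : IsCanonicalDivisor ℂ X n D) {d : ℕ} (h : KapGe ℂ X.functionField d) :
    KodairaDimGe ℂ X D d := by
  obtain ⟨n', b', m, hm, f, hf, hai⟩ := h
  obtain rfl := card_eq hX b'
  exact kodairaDimGe_of_regAt hX hD b' m hm f (fun i => (hf i).1)
    (fun i z hd => (hf i).2 _ (isDiv_stalkVal hX z.1 z.2 hd)) hai


/-- **FK2**, strong version -/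
theorem kodairaDimGe_iffS (hX : IsSmoothProperVariety ℂ X n) {D : WeilDiv X}
    (hD : IsCanonicalDivisor ℂ X n D) (d : ℕ) :
    KodairaDimGe ℂ X D d ↔ KapGeS ℂ X.functionField d :=
  ⟨kodairaDimGe_imp_kapGeS hX hD, fun h => kodairaDimGe_of_kapGe hX hD (kapGe_of_kapGeS h)⟩

/-- a finitely generated subalgebra of the function field is regular at all but finitely many prime
divisors -/
theorem finite_not_le (hX : IsSmoothProperVariety ℂ X n) (A : Subalgebra ℂ X.functionField)
    (hA : A.FG) : {z : X | coheight z = 1 ∧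
      ¬ ∀ a ∈ A, ∃ u : X.presheaf.stalk z, algebraMap _ X.functionField u = a}.Finite := by
  have hqc : QuasiCompact (structureMorphism ℂ X) := by
    have := hX.2.1
    infer_instance
  haveI : CompactSpace X := by
    have : CompactSpace (Spec (CommRingCat.of ℂ)) := inferInstance
    exact QuasiCompact.compactSpace_of_compactSpace (structureMorphism ℂ X)
  obtain ⟨s, hs⟩ := hA
  obtain ⟨V, hV, hxV, w, hw⟩ := exists_etale_chart hX (genericPoint X)
  haveI hne : Nonempty V := ⟨⟨_, hxV⟩⟩
  haveI hfr := functionField_isFractionRing_of_isAffineOpen X V hV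
  -- common denominator
  obtain ⟨t, ht0, ht⟩ : ∃ t : Γ(X, V), t ≠ 0 ∧ ∀ a ∈ s, ∃ u : Γ(X, V),
      algebraMap Γ(X, V) X.functionField t * a = algebraMap Γ(X, V) X.functionField u := by
    classical
    obtain ⟨t, ht⟩ := IsLocalization.exist_integer_multiples_of_finset
      (nonZeroDivisors Γ(X, V)) s
    refine ⟨t.1, nonZeroDivisors.ne_zero t.2, fun a ha => ?_⟩
    obtain ⟨u, hu⟩ := ht a ha
    refine ⟨u, ?_⟩
    rw [hu, Algebra.smul_def]
  have hfin := finite_primeDivisor_compl (X := X) (X.basicOpen t) (by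
    rw [Set.nonempty_iff_ne_empty]
    intro h
    apply ht0
    have h2 : X.basicOpen t = ⊥ := by
      ext x
      exact Set.ext_iff.1 h x
    exact (basicOpen_eq_bot_iff t).1 h2)
  refine hfin.subset ?_
  rintro z ⟨hz1, hz2⟩
  refine ⟨hz1, fun hzt => hz2 ?_⟩
  have hzV : z ∈ V := X.basicOpen_le t hzt
  have htu : IsUnit (X.presheaf.germ V z hzV t) := (Scheme.mem_basicOpen X t z hzV).1 hzt
  intro a ha
  rw [← hs] at ha
  induction ha using Algebra.adjoin_induction with
  | mem a ha =>
    obtain ⟨u, hu⟩ := ht a ha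
    obtain ⟨τ, hτ⟩ := htu
    refine ⟨X.presheaf.germ V z hzV u * ((τ⁻¹ : Units _) : X.presheaf.stalk z), ?_⟩
    have h1 : algebraMap (X.presheaf.stalk z) X.functionField (X.presheaf.germ V z hzV u) =
        algebraMap (X.presheaf.stalk z) X.functionField (X.presheaf.germ V z hzV t) * a := by
      rw [Scheme.algebraMap_germ_eq_germToFunctionField X hzV,
        Scheme.algebraMap_germ_eq_germToFunctionField X hzV]
      exact hu.symm
    rw [map_mul, h1, mul_comm _ a, mul_assoc, ← map_mul, ← hτ, Units.mul_inv, map_one, mul_one]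
  | algebraMap r =>
    letI := stalkAlgebra ℂ X z
    haveI := tower_stalk_fn X z
    exact ⟨algebraMap ℂ _ r, (IsScalarTower.algebraMap_apply ℂ _ _ r).symm⟩
  | add x y _ _ hx hy =>
    obtain ⟨u, hu⟩ := hx
    obtain ⟨v, hv⟩ := hy
    exact ⟨u + v, by rw [map_add, hu, hv]⟩
  | mul x y _ _ hx hy =>
    obtain ⟨u, hu⟩ := hx
    obtain ⟨v, hv⟩ := hy
    exact ⟨u * v, by rw [map_mul, hu, hv]⟩

/-- **FK2**, finite test version -/
theorem kodairaDimGe_of_kapGeF (hX : IsSmoothProperVariety ℂ X n) {D : WeilDiv X}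
    (hD : IsCanonicalDivisor ℂ X n D) {d : ℕ} (h : KapGeF ℂ X.functionField d) :
    KodairaDimGe ℂ X D d := by
  obtain ⟨n', A, z, b, hA, hbz, hS⟩ := h
  obtain rfl := card_eq hX b
  have hfin := finite_not_le hX A hA.fg
  set T : Set X := {z : X | coheight z = 1 ∧
      ¬ ∀ a ∈ A, ∃ u : X.presheaf.stalk z, algebraMap _ X.functionField u = a} with hT
  have hdvr : ∀ x : X, coheight x = 1 → IsDiscreteValuationRing (X.presheaf.stalk x) :=
    fun x hx => Crest.Agent.R271.UFD243.dvr_stalk X hX x hx
  let S : Set (ValuationSubring X.functionField) :=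
    {R | ∃ x ∈ T, ∃ hd : IsDiscreteValuationRing (X.presheaf.stalk x), R = stalkVal x hd}
  have hSfin : S.Finite := by
    classical
    let φ : X → ValuationSubring X.functionField := fun x =>
      if hd : IsDiscreteValuationRing (X.presheaf.stalk x) then stalkVal x hd else ⊤
    refine (hfin.image φ).subset ?_
    rintro R ⟨x, hx, hd, rfl⟩
    exact ⟨x, hx, dif_pos hd⟩
  obtain ⟨m, hm, f, hf, hai⟩ := hS S hSfin (by
    rintro R ⟨x, hx, hd, rfl⟩
    exact isDiv_stalkVal hX x hx.1 hd)
  refine kodairaDimGe_of_regAt hX hD b m hm f (fun i => (hf i).1) (fun i x hd => ?_) hai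
  by_cases hxT : x.1 ∈ T
  · exact (hf i).2.2 _ ⟨x.1, hxT, hd, rfl⟩
  · have hxA : ∀ a ∈ A, ∃ u : X.presheaf.stalk x.1, algebraMap _ X.functionField u = a := by
      by_contra hcon
      exact hxT ⟨x.2, hcon⟩
    refine ⟨z, fun j => (mem_stalkVal x.1 hd _).2 (hxA _ (hA.mem j)), ?_⟩
    have h1 : jac ℂ b z = 1 := by
      have h2 : (fun j => KaehlerDifferential.D ℂ X.functionField (z j)) = ⇑b := by
        funext j; rw [hbz]
      rw [jac, h2, Module.Basis.det_self]
    rw [h1, map_one, one_pow]
    exact (valuation_le_one_iff x.1 hd _).2 (hxA _ (hf i).2.1)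

end Crest.Agent.R276.FKB4_594
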