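import Mathlib
import Crest.Agent.R276.Honest1_231
import Crest.Agent.R276.FKB4_594
import Crest.Agent.R276.BetaDefs_231
import Crest.Agent.R271.Br5_958

-- ▼ part R276/Honest2_231
section

/-!
# Row 276, leaf HONEST (helper231), scheme part

`honest_rel` : for `f : X ⟶ Z` between smooth proper varieties over `ℂ` (compatible with `ℂ`, dominant
through a compatible homomorphism `φ : K(Z) → K(X)`), `Honest φ.fieldRange K(X)`.
-/

set_option autoImplicit false
set_option linter.style.haveILetI false
set_option linter.unusedSectionVars false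

open AlgebraicGeometry Order CategoryTheory Crest.AlgGeometry.Divisors TopologicalSpace
open Crest.Agent.R271.Br958 Crest.Agent.R271.Bs960 Crest.Agent.R276.FKB_375 IsLocalRing
open Crest.Agent.R276.FKDefs_779 Crest.Agent.R276.FKB3_594 Crest.Agent.R271.Kx735
open Crest.Agent.R276.FKB4_594 Crest.Agent.R276.BetaDefs_231

noncomputable section

namespace Crest.Agent.R276.Honest2_231

set_option warn.classDefReducibility false in
attribute [local instance] fnFieldAlgebra

section center
variable {X : Scheme.{0}} [Algebra ℂ Γ(X, ⊤)] [IsIntegral X]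

/-- Valuative criterion with domination: the centre of a valuation ring. -/
theorem exists_center' (hX : IsProper (structureMorphism ℂ X))
    (O : ValuationSubring X.functionField)
    (hO : ∀ c : ℂ, algebraMap ℂ X.functionField c ∈ O) :
    ∃ x : X, (∀ a : X.presheaf.stalk x, algebraMap _ X.functionField a ∈ O) ∧
      ∀ a : X.presheaf.stalk x, ∀ c ∈ O, algebraMap _ X.functionField a * c = 1 → IsUnit a := by
  have hval : ValuativeCriterion.Existence (structureMorphism ℂ X) := by
    have h := hX
    rw [IsProper.eq_valuativeCriterion] at h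
    exact h.1.1.1.existence
  let j : ℂ →+* O := (algebraMap ℂ X.functionField).codRestrict O.toSubring hO
  let i₁ : Spec (CommRingCat.of X.functionField) ⟶ X := X.fromSpecStalk (genericPoint X)
  let i₂ : Spec (CommRingCat.of O) ⟶ Spec (CommRingCat.of ℂ) := Spec.map (CommRingCat.ofHom j)
  have hsq : CommSq i₁ (Spec.map (CommRingCat.ofHom (algebraMap O X.functionField)))
      (structureMorphism ℂ X) i₂ := by
    constructor
    change X.fromSpecStalk (genericPoint X) ≫ X.toSpecΓ ≫ _ = _
    rw [Scheme.fromSpecStalk_toSpecΓ_assoc, ← Spec.map_comp, ← Spec.map_comp]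
    congr 1
  let S : ValuativeCommSq (structureMorphism ℂ X) :=
    { R := O, K := X.functionField, i₁ := i₁, i₂ := i₂, commSq := hsq }
  obtain ⟨l, hl₁, hl₂⟩ := (hval S).exists_lift
  change Spec (CommRingCat.of O) ⟶ X at l
  change Spec.map (CommRingCat.ofHom (algebraMap O X.functionField)) ≫ l = i₁ at hl₁
  have h1 := Scheme.Spec_stalkClosedPointTo_fromSpecStalk (R := CommRingCat.of O) (f := l)
  have hsp : genericPoint X ⤳ l (IsLocalRing.closedPoint (CommRingCat.of O)) :=
    genericPoint_specializes _
  have h2 := Scheme.SpecMap_stalkSpecializes_fromSpecStalk hsp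
  have h3 : Spec.map (CommRingCat.ofHom (algebraMap O X.functionField)) ≫
      Spec.map (Scheme.stalkClosedPointTo (R := CommRingCat.of O) l) =
      Spec.map (X.presheaf.stalkSpecializes hsp) := by
    rw [← cancel_mono (X.fromSpecStalk (l (IsLocalRing.closedPoint (CommRingCat.of O)))),
      Category.assoc, h1, hl₁, h2]
  rw [← Spec.map_comp] at h3
  have h4 := Spec.map_injective h3
  have h5 : ∀ a, algebraMap (X.presheaf.stalk (l (IsLocalRing.closedPoint (CommRingCat.of O))))
      X.functionField a =
      algebraMap O X.functionField ((Scheme.stalkClosedPointTo (R := CommRingCat.of O) l).hom a) := by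
    intro a
    have := congrArg (fun φ => φ.hom a) h4
    exact this.symm
  refine ⟨l (IsLocalRing.closedPoint (CommRingCat.of O)), fun a => ?_, fun a c hc hac => ?_⟩
  · rw [h5]
    exact ((Scheme.stalkClosedPointTo (R := CommRingCat.of O) l).hom a).2
  · have hloc : IsLocalHom (Scheme.stalkClosedPointTo (R := CommRingCat.of O) l).hom := inferInstance
    refine hloc.map_nonunit a ?_
    refine IsUnit.of_mul_eq_one (⟨c, hc⟩ : O) ?_
    apply Subtype.ext
    rw [h5] at hac
    exact hac

end center

section rel
variable {X : Scheme.{0}} [Algebra ℂ Γ(X, ⊤)] [IsIntegral X] [IsLocallyNoetherian X] {n : ℕ}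

/-- a prime divisor whose local ring contains `L` is divisorial over `L` -/
theorem isDiv_rel (hX : IsSmoothProperVariety ℂ X n) (L : IntermediateField ℂ X.functionField)
    {r : ℕ} (hr : Algebra.trdeg ℂ L + r = n) (z : X) (hz : coheight z = 1)
    (hd : IsDiscreteValuationRing (X.presheaf.stalk z))
    (j : L →+* X.presheaf.stalk z)
    (hj : ∀ l : L, algebraMap (X.presheaf.stalk z) X.functionField (j l) = (l : X.functionField)) :
    IsDiv L r (stalkVal z hd) where
  alg := fun l => (mem_stalkVal z hd _).2 ⟨j l, hj l⟩
  ne_top := (isDiv_stalkVal hX z hz hd).ne_top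
  res := by
    classical
    letI := stalkAlgebra ℂ X z
    haveI := tower_stalk_fn X z
    have hinj : Function.Injective (algebraMap (X.presheaf.stalk z) X.functionField) :=
      IsFractionRing.injective _ _
    letI : Algebra L (X.presheaf.stalk z) := j.toAlgebra
    letI : Algebra L (ResidueField (X.presheaf.stalk z)) := ((residue _).comp j).toAlgebra
    have hjk : ∀ c : ℂ, j (algebraMap ℂ L c) = algebraMap ℂ (X.presheaf.stalk z) c := fun c => by
      apply hinj
      rw [hj, ← IsScalarTower.algebraMap_apply]
      rfl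
    haveI : IsScalarTower ℂ L (ResidueField (X.presheaf.stalk z)) :=
      IsScalarTower.of_algebraMap_eq fun c => by
        change _ = residue _ (j (algebraMap ℂ L c))
        rw [hjk]
        rfl
    have h1 := trdeg_residueField_stalk hX z hz
    have h2 := trdeg_add_eq ℂ L (A := ResidueField (X.presheaf.stalk z))
    obtain ⟨s, hs⟩ := exists_isTranscendenceBasis L (ResidueField (X.presheaf.stalk z))
    have h3 : Cardinal.mk s = ((r - 1 : ℕ) : Cardinal) := by
      rw [hs.cardinalMk_eq_trdeg]
      have hfinL : Algebra.trdeg ℂ L < Cardinal.aleph0 := by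
        refine lt_of_le_of_lt (self_le_add_right _ (r : Cardinal)) ?_
        rw [hr]; exact Cardinal.natCast_lt_aleph0
      obtain ⟨a, ha⟩ := Cardinal.lt_aleph0.1 hfinL
      rw [ha] at h2 hr
      rw [← h2] at h1
      have hfin2 : Algebra.trdeg L (ResidueField (X.presheaf.stalk z)) < Cardinal.aleph0 := by
        refine lt_of_le_of_lt (self_le_add_left _ (a : Cardinal)) ?_
        refine lt_of_le_of_lt (self_le_add_right _ (1 : Cardinal)) ?_
        rw [h1]; exact Cardinal.natCast_lt_aleph0
      obtain ⟨t, ht⟩ := Cardinal.lt_aleph0.1 hfin2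
      rw [ht] at h1 ⊢
      norm_cast at h1 hr ⊢
      omega
    have hfin : Finite s := by
      rw [← Cardinal.lt_aleph0_iff_finite, h3]
      exact Cardinal.natCast_lt_aleph0
    have : Fintype s := Fintype.ofFinite s
    have hcard : Fintype.card s = r - 1 := by
      have := h3
      rw [Cardinal.mk_fintype] at this
      exact_mod_cast this
    let E : Fin (r - 1) ≃ s := (Fintype.equivFinOfCardEq hcard).symm
    choose x' hx' using fun i : Fin (r - 1) => residue_surjective (R := X.presheaf.stalk z) (E i).1
    refine ⟨fun i => algebraMap _ X.functionField (x' i), fun i => ?_, fun P hP => ?_⟩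
    · exact (mem_stalkVal z hd _).2 ⟨x' i, rfl⟩
    · have h4 : MvPolynomial.aeval (fun i => algebraMap (X.presheaf.stalk z) X.functionField (x' i)) P =
          algebraMap (X.presheaf.stalk z) X.functionField (MvPolynomial.eval₂ j x' P) := by
        rw [MvPolynomial.aeval_def, MvPolynomial.eval₂_comp_left
          (algebraMap (X.presheaf.stalk z) X.functionField) j x' P]
        have : (algebraMap (X.presheaf.stalk z) X.functionField).comp j =
            algebraMap L X.functionField := by
          ext l; exact hj l
        rw [this]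
        rfl
      rw [h4]
      apply valuation_eq_one
      by_contra hnu
      have h5 : residue (X.presheaf.stalk z) (MvPolynomial.eval₂ j x' P) = 0 :=
        (residue_eq_zero_iff _).2 hnu
      rw [MvPolynomial.eval₂_comp_left (residue (X.presheaf.stalk z)) j x' P] at h5
      have h6 : MvPolynomial.aeval (fun i => ((E i).1 : ResidueField (X.presheaf.stalk z))) P = 0 := by
        rw [MvPolynomial.aeval_def]
        have h7 : (residue (X.presheaf.stalk z)) ∘ x' =
            fun i => ((E i).1 : ResidueField (X.presheaf.stalk z)) := funext hx'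
        rw [h7] at h5
        exact h5
      have h8 : AlgebraicIndependent L
          (fun i => ((E i).1 : ResidueField (X.presheaf.stalk z))) :=
        hs.1.comp E E.injective
      rw [algebraicIndependent_iff] at h8
      exact hP (h8 P h6)

/-- coefficients of differentials of regular functions against a local frame are regular -/
lemma exists_coeff (z : X) (bn : Module.Basis (Fin n) X.functionField (Ω[X.functionField⁄ℂ]))
    (hb : IsLocalFrameAt ℂ X z ⇑bn) (a : X.presheaf.stalk z) :
    ∃ A : Fin n → X.presheaf.stalk z,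
      KaehlerDifferential.D ℂ X.functionField (algebraMap _ X.functionField a) =
        ∑ i, algebraMap (X.presheaf.stalk z) X.functionField (A i) • bn i := by
  letI := stalkAlgebra ℂ X z
  obtain ⟨ht, e, he, hspan⟩ := hb
  have h1 : KaehlerDifferential.D ℂ (X.presheaf.stalk z) a ∈
      Submodule.span (X.presheaf.stalk z) (Set.range e) := by
    rw [hspan]; trivial
  obtain ⟨A, hA⟩ := (Submodule.mem_span_range_iff_exists_fun _).1 h1
  refine ⟨A, ?_⟩
  have h3 := congrArg (KaehlerDifferential.map ℂ ℂ (X.presheaf.stalk z) X.functionField) hA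
  rw [KaehlerDifferential.map_D, map_sum] at h3
  rw [← h3]
  refine Finset.sum_congr rfl fun j _ => ?_
  rw [map_smul, he, algebraMap_smul]

/-- Core statement: a subfield `L` contained in the local ring at `x`; relative pluricanonical forms
regular at the divisorial valuations of `K/L` are regular at `x`. -/
theorem regAt_of_center (hX : IsSmoothProperVariety ℂ X n)
    (L : IntermediateField ℂ X.functionField) (x : X)
    (hLx : ∀ l : L, ∃ a : X.presheaf.stalk x, algebraMap _ X.functionField a = l)
    {r : ℕ} (b : Module.Basis (Fin r) X.functionField (Ω[X.functionField⁄L])) (m : ℕ)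
    (g : X.functionField) (hg : Pluri L b m g)
    (R : ValuationSubring X.functionField)
    (hR : ∀ a : X.presheaf.stalk x, algebraMap _ X.functionField a ∈ R) :
    RegAt L R b m g := by
  classical
  have hinj : ∀ z : X, Function.Injective (algebraMap (X.presheaf.stalk z) X.functionField) :=
    fun z => IsFractionRing.injective _ _
  by_cases hg0 : g = 0
  · subst hg0
    exact ⟨fun _ => 0, fun _ => R.zero_mem, by simp⟩
  have hn := normalSch hX
  -- étale coordinates at `x`
  obtain ⟨V, hV, hxV, w, hw⟩ := exists_etale_chart hX x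
  letI := secAlg X V
  have hne : Nonempty V := ⟨⟨x, hxV⟩⟩
  obtain ⟨bn, hbn, hbf⟩ := frame_of_etale X hV w (ECoord.fe hw)
  -- the maps `L → O_z`
  have hLz : ∀ z : X, z ⤳ x → ∀ l : L, ∃ a : X.presheaf.stalk z,
      algebraMap _ X.functionField a = l := by
    intro z hzx l
    obtain ⟨a, ha⟩ := hLx l
    refine ⟨X.presheaf.stalkSpecializes hzx a, ?_⟩
    rw [← ha]
    have h1 := TopCat.Presheaf.stalkSpecializes_comp (F := X.presheaf)
      (genericPoint_specializes z) hzx
    exact congrArg (fun φ => φ.hom a) h1
  have hjz : ∀ z : X, z ⤳ x → ∃ j : L →+* X.presheaf.stalk z,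
      ∀ l : L, algebraMap _ X.functionField (j l) = (l : X.functionField) := by
    intro z hzx
    choose a ha using hLz z hzx
    refine ⟨{ toFun := a, map_one' := ?_, map_mul' := ?_, map_zero' := ?_, map_add' := ?_ }, ha⟩
    · exact hinj z (by rw [ha, map_one]; rfl)
    · intro u v; exact hinj z (by rw [ha, map_mul, ha, ha]; rfl)
    · exact hinj z (by rw [ha, map_zero]; rfl)
    · intro u v; exact hinj z (by rw [ha, map_add, ha, ha]; rfl)
  obtain ⟨j, hj⟩ := hjz x specializes_rfl
  -- relative frame
  obtain ⟨J, hJinj, hJ⟩ : (∃ J : Fin r → Fin n, Function.Injective J ∧ ((∀ i : Fin n,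
      ∃ c : Fin r → X.presheaf.stalk x,
      KaehlerDifferential.map ℂ L X.functionField X.functionField (bn i) =
        ∑ t, algebraMap _ X.functionField (c t) •
          KaehlerDifferential.map ℂ L X.functionField X.functionField (bn (J t))) ∧
    Algebra.trdeg ℂ L + r = n)) := by
    letI := stalkAlgebra ℂ X x
    obtain ⟨ht, e, he, hspan⟩ := hbf x hxV
    obtain ⟨⟨J, h1, h2⟩, h3⟩ := Honest1_231.exists_rel_frame L (hinj x) e hspan bn he b j hj
    exact ⟨J, h1, h2, h3⟩
  obtain ⟨hJ, hr⟩ := hJ
  set π := KaehlerDifferential.map ℂ L X.functionField X.functionField with hπ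
  have hπs : Function.Surjective π := KaehlerDifferential.map_surjective ℂ L X.functionField
  -- the coordinates
  let y : Fin r → X.functionField := fun t => X.germToFunctionField V (w (J t))
  have hDy : ∀ t, KaehlerDifferential.D L X.functionField (y t) = π (bn (J t)) := by
    intro t
    rw [hbn, hπ, KaehlerDifferential.map_D]
    rfl
  have hyx : ∀ t, ∃ a : X.presheaf.stalk x, algebraMap _ X.functionField a = y t := fun t =>
    ⟨X.presheaf.germ V x hxV (w (J t)), Scheme.algebraMap_germ_eq_germToFunctionField X hxV _⟩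
  have hspan : Submodule.span X.functionField (Set.range fun t => π (bn (J t))) = ⊤ := by
    rw [eq_top_iff]
    intro v _
    obtain ⟨v', rfl⟩ := hπs v
    rw [← bn.sum_repr v', map_sum]
    refine Submodule.sum_mem _ fun i _ => ?_
    rw [map_smul]
    refine Submodule.smul_mem _ _ ?_
    obtain ⟨c, hc⟩ := hJ i
    rw [hc]
    exact Submodule.sum_mem _ fun t _ => Submodule.smul_mem _ _ (Submodule.subset_span ⟨t, rfl⟩)
  have hjac0 : jac L b y ≠ 0 := by
    have h1 : LinearIndependent X.functionField (fun t => π (bn (J t))) := by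
      refine linearIndependent_of_top_le_span_of_card_eq_finrank hspan.ge ?_
      rw [Module.finrank_eq_card_basis b]
    let b1 : Module.Basis (Fin r) X.functionField (Ω[X.functionField⁄L]) :=
      Module.Basis.mk h1 hspan.ge
    have h2 : (fun i => KaehlerDifferential.D L X.functionField (y i)) = ⇑b1 := by
      funext t
      rw [hDy, Module.Basis.mk_apply]
    rw [jac, h2]
    exact (b.isUnit_det b1).ne_zero
  -- Claim B
  have hB : ∀ z : X, z ⤳ x → ∀ y' : Fin r → X.presheaf.stalk z, ∃ q : X.presheaf.stalk z,
      jac L b (fun i => algebraMap _ X.functionField (y' i)) =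
        algebraMap _ X.functionField q * jac L b y := by
    intro z hzx y'
    have hzV : z ∈ V := hzx.mem_open V.isOpen hxV
    choose A hA using fun i => exists_coeff z bn (hbf z hzV) (y' i)
    choose c hc using hJ
    have hcz : ∀ i t, ∃ a : X.presheaf.stalk z, algebraMap _ X.functionField a =
        algebraMap (X.presheaf.stalk x) X.functionField (c i t) := by
      intro i t
      refine ⟨X.presheaf.stalkSpecializes hzx (c i t), ?_⟩
      have h1 := TopCat.Presheaf.stalkSpecializes_comp (F := X.presheaf)
        (genericPoint_specializes z) hzx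
      exact congrArg (fun φ => φ.hom (c i t)) h1
    choose cz hcz using hcz
    have hD : ∀ i, KaehlerDifferential.D L X.functionField (algebraMap _ X.functionField (y' i)) =
        ∑ t, algebraMap _ X.functionField (∑ u, A i u * cz u t) •
          KaehlerDifferential.D L X.functionField (y t) := by
      intro i
      have h1 := congrArg π (hA i)
      rw [hπ, KaehlerDifferential.map_D, map_sum] at h1
      have h2 : (algebraMap X.functionField X.functionField)
          (algebraMap (X.presheaf.stalk z) X.functionField (y' i)) =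
          algebraMap (X.presheaf.stalk z) X.functionField (y' i) := rfl
      rw [h2] at h1
      rw [h1]
      have h3 : ∀ u, π (algebraMap (X.presheaf.stalk z) X.functionField (A i u) • bn u) =
          ∑ t, (algebraMap (X.presheaf.stalk z) X.functionField (A i u * cz u t)) •
            π (bn (J t)) := by
        intro u
        rw [map_smul, hc u, Finset.smul_sum]
        refine Finset.sum_congr rfl fun t _ => ?_
        rw [smul_smul, map_mul, hcz]
      rw [← hπ, Finset.sum_congr rfl fun u _ => h3 u, Finset.sum_comm]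
      refine Finset.sum_congr rfl fun t _ => ?_
      rw [hDy, map_sum, Finset.sum_smul]
    refine ⟨(Matrix.of fun t i => ∑ u, A i u * cz u t).det, ?_⟩
    rw [jac, jac, Module.Basis.det_apply, Module.Basis.det_apply, RingHom.map_det, mul_comm,
      ← Matrix.det_mul]
    congr 1
    ext s i
    rw [Module.Basis.toMatrix_apply, hD i, map_sum, Matrix.mul_apply]
    rw [Finsupp.finsetSum_apply]
    refine Finset.sum_congr rfl fun t _ => ?_
    rw [map_smul, Finsupp.smul_apply, Module.Basis.toMatrix_apply, smul_eq_mul, mul_comm]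
    rfl
  -- `g / jac^m` is regular at all prime divisors through `x`
  have hdiv0 : g / jac L b y ^ m ≠ 0 := div_ne_zero hg0 (pow_ne_zero m hjac0)
  obtain ⟨a, ha⟩ := mem_stalk_of_ord_nonneg_all x (g / jac L b y ^ m) hdiv0 (fun z hz hzx => by
    have hd : IsDiscreteValuationRing (X.presheaf.stalk z) :=
      Crest.Agent.R271.UFD243.dvr_stalk X hX z hz
    obtain ⟨jz, hjz⟩ := hjz z hzx
    obtain ⟨y', hy', hle⟩ := hg (stalkVal z hd) (isDiv_rel hX L hr z hz hd jz hjz)
    choose a' ha' using fun i => (mem_stalkVal z hd (y' i)).1 (hy' i)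
    obtain ⟨q, hq⟩ := hB z hzx a'
    have hfun : (fun i => algebraMap (X.presheaf.stalk z) X.functionField (a' i)) = y' :=
      funext ha'
    rw [hfun] at hq
    obtain ⟨u, hu⟩ : ∃ u : X.presheaf.stalk z, g = algebraMap _ X.functionField u *
        jac L b y' ^ m := by
      by_cases hJ0 : jac L b y' ^ m = 0
      · rw [← map_pow, hJ0, map_zero, le_zero_iff, map_eq_zero] at hle
        exact absurd hle hg0
      · have h0 : (stalkVal z hd).valuation (jac L b y' ^ m) ≠ 0 := by
          rwa [Ne, map_eq_zero]
        have h1 : (stalkVal z hd).valuation (g / jac L b y' ^ m) ≤ 1 := by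
          rw [map_div₀, div_le_one₀ (zero_lt_iff.2 h0), map_pow]
          exact hle
        obtain ⟨u, hu⟩ := (valuation_le_one_iff z hd _).1 h1
        exact ⟨u, by rw [hu, div_mul_cancel₀ _ hJ0]⟩
    have h2 : g / jac L b y ^ m = algebraMap _ X.functionField (u * q ^ m) := by
      rw [div_eq_iff (pow_ne_zero m hjac0), hu, hq, map_mul, map_pow, mul_pow]
      ring
    rw [h2]
    exact ord_nonneg_of_mem_stalk hz _)
  refine ⟨y, fun t => ?_, ?_⟩
  · obtain ⟨a, ha⟩ := hyx t
    rw [← ha]
    exact hR a
  · have h0 : R.valuation (jac L b y ^ m) ≠ 0 := by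
      rw [Ne, map_eq_zero]; exact pow_ne_zero m hjac0
    have h1 : R.valuation (g / jac L b y ^ m) ≤ 1 := by
      rw [← ha]
      exact (R.valuation_le_one_iff _).2 (hR a)
    rwa [map_div₀, div_le_one₀ (zero_lt_iff.2 h0), map_pow] at h1

end rel

section fibre
variable {X Z : Scheme.{0}} [Algebra ℂ Γ(X, ⊤)] [Algebra ℂ Γ(Z, ⊤)]
  [IsIntegral X] [IsLocallyNoetherian X] [IsIntegral Z] [IsLocallyNoetherian Z]

/-- The relative function field extension of a morphism of smooth proper varieties is honest. -/
theorem honest_rel {n : ℕ} (hX : IsSmoothProperVariety ℂ X n) (f : X ⟶ Z)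
    (φ : Z.functionField →ₐ[ℂ] X.functionField)
    (hφ : ∀ (V : Z.Opens) [Nonempty V] [Nonempty (f ⁻¹ᵁ V : X.Opens)] (s : Γ(Z, V)),
      φ (Z.germToFunctionField V s) = X.germToFunctionField (f ⁻¹ᵁ V) (f.app V s)) :
    Honest φ.fieldRange X.functionField := by
  intro r b m g hg R hR
  have hinjX : ∀ z : X, Function.Injective (algebraMap (X.presheaf.stalk z) X.functionField) :=
    fun z => IsFractionRing.injective _ _
  obtain ⟨x, hx, hloc⟩ := exists_center' hX.2.1 R (fun c => by
    have := hR (algebraMap ℂ φ.fieldRange c)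
    rwa [← IsScalarTower.algebraMap_apply] at this)
  -- compatibility of `φ` with the stalk map at `x`
  have hcomp : ∀ a : Z.presheaf.stalk (f x), φ (algebraMap _ Z.functionField a) =
      algebraMap (X.presheaf.stalk x) X.functionField ((f.stalkMap x).hom a) := by
    intro a
    obtain ⟨V, hV, s, rfl⟩ := TopCat.Presheaf.exists_germ_eq Z.presheaf a
    haveI : Nonempty V := ⟨⟨f x, hV⟩⟩
    have hxV : x ∈ f ⁻¹ᵁ V := hV
    haveI : Nonempty (f ⁻¹ᵁ V : X.Opens) := ⟨⟨x, hxV⟩⟩
    have h1 := Scheme.algebraMap_germ_eq_germToFunctionField Z hV s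
    have h2 := Scheme.algebraMap_germ_eq_germToFunctionField X hxV (f.app V s)
    rw [h1, hφ V s, ← h2]
    congr 1
    exact (Scheme.Hom.germ_stalkMap_apply f V x hxV s).symm
  -- the local ring at `f x` is a field
  have hfield : ∀ a : Z.presheaf.stalk (f x), a ≠ 0 → IsUnit a := by
    intro a ha
    have h0 : algebraMap _ Z.functionField a ≠ 0 := by
      rwa [Ne, map_eq_zero_iff _ (IsFractionRing.injective (Z.presheaf.stalk (f x)) Z.functionField)]
    have h1 : φ ((algebraMap _ Z.functionField a)⁻¹) ∈ R :=
      hR ⟨_, ⟨_, rfl⟩⟩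
    have h2 := hloc ((f.stalkMap x).hom a) _ h1 (by
      rw [← hcomp, ← map_mul, mul_inv_cancel₀ h0, map_one])
    exact (inferInstance : IsLocalHom (f.stalkMap x).hom).map_nonunit a h2
  refine regAt_of_center hX φ.fieldRange x (fun l => ?_) b m g hg R hx
  obtain ⟨_, ⟨u, rfl⟩⟩ := l
  obtain ⟨a, c, hc, huc⟩ := IsFractionRing.div_surjective (A := Z.presheaf.stalk (f x)) u
  have hc0 : c ≠ 0 := nonZeroDivisors.ne_zero hc
  obtain ⟨d, hd⟩ := (hfield c hc0).exists_right_inv
  refine ⟨(f.stalkMap x).hom (a * d), ?_⟩
  rw [← hcomp]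
  have hcK : algebraMap _ Z.functionField c ≠ 0 := by
    rwa [Ne, map_eq_zero_iff _ (IsFractionRing.injective (Z.presheaf.stalk (f x)) Z.functionField)]
  have h3 : algebraMap _ Z.functionField (a * d) = u := by
    rw [← huc, eq_div_iff hcK, ← map_mul]
    congr 1
    calc a * d * c = a * (c * d) := by ring
      _ = a := by rw [hd, mul_one]
  rw [h3]
  rfl

end fibre

end Crest.Agent.R276.Honest2_231
end
end

-- ▼ part R276/UHon_845

/-!
# Row 276: uniform honesty (helper845)

`UHon k K` : finitely many tuples `y` of elements of `K` serve as local frames at every valuation ring `R ⊇ k`, for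
pluricanonical forms of ALL weights.  `uhon_rel` : the function fields of a morphism of smooth proper varieties
satisfy it (the proof is helper231's proof of `honest_rel`; only the order of quantifiers is new).
-/

set_option autoImplicit false
set_option linter.style.haveILetI false
set_option linter.unusedSectionVars false

open AlgebraicGeometry Order CategoryTheory Crest.AlgGeometry.Divisors TopologicalSpace
open Crest.Agent.R271.Br958 Crest.Agent.R271.Bs960 Crest.Agent.R276.FKB_375 IsLocalRing
open Crest.Agent.R276.FKDefs_779 Crest.Agent.R276.FKB3_594 Crest.Agent.R271.Kx735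
open Crest.Agent.R276.FKB4_594 Crest.Agent.R276.BetaDefs_231 Crest.Agent.R276.Honest2_231

noncomputable section

namespace Crest.Agent.R276.UHon_845

/-- Uniform honesty: finitely many tuples are frames for the regular pluricanonical forms of all weights, at every
valuation ring of `K/k`. -/
def UHon (k K : Type*) [Field k] [Field K] [Algebra k K] : Prop :=
  ∀ (n : ℕ) (b : Module.Basis (Fin n) K (Ω[K⁄k])), ∃ Y : Set (Fin n → K), Y.Finite ∧
    ∀ R : ValuationSubring K, (∀ c : k, algebraMap k K c ∈ R) → ∃ y ∈ Y, (∀ i, y i ∈ R) ∧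
      jac k b y ≠ 0 ∧
      ∀ (m : ℕ) (g : K), Pluri k b m g → R.valuation g ≤ R.valuation (jac k b y) ^ m

/-- uniform honesty implies honesty -/
theorem UHon.honest {k K : Type*} [Field k] [Field K] [Algebra k K] (h : UHon k K) :
    Honest k K := by
  intro n b m g hg R hR
  obtain ⟨Y, -, hY⟩ := h n b
  obtain ⟨y, -, h1, -, h2⟩ := hY R hR
  exact ⟨y, h1, h2 m g hg⟩

set_option warn.classDefReducibility false in
attribute [local instance] fnFieldAlgebra

section rel
variable {X : Scheme.{0}} [Algebra ℂ Γ(X, ⊤)] [IsIntegral X] [IsLocallyNoetherian X] {n : ℕ}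

/-- Core statement: a subfield `L` contained in the local ring at `x`, `w` étale coordinates on `V ∋ x`: some `r` of the
coordinates are a frame at `x` for the relative forms of all weights. -/
theorem center_chart (hX : IsSmoothProperVariety ℂ X n)
    (L : IntermediateField ℂ X.functionField) (x : X)
    (hLx : ∀ l : L, ∃ a : X.presheaf.stalk x, algebraMap _ X.functionField a = l)
    {r : ℕ} (b : Module.Basis (Fin r) X.functionField (Ω[X.functionField⁄L]))
    (V : X.Opens) (hV : IsAffineOpen V) (hxV : x ∈ V) [hne : Nonempty V] (w : Fin n → Γ(X, V))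
    (hw : letI := secAlg X V
      RingHom.Etale ((MvPolynomial.aeval w : MvPolynomial (Fin n) ℂ →ₐ[ℂ] Γ(X, V)) :
        MvPolynomial (Fin n) ℂ →+* Γ(X, V))) :
    ∃ J : Fin r → Fin n, (∀ t, ∃ a : X.presheaf.stalk x, algebraMap _ X.functionField a =
        X.germToFunctionField V (w (J t))) ∧
      jac L b (fun t => X.germToFunctionField V (w (J t))) ≠ 0 ∧
      ∀ (m : ℕ) (g : X.functionField), Pluri L b m g →
        ∃ a : X.presheaf.stalk x, algebraMap _ X.functionField a =
          g / jac L b (fun t => X.germToFunctionField V (w (J t))) ^ m := by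
  classical
  have hinj : ∀ z : X, Function.Injective (algebraMap (X.presheaf.stalk z) X.functionField) :=
    fun z => IsFractionRing.injective _ _
  have hn := normalSch hX
  -- étale coordinates at `x`
  letI := secAlg X V
  obtain ⟨bn, hbn, hbf⟩ := frame_of_etale X hV w (ECoord.fe hw)
  -- the maps `L → O_z`
  have hLz : ∀ z : X, z ⤳ x → ∀ l : L, ∃ a : X.presheaf.stalk z,
      algebraMap _ X.functionField a = l := by
    intro z hzx l
    obtain ⟨a, ha⟩ := hLx l
    refine ⟨X.presheaf.stalkSpecializes hzx a, ?_⟩
    rw [← ha]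
    have h1 := TopCat.Presheaf.stalkSpecializes_comp (F := X.presheaf)
      (genericPoint_specializes z) hzx
    exact congrArg (fun φ => φ.hom a) h1
  have hjz : ∀ z : X, z ⤳ x → ∃ j : L →+* X.presheaf.stalk z,
      ∀ l : L, algebraMap _ X.functionField (j l) = (l : X.functionField) := by
    intro z hzx
    choose a ha using hLz z hzx
    refine ⟨{ toFun := a, map_one' := ?_, map_mul' := ?_, map_zero' := ?_, map_add' := ?_ }, ha⟩
    · exact hinj z (by rw [ha, map_one]; rfl)
    · intro u v; exact hinj z (by rw [ha, map_mul, ha, ha]; rfl)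
    · exact hinj z (by rw [ha, map_zero]; rfl)
    · intro u v; exact hinj z (by rw [ha, map_add, ha, ha]; rfl)
  obtain ⟨j, hj⟩ := hjz x specializes_rfl
  -- relative frame
  obtain ⟨J, hJinj, hJ⟩ : (∃ J : Fin r → Fin n, Function.Injective J ∧ ((∀ i : Fin n,
      ∃ c : Fin r → X.presheaf.stalk x,
      KaehlerDifferential.map ℂ L X.functionField X.functionField (bn i) =
        ∑ t, algebraMap _ X.functionField (c t) •
          KaehlerDifferential.map ℂ L X.functionField X.functionField (bn (J t))) ∧
    Algebra.trdeg ℂ L + r = n)) := by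
    letI := stalkAlgebra ℂ X x
    obtain ⟨ht, e, he, hspan⟩ := hbf x hxV
    obtain ⟨⟨J, h1, h2⟩, h3⟩ := Honest1_231.exists_rel_frame L (hinj x) e hspan bn he b j hj
    exact ⟨J, h1, h2, h3⟩
  obtain ⟨hJ, hr⟩ := hJ
  set π := KaehlerDifferential.map ℂ L X.functionField X.functionField with hπ
  have hπs : Function.Surjective π := KaehlerDifferential.map_surjective ℂ L X.functionField
  -- the coordinates
  let y : Fin r → X.functionField := fun t => X.germToFunctionField V (w (J t))
  have hDy : ∀ t, KaehlerDifferential.D L X.functionField (y t) = π (bn (J t)) := by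
    intro t
    rw [hbn, hπ, KaehlerDifferential.map_D]
    rfl
  have hyx : ∀ t, ∃ a : X.presheaf.stalk x, algebraMap _ X.functionField a = y t := fun t =>
    ⟨X.presheaf.germ V x hxV (w (J t)), Scheme.algebraMap_germ_eq_germToFunctionField X hxV _⟩
  have hspan : Submodule.span X.functionField (Set.range fun t => π (bn (J t))) = ⊤ := by
    rw [eq_top_iff]
    intro v _
    obtain ⟨v', rfl⟩ := hπs v
    rw [← bn.sum_repr v', map_sum]
    refine Submodule.sum_mem _ fun i _ => ?_
    rw [map_smul]
    refine Submodule.smul_mem _ _ ?_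
    obtain ⟨c, hc⟩ := hJ i
    rw [hc]
    exact Submodule.sum_mem _ fun t _ => Submodule.smul_mem _ _ (Submodule.subset_span ⟨t, rfl⟩)
  have hjac0 : jac L b y ≠ 0 := by
    have h1 : LinearIndependent X.functionField (fun t => π (bn (J t))) := by
      refine linearIndependent_of_top_le_span_of_card_eq_finrank hspan.ge ?_
      rw [Module.finrank_eq_card_basis b]
    let b1 : Module.Basis (Fin r) X.functionField (Ω[X.functionField⁄L]) :=
      Module.Basis.mk h1 hspan.ge
    have h2 : (fun i => KaehlerDifferential.D L X.functionField (y i)) = ⇑b1 := by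
      funext t
      rw [hDy, Module.Basis.mk_apply]
    rw [jac, h2]
    exact (b.isUnit_det b1).ne_zero
  -- Claim B
  have hB : ∀ z : X, z ⤳ x → ∀ y' : Fin r → X.presheaf.stalk z, ∃ q : X.presheaf.stalk z,
      jac L b (fun i => algebraMap _ X.functionField (y' i)) =
        algebraMap _ X.functionField q * jac L b y := by
    intro z hzx y'
    have hzV : z ∈ V := hzx.mem_open V.isOpen hxV
    choose A hA using fun i => exists_coeff z bn (hbf z hzV) (y' i)
    choose c hc using hJ
    have hcz : ∀ i t, ∃ a : X.presheaf.stalk z, algebraMap _ X.functionField a =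
        algebraMap (X.presheaf.stalk x) X.functionField (c i t) := by
      intro i t
      refine ⟨X.presheaf.stalkSpecializes hzx (c i t), ?_⟩
      have h1 := TopCat.Presheaf.stalkSpecializes_comp (F := X.presheaf)
        (genericPoint_specializes z) hzx
      exact congrArg (fun φ => φ.hom (c i t)) h1
    choose cz hcz using hcz
    have hD : ∀ i, KaehlerDifferential.D L X.functionField (algebraMap _ X.functionField (y' i)) =
        ∑ t, algebraMap _ X.functionField (∑ u, A i u * cz u t) •
          KaehlerDifferential.D L X.functionField (y t) := by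
      intro i
      have h1 := congrArg π (hA i)
      rw [hπ, KaehlerDifferential.map_D, map_sum] at h1
      have h2 : (algebraMap X.functionField X.functionField)
          (algebraMap (X.presheaf.stalk z) X.functionField (y' i)) =
          algebraMap (X.presheaf.stalk z) X.functionField (y' i) := rfl
      rw [h2] at h1
      rw [h1]
      have h3 : ∀ u, π (algebraMap (X.presheaf.stalk z) X.functionField (A i u) • bn u) =
          ∑ t, (algebraMap (X.presheaf.stalk z) X.functionField (A i u * cz u t)) •
            π (bn (J t)) := by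
        intro u
        rw [map_smul, hc u, Finset.smul_sum]
        refine Finset.sum_congr rfl fun t _ => ?_
        rw [smul_smul, map_mul, hcz]
      rw [← hπ, Finset.sum_congr rfl fun u _ => h3 u, Finset.sum_comm]
      refine Finset.sum_congr rfl fun t _ => ?_
      rw [hDy, map_sum, Finset.sum_smul]
    refine ⟨(Matrix.of fun t i => ∑ u, A i u * cz u t).det, ?_⟩
    rw [jac, jac, Module.Basis.det_apply, Module.Basis.det_apply, RingHom.map_det, mul_comm,
      ← Matrix.det_mul]
    congr 1
    ext s i
    rw [Module.Basis.toMatrix_apply, hD i, map_sum, Matrix.mul_apply]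
    rw [Finsupp.finsetSum_apply]
    refine Finset.sum_congr rfl fun t _ => ?_
    rw [map_smul, Finsupp.smul_apply, Module.Basis.toMatrix_apply, smul_eq_mul, mul_comm]
    rfl
  refine ⟨J, hyx, hjac0, fun m g hg => ?_⟩
  by_cases hg0 : g = 0
  · exact ⟨0, by rw [hg0, map_zero, zero_div]⟩
  -- `g / jac^m` is regular at all prime divisors through `x`
  have hdiv0 : g / jac L b y ^ m ≠ 0 := div_ne_zero hg0 (pow_ne_zero m hjac0)
  exact mem_stalk_of_ord_nonneg_all x (g / jac L b y ^ m) hdiv0 (fun z hz hzx => by
    have hd : IsDiscreteValuationRing (X.presheaf.stalk z) :=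
      Crest.Agent.R271.UFD243.dvr_stalk X hX z hz
    obtain ⟨jz, hjz⟩ := hjz z hzx
    obtain ⟨y', hy', hle⟩ := hg (stalkVal z hd) (isDiv_rel hX L hr z hz hd jz hjz)
    choose a' ha' using fun i => (mem_stalkVal z hd (y' i)).1 (hy' i)
    obtain ⟨q, hq⟩ := hB z hzx a'
    have hfun : (fun i => algebraMap (X.presheaf.stalk z) X.functionField (a' i)) = y' :=
      funext ha'
    rw [hfun] at hq
    obtain ⟨u, hu⟩ : ∃ u : X.presheaf.stalk z, g = algebraMap _ X.functionField u *
        jac L b y' ^ m := by
      by_cases hJ0 : jac L b y' ^ m = 0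
      · rw [← map_pow, hJ0, map_zero, le_zero_iff, map_eq_zero] at hle
        exact absurd hle hg0
      · have h0 : (stalkVal z hd).valuation (jac L b y' ^ m) ≠ 0 := by
          rwa [Ne, map_eq_zero]
        have h1 : (stalkVal z hd).valuation (g / jac L b y' ^ m) ≤ 1 := by
          rw [map_div₀, div_le_one₀ (zero_lt_iff.2 h0), map_pow]
          exact hle
        obtain ⟨u, hu⟩ := (valuation_le_one_iff z hd _).1 h1
        exact ⟨u, by rw [hu, div_mul_cancel₀ _ hJ0]⟩
    have h2 : g / jac L b y ^ m = algebraMap _ X.functionField (u * q ^ m) := by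
      rw [div_eq_iff (pow_ne_zero m hjac0), hu, hq, map_mul, map_pow, mul_pow]
      ring
    rw [h2]
    exact ord_nonneg_of_mem_stalk hz _)
end rel

section fibre
variable {X Z : Scheme.{0}} [Algebra ℂ Γ(X, ⊤)] [Algebra ℂ Γ(Z, ⊤)]
  [IsIntegral X] [IsLocallyNoetherian X] [IsIntegral Z] [IsLocallyNoetherian Z]

/-- The relative function field extension of a morphism of smooth proper varieties is uniformly honest. -/
theorem uhon_rel {n : ℕ} (hX : IsSmoothProperVariety ℂ X n) (f : X ⟶ Z)
    (φ : Z.functionField →ₐ[ℂ] X.functionField)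
    (hφ : ∀ (V : Z.Opens) [Nonempty V] [Nonempty (f ⁻¹ᵁ V : X.Opens)] (s : Γ(Z, V)),
      φ (Z.germToFunctionField V s) = X.germToFunctionField (f ⁻¹ᵁ V) (f.app V s)) :
    UHon φ.fieldRange X.functionField := by
  classical
  intro r b
  have hinjX : ∀ z : X, Function.Injective (algebraMap (X.presheaf.stalk z) X.functionField) :=
    fun z => IsFractionRing.injective _ _
  haveI : QuasiCompact (structureMorphism ℂ X) := by
    have h : IsProper (structureMorphism ℂ X) := hX.2.1
    infer_instance
  haveI : CompactSpace X := QuasiCompact.compactSpace_of_compactSpace (structureMorphism ℂ X)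
  choose V hV hxV w hw using fun x : X => exists_etale_chart hX x
  haveI hVne : ∀ x, Nonempty (V x) := fun x => ⟨⟨x, hxV x⟩⟩
  obtain ⟨S, -, hS⟩ := isCompact_univ.elim_nhds_subcover (fun x : X => ((V x : X.Opens) : Set X))
    (fun x _ => (V x).isOpen.mem_nhds (hxV x))
  let yy : X × (Fin r → Fin n) → Fin r → X.functionField := fun p t =>
    X.germToFunctionField (V p.1) (w p.1 (p.2 t))
  refine ⟨yy '' ((S : Set X) ×ˢ Set.univ), (S.finite_toSet.prod Set.finite_univ).image _,
    fun R hR => ?_⟩
  obtain ⟨x, hx, hloc⟩ := exists_center' hX.2.1 R (fun c => by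
    have := hR (algebraMap ℂ φ.fieldRange c)
    rwa [← IsScalarTower.algebraMap_apply] at this)
  -- compatibility of `φ` with the stalk map at `x`
  have hcomp : ∀ a : Z.presheaf.stalk (f x), φ (algebraMap _ Z.functionField a) =
      algebraMap (X.presheaf.stalk x) X.functionField ((f.stalkMap x).hom a) := by
    intro a
    obtain ⟨V, hV, s, rfl⟩ := TopCat.Presheaf.exists_germ_eq Z.presheaf a
    haveI : Nonempty V := ⟨⟨f x, hV⟩⟩
    have hxV : x ∈ f ⁻¹ᵁ V := hV
    haveI : Nonempty (f ⁻¹ᵁ V : X.Opens) := ⟨⟨x, hxV⟩⟩
    have h1 := Scheme.algebraMap_germ_eq_germToFunctionField Z hV s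
    have h2 := Scheme.algebraMap_germ_eq_germToFunctionField X hxV (f.app V s)
    rw [h1, hφ V s, ← h2]
    congr 1
    exact (Scheme.Hom.germ_stalkMap_apply f V x hxV s).symm
  -- the local ring at `f x` is a field
  have hfield : ∀ a : Z.presheaf.stalk (f x), a ≠ 0 → IsUnit a := by
    intro a ha
    have h0 : algebraMap _ Z.functionField a ≠ 0 := by
      rwa [Ne, map_eq_zero_iff _ (IsFractionRing.injective (Z.presheaf.stalk (f x)) Z.functionField)]
    have h1 : φ ((algebraMap _ Z.functionField a)⁻¹) ∈ R :=
      hR ⟨_, ⟨_, rfl⟩⟩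
    have h2 := hloc ((f.stalkMap x).hom a) _ h1 (by
      rw [← hcomp, ← map_mul, mul_inv_cancel₀ h0, map_one])
    exact (inferInstance : IsLocalHom (f.stalkMap x).hom).map_nonunit a h2
  obtain ⟨x0, hx0S, hx0⟩ : ∃ x0 ∈ S, x ∈ V x0 := by
    have := hS (Set.mem_univ x)
    simpa using this
  obtain ⟨J, hy, hjac, hreg⟩ := center_chart hX φ.fieldRange x (fun l => by
    obtain ⟨_, ⟨u, rfl⟩⟩ := l
    obtain ⟨a, c, hc, huc⟩ := IsFractionRing.div_surjective (A := Z.presheaf.stalk (f x)) u
    have hc0 : c ≠ 0 := nonZeroDivisors.ne_zero hc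
    obtain ⟨d, hd⟩ := (hfield c hc0).exists_right_inv
    refine ⟨(f.stalkMap x).hom (a * d), ?_⟩
    rw [← hcomp]
    have hcK : algebraMap _ Z.functionField c ≠ 0 := by
      rwa [Ne, map_eq_zero_iff _ (IsFractionRing.injective (Z.presheaf.stalk (f x)) Z.functionField)]
    have h3 : algebraMap _ Z.functionField (a * d) = u := by
      rw [← huc, eq_div_iff hcK, ← map_mul]
      congr 1
      calc a * d * c = a * (c * d) := by ring
        _ = a := by rw [hd, mul_one]
    rw [h3]
    rfl) b (V x0) (hV x0) hx0 (w x0) (hw x0)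
  refine ⟨yy (x0, J), ⟨(x0, J), ⟨hx0S, trivial⟩, rfl⟩, fun t => ?_, hjac, fun m g hg => ?_⟩
  · obtain ⟨a, ha⟩ := hy t
    change X.germToFunctionField (V x0) (w x0 (J t)) ∈ R
    rw [← ha]
    exact hx a
  · obtain ⟨a, ha⟩ := hreg m g hg
    have h0 : R.valuation (jac φ.fieldRange b (yy (x0, J)) ^ m) ≠ 0 := by
      rw [Ne, map_eq_zero]; exact pow_ne_zero m hjac
    have h1 : R.valuation (g / jac φ.fieldRange b (yy (x0, J)) ^ m) ≤ 1 := by
      rw [← ha]
      exact (R.valuation_le_one_iff _).2 (hx a)
    rwa [map_div₀, div_le_one₀ (zero_lt_iff.2 h0), map_pow] at h1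

end fibre

end Crest.Agent.R276.UHon_845
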