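import Mathlib
import Crest.Agent.R276.GroUpE_845
import Crest.Agent.R276.UHon_845
import Crest.Agent.R276.Mod7_987

-- ▼ part R276/SkoT_845
section

/-!
# SKO (row 276), part T (helper845): uniform frames and localised covers

* `cover_away` : `GroUpA_845.cover` for evaluations which extend to `B[1/q]`;
* `exists_frames` : a finite family of pluricanonical forms of arbitrary weights is bounded in one of the frames of
  `UHon` at every valuation ring; together with `cover_away` this covers the fibres.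
-/

set_option autoImplicit false

open Crest.Agent.R276.FKDefs_779 Crest.Agent.R276.UHon_845

noncomputable section

namespace Crest.Agent.R276.SkoT_845

section away

variable {k K : Type} [Field k] [Field K] [Algebra k K]

/-- quantitative cover for homomorphisms which do not kill `q` -/
theorem cover_away {ι κ : Type*} [Finite κ] (f : ι → κ → K)
    (H : ∀ V : ValuationSubring K, (∀ a : k, algebraMap k K a ∈ V) → ∃ i, ∀ j, f i j ∈ V) :
    ∃ (S : Finset ι) (A : Finset k) (C : ℝ) (n : ℕ), 1 ≤ C ∧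
      ∀ (B : Type) [CommRing B] (j : B →+* K) (φ : B →+* ℂ) (q : B) (R : ℝ),
        Function.Injective j → 0 ≤ R → φ q ≠ 0 →
        (∀ i ∈ S, ∀ l, ∃ b, ∃ e : ℕ, j b = f i l * j q ^ e) →
        (∀ i ∈ S, ∀ l, ∃ b, ∃ e : ℕ, j b = (f i l)⁻¹ * j q ^ e) →
        (∀ a ∈ A, ∃ b, ∃ e : ℕ, j b = algebraMap k K a * j q ^ e ∧ ‖φ b‖ ≤ R * ‖φ q‖ ^ e) →
        ∃ i ∈ S, ∀ l, ∀ b, ∀ e : ℕ, j b = f i l * j q ^ e →
          ‖φ b‖ ≤ C * (1 + R) ^ n * ‖φ q‖ ^ e := by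
  obtain ⟨S, A, C, n, hC, hmain⟩ := GroUpA_845.cover f H
  refine ⟨S, A, C, n, hC, fun B _ j φ q R hj hR hq h1 h2 h3 => ?_⟩
  have hq0 : q ≠ 0 := fun h => hq (by rw [h, map_zero])
  have hjq : j q ≠ 0 := fun h => hq0 (hj (by rw [h, map_zero]))
  let B' := Localization.Away q
  have hju : IsUnit (j q) := isUnit_iff_ne_zero.2 hjq
  have hφu : IsUnit (φ q) := isUnit_iff_ne_zero.2 hq
  let j' : B' →+* K := IsLocalization.Away.lift q hju
  let φ' : B' →+* ℂ := IsLocalization.Away.lift q hφu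
  have hj' : ∀ b, j' (algebraMap B B' b) = j b := fun b => IsLocalization.Away.lift_eq q hju b
  have hφ' : ∀ b, φ' (algebraMap B B' b) = φ b := fun b => IsLocalization.Away.lift_eq q hφu b
  have hsurj : ∀ x : B', ∃ b : B, ∃ e : ℕ, x * algebraMap B B' q ^ e = algebraMap B B' b := by
    intro x
    obtain ⟨e, b, h⟩ := IsLocalization.Away.surj q x
    exact ⟨b, e, h⟩
  have hjinj : Function.Injective j' := by
    rw [injective_iff_map_eq_zero]
    intro x hx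
    obtain ⟨b, e, h⟩ := hsurj x
    have h4 : j b = 0 := by rw [← hj', ← h, map_mul, hx, zero_mul]
    have h5 : b = 0 := hj (by rw [h4, map_zero])
    rw [h5, map_zero] at h
    have hu : IsUnit (algebraMap B B' q ^ e) := (IsLocalization.Away.algebraMap_isUnit q).pow e
    exact (hu.mul_left_eq_zero).1 h
  -- preimages
  have hpre : ∀ (c : K) (b : B) (e : ℕ), j b = c * j q ^ e → ∃ x : B', j' x = c ∧
      φ' x * φ q ^ e = φ b := by
    intro c b e hb
    obtain ⟨u, hu⟩ := (IsLocalization.Away.algebraMap_isUnit (S := B') q).pow e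
    refine ⟨algebraMap B B' b * ↑u⁻¹, ?_, ?_⟩
    · have h4 : j' ↑u * j' ↑u⁻¹ = 1 := by rw [← map_mul, Units.mul_inv, map_one]
      have h5 : j' ↑u = j q ^ e := by rw [hu, map_pow, hj']
      rw [map_mul, hj', hb, ← h5, mul_assoc, h4, mul_one]
    · have h4 : φ' ↑u⁻¹ * φ' ↑u = 1 := by rw [← map_mul, Units.inv_mul, map_one]
      have h5 : φ' ↑u = φ q ^ e := by rw [hu, map_pow, hφ']
      rw [map_mul, hφ', ← h5, mul_assoc, h4, mul_one]
  obtain ⟨i, hi, hl⟩ := hmain B' j' φ' R hjinj hR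
    (fun i hi l => by
      obtain ⟨b, e, hb⟩ := h1 i hi l
      obtain ⟨x, hx, -⟩ := hpre _ b e hb
      exact ⟨x, hx⟩)
    (fun i hi l => by
      obtain ⟨b, e, hb⟩ := h2 i hi l
      obtain ⟨x, hx, -⟩ := hpre _ b e hb
      exact ⟨x, hx⟩)
    (fun a ha => by
      obtain ⟨b, e, hb, hb'⟩ := h3 a ha
      obtain ⟨x, hx, hx'⟩ := hpre _ b e hb
      refine ⟨x, hx, ?_⟩
      have h6 : ‖φ' x‖ * ‖φ q‖ ^ e ≤ R * ‖φ q‖ ^ e := by
        rw [← norm_pow, ← norm_mul, hx', norm_pow]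
        exact hb'
      exact le_of_mul_le_mul_right h6 (pow_pos (norm_pos_iff.2 hq) e))
  refine ⟨i, hi, fun l b e hb => ?_⟩
  obtain ⟨x, hx, hx'⟩ := hpre _ b e hb
  have h7 := hl l x hx
  rw [← hx', norm_mul, norm_pow]
  exact mul_le_mul_of_nonneg_right h7 (by positivity)

end away

section frames

variable {L K : Type} [Field L] [Field K] [Algebra L K] {r : ℕ}

/-- the frames given by `UHon` -/
structure IsFrames (bas : Module.Basis (Fin r) K (Ω[K⁄L])) (Y : Finset (Fin r → K)) : Prop where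
  jac_ne : ∀ y ∈ Y, jac L bas y ≠ 0
  cov : ∀ R : ValuationSubring K, (∀ c : L, algebraMap L K c ∈ R) → ∃ y ∈ Y, (∀ i, y i ∈ R) ∧
    ∀ (m : ℕ) (g : K), Pluri L bas m g → R.valuation g ≤ R.valuation (jac L bas y) ^ m

theorem exists_frames (h : UHon L K) (bas : Module.Basis (Fin r) K (Ω[K⁄L])) :
    ∃ Y : Finset (Fin r → K), IsFrames bas Y := by
  classical
  obtain ⟨Y, hY, hcov⟩ := h r bas
  refine ⟨hY.toFinset.filter fun y => jac L bas y ≠ 0, ⟨fun y hy => (Finset.mem_filter.1 hy).2,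
    fun R hR => ?_⟩⟩
  obtain ⟨y, hy, h1, h2, h3⟩ := hcov R hR
  exact ⟨y, Finset.mem_filter.2 ⟨hY.mem_toFinset.2 hy, h2⟩, h1, h3⟩

variable {bas : Module.Basis (Fin r) K (Ω[K⁄L])} {Y : Finset (Fin r → K)}

/-- the tuple attached to a frame and a finite family of forms -/
def tup (bas : Module.Basis (Fin r) K (Ω[K⁄L])) {γ : Type} (wt : γ → ℕ) (g : γ → K)
    (y : Fin r → K) : Fin r ⊕ γ → K :=
  Sum.elim y fun c => g c / jac L bas y ^ wt c

theorem IsFrames.tup_mem (hY : IsFrames bas Y) {γ : Type} {wt : γ → ℕ} {g : γ → K}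
    (hg : ∀ c, Pluri L bas (wt c) (g c)) (V : ValuationSubring K)
    (hV : ∀ a : L, algebraMap L K a ∈ V) : ∃ y : Y, ∀ l, tup bas wt g y l ∈ V := by
  obtain ⟨y, hy, h1, h2⟩ := hY.cov V hV
  refine ⟨⟨y, hy⟩, ?_⟩
  rintro (l | c)
  · exact h1 l
  · have h3 := h2 _ _ (hg c)
    change g c / jac L bas y ^ wt c ∈ V
    have h0 : V.valuation (jac L bas y ^ wt c) ≠ 0 := by
      rw [Ne, map_eq_zero]; exact pow_ne_zero _ (hY.jac_ne y hy)
    rw [← V.valuation_le_one_iff, map_div₀, div_le_one₀ (zero_lt_iff.2 h0), map_pow]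
    exact h3

/-- the fibres are covered by the pieces where a frame `y` and the forms in this frame are bounded -/
theorem IsFrames.cover (hY : IsFrames bas Y) {γ : Type} [Finite γ] {wt : γ → ℕ} {g : γ → K}
    (hg : ∀ c, Pluri L bas (wt c) (g c)) :
    ∃ (A : Finset L) (C : ℝ) (n : ℕ), 1 ≤ C ∧
      ∀ (B : Type) [CommRing B] (j : B →+* K) (φ : B →+* ℂ) (q : B) (R : ℝ),
        Function.Injective j → 0 ≤ R → φ q ≠ 0 →
        (∀ y ∈ Y, ∀ l, ∃ b, ∃ e : ℕ, j b = tup bas wt g y l * j q ^ e) →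
        (∀ y ∈ Y, ∀ l, ∃ b, ∃ e : ℕ, j b = (tup bas wt g y l)⁻¹ * j q ^ e) →
        (∀ a ∈ A, ∃ b, ∃ e : ℕ, j b = algebraMap L K a * j q ^ e ∧ ‖φ b‖ ≤ R * ‖φ q‖ ^ e) →
        ∃ y ∈ Y, ∀ l, ∀ b, ∀ e : ℕ, j b = tup bas wt g y l * j q ^ e →
          ‖φ b‖ ≤ C * (1 + R) ^ n * ‖φ q‖ ^ e := by
  obtain ⟨S, A, C, n, hC, h⟩ := cover_away (k := L) (fun (y : Y) l => tup bas wt g y l)
    (hY.tup_mem hg)
  refine ⟨A, C, n, hC, fun B _ j φ q R hj hR hq h1 h2 h3 => ?_⟩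
  obtain ⟨y, _, hy⟩ := h B j φ q R hj hR hq (fun y _ l => h1 y y.2 l) (fun y _ l => h2 y y.2 l) h3
  exact ⟨y, y.2, hy⟩

end frames

end Crest.Agent.R276.SkoT_845
end
end

-- ▼ part R276/SkoF_845
section

/-!
# SKO (row 276), part F (helper845): from the pieces to the fibre

* `frame_enorm` : `‖J‖^(2+pN) ‖J^N S‖^(-p) = ‖J‖² ‖S‖^(-p)`;
* `sum_pieces` : the sum over the frames.
-/

set_option autoImplicit false

open MeasureTheory Crest.Agent.R276.FKDefs_779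
open scoped ENNReal

noncomputable section

namespace Crest.Agent.R276.SkoF_845

theorem frame_enorm {J S : ℂ} (hJ : J ≠ 0) (p : ℝ) (N : ℕ) :
    ‖J‖ₑ ^ (2 + p * N) * ‖J ^ N * S‖ₑ ^ (-p) = ‖J‖ₑ ^ (2 : ℕ) * ‖S‖ₑ ^ (-p) := by
  have h0 : ‖J‖ₑ ≠ 0 := by simpa using hJ
  have h1 : ‖J‖ₑ ≠ ⊤ := by simp
  rw [enorm_mul, enorm_pow, ENNReal.mul_rpow_of_ne_top (ENNReal.pow_ne_top h1) (by simp),
    ← mul_assoc, ← ENNReal.rpow_natCast, ← ENNReal.rpow_mul, ← ENNReal.rpow_add _ _ h0 h1,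
    ← ENNReal.rpow_natCast]
  congr 2
  push_cast
  ring

/-- The sum over the frames.  `E y` is the piece of the frame `y`, `J y` the Jacobian, `W y i` the section `u_i` in this
frame. -/
theorem sum_pieces {M : Type} [MeasurableSpace M] {μ : Measure M} {ι : Type} (Y : Finset ι)
    {s N : ℕ} {p : ℝ} (E : ι → Set M) (hE : ∀ y ∈ Y, MeasurableSet (E y)) (J : ι → M → ℂ)
    (hJ : ∀ y ∈ Y, ∀ x, J y x ≠ 0) (hJm : ∀ y ∈ Y, Measurable (J y)) (u : Fin s → M → ℂ) (W : ι → Fin s → M → ℂ)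
    (hWm : ∀ y ∈ Y, ∀ i, Measurable (W y i))
    (hW : ∀ y ∈ Y, ∀ i x, u i x = J y x ^ N * W y i x)
    {Cy : ι → ℝ≥0∞} {A : Fin s → ℂ} {a : ℝ≥0∞}
    (hCy : ∀ y ∈ Y, ∫⁻ x in E y, ‖J y x‖ₑ ^ (2 : ℕ) * ‖∑ i, A i * W y i x‖ₑ ^ (-p) ∂μ ≤ Cy y * a)
    {m : M → ℝ≥0∞} {c : ℝ≥0∞} (hc : c ≠ ⊤)
    (hm : ∀ x, m x ≠ 0 → ∃ y ∈ Y, x ∈ E y ∧ m x ≤ c * ‖J y x‖ₑ ^ (2 + p * N)) :
    ∫⁻ x, m x * ‖∑ i, A i * u i x‖ₑ ^ (-p) ∂μ ≤ c * (∑ y ∈ Y, Cy y) * a := by
  have h1 : ∀ x, m x * ‖∑ i, A i * u i x‖ₑ ^ (-p) ≤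
      ∑ y ∈ Y, c * (E y).indicator (fun x => ‖J y x‖ₑ ^ (2 : ℕ) *
        ‖∑ i, A i * W y i x‖ₑ ^ (-p)) x := by
    intro x
    by_cases hx : m x = 0
    · rw [hx, zero_mul]; exact zero_le
    · obtain ⟨y, hy, hxE, hle⟩ := hm x hx
      refine le_trans ?_ (Finset.single_le_sum (fun _ _ => zero_le) hy)
      rw [Set.indicator_of_mem hxE]
      have h2 : ∑ i, A i * u i x = J y x ^ N * ∑ i, A i * W y i x := by
        rw [Finset.mul_sum]
        refine Finset.sum_congr rfl fun i _ => ?_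
        rw [hW y hy i x]; ring
      rw [h2, ← frame_enorm (hJ y hy x) p N, ← mul_assoc]
      exact mul_le_mul_left hle _
  calc ∫⁻ x, m x * ‖∑ i, A i * u i x‖ₑ ^ (-p) ∂μ
      ≤ ∫⁻ x, ∑ y ∈ Y, c * (E y).indicator (fun x => ‖J y x‖ₑ ^ (2 : ℕ) *
        ‖∑ i, A i * W y i x‖ₑ ^ (-p)) x ∂μ := lintegral_mono h1
    _ ≤ ∑ y ∈ Y, ∫⁻ x, c * (E y).indicator (fun x => ‖J y x‖ₑ ^ (2 : ℕ) *
        ‖∑ i, A i * W y i x‖ₑ ^ (-p)) x ∂μ := by
        refine le_of_eq (lintegral_finsetSum' _ fun y hy => ?_)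
        refine Measurable.aemeasurable (Measurable.const_mul (Measurable.indicator ?_ (hE y hy)) c)
        exact ((hJm y hy).enorm.pow_const 2).mul ((Finset.measurable_sum _ fun i _ =>
          (hWm y hy i).const_mul (A i)).enorm.pow_const (-p))
    _ ≤ ∑ y ∈ Y, c * (Cy y * a) := by
        refine Finset.sum_le_sum fun y hy => ?_
        rw [lintegral_const_mul' _ _ hc, lintegral_indicator (hE y hy)]
        exact mul_le_mul_right (hCy y hy) _
    _ = c * (∑ y ∈ Y, Cy y) * a := by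
        rw [mul_assoc, Finset.sum_mul, Finset.mul_sum]

end Crest.Agent.R276.SkoF_845
end
end

-- ▼ part R276/SkoM_845
section

/-!
# SKO (row 276), part M (helper845): uniform estimates on the fibres of relative models

`ek M x y` : value at the point `y` of the model `M` of the element `x` of the field.
`PE` : the estimate on one piece.  `est_u`, `est_v` : the estimates on the fibres.
-/

set_option autoImplicit false

open Topology Filter MeasureTheory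
open scoped ENNReal

noncomputable section

namespace Crest.Agent.R276.SkoM_845

open Crest.Agent.R271.Defs710 Crest.Agent.R271.Ho51 Crest.Agent.R271.Rd692
open Crest.Agent.R276.Mod1_987 Crest.Agent.R276.FKDefs_779 Crest.Agent.R276.SkoT_845

/-! ### values of elements of the field -/

section ek

variable {K : Type} [Field K] [Algebra ℂ K] {n : ℕ} (M : Mdl K n)

open Classical in
/-- the value of `x : K` at the point `y` (`0` if `x` is not in the coordinate ring) -/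
def ek (x : K) (y : M.Pts) : ℂ := if h : x ∈ M.B then y ⟨x, h⟩ else 0

lemma ek_of_mem {x : K} (h : x ∈ M.B) (y : M.Pts) : ek M x y = y ⟨x, h⟩ := dif_pos h

@[simp] lemma ek_coe (b : M.B) (y : M.Pts) : ek M (b : K) y = y b := ek_of_mem M b.2 y

lemma ek_mul {x x' : K} (h : x ∈ M.B) (h' : x' ∈ M.B) (y : M.Pts) :
    ek M (x * x') y = ek M x y * ek M x' y := by
  rw [ek_of_mem M h, ek_of_mem M h', ek_of_mem M (mul_mem h h'), ← map_mul]
  rfl

lemma ek_pow {x : K} (h : x ∈ M.B) (k : ℕ) (y : M.Pts) : ek M (x ^ k) y = ek M x y ^ k := by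
  rw [ek_of_mem M h, ek_of_mem M (pow_mem h k), ← map_pow]
  rfl

lemma ek_ne_zero {x : K} (hx : x ≠ 0) (h : x ∈ M.B) (h' : x⁻¹ ∈ M.B) (y : M.Pts) :
    ek M x y ≠ 0 := by
  intro h0
  have h1 := ek_mul M h h' y
  rw [h0, zero_mul, mul_inv_cancel₀ hx, ek_of_mem M (one_mem _)] at h1
  have h2 : y (1 : M.B) = 0 := h1
  rw [map_one] at h2
  exact one_ne_zero h2

lemma continuous_ek (x : K) : Continuous fun y : M.Pts => ek M x y := by
  by_cases h : x ∈ M.B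
  · have : (fun y : M.Pts => ek M x y) = fun y => y ⟨x, h⟩ := by
      funext y; exact ek_of_mem M h y
    rw [this]
    exact continuous_ev _
  · have : (fun y : M.Pts => ek M x y) = fun _ => 0 := by
      funext y; exact dif_neg h
    rw [this]
    exact continuous_const

end ek

variable {L K : Type} [Field L] [Field K] [Algebra ℂ L] [Algebra ℂ K] [Algebra L K]
  [IsScalarTower ℂ L K] {m r : ℕ}

/-- the form `u` in the frame `y` -/
def fr (bas : Module.Basis (Fin r) K (Ω[K⁄L])) (y : Fin r → K) (N : ℕ) (u : K) : K :=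
  u / jac L bas y ^ N

/-- the fibre coordinates of the model are those of the basis -/
def Compat (bas : Module.Basis (Fin r) K (Ω[K⁄L])) (R : RMdl L K m r) : Prop :=
  ∀ j, bas j = KaehlerDifferential.D L K (R.MK.zK (Fin.natAdd m j))

/-- the finite sets consist of units of the two coordinate rings -/
def Units' (R : RMdl L K m r) (AA : Finset L) (BB : Finset K) : Prop :=
  (∀ a ∈ AA, a ∈ R.ML.B ∧ a⁻¹ ∈ R.ML.B) ∧ ∀ b ∈ BB, b ∈ R.MK.B ∧ b⁻¹ ∈ R.MK.B

/-- the piece of the fibre over `w` where the frame `y` and the sections `u_i` in this frame are bounded by `T` -/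
def piece (bas : Module.Basis (Fin r) K (Ω[K⁄L])) (N : ℕ) {s : ℕ} (u : Fin s → K) (y : Fin r → K)
    (R : RMdl L K m r) (w : R.ML.Pts) (T : ℝ) : Set (R.Fib w) :=
  {x | (∀ l, ‖ek R.MK (y l) x.val‖ ≤ T) ∧ ∀ i, ‖ek R.MK (fr bas y N (u i)) x.val‖ ≤ T}

/-- THE ESTIMATE ON ONE PIECE -/
def PE (bas : Module.Basis (Fin r) K (Ω[K⁄L])) (N : ℕ) {s : ℕ} (u : Fin s → K) (y : Fin r → K)
    (AA : Finset L) (BB : Finset K) (p : ℝ) : Prop :=
  ∃ (C : ℝ) (n : ℕ), 1 ≤ C ∧ ∀ (m : ℕ) (R : RMdl L K m r), Compat bas R → Units' R AA BB →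
    ∀ (w : R.ML.Pts) (μ : Measure (R.Fib w)), IsLeb μ → ∀ ρ : ℝ, 1 ≤ ρ →
      (∀ a ∈ AA, ‖ek R.ML a w‖ ≤ ρ) → ∀ T : ℝ, 1 ≤ T → ∀ A : Fin s → ℂ,
        ∫⁻ x in piece bas N u y R w T, ‖ek R.MK (jac L bas y) x.val‖ₑ ^ (2 : ℕ) *
          ‖∑ i, A i * ek R.MK (fr bas y N (u i)) x.val‖ₑ ^ (-p) ∂μ ≤
          ENNReal.ofReal (C * (ρ * T) ^ n) * ‖A‖ₑ ^ (-p)

lemma continuous_ekF (R : RMdl L K m r) (w : R.ML.Pts) (x : K) :
    Continuous fun y : R.Fib w => ek R.MK x y.val :=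
  (continuous_ek R.MK x).comp (RMdl.Fib.continuous_val w)

lemma measurable_ekF (R : RMdl L K m r) (w : R.ML.Pts) (x : K) :
    Measurable fun y : R.Fib w => ek R.MK x y.val :=
  (continuous_ekF R w x).measurable

lemma measurableSet_piece (bas : Module.Basis (Fin r) K (Ω[K⁄L])) (N : ℕ) {s : ℕ} (u : Fin s → K)
    (y : Fin r → K) (R : RMdl L K m r) (w : R.ML.Pts) (T : ℝ) :
    MeasurableSet (piece bas N u y R w T) := by
  apply IsClosed.measurableSet
  have : piece bas N u y R w T = (⋂ l, {x | ‖ek R.MK (y l) x.val‖ ≤ T}) ∩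
      ⋂ i, {x | ‖ek R.MK (fr bas y N (u i)) x.val‖ ≤ T} := by
    ext x; simp [piece]
  rw [this]
  exact (isClosed_iInter fun l => isClosed_le (continuous_ekF R w _).norm continuous_const).inter
    (isClosed_iInter fun i => isClosed_le (continuous_ekF R w _).norm continuous_const)

/-- **Sum over the frames on the fibres of a relative model.** -/
theorem fib_sum (bas : Module.Basis (Fin r) K (Ω[K⁄L])) {Y : Finset (Fin r → K)}
    (hY : ∀ y ∈ Y, jac L bas y ≠ 0) (N : ℕ) {s : ℕ} (u : Fin s → K) {AA : Finset L} {BB : Finset K}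
    (hBB : ∀ y ∈ Y, jac L bas y ∈ BB) (hBu : ∀ y ∈ Y, ∀ i, fr bas y N (u i) ∈ BB) {p : ℝ}
    (hPE : ∀ y ∈ Y, PE bas N u y AA BB p) :
    ∃ (C : ℝ) (n : ℕ), 1 ≤ C ∧ ∀ (m : ℕ) (R : RMdl L K m r), Compat bas R → Units' R AA BB →
      ∀ (w : R.ML.Pts) (μ : Measure (R.Fib w)), IsLeb μ → ∀ ρ : ℝ, 1 ≤ ρ →
        (∀ a ∈ AA, ‖ek R.ML a w‖ ≤ ρ) → ∀ T : ℝ, 1 ≤ T → ∀ (g : R.Fib w → ℝ≥0∞) (c : ℝ≥0∞),
        c ≠ ⊤ → (∀ x, g x ≠ 0 → ∃ y ∈ Y, x ∈ piece bas N u y R w T ∧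
          g x ≤ c * ‖ek R.MK (jac L bas y) x.val‖ₑ ^ (2 + p * N)) → ∀ A : Fin s → ℂ,
          ∫⁻ x, g x * ‖∑ i, A i * ek R.MK (u i) x.val‖ₑ ^ (-p) ∂μ ≤
            c * ENNReal.ofReal (C * (ρ * T) ^ n) * ‖A‖ₑ ^ (-p) := by
  classical
  choose! C n hC hPE using hPE
  refine ⟨1 + ∑ y ∈ Y, C y, ∑ y ∈ Y, n y, ?_, ?_⟩
  · have : 0 ≤ ∑ y ∈ Y, C y := Finset.sum_nonneg fun y hy => zero_le_one.trans (hC y hy)
    linarith
  intro m R hR hU w μ hμ ρ hρ hρa T hT g c hc hg A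
  have hJm : ∀ y ∈ Y, jac L bas y ∈ R.MK.B := fun y hy => (hU.2 _ (hBB y hy)).1
  have h1 := SkoF_845.sum_pieces (μ := μ) Y (s := s) (N := N) (p := p)
    (fun y => piece bas N u y R w T) (fun y _ => measurableSet_piece bas N u y R w T)
    (fun y x => ek R.MK (jac L bas y) x.val)
    (fun y hy x => ek_ne_zero R.MK (hY y hy) (hJm y hy) (hU.2 _ (hBB y hy)).2 _)
    (fun y _ => measurable_ekF R w _)
    (fun i x => ek R.MK (u i) x.val) (fun y i x => ek R.MK (fr bas y N (u i)) x.val)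
    (fun y _ i => measurable_ekF R w _)
    (fun y hy i x => by
      have h2 : u i = jac L bas y ^ N * fr bas y N (u i) := by
        rw [fr, mul_div_cancel₀ _ (pow_ne_zero N (hY y hy))]
      conv_lhs => rw [h2]
      rw [ek_mul R.MK (pow_mem (hJm y hy) N) (hU.2 _ (hBu y hy i)).1, ek_pow R.MK (hJm y hy)])
    (Cy := fun y => ENNReal.ofReal (C y * (ρ * T) ^ n y)) (A := A) (a := ‖A‖ₑ ^ (-p))
    (fun y hy => hPE y hy m R hR hU w μ hμ ρ hρ hρa T hT A) (m := g) hc hg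
  refine h1.trans ?_
  gcongr
  have h3 : ∀ y ∈ Y, 0 ≤ C y * (ρ * T) ^ n y := fun y hy => by
    have := hC y hy
    positivity
  rw [← ENNReal.ofReal_sum_of_nonneg h3]
  apply ENNReal.ofReal_le_ofReal
  have hρT : 1 ≤ ρ * T := by nlinarith
  calc ∑ y ∈ Y, C y * (ρ * T) ^ n y ≤ ∑ y ∈ Y, C y * (ρ * T) ^ (∑ y ∈ Y, n y) := by
        refine Finset.sum_le_sum fun y hy => ?_
        refine mul_le_mul_of_nonneg_left ?_ (zero_le_one.trans (hC y hy))
        exact pow_le_pow_right₀ hρT (Finset.single_le_sum (fun _ _ => Nat.zero_le _) hy)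
    _ = (∑ y ∈ Y, C y) * (ρ * T) ^ (∑ y ∈ Y, n y) := by rw [Finset.sum_mul]
    _ ≤ (1 + ∑ y ∈ Y, C y) * (ρ * T) ^ (∑ y ∈ Y, n y) := by
        gcongr
        linarith

end Crest.Agent.R276.SkoM_845
end
end

-- ▼ part R276/SkoN_845

/-!
# SKO (row 276), part N (helper845): the estimates on the fibres

* `est_u` : `∫_{M_w} (∑ |u_i|)^((2+pN)/N) |∑ A_i u_i|^(-p) ≤ C ρ(w)^n ‖A‖^(-p)`;
* `est_v` : `∫_{M_w} |v|^t |∑ A_i u_i|^(-p) ≤ C (ρ(w) (1 + 1/|P(w)|))^n ‖A‖^(-p)` for `v` of weight `N1`, `N1 t = 2 + pN`.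
-/

set_option autoImplicit false
set_option linter.unusedSectionVars false

open Topology Filter MeasureTheory
open scoped ENNReal

noncomputable section

namespace Crest.Agent.R276.SkoN_845

open Crest.Agent.R271.Defs710 Crest.Agent.R271.Ho51
open Crest.Agent.R276.Mod1_987 Crest.Agent.R276.FKDefs_779 Crest.Agent.R276.SkoT_845
open Crest.Agent.R276.SkoM_845

variable {L K : Type} [Field L] [Field K] [Algebra ℂ L] [Algebra ℂ K] [Algebra L K]
  [IsScalarTower ℂ L K] {r m₀ : ℕ}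

/-- the elements which must be units for the frames `Y` and the sections `u` -/
structure Has (bas : Module.Basis (Fin r) K (Ω[K⁄L])) (Y : Finset (Fin r → K)) (N : ℕ) {s : ℕ}
    (u : Fin s → K) (BB : Finset K) : Prop where
  y_mem : ∀ y ∈ Y, ∀ l, y l ∈ BB
  jac_mem : ∀ y ∈ Y, jac L bas y ∈ BB
  fr_mem : ∀ y ∈ Y, ∀ i, fr bas y N (u i) ∈ BB

open Classical in
/-- the smallest such set -/
def bb (bas : Module.Basis (Fin r) K (Ω[K⁄L])) (Y : Finset (Fin r → K)) (N : ℕ) {s : ℕ}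
    (u : Fin s → K) : Finset K :=
  (Y.biUnion fun y => Finset.univ.image y) ∪ (Y.image fun y => jac L bas y) ∪
    Y.biUnion fun y => Finset.univ.image fun i => fr bas y N (u i)

lemma has_bb {bas : Module.Basis (Fin r) K (Ω[K⁄L])} {Y : Finset (Fin r → K)} {N : ℕ} {s : ℕ}
    {u : Fin s → K} {BB : Finset K} (h : bb bas Y N u ⊆ BB) : Has bas Y N u BB := by
  classical
  refine ⟨fun y hy l => h ?_, fun y hy => h ?_, fun y hy i => h ?_⟩
  · simp only [bb, Finset.mem_union, Finset.mem_biUnion, Finset.mem_image]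
    exact Or.inl (Or.inl ⟨y, hy, l, Finset.mem_univ _, rfl⟩)
  · simp only [bb, Finset.mem_union, Finset.mem_biUnion, Finset.mem_image]
    exact Or.inl (Or.inr ⟨y, hy, rfl⟩)
  · simp only [bb, Finset.mem_union, Finset.mem_biUnion, Finset.mem_image]
    exact Or.inr ⟨y, hy, i, Finset.mem_univ _, rfl⟩

/-- cover of the fibres, adapted to the sections `u` -/
theorem cover_u {bas : Module.Basis (Fin r) K (Ω[K⁄L])} {Y : Finset (Fin r → K)}
    (hY : IsFrames bas Y) (N : ℕ) {s : ℕ} {u : Fin s → K} (hu : ∀ i, Pluri L bas N (u i)) :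
    ∃ (A0 : Finset L) (C : ℝ) (n : ℕ), 1 ≤ C ∧ ∀ (m : ℕ) (R : RMdl L K m r) (AA : Finset L)
      (BB : Finset K), A0 ⊆ AA → Has bas Y N u BB → Units' R AA BB → ∀ (w : R.ML.Pts) (ρ : ℝ),
        1 ≤ ρ → (∀ a ∈ AA, ‖ek R.ML a w‖ ≤ ρ) → ∀ x : R.Fib w, ∃ y ∈ Y,
          x ∈ piece bas N u y R w (C * ρ ^ n) := by
  obtain ⟨A0, C, n, hC, h⟩ := hY.cover (γ := Fin s) (wt := fun _ => N) (g := u) hu
  refine ⟨A0, C * 2 ^ n, n, ?_, fun m R AA BB hA0 hB hU w ρ hρ hρa x => ?_⟩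
  · exact le_trans hC (le_mul_of_one_le_right (zero_le_one.trans hC) (one_le_pow₀ (by norm_num)))
  obtain ⟨y, hy, hl⟩ := h R.MK.B R.MK.B.val.toRingHom x.val.toRingHom 1 ρ
    (fun a b hab => Subtype.ext hab) (zero_le_one.trans hρ) (by simp)
    (fun y hy l => by
      refine ⟨?_, 0, ?_⟩
      · rcases l with l | i
        · exact ⟨y l, (hU.2 _ (hB.y_mem y hy l)).1⟩
        · exact ⟨fr bas y N (u i), (hU.2 _ (hB.fr_mem y hy i)).1⟩
      · rcases l with l | i <;> simp [tup, fr])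
    (fun y hy l => by
      refine ⟨?_, 0, ?_⟩
      · rcases l with l | i
        · exact ⟨(y l)⁻¹, (hU.2 _ (hB.y_mem y hy l)).2⟩
        · exact ⟨(fr bas y N (u i))⁻¹, (hU.2 _ (hB.fr_mem y hy i)).2⟩
      · rcases l with l | i <;> simp [tup, fr])
    (fun a ha => by
      have ha' := hU.1 a (hA0 ha)
      refine ⟨R.incl ⟨a, ha'.1⟩, 0, by simp, ?_⟩
      have h1 := hρa a (hA0 ha)
      rw [ek_of_mem R.ML ha'.1] at h1
      have h2 : (x.val) (R.incl ⟨a, ha'.1⟩) = w ⟨a, ha'.1⟩ := by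
        rw [← R.q_apply, x.q_eq]
      simpa [h2] using h1)
  have hT : C * (1 + ρ) ^ n ≤ C * 2 ^ n * ρ ^ n := by
    rw [mul_assoc, ← mul_pow]
    have : (1 + ρ) ^ n ≤ (2 * ρ) ^ n := pow_le_pow_left₀ (by linarith) (by linarith) n
    exact mul_le_mul_of_nonneg_left this (zero_le_one.trans hC)
  refine ⟨y, hy, fun l => ?_, fun i => ?_⟩
  · have hm := (hU.2 _ (hB.y_mem y hy l)).1
    have h3 := hl (Sum.inl l) ⟨y l, hm⟩ 0 (by simp [tup])
    rw [ek_of_mem R.MK hm]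
    simp only [pow_zero, mul_one] at h3
    exact h3.trans hT
  · have hm := (hU.2 _ (hB.fr_mem y hy i)).1
    have h3 := hl (Sum.inr i) ⟨fr bas y N (u i), hm⟩ 0 (by simp [tup, fr])
    rw [ek_of_mem R.MK hm]
    simp only [pow_zero, mul_one] at h3
    exact h3.trans hT

/-- **(K1) for the sections `u`** -/
theorem est_u {bas : Module.Basis (Fin r) K (Ω[K⁄L])} {Y : Finset (Fin r → K)}
    (hY : IsFrames bas Y) {N : ℕ} (hN : 0 < N) {s : ℕ} {u : Fin s → K}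
    (hu : ∀ i, Pluri L bas N (u i)) :
    ∃ A0 : Finset L, ∀ (AA : Finset L) (BB : Finset K), A0 ⊆ AA → Has bas Y N u BB →
      ∀ p : ℝ, 0 ≤ p → (∀ y ∈ Y, PE bas N u y AA BB p) →
      ∃ (C : ℝ) (n : ℕ), 1 ≤ C ∧ ∀ (m : ℕ) (R : RMdl L K m r), Compat bas R → Units' R AA BB →
        ∀ (w : R.ML.Pts) (μ : Measure (R.Fib w)), IsLeb μ → ∀ ρ : ℝ, 1 ≤ ρ →
          (∀ a ∈ AA, ‖ek R.ML a w‖ ≤ ρ) → ∀ A : Fin s → ℂ,
            ∫⁻ x, (∑ i, ‖ek R.MK (u i) x.val‖ₑ) ^ ((2 + p * N) / N) *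
              ‖∑ i, A i * ek R.MK (u i) x.val‖ₑ ^ (-p) ∂μ ≤
              ENNReal.ofReal (C * ρ ^ n) * ‖A‖ₑ ^ (-p) := by
  obtain ⟨A0, C0, n0, hC0, hcov⟩ := cover_u hY N hu
  refine ⟨A0, fun AA BB hA0 hB p hp hPE => ?_⟩
  obtain ⟨C1, n1, hC1, hsum⟩ := fib_sum bas hY.jac_ne N u hB.jac_mem hB.fr_mem hPE
  set q : ℝ := (2 + p * N) / N with hq
  have hN0 : (0 : ℝ) < N := by exact_mod_cast hN
  have hq0 : 0 < q := by positivity
  -- the constants
  set q' : ℕ := ⌈q⌉₊ with hq'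
  refine ⟨(1 + s * C0) ^ q' * (C1 * C0 ^ n1), n0 * q' + (n1 + n0 * n1), ?_, ?_⟩
  · have h1 : (1 : ℝ) ≤ (1 + s * C0) ^ q' := one_le_pow₀ (by
      have : 0 ≤ (s : ℝ) * C0 := by positivity
      linarith)
    have h2 : (1 : ℝ) ≤ C1 * C0 ^ n1 := by
      have := one_le_pow₀ hC0 (n := n1)
      nlinarith
    nlinarith
  intro m R hR hU w μ hμ ρ hρ hρa A
  set T : ℝ := C0 * ρ ^ n0 with hT
  have hρn : (1 : ℝ) ≤ ρ ^ n0 := one_le_pow₀ hρ
  have hT1 : 1 ≤ T := by nlinarith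
  have hsT : 0 ≤ (s : ℝ) * T := by positivity
  have h1 := hsum m R hR hU w μ hμ ρ hρ hρa T hT1
    (fun x => (∑ i, ‖ek R.MK (u i) x.val‖ₑ) ^ q) (ENNReal.ofReal (s * T) ^ q)
    (ENNReal.rpow_ne_top_of_nonneg hq0.le ENNReal.ofReal_ne_top)
    (fun x _ => by
      obtain ⟨y, hy, hxy⟩ := hcov m R AA BB hA0 hB hU w ρ hρ hρa x
      refine ⟨y, hy, hxy, ?_⟩
      have hJm := (hU.2 _ (hB.jac_mem y hy)).1
      set J := ek R.MK (jac L bas y) x.val with hJ
      have h2 : ∀ i, ‖ek R.MK (u i) x.val‖ₑ ≤ ENNReal.ofReal T * ‖J‖ₑ ^ N := by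
        intro i
        have h3 : u i = jac L bas y ^ N * fr bas y N (u i) := by
          rw [fr, mul_div_cancel₀ _ (pow_ne_zero N (hY.jac_ne y hy))]
        rw [h3, ek_mul R.MK (pow_mem hJm N) (hU.2 _ (hB.fr_mem y hy i)).1, ek_pow R.MK hJm,
          enorm_mul, enorm_pow, mul_comm]
        gcongr
        rw [← ofReal_norm]
        exact ENNReal.ofReal_le_ofReal (hxy.2 i)
      calc (∑ i, ‖ek R.MK (u i) x.val‖ₑ) ^ q
          ≤ (ENNReal.ofReal (s * T) * ‖J‖ₑ ^ N) ^ q := by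
            refine ENNReal.rpow_le_rpow ?_ hq0.le
            refine (Finset.sum_le_sum fun i _ => h2 i).trans ?_
            rw [Finset.sum_const, Finset.card_univ, Fintype.card_fin, nsmul_eq_mul, ← mul_assoc,
              ENNReal.ofReal_mul (p := (s : ℝ)) (q := T) (by positivity), ENNReal.ofReal_natCast]
        _ = ENNReal.ofReal (s * T) ^ q * ‖J‖ₑ ^ (2 + p * N) := by
            rw [ENNReal.mul_rpow_of_nonneg _ _ hq0.le, ← ENNReal.rpow_natCast, ← ENNReal.rpow_mul]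
            congr 2
            rw [hq]
            field_simp) A
  refine h1.trans ?_
  gcongr
  -- the constants
  have h4 : ENNReal.ofReal (s * T) ^ q ≤ ENNReal.ofReal ((1 + s * C0) ^ q' * ρ ^ (n0 * q')) := by
    rw [ENNReal.ofReal_rpow_of_nonneg hsT hq0.le]
    apply ENNReal.ofReal_le_ofReal
    have h5 : (s : ℝ) * T ≤ (1 + s * C0) * ρ ^ n0 := by
      rw [hT]
      nlinarith
    calc (s * T) ^ q ≤ ((1 + s * C0) * ρ ^ n0) ^ q := Real.rpow_le_rpow hsT h5 hq0.le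
      _ ≤ ((1 + s * C0) * ρ ^ n0) ^ (q' : ℝ) := by
          refine Real.rpow_le_rpow_of_exponent_le ?_ (Nat.le_ceil q)
          have : 0 ≤ (s : ℝ) * C0 := by positivity
          nlinarith
      _ = (1 + s * C0) ^ q' * ρ ^ (n0 * q') := by
          rw [Real.rpow_natCast, mul_pow, ← pow_mul]
  refine (mul_le_mul' h4 le_rfl).trans ?_
  rw [← ENNReal.ofReal_mul (by positivity)]
  apply ENNReal.ofReal_le_ofReal
  have h6 : (ρ * T) ^ n1 = C0 ^ n1 * ρ ^ (n1 + n0 * n1) := by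
    rw [hT, pow_add, pow_mul]
    ring
  rw [h6, pow_add]
  apply le_of_eq
  ring

/-- finitely many elements of `L` have a common denominator in the coordinate ring -/
theorem exists_den (M : Mdl L m₀) (A : Finset L) : ∃ P : M.B, P ≠ 0 ∧ ∀ a ∈ A, a * (P : L) ∈ M.B := by
  classical
  induction A using Finset.induction_on with
  | empty => exact ⟨1, one_ne_zero, by simp⟩
  | insert a A _ ih =>
    obtain ⟨P, hP, h⟩ := ih
    obtain ⟨b, c, hc, hbc⟩ := M.frac a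
    have hc' : (c : L) ≠ 0 := fun h0 => hc (Subtype.ext h0)
    refine ⟨P * c, mul_ne_zero hP hc, fun a' ha' => ?_⟩
    rcases Finset.mem_insert.1 ha' with rfl | ha'
    · have h1 : a' * ((P * c : M.B) : L) = ((b * P : M.B) : L) := by
        push_cast
        rw [hbc]
        field_simp
      rw [h1]
      exact (b * P).2
    · have h1 : a' * ((P * c : M.B) : L) = a' * (P : L) * (c : L) := by
        push_cast; ring
      rw [h1]
      exact mul_mem (h a' ha') c.2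

/-- **(K1) for a form `v` of weight `N1`** -/
theorem est_v {bas : Module.Basis (Fin r) K (Ω[K⁄L])} {Y : Finset (Fin r → K)}
    (hY : IsFrames bas Y) {N : ℕ} {s : ℕ} {u : Fin s → K}
    (hu : ∀ i, Pluri L bas N (u i)) {AA : Finset L} {BB : Finset K} (hB : Has bas Y N u BB)
    {p : ℝ} (hPE : ∀ y ∈ Y, PE bas N u y AA BB p) (R : RMdl L K m₀ r)
    (hR : Compat bas R) (hU : Units' R AA BB) (v : R.MK.B) {N1 : ℕ} {t : ℝ} (ht : 0 < t)
    (hNt : N1 * t = 2 + p * N) (hv : Pluri L bas N1 (v : K)) :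
    ∃ (P : R.ML.B) (A' : Finset R.ML.B) (C : ℝ) (n : ℕ), P ≠ 0 ∧ 1 ≤ C ∧
      ∀ w : R.ML.Pts, w P ≠ 0 → ∀ μ : Measure (R.Fib w), IsLeb μ → ∀ ρ : ℝ, 1 ≤ ρ →
        (∀ a ∈ AA, ‖ek R.ML a w‖ ≤ ρ) → (∀ a ∈ A', ‖w a‖ ≤ ρ) → ∀ A : Fin s → ℂ,
          ∫⁻ x, ‖(x.val) v‖ₑ ^ t * ‖∑ i, A i * ek R.MK (u i) x.val‖ₑ ^ (-p) ∂μ ≤
            ENNReal.ofReal (C * (ρ * (1 + ‖w P‖⁻¹)) ^ n) * ‖A‖ₑ ^ (-p) := by
  classical
  obtain ⟨A0, C0, n0, hC0, hcov⟩ := hY.cover (γ := Fin s ⊕ Unit)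
    (wt := Sum.elim (fun _ => N) (fun _ => N1)) (g := Sum.elim u (fun _ => (v : K)))
    (by rintro (i | i); exacts [hu i, hv])
  obtain ⟨C1, n1, hC1, hsum⟩ := fib_sum bas hY.jac_ne N u hB.jac_mem hB.fr_mem hPE
  obtain ⟨P, hP, hPA⟩ := exists_den R.ML A0
  let A' : Finset R.ML.B := A0.attach.image fun a => ⟨a.1 * (P : L), hPA a.1 a.2⟩
  set t' : ℕ := ⌈t⌉₊ with ht'
  refine ⟨P, A', C0 ^ t' * (C1 * C0 ^ n1), n0 * t' + (n1 + n0 * n1), hP, ?_, ?_⟩
  · have h1 : (1 : ℝ) ≤ C0 ^ t' := one_le_pow₀ hC0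
    have h2 : (1 : ℝ) ≤ C1 * C0 ^ n1 := by
      have := one_le_pow₀ hC0 (n := n1)
      nlinarith
    nlinarith
  intro w hw μ hμ ρ hρ hρa hρa' A
  have hwP : 0 < ‖w P‖ := norm_pos_iff.2 hw
  set σ : ℝ := ρ * (1 + ‖w P‖⁻¹) with hσ
  have hσ1 : 1 ≤ σ := by
    have : 0 ≤ ‖w P‖⁻¹ := by positivity
    nlinarith
  have hρσ : ρ ≤ σ := by
    have : 0 ≤ ‖w P‖⁻¹ := by positivity
    nlinarith
  set T : ℝ := C0 * σ ^ n0 with hT
  have hρn : (1 : ℝ) ≤ σ ^ n0 := one_le_pow₀ hσ1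
  have hT1 : 1 ≤ T := by nlinarith
  -- the cover
  have hc : ∀ x : R.Fib w, (x.val) v ≠ 0 → ∃ y ∈ Y, x ∈ piece bas N u y R w T ∧
      ‖(x.val) v‖ ≤ T * ‖ek R.MK (jac L bas y) x.val‖ ^ N1 := by
    intro x hx
    have hv0 : v ≠ 0 := fun h => hx (by rw [h, map_zero])
    have hv0' : (v : K) ≠ 0 := fun h => hv0 (Subtype.ext h)
    have hxP : (x.val) (R.incl P) = w P := by rw [← R.q_apply, x.q_eq]
    set q : R.MK.B := v * R.incl P with hq
    have hφq : (x.val) q ≠ 0 := by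
      rw [hq, map_mul, hxP]
      exact mul_ne_zero hx hw
    have hPK : (R.incl P : K) ≠ 0 := by
      rw [R.incl_coe]
      intro h
      exact hP (Subtype.ext ((algebraMap L K).injective (by rw [h, ZeroMemClass.coe_zero, map_zero])))
    obtain ⟨y, hy, hl⟩ := hcov R.MK.B R.MK.B.val.toRingHom x.val.toRingHom q (ρ * ‖w P‖⁻¹)
      (fun a b hab => Subtype.ext hab) (by positivity) hφq
      (fun y hy l => by
        refine ⟨?_, 0, ?_⟩
        · rcases l with l | i | i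
          · exact ⟨y l, (hU.2 _ (hB.y_mem y hy l)).1⟩
          · exact ⟨fr bas y N (u i), (hU.2 _ (hB.fr_mem y hy i)).1⟩
          · exact v * ⟨(jac L bas y)⁻¹, (hU.2 _ (hB.jac_mem y hy)).2⟩ ^ N1
        · rcases l with l | i | i
          · simp [tup]
          · simp [tup, fr]
          · simp [tup, div_eq_mul_inv])
      (fun y hy l => by
        rcases l with l | i | i
        · exact ⟨⟨(y l)⁻¹, (hU.2 _ (hB.y_mem y hy l)).2⟩, 0, by simp [tup]⟩
        · exact ⟨⟨(fr bas y N (u i))⁻¹, (hU.2 _ (hB.fr_mem y hy i)).2⟩, 0, by simp [tup, fr]⟩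
        · refine ⟨⟨jac L bas y, (hU.2 _ (hB.jac_mem y hy)).1⟩ ^ N1 * R.incl P, 1, ?_⟩
          have hJ0 := hY.jac_ne y hy
          change jac L bas y ^ N1 * (R.incl P : K) =
            ((v : K) / jac L bas y ^ N1)⁻¹ * ((v : K) * (R.incl P : K)) ^ 1
          field_simp)
      (fun a ha => by
        refine ⟨R.incl ⟨a * (P : L), hPA a ha⟩ * v, 1, ?_, ?_⟩
        · change algebraMap L K (a * (P : L)) * (v : K) =
            algebraMap L K a * ((v : K) * algebraMap L K (P : L)) ^ 1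
          rw [map_mul]; ring
        · have h1 : ‖w ⟨a * (P : L), hPA a ha⟩‖ ≤ ρ := by
            apply hρa'
            exact Finset.mem_image.2 ⟨⟨a, ha⟩, Finset.mem_attach _ _, rfl⟩
          have h2 : (x.val) (R.incl ⟨a * (P : L), hPA a ha⟩) = w ⟨a * (P : L), hPA a ha⟩ := by
            rw [← R.q_apply, x.q_eq]
          change ‖(x.val) (R.incl ⟨a * (P : L), hPA a ha⟩ * v)‖ ≤
            ρ * ‖w P‖⁻¹ * ‖(x.val) q‖ ^ 1
          rw [map_mul, norm_mul, h2, hq, map_mul, norm_mul, hxP, pow_one]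
          have h3 : ρ * ‖w P‖⁻¹ * (‖(x.val) v‖ * ‖w P‖) = ρ * ‖(x.val) v‖ := by
            field_simp
          rw [h3]
          exact mul_le_mul_of_nonneg_right h1 (norm_nonneg _))
    have hT' : C0 * (1 + ρ * ‖w P‖⁻¹) ^ n0 ≤ T := by
      refine mul_le_mul_of_nonneg_left (pow_le_pow_left₀ (by positivity) ?_ n0)
        (zero_le_one.trans hC0)
      rw [hσ]
      nlinarith
    refine ⟨y, hy, ⟨fun l => ?_, fun i => ?_⟩, ?_⟩
    · have hm := (hU.2 _ (hB.y_mem y hy l)).1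
      have h3 := hl (Sum.inl l) ⟨y l, hm⟩ 0 (by simp [tup])
      rw [ek_of_mem R.MK hm]
      simp only [pow_zero, mul_one] at h3
      exact h3.trans hT'
    · have hm := (hU.2 _ (hB.fr_mem y hy i)).1
      have h3 := hl (Sum.inr (Sum.inl i)) ⟨fr bas y N (u i), hm⟩ 0 (by simp [tup, fr])
      rw [ek_of_mem R.MK hm]
      simp only [pow_zero, mul_one] at h3
      exact h3.trans hT'
    · have hm := (hU.2 _ (hB.jac_mem y hy))
      set v' : R.MK.B := v * ⟨(jac L bas y)⁻¹, hm.2⟩ ^ N1 with hv'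
      have h3 := hl (Sum.inr (Sum.inr ())) v' 0 (by
        rw [hv']; simp [tup, div_eq_mul_inv])
      simp only [pow_zero, mul_one] at h3
      have h4 : v = v' * ⟨jac L bas y, hm.1⟩ ^ N1 := by
        apply Subtype.ext
        rw [hv']
        change (v : K) = (v : K) * (jac L bas y)⁻¹ ^ N1 * jac L bas y ^ N1
        rw [mul_assoc, ← mul_pow, inv_mul_cancel₀ (hY.jac_ne y hy), one_pow, mul_one]
      have h5 : (x.val) v = (x.val) v' * ek R.MK (jac L bas y) x.val ^ N1 := by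
        conv_lhs => rw [h4]
        rw [map_mul, map_pow, ek_of_mem R.MK hm.1]
      rw [h5, norm_mul, norm_pow]
      exact mul_le_mul_of_nonneg_right (h3.trans hT') (by positivity)
  have h1 := hsum _ R hR hU w μ hμ σ hσ1 (fun a ha => (hρa a ha).trans hρσ) T hT1
    (fun x => ‖(x.val) v‖ₑ ^ t) (ENNReal.ofReal T ^ t)
    (ENNReal.rpow_ne_top_of_nonneg ht.le ENNReal.ofReal_ne_top)
    (fun x hx => by
      have hx0 : (x.val) v ≠ 0 := by
        intro h0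
        apply hx
        change ‖(x.val) v‖ₑ ^ t = 0
        rw [h0, enorm_zero, ENNReal.zero_rpow_of_pos ht]
      obtain ⟨y, hy, hxy, hle⟩ := hc x hx0
      refine ⟨y, hy, hxy, ?_⟩
      set J := ek R.MK (jac L bas y) x.val with hJ
      calc ‖(x.val) v‖ₑ ^ t ≤ (ENNReal.ofReal T * ‖J‖ₑ ^ N1) ^ t := by
            refine ENNReal.rpow_le_rpow ?_ ht.le
            rw [← ofReal_norm, ← ofReal_norm, ← ENNReal.ofReal_pow (norm_nonneg _),
              ← ENNReal.ofReal_mul (zero_le_one.trans hT1)]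
            exact ENNReal.ofReal_le_ofReal hle
        _ = ENNReal.ofReal T ^ t * ‖J‖ₑ ^ (2 + p * N) := by
            rw [ENNReal.mul_rpow_of_nonneg _ _ ht.le, ← ENNReal.rpow_natCast, ← ENNReal.rpow_mul,
              hNt]) A
  refine h1.trans ?_
  gcongr
  have h4 : ENNReal.ofReal T ^ t ≤ ENNReal.ofReal (C0 ^ t' * σ ^ (n0 * t')) := by
    rw [ENNReal.ofReal_rpow_of_nonneg (zero_le_one.trans hT1) ht.le]
    apply ENNReal.ofReal_le_ofReal
    calc T ^ t ≤ T ^ (t' : ℝ) := Real.rpow_le_rpow_of_exponent_le hT1 (Nat.le_ceil t)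
      _ = C0 ^ t' * σ ^ (n0 * t') := by
          rw [Real.rpow_natCast, hT, mul_pow, ← pow_mul]
  refine (mul_le_mul' h4 le_rfl).trans ?_
  rw [← ENNReal.ofReal_mul (by positivity)]
  apply ENNReal.ofReal_le_ofReal
  have h6 : (σ * T) ^ n1 = C0 ^ n1 * σ ^ (n1 + n0 * n1) := by
    rw [hT, pow_add, pow_mul]
    ring_nf
  rw [h6, pow_add]
  apply le_of_eq
  ring

end Crest.Agent.R276.SkoN_845
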