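import Mathlib
import Crest.Agent.R276.SkoN_845
import Crest.Agent.R276.FlatTop_793
import Crest.Agent.R276.SatC2_886
import Crest.Agent.R276.RelC_870
import Crest.Agent.R276.SatI_152
import Crest.Agent.R276.Pur0_429
import Crest.Agent.R276.FKDefs_779
import Crest.Agent.R276.SkelDefs_220
import Crest.Agent.R276.Deg2_594
import Crest.Agent.R276.BcqI_828
import Crest.Agent.R276.CInd_870

-- ▼ part R276/SkoP_845
section

/-!
# SKO (row 276), part P (helper845): local boundedness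

`LB R u p g` : for every `w0` there is a constant `C < ∞` with `∫_{M_w} g |∑ A_i u_i|^(-p) ≤ C ‖A‖^(-p)` for all `w` near
`w0` and all `A`.
-/

set_option autoImplicit false
set_option linter.unusedSectionVars false

open Topology Filter MeasureTheory
open scoped ENNReal

noncomputable section

namespace Crest.Agent.R276.SkoP_845

open Crest.Agent.R271.Defs710 Crest.Agent.R271.Ho51
open Crest.Agent.R276.Mod1_987 Crest.Agent.R276.FKDefs_779 Crest.Agent.R276.SkoT_845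
open Crest.Agent.R276.SkoM_845 Crest.Agent.R276.SkoN_845

variable {L K : Type} [Field L] [Field K] [Algebra ℂ L] [Algebra ℂ K] [Algebra L K]
  [IsScalarTower ℂ L K] {r m : ℕ}

/-- local boundedness of the twisted fibre integrals of `g` -/
def LB (R : RMdl L K m r) {s : ℕ} (u : Fin s → R.MK.B) (p : ℝ) (g : R.MK.Pts → ℝ≥0∞) : Prop :=
  ∀ w0 : R.ML.Pts, ∃ C : ℝ≥0∞, C ≠ ⊤ ∧ ∀ᶠ w in 𝓝 w0, ∀ μ : Measure (R.Fib w), IsLeb μ →
    ∀ A : Fin s → ℂ, ∫⁻ x, g x.val * ‖∑ i, A i * (x.val) (u i)‖ₑ ^ (-p) ∂μ ≤ C * ‖A‖ₑ ^ (-p)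

lemma LB.mono {R : RMdl L K m r} {s : ℕ} {u : Fin s → R.MK.B} {p : ℝ} {g g' : R.MK.Pts → ℝ≥0∞}
    (h : LB R u p g) {c : ℝ≥0∞} (hc : c ≠ ⊤) (hg : ∀ y, g' y ≤ c * g y) : LB R u p g' := by
  intro w0
  obtain ⟨C, hC, h1⟩ := h w0
  refine ⟨c * C, ENNReal.mul_ne_top hc hC, ?_⟩
  filter_upwards [h1] with w hw μ hμ A
  calc ∫⁻ x, g' x.val * ‖∑ i, A i * (x.val) (u i)‖ₑ ^ (-p) ∂μ
      ≤ ∫⁻ x, c * (g x.val * ‖∑ i, A i * (x.val) (u i)‖ₑ ^ (-p)) ∂μ := by
        refine lintegral_mono fun x => ?_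
        rw [← mul_assoc]
        exact mul_le_mul_left (hg x.val) _
    _ = c * ∫⁻ x, g x.val * ‖∑ i, A i * (x.val) (u i)‖ₑ ^ (-p) ∂μ :=
        lintegral_const_mul' _ _ hc
    _ ≤ c * (C * ‖A‖ₑ ^ (-p)) := mul_le_mul_right (hw μ hμ A) _
    _ = c * C * ‖A‖ₑ ^ (-p) := by rw [mul_assoc]

/-- a bound for finitely many functions near a point -/
lemma exists_rho (R : RMdl L K m r) (AA : Finset L) (A' : Finset R.ML.B) (w0 : R.ML.Pts) :
    ∃ ρ : ℝ, 1 ≤ ρ ∧ ∀ᶠ w in 𝓝 w0, (∀ a ∈ AA, ‖ek R.ML a w‖ ≤ ρ) ∧ ∀ a ∈ A', ‖w a‖ ≤ ρ := by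
  refine ⟨1 + ∑ a ∈ AA, (‖ek R.ML a w0‖ + 1) + ∑ a ∈ A', (‖w0 a‖ + 1), ?_, ?_⟩
  · have h1 : 0 ≤ ∑ a ∈ AA, (‖ek R.ML a w0‖ + 1) := Finset.sum_nonneg fun _ _ => by positivity
    have h2 : 0 ≤ ∑ a ∈ A', (‖w0 a‖ + 1) := Finset.sum_nonneg fun _ _ => by positivity
    linarith
  · have h1 : ∀ᶠ w in 𝓝 w0, ∀ a ∈ AA, ‖ek R.ML a w‖ < ‖ek R.ML a w0‖ + 1 := by
      rw [Filter.eventually_all_finset]
      intro a _
      exact ((continuous_ek R.ML a).norm.tendsto w0).eventually_lt_const (by linarith)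
    have h2 : ∀ᶠ w in 𝓝 w0, ∀ a ∈ A', ‖w a‖ < ‖w0 a‖ + 1 := by
      rw [Filter.eventually_all_finset]
      intro a _
      have h3 : Continuous fun w : R.ML.Pts => w a := by
        have := continuous_ek R.ML (a : L)
        simpa using this
      exact (h3.norm.tendsto w0).eventually_lt_const (by linarith)
    filter_upwards [h1, h2] with w hw1 hw2
    have h3 : 0 ≤ ∑ a ∈ AA, (‖ek R.ML a w0‖ + 1) := Finset.sum_nonneg fun _ _ => by positivity
    have h4 : 0 ≤ ∑ a ∈ A', (‖w0 a‖ + 1) := Finset.sum_nonneg fun _ _ => by positivity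
    constructor
    · intro a ha
      have h5 := Finset.single_le_sum (f := fun a => ‖ek R.ML a w0‖ + 1)
        (fun _ _ => by positivity) ha
      have h6 := hw1 a ha
      linarith
    · intro a ha
      have h5 := Finset.single_le_sum (f := fun a : R.ML.B => ‖w0 a‖ + 1)
        (fun _ _ => by positivity) ha
      have h6 := hw2 a ha
      linarith

/-- local boundedness for the sections `u` -/
theorem lb_u {bas : Module.Basis (Fin r) K (Ω[K⁄L])} {Y : Finset (Fin r → K)}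
    (hY : IsFrames bas Y) {N : ℕ} (hN : 0 < N) {s : ℕ} {u : Fin s → K}
    (hu : ∀ i, Pluri L bas N (u i)) :
    ∃ A0 : Finset L, ∀ (AA : Finset L) (BB : Finset K), A0 ⊆ AA → Has bas Y N u BB →
      ∀ p : ℝ, 0 ≤ p → (∀ y ∈ Y, PE bas N u y AA BB p) →
      ∀ (m : ℕ) (R : RMdl L K m r), Compat bas R → Units' R AA BB →
        ∀ u' : Fin s → R.MK.B, (∀ i, (u' i : K) = u i) →
          LB R u' p (fun y => (∑ i, ‖y (u' i)‖ₑ) ^ ((2 + p * N) / N)) := by
  obtain ⟨A0, h⟩ := est_u hY hN hu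
  refine ⟨A0, fun AA BB hA0 hB p hp hPE m R hR hU u' hu' w0 => ?_⟩
  obtain ⟨C, n, hC, h1⟩ := h AA BB hA0 hB p hp hPE
  obtain ⟨ρ, hρ, hev⟩ := exists_rho R AA ∅ w0
  refine ⟨ENNReal.ofReal (C * ρ ^ n), ENNReal.ofReal_ne_top, ?_⟩
  filter_upwards [hev] with w hw μ hμ A
  have h2 := h1 m R hR hU w μ hμ ρ hρ hw.1 A
  simpa only [← hu', ek_coe] using h2

/-- local boundedness for a form `v` of weight `N1`, multiplied by a power of a function on the base -/
theorem lb_v {bas : Module.Basis (Fin r) K (Ω[K⁄L])} {Y : Finset (Fin r → K)}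
    (hY : IsFrames bas Y) {N : ℕ} {s : ℕ} {u : Fin s → K}
    (hu : ∀ i, Pluri L bas N (u i)) {AA : Finset L} {BB : Finset K} (hB : Has bas Y N u BB)
    {p : ℝ} (hPE : ∀ y ∈ Y, PE bas N u y AA BB p) (R : RMdl L K m r)
    (hR : Compat bas R) (hU : Units' R AA BB) {u' : Fin s → R.MK.B} (hu' : ∀ i, (u' i : K) = u i)
    (v : R.MK.B) {N1 : ℕ} {t : ℝ} (ht : 0 < t)
    (hNt : N1 * t = 2 + p * N) (hv : Pluri L bas N1 (v : K)) :
    ∃ (P : R.ML.B) (a0 : ℕ), P ≠ 0 ∧ ∀ (P' : R.ML.B), P ∣ P' → ∀ a : ℕ, a0 ≤ a →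
      LB R u' p (fun y => ‖y (R.incl P' ^ a * v)‖ₑ ^ t) := by
  obtain ⟨P, A', C, n, hP, hC, h⟩ := est_v hY hu hB hPE R hR hU v ht hNt hv
  refine ⟨P, max 1 ⌈n / t⌉₊, hP, ?_⟩
  rintro P' ⟨Q, rfl⟩ a ha w0
  have ha1 : 1 ≤ a := (le_max_left _ _).trans ha
  have han : (n : ℝ) ≤ a * t := by
    have h1 : (n / t : ℝ) ≤ a := (Nat.le_ceil _).trans (by exact_mod_cast (le_max_right _ _).trans ha)
    rwa [div_le_iff₀ ht] at h1
  classical
  obtain ⟨ρ, hρ, hev⟩ := exists_rho R AA (insert P (insert Q A')) w0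
  set c : ℝ≥0∞ := ENNReal.ofReal (ρ ^ (a * t) * (C * (ρ * (ρ + 1)) ^ n * ρ ^ (a * t - n))) with hc
  refine ⟨c, ENNReal.ofReal_ne_top, ?_⟩
  filter_upwards [hev] with w hw μ hμ A
  have hxP : ∀ x : R.Fib w, ∀ b : R.ML.B, (x.val) (R.incl b) = w b := fun x b => by
    rw [← R.q_apply, x.q_eq]
  have hx : ∀ x : R.Fib w, ‖(x.val) (R.incl (P * Q) ^ a * v)‖ₑ ^ t =
      (‖w (P * Q)‖ₑ ^ a) ^ t * ‖(x.val) v‖ₑ ^ t := by
    intro x
    rw [map_mul, map_pow, hxP, enorm_mul, enorm_pow, ENNReal.mul_rpow_of_nonneg _ _ ht.le]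
  simp only [hx]
  by_cases hwP : w P = 0
  · have h0 : (‖w (P * Q)‖ₑ ^ a) ^ t = 0 := by
      rw [map_mul, hwP, zero_mul, enorm_zero, zero_pow (by omega), ENNReal.zero_rpow_of_pos ht]
    simp only [h0, zero_mul, lintegral_zero]
    exact zero_le
  · have h1 := h w hwP μ hμ ρ hρ hw.1
      (fun a' ha' => hw.2 a' (Finset.mem_insert_of_mem (Finset.mem_insert_of_mem ha'))) A
    have hPρ : ‖w P‖ ≤ ρ := hw.2 P (Finset.mem_insert_self _ _)
    have hQρ : ‖w Q‖ ≤ ρ := hw.2 Q (Finset.mem_insert_of_mem (Finset.mem_insert_self _ _))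
    have hP0 : 0 < ‖w P‖ := norm_pos_iff.2 hwP
    have hcst : (‖w (P * Q)‖ₑ ^ a) ^ t ≠ ⊤ :=
      ENNReal.rpow_ne_top_of_nonneg ht.le (ENNReal.pow_ne_top enorm_ne_top)
    simp only [mul_assoc]
    rw [lintegral_const_mul' _ _ hcst]
    simp only [← hu', ek_coe] at h1
    refine (mul_le_mul_right h1 _).trans ?_
    rw [← mul_assoc]
    gcongr
    have h2 : (‖w (P * Q)‖ₑ ^ a) ^ t = ENNReal.ofReal (‖w P‖ ^ (a * t) * ‖w Q‖ ^ (a * t)) := by
      rw [← ofReal_norm, ← ENNReal.ofReal_pow (norm_nonneg _),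
        ENNReal.ofReal_rpow_of_nonneg (by positivity) ht.le, map_mul, norm_mul, mul_pow,
        Real.mul_rpow (by positivity) (by positivity), ← Real.rpow_natCast, ← Real.rpow_natCast,
        ← Real.rpow_mul (norm_nonneg _), ← Real.rpow_mul (norm_nonneg _)]
    rw [h2, ← ENNReal.ofReal_mul (by positivity), hc]
    apply ENNReal.ofReal_le_ofReal
    have h3 : ‖w P‖ ^ (a * t) = ‖w P‖ ^ n * ‖w P‖ ^ (a * t - n) := by
      rw [← Real.rpow_natCast, ← Real.rpow_add hP0]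
      congr 1; ring
    have h4 : ‖w P‖ ^ (a * t - n) ≤ ρ ^ (a * t - n) :=
      Real.rpow_le_rpow hP0.le hPρ (by linarith)
    have h5 : ‖w Q‖ ^ (a * t) ≤ ρ ^ (a * t) :=
      Real.rpow_le_rpow (norm_nonneg _) hQρ (by positivity)
    have h6 : ‖w P‖ ^ n * (ρ * (1 + ‖w P‖⁻¹)) ^ n ≤ (ρ * (ρ + 1)) ^ n := by
      rw [← mul_pow]
      refine pow_le_pow_left₀ (by positivity) ?_ n
      have : ‖w P‖ * (ρ * (1 + ‖w P‖⁻¹)) = ρ * (‖w P‖ + 1) := by field_simp
      rw [this]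
      nlinarith
    calc ‖w P‖ ^ (a * t) * ‖w Q‖ ^ (a * t) * (C * (ρ * (1 + ‖w P‖⁻¹)) ^ n)
        = ‖w Q‖ ^ (a * t) * (C * (‖w P‖ ^ n * (ρ * (1 + ‖w P‖⁻¹)) ^ n) *
          ‖w P‖ ^ (a * t - n)) := by rw [h3]; ring
      _ ≤ ρ ^ (a * t) * (C * (ρ * (ρ + 1)) ^ n * ρ ^ (a * t - n)) := by
          gcongr

end Crest.Agent.R276.SkoP_845
end
end

-- ▼ part R276/SkoE_317
section

/-!
# SKO-UNI (row 276), part E: determinants of fibre products (helper317)

`det_int` (**DET**): if `∫ m_j ‖∑ A_i u_i‖^{-q} dμ ≤ C_j ‖A‖^{-q}` for all `A ∈ ℂˢ`, then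
`∫_{X^s} ∏ m_j(x_j) ‖det (u_i(x_j))‖^{-q} dμ^s ≤ ∏ C_j` (expansion along one column, induction on `s`).
-/

set_option autoImplicit false

noncomputable section

open MeasureTheory ENNReal

namespace Crest.Agent.R276.SkoE_317

theorem enorm_apply_le {s : ℕ} (A : Fin s → ℂ) (i : Fin s) : ‖A i‖ₑ ≤ ‖A‖ₑ := by
  rw [← ofReal_norm, ← ofReal_norm]
  exact ENNReal.ofReal_le_ofReal (norm_le_pi_norm A i)

theorem rpow_neg_anti {a b : ℝ≥0∞} (h : a ≤ b) {q : ℝ} (hq : 0 ≤ q) : b ^ (-q) ≤ a ^ (-q) := by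
  rw [ENNReal.rpow_neg, ENNReal.rpow_neg]
  exact ENNReal.inv_le_inv.mpr (ENNReal.rpow_le_rpow h hq)

/-- the matrix of values -/
def mat {X : Type*} {s : ℕ} (u : Fin s → X → ℂ) (x : Fin s → X) : Matrix (Fin s) (Fin s) ℂ :=
  Matrix.of fun i j => u i (x j)

theorem measurable_det {X : Type*} [MeasurableSpace X] {s : ℕ} (u : Fin s → X → ℂ)
    (hu : ∀ i, Measurable (u i)) : Measurable fun x : Fin s → X => (mat u x).det := by
  simp only [Matrix.det_apply]
  refine Finset.measurable_sum _ fun σ _ => ?_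
  refine Measurable.const_smul ?_ _
  refine Finset.measurable_prod _ fun i _ => ?_
  exact (hu _).comp (measurable_pi_apply _)

/-- **(DET)** -/
theorem det_int {X : Type*} [MeasurableSpace X] (μ : Measure X) [SigmaFinite μ] (q : ℝ)
    (hq : 0 ≤ q) : ∀ (s : ℕ) (u : Fin s → X → ℂ) (_ : ∀ i, Measurable (u i))
      (m : Fin s → X → ℝ≥0∞) (_ : ∀ j, Measurable (m j)) (C : Fin s → ℝ≥0∞)
      (_ : ∀ j, ∀ A : Fin s → ℂ, ∫⁻ x, m j x * ‖∑ i, A i * u i x‖ₑ ^ (-q) ∂μ ≤
        C j * ‖A‖ₑ ^ (-q)),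
      ∫⁻ x : Fin s → X, (∏ j, m j (x j)) * ‖(mat u x).det‖ₑ ^ (-q)
        ∂(Measure.pi fun _ => μ) ≤ ∏ j, C j := by
  intro s
  induction s with
  | zero =>
    intro u hu m hm C h
    simp [mat]
  | succ s ih =>
    intro u hu m hm C h
    have hmp := measurePreserving_piFinSuccAbove (fun _ : Fin (s + 1) => μ) 0
    have hins : ∀ z : X × (Fin s → X), (MeasurableEquiv.piFinSuccAbove
        (fun _ : Fin (s + 1) => X) 0).symm z = (Fin.cons z.1 z.2 : Fin (s + 1) → X) := by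
      intro z
      funext i
      refine Fin.cases ?_ (fun i => ?_) i
      · rfl
      · rfl
    set G : (Fin (s + 1) → X) → ℝ≥0∞ := fun x => (∏ j, m j (x j)) * ‖(mat u x).det‖ₑ ^ (-q)
      with hG
    have hGm : Measurable G :=
      (Finset.measurable_prod _ fun j _ => (hm j).comp (measurable_pi_apply _)).mul
        ((measurable_det u hu).enorm.pow_const _)
    have h1 : ∫⁻ x, G x ∂(Measure.pi fun _ => μ) =
        ∫⁻ z : X × (Fin s → X), G (Fin.cons z.1 z.2) ∂(μ.prod (Measure.pi fun _ => μ)) := by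
      have h2 := hmp.symm.lintegral_comp hGm
      rw [← h2]
      exact lintegral_congr fun z => congrArg G (hins z)
    have hcm : Measurable fun z : X × (Fin s → X) =>
        (Fin.cons z.1 z.2 : Fin (s + 1) → X) := by
      have h3 : (fun z : X × (Fin s → X) => (Fin.cons z.1 z.2 : Fin (s + 1) → X)) =
          fun z => (MeasurableEquiv.piFinSuccAbove (fun _ => X) 0).symm z := by
        funext z
        exact (hins z).symm
      rw [h3]
      exact (MeasurableEquiv.piFinSuccAbove (fun _ => X) 0).symm.measurable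
    have h13 := lintegral_prod_symm (μ := μ) (ν := Measure.pi fun _ : Fin s => μ)
      (fun z : X × (Fin s → X) => G (Fin.cons z.1 z.2)) (hGm.comp hcm).aemeasurable
    rw [h1, h13]
    -- the inner integral
    have h4 : ∀ x' : Fin s → X, ∫⁻ x0, G (Fin.cons x0 x') ∂μ ≤
        C 0 * ((∏ j : Fin s, m j.succ (x' j)) *
          ‖(mat (fun i : Fin s => u i.succ) x').det‖ₑ ^ (-q)) := by
      intro x'
      set A : Fin (s + 1) → ℂ := fun i =>
        (-1) ^ (i : ℕ) * (Matrix.of fun (k : Fin s) (l : Fin s) => u (i.succAbove k) (x' l)).det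
        with hA
      have h5 : ∀ x0, (mat u (Fin.cons x0 x' : Fin (s + 1) → X)).det = ∑ i, A i * u i x0 := by
        intro x0
        rw [Matrix.det_succ_column_zero]
        refine Finset.sum_congr rfl fun i _ => ?_
        rw [hA]
        have h6 : (mat u (Fin.cons x0 x' : Fin (s + 1) → X)).submatrix i.succAbove Fin.succ =
            Matrix.of fun (k : Fin s) (l : Fin s) => u (i.succAbove k) (x' l) := by
          ext k l
          simp [mat]
        rw [h6]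
        simp only [mat, Matrix.of_apply, Fin.cons_zero]
        ring
      have h7 : ∀ x0, G (Fin.cons x0 x') = (∏ j : Fin s, m j.succ (x' j)) *
          (m 0 x0 * ‖∑ i, A i * u i x0‖ₑ ^ (-q)) := by
        intro x0
        rw [hG]
        simp only [h5 x0, Fin.prod_univ_succ, Fin.cons_zero, Fin.cons_succ]
        ring
      simp only [h7]
      have hm7 : Measurable fun x0 => m 0 x0 * ‖∑ i, A i * u i x0‖ₑ ^ (-q) :=
        (hm 0).mul ((Finset.measurable_sum _ fun i _ =>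
          (measurable_const.mul (hu i))).enorm.pow_const _)
      rw [lintegral_const_mul _ hm7]
      have h8 : ‖A‖ₑ ^ (-q) ≤ ‖(mat (fun i : Fin s => u i.succ) x').det‖ₑ ^ (-q) := by
        refine rpow_neg_anti ?_ hq
        have h9 : A 0 = (mat (fun i : Fin s => u i.succ) x').det := by
          rw [hA]
          simp [mat]
        rw [← h9]
        exact enorm_apply_le A 0
      calc (∏ j : Fin s, m j.succ (x' j)) * ∫⁻ x0, m 0 x0 * ‖∑ i, A i * u i x0‖ₑ ^ (-q) ∂μ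
          ≤ (∏ j : Fin s, m j.succ (x' j)) * (C 0 *
              ‖(mat (fun i : Fin s => u i.succ) x').det‖ₑ ^ (-q)) :=
            mul_le_mul' le_rfl ((h 0 A).trans (mul_le_mul' le_rfl h8))
        _ = _ := by ring
    refine (lintegral_mono h4).trans ?_
    have hm8 : Measurable fun x' : Fin s → X => (∏ j : Fin s, m j.succ (x' j)) *
        ‖(mat (fun i : Fin s => u i.succ) x').det‖ₑ ^ (-q) :=
      (Finset.measurable_prod _ fun j _ => (hm _).comp (measurable_pi_apply _)).mul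
        ((measurable_det _ fun i => hu _).enorm.pow_const _)
    rw [lintegral_const_mul _ hm8, Fin.prod_univ_succ]
    refine mul_le_mul' le_rfl (ih (fun i => u i.succ) (fun i => hu _) (fun j => m j.succ)
      (fun j => hm _) (fun j => C j.succ) ?_)
    intro j A
    have h10 := h j.succ (Fin.cons 0 A)
    have h11 : ‖(Fin.cons 0 A : Fin (s + 1) → ℂ)‖ₑ = ‖A‖ₑ := by
      rw [← ofReal_norm, ← ofReal_norm]
      congr 1
      apply le_antisymm
      · rw [pi_norm_le_iff_of_nonneg (norm_nonneg _)]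
        intro i
        refine Fin.cases ?_ (fun i => ?_) i
        · simp
        · rw [Fin.cons_succ]
          exact norm_le_pi_norm A i
      · rw [pi_norm_le_iff_of_nonneg (norm_nonneg _)]
        intro i
        have := norm_le_pi_norm (Fin.cons 0 A : Fin (s + 1) → ℂ) i.succ
        rwa [Fin.cons_succ] at this
    rw [h11] at h10
    simpa only [Fin.sum_univ_succ, Fin.cons_zero, Fin.cons_succ, zero_mul, zero_add] using h10

end Crest.Agent.R276.SkoE_317
end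
end

-- ▼ part R276/Hsko_793
section

/-!
# Row 276 (S0419), helper793: the input `hSKO` of `flat_top` from local boundedness

* `eval_le` : `|P(v)| ≤ C (∑ |v_i|)^k` for `P` homogeneous of degree `k`;
* `int_det_le` : `∫_{M_z^s} ∏ m_j(y_j) |δ|^{-p} ≤ ∏ C_j` (317's `det_int` on the fibres);
* `hsko_of_lb` : `Ieps ≠ ∞` at every point `z`;
* `flat_top'` : `SkelDefs_220.Flat` from `LB` (845).
-/

set_option autoImplicit false
set_option linter.unusedSectionVars false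

open Topology Filter MeasureTheory Matrix
open scoped ENNReal

noncomputable section

namespace Crest.Agent.R276.Hsko_793

open Crest.Agent.R271 Crest.Agent.R271.Ho51
open Crest.Agent.R271.Rd692 hiding evs
open Crest.Agent.R271.Defs710 hiding glue
open Crest.Agent.R276.Mod1_987 Crest.Agent.R276.FlatDefs_236
open Crest.Agent.R276.SkelDefs_220 Crest.Agent.R276.CInd_870
open Crest.Agent.R276.SkoP_845

/-- a homogeneous polynomial is bounded by the power of the sum of the variables -/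
theorem eval_le {s k : ℕ} {P : MvPolynomial (Fin s) ℂ} (hP : P.IsHomogeneous k) :
    ∃ C : ℝ≥0∞, C ≠ ∞ ∧ ∀ v : Fin s → ℂ, ‖MvPolynomial.eval v P‖ₑ ≤ C * (∑ i, ‖v i‖ₑ) ^ k := by
  refine ⟨∑ d ∈ P.support, ‖P.coeff d‖ₑ, ?_, fun v => ?_⟩
  · rw [ENNReal.sum_ne_top]
    exact fun d _ => enorm_ne_top
  · rw [MvPolynomial.eval_eq', Finset.sum_mul]
    refine (enorm_sum_le _ _).trans (Finset.sum_le_sum fun d hd => ?_)
    rw [enorm_mul]
    gcongr
    have h1 : ∑ i, d i = k := by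
      have h2 := hP (MvPolynomial.mem_support_iff.1 hd)
      rw [Finsupp.weight_apply, Finsupp.sum_fintype _ _ (fun i => by simp)] at h2
      simpa using h2
    have h3 : ‖∏ i, v i ^ d i‖ₑ = ∏ i, ‖v i‖ₑ ^ d i := by
      have : ‖∏ i, v i ^ d i‖₊ = ∏ i, ‖v i‖₊ ^ d i := by
        rw [nnnorm_prod]
        exact Finset.prod_congr rfl fun i _ => nnnorm_pow _ _
      simp only [enorm_eq_nnnorm, this]
      push_cast
      rfl
    rw [← h1, ← Finset.prod_pow_eq_pow_sum, h3]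
    refine Finset.prod_le_prod' fun i _ => ?_
    gcongr
    exact Finset.single_le_sum (f := fun i => ‖v i‖ₑ) (fun _ _ => zero_le) (Finset.mem_univ i)

section fib

variable {L K : Type} [Field L] [Field K] [Algebra ℂ L] [Algebra ℂ K] [Algebra L K]
  [IsScalarTower ℂ L K] {m r : ℕ} {ML : Mdl L m} {MK : Mdl K (m + r)} (H : Rel ML MK)

/-- **(DET) on the fibres** -/
theorem int_det_le {s : ℕ} (u : Fin s → MK.B) {p : ℝ} (hp : 0 ≤ p) (z : ML.Pts)
    (g : Fin s → MK.Pts → ℝ≥0∞) (hg : ∀ j, Measurable (g j)) (C : Fin s → ℝ≥0∞)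
    (h : ∀ j, ∀ μ : Measure ((rm H).Fib z), IsLeb μ → ∀ A : Fin s → ℂ,
      ∫⁻ x, g j x.val * ‖∑ i, A i * (x.val) (u i)‖ₑ ^ (-p) ∂μ ≤ C j * ‖A‖ₑ ^ (-p)) :
    H.fintS s z (fun y => (∏ j, g j (y j)) * ‖dl u y‖ₑ ^ (-p)) ≤ ∏ j, C j := by
  have hv : Measurable (RMdl.Fib.val (rm H) : (rm H).Fib z → (rm H).MK.Pts) :=
    (RMdl.Fib.continuous_val (R := rm H) z).measurable
  have hm : Measurable fun y : Fin s → MK.Pts => (∏ j, g j (y j)) * ‖dl u y‖ₑ ^ (-p) :=
    (Finset.measurable_fun_prod _ fun j _ => (hg j).comp (measurable_pi_apply j)).mul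
      ((FlatC_464.continuous_dl u).measurable.enorm.pow_const _)
  rw [RelC_870.fintS_pi H (nu_leb (rm H) z) hm]
  have h1 := SkoE_317.det_int (nu (rm H) z) p hp s
    (fun i (x : (rm H).Fib z) => (x.val : MK.Pts) (u i))
    (fun i => (continuous_ev (u i)).measurable.comp hv) (fun j x => g j x.val)
    (fun j => (hg j).comp hv) C (fun j A => h j _ (nu_leb (rm H) z) A)
  refine le_trans (le_of_eq ?_) h1
  refine lintegral_congr fun x => ?_
  rfl

/-- **local boundedness of the `s`-fold integrals** (185's (B)), for a finite family of functions -/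
theorem fintS_lb {s : ℕ} {u : Fin s → MK.B} {p : ℝ} (hp : 0 ≤ p) {ι : Type} [Finite ι]
    (g : ι → MK.Pts → ℝ≥0∞) (hg : ∀ i, Measurable (g i)) (h : ∀ i, LB (rm H) u p (g i))
    (z₀ : ML.Pts) : ∃ C : ℝ≥0∞, C ≠ ∞ ∧ ∀ᶠ z in 𝓝 z₀, ∀ I : Fin s → ι,
      H.fintS s z (fun y => (∏ j, g (I j) (y j)) * ‖dl u y‖ₑ ^ (-p)) ≤ C := by
  cases nonempty_fintype ι
  choose c hc hev using fun i => h i z₀
  refine ⟨(∑ i, c i) ^ s, ENNReal.pow_ne_top ?_, ?_⟩
  · rw [ENNReal.sum_ne_top]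
    exact fun i _ => hc i
  · have h1 : ∀ᶠ z in 𝓝 z₀, ∀ i, ∀ μ : Measure ((rm H).Fib z), IsLeb μ →
        ∀ A : Fin s → ℂ, ∫⁻ x, g i x.val * ‖∑ i, A i * (x.val) (u i)‖ₑ ^ (-p) ∂μ ≤
          c i * ‖A‖ₑ ^ (-p) := eventually_all.2 hev
    filter_upwards [h1] with z hz I
    refine (int_det_le H u hp z (fun j => g (I j)) (fun j => hg _) (fun _ => ∑ i, c i)
      (fun j μ hμ A => (hz (I j) μ hμ A).trans ?_)).trans (le_of_eq ?_)
    · exact mul_le_mul_left (Finset.single_le_sum (f := c) (fun _ _ => zero_le)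
        (Finset.mem_univ (I j))) _
    · rw [Finset.prod_const, Finset.card_univ, Fintype.card_fin]


/-- monomials: `LB` for `(∑ ‖y (u i)‖)^(kt)` gives `LB` for `‖y P(u)‖^t`, `P` homogeneous of
degree `k` -/
theorem lb_homog {s k : ℕ} {u : Fin s → MK.B} {p t q : ℝ} (ht : 0 ≤ t) (hq : (k : ℝ) * t = q)
    (h : LB (rm H) u p (fun y => (∑ i, ‖y (u i)‖ₑ) ^ q)) {P : MvPolynomial (Fin s) ℂ}
    (hP : P.IsHomogeneous k) :
    LB (rm H) u p (fun y => ‖y (MvPolynomial.aeval u P)‖ₑ ^ t) := by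
  obtain ⟨c, hc, hle⟩ := eval_le hP
  refine h.mono (ENNReal.rpow_ne_top_of_nonneg ht hc) fun y => ?_
  have h1 : y (MvPolynomial.aeval u P) = MvPolynomial.eval (fun i => y (u i)) P := by
    rw [← MvPolynomial.aeval_eq_eval, MvPolynomial.comp_aeval_apply]
  rw [h1]
  calc ‖MvPolynomial.eval (fun i => y (u i)) P‖ₑ ^ t
      ≤ (c * (∑ i, ‖y (u i)‖ₑ) ^ k) ^ t := ENNReal.rpow_le_rpow (hle _) ht
    _ = c ^ t * (∑ i, ‖y (u i)‖ₑ) ^ q := by
        rw [ENNReal.mul_rpow_of_nonneg _ _ ht, ← ENNReal.rpow_natCast, ← ENNReal.rpow_mul, hq]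

/-- **`hSKO`** of `flat_top`, at every point -/
theorem hsko_of_lb {N s : ℕ} {u : Fin s → MK.B} {ε : ℝ} (hN : 0 < N) (hε : 0 ≤ ε)
    (hLB : LB (rm H) u (2 * ε) (fun y => (∑ i, ‖y (u i)‖ₑ) ^ ((2 + 2 * ε * N) / N)))
    (z : ML.Pts) (k : ℕ) (P : MvPolynomial (Fin s) ℂ) (hk : 0 < k) (hP : P.IsHomogeneous k) :
    Ieps H N k u ε z (evs u P) ≠ ∞ := by
  obtain ⟨C, hC, hev⟩ := hLB z
  have h0 := hev.self_of_nhds
  obtain ⟨c, hc, hle⟩ := eval_le hP
  have hN0 : (0 : ℝ) < N := by exact_mod_cast hN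
  have hk0 : (0 : ℝ) < k := by exact_mod_cast hk
  set α : ℝ := 2 * (1 + ε * N) / (k * N) with hα
  have hα0 : 0 ≤ α := by positivity
  have hkα : (k : ℝ) * α = (2 + 2 * ε * N) / N := by
    rw [hα]
    field_simp
  have hcα : c ^ α ≠ ∞ := ENNReal.rpow_ne_top_of_nonneg hα0 hc
  have h1 : Ieps H N k u ε z (evs u P) ≤ ∏ _j : Fin s, (c ^ α * C) := by
    refine int_det_le H u (by positivity) z (fun _ y => ‖evs u P y‖ₑ ^ α)
      (fun _ => (FlatC_464.continuous_evs u P).measurable.enorm.pow_const _) _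
      (fun _ μ hμ A => ?_)
    calc ∫⁻ x, ‖evs u P x.val‖ₑ ^ α * ‖∑ i, A i * (x.val) (u i)‖ₑ ^ (-(2 * ε)) ∂μ
        ≤ ∫⁻ x, c ^ α * ((∑ i, ‖(x.val) (u i)‖ₑ) ^ ((2 + 2 * ε * N) / N) *
          ‖∑ i, A i * (x.val) (u i)‖ₑ ^ (-(2 * ε))) ∂μ := by
          refine lintegral_mono fun x => ?_
          rw [← mul_assoc]
          refine mul_le_mul_left ?_ _
          calc ‖evs u P x.val‖ₑ ^ α ≤ (c * (∑ i, ‖(x.val) (u i)‖ₑ) ^ k) ^ α :=
                ENNReal.rpow_le_rpow (hle _) hα0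
            _ = c ^ α * (∑ i, ‖(x.val) (u i)‖ₑ) ^ ((2 + 2 * ε * N) / N) := by
                rw [ENNReal.mul_rpow_of_nonneg _ _ hα0, ← ENNReal.rpow_natCast,
                  ← ENNReal.rpow_mul, hkα]
      _ = c ^ α * ∫⁻ x, (∑ i, ‖(x.val) (u i)‖ₑ) ^ ((2 + 2 * ε * N) / N) *
          ‖∑ i, A i * (x.val) (u i)‖ₑ ^ (-(2 * ε)) ∂μ := lintegral_const_mul' _ _ hcα
      _ ≤ c ^ α * (C * ‖A‖ₑ ^ (-(2 * ε))) := mul_le_mul_right (h0 μ hμ A) _
      _ = c ^ α * C * ‖A‖ₑ ^ (-(2 * ε)) := by rw [mul_assoc]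
  refine ne_top_of_le_ne_top ?_ h1
  exact ENNReal.prod_ne_top fun _ _ => ENNReal.mul_ne_top hcα hC

end fib

/-! ### `Flat` -/

section tower

open Crest.Agent.R276.Ipc735 Crest.Agent.R276.Iter_840 Crest.Agent.R276.Restr_236
open Crest.Agent.R276.FlatTop_793

variable {T L K : Type} [Field T] [Field L] [Field K] [Algebra ℂ T] [Algebra ℂ L] [Algebra ℂ K]
  [Algebra T L] [Algebra L K] [IsScalarTower ℂ T L] [IsScalarTower ℂ L K] {ρ a r : ℕ}
  {MT : Mdl T ρ} {ML : Mdl L (ρ + a)} {MK : Mdl K (ρ + a + r)}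
  {H₁ : Rel MT ML} {H₂ : Rel ML MK} (h₁ : H₁.Conn) (h₂ : H₂.Conn)
  {N s : ℕ} {u : Fin s → MK.B} {N₀ w₀ : ℕ}
  {V : VHS (ρ + a) ML.Pts N₀ w₀} {om : ML.Pts → Fin N₀ → ℂ}


end tower

end Crest.Agent.R276.Hsko_793
end
end

-- ▼ part R276/Clq_886
section

/-!
# Row 276 (S0419): CLQ (helper886)

Finite dimensional Bergman inequality with a measurable weight: `v_1..v_n` functions on a measure
space, `wt : X → [0,∞]`, such that `∫ |∑ b_i v_i|² wt = 0` implies `∑ b_i v_i = 0` everywhere.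
Then `|∑ b_i v_i(x)|² ≤ C (∑ |v_i(x)|²) ∫ |∑ b_i v_i|² wt` with `C < ∞` (no independence, the
integrals may be infinite).
-/

set_option autoImplicit false

open Set Filter Topology MeasureTheory
open scoped ENNReal

noncomputable section

namespace Crest.Agent.R276.Clq_886

variable {X : Type*} [MeasurableSpace X] {μ : Measure X} {n : ℕ}

/-- `∑ b_i v_i` -/
def cb (v : Fin n → X → ℂ) (b : Fin n → ℂ) (x : X) : ℂ := ∑ i, b i * v i x

omit [MeasurableSpace X] in
lemma cb_add (v : Fin n → X → ℂ) (b c : Fin n → ℂ) (x : X) : cb v (b + c) x = cb v b x + cb v c x := by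
  unfold cb
  rw [← Finset.sum_add_distrib]
  exact Finset.sum_congr rfl fun i _ => by rw [Pi.add_apply, add_mul]

omit [MeasurableSpace X] in
lemma cb_smul (v : Fin n → X → ℂ) (t : ℂ) (b : Fin n → ℂ) (x : X) :
    cb v (t • b) x = t * cb v b x := by
  unfold cb
  rw [Finset.mul_sum]
  exact Finset.sum_congr rfl fun i _ => by rw [Pi.smul_apply, smul_eq_mul, mul_assoc]

omit [MeasurableSpace X] in
lemma continuous_cb (v : Fin n → X → ℂ) (x : X) : Continuous fun b => cb v b x := by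
  unfold cb
  fun_prop

lemma measurable_cb {v : Fin n → X → ℂ} (hv : ∀ i, Measurable (v i)) (b : Fin n → ℂ) :
    Measurable (cb v b) := by
  unfold cb
  exact Finset.measurable_sum _ fun i _ => (hv i).const_mul _

/-- the kernel -/
def ker (v : Fin n → X → ℂ) : Submodule ℂ (Fin n → ℂ) where
  carrier := {b | ∀ x, cb v b x = 0}
  add_mem' := fun {a b} ha hb x => by rw [cb_add, ha x, hb x, add_zero]
  zero_mem' := fun x => by simp [cb]
  smul_mem' := fun t b hb x => by rw [cb_smul, hb x, mul_zero]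


/-- the `L²` form -/
def qf (μ : Measure X) (v : Fin n → X → ℂ) (wt : X → ℝ≥0∞) (b : Fin n → ℂ) : ℝ≥0∞ :=
  ∫⁻ x, ‖cb v b x‖ₑ ^ 2 * wt x ∂μ

lemma qf_smul (v : Fin n → X → ℂ) (wt : X → ℝ≥0∞) (t : ℂ) (b : Fin n → ℂ) :
    qf μ v wt (t • b) = ‖t‖ₑ ^ 2 * qf μ v wt b := by
  unfold qf
  rw [← lintegral_const_mul' _ _ (ENNReal.pow_ne_top enorm_ne_top)]
  refine lintegral_congr fun x => ?_
  rw [cb_smul, enorm_mul, mul_pow, mul_assoc]

/-- positivity of the form on a complement of the kernel -/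
theorem exists_lower {v : Fin n → X → ℂ} (hv : ∀ i, Measurable (v i)) {wt : X → ℝ≥0∞}
    (hwt : Measurable wt) (hwt1 : ∀ x, wt x ≤ 1)
    (hz : ∀ b, qf μ v wt b = 0 → ∀ x, cb v b x = 0) {W : Submodule ℂ (Fin n → ℂ)}
    (hW : Disjoint (ker v) W) :
    ∃ c : ℝ≥0∞, 0 < c ∧ c ≠ ∞ ∧ ∀ b ∈ W, c * ‖b‖ₑ ^ 2 ≤ qf μ v wt b := by
  have key : ∃ k : ℕ, ∀ b ∈ W, ‖b‖ = 1 → ((k : ℝ≥0∞) + 1)⁻¹ ≤ qf μ v wt b := by
    by_contra hcon
    push Not at hcon
    choose b hbW hb1 hbq using hcon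
    have hcpt : IsCompact (Metric.sphere (0 : Fin n → ℂ) 1) := isCompact_sphere _ _
    obtain ⟨b₀, hb₀, φ, hφ, hlim⟩ := hcpt.tendsto_subseq (x := b) fun k => by
      rw [mem_sphere_zero_iff_norm]; exact hb1 k
    have hWc : IsClosed (W : Set (Fin n → ℂ)) := W.closed_of_finiteDimensional
    have hb₀W : b₀ ∈ W := hWc.mem_of_tendsto hlim (Eventually.of_forall fun k => hbW _)
    have hmeas : ∀ k, Measurable fun x => ‖cb v (b (φ k)) x‖ₑ ^ 2 * wt x := fun k =>
      ((measurable_cb hv _).enorm.pow_const 2).mul hwt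
    have hfatou := lintegral_liminf_le (μ := μ) (u := atTop) hmeas
    have hpt : ∀ x, liminf (fun k => ‖cb v (b (φ k)) x‖ₑ ^ 2 * wt x) atTop =
        ‖cb v b₀ x‖ₑ ^ 2 * wt x := by
      intro x
      apply Tendsto.liminf_eq
      have h1 : Tendsto (fun k => cb v (b (φ k)) x) atTop (𝓝 (cb v b₀ x)) :=
        ((continuous_cb v x).tendsto b₀).comp hlim
      have h2 : Tendsto (fun k => ‖cb v (b (φ k)) x‖ₑ ^ 2) atTop (𝓝 (‖cb v b₀ x‖ₑ ^ 2)) :=
        ((ENNReal.continuous_pow 2).tendsto _).comp ((continuous_enorm.tendsto _).comp h1)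
      exact ENNReal.Tendsto.mul_const h2 (Or.inr (ne_top_of_le_ne_top ENNReal.one_ne_top (hwt1 x)))
    simp only [hpt] at hfatou
    have hlim0 : liminf (fun k => qf μ v wt (b (φ k))) atTop = 0 := by
      apply Tendsto.liminf_eq
      refine tendsto_of_tendsto_of_tendsto_of_le_of_le (g := fun _ => 0)
        (h := fun k => ((φ k : ℝ≥0∞) + 1)⁻¹) tendsto_const_nhds ?_ (fun _ => bot_le)
        (fun k => (hbq (φ k)).le)
      have h3 : Tendsto (fun k : ℕ => ((k : ℝ≥0∞) + 1)⁻¹) atTop (𝓝 0) := by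
        have h4 : Tendsto (fun k : ℕ => (((k + 1 : ℕ) : ℝ≥0∞))⁻¹) atTop (𝓝 0) :=
          ENNReal.tendsto_inv_nat_nhds_zero.comp (tendsto_add_atTop_nat 1)
        simpa using h4
      exact h3.comp hφ.tendsto_atTop
    have hq0 : qf μ v wt b₀ = 0 := by
      have h5 : qf μ v wt b₀ ≤ liminf (fun k => qf μ v wt (b (φ k))) atTop := hfatou
      rw [hlim0] at h5
      exact nonpos_iff_eq_zero.1 h5
    have h6 : b₀ ∈ ker v := hz b₀ hq0
    have h7 : b₀ = 0 := (Submodule.disjoint_def.1 hW) b₀ h6 hb₀W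
    rw [mem_sphere_zero_iff_norm, h7, norm_zero] at hb₀
    exact zero_ne_one hb₀
  obtain ⟨k, hk⟩ := key
  refine ⟨((k : ℝ≥0∞) + 1)⁻¹, ENNReal.inv_pos.2 (ENNReal.add_ne_top.2
    ⟨ENNReal.natCast_ne_top k, ENNReal.one_ne_top⟩), ENNReal.inv_ne_top.2 (by simp), fun b hb => ?_⟩
  by_cases hb0 : b = 0
  · simp [hb0]
  · have hn : 0 < ‖b‖ := norm_pos_iff.2 hb0
    set t : ℂ := ((‖b‖ : ℝ) : ℂ) with ht
    have ht0 : t ≠ 0 := by rw [ht]; exact_mod_cast hn.ne'
    have h1 := hk (t⁻¹ • b) (W.smul_mem _ hb) (by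
      rw [norm_smul, norm_inv, ht, Complex.norm_real, norm_norm, inv_mul_cancel₀ hn.ne'])
    have h2 : b = t • (t⁻¹ • b) := by rw [smul_smul, mul_inv_cancel₀ ht0, one_smul]
    have h3 : ‖t‖ₑ = ‖b‖ₑ := by
      rw [← ofReal_norm, ← ofReal_norm, ht, Complex.norm_real, norm_norm]
    conv_rhs => rw [h2, qf_smul, h3, mul_comm]
    exact mul_le_mul_left h1 _

/-- **CLQ**, form version -/
theorem exists_const {v : Fin n → X → ℂ} (hv : ∀ i, Measurable (v i)) {wt : X → ℝ≥0∞}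
    (hwt : Measurable wt) (hz : ∀ b, qf μ v wt b = 0 → ∀ x, cb v b x = 0) :
    ∃ C : ℝ≥0∞, 0 < C ∧ C ≠ ∞ ∧ ∀ (b : Fin n → ℂ) (x : X),
      ‖cb v b x‖ₑ ^ 2 ≤ C * (∑ i, ‖v i x‖ₑ ^ 2) * qf μ v wt b := by
  set wt' : X → ℝ≥0∞ := fun x => min (wt x) 1 with hwt'
  have hle : ∀ b, qf μ v wt' b ≤ qf μ v wt b := fun b =>
    lintegral_mono fun x => mul_le_mul_right (min_le_left _ _) _
  have hz' : ∀ b, qf μ v wt' b = 0 → ∀ x, cb v b x = 0 := by
    intro b hb
    apply hz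
    unfold qf at hb ⊢
    have m1 : Measurable fun x => ‖cb v b x‖ₑ ^ 2 * wt x :=
      ((measurable_cb hv b).enorm.pow_const 2).mul hwt
    have m2 : Measurable fun x => ‖cb v b x‖ₑ ^ 2 * wt' x :=
      ((measurable_cb hv b).enorm.pow_const 2).mul (hwt.min measurable_const)
    rw [lintegral_eq_zero_iff m1]
    rw [lintegral_eq_zero_iff m2] at hb
    filter_upwards [hb] with x hx
    simp only [Pi.zero_apply, mul_eq_zero] at hx ⊢
    rcases hx with h1 | h1
    · exact Or.inl h1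
    · right
      rcases min_choice (wt x) 1 with h2 | h2
      · rw [← h2]; exact h1
      · have h3 : min (wt x) 1 = 0 := h1
        rw [h2] at h3
        exact absurd h3 one_ne_zero
  obtain ⟨W, hW⟩ := (ker v).exists_isCompl
  obtain ⟨c, hc0, hct, hc⟩ := exists_lower hv (hwt.min measurable_const)
    (fun x => min_le_right _ _) hz' hW.disjoint
  refine ⟨(n + 1 : ℝ≥0∞) * c⁻¹, ?_, ?_, fun b x => ?_⟩
  · exact ENNReal.mul_pos (by simp) (ENNReal.inv_ne_zero.2 hct)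
  · exact ENNReal.mul_ne_top (by simp) (ENNReal.inv_ne_top.2 hc0.ne')
  · have hbt : b ∈ ker v ⊔ W := by rw [hW.sup_eq_top]; exact Submodule.mem_top
    obtain ⟨b₁, hb₁, b₂, hb₂, rfl⟩ := Submodule.mem_sup.1 hbt
    have hcb : ∀ x, cb v (b₁ + b₂) x = cb v b₂ x := fun x => by rw [cb_add, hb₁ x, zero_add]
    have hq : qf μ v wt (b₁ + b₂) = qf μ v wt b₂ := by
      unfold qf
      exact lintegral_congr fun x => by rw [hcb]
    rw [hcb, hq]
    have h1 : ‖cb v b₂ x‖ₑ ^ 2 ≤ (n : ℝ≥0∞) * ‖b₂‖ₑ ^ 2 * ∑ i, ‖v i x‖ₑ ^ 2 := by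
      have h2 : ‖cb v b₂ x‖ ^ 2 ≤ (n : ℝ) * ‖b₂‖ ^ 2 * ∑ i, ‖v i x‖ ^ 2 := by
        have h3 : ‖cb v b₂ x‖ ≤ ∑ i, ‖b₂ i‖ * ‖v i x‖ := by
          unfold cb
          exact (norm_sum_le _ _).trans (le_of_eq (Finset.sum_congr rfl fun i _ => norm_mul _ _))
        have h4 : ∑ i, ‖b₂ i‖ ^ 2 ≤ (n : ℝ) * ‖b₂‖ ^ 2 := by
          calc ∑ i, ‖b₂ i‖ ^ 2 ≤ ∑ _i : Fin n, ‖b₂‖ ^ 2 :=
                Finset.sum_le_sum fun i _ => pow_le_pow_left₀ (norm_nonneg _) (norm_le_pi_norm _ i) 2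
            _ = _ := by rw [Finset.sum_const, Finset.card_univ, Fintype.card_fin, nsmul_eq_mul]
        calc ‖cb v b₂ x‖ ^ 2 ≤ (∑ i, ‖b₂ i‖ * ‖v i x‖) ^ 2 := by gcongr
          _ ≤ (∑ i, ‖b₂ i‖ ^ 2) * ∑ i, ‖v i x‖ ^ 2 := Finset.sum_mul_sq_le_sq_mul_sq _ _ _
          _ ≤ _ := by gcongr
      have e : ∀ z : ℂ, ‖z‖ₑ ^ 2 = ENNReal.ofReal (‖z‖ ^ 2) := fun z => by
        rw [← ofReal_norm, ENNReal.ofReal_pow (norm_nonneg _)]
      have e' : ‖b₂‖ₑ ^ 2 = ENNReal.ofReal (‖b₂‖ ^ 2) := by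
        rw [← ofReal_norm, ENNReal.ofReal_pow (norm_nonneg _)]
      simp only [e, e']
      rw [← ENNReal.ofReal_sum_of_nonneg (fun i _ => by positivity), ← ENNReal.ofReal_natCast,
        ← ENNReal.ofReal_mul (by positivity), ← ENNReal.ofReal_mul (by positivity)]
      exact ENNReal.ofReal_le_ofReal h2
    have h5 := (hc b₂ hb₂).trans (hle b₂)
    have h6 : ‖b₂‖ₑ ^ 2 ≤ c⁻¹ * qf μ v wt b₂ := by
      rw [mul_comm, ← ENNReal.le_div_iff_mul_le (Or.inl hc0.ne') (Or.inl hct)] at h5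
      rwa [ENNReal.div_eq_inv_mul] at h5
    calc ‖cb v b₂ x‖ₑ ^ 2 ≤ (n : ℝ≥0∞) * ‖b₂‖ₑ ^ 2 * ∑ i, ‖v i x‖ₑ ^ 2 := h1
      _ ≤ ((n : ℝ≥0∞) + 1) * (c⁻¹ * qf μ v wt b₂) * ∑ i, ‖v i x‖ₑ ^ 2 := by
          gcongr
          exact le_self_add
      _ = _ := by ring

end Crest.Agent.R276.Clq_886
end
end

-- ▼ part R276/Cl_886
section

/-!
# Row 276 (S0419): SAT (E4) (helper886): the condition (Cl) of 185

`R : RMdl L K m r`, `v : Fin n → R.MK.B` ANY finite family (dependent families allowed), `N > 0`,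
`K = ∑ |v_i|²`, closed: `b ∈ B_K`, weighted `∫ |b|² K^{-(N-1)/N} < ∞` implies `b ∈ span_L v`.  Then
off a hypersurface of `ℂ^m`:
* `clos_dep` : `f` holomorphic on `Fib w`, `∫ |f|² K^{-(N-1)/N} < ∞` implies `f ∈ span v | Fib w`;
* `cl_dep` : `|f(y)|² ≤ C K(y) ∫ |f|² K^{-(N-1)/N}`, `C` depending only on `w`.
-/

set_option autoImplicit false
set_option linter.unusedSectionVars false

open Set Filter Topology MeasureTheory
open scoped ENNReal Matrix

noncomputable section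

namespace Crest.Agent.R276.SatC_886

open Crest.Agent.R271 Crest.Agent.R271.Defs710 Crest.Agent.R271.Ho51 Crest.Agent.R271.Rd692
open Crest.Agent.R271.Alg255 Crest.Agent.R271.AlgB956
open Crest.Agent.R276.AB2_590 Crest.Agent.R276.Mod1_987 Crest.Agent.R276.End_723
open Crest.Agent.R276.EngU_29 Crest.Agent.R276.FlatDefs_236
open Crest.Agent.R276.Sat_210 (IK IW KK)

variable {L K : Type} [Field L] [Field K] [Algebra ℂ L] [Algebra ℂ K] [Algebra L K]
  [IsScalarTower ℂ L K] {m r : ℕ} {R : RMdl L K m r} {s n : ℕ}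

/-- `clos_of` with different families for the weight and for the combinations -/
theorem clos_of2 {α : ℝ} (hα : 0 ≤ α) (v : Fin n → R.MK.B) (u : Fin s → R.MK.B)
    (hB : ∀ F : (R.MK.B →ₐ[ℂ] ℂ) → ℂ, HolB R.MK.z F →
      (∃ k : ℕ, End_723.Fin2 (etChart R.MK) (Bw v α) (sb m r) 1 k F) →
      ∃ d : R.ML.B, d ≠ 0 ∧ ∃ a : Fin s → R.ML.B, ∀ y : R.MK.Pts,
        (R.q y : R.ML.B →ₐ[ℂ] ℂ) d * F y =
          ∑ i, (R.q y : R.ML.B →ₐ[ℂ] ℂ) (a i) * (y : R.MK.B →ₐ[ℂ] ℂ) (u i))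
    (w : R.ML.Pts) (hw : ∀ c : Fin s → ℂ, (∀ y : R.Fib w, ∑ i, c i * sg u w y i = 0) → c = 0)
    (f : R.Fib w → ℂ) (hf : Ho51.Hol f)
    (hint : IK (nu R w) α f (fun i y => sg v w y i) ≠ ∞) :
    ∃ b : Fin s → ℂ, ∀ y : R.Fib w, f y = ∑ i, b i * sg u w y i := by
  have hint' : ∫⁻ x, ENNReal.ofReal (‖f x‖ ^ 2) / ENNReal.ofReal (Bw v α x.val ^ 1) ∂(nu R w) <
      ∞ := by
    refine lt_of_eq_of_lt ?_ (lt_top_iff_ne_top.2 hint)
    unfold IK
    refine lintegral_congr fun x => ?_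
    rw [ofReal_Bw_inv v hα, pow_one, ← ofReal_norm,
      ENNReal.ofReal_rpow_of_nonneg (norm_nonneg _) (by norm_num), Real.rpow_two, div_eq_mul_inv]
  obtain ⟨F, hF, hFf, hFi⟩ := ext_fib R otSlice restrLPsh (lpsh_Bw v hα 1) (nu_leb R w) f hf hint'
  obtain ⟨d, hd, a, hrel⟩ := hB F hF ⟨_, hFi⟩
  have hFc : Continuous F := by
    have h1 : AB2_590.HolA (M := (R.MK.B →ₐ[ℂ] ℂ)) F := (holA_iff R.MK.hch).2 hF
    have h2 : Ho51.Hol (M := (R.MK.B →ₐ[ℂ] ℂ)) F := hol51_iff.2 h1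
    exact (Crest.Agent.R273.OTA_34.hol_of _ h2).sm.continuous
  obtain ⟨b, hb⟩ := comb_of_generic u hFc hd a hrel w hw
  exact ⟨b, fun y => by rw [← hFf, hb]⟩

/-- a maximal independent subfamily -/
lemma exists_sub (v : Fin n → R.MK.B) : ∃ (t : ℕ) (a : Fin t → Fin n),
    (LinearIndependent L fun i => (v (a i) : K)) ∧
    Submodule.span L (range fun i => (v (a i) : K)) = Submodule.span L (range fun i => (v i : K)) := by
  obtain ⟨κ, a, ha, hs, hi⟩ := exists_linearIndependent' L (fun i => (v i : K))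
  have hfin : Finite κ := Finite.of_injective a ha
  obtain ⟨t, ⟨e⟩⟩ := Finite.exists_equiv_fin κ
  refine ⟨t, a ∘ e.symm, hi.comp _ e.symm.injective, ?_⟩
  rw [← hs]
  congr 1
  ext x
  constructor
  · rintro ⟨i, rfl⟩
    exact ⟨e.symm i, rfl⟩
  · rintro ⟨k, rfl⟩
    exact ⟨e k, by simp⟩

/-- combination of a subfamily = combination of the family -/
lemma comb_sub {Y : Type*} {t : ℕ} (a : Fin t → Fin n) (g : Y → Fin n → ℂ) (b : Fin t → ℂ) :
    ∃ b' : Fin n → ℂ, ∀ y, ∑ i, b i * g y (a i) = ∑ j, b' j * g y j := by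
  classical
  refine ⟨fun j => ∑ i ∈ Finset.univ.filter (fun i => a i = j), b i, fun y => ?_⟩
  have h1 : ∀ j, (∑ i ∈ Finset.univ.filter (fun i => a i = j), b i) * g y j =
      ∑ i ∈ Finset.univ.filter (fun i => a i = j), b i * g y (a i) := by
    intro j
    rw [Finset.sum_mul]
    refine Finset.sum_congr rfl fun i hi => ?_
    rw [(Finset.mem_filter.1 hi).2]
  simp only [h1]
  exact (Finset.sum_fiberwise Finset.univ a fun i => b i * g y (a i)).symm

/-- **closure on the fibres for a dependent family** -/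
theorem clos_dep {N : ℕ} (hN : 0 < N) {v : Fin n → R.MK.B}
    (hB : ∀ b : R.MK.B, SatC_210.InE R (fun y => ‖(y : R.MK.B →ₐ[ℂ] ℂ) b‖ₑ ^ 2 * SatC_210.kw N v y) →
      (b : K) ∈ Submodule.span L (range fun i => (v i : K))) :
    ∃ P : MvPolynomial (Fin m) ℂ, P ≠ 0 ∧ ∀ w : R.ML.Pts, MvPolynomial.eval (R.ML.pz w) P ≠ 0 →
      ∀ f : R.Fib w → ℂ, Ho51.Hol f →
        IK (nu R w) (((N : ℝ) - 1) / N) f (fun i y => sg v w y i) ≠ ∞ →
        ∃ b : Fin n → ℂ, ∀ y : R.Fib w, f y = ∑ i, b i * sg v w y i := by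
  obtain ⟨t, a, hi, hs⟩ := exists_sub v
  obtain ⟨P, hP, h⟩ := exists_indep (R := R) (u := fun i => v (a i)) hi
  have hN1 : (1 : ℝ) ≤ N := by exact_mod_cast hN
  have hα : 0 ≤ ((N : ℝ) - 1) / N := div_nonneg (by linarith) (by linarith)
  refine ⟨P, hP, fun w hw f hf hint => ?_⟩
  have key := clos_of2 hα v (fun i => v (a i)) (fun F hF hk => by
    obtain ⟨k, hk⟩ := hk
    have h1 := inE_of_fin2 hN hk
    obtain ⟨b, hb⟩ := SatC_210.alg_of_inE hN hF h1
    have h2 : SatC_210.InE R (fun y => ‖(y : R.MK.B →ₐ[ℂ] ℂ) b‖ₑ ^ 2 * SatC_210.kw N v y) := by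
      have h3 : (fun y : R.MK.Pts => ‖F y‖ₑ ^ 2 * SatC_210.kw N v y) =
          fun y : R.MK.Pts => ‖(y : R.MK.B →ₐ[ℂ] ℂ) b‖ₑ ^ 2 * SatC_210.kw N v y := by
        funext y
        rw [hb]
      rw [← h3]
      exact h1
    have h4 := hB b h2
    rw [← hs] at h4
    obtain ⟨d, hd, a', ha'⟩ := exists_den (R := R) (fun i => v (a i)) h4
    refine ⟨d, hd, a', fun y => ?_⟩
    have h5 := congrArg (fun c => (y : R.MK.B →ₐ[ℂ] ℂ) c) ha'
    simp only [map_mul, map_sum] at h5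
    rw [hb]
    simpa only [RMdl.q_apply] using h5) w (h w hw) f hf hint
  obtain ⟨b, hb⟩ := key
  obtain ⟨b', hb'⟩ := comb_sub a (fun (y : R.Fib w) j => sg v w y j) b
  exact ⟨b', fun y => by rw [hb y]; exact hb' y⟩

/-! ### the constant form -/

/-- a Lebesgue measure is positive on nonempty open sets -/
lemma leb_pos {k : ℕ} {M : Type*} [TopologicalSpace M] [RDom k M] [MeasurableSpace M]
    [BorelSpace M] {μ : Measure M} (hμ : IsLeb μ) {U : Set M} (hU : IsOpen U) {y : M}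
    (hy : y ∈ U) : 0 < μ U := by
  have h1 := hμ (ch y) (isCh_ch y)
  set e := ch y with he
  have hys : y ∈ e.source := mem_ch y
  have h2 : μ.restrict e.source U ≤ μ U := Measure.restrict_apply_le _ _
  refine lt_of_lt_of_le ?_ h2
  have hem : AEMeasurable e.symm (volume.restrict e.target) :=
    (e.continuousOn_symm).aemeasurable e.open_target.measurableSet
  rw [h1, Measure.map_apply_of_aemeasurable hem hU.measurableSet]
  rw [Measure.restrict_apply' e.open_target.measurableSet]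
  have h3 : IsOpen (e.symm ⁻¹' U ∩ e.target) := by
    have := e.symm.isOpen_inter_preimage hU
    rw [inter_comm]
    simpa using this
  refine h3.measure_pos volume ⟨e y, ?_, e.map_source hys⟩
  show e.symm (e y) ∈ U
  rw [e.left_inv hys]
  exact hy

/-- zero sets of combinations: `∫ |∑ b_i v_i|² K^{-α} = 0` implies `∑ b_i v_i = 0` on the fibre -/
lemma qf_zero {α : ℝ} (hα : 0 ≤ α) (v : Fin n → R.MK.B) (w : R.ML.Pts) (b : Fin n → ℂ)
    (h : Clq_886.qf (nu R w) (fun i y => sg v w y i) (fun y => KK (fun i y => sg v w y i) y ^ (-α))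
      b = 0) (y : R.Fib w) : Clq_886.cb (fun i y => sg v w y i) b y = 0 := by
  have hc : ∀ i, Continuous fun y : R.Fib w => sg v w y i := fun i =>
    (continuous_ev (v i)).comp (RMdl.Fib.continuous_val w)
  have hcb : Continuous fun y : R.Fib w => Clq_886.cb (fun i y => sg v w y i) b y := by
    unfold Clq_886.cb
    exact continuous_finsetSum _ fun i _ => continuous_const.mul (hc i)
  have hm : Measurable fun y : R.Fib w => ‖Clq_886.cb (fun i y => sg v w y i) b y‖ₑ ^ 2 *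
      KK (fun i y => sg v w y i) y ^ (-α) :=
    (hcb.enorm.measurable.pow_const 2).mul ((Sat_210.meas_KK fun i => (hc i).measurable).pow_const _)
  unfold Clq_886.qf at h
  rw [lintegral_eq_zero_iff hm] at h
  by_contra hne
  have hopen : IsOpen {y : R.Fib w | Clq_886.cb (fun i y => sg v w y i) b y ≠ 0} :=
    isOpen_ne_fun hcb continuous_const
  have h1 : 0 < nu R w {y : R.Fib w | Clq_886.cb (fun i y => sg v w y i) b y ≠ 0} :=
    leb_pos (nu_leb R w) hopen hne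
  have h2 : nu R w {y : R.Fib w | Clq_886.cb (fun i y => sg v w y i) b y ≠ 0} = 0 := by
    refine measure_mono_null ?_ (ae_iff.1 h)
    intro y' hy' h3
    simp only [Pi.zero_apply, mul_eq_zero] at h3
    rcases h3 with h3 | h3
    · simp only [ne_eq, OfNat.ofNat_ne_zero, not_false_eq_true, pow_eq_zero_iff, enorm_eq_zero] at h3
      exact hy' h3
    · rw [ENNReal.rpow_eq_zero_iff] at h3
      rcases h3 with ⟨_, h5⟩ | ⟨h4, _⟩
      · linarith
      · exact Sat_210.KK_ne_top _ _ h4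
  exact h1.ne' h2

/-- **(Cl)** at one point `w`, from the closure property at `w` -/
theorem cl_at {α : ℝ} (hα : 0 ≤ α) (v : Fin n → R.MK.B) (w : R.ML.Pts)
    (hcl : ∀ f : R.Fib w → ℂ, Ho51.Hol f → IK (nu R w) α f (fun i y => sg v w y i) ≠ ∞ →
      ∃ b : Fin n → ℂ, ∀ y : R.Fib w, f y = ∑ i, b i * sg v w y i) :
    ∃ C : ℝ≥0∞, 0 < C ∧ C ≠ ∞ ∧ ∀ f : R.Fib w → ℂ, Ho51.Hol f →
      IK (nu R w) α f (fun i y => sg v w y i) ≠ ∞ → ∀ y : R.Fib w,
      ‖f y‖ₑ ^ (2 : ℝ) ≤ C * KK (fun i y => sg v w y i) y *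
        IK (nu R w) α f (fun i y => sg v w y i) := by
  have hc : ∀ i, Continuous fun y : R.Fib w => sg v w y i := fun i =>
    (continuous_ev (v i)).comp (RMdl.Fib.continuous_val w)
  obtain ⟨C, hC0, hC, h⟩ := Clq_886.exists_const (μ := nu R w) (v := fun i y => sg v w y i)
    (fun i => (hc i).measurable) (wt := fun y => KK (fun i y => sg v w y i) y ^ (-α))
    ((Sat_210.meas_KK fun i => (hc i).measurable).pow_const _) (fun b hb y => qf_zero hα v w b hb y)
  refine ⟨C, hC0, hC, fun f hf hint y => ?_⟩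
  obtain ⟨b, hb⟩ := hcl f hf hint
  have h1 := h b y
  have h2 : ∀ y, Clq_886.cb (fun i y => sg v w y i) b y = f y := fun y => (hb y).symm
  have h3 : Clq_886.qf (nu R w) (fun i y => sg v w y i) (fun y => KK (fun i y => sg v w y i) y ^ (-α))
      b = IK (nu R w) α f (fun i y => sg v w y i) := by
    unfold Clq_886.qf IK
    refine lintegral_congr fun y => ?_
    rw [h2, ENNReal.rpow_two]
  rw [h2, h3] at h1
  unfold KK
  simpa only [ENNReal.rpow_two] using h1

end Crest.Agent.R276.SatC_886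
end
end

-- ▼ part R276/Cl2_886
section

/-!
# Row 276 (S0419): SAT (E4) (helper886): (Cl) in the notation of SkelDefs_220

`H : Rel ML MK`, `v : Fin n → MK.B` any finite family, closed in weight `N > 0`.  Off a hypersurface:
* `cl_rel` : `f` holomorphic on the fibre over `z`, `∫ |f|² K^{-(N-1)/N} < ∞` implies
  `|f(y)|² ≤ C K(y) ∫ |f|² K^{-(N-1)/N}`;
* `cl_rel_pos` : the same for ALL `f` when `K > 0` on the fibre (some `v_i` a unit).
-/

set_option autoImplicit false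
set_option linter.unusedSectionVars false

open Set Filter Topology MeasureTheory
open scoped ENNReal Matrix

noncomputable section

namespace Crest.Agent.R276.SatC_886

open Crest.Agent.R271 Crest.Agent.R271.Ho51 Crest.Agent.R271.Rd692
open Crest.Agent.R271.Defs710 hiding glue
open Crest.Agent.R271.Alg255 Crest.Agent.R271.AlgB956
open Crest.Agent.R276.AB2_590 Crest.Agent.R276.Mod1_987 Crest.Agent.R276.End_723
open Crest.Agent.R276.EngU_29 Crest.Agent.R276.FlatDefs_236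
open Crest.Agent.R276.SkelDefs_220 Crest.Agent.R276.CInd_870 Crest.Agent.R276.RelC_870
open Crest.Agent.R276.RelB_870
open Crest.Agent.R276.Sat_210 (IK IW KK)

variable {L K : Type} [Field L] [Field K] [Algebra ℂ L] [Algebra ℂ K] [Algebra L K]
  [IsScalarTower ℂ L K] {m r n : ℕ}

/-- the fibre integral only needs measurability on the fibre -/
theorem fint_eq' (R : RMdl L K m r) {w : R.ML.Pts} {μ : Measure (R.Fib w)} (hμ : IsLeb μ)
    {g : R.MK.Pts → ℝ≥0∞} (hg : Measurable fun y : R.Fib w => g y.val) :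
    R.fint w g = ∫⁻ y, g y.val ∂μ := by
  have h1 := lintegral_eq_fibre hμ (g := fun y : R.Fib w => g y.val) hg
  rw [h1]
  unfold RMdl.fint
  exact lintegral_congr fun ξ => R.fsumR_eq g w ξ

variable {ML : Mdl L m} {MK : Mdl K (m + r)} (H : Rel ML MK)

/-- `K^{-(N-1)/N}`, `K = ∑ |v_i|²` -/
def kv (N : ℕ) (v : Fin n → MK.B) (y : MK.Pts) : ℝ≥0∞ :=
  (ENNReal.ofReal (∑ i, ‖y (v i)‖ ^ 2)) ^ (-(((N : ℝ) - 1) / N))

lemma ik_eq {N : ℕ} (v : Fin n → MK.B) (z : ML.Pts) {f : MK.Pts → ℂ} (hf : H.HolF z f) :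
    IK (nu (rm H) z) (((N : ℝ) - 1) / N) (fun y : (rm H).Fib z => f y.val)
      (fun i y => sg (R := rm H) v z y i) = H.fint z (fun y => ‖f y‖ₑ ^ 2 * kv N v y) := by
  have hh := (holF_iff H z f).1 hf
  have hfc : Continuous fun y : (rm H).Fib z => f y.val :=
    (Crest.Agent.R273.OTA_34.hol_of _ hh).sm.continuous
  have hvc : ∀ i, Continuous fun y : (rm H).Fib z => (y.val : MK.B →ₐ[ℂ] ℂ) (v i) := fun i =>
    (continuous_ev (v i)).comp (RMdl.Fib.continuous_val (R := rm H) z)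
  have hKm : Measurable fun y : (rm H).Fib z => kv N v y.val := by
    unfold kv
    exact (continuous_finsetSum _ fun i _ => ((hvc i).norm.pow 2)).measurable.ennreal_ofReal.pow_const _
  rw [fint_rm, fint_eq' (rm H) (nu_leb (rm H) z) ((hfc.enorm.measurable.pow_const 2).mul hKm)]
  unfold IK
  refine lintegral_congr fun y => ?_
  rw [KK_eq, ENNReal.rpow_two]
  rfl

/-- the closure hypothesis, weight `N`: `b ∈ B_K` with `∫ |b|² K^{-(N-1)/N} < ∞` (weighted in the
base variables) is in `span_L v` -/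
def Closed (N : ℕ) (v : Fin n → MK.B) : Prop :=
  ∀ b : MK.B, SatC_210.InE (rm H) (fun y => ‖(y : MK.B →ₐ[ℂ] ℂ) b‖ₑ ^ 2 *
    SatC_210.kw (R := rm H) N v y) → (b : K) ∈ Submodule.span L (range fun i => (v i : K))

/-- **(Cl)** of 185 -/
theorem cl_rel {N : ℕ} (hN : 0 < N) {v : Fin n → MK.B} (hB : Closed H N v) :
    ∃ P : MvPolynomial (Fin m) ℂ, P ≠ 0 ∧ ∀ z : ML.Pts, MvPolynomial.eval (ML.pz z) P ≠ 0 →
      ∃ C : ℝ≥0∞, 0 < C ∧ C ≠ ∞ ∧ ∀ f : MK.Pts → ℂ, H.HolF z f →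
        H.fint z (fun y => ‖f y‖ₑ ^ 2 * kv N v y) ≠ ∞ → ∀ y : MK.Pts, H.f y = z →
        ‖f y‖ₑ ^ 2 ≤ C * ENNReal.ofReal (∑ i, ‖y (v i)‖ ^ 2) *
          H.fint z (fun y => ‖f y‖ₑ ^ 2 * kv N v y) := by
  obtain ⟨P, hP, h⟩ := clos_dep (R := rm H) hN (v := v) hB
  have hN1 : (1 : ℝ) ≤ N := by exact_mod_cast hN
  have hα : 0 ≤ ((N : ℝ) - 1) / N := div_nonneg (by linarith) (by linarith)
  refine ⟨P, hP, fun z hz => ?_⟩
  obtain ⟨C, hC0, hC, h1⟩ := cl_at (R := rm H) hα v z (h z hz)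
  refine ⟨C, hC0, hC, fun f hf hint y hy => ?_⟩
  have h2 := h1 (fun y => f y.val) ((holF_iff H z f).1 hf) (by rw [ik_eq H v z hf]; exact hint)
    ⟨y, (rm_q H y).trans hy⟩
  rw [ik_eq H v z hf, KK_eq, ENNReal.rpow_two] at h2
  exact h2


end Crest.Agent.R276.SatC_886
end
end

-- ▼ part R276/Cl3_886
section

/-!
# Row 276 (S0419): (Cl) of 185, unconditional (helper886)

`H : Rel ML MK`, `bK` the basis `dx` of `Ω[K⁄L]`, `v : Fin n → MK.B` regular relative `N`-forms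
(`Pluri L bK N (v i)`) spanning all of them over `L` (dependent families allowed).
-/

set_option autoImplicit false

open Set Filter Topology MeasureTheory
open scoped ENNReal

noncomputable section

namespace Crest.Agent.R276.SatC_886

open Crest.Agent.R276.Mod1_987 Crest.Agent.R276.SkelDefs_220 Crest.Agent.R276.CInd_870
open Crest.Agent.R276.FKDefs_779

variable {L K : Type} [Field L] [Field K] [Algebra ℂ L] [Algebra ℂ K] [Algebra L K]
  [IsScalarTower ℂ L K] {m r n : ℕ} {ML : Mdl L m} {MK : Mdl K (m + r)} (H : SkelDefs_220.Rel ML MK)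

/-- a spanning family of regular relative `N`-forms is closed -/
theorem closed_of_pluri {N : ℕ} (hN : 0 < N) {bK : Module.Basis (Fin r) K (Ω[K⁄L])}
    (hbK : IsRelBasis MK bK) {v : Fin n → MK.B} (hv : ∀ i, Pluri L bK N (v i : K))
    (hspan : ∀ g : K, Pluri L bK N g → g ∈ Submodule.span L (range fun i => (v i : K))) :
    Closed H N v := fun b hb =>
  hspan _ (SatG_152.pluri_of_inE (R := rm H) hN bK hbK v hv b hb)

/-- **(Cl)** -/
theorem cl_pluri {N : ℕ} (hN : 0 < N) {bK : Module.Basis (Fin r) K (Ω[K⁄L])}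
    (hbK : IsRelBasis MK bK) {v : Fin n → MK.B} (hv : ∀ i, Pluri L bK N (v i : K))
    (hspan : ∀ g : K, Pluri L bK N g → g ∈ Submodule.span L (range fun i => (v i : K))) :
    ∃ P : MvPolynomial (Fin m) ℂ, P ≠ 0 ∧ ∀ z : ML.Pts, MvPolynomial.eval (ML.pz z) P ≠ 0 →
      ∃ C : ℝ≥0∞, 0 < C ∧ C ≠ ∞ ∧ ∀ f : MK.Pts → ℂ, H.HolF z f →
        H.fint z (fun y => ‖f y‖ₑ ^ 2 * kv N v y) ≠ ∞ → ∀ y : MK.Pts, H.f y = z →
        ‖f y‖ₑ ^ 2 ≤ C * ENNReal.ofReal (∑ i, ‖y (v i)‖ ^ 2) *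
          H.fint z (fun y => ‖f y‖ₑ ^ 2 * kv N v y) :=
  cl_rel H hN (closed_of_pluri H hN hbK hv hspan)


end Crest.Agent.R276.SatC_886
end
end

-- ▼ part R276/Pur3_429
section

/-!
R276 / Pur3_429.  Restriction of regularity to an intermediate field, for ARBITRARY valuation rings:
`RegAt k R (dt ⊕ b') m g → RegAt M R b' m g` when `M ⊆ R`.
-/

set_option autoImplicit false

namespace Crest.Agent.R276.Pur429

open Crest.Agent.R276.FKDefs_779

section linalg

variable {K Ω Ω' : Type*} [Field K] [AddCommGroup Ω] [Module K Ω] [AddCommGroup Ω'] [Module K Ω']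
  {s n : ℕ}

theorem repr_natAdd (b : Module.Basis (Fin (s + n)) K Ω) (b' : Module.Basis (Fin n) K Ω')
    (π : Ω →ₗ[K] Ω') (h1 : ∀ i, π (b (Fin.castAdd n i)) = 0)
    (h2 : ∀ j, π (b (Fin.natAdd s j)) = b' j) (x : Ω) (j : Fin n) :
    b.repr x (Fin.natAdd s j) = b'.repr (π x) j := by
  conv_rhs => rw [← b.sum_repr x]
  rw [map_sum, Fin.sum_univ_add]
  simp only [map_smul, h1, h2, smul_zero, Finset.sum_const_zero, zero_add]
  rw [b'.repr_sum_self]





end linalg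

section main

variable {k M K : Type*} [Field k] [Field M] [CharZero M] [Field K] [Algebra k M] [Algebra M K]
  [Algebra k K] [IsScalarTower k M K] {s n : ℕ}




end main

end Crest.Agent.R276.Pur429
end

-- ▼ part R276/Den_464

/-!
# Row 276 (helper464): relative pluricanonical forms on a relative model

* `exists_den` : a regular relative form `g (dx)^N` of `K/L` has only vertical poles on `M_K`:
  `a g ∈ B_K` for some `a ∈ B_L`, `a ≠ 0`;
* `exists_v` : a finite family `v` in `B_K` of regular relative `N`-forms spanning all of them over `L`.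
-/

set_option autoImplicit false
set_option linter.unusedSectionVars false

open Set Filter Topology MeasureTheory
open scoped ENNReal

noncomputable section

namespace Crest.Agent.R276.Den_464

open Crest.Agent.R276.Mod1_987 Crest.Agent.R276.FKDefs_779 Crest.Agent.R276.SkelDefs_220
open Crest.Agent.R276.Deg1_594 Crest.Agent.R276.BetaDefs_231

variable {L K : Type} [Field L] [Field K] [Algebra ℂ L] [Algebra ℂ K] [Algebra L K]
  [IsScalarTower ℂ L K] {m r : ℕ} {ML : Mdl L m} {MK : Mdl K (m + r)}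

lemma exists_basis_mdl {K : Type} [Field K] [Algebra ℂ K] {n : ℕ} (M : Mdl K n) :
    ∃ b : Module.Basis (Fin n) K (Ω[K⁄ℂ]), ∀ j, b j = KaehlerDifferential.D ℂ K (M.z j : K) := by
  have := M.frac
  have h1 : Algebra.IsAlgebraic M.B K := IsLocalization.isAlgebraic K (nonZeroDivisors M.B)
  exact Bcq_828.exists_basis_B (K := K) (B := M.B) (IsFractionRing.injective M.B K) M.z M.het

/-- relative Jacobians of elements of the local ring at a height one prime -/
lemma rel_jac_mem (H : Rel ML MK) (bK : Module.Basis (Fin r) K (Ω[K⁄L])) (hb : IsRelBasis MK bK)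
    (p : Ideal MK.B) [hp : p.IsPrime] (h1 : p.height = 1) {y : Fin r → K}
    (hy : ∀ i, y i ∈ valAt (Deg2_594.etChart_of_mdl MK) p h1) :
    jac L bK y ∈ valAt (Deg2_594.etChart_of_mdl MK) p h1 := by
  obtain ⟨b, hb'⟩ := exists_basis_mdl MK
  have hA := Deg2_594.etChart_of_mdl MK
  set π : Ω[K⁄ℂ] →ₗ[K] Ω[K⁄L] := KaehlerDifferential.map ℂ L K K with hπ
  have hD : ∀ x : K, π (KaehlerDifferential.D ℂ K x) = KaehlerDifferential.D L K x := fun x =>
    KaehlerDifferential.map_D ℂ L K K x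
  have e1 : ∀ i, π (b (Fin.castAdd r i)) = 0 := by
    intro i
    rw [hb', hD, H.coord]
    exact Derivation.map_algebraMap _ _
  have e2 : ∀ j, π (b (Fin.natAdd m j)) = bK j := by
    intro j
    rw [hb', hD, hb j]
  unfold jac
  rw [Module.Basis.det_apply, Matrix.det_apply]
  refine sum_mem fun σ _ => ?_
  rw [Units.smul_def, zsmul_eq_mul]
  refine mul_mem (by exact intCast_mem _ _) (prod_mem fun i _ => ?_)
  rw [Module.Basis.toMatrix_apply, ← hD, ← Pur429.repr_natAdd b bK π e1 e2]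
  exact repr_mem _ p h1 b hb' (hy i) _

lemma mem_of_regAt_rel (H : Rel ML MK) (bK : Module.Basis (Fin r) K (Ω[K⁄L]))
    (hb : IsRelBasis MK bK) {N : ℕ} {g : K} (p : Ideal MK.B) [hp : p.IsPrime] (h1 : p.height = 1)
    (hg : RegAt L (valAt (Deg2_594.etChart_of_mdl MK) p h1) bK N g) :
    g ∈ valAt (Deg2_594.etChart_of_mdl MK) p h1 := by
  obtain ⟨y, hy, hle⟩ := hg
  have h2 : (valAt (Deg2_594.etChart_of_mdl MK) p h1).valuation (jac L bK y) ≤ 1 :=
    (ValuationSubring.valuation_le_one_iff _ _).mpr (rel_jac_mem H bK hb p h1 hy)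
  exact (ValuationSubring.valuation_le_one_iff _ _).mp (hle.trans (pow_le_one₀ zero_le h2))

/-- powers of an element of a height one prime kill poles -/
lemma exists_pow_mem (p : Ideal MK.B) [hp : p.IsPrime] (h1 : p.height = 1) {a : MK.B} (ha : a ∈ p)
    (g : K) : ∃ k : ℕ, (a : K) ^ k * g ∈ valAt (Deg2_594.etChart_of_mdl MK) p h1 := by
  have hA := Deg2_594.etChart_of_mdl MK
  obtain ⟨b, c, hc, rfl⟩ := MK.frac g
  have := dvr hA p h1
  have hι : Function.Injective (algebraMap MK.B (Localization.AtPrime p)) :=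
    IsLocalization.injective _ p.primeCompl_le_nonZeroDivisors
  obtain ⟨ϖ, hϖ⟩ := IsDiscreteValuationRing.exists_irreducible (Localization.AtPrime p)
  have hc0 : algebraMap MK.B (Localization.AtPrime p) c ≠ 0 := fun h =>
    hc (hι (by rw [h, map_zero]))
  obtain ⟨k, u, hu⟩ := IsDiscreteValuationRing.eq_unit_mul_pow_irreducible hc0 hϖ
  have hmem : algebraMap MK.B (Localization.AtPrime p) a ∈
      IsLocalRing.maximalIdeal (Localization.AtPrime p) := by
    rw [← IsLocalization.AtPrime.to_map_mem_maximal_iff (Localization.AtPrime p) p] at ha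
    exact ha
  rw [hϖ.maximalIdeal_eq, Ideal.mem_span_singleton] at hmem
  obtain ⟨w, hw⟩ := hmem
  refine ⟨k, ?_⟩
  -- `a ^ k = c * (u⁻¹ * w ^ k)` in the local ring
  have h2 : algebraMap MK.B (Localization.AtPrime p) (a ^ k) =
      algebraMap MK.B (Localization.AtPrime p) c * ((↑u⁻¹ : Localization.AtPrime p) * w ^ k) := by
    rw [map_pow, hw, hu, mul_pow]
    calc ϖ ^ k * w ^ k = ((u : Localization.AtPrime p) * (↑u⁻¹ : Localization.AtPrime p)) *
          (ϖ ^ k * w ^ k) := by rw [Units.mul_inv, one_mul]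
      _ = _ := by ring
  obtain ⟨⟨c', s⟩, hc'⟩ := IsLocalization.surj p.primeCompl
    ((↑u⁻¹ : Localization.AtPrime p) * w ^ k)
  refine ⟨c' * b, s, s.2, ?_⟩
  have h3 : (s : MK.B) * a ^ k = c * c' := by
    apply hι
    rw [map_mul, h2, map_mul, ← hc']
    ring
  have h4 : ((s : MK.B) : K) * (a : K) ^ k = c * c' := by exact_mod_cast congrArg Subtype.val h3
  have hcK : (c : K) ≠ 0 := fun h => hc (Subtype.ext h)
  push_cast
  field_simp
  rw [h4]
  ring

/-- **poles are vertical** -/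
theorem exists_den (H : Rel ML MK) (bK : Module.Basis (Fin r) K (Ω[K⁄L])) (hb : IsRelBasis MK bK)
    {N : ℕ} {g : K} (hg : PluriS L bK N g) :
    ∃ a : ML.B, a ≠ 0 ∧ algebraMap L K a * g ∈ MK.B := by
  classical
  have hA := Deg2_594.etChart_of_mdl MK
  obtain ⟨b0, c0, hc0, hgbc⟩ := MK.frac g
  -- one prime
  have key : ∀ (p : Ideal MK.B), p.IsPrime ∧ p.height = 1 →
      ∃ a : ML.B, a ≠ 0 ∧ ∀ (hp : p.IsPrime) (h1 : p.height = 1),
        algebraMap L K a * g ∈ valAt hA p h1 := by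
    rintro p ⟨hp, h1⟩
    by_cases hL : ∃ a : ML.B, a ≠ 0 ∧ H.incl a ∈ p
    · obtain ⟨a, ha, hap⟩ := hL
      obtain ⟨k, hk⟩ := exists_pow_mem p h1 hap g
      refine ⟨a ^ k, pow_ne_zero _ ha, fun _ _ => ?_⟩
      have e1 : algebraMap L K ((a ^ k : ML.B) : L) = ((H.incl a : MK.B) : K) ^ k := by
        change algebraMap L K ((a : L) ^ k) = (algebraMap L K a) ^ k
        exact map_pow _ _ _
      rw [e1]
      exact hk
    · push Not at hL
      refine ⟨1, one_ne_zero, fun _ _ => ?_⟩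
      have e1 : algebraMap L K ((1 : ML.B) : L) * g = g := by
        change algebraMap L K 1 * g = g
        rw [map_one, one_mul]
      rw [e1]
      refine mem_of_regAt_rel H bK hb p h1 (hg _ fun c => ?_)
      obtain ⟨x, y, hy, rfl⟩ := ML.frac c
      refine ⟨H.incl x, H.incl y, hL y hy, ?_⟩
      have hy0 : algebraMap L K (y : L) ≠ 0 := by
        rw [Ne, map_eq_zero]
        exact fun h => hy (Subtype.ext h)
      change algebraMap L K y * algebraMap L K (x / y) = algebraMap L K x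
      rw [map_div₀]
      field_simp
  have hfin := finite_bad hA hc0
  choose! α hα hαm using key
  refine ⟨∏ p ∈ hfin.toFinset, α p, Finset.prod_ne_zero_iff.2 fun p hp => ?_, ?_⟩
  · obtain ⟨h1, h2, -⟩ := hfin.mem_toFinset.1 hp
    exact hα p ⟨h1, h2⟩
  · obtain ⟨b, hb'⟩ := exists_basis_mdl MK
    refine mem_of_regAt hA b hb' (m := 0) fun p hp h1 => Or.inl ?_
    have hinc : ∀ a : ML.B, algebraMap L K a ∈ valAt hA p h1 := fun a =>
      A_le_valAt hA p h1 (H.mem a)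
    by_cases hc : c0 ∈ p
    · have hmem : p ∈ hfin.toFinset := hfin.mem_toFinset.2 ⟨hp, h1, hc⟩
      have e1 : algebraMap L K ((∏ p ∈ hfin.toFinset, α p : ML.B) : L) * g =
          algebraMap L K ((∏ q ∈ hfin.toFinset.erase p, α q : ML.B) : L) *
            (algebraMap L K (α p) * g) := by
        have e0 : ((∏ p ∈ hfin.toFinset, α p : ML.B) : L) =
            ((∏ q ∈ hfin.toFinset.erase p, α q : ML.B) : L) * (α p : L) := by
          rw [← Finset.prod_erase_mul _ _ hmem]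
          rfl
        rw [e0, map_mul, mul_assoc]
      rw [e1]
      exact mul_mem (hinc _) (hαm p ⟨hp, h1⟩ hp h1)
    · refine mul_mem (hinc _) ⟨b0, c0, hc, ?_⟩
      have : (c0 : K) ≠ 0 := fun h => hc0 (Subtype.ext h)
      rw [hgbc]
      field_simp

/-- **a spanning family in `B_K`** -/
theorem exists_v (H : Rel ML MK) (bK : Module.Basis (Fin r) K (Ω[K⁄L])) (hb : IsRelBasis MK bK)
    (hHon : Honest L K) (N : ℕ) :
    ∃ (n : ℕ) (v : Fin n → MK.B), LinearIndependent L (fun i => (v i : K)) ∧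
      (∀ i, PluriS L bK N (v i : K)) ∧
      ∀ g, Pluri L bK N g → g ∈ Submodule.span L (Set.range fun i => ((v i : MK.B) : K)) := by
  classical
  obtain ⟨n, v, hli, hv, hsp⟩ := SatG_152.exists_fam (CInd_870.rm H) bK N
  have h1 : ∀ i, PluriS L bK N (v i) := fun i => hHon r bK N (v i) (hv i)
  choose a ha ham using fun i => exists_den H bK hb (h1 i)
  have ha0 : ∀ i, (a i : L) ≠ 0 := fun i h => ha i (Subtype.ext h)
  have hsm : ∀ i, algebraMap L K (a i) * v i = (a i : L) • v i := fun i => (Algebra.smul_def _ _).symm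
  refine ⟨n, fun i => ⟨_, ham i⟩, ?_, fun i => ?_, fun g hg => ?_⟩
  · have h2 : (fun i => algebraMap L K (a i) * v i) =
        (fun i => (Units.mk0 (a i : L) (ha0 i)) • v i) := by
      funext i
      rw [hsm]
      rfl
    change LinearIndependent L (fun i => algebraMap L K (a i) * v i)
    rw [h2]
    exact hli.units_smul _
  · intro R hR
    obtain ⟨y, hy, hle⟩ := h1 i R hR
    refine ⟨y, hy, ?_⟩
    change R.valuation (algebraMap L K (a i) * v i) ≤ _
    rw [map_mul]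
    have h3 : R.valuation (algebraMap L K (a i)) ≤ 1 :=
      (ValuationSubring.valuation_le_one_iff _ _).2 (hR _)
    calc _ ≤ 1 * R.valuation (v i) := mul_le_mul_left h3 _
      _ ≤ _ := by rw [one_mul]; exact hle
  · refine Submodule.span_le.2 ?_ (hsp g hg)
    rintro _ ⟨i, rfl⟩
    have h4 : v i = (a i : L)⁻¹ • (algebraMap L K (a i) * v i) := by
      rw [hsm, smul_smul, inv_mul_cancel₀ (ha0 i), one_smul]
    have h5 : algebraMap L K (a i) * v i ∈
        Submodule.span L (Set.range fun i => algebraMap L K (a i) * v i) :=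
      Submodule.subset_span ⟨i, rfl⟩
    change v i ∈ Submodule.span L (Set.range fun i => algebraMap L K (a i) * v i)
    rw [h4]
    exact Submodule.smul_mem _ _ h5

end Crest.Agent.R276.Den_464
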