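import Crest.Agent.R276.FKDefs_779
import Crest.Agent.R276.FK1_779
import Crest.Agent.R276.FKB0_143

/-!
# Row 276, END0 (helper508), part A: algebra of the endgame in the flat case

`k ⊆ L ⊆ K`, characteristic `0`.

* `Adapted bL bK b`, `exists_adapted`, `jac_tower` : `jac k b (z', y) = jac k bL z' * jac L bK y`;
* `RegAt.mul'`, `RegAt.pow'` : products of regular forms;
* `regAt_tower` : `w` regular at `R ∩ L` and `τ` regular at `R` relative to `L` ⟹ `τ^α w^β` is
  regular at `R` over `k` (this is `K_{K/L} + f^* K_L ≤ K_K`, at every valuation ring);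
* `kapGeF_of` : the finite-test conclusion of `CoreBeta` from flat relative forms.
-/

set_option autoImplicit false

noncomputable section

open KaehlerDifferential

namespace Crest.Agent.R276.End0_508

open Crest.Agent.R276.FKDefs_779

section tower

variable {k L K : Type*} [Field k] [Field L] [Field K] [Algebra k L] [Algebra k K] [Algebra L K]
  [IsScalarTower k L K] {m r : ℕ}

/-- a basis of `Ω[K⁄k]` adapted to bases of `Ω[L⁄k]` and `Ω[K⁄L]`. -/
structure Adapted (bL : Module.Basis (Fin m) L (Ω[L⁄k])) (bK : Module.Basis (Fin r) K (Ω[K⁄L]))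
    (b : Module.Basis (Fin (m + r)) K (Ω[K⁄k])) : Prop where
  lo : ∀ i, b (Fin.castAdd r i) = KaehlerDifferential.map k k L K (bL i)
  hi : ∀ j, KaehlerDifferential.map k L K K (b (Fin.natAdd m j)) = bK j

theorem map_map_eq_zero (ω : Ω[L⁄k]) :
    KaehlerDifferential.map k L K K (KaehlerDifferential.map k k L K ω) = 0 := by
  have hω : ω ∈ Submodule.span L (Set.range (D k L)) := by
    rw [KaehlerDifferential.span_range_derivation]; trivial
  induction hω using Submodule.span_induction with
  | mem x hx =>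
    obtain ⟨l, rfl⟩ := hx
    rw [KaehlerDifferential.map_D, KaehlerDifferential.map_D]
    simp
  | zero => simp
  | add x y _ _ hx hy => rw [map_add, map_add, hx, hy, add_zero]
  | smul a x _ hx =>
    rw [LinearMap.map_smul]
    have h1 : a • (KaehlerDifferential.map k k L K x) =
        (algebraMap L K a) • (KaehlerDifferential.map k k L K x) := by
      rw [algebraMap_smul]
    rw [h1, LinearMap.map_smul, hx, smul_zero]

variable {bL : Module.Basis (Fin m) L (Ω[L⁄k])} {bK : Module.Basis (Fin r) K (Ω[K⁄L])}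
  {b : Module.Basis (Fin (m + r)) K (Ω[K⁄k])}

theorem Adapted.map_eq (h : Adapted bL bK b) (ω : Ω[L⁄k]) :
    KaehlerDifferential.map k k L K ω =
      ∑ i : Fin m, algebraMap L K (bL.repr ω i) • b (Fin.castAdd r i) := by
  conv_lhs => rw [← bL.sum_repr ω]
  rw [map_sum]
  refine Finset.sum_congr rfl fun i _ => ?_
  rw [LinearMap.map_smul, h.lo, algebraMap_smul]

theorem Adapted.repr_lo (h : Adapted bL bK b) (ω : Ω[L⁄k]) (i : Fin m) :
    b.repr (KaehlerDifferential.map k k L K ω) (Fin.castAdd r i) =
      algebraMap L K (bL.repr ω i) := by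
  rw [h.map_eq, map_sum, Finsupp.finsetSum_apply]
  rw [Finset.sum_eq_single i]
  · rw [LinearEquiv.map_smul, Module.Basis.repr_self, Finsupp.smul_apply, Finsupp.single_eq_same,
      smul_eq_mul, mul_one]
  · intro j _ hj
    rw [LinearEquiv.map_smul, Module.Basis.repr_self]
    simp [hj]
  · intro hi
    exact absurd (Finset.mem_univ i) hi

theorem Adapted.repr_lo' (h : Adapted bL bK b) (ω : Ω[L⁄k]) (j : Fin r) :
    b.repr (KaehlerDifferential.map k k L K ω) (Fin.natAdd m j) = 0 := by
  rw [h.map_eq, map_sum, Finsupp.finsetSum_apply]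
  refine Finset.sum_eq_zero fun i _ => ?_
  rw [LinearEquiv.map_smul, Module.Basis.repr_self]
  have : Fin.castAdd r i ≠ Fin.natAdd m j := by
    intro h
    have := congrArg Fin.val h
    simp only [Fin.val_castAdd, Fin.val_natAdd] at this
    omega
  simp [this]

theorem Adapted.repr_hi (h : Adapted bL bK b) (ω : Ω[K⁄k]) (j : Fin r) :
    bK.repr (KaehlerDifferential.map k L K K ω) j = b.repr ω (Fin.natAdd m j) := by
  conv_lhs => rw [← b.sum_repr ω]
  rw [map_sum, Fin.sum_univ_add]
  have h1 : ∀ i : Fin m, KaehlerDifferential.map k L K K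
      (b.repr ω (Fin.castAdd r i) • b (Fin.castAdd r i)) = 0 := by
    intro i
    rw [LinearMap.map_smul, h.lo, map_map_eq_zero, smul_zero]
  have h2 : ∀ i : Fin r, KaehlerDifferential.map k L K K
      (b.repr ω (Fin.natAdd m i) • b (Fin.natAdd m i)) = b.repr ω (Fin.natAdd m i) • bK i := by
    intro i
    rw [LinearMap.map_smul, h.hi]
  rw [Finset.sum_eq_zero (fun i _ => h1 i), zero_add, Finset.sum_congr rfl (fun i _ => h2 i)]
  rw [Module.Basis.repr_sum_self]

theorem Adapted.jac_tower (h : Adapted bL bK b) (z' : Fin m → L) (y : Fin r → K) :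
    jac k b (Fin.append (fun i => algebraMap L K (z' i)) y) =
      algebraMap L K (jac k bL z') * jac L bK y := by
  unfold jac
  rw [Module.Basis.det_apply, Module.Basis.det_apply, Module.Basis.det_apply]
  have key : (b.toMatrix (fun i => D k K (Fin.append (fun i => algebraMap L K (z' i)) y i))).submatrix
      finSumFinEquiv finSumFinEquiv =
      Matrix.fromBlocks ((bL.toMatrix (fun i => D k L (z' i))).map (algebraMap L K))
        (Matrix.of fun i j => b.repr (D k K (y j)) (Fin.castAdd r i)) 0
        (bK.toMatrix (fun i => D L K (y i))) := by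
    ext i j
    rcases i with i | i <;> rcases j with j | j
    · simp only [Matrix.submatrix_apply, finSumFinEquiv_apply_left, Module.Basis.toMatrix_apply,
        Fin.append_left, Matrix.fromBlocks_apply₁₁, Matrix.map_apply]
      rw [← KaehlerDifferential.map_D k k L K, h.repr_lo]
    · simp only [Matrix.submatrix_apply, finSumFinEquiv_apply_left, finSumFinEquiv_apply_right,
        Module.Basis.toMatrix_apply, Fin.append_right, Matrix.fromBlocks_apply₁₂, Matrix.of_apply]
    · simp only [Matrix.submatrix_apply, finSumFinEquiv_apply_left, finSumFinEquiv_apply_right,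
        Module.Basis.toMatrix_apply, Fin.append_left, Matrix.fromBlocks_apply₂₁, Matrix.zero_apply]
      rw [← KaehlerDifferential.map_D k k L K, h.repr_lo']
    · simp only [Matrix.submatrix_apply, finSumFinEquiv_apply_right,
        Module.Basis.toMatrix_apply, Fin.append_right, Matrix.fromBlocks_apply₂₂]
      rw [← h.repr_hi, KaehlerDifferential.map_D]
      rfl
  rw [← Matrix.det_submatrix_equiv_self finSumFinEquiv, key, Matrix.det_fromBlocks_zero₂₁]
  congr 1
  exact (RingHom.map_det (algebraMap L K) _).symm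

/-- the transcendence basis `(z, x)` of a tower. -/
theorem isTranscendenceBasis_append {z : Fin m → L} {x : Fin r → K}
    (hz : IsTranscendenceBasis k z) (hx : IsTranscendenceBasis L x) :
    IsTranscendenceBasis k (Fin.append (fun i => algebraMap L K (z i)) x) := by
  have h1 := hz.sumElim_comp hx
  let e : Fin (m + r) ≃ Fin r ⊕ Fin m := finSumFinEquiv.symm.trans (Equiv.sumComm _ _)
  have h2 : Fin.append (fun i => algebraMap L K (z i)) x =
      (Sum.elim x (algebraMap L K ∘ z)) ∘ e := by
    funext i
    refine Fin.addCases (fun i => ?_) (fun j => ?_) i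
    · simp [e]
    · simp [e]
  rw [h2]
  exact (isTranscendenceBasis_equiv e).mpr h1

theorem exists_adapted [CharZero k] [CharZero L] {z : Fin m → L} {x : Fin r → K}
    (hz : IsTranscendenceBasis k z) (hx : IsTranscendenceBasis L x)
    (bL : Module.Basis (Fin m) L (Ω[L⁄k])) (hbL : ∀ i, bL i = D k L (z i))
    (bK : Module.Basis (Fin r) K (Ω[K⁄L])) (hbK : ∀ i, bK i = D L K (x i)) :
    ∃ b : Module.Basis (Fin (m + r)) K (Ω[K⁄k]), Adapted bL bK b ∧
      ∀ i, b i = D k K (Fin.append (fun i => algebraMap L K (z i)) x i) := by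
  obtain ⟨b, hb⟩ := FKB0_143.exists_kbasis (isTranscendenceBasis_append hz hx)
  refine ⟨b, ⟨fun i => ?_, fun j => ?_⟩, hb⟩
  · rw [hb, Fin.append_left, hbL, KaehlerDifferential.map_D]
  · rw [hb, Fin.append_right, KaehlerDifferential.map_D, hbK]
    rfl

end tower

section reg

variable {k K : Type*} [Field k] [Field K] [Algebra k K] {n : ℕ} {R : ValuationSubring K}
  {b : Module.Basis (Fin n) K (Ω[K⁄k])}

theorem regAt_mul {m₁ m₂ : ℕ} {g₁ g₂ : K} (h₁ : RegAt k R b m₁ g₁) (h₂ : RegAt k R b m₂ g₂) :
    RegAt k R b (m₁ + m₂) (g₁ * g₂) := by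
  obtain ⟨y, hy, h1⟩ := h₁
  obtain ⟨y', hy', h2⟩ := h₂
  rcases le_total (R.valuation (jac k b y)) (R.valuation (jac k b y')) with hle | hle
  · refine ⟨y', hy', ?_⟩
    rw [map_mul, pow_add]
    exact mul_le_mul' (h1.trans (pow_le_pow_left₀ zero_le hle _)) h2
  · refine ⟨y, hy, ?_⟩
    rw [map_mul, pow_add]
    exact mul_le_mul' h1 (h2.trans (pow_le_pow_left₀ zero_le hle _))

theorem regAt_pow {m : ℕ} {g : K} (h : RegAt k R b m g) (a : ℕ) :
    RegAt k R b (m * a) (g ^ a) := by
  obtain ⟨y, hy, h1⟩ := h
  refine ⟨y, hy, ?_⟩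
  rw [map_pow, pow_mul]
  exact pow_le_pow_left₀ zero_le h1 _

end reg

section regtower

variable {k L K : Type*} [Field k] [Field L] [Field K] [Algebra k L] [Algebra k K] [Algebra L K]
  [IsScalarTower k L K] {m r : ℕ}
variable {bL : Module.Basis (Fin m) L (Ω[L⁄k])} {bK : Module.Basis (Fin r) K (Ω[K⁄L])}
  {b : Module.Basis (Fin (m + r)) K (Ω[K⁄k])}






end regtower

end Crest.Agent.R276.End0_508
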