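import Crest.Agent.R276.FKDefs_779

/-!
# A subextension of a finitely generated field extension is finitely generated (helper595)

`essFiniteType_of_tower`: `k ⊆ L ⊆ K` fields, `K/k` finitely generated ⟹ `L/k` finitely generated.
Any characteristic, any universes.
-/

set_option autoImplicit false
set_option linter.all false

namespace Crest.Agent.R276.FGSub_595

open scoped IntermediateField.algebraAdjoinAdjoin

/-- elements of `L` linearly independent over `F` remain so over `F[y]`, `y` algebraically
independent over `L`. -/
theorem linInd_adjoin {F L K : Type*} [Field F] [Field L] [Field K] [Algebra F L] [Algebra L K]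
    [Algebra F K] [IsScalarTower F L K] {ι' ι : Type*} {y : ι' → K}
    (hy : AlgebraicIndependent L y) {v : ι → L} (hv : LinearIndependent F v) :
    LinearIndependent (Algebra.adjoin F (Set.range y)) (fun i => algebraMap L K (v i)) := by
  rw [linearIndependent_iff']
  intro s g hg
  have hmem : ∀ i, ∃ p : MvPolynomial ι' F, MvPolynomial.aeval y p = (g i : K) := by
    intro i
    have h0 : ∀ x ∈ Algebra.adjoin F (Set.range y), ∃ p : MvPolynomial ι' F,
        MvPolynomial.aeval y p = x := by
      intro x hx
      rw [Algebra.adjoin_range_eq_range_aeval] at hx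
      exact hx
    exact h0 _ (g i).2
  choose p hp using hmem
  have h1 : ∑ i ∈ s, MvPolynomial.C (v i) * MvPolynomial.map (algebraMap F L) (p i) = 0 := by
    apply hy
    rw [map_zero, map_sum, ← hg]
    refine Finset.sum_congr rfl fun i _ => ?_
    rw [map_mul, MvPolynomial.aeval_C, MvPolynomial.aeval_map_algebraMap, hp, Algebra.smul_def,
      mul_comm]
    rfl
  intro i hi
  have h2 : p i = 0 := by
    ext m
    have h3 := congrArg (MvPolynomial.coeff m) h1
    rw [MvPolynomial.coeff_sum, MvPolynomial.coeff_zero] at h3
    have h4 : ∑ i ∈ s, (MvPolynomial.coeff m (p i)) • v i = 0 := by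
      rw [← h3]
      refine Finset.sum_congr rfl fun j _ => ?_
      rw [MvPolynomial.coeff_C_mul, MvPolynomial.coeff_map, Algebra.smul_def, mul_comm]
    rw [MvPolynomial.coeff_zero]
    exact linearIndependent_iff'.mp hv s (fun j => MvPolynomial.coeff m (p j)) h4 i hi
  apply Subtype.ext
  rw [← hp i, h2, map_zero]
  rfl

/-- **A subextension of a finitely generated field extension is finitely generated.** -/
theorem essFiniteType_of_tower (k L K : Type*) [Field k] [Field L] [Field K] [Algebra k L]
    [Algebra L K] [Algebra k K] [IsScalarTower k L K] [Algebra.EssFiniteType k K] :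
    Algebra.EssFiniteType k L := by
  classical
  -- a transcendence basis of `L/k`
  obtain ⟨s, hs⟩ := exists_isTranscendenceBasis k L
  have hsfin : Finite s := by
    have h1 : AlgebraicIndependent k (fun i : s => algebraMap L K i) :=
      hs.1.map' (f := IsScalarTower.toAlgHom k L K) (algebraMap L K).injective
    exact finite_of_algebraicIndependent h1
  let F : IntermediateField k L := IntermediateField.adjoin k (Set.range ((↑) : s → L))
  haveI halg : Algebra.IsAlgebraic F L := hs.isAlgebraic_field
  -- the transcendence basis of `K/L`
  obtain ⟨t, ht⟩ := exists_isTranscendenceBasis L K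
  let y : t → K := Subtype.val
  have hy : IsTranscendenceBasis L y := ht
  -- it is a transcendence basis of `K/F`
  have hyF : IsTranscendenceBasis F y := by
    obtain ⟨s', hs'⟩ := exists_isTranscendenceBasis F L
    haveI : IsEmpty s' := (hs'.isEmpty_iff_isAlgebraic).mpr halg
    have h1 := IsTranscendenceBasis.sumElim_comp hs' hy
    exact (isTranscendenceBasis_equiv' (Equiv.sumEmpty t s').symm (by ext; rfl)).mpr h1
  let E : IntermediateField F K := IntermediateField.adjoin F (Set.range y)
  haveI : Algebra.IsAlgebraic E K := hyF.isAlgebraic_field
  haveI : Algebra.EssFiniteType F K := Algebra.EssFiniteType.of_comp k F K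
  haveI : Algebra.EssFiniteType E K := Algebra.EssFiniteType.of_comp F E K
  haveI : FiniteDimensional E K := Algebra.finite_of_essFiniteType_of_isAlgebraic
  -- a basis of `L/F`
  let b := Module.Free.chooseBasis F L
  have h1 := linInd_adjoin (y := y) hy.1 b.linearIndependent
  have h2 : LinearIndependent E (fun i => algebraMap L K (b i)) :=
    (LinearIndependent.iff_fractionRing (R := Algebra.adjoin F (Set.range y)) (K := E)).mp h1
  haveI : Finite (Module.Free.ChooseBasisIndex F L) := h2.finite
  haveI : Module.Finite F L := Module.Finite.of_basis b
  haveI : Algebra.EssFiniteType k F := by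
    rw [IntermediateField.essFiniteType_iff]
    exact IntermediateField.fg_adjoin_of_finite (Set.finite_range _)
  exact Algebra.EssFiniteType.comp k F L

open Crest.Agent.R276.FKDefs_779 in
theorem fgf_tower (k L K : Type*) [Field k] [Field L] [Field K] [Algebra k L]
    [Algebra L K] [Algebra k K] [IsScalarTower k L K] (h : FGF k K) : FGF k L := by
  haveI : Algebra.EssFiniteType k K := IntermediateField.fg_top_iff.mp h
  exact IntermediateField.fg_top_iff.mpr (essFiniteType_of_tower k L K)

open Crest.Agent.R276.FKDefs_779 in
theorem fgf_intermediate {k K : Type*} [Field k] [Field K] [Algebra k K] (h : FGF k K)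
    (L : IntermediateField k K) : FGF k L :=
  fgf_tower k L K h


end Crest.Agent.R276.FGSub_595
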