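import Mathlib
import Crest.Agent.R276.Mod7_987
import Crest.Agent.R276.BN_143
import Crest.Agent.R276.TowA_849

-- ▼ part R276/Mod8_987
section

/-!
Row 276 (S0419), MOD (helper987), part 8: normality, relative primitive elements.
-/

set_option autoImplicit false

open Polynomial Topology Filter MeasureTheory
open scoped ENNReal

noncomputable section

namespace Crest.Agent.R276.Mod1_987

open Crest.Agent.R271.Defs710 Crest.Agent.R271.Alg255 Crest.Agent.R271.Rd692
open Crest.Agent.R271.AlgB956 Crest.Agent.R271.Ho51 Crest.Agent.R271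
open Crest.Agent.R276.AB2_590

/-- polynomial rings over normal domains are normal -/
theorem isIntegrallyClosed_mv (A : Type) [CommRing A] [IsDomain A] [IsIntegrallyClosed A] :
    ∀ r : ℕ, IsIntegrallyClosed (MvPolynomial (Fin r) A)
  | 0 => IsIntegrallyClosed.of_equiv
      (MvPolynomial.isEmptyAlgEquiv A (Fin 0)).symm.toRingEquiv
  | r + 1 => by
    have := isIntegrallyClosed_mv A r
    exact IsIntegrallyClosed.of_equiv (MvPolynomial.finSuccEquiv A r).symm.toRingEquiv

namespace Mdl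

variable {K : Type} [Field K] [Algebra ℂ K] {n : ℕ} (M : Mdl K n)

/-- the coordinate ring of a model is normal -/
instance : IsIntegrallyClosed M.B := by
  rw [isIntegrallyClosed_iff K]
  rintro a ⟨p, hp, hpa⟩
  let _ : Algebra (MvPolynomial (Fin n) ℂ) K := M.aK.toAlgebra
  have hc : ∀ i, ∃ k : ℕ, M.aK.IsIntegralElem (M.aK M.h ^ k * (p.coeff i : K)) :=
    fun i => (M.mem_B_iff _).mp (p.coeff i).2
  choose k hk using hc
  set N := ∑ i ∈ Finset.range p.natDegree, k i with hN
  set s : M.B := az M.z (M.h ^ N) with hs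
  have hsK : (s : K) = M.aK M.h ^ N := by rw [hs, ← M.aK_eq, map_pow]
  have hd : p.natDegree ≠ 0 := by
    intro h0
    rw [hp.natDegree_eq_zero.mp h0, Polynomial.eval₂_one] at hpa
    exact one_ne_zero hpa
  have hmem : (s : K) * a ∈ M.B := by
    rw [M.mem_B_iff]
    refine ⟨0, ?_⟩
    rw [pow_zero, one_mul]
    change IsIntegral (MvPolynomial (Fin n) ℂ) ((s : K) * a)
    have hmon : ((scaleRoots p s).map (algebraMap M.B K)).Monic :=
      ((monic_scaleRoots_iff s).mpr hp).map _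
    refine IsIntegral.of_aeval_monic_of_isIntegral_coeff (p := (scaleRoots p s).map
      (algebraMap M.B K)) hmon ?_ ?_ ?_
    · rw [((monic_scaleRoots_iff s).mpr hp).natDegree_map, natDegree_scaleRoots]
      exact hd
    · have h1 := scaleRoots_eval₂_eq_zero (algebraMap M.B K) (s := s) hpa
      rw [eval_map]
      have h2 : algebraMap M.B K s = s := rfl
      rw [h2] at h1
      rw [h1]
      exact isIntegral_zero
    · intro i
      rw [coeff_map, coeff_scaleRoots, map_mul]
      rcases lt_trichotomy i p.natDegree with hi | hi | hi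
      · have h1 : algebraMap M.B K (p.coeff i) * algebraMap M.B K (s ^ (p.natDegree - i)) =
            M.aK M.h ^ (N * (p.natDegree - i) - k i) * (M.aK M.h ^ k i * (p.coeff i : K)) := by
          have h2 : k i ≤ N * (p.natDegree - i) := by
            have h3 : k i ≤ N := Finset.single_le_sum (f := k) (fun _ _ => Nat.zero_le _)
              (Finset.mem_range.mpr hi)
            calc k i ≤ N * 1 := by omega
              _ ≤ N * (p.natDegree - i) := Nat.mul_le_mul_left _ (by omega)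
          have h4 : algebraMap M.B K (s ^ (p.natDegree - i)) =
              M.aK M.h ^ (N * (p.natDegree - i)) := by
            rw [map_pow, pow_mul, ← hsK]
            rfl
          rw [h4, ← mul_assoc, ← pow_add, Nat.sub_add_cancel h2, mul_comm]
          rfl
        rw [h1]
        have h5 : IsIntegral (MvPolynomial (Fin n) ℂ) (M.aK M.h) := isIntegral_algebraMap
        have h6 : IsIntegral (MvPolynomial (Fin n) ℂ) (M.aK M.h ^ k i * (p.coeff i : K)) := hk i
        exact (h5.pow _).mul h6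
      · rw [hi, hp.coeff_natDegree, Nat.sub_self, pow_zero, map_one, mul_one]
        exact isIntegral_one
      · rw [coeff_eq_zero_of_natDegree_lt hi, map_zero, zero_mul]
        exact isIntegral_zero
  obtain ⟨u, hu⟩ := M.h_unit.pow N
  have h7 : ((u⁻¹ : M.Bˣ) : M.B) * s = 1 := by
    rw [hs, map_pow, ← hu]
    simp
  refine ⟨((u⁻¹ : M.Bˣ) : M.B) * ⟨(s : K) * a, hmem⟩, ?_⟩
  have h8 : (((u⁻¹ : M.Bˣ) : M.B) : K) * (s : K) = 1 := by
    rw [← MulMemClass.coe_mul, h7]; rfl
  change (((u⁻¹ : M.Bˣ) : M.B) : K) * ((s : K) * a) = a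
  rw [← mul_assoc, h8, one_mul]

end Mdl

namespace RMdl

variable {L K : Type} [Field L] [Field K] [Algebra ℂ L] [Algebra ℂ K] [Algebra L K]
  [IsScalarTower ℂ L K] {m r : ℕ} (R : RMdl L K m r)

/-- `B_L[x]` -/
abbrev RX : Type := MvPolynomial (Fin r) R.ML.B

/-- the ring map `B_L[x] → B_K` -/
def ax : R.RX →+* R.MK.B :=
  MvPolynomial.eval₂Hom (R.incl : R.ML.B →+* R.MK.B) (fun j => R.MK.z (Fin.natAdd m j))

@[simp] lemma ax_C (b : R.ML.B) : R.ax (MvPolynomial.C b) = R.incl b := by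
  rw [ax, MvPolynomial.coe_eval₂Hom, MvPolynomial.eval₂_C]
  rfl

@[simp] lemma ax_X (j : Fin r) : R.ax (MvPolynomial.X j) = R.MK.z (Fin.natAdd m j) := by
  rw [ax, MvPolynomial.coe_eval₂Hom, MvPolynomial.eval₂_X]

/-- values: `P(w, ξ)` -/
lemma apply_ax (y : R.MK.Pts) (P : R.RX) :
    y (R.ax P) = MvPolynomial.eval (R.x y) (MvPolynomial.map (R.q y : R.ML.B →+* ℂ) P) := by
  have h1 : (y : R.MK.B →+* ℂ).comp R.ax =
      (MvPolynomial.eval (R.x y)).comp (MvPolynomial.map (R.q y : R.ML.B →+* ℂ)) := by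
    apply MvPolynomial.ringHom_ext
    · intro b
      simp only [RingHom.comp_apply, ax_C, MvPolynomial.map_C, MvPolynomial.eval_C]
      rfl
    · intro j
      simp only [RingHom.comp_apply, ax_X, MvPolynomial.map_X, MvPolynomial.eval_X]
      rfl
  exact congrArg (fun f : R.RX →+* ℂ => f P) h1

/-- `ℂ[z, x] → B_L[x]` -/
def toRX : MvPolynomial (Fin (m + r)) ℂ →+* R.RX :=
  MvPolynomial.eval₂Hom (algebraMap ℂ R.RX)
    (Fin.append (fun i => MvPolynomial.C (R.ML.z i)) MvPolynomial.X)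

lemma ax_toRX (p : MvPolynomial (Fin (m + r)) ℂ) : R.ax (R.toRX p) = az R.MK.z p := by
  have h1 : R.ax.comp R.toRX = az R.MK.z := by
    apply MvPolynomial.ringHom_ext
    · intro c
      simp only [RingHom.comp_apply, toRX, MvPolynomial.coe_eval₂Hom, MvPolynomial.eval₂_C]
      have h2 : az R.MK.z (MvPolynomial.C c) = algebraMap ℂ R.MK.B c :=
        MvPolynomial.aeval_C R.MK.z c
      rw [h2, MvPolynomial.algebraMap_apply, ax_C]
      exact R.incl.commutes c
    · intro i
      have h2 : az R.MK.z (MvPolynomial.X i) = R.MK.z i := MvPolynomial.aeval_X R.MK.z i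
      simp only [RingHom.comp_apply, toRX, MvPolynomial.coe_eval₂Hom, MvPolynomial.eval₂_X]
      rw [h2]
      refine Fin.addCases (fun i => ?_) (fun j => ?_) i
      · rw [Fin.append_left, ax_C]
        exact Subtype.ext (R.z_eq i).symm
      · rw [Fin.append_right, ax_X]
  exact congrArg (fun f : MvPolynomial (Fin (m + r)) ℂ →+* R.MK.B => f p) h1

lemma toRX_injective : Function.Injective R.toRX := by
  intro p q h
  apply R.MK.az_injective
  rw [← R.ax_toRX, ← R.ax_toRX, h]

/-- a nonzero element of `B_L` and a nonzero polynomial do not vanish simultaneously -/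
lemma exists_base_pt {c : R.ML.B} (hc : c ≠ 0) {p : MvPolynomial (Fin m) ℂ} (hp : p ≠ 0) :
    ∃ w : R.ML.Pts, w c ≠ 0 ∧ MvPolynomial.eval (R.ML.pz w) p ≠ 0 := by
  have h1 : c * az R.ML.z p ≠ 0 := mul_ne_zero hc (by
    rw [Ne, map_eq_zero_iff _ R.ML.az_injective]; exact hp)
  by_contra h
  push Not at h
  apply h1
  apply R.ML.ext_of_pts
  intro w
  rw [map_mul, map_zero, R.ML.apply_az']
  rcases eq_or_ne (w c) 0 with h2 | h2
  · rw [h2, zero_mul]
  · rw [h w h2, mul_zero]

lemma ax_injective : Function.Injective R.ax := by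
  rw [injective_iff_map_eq_zero]
  intro P hP
  by_contra hP0
  obtain ⟨d, hd⟩ := MvPolynomial.ne_zero_iff.mp hP0
  obtain ⟨ξ₀, hξ₀⟩ := exists_specR_ne R.MK.h_ne
  obtain ⟨w, hw1, hw2⟩ := R.exists_base_pt hd hξ₀
  have h1 : MvPolynomial.map (w : R.ML.B →+* ℂ) P ≠ 0 := by
    rw [MvPolynomial.ne_zero_iff]
    exact ⟨d, by rw [MvPolynomial.coeff_map]; exact hw1⟩
  have h2 : specL (R.ML.pz w) R.MK.h ≠ 0 := by
    intro h0
    rw [eval_specR] at hw2
    apply hw2
    rw [← eval_specL, h0, map_zero]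
  obtain ⟨ξ, hξ⟩ : ∃ ξ : Cn r, MvPolynomial.eval ξ (MvPolynomial.map (w : R.ML.B →+* ℂ) P *
      specL (R.ML.pz w) R.MK.h) ≠ 0 := by
    by_contra h
    push Not at h
    exact mul_ne_zero h1 h2 (MvPolynomial.funext fun ξ => by rw [h ξ, map_zero])
  rw [map_mul, eval_specL] at hξ
  obtain ⟨y, hy⟩ := R.surjective_φU ⟨(w, ξ), right_ne_zero_of_mul hξ⟩
  have hq : R.q y = w := congrArg (fun u : R.UR => u.1.1) hy
  have hx : R.x y = ξ := congrArg (fun u : R.UR => u.1.2) hy
  have h3 := R.apply_ax y P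
  rw [hP, map_zero, hx, hq] at h3
  exact left_ne_zero_of_mul hξ h3.symm

/-- a relative primitive element -/
structure RPrim where
  /-- a unit of `B_K` -/
  g : R.RX
  /-- the primitive element -/
  θ : R.MK.B
  /-- its minimal polynomial -/
  P : Polynomial R.RX
  monic : P.Monic
  root : Polynomial.eval₂ R.ax θ P = 0
  bez : ∃ a b : Polynomial R.RX, a * P + b * derivative P = C g
  dvd : ∀ q : Polynomial R.RX, Polynomial.eval₂ R.ax θ q = 0 → P ∣ q
  gen : ∀ b : R.MK.B, ∃ (k : ℕ) (q : Polynomial R.RX),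
    R.ax (g ^ k) * b = Polynomial.eval₂ R.ax θ q
  unit : IsUnit (R.ax g)

set_option synthInstance.maxHeartbeats 400000 in
/-- the data of a relative primitive element, without the unit condition -/
theorem exists_rprim_aux : ∃ (g : R.RX) (θ : R.MK.B) (P : Polynomial R.RX), g ≠ 0 ∧ P.Monic ∧
    Polynomial.eval₂ R.ax θ P = 0 ∧ (∃ a b : Polynomial R.RX, a * P + b * derivative P = C g) ∧
    (∀ q : Polynomial R.RX, Polynomial.eval₂ R.ax θ q = 0 → P ∣ q) ∧
    ∀ b : R.MK.B, ∃ (k : ℕ) (q : Polynomial R.RX),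
      R.ax (g ^ k) * b = Polynomial.eval₂ R.ax θ q := by
  let _ : Algebra R.RX R.MK.B := R.ax.toAlgebra
  have hmap : algebraMap R.RX R.MK.B = R.ax := rfl
  have : IsIntegrallyClosed R.RX := isIntegrallyClosed_mv _ r
  have : IsScalarTower ℂ R.RX R.MK.B := by
    refine IsScalarTower.of_algebraMap_eq fun c => ?_
    rw [hmap, MvPolynomial.algebraMap_apply, ax_C]
    exact (R.incl.commutes c).symm
  have : FaithfulSMul R.RX R.MK.B :=
    (faithfulSMul_iff_algebraMap_injective _ _).mpr R.ax_injective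
  have : Module.IsTorsionFree R.RX R.MK.B := inferInstance
  have : CharZero R.RX := charZero_of_injective_algebraMap (R := ℂ) (algebraMap ℂ R.RX).injective
  have : Algebra.FiniteType R.RX R.MK.B := Algebra.FiniteType.of_restrictScalars_finiteType ℂ _ _
  have : Algebra.IsAlgebraic R.RX R.MK.B := by
    refine ⟨fun b => ?_⟩
    let _ : Algebra (MvPolynomial (Fin (m + r)) ℂ) R.MK.B := (az R.MK.z).toAlgebra
    have hE : Algebra.Etale (MvPolynomial (Fin (m + r)) ℂ) R.MK.B := R.MK.het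
    have h1 := (KT661.injective_and_isAlgebraic_of_etale
      (R := MvPolynomial (Fin (m + r)) ℂ) (S := R.MK.B)).2
    obtain ⟨p, hp, hp0⟩ := h1.isAlgebraic b
    refine ⟨p.map R.toRX, ?_, ?_⟩
    · rw [Ne, Polynomial.map_eq_zero_iff R.toRX_injective]
      exact hp
    · rw [Polynomial.aeval_def, Polynomial.eval₂_map]
      have h2 : (algebraMap R.RX R.MK.B).comp R.toRX = az R.MK.z :=
        RingHom.ext fun p => R.ax_toRX p
      rw [h2]
      exact hp0
  obtain ⟨θ, g, hg, hθ, hder, hab, hgen⟩ := exists_theta R.RX R.MK.B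
  exact ⟨g, θ, minpoly R.RX θ, hg, minpoly.monic hθ, minpoly.aeval R.RX θ, hab,
    fun q hq => minpoly.isIntegrallyClosed_dvd hθ hq, hgen⟩

/-- shrink the total space only -/
abbrev shK (s : MvPolynomial (Fin (m + r)) ℂ) (hs : s ≠ 0) : RMdl L K m r where
  ML := R.ML
  MK := R.MK.loc s hs
  z_eq := R.z_eq
  incl_mem := fun b => R.MK.le_loc s hs (R.incl_mem b)


lemma shK_ax (s : MvPolynomial (Fin (m + r)) ℂ) (hs : s ≠ 0) (P : R.RX) :
    ((R.shK s hs).ax P : K) = (R.ax P : K) := by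
  have h1 : (Subalgebra.inclusion (R.MK.le_loc s hs) : R.MK.B →+* (R.MK.loc s hs).B).comp R.ax =
      (R.shK s hs).ax := by
    apply MvPolynomial.ringHom_ext
    · intro b
      rw [RingHom.comp_apply, ax_C]
      exact ((R.shK s hs).ax_C b).symm
    · intro j
      rw [RingHom.comp_apply, ax_X]
      exact ((R.shK s hs).ax_X j).symm
  rw [← h1]
  rfl

lemma shK_eval₂ (s : MvPolynomial (Fin (m + r)) ℂ) (hs : s ≠ 0) (θ : R.MK.B)
    (q : Polynomial R.RX) :
    ((Polynomial.eval₂ (R.shK s hs).ax ⟨θ, R.MK.le_loc s hs θ.2⟩ q : (R.MK.loc s hs).B) : K) =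
      ((Polynomial.eval₂ R.ax θ q : R.MK.B) : K) := by
  have h1 := Polynomial.hom_eval₂ q (R.shK s hs).ax ((R.MK.loc s hs).B.val : _ →+* K)
    ⟨θ, R.MK.le_loc s hs θ.2⟩
  have h2 := Polynomial.hom_eval₂ q R.ax (R.MK.B.val : _ →+* K) θ
  have h3 : ((R.MK.loc s hs).B.val : _ →+* K).comp (R.shK s hs).ax =
      (R.MK.B.val : _ →+* K).comp R.ax := RingHom.ext fun P => R.shK_ax s hs P
  rw [h3] at h1
  exact h1.trans h2.symm

/-- relative primitive elements exist after shrinking the total space -/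
theorem exists_rprim : ∃ s : MvPolynomial (Fin (m + r)) ℂ, s ≠ 0 ∧
    ∀ (s' : MvPolynomial (Fin (m + r)) ℂ) (hs' : s' ≠ 0), s ∣ s' →
      Nonempty (R.shK s' hs').RPrim := by
  obtain ⟨g, θ, P, hg, hm, h0, ⟨a, b, hab⟩, hd, hgen⟩ := R.exists_rprim_aux
  have hg' : R.ax g ≠ 0 := by
    rw [Ne, map_eq_zero_iff _ R.ax_injective]; exact hg
  obtain ⟨s, hs, c, hc⟩ := exists_poly_dvd R.MK.het hg'
  refine ⟨s, hs, fun s' hs' hd' => ?_⟩
  obtain ⟨e, he⟩ := hd'
  have hunit : IsUnit ((R.shK s' hs').ax (g * R.toRX s') : (R.MK.loc s' hs').B) := by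
    have hs'u : IsUnit (az (R.MK.loc s' hs').z s') := by
      have h1 := (R.MK.loc s' hs').h_unit
      rw [Mdl.loc_h, map_mul] at h1
      exact isUnit_of_mul_isUnit_right h1
    let ce : R.MK.B := c * az R.MK.z e
    have h3 : (az (R.MK.loc s' hs').z s' : K) = R.MK.aK s' := az_val _ _
    have h4 : ((R.ax g : R.MK.B) : K) * ((c : R.MK.B) : K) = R.MK.aK s := by
      rw [R.MK.aK_eq]
      exact congrArg Subtype.val hc.symm
    have h5 : R.MK.aK s' = R.MK.aK s * R.MK.aK e := by rw [he, map_mul]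
    have hce : (ce : K) = (c : K) * R.MK.aK e := by
      rw [R.MK.aK_eq]; rfl
    have hX : ((R.ax (g * R.toRX s') : R.MK.B) : K) = (R.ax g : K) * R.MK.aK s' := by
      rw [map_mul, R.ax_toRX, R.MK.aK_eq]; rfl
    have key : ((R.ax (g * R.toRX s') : R.MK.B) : K) * (ce : K) =
        R.MK.aK s' * R.MK.aK s' := by
      rw [hX, hce]
      calc (R.ax g : K) * R.MK.aK s' * ((c : K) * R.MK.aK e)
          = R.MK.aK s' * (((R.ax g : R.MK.B) : K) * ((c : R.MK.B) : K) * R.MK.aK e) := by ring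
        _ = R.MK.aK s' * R.MK.aK s' := by rw [h4, ← h5]
    have h2 : ((R.shK s' hs').ax (g * R.toRX s') : (R.MK.loc s' hs').B) *
        (⟨ce, R.MK.le_loc s' hs' ce.2⟩ : (R.MK.loc s' hs').B) =
        az (R.MK.loc s' hs').z s' * az (R.MK.loc s' hs').z s' := by
      apply Subtype.ext
      have h8 := R.shK_ax s' hs' (g * R.toRX s')
      calc (((R.shK s' hs').ax (g * R.toRX s') : (R.MK.loc s' hs').B) : K) * (ce : K)
          = ((R.ax (g * R.toRX s') : R.MK.B) : K) * (ce : K) := by rw [← h8]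
        _ = R.MK.aK s' * R.MK.aK s' := key
        _ = _ := by rw [← h3]; rfl
    have h6 : IsUnit (az (R.MK.loc s' hs').z s' * az (R.MK.loc s' hs').z s') := hs'u.mul hs'u
    rw [← h2] at h6
    exact isUnit_of_mul_isUnit_left h6
  refine ⟨{ g := g * R.toRX s', θ := ⟨θ, R.MK.le_loc s' hs' θ.2⟩, P := P, monic := hm, root := ?_,
            bez := ⟨C (R.toRX s') * a, C (R.toRX s') * b, ?_⟩, dvd := ?_, gen := ?_,
            unit := hunit }⟩
  · apply Subtype.ext
    have h1 := R.shK_eval₂ s' hs' θ P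
    exact h1.trans (congrArg Subtype.val h0)
  · calc C (R.toRX s') * a * P + C (R.toRX s') * b * derivative P =
        C (R.toRX s') * (a * P + b * derivative P) := by ring
      _ = _ := by rw [hab, ← C_mul, mul_comm]
  · intro q hq
    apply hd
    apply Subtype.ext
    have h1 := R.shK_eval₂ s' hs' θ q
    exact h1.symm.trans (congrArg Subtype.val hq)
  · rintro ⟨b', k, hk⟩
    obtain ⟨l, q, hq⟩ := hgen ⟨_, hk⟩
    refine ⟨k + l, C (g ^ k * R.toRX s' ^ l) * q, ?_⟩
    apply Subtype.ext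
    have h1 := R.shK_eval₂ s' hs' θ (C (g ^ k * R.toRX s' ^ l) * q)
    refine Eq.trans ?_ h1.symm
    rw [MulMemClass.coe_mul, R.shK_ax, Polynomial.eval₂_mul, Polynomial.eval₂_C, ← hq]
    simp only [map_mul, map_pow, MulMemClass.coe_mul, SubmonoidClass.coe_pow, R.ax_toRX,
      ← R.MK.aK_eq]
    ring

end RMdl

end Crest.Agent.R276.Mod1_987
end
end

-- ▼ part R276/Mod9_987
section

/-!
Row 276 (S0419), MOD (helper987), part 9: models of the fibres.

`RMdl.exists_fibMdl`: if `R` has a relative primitive element `Q`, `w ∈ R.A` and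
`P_w = Q.P.map w` is irreducible in `ℂ[x][T]`, then the fibre `q⁻¹ w` is (homeomorphic to) the
space of points of a model `Mw` of a field, and `B_K → Mw.B` is surjective.
-/

set_option autoImplicit false

open Polynomial Topology Filter MeasureTheory
open scoped ENNReal

noncomputable section

namespace Crest.Agent.R276.Mod1_987

open Crest.Agent.R271.Defs710 Crest.Agent.R271.Alg255 Crest.Agent.R271.Rd692
open Crest.Agent.R271.AlgB956 Crest.Agent.R271.Ho51 Crest.Agent.R271
open Crest.Agent.R276.AB2_590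

/-- the function field of `μ = 0` -/
theorem exists_field {r : ℕ} {μ : Polynomial (MvPolynomial (Fin r) ℂ)} (hm : μ.Monic)
    (hp : Prime μ) : ∃ (F : Type) (_ : Field F) (_ : Algebra ℂ F) (x : Fin r → F) (θ : F),
      AlgebraicIndependent ℂ x ∧ ev2 x θ μ = 0 ∧
      (∀ q : Polynomial (MvPolynomial (Fin r) ℂ), ev2 x θ q = 0 → μ ∣ q) ∧
      ∀ a : F, ∃ q₁ q₂ : Polynomial (MvPolynomial (Fin r) ℂ), ev2 x θ q₂ ≠ 0 ∧
        a = ev2 x θ q₁ / ev2 x θ q₂ := by
  have hdom : IsDomain (AdjoinRoot μ) := AdjoinRoot.isDomain_of_prime hp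
  let F := FractionRing (AdjoinRoot μ)
  let x : Fin r → F := fun j => algebraMap (AdjoinRoot μ) F (AdjoinRoot.of μ (MvPolynomial.X j))
  let θ : F := algebraMap (AdjoinRoot μ) F (AdjoinRoot.root μ)
  have hinj : Function.Injective (algebraMap (AdjoinRoot μ) F) := IsFractionRing.injective _ _
  have hax : ((MvPolynomial.aeval x : MvPolynomial (Fin r) ℂ →ₐ[ℂ] F) :
      MvPolynomial (Fin r) ℂ →+* F) = (algebraMap (AdjoinRoot μ) F).comp (AdjoinRoot.of μ) := by
    apply MvPolynomial.ringHom_ext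
    · intro c
      have h1 : MvPolynomial.aeval x (MvPolynomial.C c) = algebraMap ℂ F c :=
        MvPolynomial.aeval_C x c
      refine h1.trans ?_
      rw [IsScalarTower.algebraMap_apply ℂ (AdjoinRoot μ) F]
      rfl
    · intro j
      exact MvPolynomial.aeval_X x j
  have hev : ∀ q : Polynomial (MvPolynomial (Fin r) ℂ),
      ev2 x θ q = algebraMap (AdjoinRoot μ) F (AdjoinRoot.mk μ q) := by
    intro q
    have h1 : ev2 x θ q = Polynomial.eval₂ ((algebraMap (AdjoinRoot μ) F).comp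
        (AdjoinRoot.of μ)) (algebraMap (AdjoinRoot μ) F (AdjoinRoot.root μ)) q := by
      unfold ev2
      rw [hax]
    rw [h1, ← Polynomial.hom_eval₂]
    congr 1
    exact AdjoinRoot.aeval_eq q
  have hev0 : ∀ q : Polynomial (MvPolynomial (Fin r) ℂ), ev2 x θ q = 0 ↔ μ ∣ q := by
    intro q
    rw [hev, map_eq_zero_iff _ hinj, AdjoinRoot.mk_eq_zero]
  refine ⟨F, inferInstance, inferInstance, x, θ, ?_, (hev0 μ).mpr dvd_rfl,
    fun q h => (hev0 q).mp h, ?_⟩
  · change Function.Injective _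
    rw [injective_iff_map_eq_zero]
    intro p hp0
    have h1 : ev2 x θ (C p) = 0 := by
      rw [ev2, Polynomial.eval₂_C]; exact hp0
    obtain ⟨c, hc⟩ := (hev0 _).mp h1
    by_contra hp1
    have hc0 : c ≠ 0 := by
      rintro rfl
      rw [mul_zero, C_eq_zero] at hc
      exact hp1 hc
    have h2 : (μ * c).natDegree = 0 := by rw [← hc]; exact natDegree_C p
    rw [hm.natDegree_mul' hc0] at h2
    have h3 : μ = 1 := hm.natDegree_eq_zero.mp (by omega)
    exact hp.not_isUnit (by rw [h3]; exact isUnit_one)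
  · intro a
    obtain ⟨b, c, hc, h⟩ := IsFractionRing.div_surjective (A := AdjoinRoot μ) a
    obtain ⟨q₁, rfl⟩ := AdjoinRoot.mk_surjective b
    obtain ⟨q₂, rfl⟩ := AdjoinRoot.mk_surjective c
    refine ⟨q₁, q₂, ?_, by rw [hev, hev]; exact h.symm⟩
    rw [hev, Ne, map_eq_zero_iff _ hinj]
    exact nonZeroDivisors.ne_zero hc

/-- a model from a prime polynomial with discriminant dividing `h` -/
theorem exists_mdl_of_prime {r : ℕ} {μ : Polynomial (MvPolynomial (Fin r) ℂ)} (hm : μ.Monic)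
    (hp : Prime μ) {g h : MvPolynomial (Fin r) ℂ} (hg : g ≠ 0) (hh : h ≠ 0) (hgh : g ∣ h)
    (hb : ∃ a b : Polynomial (MvPolynomial (Fin r) ℂ), a * μ + b * derivative μ = C g) :
    ∃ (F : Type) (_ : Field F) (_ : Algebra ℂ F) (M : Mdl F r), M.h = h ∧ M.μ = μ := by
  obtain ⟨F, _, _, x, θ, hx, h0, hd, hfr⟩ := exists_field hm hp
  have hmem : ∀ q : Polynomial (MvPolynomial (Fin r) ℂ), ev2 x θ q ∈
      Algebra.adjoin ℂ (Set.range x ∪ {θ}) := by
    intro q
    have hxm : ∀ i, x i ∈ Algebra.adjoin ℂ (Set.range x ∪ {θ}) :=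
      fun i => Algebra.subset_adjoin (Or.inl ⟨i, rfl⟩)
    have hθm : θ ∈ Algebra.adjoin ℂ (Set.range x ∪ {θ}) :=
      Algebra.subset_adjoin (Or.inr rfl)
    rw [ev2, Polynomial.eval₂_eq_sum_range]
    exact Subalgebra.sum_mem _ fun i _ => mul_mem (aeval_mem hxm _) (pow_mem hθm i)
  have hmem' : ∀ b ∈ Algebra.adjoin ℂ (Set.range x ∪ {θ}),
      ∃ q : Polynomial (MvPolynomial (Fin r) ℂ), b = ev2 x θ q := by
    intro b hb
    induction hb using Algebra.adjoin_induction with
    | mem y hy =>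
      rcases hy with ⟨i, rfl⟩ | hy
      · refine ⟨C (MvPolynomial.X i), ?_⟩
        rw [ev2, Polynomial.eval₂_C]
        exact (MvPolynomial.aeval_X x i).symm
      · rw [Set.mem_singleton_iff] at hy
        exact ⟨X, by rw [ev2, Polynomial.eval₂_X, hy]⟩
    | algebraMap c =>
      refine ⟨C (MvPolynomial.C c), ?_⟩
      rw [ev2, Polynomial.eval₂_C]
      exact (MvPolynomial.aeval_C x c).symm
    | add a b _ _ ha hb =>
      obtain ⟨q, rfl⟩ := ha
      obtain ⟨q', rfl⟩ := hb
      exact ⟨q + q', by rw [ev2, ev2, ev2, Polynomial.eval₂_add]⟩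
    | mul a b _ _ ha hb =>
      obtain ⟨q, rfl⟩ := ha
      obtain ⟨q', rfl⟩ := hb
      exact ⟨q * q', by rw [ev2, ev2, ev2, Polynomial.eval₂_mul]⟩
  have hfg : (Algebra.adjoin ℂ (Set.range x ∪ {θ})).FG := by
    refine Subalgebra.fg_def.mpr ⟨Set.range x ∪ {θ}, ?_, rfl⟩
    exact (Set.finite_range x).union (Set.finite_singleton θ)
  let P : Prim (Algebra.adjoin ℂ (Set.range x ∪ {θ})) x :=
    { g := g, θ := θ, μ := μ, g_ne := hg, θ_mem := Algebra.subset_adjoin (Or.inr rfl),
      monic := hm, root := h0, bez := hb, dvd := hd,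
      gen := fun b hb => by
        obtain ⟨q, rfl⟩ := hmem' b hb
        exact ⟨0, q, by simp⟩ }
  have hfrac : ∀ a : F, ∃ b ∈ Algebra.adjoin ℂ (Set.range x ∪ {θ}),
      ∃ c ∈ Algebra.adjoin ℂ (Set.range x ∪ {θ}), c ≠ 0 ∧ a = b / c := by
    intro a
    obtain ⟨q₁, q₂, h2, ha⟩ := hfr a
    exact ⟨_, hmem q₁, _, hmem q₂, h2, ha⟩
  exact ⟨F, inferInstance, inferInstance, mkMdl hfg hfrac
    (fun i => Algebra.subset_adjoin (Or.inl ⟨i, rfl⟩)) hx P h hh hgh, rfl, rfl⟩

namespace RMdl

variable {L K : Type} [Field L] [Field K] [Algebra ℂ L] [Algebra ℂ K] [Algebra L K]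
  [IsScalarTower ℂ L K] {m r : ℕ} (R : RMdl L K m r)

/-- specialisation at a point of the base -/
abbrev sp (w : R.ML.Pts) : R.RX →+* MvPolynomial (Fin r) ℂ :=
  MvPolynomial.map (w : R.ML.B →+* ℂ)

lemma sp_toRX (w : R.ML.Pts) (p : MvPolynomial (Fin (m + r)) ℂ) :
    R.sp w (R.toRX p) = specL (R.ML.pz w) p := by
  have h1 : (R.sp w).comp R.toRX = (specL (R.ML.pz w) : _ →ₐ[ℂ] _).toRingHom := by
    apply MvPolynomial.ringHom_ext
    · intro c
      rw [RingHom.comp_apply, toRX, MvPolynomial.coe_eval₂Hom, MvPolynomial.eval₂_C]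
      have h2 : specL (R.ML.pz w) (MvPolynomial.C c : MvPolynomial (Fin (m + r)) ℂ) =
          MvPolynomial.C c := MvPolynomial.aeval_C _ c
      refine Eq.trans ?_ h2.symm
      rw [MvPolynomial.algebraMap_apply, MvPolynomial.map_C]
      congr 1
      exact w.commutes c
    · intro i
      rw [RingHom.comp_apply, toRX, MvPolynomial.coe_eval₂Hom, MvPolynomial.eval₂_X]
      have h2 : specL (R.ML.pz w) (MvPolynomial.X i : MvPolynomial (Fin (m + r)) ℂ) =
          Fin.append (fun i => MvPolynomial.C (R.ML.pz w i)) MvPolynomial.X i :=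
        MvPolynomial.aeval_X _ i
      refine Eq.trans ?_ h2.symm
      refine Fin.addCases (fun i => ?_) (fun j => ?_) i
      · rw [Fin.append_left, Fin.append_left, MvPolynomial.map_C]
        rfl
      · rw [Fin.append_right, Fin.append_right, MvPolynomial.map_X]
  exact congrArg (fun f : MvPolynomial (Fin (m + r)) ℂ →+* MvPolynomial (Fin r) ℂ => f p) h1

variable {R}

namespace RPrim

variable (Q : R.RPrim)

/-- the standard étale presentation of `B_K` over `B_L[x]` -/
def pres : @StandardEtalePresentation R.RX R.MK.B _ _ R.ax.toAlgebra :=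
  letI : Algebra R.RX R.MK.B := R.ax.toAlgebra
  presOf Q.P Q.θ Q.g Q.monic Q.root Q.unit Q.bez Q.dvd Q.gen

/-- homomorphisms from `B_K` -/
theorem exists_hom {B : Type} [CommRing B] (f : R.RX →+* B) (θ' : B)
    (h0 : Polynomial.eval₂ f θ' Q.P = 0) (hg : IsUnit (f Q.g)) :
    ∃ ρ : R.MK.B →+* B, (∀ p, ρ (R.ax p) = f p) ∧ ρ Q.θ = θ' := by
  let _ : Algebra R.RX R.MK.B := R.ax.toAlgebra
  let _ : Algebra R.RX B := f.toAlgebra
  have hm : Q.pres.P.HasMap θ' := by
    refine ⟨h0, ?_⟩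
    change IsUnit (Polynomial.eval₂ f θ' (C Q.g))
    rw [Polynomial.eval₂_C]
    exact hg
  let φ : R.MK.B →ₐ[R.RX] B := (Q.pres.P.lift θ' hm).comp Q.pres.equivRing.toAlgHom
  refine ⟨φ.toRingHom, fun p => φ.commutes p, ?_⟩
  change Q.pres.P.lift θ' hm (Q.pres.equivRing Q.pres.x) = θ'
  rw [StandardEtalePresentation.equivRing_x, StandardEtalePair.lift_X]

/-- two homomorphisms which agree on `B_L[x]` and `θ` agree -/
theorem hom_ext {B : Type} [CommRing B] {ρ ρ' : R.MK.B →+* B}
    (h1 : ∀ p, ρ (R.ax p) = ρ' (R.ax p)) (h2 : ρ Q.θ = ρ' Q.θ) : ρ = ρ' := by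
  let _ : Algebra R.RX R.MK.B := R.ax.toAlgebra
  let _ : Algebra R.RX B := (ρ.comp R.ax).toAlgebra
  let φ : R.MK.B →ₐ[R.RX] B := { ρ with commutes' := fun _ => rfl }
  let φ' : R.MK.B →ₐ[R.RX] B := { ρ' with commutes' := fun p => (h1 p).symm }
  have h3 : φ = φ' := Q.pres.hom_ext h2
  ext b
  exact congrArg (fun f : R.MK.B →ₐ[R.RX] B => f b) h3

/-- the specialised polynomial -/
def Pw (w : R.ML.Pts) : Polynomial (MvPolynomial (Fin r) ℂ) := Q.P.map (R.sp w)

lemma monic_Pw (w : R.ML.Pts) : (Q.Pw w).Monic := Q.monic.map _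

lemma bez_Pw (w : R.ML.Pts) : ∃ a b : Polynomial (MvPolynomial (Fin r) ℂ),
    a * Q.Pw w + b * derivative (Q.Pw w) = C (R.sp w Q.g) := by
  obtain ⟨a, b, hab⟩ := Q.bez
  refine ⟨a.map (R.sp w), b.map (R.sp w), ?_⟩
  have h1 := congrArg (Polynomial.map (R.sp w)) hab
  rw [Polynomial.map_add, Polynomial.map_mul, Polynomial.map_mul, Polynomial.map_C,
    ← Polynomial.derivative_map] at h1
  exact h1

lemma root_Pw {w : R.ML.Pts} (u : R.Fib w) :
    ((Q.Pw w).map (MvPolynomial.eval (R.x u.val))).eval (Fib.val R u Q.θ) = 0 := by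
  have h1 := Polynomial.hom_eval₂ Q.P R.ax (u.val : R.MK.B →+* ℂ) Q.θ
  rw [Q.root, map_zero] at h1
  have h2 : (u.val : R.MK.B →+* ℂ).comp R.ax = (MvPolynomial.eval (R.x u.val)).comp (R.sp w) := by
    refine RingHom.ext fun p => ?_
    have h3 := R.apply_ax u.val p
    rw [u.q_eq] at h3
    exact h3
  rw [h2, ← Polynomial.eval₂_map, ← Polynomial.eval_map] at h1
  exact h1.symm

/-- **models of the fibres** -/
theorem exists_fibMdl (w : R.ML.Pts) (hw : w ∈ R.A) (hirr : Irreducible (Q.Pw w)) :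
    ∃ (F : Type) (_ : Field F) (_ : Algebra ℂ F) (Mw : Mdl F r) (ρ : R.MK.B →ₐ[ℂ] Mw.B)
      (Φ : Mw.Pts ≃ₜ R.Fib w), Function.Surjective ρ ∧
      (∀ (y : Mw.Pts) (b : R.MK.B), Fib.val R (Φ y) b = y (ρ b)) ∧
      (∀ y : Mw.Pts, cp (Φ y) = Mw.pz y) ∧
      (∀ p : R.RX, ρ (R.ax p) = az Mw.z (R.sp w p)) ∧ ρ Q.θ = Mw.θ ∧
      Mw.h = specL (R.ML.pz w) R.MK.h * R.sp w Q.g ∧ Mw.μ = Q.Pw w := by
  -- a point of the fibre
  obtain ⟨y₀, hy₀⟩ : ∃ y, R.q y = w := by
    have : w ∈ Set.range R.q := by rw [R.range_q]; exact hw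
    exact this
  have hval : ∀ (u : R.Fib w) (p : R.RX), Fib.val R u (R.ax p) =
      MvPolynomial.eval (R.x u.val) (R.sp w p) := by
    intro u p
    have h3 := R.apply_ax u.val p
    rw [u.q_eq] at h3
    exact h3
  have hgne : ∀ u : R.Fib w, MvPolynomial.eval (R.x u.val) (R.sp w Q.g) ≠ 0 := by
    intro u
    rw [← hval]
    exact (Q.unit.map (u.val : R.MK.B →+* ℂ)).ne_zero
  have hhne : ∀ u : R.Fib w, MvPolynomial.eval (R.x u.val) (specL (R.ML.pz w) R.MK.h) ≠ 0 := by
    intro u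
    rw [eval_specL]
    have h1 := R.append_eq u.val
    rw [u.q_eq] at h1
    rw [h1]
    exact R.MK.eval_h_ne _
  let u₀ : R.Fib w := ⟨y₀, hy₀⟩
  have hg0 : R.sp w Q.g ≠ 0 := fun h0 => hgne u₀ (by rw [h0, map_zero])
  have hh0 : specL (R.ML.pz w) R.MK.h ≠ 0 := fun h0 => hhne u₀ (by rw [h0, map_zero])
  obtain ⟨F, _, _, Mw, hMh, hMμ⟩ := exists_mdl_of_prime (Q.monic_Pw w) hirr.prime hg0
    (mul_ne_zero hh0 hg0) (dvd_mul_left _ _) (Q.bez_Pw w)
  -- the homomorphism
  have hroot : Polynomial.eval₂ ((az Mw.z).comp (R.sp w)) Mw.θ Q.P = 0 := by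
    rw [← Polynomial.eval₂_map]
    have h1 := Mw.root
    rw [hMμ] at h1
    exact h1
  have hgu : IsUnit (((az Mw.z).comp (R.sp w)) Q.g) := by
    have h1 := Mw.h_unit
    rw [hMh, map_mul] at h1
    exact isUnit_of_mul_isUnit_right h1
  obtain ⟨ρ₀, hρ1, hρ2⟩ := Q.exists_hom ((az Mw.z).comp (R.sp w)) Mw.θ hroot hgu
  have hρC : ∀ b : R.ML.B, ρ₀ (R.incl b) = algebraMap ℂ Mw.B (w b) := by
    intro b
    rw [← ax_C, hρ1, RingHom.comp_apply, MvPolynomial.map_C]
    exact MvPolynomial.aeval_C Mw.z _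
  let ρ : R.MK.B →ₐ[ℂ] Mw.B := { ρ₀ with
    commutes' := fun c => by
      have h1 : algebraMap ℂ R.MK.B c = R.incl (algebraMap ℂ R.ML.B c) :=
        (R.incl.commutes c).symm
      change ρ₀ (algebraMap ℂ R.MK.B c) = _
      rw [h1, hρC]
      congr 1
      exact w.commutes c }
  have hρρ : ∀ b, ρ b = ρ₀ b := fun _ => rfl
  have hρX : ∀ j, ρ (R.MK.z (Fin.natAdd m j)) = Mw.z j := by
    intro j
    rw [hρρ, ← ax_X, hρ1, RingHom.comp_apply, MvPolynomial.map_X]
    exact MvPolynomial.aeval_X Mw.z j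
  -- surjectivity
  have hlift : ∀ p : MvPolynomial (Fin r) ℂ, ρ₀ (R.ax (MvPolynomial.map (algebraMap ℂ R.ML.B) p)) =
      az Mw.z p := by
    intro p
    rw [hρ1, RingHom.comp_apply, MvPolynomial.map_map]
    have h1 : (w : R.ML.B →+* ℂ).comp (algebraMap ℂ R.ML.B) = RingHom.id ℂ :=
      RingHom.ext fun c => w.commutes c
    rw [h1, MvPolynomial.map_id]
  have hsurj : Function.Surjective ρ := by
    intro b
    obtain ⟨k, q, hq⟩ := Mw.gen b
    -- lift of `q`
    have h1 : ρ₀ (Polynomial.eval₂ R.ax Q.θ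
        (q.map (MvPolynomial.map (algebraMap ℂ R.ML.B)))) = Polynomial.eval₂ (az Mw.z) Mw.θ q := by
      rw [Polynomial.hom_eval₂, hρ2, Polynomial.eval₂_map]
      congr 1
      exact RingHom.ext fun p => hlift p
    -- the inverse of `h`
    have h2 : IsUnit (az R.MK.z R.MK.h * R.ax Q.g) := R.MK.h_unit.mul Q.unit
    obtain ⟨v, hv⟩ := h2
    have h3 : ρ₀ (az R.MK.z R.MK.h * R.ax Q.g) = az Mw.z Mw.h := by
      rw [map_mul, hρ1, ← R.ax_toRX, hρ1, RingHom.comp_apply, RingHom.comp_apply, R.sp_toRX,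
        hMh, map_mul]
    refine ⟨(((v⁻¹) ^ k : R.MK.Bˣ) : R.MK.B) * Polynomial.eval₂ R.ax Q.θ
        (q.map (MvPolynomial.map (algebraMap ℂ R.ML.B))), ?_⟩
    rw [hρρ, map_mul, h1, ← hq, ← mul_assoc, map_pow, ← h3, ← map_pow, ← map_mul, ← hv,
      ← Units.val_pow_eq_pow_val, ← Units.val_mul, ← mul_pow]
    simp
  -- the map on points
  have hq : ∀ y : Mw.Pts, R.q (y.comp ρ) = w := by
    intro y
    ext b
    change y (ρ₀ (R.incl b)) = w b
    rw [hρC, AlgHom.commutes]
    rfl
  let f : Mw.Pts → R.Fib w := fun y => ⟨y.comp ρ, hq y⟩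
  have hfval : ∀ y b, Fib.val R (f y) b = y (ρ b) := fun _ _ => rfl
  have hcp : ∀ y : Mw.Pts, cp (f y) = Mw.pz y := by
    intro y
    funext j
    change y (ρ (R.MK.z (Fin.natAdd m j))) = y (Mw.z j)
    rw [hρX]
  have hcont : Continuous f := by
    refine Continuous.subtype_mk ?_ _
    rw [continuous_iff_ev]
    intro b
    exact continuous_ev (ρ b)
  have hloc : IsLocalHomeomorph f := by
    refine IsLocalHomeomorph.of_comp (g := (cp : R.Fib w → Cn r)) (f := f) ?_ cp_lh hcont
    have h1 : (cp : R.Fib w → Cn r) ∘ f = Mw.pz := funext hcp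
    rw [h1]
    exact isLocalHomeomorph_pr Mw.hch
  have hbij : Function.Bijective f := by
    constructor
    · intro y y' h
      ext b
      obtain ⟨b', rfl⟩ := hsurj b
      rw [← hfval, ← hfval, h]
    · intro u
      have ht := Q.root_Pw u
      rw [← hMμ] at ht
      obtain ⟨y, hy1, hy2⟩ := Mw.exists_pt (ζ := R.x u.val) (by
        rw [hMh, map_mul]
        exact mul_ne_zero (hhne u) (hgne u)) ht
      refine ⟨y, Fib.ext ?_⟩
      have h1 : ((f y).val : R.MK.B →+* ℂ) = (u.val : R.MK.B →+* ℂ) := by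
        apply Q.hom_ext
        · intro p
          change y (ρ₀ (R.ax p)) = Fib.val R u (R.ax p)
          rw [hρ1, hval, RingHom.comp_apply, Mw.apply_az']
          congr 2
          exact funext hy1
        · change y (ρ₀ Q.θ) = Fib.val R u Q.θ
          rw [hρ2, hy2]
      ext b
      exact congrArg (fun g : R.MK.B →+* ℂ => g b) h1
  exact ⟨F, inferInstance, inferInstance, Mw, ρ, hloc.toHomeomorphOfBijective hbij, hsurj,
    hfval, hcp, hρ1, hρ2, hMh, hMμ⟩

end RPrim

end RMdl

end Crest.Agent.R276.Mod1_987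
end
end

-- ▼ part R276/BN4_143
section

/-!
# Row 276, MOD-BN (helper143): irreducibility of the specialised minimal polynomial
(the form used by 987's fibre models).
-/

set_option autoImplicit false

noncomputable section

namespace Crest.Agent.R276.BN4_143

open Polynomial
open Crest.Agent.R276.BN1_143 (AC)
open Crest.Agent.R276.BN3_143

universe u v

variable {ι : Type*} [Finite ι] {A : Type*} [CommRing A] [IsDomain A] [CharZero A]

/-- `A` a domain of characteristic `0`, `L = Frac A` algebraically closed in `K`,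
`g : A[x] → K` an `A`-algebra map, `P ∈ A[x][T]`, `P ≠ 0`, `P(θ) = 0`, `P` divides every polynomial
over `A[x]` killing `θ`.  Then `P^z` is irreducible in `k[x][T]` for all `z : A → k` with
`z a ≠ 0`. -/
theorem irreducible_fiber (L : Type*) (K : Type v) [Field L] [Field K] [Algebra A L]
    [IsFractionRing A L] [Algebra L K] (hac : AC L K) (g : MvPolynomial ι A →+* K)
    (hg : ∀ a : A, g (MvPolynomial.C a) = algebraMap L K (algebraMap A L a)) (θ : K)
    (P : (MvPolynomial ι A)[X]) (hP0 : P ≠ 0) (hroot : P.eval₂ g θ = 0)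
    (hdvd : ∀ Q : (MvPolynomial ι A)[X], Q.eval₂ g θ = 0 → P ∣ Q) :
    ∃ a : A, a ≠ 0 ∧ ∀ (k : Type u) [Field k] (z : A →+* k), z a ≠ 0 →
      Irreducible (P.map (MvPolynomial.map z)) := by
  classical
  have : CharZero L := charZero_of_injective_algebraMap (IsFractionRing.injective A L)
  let P' : MvPolynomial (Option ι) A := (MvPolynomial.optionEquivLeft A ι).symm P
  have hP' : MvPolynomial.optionEquivLeft A ι P' = P := AlgEquiv.apply_symm_apply _ _
  let xK : ι → K := fun i => g (MvPolynomial.X i)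
  let φ : MvPolynomial (Option ι) L →ₐ[L] K :=
    MvPolynomial.aeval (fun o : Option ι => o.elim θ xK)
  -- evaluation of polynomials over `A`
  have hev : ∀ F : MvPolynomial (Option ι) A, φ (MvPolynomial.map (algebraMap A L) F) =
      (MvPolynomial.optionEquivLeft A ι F).eval₂ g θ := by
    intro F
    have h : ((φ : MvPolynomial (Option ι) L →+* K).comp (MvPolynomial.map (algebraMap A L))) =
        (Polynomial.eval₂RingHom g θ).comp
          ((MvPolynomial.optionEquivLeft A ι).toRingEquiv.toRingHom) := by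
      apply MvPolynomial.ringHom_ext
      · intro a
        show φ (MvPolynomial.map (algebraMap A L) (MvPolynomial.C a)) =
          (MvPolynomial.optionEquivLeft A ι (MvPolynomial.C a)).eval₂ g θ
        rw [MvPolynomial.map_C, MvPolynomial.aeval_C, MvPolynomial.optionEquivLeft_C,
          Polynomial.eval₂_C, hg]
      · intro o
        show φ (MvPolynomial.map (algebraMap A L) (MvPolynomial.X o)) =
          (MvPolynomial.optionEquivLeft A ι (MvPolynomial.X o)).eval₂ g θ
        rw [MvPolynomial.map_X, MvPolynomial.aeval_X]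
        cases o with
        | none => rw [MvPolynomial.optionEquivLeft_X_none, Polynomial.eval₂_X]; rfl
        | some i => rw [MvPolynomial.optionEquivLeft_X_some, Polynomial.eval₂_C]; rfl
    exact congrArg (fun f : MvPolynomial (Option ι) A →+* K => f F) h
  let _ : Algebra (MvPolynomial (Option ι) A) (MvPolynomial (Option ι) L) :=
    MvPolynomial.algebraMvPolynomial
  have hloc : IsLocalization ((nonZeroDivisors A).map
      (MvPolynomial.C : A →+* MvPolynomial (Option ι) A)) (MvPolynomial (Option ι) L) :=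
    MvPolynomial.isLocalization (nonZeroDivisors A) L
  have hker : ∀ F : MvPolynomial (Option ι) L, φ F = 0 ↔
      MvPolynomial.map (algebraMap A L) P' ∣ F := by
    intro F
    constructor
    · intro hF
      obtain ⟨⟨F', ⟨y, a, ha, rfl⟩⟩, hFa⟩ := IsLocalization.surj
        ((nonZeroDivisors A).map (MvPolynomial.C : A →+* MvPolynomial (Option ι) A)) F
      have hF1 : F * MvPolynomial.C (algebraMap A L a) = MvPolynomial.map (algebraMap A L) F' := by
        have h2 : algebraMap (MvPolynomial (Option ι) A) (MvPolynomial (Option ι) L)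
            (MvPolynomial.C a) = MvPolynomial.C (algebraMap A L a) := MvPolynomial.map_C _ _
        rw [← h2]
        exact hFa
      have ha0 : algebraMap A L a ≠ 0 :=
        (map_ne_zero_iff _ (IsFractionRing.injective A L)).2 (nonZeroDivisors.ne_zero ha)
      have hunit : IsUnit (MvPolynomial.C (algebraMap A L a) : MvPolynomial (Option ι) L) :=
        (isUnit_iff_ne_zero.2 ha0).map MvPolynomial.C
      have h3 : (MvPolynomial.optionEquivLeft A ι F').eval₂ g θ = 0 := by
        rw [← hev, ← hF1, map_mul, hF, zero_mul]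
      obtain ⟨G, hG⟩ := hdvd _ h3
      rw [← hunit.dvd_mul_right, hF1]
      refine map_dvd _ ⟨(MvPolynomial.optionEquivLeft A ι).symm G, ?_⟩
      apply (MvPolynomial.optionEquivLeft A ι).injective
      rw [map_mul, hP', AlgEquiv.apply_symm_apply, hG]
    · rintro ⟨G, rfl⟩
      rw [map_mul, hev, hP', hroot, zero_mul]
  have hP'0 : MvPolynomial.map (algebraMap A L) P' ≠ 0 := by
    intro h0
    have h1 : P' = 0 := by
      apply MvPolynomial.map_injective _ (IsFractionRing.injective A L)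
      rw [h0, map_zero]
    apply hP0
    rw [← hP', h1, map_zero]
  have habs := BN1_143.abs_irreducible hac (MvPolynomial.map (algebraMap A L) P') hP'0 φ hker
    (AlgebraicClosure L)
  rw [MvPolynomial.map_map] at habs
  obtain ⟨a, ha, h⟩ := BN0_143.irreducible_spread.{u} L (AlgebraicClosure L) P' habs
  refine ⟨a, ha, fun k _ z hz => ?_⟩
  have h1 := h k z hz
  rw [← MulEquiv.irreducible_iff (MvPolynomial.optionEquivLeft k ι), opt_map, hP'] at h1
  exact h1

end Crest.Agent.R276.BN4_143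
end
end

-- ▼ part R276/Mod10_987

/-!
# Row 276, models (helper987), part 10: the fibres of `M_K → M_L` are connected over a dense open
set, if `L` is algebraically closed in `K`

* `resF`, `isOpenEmbedding_resF`, `range_resF` : restriction of fibres to smaller models;
* `dense_fib`, `null_fib`;
* `exists_conn` : for every relative model;
* `ev2_conn`, `ev_conn` : "after every sufficient shrinking", in the form of `TowA_849`.
-/

set_option autoImplicit false
set_option linter.unusedSectionVars false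

open Polynomial Topology Filter MeasureTheory

noncomputable section

namespace Crest.Agent.R276.Mod1_987

open Crest.Agent.R271.Defs710 Crest.Agent.R271.Alg255 Crest.Agent.R271.Rd692
open Crest.Agent.R271.AlgB956 Crest.Agent.R271.Ho51 Crest.Agent.R271
open Crest.Agent.R276.AB2_590
open scoped ENNReal

namespace RMdl

variable {L K : Type} [Field L] [Field K] [Algebra ℂ L] [Algebra ℂ K] [Algebra L K]
  [IsScalarTower ℂ L K] {m r : ℕ}

/-! ### restriction to smaller models -/

section res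

variable {R R' : RMdl L K m r} (hL : R.ML.B ≤ R'.ML.B) (hK : R.MK.B ≤ R'.MK.B)

/-- the projections commute with the restrictions -/
lemma q_resB (y : R'.MK.Pts) : R.q (Mdl.resB hK y) = Mdl.resB hL (R'.q y) := by
  apply AlgHom.ext
  intro b
  change y _ = y _
  congr 1

/-- restriction of the fibres -/
def resF (w : R'.ML.Pts) (y : R'.Fib w) : R.Fib (Mdl.resB hL w) :=
  ⟨Mdl.resB hK (Fib.val R' y), by rw [q_resB hL hK, y.q_eq]⟩

@[simp] lemma resF_val (w : R'.ML.Pts) (y : R'.Fib w) :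
    Fib.val R (resF hL hK w y) = Mdl.resB hK (Fib.val R' y) := rfl

variable (hzK : R.MK.zK = R'.MK.zK)

include hzK in
lemma x_resB (y : R'.MK.Pts) : R.x (Mdl.resB hK y) = R'.x y := by
  funext j
  exact congrFun (Mdl.pz_resB hzK hK y) (Fin.natAdd m j)

include hzK in
lemma cp_resF (w : R'.ML.Pts) (y : R'.Fib w) :
    cp (resF hL hK w y) = (cp y : Cn r) := x_resB hK hzK (Fib.val R' y)

lemma continuous_resF (w : R'.ML.Pts) : Continuous (resF hL hK w : R'.Fib w → _) := by
  refine continuous_induced_rng.2 ?_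
  change Continuous fun y : R'.Fib w => Mdl.resB hK (Fib.val R' y)
  exact (Mdl.continuous_resB hK).comp (Fib.continuous_val w)

include hzK in
lemma resF_injective (w : R'.ML.Pts) : Function.Injective (resF hL hK w : R'.Fib w → _) := by
  intro y y' h
  exact Fib.ext (Mdl.resB_injective hzK hK (congrArg (Fib.val R) h))

include hzK in
theorem isOpenEmbedding_resF (w : R'.ML.Pts) :
    IsOpenEmbedding (resF hL hK w : R'.Fib w → R.Fib (Mdl.resB hL w)) := by
  refine IsLocalHomeomorph.isOpenEmbedding_of_injective ?_ (resF_injective hL hK hzK w)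
  refine IsLocalHomeomorph.of_comp (g := (cp : R.Fib (Mdl.resB hL w) → Cn r))
    (f := (resF hL hK w : R'.Fib w → R.Fib (Mdl.resB hL w))) ?_ cp_lh (continuous_resF hL hK w)
  have h1 : (cp : R.Fib (Mdl.resB hL w) → Cn r) ∘ (resF hL hK w : R'.Fib w → _) =
      (cp : R'.Fib w → Cn r) := funext fun y => cp_resF hL hK hzK w y
  rw [h1]
  exact cp_lh

include hzK in
theorem range_resF (hzL : R.ML.zK = R'.ML.zK) (w : R'.ML.Pts) :
    Set.range (resF hL hK w : R'.Fib w → R.Fib (Mdl.resB hL w)) =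
      {y | MvPolynomial.eval (R.MK.pz (Fib.val R y)) R'.MK.h ≠ 0} := by
  ext y
  constructor
  · rintro ⟨y', rfl⟩
    have h1 : Mdl.resB hK (Fib.val R' y') ∈
        {y : R.MK.Pts | MvPolynomial.eval (R.MK.pz y) R'.MK.h ≠ 0} := by
      rw [← Mdl.range_resB hzK hK]
      exact ⟨_, rfl⟩
    exact h1
  · intro hy
    have h1 : Fib.val R y ∈ Set.range (Mdl.resB hK : R'.MK.Pts → R.MK.Pts) := by
      rw [Mdl.range_resB hzK hK]
      exact hy
    obtain ⟨u, hu⟩ := h1
    have hq : R'.q u = w := by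
      apply Mdl.resB_injective hzL hL
      rw [← q_resB hL hK, hu]
      exact y.q_eq
    exact ⟨⟨u, hq⟩, Fib.ext hu⟩

end res

/-! ### density on the fibres -/

lemma dense_eval_ne {n : ℕ} {p : MvPolynomial (Fin n) ℂ} (hp : p ≠ 0) :
    Dense {ξ : Cn n | MvPolynomial.eval ξ p ≠ 0} :=
  MeasureTheory.Measure.dense_of_ae (Null956.ae_eval_ne hp)

variable (R : RMdl L K m r)

lemma pL_fib {w : R.ML.Pts} (y : R.Fib w) :
    R.MK.pz (Fib.val R y) = Fin.append (R.ML.pz w) (cp y) := by
  have h := R.append_eq (Fib.val R y)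
  rw [y.q_eq] at h
  exact h.symm

/-- the complement of the zero set of a nonzero polynomial is dense in every fibre -/
theorem dense_fib (w : R.ML.Pts) {p : MvPolynomial (Fin r) ℂ} (hp : p ≠ 0) :
    Dense {y : R.Fib w | MvPolynomial.eval (cp y) p ≠ 0} :=
  (dense_eval_ne hp).preimage (cp_lh (M := R.Fib w)).isOpenMap



/-- a nonzero element of `B` divides a nonzero polynomial in the coordinates -/
lemma exists_dvd_poly {K' : Type} [Field K'] [Algebra ℂ K'] {n : ℕ} (M : Mdl K' n) {b : M.B}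
    (hb : b ≠ 0) : ∃ (s : MvPolynomial (Fin n) ℂ), s ≠ 0 ∧ ∀ y : M.Pts,
      MvPolynomial.eval (M.pz y) s ≠ 0 → y b ≠ 0 := by
  obtain ⟨s, hs, c, hc⟩ := exists_poly_dvd M.het hb
  refine ⟨s, hs, fun y hy h0 => hy ?_⟩
  have hc' : az M.z s = b * c := hc
  rw [← M.apply_az', hc', map_mul, h0, zero_mul]


/-! ### Bertini–Noether -/

variable {R}

/-- the specialised polynomials are irreducible over a dense open set of the base -/
theorem RPrim.exists_irreducible (Q : R.RPrim) (hac : BN1_143.AC L K) :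
    ∃ a : R.ML.B, a ≠ 0 ∧ ∀ w : R.ML.Pts, w a ≠ 0 → Irreducible (Q.Pw w) := by
  have hfr : IsFractionRing R.ML.B L := IsFractionRing.of_field _ _ fun z => by
    obtain ⟨b, c, -, h⟩ := R.ML.frac z
    exact ⟨b, c, h⟩
  have hch : CharZero R.ML.B := charZero_of_injective_algebraMap (R := ℂ)
    (algebraMap ℂ R.ML.B).injective
  have hv : Function.Injective (R.MK.B.val : R.MK.B →+* K) := Subtype.val_injective
  have key : ∀ q : Polynomial R.RX,
      q.eval₂ ((R.MK.B.val : R.MK.B →+* K).comp R.ax) (Q.θ : K) =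
        (R.MK.B.val : R.MK.B →+* K) (q.eval₂ R.ax Q.θ) := fun q =>
    (Polynomial.hom_eval₂ q R.ax (R.MK.B.val : R.MK.B →+* K) Q.θ).symm
  obtain ⟨a, ha, h⟩ := BN4_143.irreducible_fiber.{0} (A := R.ML.B) L K hac
    ((R.MK.B.val : R.MK.B →+* K).comp R.ax) (by
      intro b
      rw [RingHom.comp_apply, ax_C]
      rfl) (Q.θ : K) Q.P Q.monic.ne_zero (by rw [key, Q.root, map_zero]) (by
      intro q hq
      apply Q.dvd
      apply hv
      rw [map_zero, ← key, hq])
  exact ⟨a, ha, fun w hw => h ℂ (w : R.ML.B →+* ℂ) hw⟩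

variable (R)

/-- **the fibres are connected over a dense open set**, for every relative model -/
theorem exists_conn (hac : BN1_143.AC L K) : ∃ p : MvPolynomial (Fin m) ℂ, p ≠ 0 ∧
    ∀ w : R.ML.Pts, MvPolynomial.eval (R.ML.pz w) p ≠ 0 → ConnectedSpace (R.Fib w) := by
  obtain ⟨s, hs, h1⟩ := R.exists_rprim
  obtain ⟨Q⟩ := h1 s hs dvd_rfl
  obtain ⟨a, ha, h2⟩ := Q.exists_irreducible hac
  let R' : RMdl L K m r := R.shK s hs
  obtain ⟨c, hc, h3⟩ := exists_dvd_poly R.ML ha
  obtain ⟨ξ, hξ⟩ := exists_specR_ne (mul_ne_zero R.MK.h_ne hs)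
  refine ⟨c * specR ξ (R.MK.h * s), mul_ne_zero hc hξ, fun w hw => ?_⟩
  rw [map_mul] at hw
  have hw1 := left_ne_zero_of_mul hw
  have hw2 := right_ne_zero_of_mul hw
  rw [eval_specR] at hw2
  have hA : w ∈ R'.A := ⟨ξ, hw2⟩
  obtain ⟨F, _, _, Mw, ρ, Φ, -⟩ := Q.exists_fibMdl w hA (h2 w (h3 w hw1))
  have hcs : ConnectedSpace (R'.Fib w) := Φ.surjective.connectedSpace Φ.continuous
  have hle : R.MK.B ≤ R'.MK.B := R.MK.le_loc s hs
  let j : R'.Fib w → R.Fib w := resF (R := R) (R' := R') le_rfl hle w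
  have hj : Continuous j := continuous_resF (R := R) (R' := R') le_rfl hle w
  have hrange : Set.range j = {y | MvPolynomial.eval (R.MK.pz (Fib.val R y)) R'.MK.h ≠ 0} :=
    range_resF (R := R) (R' := R') le_rfl hle rfl rfl w
  have hsp : specL (R.ML.pz w) (R.MK.h * s) ≠ 0 := by
    intro h0
    apply hw2
    rw [← eval_specL, h0, map_zero]
  have hd : DenseRange j := by
    have h4 := R.dense_fib w hsp
    refine h4.mono ?_
    intro y hy
    rw [hrange]
    change MvPolynomial.eval (R.MK.pz (Fib.val R y)) (R.MK.h * s) ≠ 0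
    rw [R.pL_fib, ← eval_specL]
    exact hy
  have hpc : PreconnectedSpace (R.Fib w) := hd.preconnectedSpace hj
  have hne : Nonempty (R.Fib w) := ⟨j (Classical.arbitrary _)⟩
  exact { toPreconnectedSpace := hpc, toNonempty := hne }

section shrink

variable (p : MvPolynomial (Fin m) ℂ) (hp : p ≠ 0) (s : MvPolynomial (Fin (m + r)) ℂ) (hs : s ≠ 0)

lemma shK_le_shrink : (R.shK s hs).MK.B ≤ (R.shrink p hp s hs).MK.B := by
  refine Mdl.B_le (M := R.MK.loc s hs) (j := 1) rfl ?_
  rw [pow_one]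
  exact ⟨MvPolynomial.rename (Fin.castAdd r) p, by
    change R.MK.h * (MvPolynomial.rename (Fin.castAdd r) p * s) = R.MK.h * s * _
    ring⟩

lemma surjective_resF_shrink (w : (R.shrink p hp s hs).ML.Pts) : Function.Surjective
    (resF (R := R.shK s hs) (R' := R.shrink p hp s hs) (R.ML.le_loc p hp)
      (R.shK_le_shrink p hp s hs) w) := by
  rw [← Set.range_eq_univ, range_resF (R := R.shK s hs) (R' := R.shrink p hp s hs) _ _ rfl rfl]
  rw [Set.eq_univ_iff_forall]
  intro y
  change MvPolynomial.eval ((R.shK s hs).MK.pz (Fib.val (R.shK s hs) y))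
    (R.MK.h * (MvPolynomial.rename (Fin.castAdd r) p * s)) ≠ 0
  have h1 : MvPolynomial.eval ((R.shK s hs).MK.pz (Fib.val (R.shK s hs) y)) (R.MK.h * s) ≠ 0 :=
    (R.MK.loc s hs).eval_h_ne (Fib.val (R.shK s hs) y)
  have h2 : MvPolynomial.eval ((R.shK s hs).MK.pz (Fib.val (R.shK s hs) y))
      (MvPolynomial.rename (Fin.castAdd r) p) = MvPolynomial.eval ((R.ML.loc p hp).pz w) p := by
    rw [MvPolynomial.eval_rename]
    congr 2
    funext i
    change (R.shK s hs).MK.pz (Fib.val (R.shK s hs) y) (Fin.castAdd r i) = _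
    rw [← (R.shK s hs).pz_q, y.q_eq]
    exact congrFun (Mdl.pz_resB (M := R.ML) (M' := R.ML.loc p hp) rfl (R.ML.le_loc p hp) w) i
  have h3 : MvPolynomial.eval ((R.ML.loc p hp).pz w) p ≠ 0 := TowA_849.loc_unit _ _ _ _
  rw [map_mul] at h1
  rw [map_mul, map_mul, h2]
  exact mul_ne_zero (left_ne_zero_of_mul h1) (mul_ne_zero h3 (right_ne_zero_of_mul h1))

/-- the fibres do not change if only the base is shrunk -/
def shrinkFib (w : (R.shrink p hp s hs).ML.Pts) : (R.shrink p hp s hs).Fib w ≃ₜ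
    (R.shK s hs).Fib (Mdl.resB (R.ML.le_loc p hp) w) :=
  (isOpenEmbedding_resF (R := R.shK s hs) (R' := R.shrink p hp s hs) (R.ML.le_loc p hp)
      (R.shK_le_shrink p hp s hs) rfl w).toHomeomorphOfSurjective
    (R.surjective_resF_shrink p hp s hs w)

end shrink

open Crest.Agent.R276.TowA_849 in
/-- **connected fibres** after every sufficient shrinking -/
theorem ev2_conn (hac : BN1_143.AC L K) :
    Ev2 R fun R' => ∀ w : R'.ML.Pts, ConnectedSpace (R'.Fib w) := by
  refine ⟨1, one_ne_zero, fun s hs _ => ?_⟩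
  obtain ⟨p₀, hp₀, h⟩ := (R.shK s hs).exists_conn hac
  refine ⟨p₀, hp₀, fun p hp hd w => ?_⟩
  have h1 : MvPolynomial.eval ((R.ML.loc p hp).pz w) p ≠ 0 := loc_unit _ _ _ _
  have h2 : MvPolynomial.eval ((R.ML.loc p hp).pz w) p₀ ≠ 0 := by
    obtain ⟨c, hc⟩ := hd
    intro h0
    apply h1
    refine (congrArg (MvPolynomial.eval ((R.ML.loc p hp).pz w)) hc).trans ?_
    rw [map_mul, h0, zero_mul]
  have h3 := h (Mdl.resB (R.ML.le_loc p hp) w) (by
    have h4 := Mdl.pz_resB (M := R.ML) (M' := R.ML.loc p hp) rfl (R.ML.le_loc p hp) w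
    change MvPolynomial.eval (R.ML.pz (Mdl.resB (R.ML.le_loc p hp) w)) p₀ ≠ 0
    rw [h4]
    exact h2)
  exact (R.shrinkFib p hp s hs w).symm.surjective.connectedSpace
    (R.shrinkFib p hp s hs w).symm.continuous

end RMdl

/-! ### towers -/

open Crest.Agent.R276.TowA_849

section tower

variable {T L K : Type} [Field T] [Field L] [Field K] [Algebra ℂ T] [Algebra ℂ L] [Algebra ℂ K]
  [Algebra T L] [Algebra L K] [Algebra T K] [IsScalarTower ℂ T L] [IsScalarTower ℂ L K]
  [IsScalarTower T L K] [IsScalarTower ℂ T K] {ρ a r : ℕ}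

/-- a composition of two relative models with connected fibres has connected fibres -/
theorem conn_TK (W : Tow T L K ρ a r) (h1 : ∀ v : W.TL.ML.Pts, ConnectedSpace (W.TL.Fib v))
    (h2 : ∀ w : W.LK.ML.Pts, ConnectedSpace (W.LK.Fib w)) (v : W.TK.ML.Pts) :
    ConnectedSpace (W.TK.Fib v) := by
  let f : W.TK.Fib v → W.TL.Fib v := fun y => ⟨W.LK.q (RMdl.Fib.val W.TK y), by
    rw [← W.q_TK]
    exact y.q_eq⟩
  have hfs : Function.Surjective f := by
    intro w
    obtain ⟨y⟩ := (h2 (RMdl.Fib.val W.TL w)).toNonempty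
    refine ⟨⟨RMdl.Fib.val W.LK y, ?_⟩, ?_⟩
    · have h3 := W.q_TK (RMdl.Fib.val W.LK y)
      rw [y.q_eq] at h3
      exact h3.trans w.q_eq
    · exact RMdl.Fib.ext y.q_eq
  have hfo : IsOpenMap f := by
    have h3 : IsOpenMap W.LK.q := W.LK.isOpenMap_q
    intro U hU
    obtain ⟨V, hV, rfl⟩ := isOpen_induced_iff.mp hU
    refine isOpen_induced_iff.mpr ⟨W.LK.q '' V, h3 V hV, ?_⟩
    ext w
    constructor
    · rintro ⟨u, hu, hw⟩
      have h4 : W.TK.q (show W.TK.MK.Pts from u) = v := by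
        rw [W.q_TK, hw]
        exact w.q_eq
      exact ⟨⟨u, h4⟩, hu, RMdl.Fib.ext hw⟩
    · rintro ⟨y, hy, rfl⟩
      exact ⟨RMdl.Fib.val W.TK y, hy, rfl⟩
  have hfc : ∀ w, IsPreconnected (f ⁻¹' {w}) := by
    intro w
    have h3 := h2 (RMdl.Fib.val W.TL w)
    let g : W.LK.Fib (RMdl.Fib.val W.TL w) → W.TK.Fib v := fun y => ⟨RMdl.Fib.val W.LK y, by
      have h4 := W.q_TK (RMdl.Fib.val W.LK y)
      rw [y.q_eq] at h4
      exact h4.trans w.q_eq⟩
    have hg : Continuous g := continuous_induced_rng.2 (RMdl.Fib.continuous_val _)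
    have h5 : f ⁻¹' {w} = Set.range g := by
      ext y
      constructor
      · intro hy
        have h6 : f y = w := hy
        exact ⟨⟨RMdl.Fib.val W.TK y, congrArg (RMdl.Fib.val W.TL) h6⟩, RMdl.Fib.ext rfl⟩
      · rintro ⟨y, rfl⟩
        exact RMdl.Fib.ext y.q_eq
    rw [h5]
    exact isPreconnected_range hg
  have h6 := h1 v
  have h7 : PreconnectedSpace (W.TK.Fib v) := preconnectedSpace_of_fibres hfo hfs hfc
  obtain ⟨y, -⟩ := hfs (Classical.arbitrary _)
  exact { toPreconnectedSpace := h7, toNonempty := ⟨y⟩ }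

/-- **all fibres of a tower are connected** after every sufficient shrinking -/
theorem ev_conn (W : Tow T L K ρ a r) (h1 : BN1_143.AC T L) (h2 : BN1_143.AC L K) :
    Ev W fun W => (∀ v : W.TL.ML.Pts, ConnectedSpace (W.TL.Fib v)) ∧
      (∀ w : W.LK.ML.Pts, ConnectedSpace (W.LK.Fib w)) ∧
      ∀ v : W.TK.ML.Pts, ConnectedSpace (W.TK.Fib v) :=
  ((Ev.of_TL (W.TL.ev2_conn h1)).and (Ev.of_LK (W.LK.ev2_conn h2))).mono
    fun W h => ⟨h.1, h.2, conn_TK W h.1 h.2⟩

end tower

end Crest.Agent.R276.Mod1_987
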