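import Mathlib
import Crest.Agent.R276.TowA_849
import Crest.Agent.R276.BN_143
import Crest.Agent.R276.FibM_793
import Crest.Agent.R276.Mod10_987
import Crest.Agent.R276.CmpR3_652
import Crest.Agent.R276.FGSub_595
import Crest.Agent.R276.CInd_870

-- ▼ part R276/TowB_849
section

/-!
# Row 276, MODPACK (helper849), part B: connected fibres

`ev2_conn`: if `L` is algebraically closed in `K`, then after every sufficient shrinking all fibres
of `M_K → M_L` are connected (Bertini–Noether, helper143).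
-/

set_option autoImplicit false
set_option linter.unusedSectionVars false

open Polynomial Topology Filter

noncomputable section

namespace Crest.Agent.R276.TowB_849

open Crest.Agent.R271.Defs710 Crest.Agent.R271.Alg255 Crest.Agent.R271.Rd692
open Crest.Agent.R271.AlgB956 Crest.Agent.R271.Ho51
open Crest.Agent.R276.Mod1_987 Crest.Agent.R276.TowA_849
open scoped TensorProduct

/-! ### `A[x]` is formally unramified over `ℂ[z, x]` -/

section unram

variable {A : Type} [CommRing A] [Algebra ℂ A] {m r : ℕ}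

lemma az_C' {B : Type} [CommRing B] [Algebra ℂ B] {n : ℕ} (z : Fin n → B) (c : ℂ) :
    az z (MvPolynomial.C c) = algebraMap ℂ B c := MvPolynomial.aeval_C _ _

lemma az_X' {B : Type} [CommRing B] [Algebra ℂ B] {n : ℕ} (z : Fin n → B) (i : Fin n) :
    az z (MvPolynomial.X i) = z i := MvPolynomial.aeval_X _ _

/-- the coordinates `(z, x)` in `A[x]` -/
def zx (z : Fin m → A) : Fin (m + r) → MvPolynomial (Fin r) A :=
  Fin.append (fun i => MvPolynomial.C (z i)) MvPolynomial.X

lemma az_zx_rename (z : Fin m → A) (p : MvPolynomial (Fin m) ℂ) :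
    az (zx (r := r) z) (MvPolynomial.rename (Fin.castAdd r) p) = MvPolynomial.C (az z p) := by
  change MvPolynomial.aeval _ _ = MvPolynomial.C (MvPolynomial.aeval z p)
  rw [MvPolynomial.aeval_rename]
  have h1 : (zx (r := r) z) ∘ Fin.castAdd r =
      fun i => (IsScalarTower.toAlgHom ℂ A (MvPolynomial (Fin r) A)) (z i) := by
    funext i
    simp only [Function.comp, zx, Fin.append_left]
    rfl
  rw [h1]
  exact (MvPolynomial.comp_aeval_apply z
    (IsScalarTower.toAlgHom ℂ A (MvPolynomial (Fin r) A)) p).symm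

theorem unram_poly (z : Fin m → A)
    (h : letI := (az z).toAlgebra; Algebra.FormallyUnramified (MvPolynomial (Fin m) ℂ) A) :
    letI := (az (zx (r := r) z)).toAlgebra
    Algebra.FormallyUnramified (MvPolynomial (Fin (m + r)) ℂ) (MvPolynomial (Fin r) A) := by
  let a1 : Algebra (MvPolynomial (Fin m) ℂ) A := (az z).toAlgebra
  let a2 : Algebra (MvPolynomial (Fin (m + r)) ℂ) (MvPolynomial (Fin r) A) :=
    (az (zx (r := r) z)).toAlgebra
  have h' : Algebra.FormallyUnramified (MvPolynomial (Fin m) ℂ) A := h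
  rw [Algebra.FormallyUnramified.iff_comp_injective]
  intro B _ _ I hI f g hfg
  let a3 : Algebra (MvPolynomial (Fin m) ℂ) B :=
    ((algebraMap (MvPolynomial (Fin (m + r)) ℂ) B).comp
      ((MvPolynomial.rename (Fin.castAdd r) : MvPolynomial (Fin m) ℂ →ₐ[ℂ] _) :
        MvPolynomial (Fin m) ℂ →+* MvPolynomial (Fin (m + r)) ℂ)).toAlgebra
  have key : ∀ (f : MvPolynomial (Fin r) A →ₐ[MvPolynomial (Fin (m + r)) ℂ] B)
      (p : MvPolynomial (Fin m) ℂ), f (MvPolynomial.C (az z p)) =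
        algebraMap (MvPolynomial (Fin m) ℂ) B p := by
    intro f p
    have h1 := f.commutes (MvPolynomial.rename (Fin.castAdd r) p)
    rw [← az_zx_rename]
    exact h1
  let F : (MvPolynomial (Fin r) A →ₐ[MvPolynomial (Fin (m + r)) ℂ] B) →
      (A →ₐ[MvPolynomial (Fin m) ℂ] B) := fun f =>
    { toRingHom := (f : MvPolynomial (Fin r) A →+* B).comp MvPolynomial.C
      commutes' := fun p => key f p }
  have h2 : F f = F g := by
    apply Algebra.FormallyUnramified.comp_injective I hI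
    apply AlgHom.ext
    intro b
    exact DFunLike.congr_fun hfg (MvPolynomial.C b)
  apply AlgHom.coe_ringHom_injective
  apply MvPolynomial.ringHom_ext
  · intro b
    exact DFunLike.congr_fun h2 b
  · intro j
    have h3 : (MvPolynomial.X j : MvPolynomial (Fin r) A) =
        algebraMap (MvPolynomial (Fin (m + r)) ℂ) (MvPolynomial (Fin r) A)
          (MvPolynomial.X (Fin.natAdd m j)) := by
      change _ = MvPolynomial.aeval _ _
      rw [MvPolynomial.aeval_X]
      simp [zx]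
    change f (MvPolynomial.X j) = g (MvPolynomial.X j)
    rw [h3, f.commutes, g.commutes]

end unram

/-! ### the relative algebra is étale over `A[x]` -/

section rel

variable {L K : Type} [Field L] [Field K] [Algebra ℂ L] [Algebra ℂ K] [Algebra L K]
  [IsScalarTower ℂ L K] {m r : ℕ} (R : RMdl L K m r)

/-- `B_L → B_K` as an algebra structure -/
@[reducible] def algR : Algebra R.ML.B R.MK.B := (R.incl : R.ML.B →+* R.MK.B).toAlgebra

theorem het_rel : letI := algR R
    RingHom.Etale ((MvPolynomial.aeval (fun j => R.MK.z (Fin.natAdd m j)) :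
      MvPolynomial (Fin r) R.ML.B →ₐ[R.ML.B] R.MK.B) : MvPolynomial (Fin r) R.ML.B →+* R.MK.B) := by
  let a0 : Algebra R.ML.B R.MK.B := algR R
  let a1 : Algebra (MvPolynomial (Fin m) ℂ) R.ML.B := (az R.ML.z).toAlgebra
  let a2 : Algebra (MvPolynomial (Fin (m + r)) ℂ) (MvPolynomial (Fin r) R.ML.B) :=
    (az (zx (r := r) R.ML.z)).toAlgebra
  let a3 : Algebra (MvPolynomial (Fin (m + r)) ℂ) R.MK.B := (az R.MK.z).toAlgebra
  let E : MvPolynomial (Fin r) R.ML.B →ₐ[R.ML.B] R.MK.B :=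
    MvPolynomial.aeval (fun j => R.MK.z (Fin.natAdd m j))
  let a4 : Algebra (MvPolynomial (Fin r) R.ML.B) R.MK.B :=
    (E : MvPolynomial (Fin r) R.ML.B →+* R.MK.B).toAlgebra
  have hE1 : Algebra.Etale (MvPolynomial (Fin m) ℂ) R.ML.B := R.ML.het
  have hE2 : Algebra.Etale (MvPolynomial (Fin (m + r)) ℂ) R.MK.B := R.MK.het
  have hU : Algebra.FormallyUnramified (MvPolynomial (Fin (m + r)) ℂ)
      (MvPolynomial (Fin r) R.ML.B) := unram_poly R.ML.z inferInstance
  have htow : IsScalarTower (MvPolynomial (Fin (m + r)) ℂ) (MvPolynomial (Fin r) R.ML.B)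
      R.MK.B := by
    apply IsScalarTower.of_algebraMap_eq'
    apply MvPolynomial.ringHom_ext
    · intro c
      change az R.MK.z (MvPolynomial.C c) = E (az (zx (r := r) R.ML.z) (MvPolynomial.C c))
      rw [az_C', az_C']
      change _ = E (MvPolynomial.C (algebraMap ℂ R.ML.B c))
      have h1 := MvPolynomial.aeval_C (R := R.ML.B) (fun j => R.MK.z (Fin.natAdd m j))
        (algebraMap ℂ R.ML.B c)
      rw [show E (MvPolynomial.C (algebraMap ℂ R.ML.B c)) = _ from h1]
      exact (R.incl.commutes c).symm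
    · intro i
      change az R.MK.z (MvPolynomial.X i) = E (az (zx (r := r) R.ML.z) (MvPolynomial.X i))
      rw [az_X', az_X']
      refine Fin.addCases (fun i => ?_) (fun j => ?_) i
      · have h1 := MvPolynomial.aeval_C (R := R.ML.B) (fun j => R.MK.z (Fin.natAdd m j))
          (R.ML.z i)
        simp only [zx, Fin.append_left]
        rw [show E (MvPolynomial.C (R.ML.z i)) = _ from h1]
        exact Subtype.ext (R.z_eq i)
      · have h1 := MvPolynomial.aeval_X (R := R.ML.B) (fun j => R.MK.z (Fin.natAdd m j)) j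
        simp only [zx, Fin.append_right]
        exact h1.symm
  have hfe : Algebra.FormallyEtale (MvPolynomial (Fin r) R.ML.B) R.MK.B :=
    Algebra.FormallyEtale.of_restrictScalars (R := MvPolynomial (Fin (m + r)) ℂ)
  have hnoe : IsNoetherianRing R.ML.B := Algebra.FiniteType.isNoetherianRing ℂ R.ML.B
  have htow2 : IsScalarTower ℂ (MvPolynomial (Fin r) R.ML.B) R.MK.B := by
    apply IsScalarTower.of_algebraMap_eq
    intro c
    change _ = E (MvPolynomial.C (algebraMap ℂ R.ML.B c))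
    have h1 := MvPolynomial.aeval_C (R := R.ML.B) (fun j => R.MK.z (Fin.natAdd m j))
        (algebraMap ℂ R.ML.B c)
    rw [show E (MvPolynomial.C (algebraMap ℂ R.ML.B c)) = _ from h1]
    exact (R.incl.commutes c).symm
  have hft : Algebra.FiniteType (MvPolynomial (Fin r) R.ML.B) R.MK.B :=
    Algebra.FiniteType.of_restrictScalars_finiteType ℂ _ _
  have hfp : Algebra.FinitePresentation (MvPolynomial (Fin r) R.ML.B) R.MK.B :=
    Algebra.FinitePresentation.of_finiteType.mp hft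
  have : Algebra.Etale (MvPolynomial (Fin r) R.ML.B) R.MK.B := ⟨hfe, hfp⟩
  exact this


/-- descent of a homomorphism along a surjection -/
lemma exists_desc {B C : Type} [CommRing B] [CommRing C] [Algebra ℂ B] [Algebra ℂ C]
    (f : B →ₐ[ℂ] C) (hf : Function.Surjective f) (g : B →ₐ[ℂ] ℂ) (h : ∀ b, f b = 0 → g b = 0) :
    ∃ g' : C →ₐ[ℂ] ℂ, ∀ b, g' (f b) = g b :=
  ⟨AlgHom.liftOfSurjective f hf g h, fun b => AlgHom.liftOfSurjective_apply f hf g h b⟩

/-- the ring of the fibre over a point of `A` -/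
theorem exists_fibre_ring {A B : Type} [CommRing A] [CommRing B] [Algebra ℂ A] [Algebra ℂ B]
    [Algebra A B] [IsScalarTower ℂ A B] [Algebra A ℂ]
    (hA : ∀ c : ℂ, algebraMap A ℂ (algebraMap ℂ A c) = c) {r : ℕ} (x : Fin r → B)
    (het : RingHom.Etale ((MvPolynomial.aeval x : MvPolynomial (Fin r) A →ₐ[A] B) :
      MvPolynomial (Fin r) A →+* B)) (hD : IsDomain (ℂ ⊗[A] B)) :
    ∃ (D : Type) (_ : CommRing D) (_ : IsDomain D) (_ : Algebra ℂ D) (j : B →ₐ[ℂ] D),
      Function.Surjective j ∧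
      (∀ a : A, j (algebraMap A B a) = algebraMap ℂ D (algebraMap A ℂ a)) ∧
      AlgebraicIndependent ℂ (fun i => j (x i)) ∧
      ∀ y : B →ₐ[ℂ] ℂ, (∀ a : A, y (algebraMap A B a) = algebraMap A ℂ a) →
        ∀ b, j b = 0 → y b = 0 := by
  have hincl : ∀ a : A, (1 : ℂ) ⊗ₜ[A] (algebraMap A B a) = (algebraMap A ℂ a) ⊗ₜ[A] (1 : B) :=
    fun a => (Algebra.TensorProduct.tmul_one_eq_one_tmul (A := ℂ) (B := B) a).symm
  let j0 : B →+* ℂ ⊗[A] B :=
    (Algebra.TensorProduct.includeRight : B →ₐ[A] ℂ ⊗[A] B).toRingHom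
  have hj : ∀ b, j0 b = (1 : ℂ) ⊗ₜ[A] b := fun b => rfl
  have hjc : ∀ c : ℂ, j0 (algebraMap ℂ B c) = algebraMap ℂ (ℂ ⊗[A] B) c := by
    intro c
    rw [hj, IsScalarTower.algebraMap_apply ℂ A B c, hincl, hA]
    rfl
  have hjs : Function.Surjective j0 := by
    intro d
    induction d using TensorProduct.induction_on with
    | zero => exact ⟨0, map_zero _⟩
    | add u v hu hv =>
      obtain ⟨b, hb⟩ := hu
      obtain ⟨c, hc⟩ := hv
      exact ⟨b + c, by rw [map_add, hb, hc]⟩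
    | tmul c b =>
      refine ⟨algebraMap ℂ B c * b, ?_⟩
      rw [map_mul, hjc, hj]
      change (c ⊗ₜ[A] (1 : B)) * _ = _
      rw [Algebra.TensorProduct.tmul_mul_tmul, mul_one, one_mul]
  refine ⟨ℂ ⊗[A] B, inferInstance, hD, inferInstance,
    { toRingHom := j0, commutes' := hjc }, hjs, ?_, ?_, ?_⟩
  · intro a
    exact hincl a
  · let a4 : Algebra (MvPolynomial (Fin r) A) B :=
      ((MvPolynomial.aeval x : MvPolynomial (Fin r) A →ₐ[A] B) :
        MvPolynomial (Fin r) A →+* B).toAlgebra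
    have hE : Algebra.Etale (MvPolynomial (Fin r) A) B := het
    have htow : IsScalarTower A (MvPolynomial (Fin r) A) B :=
      IsScalarTower.of_algebraMap_eq fun c => (MvPolynomial.aeval_C x c).symm
    have hflat : Module.Flat (MvPolynomial (Fin r) A) B := inferInstance
    have h3 : Function.Injective
        (MvPolynomial.aeval (fun i => (1 : ℂ) ⊗ₜ[A] x i) :
          MvPolynomial (Fin r) ℂ →ₐ[ℂ] ℂ ⊗[A] B) := by
      rw [injective_iff_map_eq_zero]
      intro p hp
      by_contra hp0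
      have h6 := BN3_143.torsionFree (k := ℂ) x
        (fun i => MvPolynomial.aeval_X _ i) p hp0 1 (by
          rw [mul_one]
          exact hp)
      exact hD.toNontrivial.exists_pair_ne.elim fun a h => h.elim fun b hab => hab (by
        rw [← mul_one a, ← mul_one b, h6, mul_zero, mul_zero])
    exact h3
  · intro y hy b hb
    let g : B →ₐ[A] ℂ :=
      { toRingHom := (y : B →+* ℂ)
        commutes' := hy }
    have hψ : Algebra.TensorProduct.productMap (AlgHom.id A ℂ) g (j0 b) = y b := by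
      rw [hj, Algebra.TensorProduct.productMap_apply_tmul]
      exact one_mul _
    have hb' : j0 b = 0 := hb
    rw [← hψ, hb', map_zero]

/-- the fibre over `w` is connected if its ring is a domain (abstract version) -/
theorem isConnected_of_ring (w : R.ML.Pts) {D : Type} [CommRing D] [IsDomain D] [Algebra ℂ D]
    (j : R.MK.B →ₐ[ℂ] D) (hjs : Function.Surjective j)
    (hw : ∀ a : R.ML.B, j (R.incl a) = algebraMap ℂ D (w a))
    (hai : AlgebraicIndependent ℂ (fun i => j (R.MK.z (Fin.natAdd m i))))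
    (hker : ∀ y : R.MK.Pts, R.q y = w → ∀ b, j b = 0 → y b = 0) :
    IsConnected (R.q ⁻¹' {w}) := by
  let K' : Type := FractionRing D
  let π : R.MK.B →ₐ[ℂ] K' := (IsScalarTower.toAlgHom ℂ D K').comp j
  have hπ : ∀ b, π b = algebraMap D K' (j b) := fun b => rfl
  have hinj : Function.Injective (algebraMap D K') := IsFractionRing.injective D K'
  have h1 : ∀ i, π (R.MK.z (finSumFinEquiv (Sum.inl i))) = algebraMap ℂ K' (R.ML.pz w i) := by
    intro i
    have h2 : R.MK.z (finSumFinEquiv (Sum.inl i)) = R.incl (R.ML.z i) :=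
      Subtype.ext (R.z_eq i)
    rw [hπ, h2, hw]
    exact (IsScalarTower.algebraMap_apply ℂ D K' _).symm
  have h2 : AlgebraicIndependent ℂ (fun j' => π (R.MK.z (finSumFinEquiv (Sum.inr j')))) :=
    hai.map' (f := IsScalarTower.toAlgHom ℂ D K') hinj
  have h3 : ∀ a : K', ∃ b d : R.MK.B, π d ≠ 0 ∧ a = π b / π d := by
    intro a
    obtain ⟨u, v, hv, huv⟩ := IsFractionRing.div_surjective (A := D) a
    obtain ⟨b, rfl⟩ := hjs u
    obtain ⟨d, rfl⟩ := hjs v
    refine ⟨b, d, ?_, huv.symm⟩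
    rw [hπ, Ne, map_eq_zero_iff _ hinj]
    exact nonZeroDivisors.ne_zero hv
  let M' := FibM_793.spec (M := R.MK) (e := finSumFinEquiv) (c := R.ML.pz w) (π := π) h1 h2 h3
  let Φ : M'.Pts → R.MK.Pts := fun y' => AlgHom.comp (A := R.MK.B) y' π.rangeRestrict
  have hΦ : Continuous Φ := by
    rw [continuous_iff_ev]
    intro b
    exact continuous_ev _
  have hr : Set.range Φ = R.q ⁻¹' {w} := by
    apply Set.Subset.antisymm
    · rintro _ ⟨y', rfl⟩
      apply AlgHom.ext
      intro a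
      have h4 : π.rangeRestrict (R.incl a) = algebraMap ℂ π.range (w a) := by
        apply Subtype.ext
        change π (R.incl a) = algebraMap ℂ K' (w a)
        rw [hπ, hw]
        exact (IsScalarTower.algebraMap_apply ℂ D K' _).symm
      change y' (π.rangeRestrict (R.incl a)) = w a
      rw [h4]
      exact y'.commutes _
    · intro y hy
      obtain ⟨y', hy'⟩ := exists_desc π.rangeRestrict π.rangeRestrict_surjective y (by
        intro b hb
        have h4 : π b = 0 := congrArg Subtype.val hb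
        rw [hπ, map_eq_zero_iff _ hinj] at h4
        exact hker y hy b h4)
      exact ⟨y', AlgHom.ext hy'⟩
  rw [← hr]
  exact isConnected_range hΦ

/-- the fibres over a dense Zariski open set are connected -/
theorem exists_conn (hac : BN1_143.AC L K) : ∃ a : R.ML.B, a ≠ 0 ∧
    ∀ w : R.ML.Pts, w a ≠ 0 → IsConnected (R.q ⁻¹' {w}) := by
  let a0 : Algebra R.ML.B R.MK.B := algR R
  have t2 : IsScalarTower R.ML.B R.MK.B K := IsScalarTower.of_algebraMap_eq fun _ => rfl
  have t3 : IsScalarTower ℂ R.ML.B R.MK.B :=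
    IsScalarTower.of_algebraMap_eq fun c => (R.incl.commutes c).symm
  have c0 : CharZero R.ML.B := charZero_of_injective_algebraMap
    (algebraMap ℂ R.ML.B).injective
  obtain ⟨a, ha, h⟩ := BN_143.fiber_isDomain (A := R.ML.B) (B := R.MK.B) L K hac
    (fun j => R.MK.z (Fin.natAdd m j)) (het_rel R)
  refine ⟨a, ha, fun w hw => ?_⟩
  let a2 : Algebra R.ML.B ℂ := (w : R.ML.B →+* ℂ).toAlgebra
  obtain ⟨D, _, _, _, j, h1, h2, h3, h4⟩ := exists_fibre_ring (A := R.ML.B) (B := R.MK.B)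
    (fun c => w.commutes c) (fun j => R.MK.z (Fin.natAdd m j)) (het_rel R) (h ℂ hw)
  exact isConnected_of_ring R w j h1 h2 h3 fun y hy => h4 y fun a => DFunLike.congr_fun hy a

end rel

/-! ### comparison of relative models with the same coordinates -/

section le

variable {L K : Type} [Field L] [Field K] [Algebra ℂ L] [Algebra ℂ K] [Algebra L K]
  [IsScalarTower ℂ L K] {m r : ℕ}

/-- `R'` is a shrinking of `R` (same coordinates, larger rings) -/
structure Le (R R' : RMdl L K m r) : Prop where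
  zL : R.ML.zK = R'.ML.zK
  zK : R.MK.zK = R'.MK.zK
  bL : R.ML.B ≤ R'.ML.B
  bK : R.MK.B ≤ R'.MK.B

theorem Le.refl (R : RMdl L K m r) : Le R R := ⟨rfl, rfl, le_rfl, le_rfl⟩

theorem Le.trans {R R' R'' : RMdl L K m r} (h : Le R R') (h' : Le R' R'') : Le R R'' :=
  ⟨h.zL.trans h'.zL, h.zK.trans h'.zK, h.bL.trans h'.bL, h.bK.trans h'.bK⟩

theorem le_shrink (R : RMdl L K m r) {p : MvPolynomial (Fin m) ℂ} (hp : p ≠ 0)
    {s : MvPolynomial (Fin (m + r)) ℂ} (hs : s ≠ 0) : Le R (R.shrink p hp s hs) :=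
  ⟨rfl, rfl, R.ML.le_loc p hp, R.MK.le_loc (cp2 p s) (cp2_ne hp hs)⟩

lemma loc_le_loc {n : ℕ} (M : Mdl K n) {p p' : MvPolynomial (Fin n) ℂ} (hp : p ≠ 0) (hp' : p' ≠ 0)
    (hpd : p ∣ p') : (M.loc p hp).B ≤ (M.loc p' hp').B := by
  have h1 : (M.loc p hp).zK = (M.loc p' hp').zK := (M.loc_zK p hp).trans (M.loc_zK p' hp').symm
  refine Mdl.B_le (j := 1) h1 ?_
  rw [pow_one, Mdl.loc_h, Mdl.loc_h]
  exact mul_dvd_mul_left _ hpd

theorem shrink_le_shrink (R : RMdl L K m r) {p p' : MvPolynomial (Fin m) ℂ} (hp : p ≠ 0)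
    (hp' : p' ≠ 0) (hpd : p ∣ p') {s s' : MvPolynomial (Fin (m + r)) ℂ} (hs : s ≠ 0)
    (hs' : s' ≠ 0) (hsd : s ∣ s') : Le (R.shrink p hp s hs) (R.shrink p' hp' s' hs') :=
  ⟨(le_shrink R hp hs).zL.symm.trans (le_shrink R hp' hs').zL,
    (le_shrink R hp hs).zK.symm.trans (le_shrink R hp' hs').zK, loc_le_loc R.ML hp hp' hpd,
    loc_le_loc R.MK (cp2_ne hp hs) (cp2_ne hp' hs') (mul_dvd_mul (map_dvd _ hpd) hsd)⟩

variable {R R' : RMdl L K m r} (h : Le R R')

/-- the open embedding of the base -/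
def Le.resL (y : R'.ML.Pts) : R.ML.Pts := Mdl.resB h.bL y

/-- the open embedding of the total space -/
def Le.resK (y : R'.MK.Pts) : R.MK.Pts := Mdl.resB h.bK y

theorem Le.isOpenEmbedding_resL : IsOpenEmbedding h.resL := Mdl.isOpenEmbedding_resB h.zL h.bL

theorem Le.isOpenEmbedding_resK : IsOpenEmbedding h.resK := Mdl.isOpenEmbedding_resB h.zK h.bK


theorem Le.range_resK : Set.range h.resK = {y | MvPolynomial.eval (R.MK.pz y) R'.MK.h ≠ 0} :=
  Mdl.range_resB h.zK h.bK

lemma Le.pz_resL (y : R'.ML.Pts) : R.ML.pz (h.resL y) = R'.ML.pz y := Mdl.pz_resB h.zL h.bL y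

lemma Le.pz_resK (y : R'.MK.Pts) : R.MK.pz (h.resK y) = R'.MK.pz y := Mdl.pz_resB h.zK h.bK y


theorem Le.q_resK (y : R'.MK.Pts) : R.q (h.resK y) = h.resL (R'.q y) := by
  apply AlgHom.ext
  intro b
  change y _ = y _
  congr 1

/-- the image of a fibre -/
theorem Le.image_fibre (w : R'.ML.Pts) : h.resK '' (R'.q ⁻¹' {w}) =
    {y | R.q y = h.resL w ∧ MvPolynomial.eval (R.MK.pz y) R'.MK.h ≠ 0} := by
  ext y
  constructor
  · rintro ⟨y', hy', rfl⟩
    refine ⟨?_, ?_⟩
    · rw [h.q_resK, show R'.q y' = w from hy']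
    · rw [h.pz_resK]
      exact R'.MK.eval_h_ne y'
  · rintro ⟨h1, h2⟩
    have h3 : y ∈ Set.range h.resK := by rw [h.range_resK]; exact h2
    obtain ⟨y', rfl⟩ := h3
    refine ⟨y', ?_, rfl⟩
    rw [h.q_resK] at h1
    exact h.isOpenEmbedding_resL.injective h1

/-- the fibres do not change if only the base is shrunk -/
theorem Le.image_fibre_eq {j : ℕ}
    (hd : R'.MK.h ∣ (R.MK.h * MvPolynomial.rename (Fin.castAdd r) R'.ML.h) ^ j)
    (w : R'.ML.Pts) : h.resK '' (R'.q ⁻¹' {w}) = R.q ⁻¹' {h.resL w} := by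
  rw [h.image_fibre]
  ext y
  constructor
  · intro hy
    exact hy.1
  · intro hy
    refine ⟨hy, fun h0 => ?_⟩
    have hy' : R.q y = h.resL w := hy
    have h1 : MvPolynomial.eval (R.MK.pz y)
        ((R.MK.h * MvPolynomial.rename (Fin.castAdd r) R'.ML.h) ^ j) = 0 := by
      obtain ⟨c, hc⟩ := hd
      rw [hc, map_mul, h0, zero_mul]
    have h2 : MvPolynomial.eval (R.MK.pz y) (MvPolynomial.rename (Fin.castAdd r) R'.ML.h) =
        MvPolynomial.eval (R'.ML.pz w) R'.ML.h := by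
      rw [MvPolynomial.eval_rename]
      congr 2
      funext i
      rw [← h.pz_resL, ← hy', R.pz_q]
      rfl
    rw [map_pow, map_mul, h2] at h1
    rcases mul_eq_zero.mp (eq_zero_of_pow_eq_zero h1) with h4 | h4
    · exact R.MK.eval_h_ne y h4
    · exact R'.ML.eval_h_ne w h4

theorem isConnected_of_image {X Y : Type*} [TopologicalSpace X] [TopologicalSpace Y] {f : X → Y}
    (hf : IsOpenEmbedding f) {S : Set X} (hS : IsConnected (f '' S)) : IsConnected S :=
  ⟨Set.Nonempty.of_image hS.1, (hf.isInducing.isPreconnected_image).mp hS.2⟩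

end le

/-! ### `Ev2`: connected fibres -/

section ev2

variable {L K : Type} [Field L] [Field K] [Algebra ℂ L] [Algebra ℂ K] [Algebra L K]
  [IsScalarTower ℂ L K] {m r : ℕ}

/-- all fibres are connected (hence nonempty) -/
def Conn (R : RMdl L K m r) : Prop := ∀ w : R.ML.Pts, IsConnected (R.q ⁻¹' {w})

theorem Conn.surj {R : RMdl L K m r} (h : Conn R) : Function.Surjective R.q := fun w => by
  obtain ⟨y, hy⟩ := (h w).1
  exact ⟨y, hy⟩


/-- for every shrinking of the total space there is a shrinking of the base such that all fibres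
are connected -/
theorem exists_conn_shrink (hac : BN1_143.AC L K) (R : RMdl L K m r)
    (s : MvPolynomial (Fin (m + r)) ℂ) (hs : s ≠ 0) :
    ∃ p₀ : MvPolynomial (Fin m) ℂ, p₀ ≠ 0 ∧
      ∀ (p : MvPolynomial (Fin m) ℂ) (hp : p ≠ 0), p₀ ∣ p → Conn (R.shrink p hp s hs) := by
  obtain ⟨a, ha, hconn⟩ := exists_conn (R.shrink 1 one_ne_zero s hs) hac
  obtain ⟨p₀, hp₀, c, hc⟩ := AB2_590.exists_poly_dvd (R.shrink 1 one_ne_zero s hs).ML.het ha
  refine ⟨p₀, hp₀, fun p hp hd w => ?_⟩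
  have hle : Le (R.shrink 1 one_ne_zero s hs) (R.shrink p hp s hs) :=
    shrink_le_shrink R one_ne_zero hp (one_dvd _) hs hs dvd_rfl
  have h1 : (hle.resL w) a ≠ 0 := by
    intro h0
    have h2 : hle.resL w (MvPolynomial.aeval (R.shrink 1 one_ne_zero s hs).ML.z p₀) = 0 := by
      rw [hc, map_mul, h0, zero_mul]
    have h3 : hle.resL w (MvPolynomial.aeval (R.shrink 1 one_ne_zero s hs).ML.z p₀) =
        MvPolynomial.eval ((R.shrink 1 one_ne_zero s hs).ML.pz (hle.resL w)) p₀ :=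
      (R.shrink 1 one_ne_zero s hs).ML.apply_az' (hle.resL w) p₀
    rw [h3, hle.pz_resL] at h2
    obtain ⟨e, he⟩ := hd
    have h4 : MvPolynomial.eval ((R.shrink p hp s hs).ML.pz w) p = 0 := by
      have h5 := congrArg (MvPolynomial.eval ((R.shrink p hp s hs).ML.pz w)) he
      rw [map_mul, h2, zero_mul] at h5
      exact h5
    exact loc_unit R.ML p hp w h4
  refine isConnected_of_image hle.isOpenEmbedding_resK ?_
  rw [hle.image_fibre_eq (j := 1)]
  · exact hconn _ h1
  · rw [pow_one]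
    change R.MK.h * (MvPolynomial.rename (Fin.castAdd r) p * s) ∣
      R.MK.h * (MvPolynomial.rename (Fin.castAdd r) 1 * s) *
        MvPolynomial.rename (Fin.castAdd r) (R.ML.h * p)
    refine ⟨MvPolynomial.rename (Fin.castAdd r) R.ML.h, ?_⟩
    rw [map_mul, map_one]
    ring

theorem Ev2.conn (hac : BN1_143.AC L K) (R : RMdl L K m r) : Ev2 R Conn :=
  ⟨1, one_ne_zero, fun s hs _ => exists_conn_shrink hac R s hs⟩

end ev2

end Crest.Agent.R276.TowB_849
end
end

-- ▼ part R276/ModPack_849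

/-!
# Row 276, MODPACK (helper849): the package

* `exists_coords` : coordinates `(t, z)` of `L` adapted to `T ⊆ L`;
* `Dv W` : `h_T ∣ h_L ∣ h_K` (stable under shrinking); `TLe W W'` : shrinking of towers;
* `exists_tow` : existence of towers with prescribed coordinates;
* `Good W` : `Dv`, all fibres of `M_K → M_L → M_T` connected; `Good.relTL`, `Good.relLK` : relative
  models in the sense of `SkelDefs_220`;
* `modpack` : existence of a tower all whose sufficiently small shrinkings are good and comparable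
  with the given relative model;
* `exists_R0` : existence of relative models.
-/

set_option autoImplicit false
set_option linter.unusedSectionVars false

open Polynomial Topology Filter

noncomputable section

namespace Crest.Agent.R276.ModPack_849

open Crest.Agent.R271.Defs710 Crest.Agent.R271.Alg255 Crest.Agent.R271.Rd692
open Crest.Agent.R271.AlgB956 Crest.Agent.R271.Ho51
open Crest.Agent.R276.Mod1_987 Crest.Agent.R276.TowA_849 Crest.Agent.R276.TowB_849

/-! ### transcendence bases -/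

section field

/-- the transcendence basis `(z, x)` of a tower -/
theorem isTB_append {k L K : Type*} [Field k] [Field L] [Field K] [Algebra k L] [Algebra k K]
    [Algebra L K] [IsScalarTower k L K] {m r : ℕ} {z : Fin m → L} {x : Fin r → K}
    (hz : IsTranscendenceBasis k z) (hx : IsTranscendenceBasis L x) :
    IsTranscendenceBasis k (Fin.append (fun i => algebraMap L K (z i)) x) := by
  have h1 := hz.sumElim_comp hx
  let e : Fin (m + r) ≃ Fin r ⊕ Fin m := finSumFinEquiv.symm.trans (Equiv.sumComm _ _)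
  have h2 : Fin.append (fun i => algebraMap L K (z i)) x =
      (Sum.elim x (algebraMap L K ∘ z)) ∘ e := by
    funext i
    refine Fin.addCases (fun i => ?_) (fun j => ?_) i
    · simp [e]
    · simp [e]
  rw [h2]
  exact (isTranscendenceBasis_equiv e).mpr h1

/-- a finite transcendence basis indexed by `Fin` -/
theorem exists_finTB {F L : Type*} [Field F] [Field L] [Algebra F L]
    (hfin : Algebra.trdeg F L < Cardinal.aleph0) :
    ∃ (a : ℕ) (z : Fin a → L), IsTranscendenceBasis F z := by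
  obtain ⟨s, hs⟩ := exists_isTranscendenceBasis F L
  have h1 : Cardinal.mk s < Cardinal.aleph0 := by rwa [hs.cardinalMk_eq_trdeg]
  have : Finite s := Cardinal.lt_aleph0_iff_finite.mp h1
  obtain ⟨a, ⟨e⟩⟩ := Finite.exists_equiv_fin s
  exact ⟨a, _, (isTranscendenceBasis_equiv e.symm).mpr hs⟩

/-- **adapted coordinates** -/
theorem exists_coords (T : Type) {L : Type} [Field T] [Field L] [Algebra ℂ T] [Algebra ℂ L]
    [Algebra T L] [IsScalarTower ℂ T L] {m : ℕ} {x : Fin m → L}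
    (hx : IsTranscendenceBasis ℂ x) :
    ∃ (ρ a : ℕ) (t : Fin ρ → T) (z : Fin a → L), m = ρ + a ∧ IsTranscendenceBasis ℂ t ∧
      IsTranscendenceBasis T z ∧
      IsTranscendenceBasis ℂ (Fin.append (fun i => algebraMap T L (t i)) z) := by
  have h0 : Algebra.trdeg ℂ T + Algebra.trdeg T L = Algebra.trdeg ℂ L :=
    _root_.trdeg_add_eq ℂ T
  have h1 : Algebra.trdeg ℂ L = m := by
    rw [← hx.cardinalMk_eq_trdeg]
    simp
  have h2 : Algebra.trdeg ℂ L < Cardinal.aleph0 := by
    rw [h1]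
    exact Cardinal.natCast_lt_aleph0
  obtain ⟨ρ, t, ht⟩ := exists_finTB (F := ℂ) (L := T)
    (lt_of_le_of_lt (by rw [← h0]; exact le_self_add) h2)
  obtain ⟨a, z, hz⟩ := exists_finTB (F := T) (L := L)
    (lt_of_le_of_lt (by rw [← h0]; exact le_add_self) h2)
  refine ⟨ρ, a, t, z, ?_, ht, hz, isTB_append ht hz⟩
  have h3 := (isTB_append ht hz).cardinalMk_eq_trdeg
  rw [h1] at h3
  have h4 : ((ρ + a : ℕ) : Cardinal) = (m : Cardinal) := by
    rw [← h3]
    simp
  exact (Nat.cast_injective h4).symm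

end field

/-! ### towers -/

section tow

variable {T L K : Type} [Field T] [Field L] [Field K] [Algebra ℂ T] [Algebra ℂ L] [Algebra ℂ K]
  [Algebra T L] [Algebra L K] [IsScalarTower ℂ T L] [IsScalarTower ℂ L K]
  {ρ a r : ℕ}

/-- `h_T ∣ h_L ∣ h_K` -/
structure Dv (W : Tow T L K ρ a r) : Prop where
  TL : MvPolynomial.rename (Fin.castAdd a) W.MT.h ∣ W.ML.h
  LK : MvPolynomial.rename (Fin.castAdd r) W.ML.h ∣ W.MK.h

/-- `W'` is a shrinking of `W` (same coordinates, larger rings) -/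
structure TLe (W W' : Tow T L K ρ a r) : Prop where
  zT : W.MT.zK = W'.MT.zK
  zL : W.ML.zK = W'.ML.zK
  zK : W.MK.zK = W'.MK.zK
  bT : W.MT.B ≤ W'.MT.B
  bL : W.ML.B ≤ W'.ML.B
  bK : W.MK.B ≤ W'.MK.B

theorem TLe.refl (W : Tow T L K ρ a r) : TLe W W := ⟨rfl, rfl, rfl, le_rfl, le_rfl, le_rfl⟩

theorem TLe.trans {W W' W'' : Tow T L K ρ a r} (h : TLe W W') (h' : TLe W' W'') : TLe W W'' :=
  ⟨h.zT.trans h'.zT, h.zL.trans h'.zL, h.zK.trans h'.zK, h.bT.trans h'.bT, h.bL.trans h'.bL,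
    h.bK.trans h'.bK⟩

theorem TLe.TL {W W' : Tow T L K ρ a r} (h : TLe W W') : Le W.TL W'.TL := ⟨h.zT, h.zL, h.bT, h.bL⟩

theorem TLe.LK {W W' : Tow T L K ρ a r} (h : TLe W W') : Le W.LK W'.LK := ⟨h.zL, h.zK, h.bL, h.bK⟩

variable (W : Tow T L K ρ a r) {c : MvPolynomial (Fin ρ) ℂ} (hc : c ≠ 0)
    {p : MvPolynomial (Fin (ρ + a)) ℂ} (hp : p ≠ 0)
    {s : MvPolynomial (Fin (ρ + a + r)) ℂ} (hs : s ≠ 0)

theorem tle_shrink : TLe W (W.shrink c hc p hp s hs) :=
  ⟨rfl, rfl, rfl, W.le_MT hc hp hs, W.le_ML hc hp hs, W.le_MK hc hp hs⟩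

variable {W}

theorem Dv.shrink (h : Dv W) : Dv (W.shrink c hc p hp s hs) := by
  constructor
  · change MvPolynomial.rename (Fin.castAdd a) (W.MT.h * c) ∣ W.ML.h * cp2 c p
    rw [map_mul]
    exact mul_dvd_mul h.TL (Dvd.intro _ rfl)
  · change MvPolynomial.rename (Fin.castAdd r) (W.ML.h * cp2 c p) ∣ W.MK.h * cp2 (cp2 c p) s
    rw [map_mul]
    exact mul_dvd_mul h.LK (Dvd.intro _ rfl)

theorem ev_dv (h : Dv W) : Ev W Dv :=
  ⟨1, one_ne_zero, fun _ hs _ => ⟨1, one_ne_zero, fun _ hp _ => ⟨1, one_ne_zero, fun _ hc _ =>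
    h.shrink hc hp hs⟩⟩⟩

theorem ev_tle (W : Tow T L K ρ a r) : Ev W (TLe W) :=
  ⟨1, one_ne_zero, fun _ hs _ => ⟨1, one_ne_zero, fun _ hp _ => ⟨1, one_ne_zero, fun _ hc _ =>
    tle_shrink W hc hp hs⟩⟩⟩

/-- **existence of towers** with prescribed coordinates -/
theorem exists_tow [Algebra.EssFiniteType ℂ T] [Algebra.EssFiniteType ℂ L]
    [Algebra.EssFiniteType ℂ K] {t : Fin ρ → T} (ht : IsTranscendenceBasis ℂ t) {z : Fin a → L}
    (hz : IsTranscendenceBasis ℂ (Fin.append (fun i => algebraMap T L (t i)) z)) {x : Fin r → K}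
    (hx : IsTranscendenceBasis ℂ (Fin.append
      (fun i => algebraMap L K (Fin.append (fun i => algebraMap T L (t i)) z i)) x)) :
    ∃ W : Tow T L K ρ a r, W.MT.zK = t ∧
      W.ML.zK = Fin.append (fun i => algebraMap T L (t i)) z ∧
      W.MK.zK = Fin.append
        (fun i => algebraMap L K (Fin.append (fun i => algebraMap T L (t i)) z i)) x ∧ Dv W := by
  obtain ⟨g₁, hg₁, h₁⟩ := exists_mdl t ht ∅
  obtain ⟨MT, -, hMTz, -⟩ := h₁ g₁ hg₁ dvd_rfl
  have hMTz' : MT.zK = t := funext hMTz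
  have hr1 : MvPolynomial.rename (Fin.castAdd a) MT.h ≠ 0 := by
    rw [Ne, map_eq_zero_iff _ (MvPolynomial.rename_injective _ (Fin.castAdd_injective ρ a))]
    exact MT.h_ne
  obtain ⟨g₂, hg₂, h₂⟩ := RMdl.exists_rmdl T L MT z (by rw [hMTz']; exact hz) ∅
  obtain ⟨R₁, hR₁, hR₁h, hR₁z, -⟩ := h₂ (MvPolynomial.rename (Fin.castAdd a) MT.h * g₂)
    (mul_ne_zero hr1 hg₂) (Dvd.intro_left _ rfl)
  rw [hMTz'] at hR₁z
  have hr2 : MvPolynomial.rename (Fin.castAdd r) R₁.MK.h ≠ 0 := by
    rw [Ne, map_eq_zero_iff _ (MvPolynomial.rename_injective _ (Fin.castAdd_injective (ρ + a) r))]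
    exact R₁.MK.h_ne
  obtain ⟨g₃, hg₃, h₃⟩ := RMdl.exists_rmdl L K R₁.MK x (by rw [hR₁z]; exact hx) ∅
  obtain ⟨R₂, hR₂, hR₂h, hR₂z, -⟩ := h₃ (MvPolynomial.rename (Fin.castAdd r) R₁.MK.h * g₃)
    (mul_ne_zero hr2 hg₃) (Dvd.intro_left _ rfl)
  rw [hR₁z] at hR₂z
  refine ⟨⟨R₁.ML, R₁.MK, R₂.MK, R₁.z_eq, ?_, R₁.incl_mem, ?_⟩, ?_, hR₁z, hR₂z, ?_, ?_⟩
  · intro i
    rw [R₂.z_eq, hR₂]
  · intro b
    have h4 := R₂.incl_mem ⟨b, by rw [hR₂]; exact b.2⟩
    exact h4
  · change R₁.ML.zK = t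
    rw [hR₁, hMTz']
  · change MvPolynomial.rename (Fin.castAdd a) R₁.ML.h ∣ R₁.MK.h
    rw [hR₁h, hR₁]
    exact Dvd.intro _ rfl
  · change MvPolynomial.rename (Fin.castAdd r) R₁.MK.h ∣ R₂.MK.h
    rw [hR₂h]
    exact Dvd.intro _ rfl

end tow

/-! ### prescribed units -/

section units

theorem ev1_units {K : Type} [Field K] [Algebra ℂ K] {n : ℕ} (M : Mdl K n) (S : Finset K) :
    Ev1 M fun M => ∀ s ∈ S, s ∈ M.B ∧ s⁻¹ ∈ M.B := by
  have := Cmp_595.essFiniteType M
  exact Ev1.units M (Cmp_595.isTranscendenceBasis M) S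

variable {T L K : Type} [Field T] [Field L] [Field K] [Algebra ℂ T] [Algebra ℂ L] [Algebra ℂ K]
  [Algebra T L] [Algebra L K] [IsScalarTower ℂ T L] [IsScalarTower ℂ L K]
  {ρ a r : ℕ}

/-- **prescribed elements and inverses** -/
theorem ev_units (W : Tow T L K ρ a r) (ST : Finset T) (SL : Finset L) (SK : Finset K) :
    Ev W fun W => (∀ s ∈ ST, s ∈ W.MT.B ∧ s⁻¹ ∈ W.MT.B) ∧
      (∀ s ∈ SL, s ∈ W.ML.B ∧ s⁻¹ ∈ W.ML.B) ∧ (∀ s ∈ SK, s ∈ W.MK.B ∧ s⁻¹ ∈ W.MK.B) :=
  (Ev.of_MT (ev1_units W.MT ST)).and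
    ((Ev.of_ML (ev1_units W.ML SL)).and (Ev.of_MK (ev1_units W.MK SK)))

end units

/-! ### good towers -/

section good

variable {T L K : Type} [Field T] [Field L] [Field K] [Algebra ℂ T] [Algebra ℂ L] [Algebra ℂ K]
  [Algebra T L] [Algebra L K] [Algebra T K] [IsScalarTower ℂ T L] [IsScalarTower ℂ L K]
  [IsScalarTower T L K] [IsScalarTower ℂ T K] {ρ a r : ℕ}

theorem conn_of_fib {L K : Type} [Field L] [Field K] [Algebra ℂ L] [Algebra ℂ K] [Algebra L K]
    [IsScalarTower ℂ L K] {m r : ℕ} {R : RMdl L K m r} (h : ∀ w, ConnectedSpace (R.Fib w)) :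
    Conn R := fun w =>
  isConnected_iff_connectedSpace.mpr (h w)


/-- good towers: `h_T ∣ h_L ∣ h_K` and all fibres are connected (in particular nonempty) -/
structure Good (W : Tow T L K ρ a r) : Prop where
  dv : Dv W
  connTL : Conn W.TL
  connLK : Conn W.LK
  connTK : Conn W.TK

variable {W : Tow T L K ρ a r}

theorem Good.surjTL (h : Good W) : Function.Surjective W.TL.q := h.connTL.surj
theorem Good.surjLK (h : Good W) : Function.Surjective W.LK.q := h.connLK.surj

theorem ev_good (W : Tow T L K ρ a r) (hdv : Dv W) (h1 : BN1_143.AC T L)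
    (h2 : BN1_143.AC L K) : Ev W Good :=
  ((ev_dv hdv).and (ev_conn W h1 h2)).mono fun _ h =>
    ⟨h.1, conn_of_fib h.2.1, conn_of_fib h.2.2.1, conn_of_fib h.2.2.2⟩

/-! #### relative models in the sense of `SkelDefs_220` -/

/-- 987's relative model as 220's -/
theorem toRel {L K : Type} [Field L] [Field K] [Algebra ℂ L] [Algebra ℂ K] [Algebra L K]
    [IsScalarTower ℂ L K] {m r : ℕ} (R : RMdl L K m r)
    (hd : MvPolynomial.rename (Fin.castAdd r) R.ML.h ∣ R.MK.h)
    (hs : Function.Surjective R.q) : SkelDefs_220.Rel R.ML R.MK where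
  mem := R.incl_mem
  coord := R.z_eq
  dvd := hd
  surj := fun z => by
    obtain ⟨y, hy⟩ := hs z
    refine ⟨y, fun b b' hb => ?_⟩
    rw [← hy]
    change y b' = y (R.incl b)
    congr 1
    exact Subtype.ext hb

theorem Good.relTL (h : Good W) : SkelDefs_220.Rel W.MT W.ML := toRel W.TL h.dv.TL h.surjTL

theorem Good.relLK (h : Good W) : SkelDefs_220.Rel W.ML W.MK := toRel W.LK h.dv.LK h.surjLK





theorem Good.conn_relTL (h : Good W) : h.relTL.Conn := fun z => h.connTL z

theorem Good.conn_relLK (h : Good W) : h.relLK.Conn := fun z => h.connLK z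

end good

/-! ### the package -/

section main

variable {T L K : Type} [Field T] [Field L] [Field K] [Algebra ℂ T] [Algebra ℂ L] [Algebra ℂ K]
  [Algebra T L] [Algebra L K] [Algebra T K] [IsScalarTower ℂ T L] [IsScalarTower ℂ L K]
  [IsScalarTower T L K] [IsScalarTower ℂ T K] {ρ a r : ℕ}

/-- **MODPACK.** `R₀` : any relative model of `L ⊆ K` (old coordinates of `L`, fibre coordinates
`x`), `T ⊆ L` algebraically closed in `L`, `L` algebraically closed in `K`, `(t, z)` coordinates of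
`L` with `t` in `T` (`exists_coords`).  There is a tower with coordinates `t`, `(t, z)`,
`(t, z, x)`; every sufficiently small shrinking is good and comparable with `R₀`. -/
theorem modpack (hTL : BN1_143.AC T L) (hLK : BN1_143.AC L K) (R₀ : RMdl L K (ρ + a) r)
    {t : Fin ρ → T} (ht : IsTranscendenceBasis ℂ t) {z : Fin a → L}
    (hz : IsTranscendenceBasis ℂ (Fin.append (fun i => algebraMap T L (t i)) z)) :
    ∃ W : Tow T L K ρ a r, W.MT.zK = t ∧
      W.ML.zK = Fin.append (fun i => algebraMap T L (t i)) z ∧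
      (∀ j, W.MK.zK (Fin.natAdd (ρ + a) j) = R₀.MK.zK (Fin.natAdd (ρ + a) j)) ∧ Dv W ∧
      Ev W fun W' => TLe W W' ∧ Good W' ∧ CmpR_652.Cmp R₀ W'.LK := by
  have e1 : Algebra.EssFiniteType ℂ K := Cmp_595.essFiniteType R₀.MK
  have e2 : Algebra.EssFiniteType ℂ L := Cmp_595.essFiniteType R₀.ML
  have e3 : Algebra.EssFiniteType ℂ T := FGSub_595.essFiniteType_of_tower ℂ T L
  obtain ⟨W, h1, h2, h3, h4⟩ := exists_tow ht hz (CmpR_652.isTB R₀ hz)
  have hxx : ∀ j, W.MK.zK (Fin.natAdd (ρ + a) j) = R₀.MK.zK (Fin.natAdd (ρ + a) j) := by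
    intro j
    rw [h3, Fin.append_right]
  refine ⟨W, h1, h2, hxx, h4, ?_⟩
  exact ((ev_tle W).and ((ev_good W h4 hTL hLK).and (CmpR_652.ev_cmp W R₀ hxx))).mono
    fun _ h => ⟨h.1, h.2.1, h.2.2.1⟩

end main

/-! ### relative models -/

section exists_R0

variable {L K : Type} [Field L] [Field K] [Algebra ℂ L] [Algebra ℂ K] [Algebra L K]
  [IsScalarTower ℂ L K] {m r : ℕ}

/-- **existence of relative models** with prescribed coordinates, prescribed units, `h_L ∣ h_K` and
connected fibres -/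
theorem exists_R0 [Algebra.EssFiniteType ℂ K] (hac : BN1_143.AC L K) {z : Fin m → L}
    (hz : IsTranscendenceBasis ℂ z) {x : Fin r → K} (hx : IsTranscendenceBasis L x)
    (SL : Finset L) (SK : Finset K) :
    ∃ R : RMdl L K m r, R.ML.zK = z ∧ (∀ j, R.MK.zK (Fin.natAdd m j) = x j) ∧
      MvPolynomial.rename (Fin.castAdd r) R.ML.h ∣ R.MK.h ∧ Conn R ∧
      (∀ s ∈ SL, s ∈ R.ML.B ∧ s⁻¹ ∈ R.ML.B) ∧ (∀ s ∈ SK, s ∈ R.MK.B ∧ s⁻¹ ∈ R.MK.B) := by
  have e2 : Algebra.EssFiniteType ℂ L := FGSub_595.essFiniteType_of_tower ℂ L K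
  obtain ⟨g, hg, h⟩ := exists_mdl z hz ∅
  obtain ⟨ML, -, hMz, -⟩ := h g hg dvd_rfl
  have hMz' : ML.zK = z := funext hMz
  have hr1 : MvPolynomial.rename (Fin.castAdd r) ML.h ≠ 0 := by
    rw [Ne, map_eq_zero_iff _ (MvPolynomial.rename_injective _ (Fin.castAdd_injective m r))]
    exact ML.h_ne
  obtain ⟨g', hg', h'⟩ := RMdl.exists_rmdl L K ML x (by rw [hMz']; exact isTB_append hz hx) ∅
  obtain ⟨R, hR, hRh, hRz, -⟩ := h' (MvPolynomial.rename (Fin.castAdd r) ML.h * g')
    (mul_ne_zero hr1 hg') (Dvd.intro_left _ rfl)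
  have hev : Ev2 R fun R' => Conn R' ∧ (∀ s ∈ SL, s ∈ R'.ML.B ∧ s⁻¹ ∈ R'.ML.B) ∧
      (∀ s ∈ SK, s ∈ R'.MK.B ∧ s⁻¹ ∈ R'.MK.B) :=
    (Ev2.conn hac R).and ((Ev2.of_base (ev1_units R.ML SL)).and
      (Ev2.of_total (ev1_units R.MK SK)))
  obtain ⟨s, hs, p, hp, hc, h1, h2⟩ := hev.exists
  refine ⟨R.shrink p hp s hs, ?_, ?_, ?_, hc, h1, h2⟩
  · exact (le_shrink R hp hs).zL.symm.trans (by rw [hR, hMz'])
  · intro j
    have h3 : (R.shrink p hp s hs).MK.zK = R.MK.zK := (le_shrink R hp hs).zK.symm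
    rw [h3, hRz, Fin.append_right]
  · change MvPolynomial.rename (Fin.castAdd r) (R.ML.h * p) ∣ R.MK.h * cp2 p s
    rw [map_mul, hRh, hR]
    exact mul_dvd_mul (Dvd.intro _ rfl) (Dvd.intro _ rfl)

end exists_R0

/-! ### intermediate fields -/

section IF

theorem ac_of_mem {F E : Type*} [Field F] [Field E] [Algebra F E] (L : IntermediateField F E)
    (h : ∀ a : E, IsAlgebraic L a → a ∈ L) : BN1_143.AC L E :=
  fun a ha => ⟨⟨a, h a ha⟩, rfl⟩


end IF

end Crest.Agent.R276.ModPack_849
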