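import Crest.Agent.R276.PVd_159
import Crest.Agent.R271.L0_934

-- ▼ part R276/PVe_159
section

/-!
# Row 276, part D1 (helper159): the crude extension lemma
-/

set_option autoImplicit false
set_option linter.unusedSectionVars false

noncomputable section

open Set Filter Topology Complex MeasureTheory Metric
open scoped ENNReal ComplexConjugate

namespace Crest.Agent.R276.PV_159

open Crest.Agent.R271 Crest.Agent.R271.Ho51 Crest.Agent.R271.W792

/-- lower bound for fibre integrals in a chart -/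
lemma fi_ge {a : ℕ} {P : Type} [TopologicalSpace P] [RDom (a + 1) P]
    {e : OpenPartialHomeomorph P (Fin (a + 1) → ℂ)} (he : IsCh e) (g : P → ℝ≥0∞) {t : ℂ}
    {S : Set (Fin a → ℂ)} (hS : MeasurableSet S)
    (h : ∀ x ∈ S, (Fin.cons t x : Fin (a + 1) → ℂ) ∈ e.target) :
    ∫⁻ x in S, g (e.symm (Fin.cons t x)) ≤ fi g t := by
  unfold fi
  refine le_trans (setLIntegral_mono' hS fun x hx => ?_) (setLIntegral_le_lintegral _ _)
  have h1 : cp (e.symm (Fin.cons t x)) = (Fin.cons t x : Fin (a + 1) → ℂ) := he.cp_symm (h x hx)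
  exact ENNReal.le_tsum (f := fun y : {y : P // cp y = (Fin.cons t x : Fin (a + 1) → ℂ)} => g y.1)
    ⟨e.symm (Fin.cons t x), h1⟩

variable {R : ℝ}

section weights

variable (D : Dat R) (ε : ℝ)

/-- the weights used in the engine -/
def psiK (k : ℕ) (x : D.P) : ℝ := (D.φ k x + lt (1 / ((k : ℝ) + 1)) x) + lt (ε ^ 2) x

variable {ε}

lemma inv_pos' (k : ℕ) : (0 : ℝ) < 1 / ((k : ℝ) + 1) := by positivity

lemma psiK_sm (hε : 0 < ε) (k : ℕ) : Sm (psiK D ε k) :=
  ((D.φ_sm k).add (sm_lt (inv_pos' k))).add (sm_lt (by positivity))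

lemma psiK_anti (x : D.P) : Antitone fun k => psiK D ε k x := by
  intro k l hkl
  have h1 := D.φ_anti x hkl
  have h2 : (lt (1 / ((l : ℝ) + 1)) x : ℝ) ≤ lt (1 / ((k : ℝ) + 1)) x := by
    refine lg_antitone _ ?_ x (lt_pos (inv_pos' l) x)
    have : (k : ℝ) ≤ l := by exact_mod_cast hkl
    gcongr
  simp only [psiK] at *
  linarith

lemma psiK_lev (hε : 0 < ε) (k : ℕ) (x : D.P) (w : Fin (D.a + 1) → ℂ) :
    ε ^ 2 * ‖w 0‖ ^ 2 / (‖tc x‖ ^ 2 + ε ^ 2) ^ 2 ≤ lev (psiK D ε k) x w := by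
  have h1 := lev_lt_nonneg (P := D.P) (inv_pos' k) x w
  have h2 := D.φ_lev k x w
  have h3 := lev_lt (P := D.P) (δ := ε ^ 2) (by positivity) x w
  have h4 : lev (psiK D ε k) x w = (lev (D.φ k) x w + lev (lt (1 / ((k : ℝ) + 1))) x w) +
      lev (lt (ε ^ 2)) x w := by
    have e1 := lev_add ((D.φ_sm k).add (sm_lt (inv_pos' k))) (sm_lt (P := D.P) (δ := ε ^ 2)
      (by positivity)) x w
    have e2 := lev_add (D.φ_sm k) (sm_lt (P := D.P) (inv_pos' k)) x w
    rw [e2] at e1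
    exact e1
  rw [h4]
  linarith

lemma exp_psiK (hε : 0 < ε) (k : ℕ) (x : D.P) :
    Real.exp (-psiK D ε k x) = Real.exp (-D.φ k x) /
      ((‖tc x‖ ^ 2 + 1 / ((k : ℝ) + 1)) * (‖tc x‖ ^ 2 + ε ^ 2)) := by
  have h1 : 0 < ‖tc x‖ ^ 2 + 1 / ((k : ℝ) + 1) := by have := inv_pos' k; positivity
  have h2 : 0 < ‖tc x‖ ^ 2 + ε ^ 2 := by positivity
  have h3 : -psiK D ε k x = -D.φ k x - (Real.log (‖tc x‖ ^ 2 + 1 / ((k : ℝ) + 1)) +
      Real.log (‖tc x‖ ^ 2 + ε ^ 2)) := by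
    unfold psiK
    rw [lt_eq, lt_eq]; ring
  rw [h3, Real.exp_sub, Real.exp_add, Real.exp_log h1, Real.exp_log h2]

end weights

section cut

variable (D : Dat R) {ε : ℝ}

/-- cut-off of `U` -/
def GG (ε : ℝ) (x : D.P) : ℂ := ((th (‖tc x‖ ^ 2 / ε ^ 2) : ℝ) : ℂ) * D.U x

lemma sm_T (ε : ℝ) : Sm (fun x : D.P => ‖tc x‖ ^ 2 / ε ^ 2) := by
  have h1 : Sm (fun x : D.P => (1 / ε ^ 2) * ‖tc x‖ ^ 2) :=
    (Sm.const (1 / ε ^ 2)).mulR (Hol.sm_normSq (hol_tc (P := D.P)).sm)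
  have h2 : (fun x : D.P => ‖tc x‖ ^ 2 / ε ^ 2) = fun x => (1 / ε ^ 2) * ‖tc x‖ ^ 2 := by
    funext x; ring
  rw [h2]; exact h1

lemma D_T (ε : ℝ) (x : D.P) (v : Fin (D.a + 1) → ℂ) :
    Ho51.D (fun x : D.P => ‖tc x‖ ^ 2 / ε ^ 2) x v = (2 / ε ^ 2) * (v 0 * conj (tc x)).re := by
  have h2 : (fun x : D.P => ‖tc x‖ ^ 2 / ε ^ 2) = fun x => (1 / ε ^ 2) * ‖tc x‖ ^ 2 := by
    funext x; ring
  rw [h2]
  have h3 := D_smul (Sm.const (M := D.P) (1 / ε ^ 2)) (Hol.sm_normSq (hol_tc (P := D.P)).sm) x v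
  simp only [smul_eq_mul] at h3
  rw [h3, D_const, D_normSq (hol_tc (P := D.P)).sm, D_tc]
  simp
  ring

lemma sm_thT (ε : ℝ) : Sm (fun x : D.P => th (‖tc x‖ ^ 2 / ε ^ 2)) :=
  Sm.comp th_contDiff (sm_T D ε)

lemma sm_GG (ε : ℝ) : Sm (GG D ε) := (sm_thT D ε).ofReal.mul D.U_hol.sm

lemma AL_GG (ε : ℝ) (x : D.P) (w : Fin (D.a + 1) → ℂ) :
    ∑ j, db j (GG D ε) x * conj (w j) =
      (deriv th (‖tc x‖ ^ 2 / ε ^ 2) : ℝ) * ((1 / ε ^ 2 : ℝ) : ℂ) * conj (w 0 * conj (tc x)) *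
        D.U x := by
  rw [AL_eq]
  have hth : HasDerivAt th (deriv th (‖tc x‖ ^ 2 / ε ^ 2)) (‖tc x‖ ^ 2 / ε ^ 2) :=
    (th_contDiff.differentiable (by simp) _).hasDerivAt
  have h1 : ∀ v : Fin (D.a + 1) → ℂ, Ho51.D (GG D ε) x v =
      ((deriv th (‖tc x‖ ^ 2 / ε ^ 2) * ((2 / ε ^ 2) * (v 0 * conj (tc x)).re) : ℝ) : ℂ) * D.U x +
        ((th (‖tc x‖ ^ 2 / ε ^ 2) : ℝ) : ℂ) * Ho51.D D.U x v := by
    intro v
    have e1 := D_mul (sm_thT D ε).ofReal D.U_hol.sm x v
    have e2 := D_ofReal (sm_thT D ε) x v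
    have e3 := D_comp_real (sm_T D ε) x hth v
    rw [e2, e3, D_T] at e1
    exact e1
  rw [h1, h1, D.U_hol.cl]
  have h2 : ((I • w) 0 * conj (tc x)) = I * (w 0 * conj (tc x)) := by
    simp [mul_assoc]
  rw [h2]
  set A := w 0 * conj (tc x) with hA
  have h3 : (I * A).re = -A.im := by simp
  rw [h3]
  have h4 : (conj A : ℂ) = (A.re : ℂ) - (A.im : ℂ) * I := by
    apply Complex.ext <;> simp
  rw [h4]
  push_cast
  linear_combination ((1 / 2 : ℂ) * (th (‖tc x‖ ^ 2 / ε ^ 2) : ℂ) * Ho51.D D.U x w) * I_mul_I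

end cut

end Crest.Agent.R276.PV_159
end
end

-- ▼ part R276/PVf_159
section

/-!
# Row 276, part D1 (helper159): the crude extension theorem
-/

set_option autoImplicit false
set_option linter.unusedSectionVars false

noncomputable section

open Set Filter Topology Complex MeasureTheory Metric
open scoped ENNReal ComplexConjugate

namespace Crest.Agent.R276.PV_159

open Crest.Agent.R271 Crest.Agent.R271.Ho51 Crest.Agent.R271.W792

variable {R : ℝ}

/-- `|t|^{-2}` is not integrable near `0` -/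
lemma lint_inv_sq {r : ℝ} (hr : 0 < r) :
    ∫⁻ t in ball (0 : ℂ) r, (⨆ k : ℕ, ENNReal.ofReal (1 / (‖t‖ ^ 2 + 1 / ((k : ℝ) + 1)))) = ∞ := by
  have h := L934.lintegral_ball_norm_eq_top (V := ℂ) volume
    (by rw [Complex.finrank_real_complex]; norm_num) hr
  rw [Complex.finrank_real_complex] at h
  rw [eq_top_iff, ← h]
  refine lintegral_mono_ae ?_
  have h0 : ∀ᵐ t : ℂ ∂(volume.restrict (ball (0 : ℂ) r)), t ≠ 0 := by
    refine ae_restrict_of_ae ?_
    have : (volume : Measure ℂ) {0} = 0 := by simp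
    exact compl_mem_ae_iff.2 this
  filter_upwards [h0] with t ht
  have htn : 0 < ‖t‖ := norm_pos_iff.2 ht
  have h1 : (ENNReal.ofReal ‖t‖) ^ (-((2 : ℕ) : ℝ)) = ENNReal.ofReal (1 / ‖t‖ ^ 2) := by
    rw [ENNReal.ofReal_rpow_of_pos htn, Real.rpow_neg htn.le]
    congr 1
    rw [one_div]
    congr 1
    exact_mod_cast Real.rpow_natCast ‖t‖ 2
  rw [h1]
  have h2 : Tendsto (fun k : ℕ => ENNReal.ofReal (1 / (‖t‖ ^ 2 + 1 / ((k : ℝ) + 1)))) atTop
      (𝓝 (ENNReal.ofReal (1 / ‖t‖ ^ 2))) := by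
    refine ENNReal.tendsto_ofReal ?_
    have h3 : Tendsto (fun k : ℕ => ‖t‖ ^ 2 + 1 / ((k : ℝ) + 1)) atTop (𝓝 (‖t‖ ^ 2 + 0)) :=
      tendsto_const_nhds.add tendsto_one_div_add_atTop_nhds_zero_nat
    rw [add_zero] at h3
    exact Tendsto.div tendsto_const_nhds h3 (by positivity)
  exact le_of_tendsto' h2 fun k => le_iSup
    (fun k : ℕ => ENNReal.ofReal (1 / (‖t‖ ^ 2 + 1 / ((k : ℝ) + 1)))) k

/-- square integrability against the polar weight forces equality on `t = 0` -/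
lemma eq_on_zero (D : Dat R) {ε : ℝ} (hε : 0 < ε) {F : D.P → ℂ} (hF : Continuous F)
    {μ : Measure D.P} (hμ : IsLeb μ)
    (hfin : ∫⁻ x, ENNReal.ofReal (‖F x - GG D ε x‖ ^ 2) *
        (⨆ k, ENNReal.ofReal (Real.exp (-psiK D ε k x))) ∂μ ≠ ∞)
    {x0 : D.P} (h0 : tc x0 = 0) : F x0 = D.U x0 := by
  by_contra hne
  apply hfin
  set e := ch x0 with he
  have hech : IsCh e := isCh_ch x0
  set c0 : ℝ := ‖F x0 - D.U x0‖ / 2 with hc0
  have hc0p : 0 < c0 := by
    have : 0 < ‖F x0 - D.U x0‖ := norm_pos_iff.2 (sub_ne_zero.2 hne)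
    rw [hc0]; linarith
  set c1 : ℝ := Real.exp (-D.φ 0 x0) / 2 with hc1
  have hc1p : 0 < c1 := by have := Real.exp_pos (-D.φ 0 x0); rw [hc1]; linarith
  have hUc : Continuous D.U := D.U_hol.sm.continuous
  -- the neighbourhood
  have hopen : IsOpen {x : D.P | c0 < ‖F x - D.U x‖ ∧ c1 < Real.exp (-D.φ 0 x) ∧
      ‖tc x‖ ^ 2 / ε ^ 2 < 1 / 2 ∧ x ∈ e.source} := by
    refine IsOpen.inter (isOpen_lt continuous_const (hF.sub hUc).norm) (IsOpen.inter
      (isOpen_lt continuous_const (Real.continuous_exp.comp (D.φ_sm 0).continuous.neg))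
      (IsOpen.inter (isOpen_lt (sm_T D ε).continuous continuous_const) e.open_source))
  have hmem : x0 ∈ {x : D.P | c0 < ‖F x - D.U x‖ ∧ c1 < Real.exp (-D.φ 0 x) ∧
      ‖tc x‖ ^ 2 / ε ^ 2 < 1 / 2 ∧ x ∈ e.source} := by
    refine ⟨?_, ?_, ?_, mem_ch x0⟩
    · have : 0 < ‖F x0 - D.U x0‖ := norm_pos_iff.2 (sub_ne_zero.2 hne)
      rw [hc0]; linarith
    · have := Real.exp_pos (-D.φ 0 x0); rw [hc1]; linarith
    · rw [h0]; simp
  set N : Set D.P := {x : D.P | c0 < ‖F x - D.U x‖ ∧ c1 < Real.exp (-D.φ 0 x) ∧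
      ‖tc x‖ ^ 2 / ε ^ 2 < 1 / 2 ∧ x ∈ e.source} with hN
  have hT : e.target ∩ e.symm ⁻¹' N ∈ 𝓝 (cp x0) := by
    refine inter_mem (e.open_target.mem_nhds (hech.cp_mem (mem_ch x0))) ?_
    have : ContinuousAt e.symm (cp x0) :=
      e.symm.continuousAt (by simpa using hech.cp_mem (mem_ch x0))
    refine this.preimage_mem_nhds ?_
    rw [hech.symm_cp (mem_ch x0)]
    exact hopen.mem_nhds hmem
  obtain ⟨r, hr, hball⟩ := Metric.mem_nhds_iff.1 hT
  set y0 : Fin D.a → ℂ := fun i => cp x0 i.succ with hy0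
  have hin : ∀ t : ℂ, t ∈ ball (0 : ℂ) r → ∀ y ∈ ball y0 r,
      (Fin.cons t y : Fin (D.a + 1) → ℂ) ∈ e.target ∩ e.symm ⁻¹' N := by
    intro t ht y hy
    apply hball
    rw [mem_ball, dist_pi_lt_iff hr]
    intro i
    refine Fin.cases ?_ (fun j => ?_) i
    · have h1 : cp x0 0 = 0 := h0
      rw [Fin.cons_zero, h1]
      exact ht
    · rw [Fin.cons_succ]
      exact (dist_pi_lt_iff hr).1 (mem_ball.1 hy) j
  -- the function
  set g : D.P → ℝ≥0∞ := fun x => ENNReal.ofReal (‖F x - GG D ε x‖ ^ 2) *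
        (⨆ k, ENNReal.ofReal (Real.exp (-psiK D ε k x))) with hg
  have hgm : Measurable g := by
    refine Measurable.mul ?_ (Measurable.iSup fun k => ?_)
    · exact (((hF.sub (sm_GG D ε).continuous).norm.pow 2).measurable).ennreal_ofReal
    · exact ((Real.continuous_exp.comp (psiK_sm D hε k).continuous.neg).measurable).ennreal_ofReal
  rw [lintegral_eq_fi hμ hgm, eq_top_iff]
  set c2 : ℝ := c0 ^ 2 * (c1 / (ε ^ 2 / 2 + ε ^ 2)) with hc2
  have hc2p : 0 < c2 := by positivity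
  have hlow : ∀ t ∈ ball (0 : ℂ) r, (ENNReal.ofReal c2 * volume (ball y0 r)) *
      (⨆ k : ℕ, ENNReal.ofReal (1 / (‖t‖ ^ 2 + 1 / ((k : ℝ) + 1)))) ≤ fi g t := by
    intro t ht
    refine le_trans ?_ (fi_ge hech g (t := t) (S := ball y0 r) measurableSet_ball
      (fun y hy => (hin t ht y hy).1))
    have h1 : ∀ y ∈ ball y0 r, ENNReal.ofReal c2 *
        (⨆ k : ℕ, ENNReal.ofReal (1 / (‖t‖ ^ 2 + 1 / ((k : ℝ) + 1)))) ≤
        g (e.symm (Fin.cons t y)) := by
      intro y hy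
      obtain ⟨hm1, hm2, hm3, hm4⟩ := (hin t ht y hy).2
      set x := e.symm (Fin.cons t y) with hx
      have htx : tc x = t := by
        unfold tc
        rw [hx, hech.cp_symm (hin t ht y hy).1]
        rfl
      have hGx : GG D ε x = D.U x := by
        unfold GG
        rw [th_one hm3.le]; simp
      rw [ENNReal.mul_iSup]
      refine iSup_le fun k => ?_
      rw [hg]
      simp only
      rw [hGx]
      refine le_trans ?_ (mul_le_mul_right
        (le_iSup (fun k => ENNReal.ofReal (Real.exp (-psiK D ε k x))) k) _)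
      rw [← ENNReal.ofReal_mul hc2p.le, ← ENNReal.ofReal_mul (by positivity)]
      apply ENNReal.ofReal_le_ofReal
      rw [exp_psiK D hε, htx]
      have hk := inv_pos' k
      have h3 : c1 ≤ Real.exp (-D.φ k x) :=
        hm2.le.trans (Real.exp_le_exp.2 (neg_le_neg (D.φ_anti x (Nat.zero_le k))))
      have h4 : c0 ^ 2 ≤ ‖F x - D.U x‖ ^ 2 := by
        have := hm1.le
        gcongr
      have h5 : ‖t‖ ^ 2 + ε ^ 2 ≤ ε ^ 2 / 2 + ε ^ 2 := by
        have h6 : ‖tc x‖ ^ 2 / ε ^ 2 < 1 / 2 := hm3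
        rw [htx, div_lt_iff₀ (by positivity)] at h6
        linarith
      rw [hc2]
      calc c0 ^ 2 * (c1 / (ε ^ 2 / 2 + ε ^ 2)) * (1 / (‖t‖ ^ 2 + 1 / ((k : ℝ) + 1)))
          ≤ ‖F x - D.U x‖ ^ 2 * (Real.exp (-D.φ k x) / (‖t‖ ^ 2 + ε ^ 2)) *
            (1 / (‖t‖ ^ 2 + 1 / ((k : ℝ) + 1))) := by
            gcongr
        _ = ‖F x - D.U x‖ ^ 2 * (Real.exp (-D.φ k x) /
            ((‖t‖ ^ 2 + 1 / ((k : ℝ) + 1)) * (‖t‖ ^ 2 + ε ^ 2))) := by
            field_simp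
    calc (ENNReal.ofReal c2 * volume (ball y0 r)) *
        (⨆ k : ℕ, ENNReal.ofReal (1 / (‖t‖ ^ 2 + 1 / ((k : ℝ) + 1))))
        = ∫⁻ y in ball y0 r, ENNReal.ofReal c2 *
          (⨆ k : ℕ, ENNReal.ofReal (1 / (‖t‖ ^ 2 + 1 / ((k : ℝ) + 1)))) := by
          rw [lintegral_const, Measure.restrict_apply_univ]; ring
      _ ≤ _ := setLIntegral_mono' measurableSet_ball h1
  have hne0 : ENNReal.ofReal c2 * volume (ball y0 r) ≠ 0 := by
    refine mul_ne_zero (ENNReal.ofReal_pos.2 hc2p).ne' ?_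
    exact (isOpen_ball.measure_pos volume ⟨y0, mem_ball_self hr⟩).ne'
  calc ∞ = (ENNReal.ofReal c2 * volume (ball y0 r)) *
        ∫⁻ t in ball (0 : ℂ) r, (⨆ k : ℕ, ENNReal.ofReal (1 / (‖t‖ ^ 2 + 1 / ((k : ℝ) + 1)))) := by
        rw [lint_inv_sq hr, ENNReal.mul_top hne0]
    _ = ∫⁻ t in ball (0 : ℂ) r, (ENNReal.ofReal c2 * volume (ball y0 r)) *
        (⨆ k : ℕ, ENNReal.ofReal (1 / (‖t‖ ^ 2 + 1 / ((k : ℝ) + 1)))) := by
        rw [lintegral_const_mul']
        refine ENNReal.mul_ne_top ENNReal.ofReal_ne_top ?_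
        exact (measure_ball_lt_top).ne
    _ ≤ ∫⁻ t in ball (0 : ℂ) r, fi g t := setLIntegral_mono' measurableSet_ball hlow
    _ ≤ ∫⁻ t, fi g t := setLIntegral_le_lintegral _ _

/-- **crude extension** -/
theorem crude {ε : ℝ} (hε : 0 < ε) (hR : 0 < R) : ∃ C : ℝ≥0∞, C ≠ ∞ ∧ 1 ≤ C ∧
    ∀ (D : Dat R) (S : ℝ≥0∞), (∀ t, ‖t‖ ≤ ε → D.nrm D.U t ≤ S) →
      ∃ F : D.P → ℂ, Ho51.Hol F ∧ (∀ x, tc x = 0 → F x = D.U x) ∧
        ∫⁻ t, D.nrm F t ≤ C * S := by
  obtain ⟨C1, hC1, hth⟩ := exists_th_bound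
  set V : ℝ≥0∞ := volume (closedBall (0 : ℂ) ε) with hV
  have hVfin : V ≠ ∞ := (isCompact_closedBall (0 : ℂ) ε).measure_lt_top.ne
  set c3 : ℝ := (R ^ 2 + 1) * (R ^ 2 + ε ^ 2) with hc3
  set CC : ℝ≥0∞ := 2 * (ENNReal.ofReal c3 * (2 * (ENNReal.ofReal (8 * C1 / ε ^ 4) * V))) +
    2 * V + 1 with hCC
  refine ⟨CC, ?_, le_add_self, ?_⟩
  · have h1 : ENNReal.ofReal (8 * C1 / ε ^ 4) * V ≠ ∞ := ENNReal.mul_ne_top ENNReal.ofReal_ne_top hVfin
    refine ENNReal.add_ne_top.2 ⟨ENNReal.add_ne_top.2 ⟨?_, ?_⟩, by simp⟩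
    · exact ENNReal.mul_ne_top (by simp) (ENNReal.mul_ne_top ENNReal.ofReal_ne_top
        (ENNReal.mul_ne_top (by simp) h1))
    · exact ENNReal.mul_ne_top (by simp) hVfin
  intro D S hS
  by_cases hSt : S = ∞
  · refine ⟨D.U, hol_to _ D.U_hol, fun x _ => rfl, ?_⟩
    have hC0 : CC ≠ 0 := (lt_of_lt_of_le one_pos (le_add_self : (1 : ℝ≥0∞) ≤ CC)).ne'
    rw [hSt, ENNReal.mul_top hC0]
    exact le_top
  obtain ⟨μ, hμ⟩ := exists_leb (M := D.P)
  have hUc : Continuous D.U := D.U_hol.sm.continuous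
  -- the integral of the density over `|t| ≤ ε`
  set E : Set D.P := {x | ‖tc x‖ ≤ ε} with hE
  have hEm : MeasurableSet E := (isClosed_le cont_tc.norm continuous_const).measurableSet
  have hIE : ∫⁻ x, E.indicator (D.dens D.U) x ∂μ ≤ V * S := by
    rw [lintegral_eq_fi hμ ((D.dens_meas hUc).indicator hEm)]
    calc ∫⁻ t, fi (E.indicator (D.dens D.U)) t
        ≤ ∫⁻ t, (closedBall (0 : ℂ) ε).indicator (fun _ => S) t := by
          refine lintegral_mono fun t => ?_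
          by_cases ht : t ∈ closedBall (0 : ℂ) ε
          · rw [indicator_of_mem ht]
            refine le_trans (fi_mono fun y _ => ?_) (hS t (by simpa using ht))
            exact indicator_le_self _ _ _
          · rw [indicator_of_notMem ht]
            refine le_trans (fi_mono (h := fun _ => 0) fun y hy => ?_) ?_
            · rw [indicator_of_notMem]
              intro hyE
              apply ht
              have : tc y = t := hy
              rw [mem_closedBall_zero_iff, ← this]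
              exact hyE
            · unfold fi fsum
              simp
      _ = V * S := by
          rw [lintegral_indicator isClosed_closedBall.measurableSet, lintegral_const,
            Measure.restrict_apply_univ, mul_comm]
  -- the engine
  set kap : ℕ → D.P → ℝ := fun _ x =>
    (if 1 / 2 ≤ ‖tc x‖ ^ 2 / ε ^ 2 ∧ ‖tc x‖ ^ 2 / ε ^ 2 ≤ 1 then 4 * C1 * ‖D.U x‖ ^ 2 else 0)
    with hkap
  have hε2 : (0 : ℝ) < ε ^ 2 := by positivity
  have hk : ∀ k x (w : Fin (D.a + 1) → ℂ),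
      ‖∑ j, db j (GG D ε) x * (starRingEnd ℂ) (w j)‖ ^ 2 ≤ kap k x * Levi (psiK D ε k) x w := by
    intro k x w
    rw [Levi_eq_lev (psiK_sm D hε k), AL_GG]
    have hlev := psiK_lev D hε k x w
    set T := ‖tc x‖ ^ 2 / ε ^ 2 with hT
    by_cases hTc : 1 / 2 ≤ T ∧ T ≤ 1
    · have h1 : kap k x = 4 * C1 * ‖D.U x‖ ^ 2 := by
        rw [hkap]; simp only; rw [if_pos hTc]
      rw [h1]
      have htle : ‖tc x‖ ^ 2 ≤ ε ^ 2 := by
        have := hTc.2
        rw [hT, div_le_one hε2] at this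
        exact this
      have h2 : ‖w 0‖ ^ 2 / (4 * ε ^ 2) ≤ lev (psiK D ε k) x w := by
        refine le_trans ?_ hlev
        rw [div_le_div_iff₀ (by positivity) (by positivity)]
        have h3 : (‖tc x‖ ^ 2 + ε ^ 2) ^ 2 ≤ (2 * ε ^ 2) ^ 2 := by
          have := sq_nonneg ‖tc x‖
          apply pow_le_pow_left₀ (by positivity)
          linarith
        have h4 : 0 ≤ ‖w 0‖ ^ 2 := by positivity
        nlinarith
      have h5 : ‖(deriv th T : ℝ) * ((1 / ε ^ 2 : ℝ) : ℂ) * conj (w 0 * conj (tc x)) *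
          D.U x‖ ^ 2 = (deriv th T) ^ 2 * (1 / ε ^ 2) ^ 2 * (‖w 0‖ ^ 2 * ‖tc x‖ ^ 2) *
            ‖D.U x‖ ^ 2 := by
        simp only [norm_mul, mul_pow, RCLike.norm_conj, Complex.norm_real, Real.norm_eq_abs, sq_abs]
      rw [h5]
      have h6 := (hth T).1
      calc (deriv th T) ^ 2 * (1 / ε ^ 2) ^ 2 * (‖w 0‖ ^ 2 * ‖tc x‖ ^ 2) * ‖D.U x‖ ^ 2
          ≤ C1 * (1 / ε ^ 2) ^ 2 * (‖w 0‖ ^ 2 * ε ^ 2) * ‖D.U x‖ ^ 2 := by gcongr
        _ = 4 * C1 * ‖D.U x‖ ^ 2 * (‖w 0‖ ^ 2 / (4 * ε ^ 2)) := by field_simp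
        _ ≤ _ := by gcongr
    · have h1 : deriv th T = 0 := by
        apply (hth T).2
        by_contra h2
        push Not at h2
        exact hTc ⟨h2.1, h2.2⟩
      rw [h1]
      have h2 : kap k x = 0 := by
        rw [hkap]; simp only; rw [if_neg hTc]
      rw [h2]
      simp
  set K : ℝ≥0∞ := ENNReal.ofReal (8 * C1 / ε ^ 4) * (V * S) with hK
  have hKb : ∀ k, ∫⁻ x, ENNReal.ofReal (kap k x * Real.exp (-psiK D ε k x)) ∂μ ≤ K := by
    intro k
    calc ∫⁻ x, ENNReal.ofReal (kap k x * Real.exp (-psiK D ε k x)) ∂μ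
        ≤ ∫⁻ x, ENNReal.ofReal (8 * C1 / ε ^ 4) * E.indicator (D.dens D.U) x ∂μ := by
          refine lintegral_mono fun x => ?_
          by_cases hTc : 1 / 2 ≤ ‖tc x‖ ^ 2 / ε ^ 2 ∧ ‖tc x‖ ^ 2 / ε ^ 2 ≤ 1
          · have h1 : kap k x = 4 * C1 * ‖D.U x‖ ^ 2 := by
              rw [hkap]; simp only; rw [if_pos hTc]
            have htle : ‖tc x‖ ^ 2 ≤ ε ^ 2 := by
              have := hTc.2
              rw [div_le_one hε2] at this
              exact this
            have htge : ε ^ 2 / 2 ≤ ‖tc x‖ ^ 2 := by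
              have := hTc.1
              rw [le_div_iff₀ hε2] at this
              linarith
            have hxE : x ∈ E := by
              show ‖tc x‖ ≤ ε
              exact le_of_sq_le_sq htle hε.le
            rw [indicator_of_mem hxE, h1, exp_psiK D hε]
            unfold Dat.dens
            have hle : ENNReal.ofReal (Real.exp (-D.φ k x)) ≤ D.wt x :=
              le_iSup (fun k => ENNReal.ofReal (Real.exp (-D.φ k x))) k
            refine le_trans ?_ (mul_le_mul_right (mul_le_mul_right hle _) _)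
            rw [← ENNReal.ofReal_mul (by positivity), ← ENNReal.ofReal_mul (by positivity)]
            apply ENNReal.ofReal_le_ofReal
            have hkp := inv_pos' k
            have h7 : Real.exp (-D.φ k x) /
                ((‖tc x‖ ^ 2 + 1 / ((k : ℝ) + 1)) * (‖tc x‖ ^ 2 + ε ^ 2)) ≤
                Real.exp (-D.φ k x) / ((ε ^ 2 / 2) * ε ^ 2) := by
              gcongr
              · linarith
              · have := sq_nonneg ‖tc x‖
                linarith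
            calc 4 * C1 * ‖D.U x‖ ^ 2 * (Real.exp (-D.φ k x) /
                ((‖tc x‖ ^ 2 + 1 / ((k : ℝ) + 1)) * (‖tc x‖ ^ 2 + ε ^ 2)))
                ≤ 4 * C1 * ‖D.U x‖ ^ 2 * (Real.exp (-D.φ k x) / ((ε ^ 2 / 2) * ε ^ 2)) := by
                  gcongr
              _ = 8 * C1 / ε ^ 4 * (‖D.U x‖ ^ 2 * Real.exp (-D.φ k x)) := by
                  field_simp
                  ring
          · have h2 : kap k x = 0 := by
              rw [hkap]; simp only; rw [if_neg hTc]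
            rw [h2, zero_mul, ENNReal.ofReal_zero]
            exact zero_le
      _ = ENNReal.ofReal (8 * C1 / ε ^ 4) * ∫⁻ x, E.indicator (D.dens D.U) x ∂μ :=
          lintegral_const_mul' _ _ ENNReal.ofReal_ne_top
      _ ≤ K := by
          rw [hK]
          gcongr
  obtain ⟨F, hF, hFK⟩ := engineP (D.a + 1) D.P μ hμ D.ρ D.ρ_sm D.ρ_cpt
    (fun x w => by rw [Levi_eq_lev D.ρ_sm]; exact D.ρ_lev x w)
    (psiK D ε) (psiK_sm D hε) (psiK_anti D)
    (fun k x w => by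
      rw [Levi_eq_lev (psiK_sm D hε k)]
      exact le_trans (by positivity) (psiK_lev D hε k x w))
    (GG D ε) (sm_GG D ε) kap hk K hKb
  have hFc : Continuous F := T7a297.Hol.continuous hF
  have hGc : Continuous (GG D ε) := (sm_GG D ε).continuous
  have hKfin : 2 * K ≠ ∞ := by
    refine ENNReal.mul_ne_top (by simp) ?_
    exact ENNReal.mul_ne_top ENNReal.ofReal_ne_top (ENNReal.mul_ne_top hVfin hSt)
  refine ⟨F, hF, fun x hx => eq_on_zero D hε hFc hμ (lt_of_le_of_lt hFK hKfin.lt_top).ne hx, ?_⟩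
  have hrw : ∫⁻ t, D.nrm F t = ∫⁻ x, D.dens F x ∂μ := (lintegral_eq_fi hμ (D.dens_meas hFc)).symm
  rw [hrw]
  -- pointwise estimate
  have hpt : ∀ x, D.dens F x ≤ 2 * (ENNReal.ofReal c3 * (ENNReal.ofReal (‖F x - GG D ε x‖ ^ 2) *
      (⨆ k, ENNReal.ofReal (Real.exp (-psiK D ε k x))))) + 2 * E.indicator (D.dens D.U) x := by
    intro x
    have hw : D.wt x ≤ ENNReal.ofReal c3 * ⨆ k, ENNReal.ofReal (Real.exp (-psiK D ε k x)) := by
      unfold Dat.wt
      refine iSup_le fun k => ?_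
      refine le_trans ?_ (mul_le_mul_right
        (le_iSup (fun k => ENNReal.ofReal (Real.exp (-psiK D ε k x))) k) _)
      rw [← ENNReal.ofReal_mul (by positivity)]
      apply ENNReal.ofReal_le_ofReal
      rw [exp_psiK D hε]
      have hkp := inv_pos' k
      have htR : ‖tc x‖ ^ 2 ≤ R ^ 2 := by
        have := (D.tR x).le
        gcongr
      have hk1 : 1 / ((k : ℝ) + 1) ≤ 1 := by
        rw [div_le_one (by positivity)]
        have : (0 : ℝ) ≤ k := Nat.cast_nonneg k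
        linarith
      have h8 : (‖tc x‖ ^ 2 + 1 / ((k : ℝ) + 1)) * (‖tc x‖ ^ 2 + ε ^ 2) ≤ c3 := by
        rw [hc3]
        gcongr
      rw [mul_div_assoc', le_div_iff₀ (by positivity)]
      have h9 := Real.exp_pos (-D.φ k x)
      nlinarith
    have hsq : ENNReal.ofReal (‖F x‖ ^ 2) ≤ 2 * ENNReal.ofReal (‖F x - GG D ε x‖ ^ 2) +
        2 * ENNReal.ofReal (‖GG D ε x‖ ^ 2) := by
      have := T7a297.enorm_sq_le_aux (F x) (GG D ε x)
      rwa [show ‖F x‖ₑ ^ 2 = ENNReal.ofReal (‖F x‖ ^ 2) by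
        rw [ENNReal.ofReal_pow (norm_nonneg _), ofReal_norm]] at this
    have hGle : ENNReal.ofReal (‖GG D ε x‖ ^ 2) * D.wt x ≤ E.indicator (D.dens D.U) x := by
      by_cases hxE : x ∈ E
      · rw [indicator_of_mem hxE]
        unfold Dat.dens
        gcongr
        unfold GG
        rw [norm_mul, Complex.norm_real, Real.norm_eq_abs, abs_of_nonneg (th_nonneg _)]
        exact mul_le_of_le_one_left (norm_nonneg _) (th_le_one _)
      · have h1 : 1 ≤ ‖tc x‖ ^ 2 / ε ^ 2 := by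
          have : ε < ‖tc x‖ := not_le.1 hxE
          rw [one_le_div hε2]
          have h3 := this.le
          gcongr
        have h2 : GG D ε x = 0 := by
          unfold GG
          rw [th_zero h1]; simp
        rw [h2]; simp
    calc D.dens F x = ENNReal.ofReal (‖F x‖ ^ 2) * D.wt x := rfl
      _ ≤ (2 * ENNReal.ofReal (‖F x - GG D ε x‖ ^ 2) +
        2 * ENNReal.ofReal (‖GG D ε x‖ ^ 2)) * D.wt x := by gcongr
      _ = 2 * (ENNReal.ofReal (‖F x - GG D ε x‖ ^ 2) * D.wt x) +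
        2 * (ENNReal.ofReal (‖GG D ε x‖ ^ 2) * D.wt x) := by ring
      _ ≤ 2 * (ENNReal.ofReal (‖F x - GG D ε x‖ ^ 2) * (ENNReal.ofReal c3 *
          ⨆ k, ENNReal.ofReal (Real.exp (-psiK D ε k x)))) +
          2 * E.indicator (D.dens D.U) x := by gcongr
      _ = _ := by ring
  have hmI : Measurable fun x => 2 * E.indicator (D.dens D.U) x :=
    ((D.dens_meas hUc).indicator hEm).const_mul 2
  calc ∫⁻ x, D.dens F x ∂μ
      ≤ ∫⁻ x, (2 * (ENNReal.ofReal c3 * (ENNReal.ofReal (‖F x - GG D ε x‖ ^ 2) *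
      (⨆ k, ENNReal.ofReal (Real.exp (-psiK D ε k x))))) + 2 * E.indicator (D.dens D.U) x) ∂μ :=
        lintegral_mono hpt
    _ = ∫⁻ x, 2 * (ENNReal.ofReal c3 * (ENNReal.ofReal (‖F x - GG D ε x‖ ^ 2) *
      (⨆ k, ENNReal.ofReal (Real.exp (-psiK D ε k x))))) ∂μ +
        ∫⁻ x, 2 * E.indicator (D.dens D.U) x ∂μ := lintegral_add_right _ hmI
    _ = 2 * (ENNReal.ofReal c3 * ∫⁻ x, (ENNReal.ofReal (‖F x - GG D ε x‖ ^ 2) *
      (⨆ k, ENNReal.ofReal (Real.exp (-psiK D ε k x)))) ∂μ) +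
        2 * ∫⁻ x, E.indicator (D.dens D.U) x ∂μ := by
        rw [lintegral_const_mul' _ _ (by simp), lintegral_const_mul' _ _ ENNReal.ofReal_ne_top,
          lintegral_const_mul' _ _ (by simp)]
    _ ≤ 2 * (ENNReal.ofReal c3 * (2 * K)) + 2 * (V * S) := by gcongr
    _ ≤ CC * S := by
        rw [hCC, hK]
        have : 2 * (ENNReal.ofReal c3 * (2 * (ENNReal.ofReal (8 * C1 / ε ^ 4) * (V * S)))) +
            2 * (V * S) = (2 * (ENNReal.ofReal c3 * (2 * (ENNReal.ofReal (8 * C1 / ε ^ 4) * V))) +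
              2 * V) * S := by ring
        rw [this]
        exact mul_le_mul_left le_self_add S

end Crest.Agent.R276.PV_159
end
end

-- ▼ part R276/PVg_159

/-!
# Row 276, part D1 (helper159): Stein families over a disc, their fibre products, and families of
functionals

`Dom R`: a Stein Riemann domain over the disc of radius `R` with a decreasing sequence of smooth psh
weights.  `FF D`: a holomorphic family of functionals on the fibres, with `|ξ_t(g)|² ≤ κ(t) |g|²_t`.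
-/

set_option autoImplicit false
set_option linter.unusedSectionVars false

noncomputable section

open Set Filter Topology Complex MeasureTheory Metric
open scoped ENNReal ComplexConjugate

namespace Crest.Agent.R276.PV_159

open Crest.Agent.R271 Crest.Agent.R271.Ho51 Crest.Agent.R271.W792

/-- A Stein Riemann domain over a disc of radius `R` with a decreasing sequence of smooth psh weights. -/
structure Dom (R : ℝ) where
  /-- the Riemann domain -/
  P : Type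
  [top : TopologicalSpace P]
  [t2 : T2Space P]
  [sc : SecondCountableTopology P]
  /-- fibre dimension -/
  a : ℕ
  [rd : RDom (a + 1) P]
  /-- exhaustion -/
  ρ : P → ℝ
  ρ_sm : Sm ρ
  ρ_cpt : ∀ c : ℝ, IsCompact {x | ρ x ≤ c}
  ρ_lev : ∀ x w, nsq w ≤ lev ρ x w
  /-- weights -/
  φ : ℕ → P → ℝ
  φ_sm : ∀ k, Sm (φ k)
  φ_anti : ∀ x, Antitone fun k => φ k x
  φ_lev : ∀ k x w, 0 ≤ lev (φ k) x w
  tR : ∀ x : P, ‖tc x‖ < R

attribute [instance] Dom.top Dom.t2 Dom.sc Dom.rd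

variable {R : ℝ}

/-- `e^{-φ}`, `φ = lim φ_k` -/
def Dom.wt (D : Dom R) (x : D.P) : ℝ≥0∞ := ⨆ k, ENNReal.ofReal (Real.exp (-D.φ k x))

/-- `|F|² e^{-φ}` -/
def Dom.dens (D : Dom R) (F : D.P → ℂ) (x : D.P) : ℝ≥0∞ := ENNReal.ofReal (‖F x‖ ^ 2) * D.wt x

/-- squared norm on the fibre -/
def Dom.nrm (D : Dom R) (F : D.P → ℂ) (t : ℂ) : ℝ≥0∞ := fi (D.dens F) t

instance (D : Dom R) : MeasurableSpace D.P := borel _
instance (D : Dom R) : BorelSpace D.P := ⟨rfl⟩

/-- add a holomorphic function -/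
def Dom.dat (D : Dom R) (U : D.P → ℂ) (hU : W792.Hol U) : Dat R where
  P := D.P
  a := D.a
  ρ := D.ρ
  ρ_sm := D.ρ_sm
  ρ_cpt := D.ρ_cpt
  ρ_lev := D.ρ_lev
  φ := D.φ
  φ_sm := D.φ_sm
  φ_anti := D.φ_anti
  φ_lev := D.φ_lev
  U := U
  U_hol := hU
  tR := D.tR


lemma Dom.wt_meas (D : Dom R) : Measurable D.wt :=
  Measurable.iSup fun k => ((Real.continuous_exp.comp
    (D.φ_sm k).continuous.neg).measurable).ennreal_ofReal

lemma Dom.dens_meas (D : Dom R) {F : D.P → ℂ} (hF : Continuous F) : Measurable (D.dens F) :=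
  ((hF.norm.pow 2).measurable.ennreal_ofReal).mul D.wt_meas

lemma Dom.nrm_congr (D : Dom R) {F G : D.P → ℂ} {t : ℂ} (h : ∀ x, tc x = t → F x = G x) :
    D.nrm F t = D.nrm G t :=
  fi_congr fun y hy => by unfold Dom.dens; rw [h y hy]


/-! ### continuous functions with compact sublevel sets are bounded below -/

lemma exists_lower {X : Type*} [TopologicalSpace X] {f : X → ℝ} (hf : Continuous f)
    (hc : ∀ c : ℝ, IsCompact {x | f x ≤ c}) : ∃ b : ℝ, ∀ x, b ≤ f x := by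
  obtain ⟨b, hb⟩ := ((hc 0).image hf).bddBelow
  refine ⟨min b 0, fun x => ?_⟩
  by_cases h : f x ≤ 0
  · exact (min_le_left _ _).trans (hb ⟨x, h, rfl⟩)
  · exact (min_le_right _ _).trans (not_le.1 h).le

lemma nsq_L {a b : ℕ} (w : Fin (a + b + 1) → ℂ) : nsq w ≤ nsq (L1 a b w) + nsq (L2 a b w) := by
  unfold nsq
  rw [Fin.sum_univ_succ, Fin.sum_univ_add, Fin.sum_univ_succ (n := a), Fin.sum_univ_succ (n := b)]
  simp only [L1_zero, L1_succ, L2_zero, L2_succ]
  have : 0 ≤ ‖w 0‖ ^ 2 := by positivity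
  linarith

lemma isCompact_FP {a b : ℕ} {M N : Type} [TopologicalSpace M] [TopologicalSpace N]
    [RDom (a + 1) M] [RDom (b + 1) N] [T2Space M] [T2Space N] {f : M → ℝ} {g : N → ℝ}
    (hf : Continuous f)
    (hg : Continuous g) (hfc : ∀ c : ℝ, IsCompact {x | f x ≤ c})
    (hgc : ∀ c : ℝ, IsCompact {x | g x ≤ c}) (c : ℝ) :
    IsCompact {p : FP M N | f p.fst + g p.snd ≤ c} := by
  obtain ⟨bf, hbf⟩ := exists_lower hf hfc
  obtain ⟨bg, hbg⟩ := exists_lower hg hgc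
  have hemb : IsClosedEmbedding (Subtype.val : {p : M × N // (cp p.1 : Fin (a + 1) → ℂ) 0 =
      (cp p.2 : Fin (b + 1) → ℂ) 0} → M × N) := by
    refine IsClosed.isClosedEmbedding_subtypeVal ?_
    exact isClosed_eq ((continuous_apply 0).comp (cp_cont.comp continuous_fst))
      ((continuous_apply 0).comp (cp_cont.comp continuous_snd))
  have hK : IsCompact ({x : M | f x ≤ c - bg} ×ˢ {y : N | g y ≤ c - bf}) := (hfc _).prod (hgc _)
  have h1 : IsCompact ((Subtype.val : {p : M × N // (cp p.1 : Fin (a + 1) → ℂ) 0 =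
      (cp p.2 : Fin (b + 1) → ℂ) 0} → M × N) ⁻¹' ({x : M | f x ≤ c - bg} ×ˢ {y : N | g y ≤ c - bf})) :=
    hemb.isCompact_preimage hK
  refine IsCompact.of_isClosed_subset (X := FP M N) h1 ?_ ?_
  · exact isClosed_le ((hf.comp FP.cont_fst).add (hg.comp FP.cont_snd)) continuous_const
  · intro p hp
    have hp' : f p.fst + g p.snd ≤ c := hp
    refine ⟨?_, ?_⟩
    · show f p.fst ≤ c - bg
      have := hbg p.snd
      linarith
    · show g p.snd ≤ c - bf
      have := hbf p.fst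
      linarith

/-- fibre product of families -/
@[reducible] def Dom.mul (D E : Dom R) : Dom R where
  P := FP D.P E.P
  a := D.a + E.a
  ρ p := D.ρ p.fst + E.ρ p.snd
  ρ_sm := (FP.mor_fst.sm D.ρ_sm).add (FP.mor_snd.sm E.ρ_sm)
  ρ_cpt := isCompact_FP D.ρ_sm.continuous E.ρ_sm.continuous D.ρ_cpt E.ρ_cpt
  ρ_lev x w := by
    rw [lev_add (FP.mor_fst.sm D.ρ_sm) (FP.mor_snd.sm E.ρ_sm), FP.mor_fst.lev_eq D.ρ_sm,
      FP.mor_snd.lev_eq E.ρ_sm]
    exact (nsq_L w).trans (add_le_add (D.ρ_lev _ _) (E.ρ_lev _ _))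
  φ k p := D.φ k p.fst + E.φ k p.snd
  φ_sm k := (FP.mor_fst.sm (D.φ_sm k)).add (FP.mor_snd.sm (E.φ_sm k))
  φ_anti x _ _ h := add_le_add (D.φ_anti x.fst h) (E.φ_anti x.snd h)
  φ_lev k x w := by
    rw [lev_add (FP.mor_fst.sm (D.φ_sm k)) (FP.mor_snd.sm (E.φ_sm k)), FP.mor_fst.lev_eq (D.φ_sm k),
      FP.mor_snd.lev_eq (E.φ_sm k)]
    exact add_nonneg (D.φ_lev _ _ _) (E.φ_lev _ _ _)
  tR x := D.tR x.fst

lemma iSup_mul_iSup_mono {u v : ℕ → ℝ≥0∞} (hu : Monotone u) (hv : Monotone v) :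
    ⨆ k, u k * v k = (⨆ k, u k) * ⨆ k, v k := by
  apply le_antisymm
  · exact iSup_le fun k => mul_le_mul' (le_iSup u k) (le_iSup v k)
  · rw [ENNReal.iSup_mul]
    refine iSup_le fun i => ?_
    rw [ENNReal.mul_iSup]
    refine iSup_le fun j => ?_
    exact le_trans (mul_le_mul' (hu (le_max_left i j)) (hv (le_max_right i j)))
      (le_iSup (fun k => u k * v k) (max i j))

lemma Dom.wt_mul (D E : Dom R) (p : (D.mul E).P) :
    (D.mul E).wt p = D.wt (FP.fst (M := D.P) (N := E.P) p) * E.wt (FP.snd (M := D.P) (N := E.P) p) := by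
  unfold Dom.wt
  rw [← iSup_mul_iSup_mono]
  · refine iSup_congr fun k => ?_
    show ENNReal.ofReal (Real.exp (-(D.φ k _ + E.φ k _))) = _
    rw [← ENNReal.ofReal_mul (Real.exp_pos _).le, ← Real.exp_add]
    congr 2
    ring
  · intro i j h
    exact ENNReal.ofReal_le_ofReal (Real.exp_le_exp.2 (neg_le_neg (D.φ_anti _ h)))
  · intro i j h
    exact ENNReal.ofReal_le_ofReal (Real.exp_le_exp.2 (neg_le_neg (E.φ_anti _ h)))

lemma fi_const_mul_le {a : ℕ} {M : Type} [TopologicalSpace M] [RDom (a + 1) M] (g : M → ℝ≥0∞)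
    (t : ℂ) (k : ℝ≥0∞) : k * fi g t ≤ fi (fun y => k * g y) t := by
  unfold fi fsum
  refine (lintegral_const_mul_le k _).trans_eq ?_
  refine lintegral_congr fun x => ?_
  rw [ENNReal.tsum_mul_left]

/-- the Borel structure on fibre products -/
local instance instMFP {a b : ℕ} {M N : Type} [TopologicalSpace M] [TopologicalSpace N]
    [RDom (a + 1) M] [RDom (b + 1) N] : MeasurableSpace (FP M N) := borel _
local instance instBFP {a b : ℕ} {M N : Type} [TopologicalSpace M] [TopologicalSpace N]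
    [RDom (a + 1) M] [RDom (b + 1) N] : BorelSpace (FP M N) := ⟨rfl⟩

/-- Fubini for the norms -/
lemma Dom.nrm_mul_ge (Q D : Dom R) {F : (Q.mul D).P → ℂ} (hF : Continuous F) (t : ℂ) :
    fi (fun q : Q.P => Q.wt q * D.nrm (fun x => ext2 (M := Q.P) (N := D.P) F q x) t) t ≤
      (Q.mul D).nrm F t := by
  have hm : Measurable ((Q.mul D).dens F) := (Q.mul D).dens_meas hF
  have hfub : (Q.mul D).nrm F t = fi (fun m : Q.P => fi (fun n : D.P =>
      ext2 (M := Q.P) (N := D.P) ((Q.mul D).dens F) m n) t) t :=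
    fi_FP (M := Q.P) (N := D.P) hm t
  rw [hfub]
  refine fi_mono fun q hq => ?_
  refine (fi_const_mul_le _ t _).trans ?_
  refine fi_mono fun x hx => ?_
  have h : (cp q : Fin (Q.a + 1) → ℂ) 0 = (cp x : Fin (D.a + 1) → ℂ) 0 := by rw [hq, hx]
  have h1 : ext2 (M := Q.P) (N := D.P) ((Q.mul D).dens F) q x =
      ENNReal.ofReal (‖F (FP.mk' q x h)‖ ^ 2) * (Q.wt q * D.wt x) := by
    rw [ext2_of (M := Q.P) (N := D.P) _ h]
    unfold Dom.dens
    rw [Dom.wt_mul]
    rfl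
  have h2 : D.dens (fun x => ext2 (M := Q.P) (N := D.P) F q x) x =
      ENNReal.ofReal (‖F (FP.mk' q x h)‖ ^ 2) * D.wt x := by
    unfold Dom.dens
    beta_reduce
    rw [ext2_of (M := Q.P) (N := D.P) F h]
  rw [h1, h2]
  exact le_of_eq (by ring)

/-! ### fibrewise holomorphic functions -/

section FHol

variable {a b : ℕ} {M N : Type} [TopologicalSpace M] [TopologicalSpace N]
  [RDom (a + 1) M] [RDom (b + 1) N]

/-- `g` is holomorphic along the fibre over `t` -/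
def FHol (t : ℂ) (g : M → ℂ) : Prop :=
  ∀ e : OpenPartialHomeomorph M (Fin (a + 1) → ℂ), IsCh e →
    DifferentiableOn ℂ (fun u : Fin a → ℂ => g (e.symm (Fin.cons t u)))
      {u | (Fin.cons t u : Fin (a + 1) → ℂ) ∈ e.target}

lemma cons_hasFDerivAt (t : ℂ) (u : Fin a → ℂ) :
    HasFDerivAt (𝕜 := ℂ) (fun u : Fin a → ℂ => (Fin.cons t u : Fin (a + 1) → ℂ))
      (ContinuousLinearMap.pi fun i : Fin (a + 1) =>
        Fin.cases (0 : (Fin a → ℂ) →L[ℂ] ℂ) (fun j => ContinuousLinearMap.proj j) i) u := by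
  rw [hasFDerivAt_pi]
  intro i
  refine Fin.cases ?_ (fun j => ?_) i
  · exact hasFDerivAt_const t u
  · exact (ContinuousLinearMap.proj (R := ℂ) (φ := fun _ : Fin a => ℂ) j).hasFDerivAt

lemma differentiable_cons (t : ℂ) :
    Differentiable ℂ (fun u : Fin a → ℂ => (Fin.cons t u : Fin (a + 1) → ℂ)) :=
  fun u => (cons_hasFDerivAt t u).differentiableAt

lemma Hol.fhol {F : M → ℂ} (hF : Ho51.Hol F) (t : ℂ) : FHol t F := by
  intro e he
  exact (hF e he).comp (differentiable_cons t).differentiableOn (fun u hu => hu)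

lemma FHol.congr {t : ℂ} {g g' : M → ℂ} (hg : FHol t g) (h : ∀ x, tc x = t → g' x = g x) :
    FHol t g' := by
  intro e he
  refine (hg e he).congr fun u hu => ?_
  apply h
  unfold tc
  rw [he.cp_symm hu]
  rfl

/-- the slices of a holomorphic function on the fibre product -/
lemma FHol.slice {F : FP M N → ℂ} (hF : Ho51.Hol F) (q : M) : FHol (tc q) (fun x : N => ext2 F q x) := by
  intro d hd
  set e := ch q with he
  have hech : IsCh e := isCh_ch q
  set p0 : {u : Fin b → ℂ | (Fin.cons (tc q) u : Fin (b + 1) → ℂ) ∈ d.target} → FP M N := fun u =>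
    FP.mk' q (d.symm (Fin.cons (tc q) u.1)) (by
      rw [hd.cp_symm u.2]; rfl) with hp0
  intro u hu
  have hch := FP.isCh_chart hech hd (p0 ⟨u, hu⟩)
  have h1 := hF _ hch
  -- the map `u ↦ glue (cp q) (cons t u)`
  set γ : (Fin b → ℂ) → (Fin (a + b + 1) → ℂ) := fun u => glue (cp q) (Fin.cons (tc q) u) with hγ
  have hγd : Differentiable ℂ γ := by
    rw [differentiable_pi]
    intro i
    refine Fin.cases ?_ (fun j => ?_) i
    · exact differentiable_const _
    · refine Fin.addCases (fun j => ?_) (fun j => ?_) j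
      · simp only [hγ, glue, Fin.cons_succ, Fin.append_left]
        exact differentiable_const _
      · simp only [hγ, glue, Fin.cons_succ, Fin.append_right]
        exact differentiable_apply j
  have hγt : ∀ v : Fin b → ℂ, (Fin.cons (tc q) v : Fin (b + 1) → ℂ) ∈ d.target →
      L1 a b (γ v) ∈ e.target ∧ L2 a b (γ v) ∈ d.target := by
    intro v hv
    have h3 : L1 a b (γ v) = cp q := L1_glue _ _
    have h4 : L2 a b (γ v) = Fin.cons (tc q) v := L2_glue _ _ rfl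
    rw [h3, h4]
    exact ⟨hech.cp_mem (mem_ch q), hv⟩
  have h2 : DifferentiableWithinAt ℂ ((F ∘ (FP.chart e d hech hd (p0 ⟨u, hu⟩)).symm) ∘ γ)
      {u | (Fin.cons (tc q) u : Fin (b + 1) → ℂ) ∈ d.target} u := by
    refine (h1 (γ u) (hγt u hu)).comp u (hγd u).differentiableWithinAt ?_
    intro v hv
    exact hγt v hv
  refine h2.congr ?_ ?_
  · intro v hv
    have hv' : (Fin.cons (tc q) v : Fin (b + 1) → ℂ) ∈ d.target := hv
    have hc : (cp q : Fin (a + 1) → ℂ) 0 = (cp (d.symm (Fin.cons (tc q) v)) : Fin (b + 1) → ℂ) 0 := by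
      rw [hd.cp_symm hv']; rfl
    simp only [Function.comp_apply]
    rw [ext2_of _ hc]
    congr 1
    apply FP.ext'
    · show q = FP.fst ((FP.chart e d hech hd (p0 ⟨u, hu⟩)).symm (γ v))
      have : (FP.chart e d hech hd (p0 ⟨u, hu⟩)).symm (γ v) =
          FP.mk' (e.symm (L1 a b (γ v))) (d.symm (L2 a b (γ v))) (FP.compat hech hd (hγt v hv')) :=
        dif_pos (hγt v hv')
      rw [this]
      show q = e.symm (L1 a b (γ v))
      have h3 : L1 a b (γ v) = cp q := L1_glue _ _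
      rw [h3, hech.symm_cp (mem_ch q)]
    · show d.symm (Fin.cons (tc q) v) = FP.snd ((FP.chart e d hech hd (p0 ⟨u, hu⟩)).symm (γ v))
      have : (FP.chart e d hech hd (p0 ⟨u, hu⟩)).symm (γ v) =
          FP.mk' (e.symm (L1 a b (γ v))) (d.symm (L2 a b (γ v))) (FP.compat hech hd (hγt v hv')) :=
        dif_pos (hγt v hv')
      rw [this]
      show _ = d.symm (L2 a b (γ v))
      have h4 : L2 a b (γ v) = Fin.cons (tc q) v := L2_glue _ _ rfl
      rw [h4]
  · have hv' : (Fin.cons (tc q) u : Fin (b + 1) → ℂ) ∈ d.target := hu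
    have hc : (cp q : Fin (a + 1) → ℂ) 0 = (cp (d.symm (Fin.cons (tc q) u)) : Fin (b + 1) → ℂ) 0 := by
      rw [hd.cp_symm hv']; rfl
    simp only [Function.comp_apply]
    rw [ext2_of _ hc]
    congr 1
    apply FP.ext'
    · show q = FP.fst ((FP.chart e d hech hd (p0 ⟨u, hu⟩)).symm (γ u))
      have : (FP.chart e d hech hd (p0 ⟨u, hu⟩)).symm (γ u) =
          FP.mk' (e.symm (L1 a b (γ u))) (d.symm (L2 a b (γ u))) (FP.compat hech hd (hγt u hv')) :=
        dif_pos (hγt u hv')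
      rw [this]
      show q = e.symm (L1 a b (γ u))
      have h3 : L1 a b (γ u) = cp q := L1_glue _ _
      rw [h3, hech.symm_cp (mem_ch q)]
    · show d.symm (Fin.cons (tc q) u) = FP.snd ((FP.chart e d hech hd (p0 ⟨u, hu⟩)).symm (γ u))
      have : (FP.chart e d hech hd (p0 ⟨u, hu⟩)).symm (γ u) =
          FP.mk' (e.symm (L1 a b (γ u))) (d.symm (L2 a b (γ u))) (FP.compat hech hd (hγt u hv')) :=
        dif_pos (hγt u hv')
      rw [this]
      show _ = d.symm (L2 a b (γ u))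
      have h4 : L2 a b (γ u) = Fin.cons (tc q) u := L2_glue _ _ rfl
      rw [h4]

end FHol

/-! ### families of functionals -/

/-- a holomorphic family of functionals on the fibres, with a bound -/
structure FF (D : Dom R) where
  /-- the functional -/
  ξ : ℂ → (D.P → ℂ) → ℂ
  /-- the bound -/
  κ : ℂ → ℝ
  κ_pos : ∀ t, 0 < κ t
  loc : ∀ t g g', (∀ x, tc x = t → g x = g' x) → ξ t g = ξ t g'
  hom : ∀ t c g, ξ t (fun x => c * g x) = c * ξ t g
  bd : ∀ t, ‖t‖ < R → ∀ g, FHol t g →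
    ENNReal.ofReal (‖ξ t g‖ ^ 2) ≤ ENNReal.ofReal (κ t) * D.nrm g t
  hol0 : ∀ G : D.P → ℂ, Ho51.Hol G → (∀ᵐ t, D.nrm G t < ∞) →
    DifferentiableOn ℂ (fun t => ξ t G) (ball 0 R)
  hol1 : ∀ (Q : Dom R) (F : (Q.mul D).P → ℂ), Ho51.Hol F → (∀ᵐ t, (Q.mul D).nrm F t < ∞) →
    Ho51.Hol (fun q : Q.P => ξ (tc q) (fun x : D.P => ext2 (M := Q.P) (N := D.P) F q x))

variable {D : Dom R}

/-- apply the functional to the last factor -/
def FF.E (X : FF D) (Q : Dom R) (F : (Q.mul D).P → ℂ) (q : Q.P) : ℂ :=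
  X.ξ (tc q) (fun x : D.P => ext2 (M := Q.P) (N := D.P) F q x)

/-- Bergman inequality in one variable -/
lemma FF.nrm_E (X : FF D) (Q : Dom R) {F : (Q.mul D).P → ℂ} (hF : Ho51.Hol F) {t : ℂ} (ht : ‖t‖ < R) :
    Q.nrm (X.E Q F) t ≤ ENNReal.ofReal (X.κ t) * (Q.mul D).nrm F t := by
  refine le_trans ?_ (mul_le_mul_right (Q.nrm_mul_ge D (T7a297.Hol.continuous hF) t) _)
  rw [← fi_const_mul ENNReal.ofReal_ne_top]
  refine fi_mono fun q hq => ?_
  have hq' : tc q = t := hq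
  have h1 := X.bd (tc q) (by rw [hq']; exact ht) _ (FHol.slice (M := Q.P) (N := D.P) hF q)
  unfold Dom.dens FF.E
  rw [hq'] at h1 ⊢
  calc _ ≤ (ENNReal.ofReal (X.κ t) * D.nrm (fun x => ext2 (M := Q.P) (N := D.P) F q x) t) * Q.wt q :=
        mul_le_mul_left h1 _
    _ = _ := by ring

/-- powers of a family -/
def Dom.pw (D : Dom R) : ℕ → Dom R
  | 0 => D
  | j + 1 => (D.pw j).mul D

/-- the function `U ⊗ ... ⊗ U` (`j + 1` factors) -/
def Dom.upw (D : Dom R) (U : D.P → ℂ) : ∀ j : ℕ, (D.pw j).P → ℂ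
  | 0 => U
  | j + 1 => fun p => D.upw U j (FP.fst (M := (D.pw j).P) (N := D.P) p) *
      U (FP.snd (M := (D.pw j).P) (N := D.P) p)

/-- apply the functional to all factors but the first one -/
def FF.down (X : FF D) : ∀ j : ℕ, ((D.pw j).P → ℂ) → (D.P → ℂ)
  | 0, F => F
  | j + 1, F => X.down j (X.E (D.pw j) F)

end Crest.Agent.R276.PV_159
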