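import Crest.Agent.R276.OTF_189
import Crest.Agent.R276.PVg_159

-- ▼ part R276/OTG_189
section

/-!
# Row 276, leaf OT (helper189): corollaries of the Ohsawa–Takegoshi theorem

* `ot_slice'` : no finiteness hypothesis, right-hand side = constant * slice integral;
* `ot_disc` : `|h| ≤ R`, no further weights, constant `Cot 1 * π * R²`;
* `ot_line` : `h` unbounded, factor `(1 + |h|²)⁻²`, constant `Cot 1 * π`;
* `ot_dec` : decreasing sequence of smooth psh weights.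
-/

set_option autoImplicit false
set_option linter.unusedSectionVars false
set_option maxHeartbeats 800000

noncomputable section

open Set Filter Topology MeasureTheory Metric
open scoped ENNReal

namespace Crest.Agent.R276.OTF_189

open Crest.Agent.R271 Crest.Agent.R271.Ho51 Crest.Agent.R273.Dir73 Crest.Agent.R273.OTU_34
  Crest.Agent.R273.OTD_34 Crest.Agent.R273.OTE_34 Crest.Agent.R273.OTA_34 Crest.Agent.R273.OTX_34
  Crest.Agent.R276.EngU_29 Crest.Agent.R276.LimW_29 Crest.Agent.R273.Reg_844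
  Crest.Agent.R276.OTS_189 Crest.Agent.R273.OTC_34
open Crest.Agent.R271.W792 (Levi_eq_lev lev_const)

variable {n : ℕ} {M : Type*} [TopologicalSpace M] [RDom (n + 1) M] [T2Space M]
  [SecondCountableTopology M] [MeasurableSpace M] [BorelSpace M] {μ : Measure M}
  {a : Fin (n + 1) → ℂ} [MeasurableSpace (Hs M a)] [BorelSpace (Hs M a)] {μD : Measure (Hs M a)}

lemma Cot_pos {α : ℝ} : 0 < Cot α := by
  unfold Cot
  have := Cst_nonneg
  positivity

theorem ot_slice' (hμ : IsLeb μ) (hμD : IsLeb μD) {ρ : M → ℝ} (hρ : Sm ρ)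
    (hcpt : ∀ t : ℝ, IsCompact {x | ρ x ≤ t}) (hL : ∀ x w, nsq w ≤ Levi ρ x w)
    {Ψ Φ : M → ℝ} (hΨ : Sm Ψ) (hΦ : Sm Φ) (hs : ∀ x, ‖ell a (cp x)‖ ^ 2 ≤ Real.exp (Ψ x))
    {α : ℝ} (hα : 0 < α) (hα1 : α ≤ 1) (hΨ0 : ∀ x w, 0 ≤ Levi Ψ x w)
    (hΦΨ : ∀ x w, α * Levi Ψ x w ≤ Levi Φ x w) {b : M → ℝ} (hb : LPsh b) {f : Hs M a → ℂ}
    (hf : Hol f) :
    ∃ F : M → ℂ, Hol F ∧ (∀ y : Hs M a, F (ι y) = f y) ∧
      ∫⁻ x, ENNReal.ofReal (‖F x‖ ^ 2 * Real.exp (-(Φ x + Ψ x))) / ENNReal.ofReal (b x) ∂μ ≤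
          ENNReal.ofReal (Cot α * Real.pi) *
            ∫⁻ y : Hs M a, ENNReal.ofReal (‖f y‖ ^ 2 * Real.exp (-Φ (ι y))) /
              ENNReal.ofReal (b (ι y)) ∂μD := by
  by_cases hK : ∫⁻ y : Hs M a, ENNReal.ofReal (‖f y‖ ^ 2 * Real.exp (-Φ (ι y))) /
              ENNReal.ofReal (b (ι y)) ∂μD = ⊤
  · obtain ⟨F1, hF1, hF1f⟩ := ext_slice hμ hρ hcpt hL hf
    refine ⟨F1, hF1, hF1f, ?_⟩
    rw [hK, ENNReal.mul_top]
    · exact le_top
    · have := Cot_pos (α := α)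
      have := Real.pi_pos
      simpa using by positivity
  · exact ot_slice hμ hμD hρ hcpt hL hΨ hΦ hs hα hα1 hΨ0 hΦΨ hb hf hK le_rfl

/-- bounded `h`: `∫ |F|²/b ≤ C R² ∫_D |f|²/b` -/
theorem ot_disc (hμ : IsLeb μ) (hμD : IsLeb μD) {ρ : M → ℝ} (hρ : Sm ρ)
    (hcpt : ∀ t : ℝ, IsCompact {x | ρ x ≤ t}) (hL : ∀ x w, nsq w ≤ Levi ρ x w)
    {R : ℝ} (hR : 0 < R) (hs : ∀ x : M, ‖ell a (cp x)‖ ≤ R)
    {b : M → ℝ} (hb : LPsh b) {f : Hs M a → ℂ} (hf : Hol f) :
    ∃ F : M → ℂ, Hol F ∧ (∀ y : Hs M a, F (ι y) = f y) ∧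
      ∫⁻ x, ENNReal.ofReal (‖F x‖ ^ 2) / ENNReal.ofReal (b x) ∂μ ≤
          ENNReal.ofReal (Cot 1 * Real.pi * R ^ 2) *
            ∫⁻ y : Hs M a, ENNReal.ofReal (‖f y‖ ^ 2) / ENNReal.ofReal (b (ι y)) ∂μD := by
  have hL0 : ∀ (c : ℝ) (x : M) w, Levi (fun _ : M => c) x w = 0 := by
    intro c x w
    rw [Levi_eq_lev (Sm.const c), lev_const]
  obtain ⟨F, hF, hFf, hFb⟩ := ot_slice' hμ hμD hρ hcpt hL (Ψ := fun _ => Real.log (R ^ 2))
    (Φ := fun _ => 0) (Sm.const _) (Sm.const _) (fun x => by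
      rw [Real.exp_log (by positivity)]
      have := hs x
      gcongr) (α := 1) one_pos le_rfl (fun x w => by rw [hL0]) (fun x w => by rw [hL0, hL0]; simp)
      hb hf
  refine ⟨F, hF, hFf, ?_⟩
  have h1 : ∀ x, ENNReal.ofReal (‖F x‖ ^ 2) / ENNReal.ofReal (b x) =
      ENNReal.ofReal (R ^ 2) * (ENNReal.ofReal (‖F x‖ ^ 2 * Real.exp (-(0 + Real.log (R ^ 2)))) /
        ENNReal.ofReal (b x)) := by
    intro x
    rw [zero_add, Real.exp_neg, Real.exp_log (by positivity), ← mul_div_assoc,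
      ← ENNReal.ofReal_mul (by positivity)]
    congr 2
    field_simp
  simp only [h1]
  rw [lintegral_const_mul' _ _ ENNReal.ofReal_ne_top, mul_comm (Cot 1 * Real.pi),
    ENNReal.ofReal_mul (by positivity), mul_assoc]
  refine mul_le_mul_right (hFb.trans (mul_le_mul_right (le_of_eq ?_) _)) _
  refine lintegral_congr fun y => ?_
  simp


/-- decreasing smooth weights, exhaustion limit: `e^{-φ} = sup_k e^{-φ_k}` -/
theorem ot_dec (hμ : IsLeb μ) (hμD : IsLeb μD) {ρ : M → ℝ} (hρ : Sm ρ)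
    (hcpt : ∀ t : ℝ, IsCompact {x | ρ x ≤ t}) (hL : ∀ x w, nsq w ≤ Levi ρ x w)
    {Ψ : M → ℝ} {φ : ℕ → M → ℝ} (hΨ : Sm Ψ) (hφ : ∀ k, Sm (φ k)) (hφm : ∀ x, Antitone fun k => φ k x)
    (hs : ∀ x, ‖ell a (cp x)‖ ^ 2 ≤ Real.exp (Ψ x))
    {α : ℝ} (hα : 0 < α) (hα1 : α ≤ 1) (hΨ0 : ∀ x w, 0 ≤ Levi Ψ x w)
    (hφΨ : ∀ k x w, α * Levi Ψ x w ≤ Levi (φ k) x w) {f : Hs M a → ℂ} (hf : Hol f) :
    ∃ F : M → ℂ, Hol F ∧ (∀ y : Hs M a, F (ι y) = f y) ∧
      ∫⁻ x, ENNReal.ofReal (‖F x‖ ^ 2) * ENNReal.ofReal (Real.exp (-Ψ x)) *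
        (⨆ k, ENNReal.ofReal (Real.exp (-φ k x))) ∂μ ≤
          ENNReal.ofReal (Cot α * Real.pi) *
            ∫⁻ y : Hs M a, ENNReal.ofReal (‖f y‖ ^ 2) *
              (⨆ k, ENNReal.ofReal (Real.exp (-φ k (ι y)))) ∂μD := by
  set K := ∫⁻ y : Hs M a, ENNReal.ofReal (‖f y‖ ^ 2) *
              (⨆ k, ENNReal.ofReal (Real.exp (-φ k (ι y)))) ∂μD with hKdef
  by_cases hK : K = ⊤
  · obtain ⟨F1, hF1, hF1f⟩ := ext_slice hμ hρ hcpt hL hf
    refine ⟨F1, hF1, hF1f, ?_⟩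
    rw [hK, ENNReal.mul_top]
    · exact le_top
    · have := Cot_pos (α := α)
      have := Real.pi_pos
      simpa using by positivity
  have h0 : PSH (fun _ : M => (0 : ℝ)) :=
    PSH.of_smooth (Sm.const 0) fun x w => by rw [lev_const]
  have hstep : ∀ k, ∃ F : M → ℂ, Hol F ∧ (∀ y : Hs M a, F (ι y) = f y) ∧
      ∫⁻ x, ENNReal.ofReal (‖F x‖ ^ 2) *
        ENNReal.ofReal (Real.exp (-(φ k x + Ψ x)) * Real.exp (-0)) ∂μ ≤
          ENNReal.ofReal (Cot α * Real.pi) * K := by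
    intro k
    refine ot_slice_psh hμ hμD hρ hcpt hL hΨ (hφ k) hs hα hα1 hΨ0 (hφΨ k) h0 hf hK ?_
    refine lintegral_mono fun y => ?_
    rw [ENNReal.ofReal_mul (by positivity), mul_assoc]
    refine mul_le_mul_right ?_ _
    simp only [neg_zero, Real.exp_zero, ENNReal.ofReal_one, mul_one]
    exact le_iSup (fun k => ENNReal.ofReal (Real.exp (-φ k (ι y)))) k
  choose F hF hFf hFb using hstep
  have hWc : ∀ k, Continuous (fun x => Real.exp (-(φ k x + Ψ x)) * Real.exp (-0)) := fun k =>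
    (Real.continuous_exp.comp ((hφ k).continuous.add hΨ.continuous).neg).mul continuous_const
  obtain ⟨F0, hF0h, hlim, hbd⟩ := limW (Ω := fun _ : ℕ => (univ : Set M)) (G := fun _ => (0 : ℂ)) hμ
    (fun _ => isOpen_univ) (fun _ _ _ => le_rfl) (fun C _ => ⟨0, subset_univ C⟩) continuous_const
    (fun k => HolOn.of_hol (hF k) univ)
    (W := fun k x => ENNReal.ofReal (Real.exp (-(φ k x + Ψ x)) * Real.exp (-0)))
    (fun x k k' hkk' => by
      apply ENNReal.ofReal_le_ofReal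
      have h1 : φ k' x ≤ φ k x := hφm x hkk'
      gcongr)
    (fun k => (hWc k).measurable.ennreal_ofReal)
    (fun x => by
      have hp : 0 < Real.exp (-(φ 0 x + Ψ x)) * Real.exp (-0) := by positivity
      refine ⟨0, ENNReal.ofReal ((Real.exp (-(φ 0 x + Ψ x)) * Real.exp (-0)) / 2),
        ENNReal.ofReal_pos.2 (by positivity), ?_⟩
      filter_upwards [(hWc 0).continuousAt.eventually (lt_mem_nhds (half_lt_self hp))] with y hy
      exact ENNReal.ofReal_le_ofReal hy.le)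
    (K := ENNReal.ofReal (Cot α * Real.pi) * K)
    (ENNReal.mul_ne_top ENNReal.ofReal_ne_top hK)
    (fun k => by
      rw [Measure.restrict_univ]
      refine le_trans (le_of_eq ?_) (hFb k)
      refine lintegral_congr fun x => ?_
      rw [sub_zero])
  refine ⟨F0, hF0h, fun y => ?_, le_trans (le_of_eq ?_) hbd⟩
  · refine tendsto_nhds_unique (hlim (ι y)) ?_
    simp only [hFf]
    exact tendsto_const_nhds
  · refine lintegral_congr fun x => ?_
    rw [sub_zero, mul_assoc, ENNReal.mul_iSup]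
    congr 1
    refine iSup_congr fun k => ?_
    rw [← ENNReal.ofReal_mul (Real.exp_pos _).le, neg_zero, Real.exp_zero, mul_one, ← Real.exp_add]
    congr 2
    ring

end Crest.Agent.R276.OTF_189
end
end

-- ▼ part R276/OTB_189

/-!
# Row 276, leaf OT (helper189): Ohsawa–Takegoshi with the fibre integrals `fi` of helper159
-/

set_option autoImplicit false
set_option linter.unusedSectionVars false
set_option maxHeartbeats 800000

noncomputable section

open Set Filter Topology MeasureTheory Metric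
open scoped ENNReal

namespace Crest.Agent.R276.OTB_189

open Crest.Agent.R271 Crest.Agent.R271.Ho51 Crest.Agent.R273.Dir73
  Crest.Agent.R276.EngU_29 Crest.Agent.R276.OTF_189 Crest.Agent.R276.PV_159
  Crest.Agent.R273.OTD_34 Crest.Agent.R273.Reg_844
open Crest.Agent.R271.W792 (Levi_eq_lev lev)

variable {n : ℕ} {M : Type} [TopologicalSpace M] [RDom (n + 1) M]

/-- the hyperplane `z 0 = t` -/
def hyp (t : ℂ) : Fin (n + 1) → ℂ := Fin.cons (-t) 0

lemma ell_hyp (t : ℂ) (z : Fin (n + 1) → ℂ) : ell (hyp t) z = z 0 - t := by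
  unfold ell hyp
  simp only [Fin.cons_zero, Fin.cons_succ, Pi.zero_apply, zero_mul, Finset.sum_const_zero]
  ring

lemma gam_hyp (t : ℂ) (u : Fin n → ℂ) : gam (hyp t) u = Fin.cons t u := by
  funext i
  refine Fin.cases ?_ (fun j => ?_) i
  · rw [gam_zero, Fin.cons_zero]
    unfold hyp
    simp only [Fin.cons_zero, Fin.cons_succ, Pi.zero_apply, zero_mul, Finset.sum_const_zero]
    ring
  · rw [gam_succ, Fin.cons_succ]


/-- functions holomorphic on the fibre are holomorphic functions on the slice -/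
lemma hol_of_FHol {t : ℂ} {f : M → ℂ} (hf : FHol t f) : Hol (fun y : Hs M (hyp t) => f (ι y)) := by
  refine hol_of_local fun y => ⟨chD (isCh_ch (ι y)) y, isCh_chD _ _, mem_ch (ι y), ?_⟩
  have he := isCh_ch (ι y)
  refine DifferentiableAt.congr_of_eventuallyEq ?_ (comp_symm_germ f he y (mem_ch (ι y)))
  have h1 : ((f ∘ (ch (ι y)).symm) ∘ gam (hyp t)) =
      fun u : Fin n → ℂ => f ((ch (ι y)).symm (Fin.cons t u)) := by
    funext u
    simp only [Function.comp_apply]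
    rw [gam_hyp]
  rw [h1]
  have hopen : IsOpen {u : Fin n → ℂ | (Fin.cons t u : Fin (n + 1) → ℂ) ∈ (ch (ι y)).target} := by
    have h2 : {u : Fin n → ℂ | (Fin.cons t u : Fin (n + 1) → ℂ) ∈ (ch (ι y)).target} =
        gam (hyp t) ⁻¹' (ch (ι y)).target := by
      ext u
      rw [mem_preimage, gam_hyp]
      rfl
    rw [h2]
    exact (ch (ι y)).open_target.preimage (continuous_gam _)
  refine (hf _ he).differentiableAt (hopen.mem_nhds ?_)
  show (Fin.cons t (cp y) : Fin (n + 1) → ℂ) ∈ (ch (ι y)).target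
  rw [← gam_hyp, gam_cp]
  exact he.cp_mem (mem_ch (ι y))

variable [T2Space M] [SecondCountableTopology M]

/-- the integral over the slice is the fibre integral -/
lemma lintegral_Hs_eq_fi {t : ℂ} [MeasurableSpace (Hs M (hyp (n := n) t))]
    [BorelSpace (Hs M (hyp (n := n) t))]
    {μD : Measure (Hs M (hyp (n := n) t))} (hμD : IsLeb μD) {g : M → ℝ≥0∞}
    (hg : Measurable fun y : Hs M (hyp t) => g (ι y)) :
    ∫⁻ y : Hs M (hyp t), g (ι y) ∂μD = fi g t := by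
  rw [Rd692.lintegral_eq_fibre hμD hg]
  unfold fi fsum
  refine lintegral_congr fun u => ?_
  let E : {y : Hs M (hyp t) // cp y = u} ≃ {m : M // cp m = (Fin.cons t u : Fin (n + 1) → ℂ)} :=
    { toFun := fun y => ⟨ι y.1, by rw [← gam_cp y.1, y.2, gam_hyp]⟩
      invFun := fun m => ⟨mkHs m.1 (by rw [m.2, ← gam_hyp, ell_gam]), by
        rw [cp_Hs, ι_mkHs, m.2]; rfl⟩
      left_inv := fun y => rfl
      right_inv := fun m => rfl }
  exact E.tsum_eq (fun m : {m : M // cp m = (Fin.cons t u : Fin (n + 1) → ℂ)} => g m.1)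

/-- **Ohsawa–Takegoshi for the fibre over `t0`**, bounded `tc - t0` -/
theorem ot_fi {ρ : M → ℝ} (hρ : Sm ρ) (hcpt : ∀ t : ℝ, IsCompact {x | ρ x ≤ t})
    (hL : ∀ x w, nsq w ≤ Levi ρ x w) {t0 : ℂ} {R : ℝ} (hR : 0 < R)
    (hs : ∀ x : M, ‖tc x - t0‖ ≤ R) {b : M → ℝ} (hb : LPsh b) {f : M → ℂ} (hf : FHol t0 f) :
    ∃ F : M → ℂ, Hol F ∧ (∀ x, tc x = t0 → F x = f x) ∧
      ∫⁻ t, fi (fun x => ENNReal.ofReal (‖F x‖ ^ 2) / ENNReal.ofReal (b x)) t ≤
        ENNReal.ofReal (Cot 1 * Real.pi * R ^ 2) *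
          fi (fun x => ENNReal.ofReal (‖f x‖ ^ 2) / ENNReal.ofReal (b x)) t0 := by
  letI : MeasurableSpace M := borel M
  haveI : BorelSpace M := ⟨rfl⟩
  letI : MeasurableSpace (Hs M (hyp (n := n) t0)) := borel _
  haveI : BorelSpace (Hs M (hyp (n := n) t0)) := ⟨rfl⟩
  obtain ⟨μ, hμ⟩ := exists_leb (M := M)
  obtain ⟨μD, hμD⟩ := exists_leb (M := Hs M (hyp (n := n) t0))
  have hfD := hol_of_FHol hf
  have hbm : Measurable b := by
    have h1 : Measurable (fun x => Real.exp (Real.log (b x + 1)) - 1) :=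
      (Real.measurable_exp.comp (hb.psh 1 one_pos).usc.measurable).sub_const 1
    have h2 : (fun x => Real.exp (Real.log (b x + 1)) - 1) = b := by
      funext x
      have := hb.nonneg x
      rw [Real.exp_log (by positivity)]
      ring
    rwa [h2] at h1
  obtain ⟨F, hF, hFf, hFb⟩ := ot_disc hμ hμD hρ hcpt hL hR (a := hyp t0)
    (fun x => by rw [ell_hyp]; exact hs x) hb hfD
  refine ⟨F, hF, fun x hx => ?_, ?_⟩
  · have h1 : ell (hyp t0) (cp x) = 0 := by rw [ell_hyp]; exact sub_eq_zero.2 hx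
    exact hFf (mkHs x h1)
  · have hFc : Continuous F := T7a297.Hol.continuous hF
    have hfc : Continuous (fun y : Hs M (hyp t0) => f (ι y)) := T7a297.Hol.continuous hfD
    have h1 : Measurable (fun x => ENNReal.ofReal (‖F x‖ ^ 2) / ENNReal.ofReal (b x)) :=
      (hFc.norm.pow 2).measurable.ennreal_ofReal.div hbm.ennreal_ofReal
    have h2 : Measurable (fun y : Hs M (hyp t0) =>
        ENNReal.ofReal (‖f (ι y)‖ ^ 2) / ENNReal.ofReal (b (ι y))) :=
      (hfc.norm.pow 2).measurable.ennreal_ofReal.div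
        (hbm.comp continuous_ι.measurable).ennreal_ofReal
    rw [← lintegral_eq_fi hμ h1,
      ← lintegral_Hs_eq_fi hμD (g := fun x => ENNReal.ofReal (‖f x‖ ^ 2) / ENNReal.ofReal (b x)) h2]
    exact hFb


/-- helper185's black box -/
def OTB (R : ℝ) : Prop := ∃ C : ℝ≥0∞, C ≠ ⊤ ∧ ∀ (D : Dom R) (b : D.P → ℝ), LPsh b →
  ∀ f : D.P → ℂ, FHol 0 f → ∃ F : D.P → ℂ, Hol F ∧ (∀ x, tc x = 0 → F x = f x) ∧
    ∫⁻ t, fi (fun x => ENNReal.ofReal (‖F x‖ ^ 2) / ENNReal.ofReal (b x)) t ≤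
      C * fi (fun x => ENNReal.ofReal (‖f x‖ ^ 2) / ENNReal.ofReal (b x)) 0

theorem otb_dom {R : ℝ} (hR : 0 < R) : OTB R := by
  refine ⟨ENNReal.ofReal (Cot 1 * Real.pi * R ^ 2), ENNReal.ofReal_ne_top, fun D b hb f hf => ?_⟩
  refine ot_fi D.ρ_sm D.ρ_cpt (fun x w => ?_) hR (fun x => ?_) hb hf
  · rw [Levi_eq_lev D.ρ_sm]
    exact D.ρ_lev x w
  · rw [sub_zero]
    exact (D.tR x).le

end Crest.Agent.R276.OTB_189
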