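import Crest.Agent.R276.PVk_159

/-!
# Row 276, part D1 (helper159): evaluation functionals along sections
-/

set_option autoImplicit false
set_option linter.unusedSectionVars false

noncomputable section

open Set Filter Topology Complex MeasureTheory Metric
open scoped ENNReal ComplexConjugate

namespace Crest.Agent.R276.PV_159

open Crest.Agent.R271 Crest.Agent.R271.Ho51 Crest.Agent.R271.W792

/-! ### composition of holomorphic functions with maps into a Riemann domain -/

section comp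

variable {n : ℕ} {M : Type*} [TopologicalSpace M] [RDom n M]
  {E : Type*} [NormedAddCommGroup E] [NormedSpace ℂ E]

lemma comp_hol_at {f : E → M} {s : Set E} (hs : IsOpen s) (hf : ContinuousOn f s)
    (hd : DifferentiableOn ℂ (fun z => cp (f z)) s) {G : M → ℂ} (hG : Ho51.Hol G) :
    DifferentiableOn ℂ (fun z => G (f z)) s := by
  intro z0 hz0
  set e := ch (f z0) with he
  have hech : IsCh e := isCh_ch _
  have hnb : s ∈ 𝓝 z0 := hs.mem_nhds hz0
  have h1 : ContinuousAt f z0 := hf.continuousAt hnb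
  have h2 : ∀ᶠ z in 𝓝 z0, f z ∈ e.source := h1.eventually_mem (e.open_source.mem_nhds (mem_ch _))
  have h3 : DifferentiableAt ℂ (fun z => (G ∘ e.symm) (cp (f z))) z0 := by
    have h4 : DifferentiableAt ℂ (G ∘ e.symm) (cp (f z0)) :=
      (hG e hech).differentiableAt (e.open_target.mem_nhds (hech.cp_mem (mem_ch _)))
    exact DifferentiableAt.comp (g := G ∘ e.symm) z0 h4 (hd.differentiableAt hnb)
  refine (h3.congr_of_eventuallyEq ?_).differentiableWithinAt
  filter_upwards [h2] with z hz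
  show G (f z) = G (e.symm (cp (f z)))
  rw [hech.symm_cp hz]

end comp

/-! ### maps into fibre products -/

section mk

variable {a b : ℕ} {M N : Type} [TopologicalSpace M] [TopologicalSpace N]
  [RDom (a + 1) M] [RDom (b + 1) N] {E : Type*} [NormedAddCommGroup E] [NormedSpace ℂ E]

lemma differentiableOn_glue {f : E → Fin (a + 1) → ℂ} {g : E → Fin (b + 1) → ℂ} {s : Set E}
    (hf : DifferentiableOn ℂ f s) (hg : DifferentiableOn ℂ g s) :
    DifferentiableOn ℂ (fun z => glue (f z) (g z)) s := by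
  rw [differentiableOn_pi] at hf hg ⊢
  intro i
  refine Fin.cases ?_ (fun j => ?_) i
  · exact hf 0
  · refine Fin.addCases (fun j => ?_) (fun j => ?_) j
    · simp only [glue, Fin.cons_succ, Fin.append_left]
      exact hf j.succ
    · simp only [glue, Fin.cons_succ, Fin.append_right]
      exact hg j.succ

/-- a holomorphic function on the fibre product along a pair of maps -/
lemma ext2_hol {F : FP M N → ℂ} (hF : Ho51.Hol F) {f : E → M} {g : E → N} {s : Set E}
    (hs : IsOpen s) (hf : ContinuousOn f s) (hg : ContinuousOn g s)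
    (hfd : DifferentiableOn ℂ (fun z => cp (f z)) s) (hgd : DifferentiableOn ℂ (fun z => cp (g z)) s)
    (hc : ∀ z ∈ s, (cp (f z) : Fin (a + 1) → ℂ) 0 = (cp (g z) : Fin (b + 1) → ℂ) 0) :
    DifferentiableOn ℂ (fun z => ext2 F (f z) (g z)) s := by
  classical
  rcases s.eq_empty_or_nonempty with hs0 | ⟨z1, hz1⟩
  · rw [hs0]; exact differentiableOn_empty
  set P : E → FP M N := fun z => if h : (cp (f z) : Fin (a + 1) → ℂ) 0 =
    (cp (g z) : Fin (b + 1) → ℂ) 0 then FP.mk' (f z) (g z) h else FP.mk' (f z1) (g z1) (hc z1 hz1)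
    with hP
  have hPe : ∀ z (h : z ∈ s), P z = FP.mk' (f z) (g z) (hc z h) := fun z h => dif_pos (hc z h)
  have hPc : ContinuousOn P s := by
    rw [continuousOn_iff_continuous_domRestrict]
    have h1 : s.domRestrict P = fun z : s => FP.mk' (f z.1) (g z.1) (hc z.1 z.2) := by
      funext z
      exact hPe z.1 z.2
    rw [h1]
    rw [continuousOn_iff_continuous_domRestrict] at hf hg
    exact Continuous.subtype_mk (hf.prodMk hg) _
  have hPd : DifferentiableOn ℂ (fun z => (cp (P z) : Fin (a + b + 1) → ℂ)) s := by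
    refine (differentiableOn_glue hfd hgd).congr fun z hz => ?_
    rw [hPe z hz]
    rfl
  refine (comp_hol_at hs hPc hPd hF).congr fun z hz => ?_
  rw [hPe z hz]
  exact ext2_of F (hc z hz)

end mk

variable {R : ℝ}

/-- holomorphic sections over the disc -/
structure Sec (D : Dom R) where
  /-- the section -/
  x : ℂ → D.P
  cont : ContinuousOn x (ball 0 R)
  hol : DifferentiableOn ℂ (fun t => (cp (x t) : Fin (D.a + 1) → ℂ)) (ball 0 R)
  sec : ∀ t ∈ ball (0 : ℂ) R, tc (x t) = t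

lemma Sec.hol0 {D : Dom R} (s : Sec D) {G : D.P → ℂ} (hG : Ho51.Hol G) :
    DifferentiableOn ℂ (fun t => G (s.x t)) (ball 0 R) :=
  comp_hol_at isOpen_ball s.cont s.hol hG

lemma Sec.hol1 {D : Dom R} (s : Sec D) (Q : Dom R) {F : (Q.mul D).P → ℂ} (hF : Ho51.Hol F) :
    Ho51.Hol (fun q : Q.P => ext2 (M := Q.P) (N := D.P) F q (s.x (tc q))) := by
  intro e he
  have htc : ∀ z ∈ e.target, tc (e.symm z) = z 0 := by
    intro z hz
    unfold tc
    rw [he.cp_symm hz]
  have hball : ∀ z ∈ e.target, z 0 ∈ ball (0 : ℂ) R := by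
    intro z hz
    rw [mem_ball_zero_iff, ← htc z hz]
    exact Q.tR _
  have h0 : DifferentiableOn ℂ (fun z : Fin (Q.a + 1) → ℂ => z 0) e.target :=
    (differentiable_apply (𝕜 := ℂ) (0 : Fin (Q.a + 1))).differentiableOn
  have h1 : ContinuousOn (fun z : Fin (Q.a + 1) → ℂ => s.x (z 0)) e.target :=
    s.cont.comp h0.continuousOn hball
  have h2 : DifferentiableOn ℂ (fun z : Fin (Q.a + 1) → ℂ => (cp (s.x (z 0)) : Fin (D.a + 1) → ℂ))
      e.target := s.hol.comp h0 hball
  have h3 : DifferentiableOn ℂ (fun z => (cp (e.symm z) : Fin (Q.a + 1) → ℂ)) e.target :=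
    differentiableOn_id.congr fun z hz => he.cp_symm hz
  have h4 := ext2_hol (M := Q.P) (N := D.P) hF e.open_target e.continuousOn_symm h1 h3 h2
    (fun z hz => by
      have h5 := s.sec (z 0) (hball z hz)
      have h6 := htc z hz
      unfold tc at h5 h6
      rw [h5, h6])
  refine h4.congr fun z hz => ?_
  show ext2 (M := Q.P) (N := D.P) F (e.symm z) (s.x (tc (e.symm z))) = _
  rw [htc z hz]

/-- point evaluations are bounded -/
lemma Dom.ev_bd (D : Dom R) (q : D.P) : ∃ C : ℝ≥0∞, C ≠ ∞ ∧ ∀ g, FHol (tc q) g →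
    ENNReal.ofReal (‖g q‖ ^ 2) ≤ C * D.nrm g (tc q) := by
  set e := ch q with he
  have hech : IsCh e := isCh_ch q
  set t := tc q with ht
  set y0 : Fin D.a → ℂ := fun i => cp q i.succ with hy0
  have hcons : (Fin.cons t y0 : Fin (D.a + 1) → ℂ) = cp q := by
    funext i
    refine Fin.cases rfl (fun j => rfl) i
  have hcc : Continuous fun y : Fin D.a → ℂ => (Fin.cons t y : Fin (D.a + 1) → ℂ) :=
    (differentiable_cons t).continuous
  set V : Set (Fin D.a → ℂ) := {u | (Fin.cons t u : Fin (D.a + 1) → ℂ) ∈ e.target} with hV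
  have hVo : IsOpen V := e.open_target.preimage hcc
  have hy0V : y0 ∈ V := by
    show (Fin.cons t y0 : Fin (D.a + 1) → ℂ) ∈ e.target
    rw [hcons]
    exact hech.cp_mem (mem_ch q)
  obtain ⟨r, hr, hrV⟩ := Metric.nhds_basis_closedBall.mem_iff.1 (hVo.mem_nhds hy0V)
  -- lower bound for the weight
  have hφc : ContinuousOn (fun y : Fin D.a → ℂ => D.φ 0 (e.symm (Fin.cons t y))) (closedBall y0 r) :=
    (D.φ_sm 0).continuous.comp_continuousOn
      (e.continuousOn_symm.comp hcc.continuousOn (fun y hy => hrV hy))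
  obtain ⟨B, hB⟩ := (isCompact_closedBall y0 r).bddAbove_image hφc
  set c : ℝ≥0∞ := ENNReal.ofReal (Real.exp (-B)) with hc
  have hc0 : c ≠ 0 := (ENNReal.ofReal_pos.2 (Real.exp_pos _)).ne'
  have hcT : c ≠ ∞ := ENNReal.ofReal_ne_top
  have hv0 : volume (ball y0 r) ≠ 0 := (isOpen_ball.measure_pos volume ⟨y0, mem_ball_self hr⟩).ne'
  have hvT : volume (ball y0 r) ≠ ∞ := measure_ball_lt_top.ne
  refine ⟨(volume (ball y0 r))⁻¹ * c⁻¹, ENNReal.mul_ne_top (ENNReal.inv_ne_top.2 hv0)
    (ENNReal.inv_ne_top.2 hc0), fun g hg => ?_⟩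
  have hq : e.symm (Fin.cons t y0) = q := by
    rw [hcons]; exact hech.symm_cp (mem_ch q)
  have h1 := Lq_464.submean (f := fun u => g (e.symm (Fin.cons t u))) (x := y0) (r := r) (q := 2)
    (D := V) hVo (hg e hech) hrV (by norm_num)
  rw [hq] at h1
  have h2 : c * ∫⁻ y in ball y0 r, ‖g (e.symm (Fin.cons t y))‖ₑ ^ (2 : ℝ) ≤ D.nrm g t := by
    unfold Dom.nrm
    refine le_trans ?_ (fi_ge hech (D.dens g) (t := t) (S := ball y0 r) measurableSet_ball
      (fun y hy => hrV (ball_subset_closedBall hy)))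
    rw [← lintegral_const_mul' _ _ hcT]
    refine setLIntegral_mono' measurableSet_ball fun y hy => ?_
    unfold Dom.dens
    have h3 : c ≤ D.wt (e.symm (Fin.cons t y)) := by
      refine le_trans ?_ (le_iSup (fun k => ENNReal.ofReal
        (Real.exp (-D.φ k (e.symm (Fin.cons t y))))) 0)
      apply ENNReal.ofReal_le_ofReal
      apply Real.exp_le_exp.2
      exact neg_le_neg (hB ⟨y, ball_subset_closedBall hy, rfl⟩)
    have h4 : ‖g (e.symm (Fin.cons t y))‖ₑ ^ (2 : ℝ) =
        ENNReal.ofReal (‖g (e.symm (Fin.cons t y))‖ ^ 2) := by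
      rw [ENNReal.rpow_ofNat, ENNReal.ofReal_pow (norm_nonneg _), ofReal_norm]
    rw [h4, mul_comm]
    exact mul_le_mul_right h3 _
  have h5 : ENNReal.ofReal (‖g q‖ ^ 2) = ‖g q‖ₑ ^ (2 : ℝ) := by
    rw [ENNReal.rpow_ofNat, ENNReal.ofReal_pow (norm_nonneg _), ofReal_norm]
  rw [h5]
  calc ‖g q‖ₑ ^ (2 : ℝ) = ((volume (ball y0 r))⁻¹ * c⁻¹) *
        (c * (volume (ball y0 r) * ‖g q‖ₑ ^ (2 : ℝ))) := by
        have h6 : ((volume (ball y0 r))⁻¹ * c⁻¹) * (c * (volume (ball y0 r) * ‖g q‖ₑ ^ (2 : ℝ))) =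
          ((volume (ball y0 r))⁻¹ * volume (ball y0 r)) * (c⁻¹ * c) * ‖g q‖ₑ ^ (2 : ℝ) := by ring
        rw [h6, ENNReal.inv_mul_cancel hv0 hvT, ENNReal.inv_mul_cancel hc0 hcT, one_mul, one_mul]
    _ ≤ ((volume (ball y0 r))⁻¹ * c⁻¹) * (c * ∫⁻ y in ball y0 r,
        ‖g (e.symm (Fin.cons t y))‖ₑ ^ (2 : ℝ)) := by gcongr
    _ ≤ _ := by gcongr

/-- evaluation along a section, as a family of functionals (two-norm version) -/
def Sec.ff2 {D : Dom R} (s : Sec D) (w : D.P → ℝ≥0∞) (p : ℝ) (κ : ℂ → ℝ)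
    (hκ : ∀ t, 0 < κ t)
    (hbd : ∀ᵐ t, ‖t‖ < R → ∀ g, FHol t g → D.nrm g t < ∞ →
      ENNReal.ofReal (‖g (s.x t)‖ ^ p) ≤ ENNReal.ofReal (κ t) * pn p w g t) : FF2 D w p where
  ξ t g := if ‖t‖ < R then g (s.x t) else 0
  κ := κ
  κ2 t := (D.ev_bd (s.x t)).choose
  κ_pos := hκ
  κ2_fin t := (D.ev_bd (s.x t)).choose_spec.1
  loc t g g' h := by
    by_cases ht : ‖t‖ < R
    · simp only [if_pos ht]
      exact h _ (s.sec t (by rwa [mem_ball_zero_iff]))
    · simp only [if_neg ht]
  hom t c g := by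
    by_cases ht : ‖t‖ < R
    · simp only [if_pos ht]
    · simp only [if_neg ht, mul_zero]
  bd2 t ht g hg := by
    simp only [if_pos ht]
    have h1 := s.sec t (by rwa [mem_ball_zero_iff])
    have h2 := (D.ev_bd (s.x t)).choose_spec.2 g (by rw [h1]; exact hg)
    have h3 : D.nrm g (tc (s.x t)) = D.nrm g t := by rw [h1]
    exact h2.trans_eq (congrArg _ h3)
  bdp := by
    filter_upwards [hbd] with t h ht g hg hfin
    simp only [if_pos ht]
    exact h ht g hg hfin
  hol0 G hG _ := (s.hol0 hG).congr fun t ht => by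
    rw [mem_ball_zero_iff] at ht
    simp only [if_pos ht]
  hol1 Q F hF _ := by
    have h := s.hol1 Q hF
    have h2 : (fun q : Q.P => if ‖tc q‖ < R then ext2 (M := Q.P) (N := D.P) F q (s.x (tc q)) else 0) =
        fun q : Q.P => ext2 (M := Q.P) (N := D.P) F q (s.x (tc q)) := by
      funext q
      rw [if_pos (Q.tR q)]
    rw [h2]
    exact h



end Crest.Agent.R276.PV_159
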