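import Crest.Agent.R276.NbB_185
import Crest.Agent.R276.PVl_159
import Crest.Agent.R276.OTB_189
import Crest.Agent.R276.Restr_29
import Crest.Agent.R276.PVk_159

-- ▼ part R276/NbC_185
section

/-!
# Row 276, task W1 (helper185): products of functions over the factors of `D.pw j`
-/

set_option autoImplicit false
set_option linter.unusedSectionVars false
set_option linter.unusedVariables false

noncomputable section

open Set Filter Topology Complex MeasureTheory Metric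
open scoped ENNReal ComplexConjugate

namespace Crest.Agent.R276.NbC_185

open Crest.Agent.R271 Crest.Agent.R271.Ho51 Crest.Agent.R276.PV_159 Crest.Agent.R276.NbB_185
  Crest.Agent.R276.NbA_185 Crest.Agent.R276.EngU_29 Crest.Agent.R276.OTB_189

variable {R : ℝ}

/-- the Borel structure on fibre products -/
local instance instMFP {a b : ℕ} {M N : Type} [TopologicalSpace M] [TopologicalSpace N]
    [RDom (a + 1) M] [RDom (b + 1) N] : MeasurableSpace (FP M N) := borel _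
local instance instBFP {a b : ℕ} {M N : Type} [TopologicalSpace M] [TopologicalSpace N]
    [RDom (a + 1) M] [RDom (b + 1) N] : BorelSpace (FP M N) := ⟨rfl⟩

/-! ### Fubini for products -/

/-- fibre integral of a product -/
lemma fi_prod (Q E : Dom R) {g : Q.P → ℝ≥0∞} {h : E.P → ℝ≥0∞} {t : ℂ}
    (hg : Measurable ({x : Q.P | tc x = t}.indicator g))
    (hh : Measurable ({x : E.P | tc x = t}.indicator h)) :
    fi (fun p : (Q.mul E).P => g (FP.fst (M := Q.P) (N := E.P) p) *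
      h (FP.snd (M := Q.P) (N := E.P) p)) t = fi g t * fi h t := by
  set g' : Q.P → ℝ≥0∞ := {x : Q.P | tc x = t}.indicator g with hg'
  set h' : E.P → ℝ≥0∞ := {x : E.P | tc x = t}.indicator h with hh'
  have eg : ∀ x : Q.P, tc x = t → g x = g' x := fun x hx =>
    (indicator_of_mem (s := {x : Q.P | tc x = t}) hx g).symm
  have eh : ∀ x : E.P, tc x = t → h x = h' x := fun x hx =>
    (indicator_of_mem (s := {x : E.P | tc x = t}) hx h).symm
  have h1 : fi (fun p : (Q.mul E).P => g (FP.fst (M := Q.P) (N := E.P) p) *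
      h (FP.snd (M := Q.P) (N := E.P) p)) t =
      fi (fun p : (Q.mul E).P => g' (FP.fst (M := Q.P) (N := E.P) p) *
      h' (FP.snd (M := Q.P) (N := E.P) p)) t := by
    refine fi_congr fun p hp => ?_
    have h2 : tc (FP.snd (M := Q.P) (N := E.P) p) = t := by
      have := FP.cond (M := Q.P) (N := E.P) p
      show (cp (FP.snd (M := Q.P) (N := E.P) p) : Fin (E.a + 1) → ℂ) 0 = t
      rw [← this]
      exact hp
    rw [eg _ hp, eh _ h2]
  have h3 : fi g t = fi g' t := fi_congr fun x hx => eg x hx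
  have h4 : fi h t = fi h' t := fi_congr fun x hx => eh x hx
  rw [h1, h3, h4]
  have hm : Measurable (fun p : (Q.mul E).P => g' (FP.fst (M := Q.P) (N := E.P) p) *
      h' (FP.snd (M := Q.P) (N := E.P) p)) :=
    (hg.comp (FP.cont_fst (M := Q.P) (N := E.P)).measurable).mul
      (hh.comp (FP.cont_snd (M := Q.P) (N := E.P)).measurable)
  have hfub := fi_FP (M := Q.P) (N := E.P) hm t
  refine hfub.trans ?_
  have h5 : ∀ m : Q.P, tc m = t → fi (fun n : E.P =>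
      ext2 (M := Q.P) (N := E.P) (fun p : (Q.mul E).P => g' (FP.fst (M := Q.P) (N := E.P) p) *
      h' (FP.snd (M := Q.P) (N := E.P) p)) m n) t = g' m * fi h' t := by
    intro m hm'
    rw [← fi_const_mul_meas hh]
    refine fi_congr fun n hn => ?_
    have h : (cp m : Fin (Q.a + 1) → ℂ) 0 = (cp n : Fin (E.a + 1) → ℂ) 0 := by
      rw [hn]; exact hm'
    rw [ext2_of (M := Q.P) (N := E.P) _ h]
    rfl
  calc _ = fi (fun m => fi h' t * g' m) t := fi_congr fun m hm' => by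
        rw [h5 m hm', mul_comm]
    _ = fi h' t * fi g' t := fi_const_mul_meas hg t _
    _ = _ := mul_comm _ _

/-! ### products over the factors -/

section tp

variable {D : Dom R}

lemma tp_zero {E : Type*} [Mul E] (g : D.P → E) (x : (D.pw 0).P) : tp D g 0 x = g x := rfl

lemma tp_succ {E : Type*} [Mul E] (g : D.P → E) (j : ℕ) (x : (D.pw (j + 1)).P) :
    tp D g (j + 1) x = tp D g j (FP.fst (M := (D.pw j).P) (N := D.P) x) *
      g (FP.snd (M := (D.pw j).P) (N := D.P) x) := rfl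


lemma tc_snd (j : ℕ) (x : (D.pw (j + 1)).P) : tc (FP.snd (M := (D.pw j).P) (N := D.P) x) = tc x :=
  (FP.cond (M := (D.pw j).P) (N := D.P) x).symm

/-- multiplicative maps commute with `tp` -/
lemma tp_map {E E' : Type*} [Mul E] [Mul E'] {g : D.P → E} {g' : D.P → E'} {φ : E → E'}
    (hφ : ∀ j (x : (D.pw j).P) y, φ (tp D g j x * g y) = φ (tp D g j x) * φ (g y))
    (hg : ∀ x, φ (g x) = g' x) :
    ∀ (j : ℕ) (x : (D.pw j).P), φ (tp D g j x) = tp D g' j x
  | 0, _ => hg _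
  | j + 1, x => by
    rw [tp_succ, tp_succ, hφ, tp_map hφ hg j, hg]

lemma tp_mul {E : Type*} [CommMonoid E] (g h : D.P → E) :
    ∀ (j : ℕ) (x : (D.pw j).P), tp D (fun y => g y * h y) j x = tp D g j x * tp D h j x
  | 0, _ => rfl
  | j + 1, x => by
    rw [tp_succ, tp_succ, tp_succ, tp_mul g h j]
    exact mul_mul_mul_comm _ _ _ _

lemma tp_const {E : Type*} [Monoid E] (c : E) :
    ∀ (j : ℕ) (x : (D.pw j).P), tp D (fun _ => c) j x = c ^ (j + 1)
  | 0, _ => by rw [tp_zero, zero_add, pow_one]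
  | j + 1, x => by rw [tp_succ, tp_const c j, pow_succ c (j + 1)]


lemma tp_nonneg {g : D.P → ℝ} (h : ∀ x, 0 ≤ g x) : ∀ (j : ℕ) (x : (D.pw j).P), 0 ≤ tp D g j x
  | 0, x => h x
  | j + 1, x => mul_nonneg (tp_nonneg h j _) (h _)

lemma tp_measurable {g : D.P → ℝ≥0∞} (hg : Measurable g) : ∀ j : ℕ, Measurable (tp D g j)
  | 0 => hg
  | j + 1 => ((tp_measurable hg j).comp (FP.cont_fst (M := (D.pw j).P) (N := D.P)).measurable).mul
      (hg.comp (FP.cont_snd (M := (D.pw j).P) (N := D.P)).measurable)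

lemma tp_ind {t : ℂ} (g : D.P → ℝ≥0∞) :
    ∀ j : ℕ, {x : (D.pw j).P | tc x = t}.indicator (tp D g j) =
      tp D ({x : D.P | tc x = t}.indicator g) j
  | 0 => rfl
  | j + 1 => by
    funext x
    by_cases hx : tc x = t
    · rw [indicator_of_mem (show x ∈ {x : (D.pw (j + 1)).P | tc x = t} from hx), tp_succ, tp_succ,
        ← tp_ind g j, indicator_of_mem (show FP.fst (M := (D.pw j).P) (N := D.P) x ∈
          {x : (D.pw j).P | tc x = t} from hx),
        indicator_of_mem (show FP.snd (M := (D.pw j).P) (N := D.P) x ∈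
          {x : D.P | tc x = t} from (tc_snd j x).trans hx)]
    · rw [indicator_of_notMem (show x ∉ {x : (D.pw (j + 1)).P | tc x = t} from hx), tp_succ,
        ← tp_ind g j, indicator_of_notMem (show FP.fst (M := (D.pw j).P) (N := D.P) x ∉
          {x : (D.pw j).P | tc x = t} from hx), zero_mul]

/-- Fubini for `tp` -/
lemma fi_tp {t : ℂ} {g : D.P → ℝ≥0∞} (hg : Measurable ({x : D.P | tc x = t}.indicator g)) :
    ∀ j : ℕ, fi (tp D g j) t = fi g t ^ (j + 1)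
  | 0 => by rw [zero_add, pow_one]; rfl
  | j + 1 => by
    have h1 : Measurable ({x : (D.pw j).P | tc x = t}.indicator (tp D g j)) := by
      rw [tp_ind]
      exact tp_measurable hg j
    have h2 := fi_prod (D.pw j) D h1 hg
    rw [fi_tp hg j] at h2
    rw [pow_succ (fi g t) (j + 1)]
    exact h2

lemma upw_eq (U : D.P → ℂ) : ∀ (j : ℕ) (x : (D.pw j).P), D.upw U j x = tp D U j x
  | 0, _ => rfl
  | j + 1, x => by
    rw [tp_succ, ← upw_eq U j]
    rfl

lemma wpw_eq (w : D.P → ℝ≥0∞) : ∀ (j : ℕ) (x : (D.pw j).P), wpw w j x = tp D w j x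
  | 0, _ => rfl
  | j + 1, x => by
    rw [tp_succ, ← wpw_eq w j]
    rfl

lemma wt_eq : ∀ (j : ℕ) (x : (D.pw j).P), (D.pw j).wt x = tp D D.wt j x
  | 0, _ => rfl
  | j + 1, x => by
    rw [tp_succ, ← wt_eq j]
    exact Dom.wt_mul (D.pw j) D x

lemma tp_lpsh {b : D.P → ℝ} (hb : LPsh b) : ∀ j : ℕ, LPsh (tp D b j)
  | 0 => hb
  | j + 1 => by
    have h1 : LPsh (fun x : (D.pw (j + 1)).P => tp D b j (FP.fst (M := (D.pw j).P) (N := D.P) x)) :=
      LPsh.comp_hol (Restr_29.HolMap.of_mor FP.mor_fst) (tp_lpsh hb j)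
    have h2 : LPsh (fun x : (D.pw (j + 1)).P => b (FP.snd (M := (D.pw j).P) (N := D.P) x)) :=
      LPsh.comp_hol (Restr_29.HolMap.of_mor FP.mor_snd) hb
    exact h1.mul h2

lemma fhol_mul {a : ℕ} {M : Type} [TopologicalSpace M] [RDom (a + 1) M] {t : ℂ} {f g : M → ℂ}
    (hf : FHol t f) (hg : FHol t g) : FHol t (fun x => f x * g x) :=
  fun e he => (hf e he).mul (hg e he)

/-- pull back of fibre-holomorphic functions under affine morphisms over the first coordinate -/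
lemma fhol_fst {a b : ℕ} {M N : Type} [TopologicalSpace M] [TopologicalSpace N]
    [RDom (a + 1) M] [RDom (b + 1) N] {t : ℂ} {f : M → ℂ} (hf : FHol t f) :
    FHol t (fun p : FP M N => f p.fst) := by
  intro e he u hu
  have hu' : (Fin.cons t u : Fin (a + b + 1) → ℂ) ∈ e.target := hu
  set p := e.symm (Fin.cons t u) with hp
  have hcp : cp p = (Fin.cons t u : Fin (a + b + 1) → ℂ) := he.cp_symm hu'
  set d := ch p.fst with hd
  have hdch : IsCh d := isCh_ch p.fst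
  have hL : ∀ v : Fin (a + b) → ℂ, L1 a b (Fin.cons t v) = Fin.cons t (fun i => v (Fin.castAdd b i)) := by
    intro v
    funext i
    refine Fin.cases rfl (fun j => ?_) i
    simp
  have hgerm := FP.mor_fst (M := M) (N := N) |>.germ hdch he (e.map_target hu') (mem_ch p.fst)
  rw [hcp] at hgerm
  have hcont : Continuous fun v : Fin (a + b) → ℂ => (Fin.cons t v : Fin (a + b + 1) → ℂ) :=
    (differentiable_cons t).continuous
  have h1 : (fun v : Fin (a + b) → ℂ => f ((e.symm (Fin.cons t v)).fst)) =ᶠ[𝓝 u]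
      fun v => f (d.symm (Fin.cons t (fun i => v (Fin.castAdd b i)))) := by
    filter_upwards [hcont.continuousAt.eventually hgerm] with v hv
    have hv' : (e.symm (Fin.cons t v)).fst = d.symm (0 + L1 a b (Fin.cons t v)) := hv
    rw [zero_add, hL] at hv'
    rw [hv']
  have h2 : (Fin.cons t (fun i => u (Fin.castAdd b i)) : Fin (a + 1) → ℂ) ∈ d.target := by
    rw [← hL, ← hcp]
    have : L1 a b (cp p) = cp p.fst := FP.L1_crd p
    rw [this]
    exact hdch.cp_mem (mem_ch p.fst)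
  have hopen : IsOpen {u : Fin a → ℂ | (Fin.cons t u : Fin (a + 1) → ℂ) ∈ d.target} :=
    d.open_target.preimage (differentiable_cons t).continuous
  have h3 : DifferentiableAt ℂ (fun w : Fin a → ℂ => f (d.symm (Fin.cons t w)))
      (fun i => u (Fin.castAdd b i)) :=
    ((hf d hdch) _ h2).differentiableAt (hopen.mem_nhds h2)
  have h4 : DifferentiableAt ℂ (fun v : Fin (a + b) → ℂ => (fun i => v (Fin.castAdd b i) : Fin a → ℂ))
      u := by fun_prop
  exact ((DifferentiableAt.comp u h3 h4).congr_of_eventuallyEq h1).differentiableWithinAt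

lemma fhol_snd {a b : ℕ} {M N : Type} [TopologicalSpace M] [TopologicalSpace N]
    [RDom (a + 1) M] [RDom (b + 1) N] {t : ℂ} {f : N → ℂ} (hf : FHol t f) :
    FHol t (fun p : FP M N => f p.snd) := by
  intro e he u hu
  have hu' : (Fin.cons t u : Fin (a + b + 1) → ℂ) ∈ e.target := hu
  set p := e.symm (Fin.cons t u) with hp
  have hcp : cp p = (Fin.cons t u : Fin (a + b + 1) → ℂ) := he.cp_symm hu'
  set d := ch p.snd with hd
  have hdch : IsCh d := isCh_ch p.snd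
  have hL : ∀ v : Fin (a + b) → ℂ, L2 a b (Fin.cons t v) = Fin.cons t (fun i => v (Fin.natAdd a i)) := by
    intro v
    funext i
    refine Fin.cases rfl (fun j => ?_) i
    simp
  have hgerm := FP.mor_snd (M := M) (N := N) |>.germ hdch he (e.map_target hu') (mem_ch p.snd)
  rw [hcp] at hgerm
  have hcont : Continuous fun v : Fin (a + b) → ℂ => (Fin.cons t v : Fin (a + b + 1) → ℂ) :=
    (differentiable_cons t).continuous
  have h1 : (fun v : Fin (a + b) → ℂ => f ((e.symm (Fin.cons t v)).snd)) =ᶠ[𝓝 u]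
      fun v => f (d.symm (Fin.cons t (fun i => v (Fin.natAdd a i)))) := by
    filter_upwards [hcont.continuousAt.eventually hgerm] with v hv
    have hv' : (e.symm (Fin.cons t v)).snd = d.symm (0 + L2 a b (Fin.cons t v)) := hv
    rw [zero_add, hL] at hv'
    rw [hv']
  have h2 : (Fin.cons t (fun i => u (Fin.natAdd a i)) : Fin (b + 1) → ℂ) ∈ d.target := by
    rw [← hL, ← hcp]
    have : L2 a b (cp p) = cp p.snd := FP.L2_crd p
    rw [this]
    exact hdch.cp_mem (mem_ch p.snd)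
  have hopen : IsOpen {u : Fin b → ℂ | (Fin.cons t u : Fin (b + 1) → ℂ) ∈ d.target} :=
    d.open_target.preimage (differentiable_cons t).continuous
  have h3 : DifferentiableAt ℂ (fun w : Fin b → ℂ => f (d.symm (Fin.cons t w)))
      (fun i => u (Fin.natAdd a i)) :=
    ((hf d hdch) _ h2).differentiableAt (hopen.mem_nhds h2)
  have h4 : DifferentiableAt ℂ (fun v : Fin (a + b) → ℂ => (fun i => v (Fin.natAdd a i) : Fin b → ℂ))
      u := by fun_prop
  exact ((DifferentiableAt.comp u h3 h4).congr_of_eventuallyEq h1).differentiableWithinAt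

/-- `U ⊗ ... ⊗ U` is fibre-holomorphic -/
lemma fhol_upw {t : ℂ} {U : D.P → ℂ} (hU : FHol t U) : ∀ j : ℕ, FHol t (D.upw U j)
  | 0 => hU
  | j + 1 => fhol_mul (M := FP (D.pw j).P D.P) (fhol_fst (M := (D.pw j).P) (N := D.P) (fhol_upw hU j))
      (fhol_snd (M := (D.pw j).P) (N := D.P) hU)

end tp

end Crest.Agent.R276.NbC_185
end
end

-- ▼ part R276/NbF_185
section

/-!
# Row 276, task W1 (helper185): the Bergman inequality on powers, functions of finite norm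
-/

set_option autoImplicit false
set_option linter.unusedSectionVars false

noncomputable section

open Set Filter Topology Complex MeasureTheory Metric
open scoped ENNReal ComplexConjugate

namespace Crest.Agent.R276.NbB_185

open Crest.Agent.R271 Crest.Agent.R271.Ho51 Crest.Agent.R271.W792 Crest.Agent.R276.PV_159

variable {R : ℝ}

/-- the Borel structure on fibre products -/
local instance instMFPf {a b : ℕ} {M N : Type} [TopologicalSpace M] [TopologicalSpace N]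
    [RDom (a + 1) M] [RDom (b + 1) N] : MeasurableSpace (FP M N) := borel _
local instance instBFPf {a b : ℕ} {M N : Type} [TopologicalSpace M] [TopologicalSpace N]
    [RDom (a + 1) M] [RDom (b + 1) N] : BorelSpace (FP M N) := ⟨rfl⟩

lemma wt_ne_zero (Q : Dom R) (q : Q.P) : Q.wt q ≠ 0 := by
  have h4 : ENNReal.ofReal (Real.exp (-Q.φ 0 q)) ≤ Q.wt q := le_iSup
    (fun k => ENNReal.ofReal (Real.exp (-Q.φ k q))) 0
  intro h0
  rw [h0] at h4
  exact absurd h4 (not_le.2 (ENNReal.ofReal_pos.2 (Real.exp_pos _)))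

/-- slices of functions with finite norm have finite norm -/
lemma ae_slice_fin' (Q D : Dom R) {F : (Q.mul D).P → ℂ} {t : ℂ} (hF : FHol t F)
    (h : (Q.mul D).nrm F t < ∞) :
    ∀ᵐ x : Fin Q.a → ℂ, ∀ q : Q.P, cp q = (Fin.cons t x : Fin (Q.a + 1) → ℂ) →
      D.nrm (fun x : D.P => ext2 (M := Q.P) (N := D.P) F q x) t < ∞ := by
  set F' : (Q.mul D).P → ℂ := {x : (Q.mul D).P | tc x = t}.indicator F with hF'
  have hmF : Measurable F' := FHol.measurable_ind hF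
  have h0 : (Q.mul D).nrm F t = (Q.mul D).nrm F' t :=
    Dom.nrm_congr _ fun x hx => (indicator_of_mem (s := {x : (Q.mul D).P | tc x = t}) hx F).symm
  have hm : Measurable ((Q.mul D).dens F') := by
    unfold Dom.dens
    exact ((hmF.norm.pow_const 2).ennreal_ofReal).mul (Q.mul D).wt_meas
  rw [h0] at h
  filter_upwards [ae_fin (M := Q.P) (N := D.P) hm h] with x hx q hq
  have h1 := hx q hq
  have h2 : Q.wt q * D.nrm (fun x : D.P => ext2 (M := Q.P) (N := D.P) F q x) t ≤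
      fi (fun n : D.P => ext2 (M := Q.P) (N := D.P) ((Q.mul D).dens F') q n) t := by
    refine (fi_const_mul_le _ t _).trans ?_
    refine fi_mono fun x' hx' => ?_
    have hqt : (cp q : Fin (Q.a + 1) → ℂ) 0 = t := by rw [hq]; rfl
    have hc : (cp q : Fin (Q.a + 1) → ℂ) 0 = (cp x' : Fin (D.a + 1) → ℂ) 0 := by rw [hqt, hx']
    have htq : tc (FP.mk' q x' hc : FP Q.P D.P) = t := hqt
    rw [ext2_of (M := Q.P) (N := D.P) _ hc]
    unfold Dom.dens
    beta_reduce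
    rw [Dom.wt_mul, ext2_of (M := Q.P) (N := D.P) _ hc]
    have h3 : F' (FP.mk' q x' hc) = F (FP.mk' q x' hc) :=
      indicator_of_mem (s := {x : (Q.mul D).P | tc x = t}) htq F
    rw [h3]
    show Q.wt q * (ENNReal.ofReal (‖F (FP.mk' q x' hc)‖ ^ 2) * D.wt x') ≤
      ENNReal.ofReal (‖F (FP.mk' q x' hc)‖ ^ 2) * (Q.wt q * D.wt x')
    exact le_of_eq (by ring)
  have h3 : Q.wt q * D.nrm (fun x : D.P => ext2 (M := Q.P) (N := D.P) F q x) t < ∞ :=
    lt_of_le_of_lt h2 h1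
  by_contra h5
  rw [not_lt, top_le_iff] at h5
  rw [h5, ENNReal.mul_top (wt_ne_zero Q q)] at h3
  exact absurd h3 (lt_irrefl _)

/-- **the Bergman inequality on powers**, for functions of finite norm -/
theorem prod_bound' (D : Dom R) {t : ℂ} {κ : D.P → ℝ≥0∞} (hκ : ∀ x, κ x ≠ ∞)
    (hD : ∀ f : D.P → ℂ, FHol t f → D.nrm f t < ∞ → ∀ x, tc x = t →
      ENNReal.ofReal (‖f x‖ ^ 2) ≤ κ x * D.nrm f t) :
    ∀ (j : ℕ) (F : (D.pw j).P → ℂ), FHol t F → (D.pw j).nrm F t < ∞ → ∀ x, tc x = t →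
      ENNReal.ofReal (‖F x‖ ^ 2) ≤ tp D κ j x * (D.pw j).nrm F t
  | 0, F, hF, hfin, x, hx => hD F hF hfin x hx
  | j + 1, F, hF, hfin, x, hx => by
    set q0 : (D.pw j).P := FP.fst (M := (D.pw j).P) (N := D.P) x with hq0
    set y : D.P := FP.snd (M := (D.pw j).P) (N := D.P) x with hy0
    have hq0t : tc q0 = t := hx
    have hyt : tc y = t := by
      have := FP.cond (M := (D.pw j).P) (N := D.P) x
      show (cp y : Fin (D.a + 1) → ℂ) 0 = t
      rw [hy0, ← this]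
      exact hx
    set G : (D.pw j).P → ℂ := fun q => ext2 (M := (D.pw j).P) (N := D.P) F q y with hG
    have hGF : G q0 = F x := by
      have hc : (cp q0 : Fin ((D.pw j).a + 1) → ℂ) 0 = (cp y : Fin (D.a + 1) → ℂ) 0 :=
        FP.cond (M := (D.pw j).P) (N := D.P) x
      rw [hG]
      show ext2 (M := (D.pw j).P) (N := D.P) F q0 y = _
      rw [ext2_of (M := (D.pw j).P) (N := D.P) F hc]
      rfl
    have hGh : FHol t G := FHol.slice2 (M := (D.pw j).P) (N := D.P) hF y hyt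
    have h2 : (D.pw j).nrm G t ≤ κ y * (D.pw (j + 1)).nrm F t := by
      refine le_trans ?_ (mul_le_mul_right (nrm_mul_ge' (D.pw j) D hF) (κ y))
      rw [← fi_const_mul (hκ y)]
      refine fi_mono_ae ?_
      filter_upwards [ae_slice_fin' (D.pw j) D hF hfin] with x' hx' q hq
      have hq' : tc q = t := by unfold tc; rw [hq]; rfl
      have h3 := hD _ (FHol.slice1 (M := (D.pw j).P) (N := D.P) hF q hq') (hx' q hq) y hyt
      unfold Dom.dens
      calc ENNReal.ofReal (‖G q‖ ^ 2) * (D.pw j).wt q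
          ≤ (κ y * D.nrm (fun x => ext2 (M := (D.pw j).P) (N := D.P) F q x) t) *
            (D.pw j).wt q := mul_le_mul_left h3 _
        _ = _ := by ring
    have hGn : (D.pw j).nrm G t < ∞ :=
      lt_of_le_of_lt h2 (ENNReal.mul_lt_top (hκ y).lt_top hfin)
    have h1 := prod_bound' D hκ hD j G hGh hGn q0 hq0t
    rw [hGF] at h1
    calc ENNReal.ofReal (‖F x‖ ^ 2) ≤ tp D κ j q0 * (D.pw j).nrm G t := h1
      _ ≤ tp D κ j q0 * (κ y * (D.pw (j + 1)).nrm F t) := mul_le_mul_right h2 _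
      _ = _ := by
        show _ = (tp D κ j q0 * κ y) * _
        ring

end Crest.Agent.R276.NbB_185
end
end

-- ▼ part R276/NbD_185

/-!
# Row 276, task W1 (helper185): the N-Bergman kernel over a disc

`nb`: Ohsawa–Takegoshi + Berndtsson–Păun iteration + tensor powers.
-/

set_option autoImplicit false
set_option linter.unusedSectionVars false
set_option linter.unusedVariables false

noncomputable section

open Set Filter Topology Complex MeasureTheory Metric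
open scoped ENNReal ComplexConjugate

namespace Crest.Agent.R276.NbD_185

open Crest.Agent.R271 Crest.Agent.R271.Ho51 Crest.Agent.R276.PV_159 Crest.Agent.R276.NbB_185
  Crest.Agent.R276.NbA_185 Crest.Agent.R276.NbC_185 Crest.Agent.R276.EngU_29
  Crest.Agent.R276.OTB_189

variable {R : ℝ}

/-- the Borel structure on fibre products -/
local instance instMFP {a b : ℕ} {M N : Type} [TopologicalSpace M] [TopologicalSpace N]
    [RDom (a + 1) M] [RDom (b + 1) N] : MeasurableSpace (FP M N) := borel _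
local instance instBFP {a b : ℕ} {M N : Type} [TopologicalSpace M] [TopologicalSpace N]
    [RDom (a + 1) M] [RDom (b + 1) N] : BorelSpace (FP M N) := ⟨rfl⟩

/-- `pn` in the `enorm` form -/
lemma ofReal_rpow_norm {z : ℂ} {p : ℝ} (hp : 0 ≤ p) : ENNReal.ofReal (‖z‖ ^ p) = ‖z‖ₑ ^ p := by
  rw [← ofReal_norm, ENNReal.ofReal_rpow_of_nonneg (norm_nonneg _) hp]

lemma ofReal_sq_norm {z : ℂ} : ENNReal.ofReal (‖z‖ ^ 2) = ‖z‖ₑ ^ (2 : ℝ) := by
  rw [← ofReal_norm, ENNReal.ofReal_rpow_of_nonneg (norm_nonneg _) (by norm_num)]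
  norm_num

/-- the data of the theorem -/
structure NB (D : Dom R) (θ : ℝ) (K b0 : D.P → ℝ) : Prop where
  h0 : 0 < θ
  h1 : θ ≤ 1
  K_lpsh : LPsh K
  b_lpsh : LPsh b0
  wt : ∀ x, D.wt x = (ENNReal.ofReal (K x ^ (1 - θ) * b0 x))⁻¹
  /-- (B) -/
  bd : ∃ B : ℝ≥0∞, B ≠ ∞ ∧ ∀ t, ‖t‖ < R →
    fi (fun x => ENNReal.ofReal (K x) ^ θ / ENNReal.ofReal (b0 x)) t ≤ B
  /-- (Cl) -/
  cl : ∀ᵐ t, ‖t‖ < R → ∃ C : ℝ≥0∞, C ≠ ∞ ∧ ∀ f, FHol t f → D.nrm f t < ∞ → ∀ x, tc x = t →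
    ENNReal.ofReal (‖f x‖ ^ 2) ≤ C * ENNReal.ofReal (K x) * D.nrm f t

variable {D : Dom R} {θ : ℝ} {K b0 : D.P → ℝ}

lemma tp_ofReal {g : D.P → ℝ} (hg : ∀ x, 0 ≤ g x) (j : ℕ) (x : (D.pw j).P) :
    ENNReal.ofReal (tp D g j x) = tp D (fun x => ENNReal.ofReal (g x)) j x :=
  tp_map (φ := ENNReal.ofReal) (fun j x y => ENNReal.ofReal_mul (tp_nonneg hg j x))
    (fun _ => rfl) j x

lemma tp_inv {g : D.P → ℝ≥0∞} (hg : ∀ x, g x ≠ ∞) (j : ℕ) (x : (D.pw j).P) :
    (tp D g j x)⁻¹ = tp D (fun x => (g x)⁻¹) j x := by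
  have hfin : ∀ (j : ℕ) (x : (D.pw j).P), tp D g j x ≠ ∞ := by
    intro j
    induction j with
    | zero => exact hg
    | succ j ih => exact fun x => ENNReal.mul_ne_top (ih _) (hg _)
  exact tp_map (φ := fun a : ℝ≥0∞ => a⁻¹)
    (fun j x y => ENNReal.mul_inv (Or.inr (hg y)) (Or.inl (hfin j x)))
    (fun _ => rfl) j x

lemma tp_rpow {g : D.P → ℝ≥0∞} {c : ℝ} (hc : 0 ≤ c) (j : ℕ) (x : (D.pw j).P) :
    (tp D g j x) ^ c = tp D (fun x => (g x) ^ c) j x :=
  tp_map (φ := fun a : ℝ≥0∞ => a ^ c) (fun j x y => ENNReal.mul_rpow_of_nonneg _ _ hc)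
    (fun _ => rfl) j x

lemma tp_rpowR {g : D.P → ℝ} (hg : ∀ x, 0 ≤ g x) {c : ℝ} (j : ℕ) (x : (D.pw j).P) :
    (tp D g j x) ^ c = tp D (fun x => (g x) ^ c) j x :=
  tp_map (φ := fun a : ℝ => a ^ c) (fun j x y => Real.mul_rpow (tp_nonneg hg j x) (hg y))
    (fun _ => rfl) j x

lemma tp_enorm {U : D.P → ℂ} (j : ℕ) (x : (D.pw j).P) :
    ‖tp D U j x‖ₑ = tp D (fun x => ‖U x‖ₑ) j x :=
  tp_map (φ := fun z : ℂ => ‖z‖ₑ) (fun j x y => enorm_mul _ _) (fun _ => rfl) j x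

/-- the total integral as an integral over `Q.P` -/
lemma exists_mu (Q : Dom R) : ∃ μ : Measure Q.P, ∀ g : Q.P → ℝ≥0∞, Measurable g →
    ∫⁻ y, g y ∂μ = ∫⁻ t : ℂ, fi g t := by
  obtain ⟨μ, hμ⟩ := Ho51.exists_leb (M := Q.P)
  exact ⟨μ, fun g hg => lintegral_eq_fi hμ hg⟩

/-! ### rewriting the norms -/

/-- the weight `1/b0` -/
def wi (b0 : D.P → ℝ) (x : D.P) : ℝ≥0∞ := (ENNReal.ofReal (b0 x))⁻¹

lemma wi_meas (hb : LPsh b0) : Measurable (wi b0) := (hb.measurable.ennreal_ofReal).inv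

lemma wpw_wi (hb : ∀ x, 0 ≤ b0 x) (j : ℕ) (x : (D.pw j).P) :
    wpw (wi b0) j x = (ENNReal.ofReal (tp D b0 j x))⁻¹ := by
  rw [wpw_eq, tp_ofReal hb, tp_inv fun _ => ENNReal.ofReal_ne_top]
  rfl

lemma pn_eq (h0 : 0 < θ) (hb : ∀ x, 0 ≤ b0 x) (j : ℕ) (F : (D.pw j).P → ℂ) (t : ℂ) :
    pn (2 * θ) (wpw (wi b0) j) F t =
      fi (fun x => ‖F x‖ₑ ^ (2 * θ) / ENNReal.ofReal (tp D b0 j x)) t := by
  unfold pn
  refine fi_congr fun x _ => ?_
  rw [wpw_wi hb, ofReal_rpow_norm (by linarith), ENNReal.div_eq_inv_mul, mul_comm]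

lemma wt_tp (H : NB D θ K b0) (j : ℕ) (x : (D.pw j).P) :
    (D.pw j).wt x = (ENNReal.ofReal (tp D K j x ^ (1 - θ) * tp D b0 j x))⁻¹ := by
  have h2 : D.wt = fun x => (ENNReal.ofReal (K x ^ (1 - θ) * b0 x))⁻¹ := funext H.wt
  rw [wt_eq, h2, ← tp_inv (fun _ => ENNReal.ofReal_ne_top)]
  congr 1
  rw [← tp_ofReal (fun x => mul_nonneg (Real.rpow_nonneg (H.K_lpsh.nonneg x) _)
    (H.b_lpsh.nonneg x)), tp_mul, tp_rpowR H.K_lpsh.nonneg]

lemma nrm_eq (H : NB D θ K b0) (j : ℕ) (F : (D.pw j).P → ℂ) (t : ℂ) :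
    (D.pw j).nrm F t = fi (fun x => ENNReal.ofReal (‖F x‖ ^ 2) /
      ENNReal.ofReal (tp D K j x ^ (1 - θ) * tp D b0 j x)) t := by
  unfold Dom.nrm
  refine fi_congr fun x _ => ?_
  unfold Dom.dens
  rw [wt_tp H, ENNReal.div_eq_inv_mul, mul_comm]

lemma lpsh_start (H : NB D θ K b0) (j : ℕ) :
    LPsh (fun x : (D.pw j).P => tp D K j x ^ (1 - θ) * tp D b0 j x) :=
  ((tp_lpsh H.K_lpsh j).rpow (by linarith [H.h1])).mul (tp_lpsh H.b_lpsh j)

lemma lpsh_next (H : NB D θ K b0) (j : ℕ) {F : (D.pw j).P → ℂ} (hF : Hol F) :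
    LPsh (fun x : (D.pw j).P => ‖F x‖ ^ (2 * (1 - θ)) * tp D b0 j x) :=
  (LPsh.of_hol_rpow hF (by linarith [H.h1])).mul (tp_lpsh H.b_lpsh j)

/-! ### pointwise inequalities -/

lemma pt1 (h0 : 0 < θ) (h1 : θ ≤ 1) {u k β c : ℝ≥0∞} (hu : u ≠ ∞) (hk : k ≠ ∞) (hc : c ≠ ∞)
    (h : u ^ (2 : ℝ) ≤ c * k) :
    u ^ (2 : ℝ) / (k ^ (1 - θ) * β) ≤ c ^ (1 - θ) * (u ^ (2 * θ) / β) := by
  have ha : 0 ≤ 1 - θ := by linarith
  rcases eq_or_ne u 0 with hu0 | hu0
  · rw [hu0, ENNReal.zero_rpow_of_pos (by norm_num), ENNReal.zero_div]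
    exact zero_le
  have hk0 : k ≠ 0 := by
    rintro rfl
    rw [mul_zero] at h
    exact (ENNReal.rpow_pos (pos_iff_ne_zero.2 hu0) hu).ne' (le_antisymm h zero_le)
  have e1 : u ^ (2 : ℝ) = u ^ (2 * θ) * (u ^ (2 : ℝ)) ^ (1 - θ) := by
    rw [← ENNReal.rpow_mul, ← ENNReal.rpow_add _ _ hu0 hu]
    congr 1
    ring
  have e2 : (u ^ (2 : ℝ)) ^ (1 - θ) ≤ c ^ (1 - θ) * k ^ (1 - θ) := by
    rw [← ENNReal.mul_rpow_of_nonneg _ _ ha]
    exact ENNReal.rpow_le_rpow h ha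
  have hka : k ^ (1 - θ) ≠ 0 := (ENNReal.rpow_pos (pos_iff_ne_zero.2 hk0) hk).ne'
  have hkt : k ^ (1 - θ) ≠ ∞ := ENNReal.rpow_ne_top_of_nonneg ha hk
  rw [ENNReal.div_eq_inv_mul, ENNReal.div_eq_inv_mul,
    ENNReal.mul_inv (Or.inl hka) (Or.inl hkt)]
  calc (k ^ (1 - θ))⁻¹ * β⁻¹ * u ^ (2 : ℝ)
      = (k ^ (1 - θ))⁻¹ * β⁻¹ * (u ^ (2 * θ) * (u ^ (2 : ℝ)) ^ (1 - θ)) := by rw [← e1]
    _ ≤ (k ^ (1 - θ))⁻¹ * β⁻¹ * (u ^ (2 * θ) * (c ^ (1 - θ) * k ^ (1 - θ))) := by gcongr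
    _ = ((k ^ (1 - θ))⁻¹ * k ^ (1 - θ)) * (c ^ (1 - θ) * (β⁻¹ * u ^ (2 * θ))) := by ring
    _ = _ := by rw [ENNReal.inv_mul_cancel hka hkt, one_mul]

lemma pt2 (h1 : θ ≤ 1) {f k β c X : ℝ≥0∞} (hc0 : c ≠ 0) (hc : c ≠ ∞)
    (h : f ^ (2 : ℝ) ≤ c * k) :
    X / (k ^ (1 - θ) * β) ≤ c ^ (1 - θ) * (X / (f ^ (2 * (1 - θ)) * β)) := by
  have ha : 0 ≤ 1 - θ := by linarith
  have e2 : f ^ (2 * (1 - θ)) ≤ c ^ (1 - θ) * k ^ (1 - θ) := by
    rw [← ENNReal.mul_rpow_of_nonneg _ _ ha, ENNReal.rpow_mul]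
    exact ENNReal.rpow_le_rpow h ha
  have hca : c ^ (1 - θ) ≠ 0 := (ENNReal.rpow_pos (pos_iff_ne_zero.2 hc0) hc).ne'
  have hct : c ^ (1 - θ) ≠ ∞ := ENNReal.rpow_ne_top_of_nonneg ha hc
  have e3 : (c ^ (1 - θ))⁻¹ * (k ^ (1 - θ) * β)⁻¹ ≤ (f ^ (2 * (1 - θ)) * β)⁻¹ := by
    rw [← ENNReal.mul_inv (Or.inl hca) (Or.inl hct)]
    apply ENNReal.inv_le_inv.2
    calc f ^ (2 * (1 - θ)) * β ≤ (c ^ (1 - θ) * k ^ (1 - θ)) * β := by gcongr
      _ = _ := by ring
  rw [ENNReal.div_eq_inv_mul, ENNReal.div_eq_inv_mul]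
  calc (k ^ (1 - θ) * β)⁻¹ * X = c ^ (1 - θ) * (((c ^ (1 - θ))⁻¹ * (k ^ (1 - θ) * β)⁻¹) * X) := by
        rw [← mul_assoc, ← mul_assoc, ENNReal.mul_inv_cancel hca hct, one_mul]
    _ ≤ _ := by gcongr

lemma pt3 (h0 : 0 < θ) (h1 : θ ≤ 1) {u β : ℝ≥0∞} (hu : u ≠ ∞) :
    u ^ (2 : ℝ) / (u ^ (2 * (1 - θ)) * β) = u ^ (2 * θ) / β := by
  have ha : 0 ≤ 2 * (1 - θ) := by linarith
  rcases eq_or_ne u 0 with hu0 | hu0
  · rw [hu0, ENNReal.zero_rpow_of_pos (by norm_num), ENNReal.zero_div,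
      ENNReal.zero_rpow_of_pos (by linarith), ENNReal.zero_div]
  have hn0 : u ^ (2 * (1 - θ)) ≠ 0 := (ENNReal.rpow_pos (pos_iff_ne_zero.2 hu0) hu).ne'
  have hnt : u ^ (2 * (1 - θ)) ≠ ∞ := ENNReal.rpow_ne_top_of_nonneg ha hu
  have e1 : u ^ (2 : ℝ) = u ^ (2 * (1 - θ)) * u ^ (2 * θ) := by
    rw [← ENNReal.rpow_add _ _ hu0 hu]
    congr 1
    ring
  rw [ENNReal.div_eq_inv_mul, ENNReal.div_eq_inv_mul, ENNReal.mul_inv (Or.inl hn0) (Or.inl hnt),
    e1]
  calc (u ^ (2 * (1 - θ)))⁻¹ * β⁻¹ * (u ^ (2 * (1 - θ)) * u ^ (2 * θ))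
      = ((u ^ (2 * (1 - θ)))⁻¹ * u ^ (2 * (1 - θ))) * (β⁻¹ * u ^ (2 * θ)) := by ring
    _ = _ := by rw [ENNReal.inv_mul_cancel hn0 hnt, one_mul]

/-! ### the central fibre -/

lemma ind_meas {t : ℂ} {U : D.P → ℂ} (hU : FHol t U) {p : ℝ} {w : D.P → ℝ≥0∞}
    (hw : Measurable w) :
    Measurable ({x : D.P | tc x = t}.indicator fun x => ‖U x‖ₑ ^ p * w x) := by
  have h1 := FHol.measurable_ind hU
  have h2 : ({x : D.P | tc x = t}.indicator fun x => ‖U x‖ₑ ^ p * w x) =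
      {x : D.P | tc x = t}.indicator fun x => ‖{x : D.P | tc x = t}.indicator U x‖ₑ ^ p * w x := by
    funext x
    by_cases hx : x ∈ {x : D.P | tc x = t}
    · rw [indicator_of_mem hx, indicator_of_mem hx, indicator_of_mem hx]
    · rw [indicator_of_notMem hx, indicator_of_notMem hx]
  rw [h2]
  exact ((h1.enorm.pow_const p).mul hw).indicator (isClosed_fib t).measurableSet

/-- `fi (|U^⊗|^p w^⊗) = (fi (|U|^p w))^(j+1)` -/
lemma fi_pow {t : ℂ} {U : D.P → ℂ} (hU : FHol t U) {p : ℝ} (hp : 0 ≤ p) {w : D.P → ℝ≥0∞}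
    (hw : Measurable w) (j : ℕ) :
    fi (fun x : (D.pw j).P => ‖D.upw U j x‖ₑ ^ p * tp D w j x) t =
      fi (fun x => ‖U x‖ₑ ^ p * w x) t ^ (j + 1) := by
  rw [← fi_tp (ind_meas hU hw) j]
  refine fi_congr fun x _ => ?_
  rw [upw_eq, tp_enorm, tp_rpow hp, ← tp_mul]

end Crest.Agent.R276.NbD_185
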