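import Mathlib
import Crest.Agent.R276.PVh_159

-- ▼ part R276/NbA_185
section

/-!
# Row 276, task W1 (helper185): Hoelder step and iteration for the N-Bergman kernel

* `point`, `hoelder_step` : from `∫ |F'|² / (|F|^{2(1-θ)} b) ≤ c` and `∫ |F|^{2θ}/b ≤ A` one gets
  `∫ |F'|^{2θ}/b ≤ c^θ A^{1-θ}`;
* `exists_le_two_mul` : the iteration `A_{i+1} ≤ c^θ A_i^{1-θ}` reaches `≤ 2c`.
-/

set_option autoImplicit false

noncomputable section

open MeasureTheory Set Filter Topology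
open scoped ENNReal

namespace Crest.Agent.R276.NbA_185

/-- pointwise identity behind the Hoelder step -/
lemma point {θ : ℝ} (h0 : 0 < θ) (h1 : θ ≤ 1) {f g β : ℝ≥0∞} (hf : f ≠ ∞) (hg : g ≠ ∞) (hβ : β ≠ ∞)
    (hX : g ^ (2 : ℝ) / (f ^ (2 * (1 - θ)) * β) ≠ ∞) :
    g ^ (2 * θ) / β ≤ (g ^ (2 : ℝ) / (f ^ (2 * (1 - θ)) * β)) ^ θ * (f ^ (2 * θ) / β) ^ (1 - θ) := by
  have ha : 0 ≤ 1 - θ := by linarith
  rcases eq_or_ne g 0 with hg0 | hg0
  · rw [hg0, ENNReal.zero_rpow_of_pos (by linarith), ENNReal.zero_div]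
    exact zero_le
  have hg2 : g ^ (2 : ℝ) ≠ 0 := (ENNReal.rpow_pos (pos_iff_ne_zero.2 hg0) hg).ne'
  have hden : f ^ (2 * (1 - θ)) * β ≠ 0 := by
    intro h
    apply hX
    rw [h]
    exact ENNReal.div_zero hg2
  have hβ0 : β ≠ 0 := right_ne_zero_of_mul hden
  have hf0' : f ^ (2 * (1 - θ)) ≠ 0 := left_ne_zero_of_mul hden
  have hβa : β ^ θ * β ^ (1 - θ) = β := by
    rw [← ENNReal.rpow_add _ _ hβ0 hβ]
    have : θ + (1 - θ) = 1 := by ring
    rw [this, ENNReal.rpow_one]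
  have hθ0 : β ^ θ ≠ 0 := (ENNReal.rpow_pos (pos_iff_ne_zero.2 hβ0) hβ).ne'
  have hθt : β ^ θ ≠ ∞ := ENNReal.rpow_ne_top_of_nonneg h0.le hβ
  have ha0 : β ^ (1 - θ) ≠ 0 := (ENNReal.rpow_pos (pos_iff_ne_zero.2 hβ0) hβ).ne'
  have hat : β ^ (1 - θ) ≠ ∞ := ENNReal.rpow_ne_top_of_nonneg ha hβ
  set P : ℝ≥0∞ := (f ^ (2 * (1 - θ))) ^ θ with hP
  have hPt : P ≠ ∞ := ENNReal.rpow_ne_top_of_nonneg h0.le
    (ENNReal.rpow_ne_top_of_nonneg (by linarith) hf)
  have hP0 : P ≠ 0 := (ENNReal.rpow_pos (pos_iff_ne_zero.2 hf0')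
    (ENNReal.rpow_ne_top_of_nonneg (by linarith) hf)).ne'
  have hPP : (f ^ (2 * θ)) ^ (1 - θ) = P := by
    rw [hP, ← ENNReal.rpow_mul, ← ENNReal.rpow_mul]
    congr 1
    ring
  have hgg : (g ^ (2 : ℝ)) ^ θ = g ^ (2 * θ) := by rw [← ENNReal.rpow_mul]
  rw [ENNReal.div_rpow_of_nonneg _ _ h0.le, ENNReal.mul_rpow_of_nonneg _ _ h0.le,
    ENNReal.div_rpow_of_nonneg _ _ ha, hPP, hgg, ← hP]
  apply le_of_eq
  rw [ENNReal.div_eq_inv_mul, ENNReal.div_eq_inv_mul, ENNReal.div_eq_inv_mul,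
    ENNReal.mul_inv (Or.inl hP0) (Or.inl hPt)]
  calc β⁻¹ * g ^ (2 * θ) = (β ^ θ * β ^ (1 - θ))⁻¹ * g ^ (2 * θ) := by rw [hβa]
    _ = (β ^ θ)⁻¹ * (β ^ (1 - θ))⁻¹ * g ^ (2 * θ) := by
        rw [ENNReal.mul_inv (Or.inl hθ0) (Or.inl hθt)]
    _ = (P⁻¹ * P) * ((β ^ θ)⁻¹ * (β ^ (1 - θ))⁻¹ * g ^ (2 * θ)) := by
        rw [ENNReal.inv_mul_cancel hP0 hPt, one_mul]
    _ = _ := by ring

/-- **Hoelder step** -/
theorem hoelder_step {α : Type*} [MeasurableSpace α] {μ : Measure α} {θ : ℝ} (h0 : 0 < θ)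
    (h1 : θ ≤ 1) {f g β : α → ℝ≥0∞} (hfm : Measurable f) (hgm : Measurable g) (hβm : Measurable β)
    (hf : ∀ x, f x ≠ ∞) (hg : ∀ x, g x ≠ ∞) (hβ : ∀ x, β x ≠ ∞) {c A : ℝ≥0∞}
    (hc : c ≠ ∞) (hX : ∫⁻ x, g x ^ (2 : ℝ) / (f x ^ (2 * (1 - θ)) * β x) ∂μ ≤ c)
    (hA : ∫⁻ x, f x ^ (2 * θ) / β x ∂μ ≤ A) :
    ∫⁻ x, g x ^ (2 * θ) / β x ∂μ ≤ c ^ θ * A ^ (1 - θ) := by
  have hm1 : Measurable fun x => g x ^ (2 : ℝ) / (f x ^ (2 * (1 - θ)) * β x) :=
    (hgm.pow_const _).div ((hfm.pow_const _).mul hβm)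
  have hm2 : Measurable fun x => f x ^ (2 * θ) / β x := (hfm.pow_const _).div hβm
  have hae : ∀ᵐ x ∂μ, g x ^ (2 : ℝ) / (f x ^ (2 * (1 - θ)) * β x) < ∞ :=
    ae_lt_top hm1 (lt_of_le_of_lt hX hc.lt_top).ne
  calc ∫⁻ x, g x ^ (2 * θ) / β x ∂μ
      ≤ ∫⁻ x, (g x ^ (2 : ℝ) / (f x ^ (2 * (1 - θ)) * β x)) ^ θ *
          (f x ^ (2 * θ) / β x) ^ (1 - θ) ∂μ := by
        refine lintegral_mono_ae ?_
        filter_upwards [hae] with x hx
        exact point h0 h1 (hf x) (hg x) (hβ x) hx.ne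
    _ ≤ (∫⁻ x, g x ^ (2 : ℝ) / (f x ^ (2 * (1 - θ)) * β x) ∂μ) ^ θ *
          (∫⁻ x, f x ^ (2 * θ) / β x ∂μ) ^ (1 - θ) :=
        ENNReal.lintegral_mul_norm_pow_le hm1.aemeasurable hm2.aemeasurable h0.le (by linarith)
          (by ring)
    _ ≤ c ^ θ * A ^ (1 - θ) := by
        gcongr

/-- **iteration** -/
theorem exists_le_two_mul {θ : ℝ} (h0 : 0 < θ) (h1 : θ ≤ 1) {c : ℝ≥0∞} (hc : c ≠ ∞)
    {A : ℕ → ℝ≥0∞} (hA0 : A 0 ≠ ∞) (hA : ∀ i, A (i + 1) ≤ c ^ θ * A i ^ (1 - θ)) :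
    ∃ i, A i ≤ 2 * c := by
  have hfin : ∀ i, A i ≠ ∞ := by
    intro i
    induction i with
    | zero => exact hA0
    | succ i ih =>
      refine (lt_of_le_of_lt (hA i) ?_).ne
      exact ENNReal.mul_lt_top (ENNReal.rpow_lt_top_of_nonneg h0.le hc)
        (ENNReal.rpow_lt_top_of_nonneg (by linarith) ih)
  rcases eq_or_ne c 0 with hc0 | hc0
  · refine ⟨1, ?_⟩
    have h := hA 0
    rw [hc0, ENNReal.zero_rpow_of_pos h0, zero_mul] at h
    rw [hc0, mul_zero]
    exact h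
  by_contra hno
  push Not at hno
  -- each step gains a factor `2^{-θ}`
  have h2t : (2 : ℝ≥0∞) ^ θ ≠ ∞ := ENNReal.rpow_ne_top_of_nonneg h0.le (by simp)
  have h20 : (2 : ℝ≥0∞) ^ θ ≠ 0 := (ENNReal.rpow_pos (by simp) (by simp)).ne'
  have hstep : ∀ i, A (i + 1) * 2 ^ θ ≤ A i := by
    intro i
    have hAi : A i ≠ 0 := (lt_of_le_of_lt zero_le (hno i)).ne'
    calc A (i + 1) * 2 ^ θ ≤ (c ^ θ * A i ^ (1 - θ)) * 2 ^ θ := by gcongr; exact hA i
      _ = (2 * c) ^ θ * A i ^ (1 - θ) := by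
          rw [ENNReal.mul_rpow_of_nonneg _ _ h0.le]; ring
      _ ≤ (A i) ^ θ * A i ^ (1 - θ) := by
          gcongr
          exact (hno i).le
      _ = A i := by
          rw [← ENNReal.rpow_add _ _ hAi (hfin i)]
          have : θ + (1 - θ) = 1 := by ring
          rw [this, ENNReal.rpow_one]
  have hpow : ∀ i, A i * (2 ^ θ) ^ i ≤ A 0 := by
    intro i
    induction i with
    | zero => simp
    | succ i ih =>
      calc A (i + 1) * (2 ^ θ) ^ (i + 1) = (A (i + 1) * 2 ^ θ) * (2 ^ θ) ^ i := by ring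
        _ ≤ A i * (2 ^ θ) ^ i := by gcongr; exact hstep i
        _ ≤ A 0 := ih
  have h2 : ∀ i, 2 * c * (2 ^ θ) ^ i ≤ A 0 := fun i =>
    le_trans (by gcongr; exact (hno i).le) (hpow i)
  -- reals
  set q : ℝ := (2 : ℝ) ^ θ with hq
  have hq1 : 1 < q := Real.one_lt_rpow (by norm_num) h0
  have hqe : (2 : ℝ≥0∞) ^ θ = ENNReal.ofReal q := by
    rw [hq, ← ENNReal.ofReal_rpow_of_pos (by norm_num)]
    congr 1
    simp
  have h2r : ∀ i : ℕ, 2 * c.toReal * q ^ i ≤ (A 0).toReal := by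
    intro i
    have h3 := ENNReal.toReal_mono hA0 (h2 i)
    rw [hqe, ENNReal.toReal_mul, ENNReal.toReal_mul, ENNReal.toReal_pow,
      ENNReal.toReal_ofReal (by positivity)] at h3
    simpa using h3
  have hcpos : 0 < 2 * c.toReal := by
    have := ENNReal.toReal_pos hc0 hc
    linarith
  have h5 := tendsto_pow_atTop_atTop_of_one_lt hq1
  obtain ⟨i, hi⟩ := (h5.eventually_gt_atTop ((A 0).toReal / (2 * c.toReal))).exists
  have h6 := h2r i
  rw [div_lt_iff₀ hcpos] at hi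
  linarith

end Crest.Agent.R276.NbA_185
end
end

-- ▼ part R276/NbB_185

/-!
# Row 276, task W1 (helper185): fibre-holomorphic functions on fibre products

* `FHol.continuousOn`, `FHol.slice1`, `FHol.slice2`: slices of `FHol t F`, `F` on a fibre product;
* `prod_bound`: the Bergman inequality passes to the powers `D.pw j`.
-/

set_option autoImplicit false
set_option linter.unusedSectionVars false

noncomputable section

open Set Filter Topology Complex MeasureTheory Metric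
open scoped ENNReal ComplexConjugate

namespace Crest.Agent.R276.NbB_185

open Crest.Agent.R271 Crest.Agent.R271.Ho51 Crest.Agent.R271.W792 Crest.Agent.R276.PV_159

section FHol

variable {a b : ℕ} {M N : Type} [TopologicalSpace M] [TopologicalSpace N]
  [RDom (a + 1) M] [RDom (b + 1) N]

/-- tail of the coordinates -/
def tl (x : M) : Fin a → ℂ := fun i => (cp x : Fin (a + 1) → ℂ) i.succ

lemma cons_tl (x : M) : (Fin.cons (tc x) (tl x) : Fin (a + 1) → ℂ) = cp x := by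
  funext i
  refine Fin.cases rfl (fun j => rfl) i

lemma cont_tl : Continuous (tl : M → Fin a → ℂ) :=
  continuous_pi fun i => (continuous_apply i.succ).comp cp_cont

lemma FHol.continuousOn {t : ℂ} {f : M → ℂ} (hf : FHol t f) : ContinuousOn f {x | tc x = t} := by
  intro x0 hx0
  have hx0' : tc x0 = t := hx0
  set e := ch x0 with he
  have hech : IsCh e := isCh_ch x0
  have hmem : tl x0 ∈ {u : Fin a → ℂ | (Fin.cons t u : Fin (a + 1) → ℂ) ∈ e.target} := by
    show (Fin.cons t (tl x0) : Fin (a + 1) → ℂ) ∈ e.target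
    rw [← hx0', cons_tl]
    exact hech.cp_mem (mem_ch x0)
  have hopen : IsOpen {u : Fin a → ℂ | (Fin.cons t u : Fin (a + 1) → ℂ) ∈ e.target} :=
    e.open_target.preimage (differentiable_cons t).continuous
  have h1 : ContinuousAt (fun u : Fin a → ℂ => f (e.symm (Fin.cons t u))) (tl x0) :=
    ((hf e hech) _ hmem).continuousWithinAt.continuousAt (hopen.mem_nhds hmem)
  have h2 : ContinuousAt (fun x : M => f (e.symm (Fin.cons t (tl x)))) x0 :=
    ContinuousAt.comp (g := fun u : Fin a → ℂ => f (e.symm (Fin.cons t u))) h1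
      cont_tl.continuousAt
  refine h2.continuousWithinAt.congr_of_eventuallyEq_of_mem ?_ hx0
  have h3 : ∀ᶠ x in 𝓝[{x | tc x = t}] x0, x ∈ e.source :=
    mem_nhdsWithin_of_mem_nhds (e.open_source.mem_nhds (mem_ch x0))
  filter_upwards [h3, self_mem_nhdsWithin] with x hx hxt
  have hxt' : tc x = t := hxt
  rw [← hxt', cons_tl, hech.symm_cp hx]

lemma isClosed_fib (t : ℂ) : IsClosed {x : M | tc x = t} := isClosed_eq cont_tc continuous_const

/-- a fibre-holomorphic function, extended by zero off the fibre, is measurable -/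
lemma FHol.measurable_ind [MeasurableSpace M] [BorelSpace M] {t : ℂ} {f : M → ℂ} (hf : FHol t f) :
    Measurable ({x : M | tc x = t}.indicator f) := by
  have h1 : ContinuousOn f {x | tc x = t} := FHol.continuousOn hf
  exact h1.measurable_piecewise (g := fun _ => (0 : ℂ)) continuousOn_const
    (isClosed_fib t).measurableSet

/-- slices in the second variable (first variable fixed) -/
lemma FHol.slice1 {t : ℂ} {F : FP M N → ℂ} (hF : FHol t F) (q : M) (hq : tc q = t) :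
    FHol t (fun x : N => ext2 F q x) := by
  intro d hd
  set e := ch q with he
  have hech : IsCh e := isCh_ch q
  intro u hu
  have hu' : (Fin.cons t u : Fin (b + 1) → ℂ) ∈ d.target := hu
  set p0 : FP M N := FP.mk' q (d.symm (Fin.cons t u)) (by
      rw [hd.cp_symm hu', ← hq]; rfl) with hp0
  have hch := FP.isCh_chart hech hd p0
  have h1 := hF _ hch
  set γ : (Fin b → ℂ) → (Fin (a + b) → ℂ) := fun u => Fin.append (tl q) u with hγ
  have hγd : Differentiable ℂ γ := by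
    rw [differentiable_pi]
    intro i
    refine Fin.addCases (fun j => ?_) (fun j => ?_) i
    · simp only [hγ, Fin.append_left]
      exact differentiable_const _
    · simp only [hγ, Fin.append_right]
      exact differentiable_apply j
  have hL1 : ∀ v : Fin b → ℂ, L1 a b (Fin.cons t (γ v)) = cp q := by
    intro v
    rw [← cons_tl q, hq]
    funext i
    refine Fin.cases rfl (fun j => ?_) i
    simp [hγ]
  have hL2 : ∀ v : Fin b → ℂ, L2 a b (Fin.cons t (γ v)) = Fin.cons t v := by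
    intro v
    funext i
    refine Fin.cases rfl (fun j => ?_) i
    simp [hγ]
  have hγt : ∀ v : Fin b → ℂ, (Fin.cons t v : Fin (b + 1) → ℂ) ∈ d.target →
      (Fin.cons t (γ v) : Fin (a + b + 1) → ℂ) ∈ (FP.chart e d hech hd p0).target := by
    intro v hv
    show L1 a b (Fin.cons t (γ v)) ∈ e.target ∧ L2 a b (Fin.cons t (γ v)) ∈ d.target
    rw [hL1, hL2]
    exact ⟨hech.cp_mem (mem_ch q), hv⟩
  have h2 : DifferentiableWithinAt ℂ ((fun z : Fin (a + b) → ℂ =>
      F ((FP.chart e d hech hd p0).symm (Fin.cons t z))) ∘ γ)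
      {u | (Fin.cons t u : Fin (b + 1) → ℂ) ∈ d.target} u :=
    (h1 (γ u) (hγt u hu')).comp u (hγd u).differentiableWithinAt (fun v hv => hγt v hv)
  have key : ∀ v : Fin b → ℂ, (Fin.cons t v : Fin (b + 1) → ℂ) ∈ d.target →
      ext2 F q (d.symm (Fin.cons t v)) = F ((FP.chart e d hech hd p0).symm (Fin.cons t (γ v))) := by
    intro v hv
    have hc : (cp q : Fin (a + 1) → ℂ) 0 = (cp (d.symm (Fin.cons t v)) : Fin (b + 1) → ℂ) 0 := by
      rw [hd.cp_symm hv, ← hq]; rfl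
    rw [ext2_of _ hc]
    congr 1
    have : (FP.chart e d hech hd p0).symm (Fin.cons t (γ v)) =
        FP.mk' (e.symm (L1 a b (Fin.cons t (γ v)))) (d.symm (L2 a b (Fin.cons t (γ v))))
          (FP.compat hech hd (hγt v hv)) := dif_pos (hγt v hv)
    rw [this]
    apply FP.ext'
    · show q = e.symm (L1 a b (Fin.cons t (γ v)))
      rw [hL1, hech.symm_cp (mem_ch q)]
    · show d.symm (Fin.cons t v) = d.symm (L2 a b (Fin.cons t (γ v)))
      rw [hL2]
  exact h2.congr (fun v hv => key v hv) (key u hu')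

/-- slices in the first variable (second variable fixed) -/
lemma FHol.slice2 {t : ℂ} {F : FP M N → ℂ} (hF : FHol t F) (y : N) (hy : tc y = t) :
    FHol t (fun q : M => ext2 F q y) := by
  intro e hech
  set d := ch y with hde
  have hd : IsCh d := isCh_ch y
  intro u hu
  have hu' : (Fin.cons t u : Fin (a + 1) → ℂ) ∈ e.target := hu
  set p0 : FP M N := FP.mk' (e.symm (Fin.cons t u)) y (by
      rw [hech.cp_symm hu', ← hy]; rfl) with hp0
  have hch := FP.isCh_chart hech hd p0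
  have h1 := hF _ hch
  set γ : (Fin a → ℂ) → (Fin (a + b) → ℂ) := fun u => Fin.append u (tl y) with hγ
  have hγd : Differentiable ℂ γ := by
    rw [differentiable_pi]
    intro i
    refine Fin.addCases (fun j => ?_) (fun j => ?_) i
    · simp only [hγ, Fin.append_left]
      exact differentiable_apply j
    · simp only [hγ, Fin.append_right]
      exact differentiable_const _
  have hL1 : ∀ v : Fin a → ℂ, L1 a b (Fin.cons t (γ v)) = Fin.cons t v := by
    intro v
    funext i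
    refine Fin.cases rfl (fun j => ?_) i
    simp [hγ]
  have hL2 : ∀ v : Fin a → ℂ, L2 a b (Fin.cons t (γ v)) = cp y := by
    intro v
    rw [← cons_tl y, hy]
    funext i
    refine Fin.cases rfl (fun j => ?_) i
    simp [hγ]
  have hγt : ∀ v : Fin a → ℂ, (Fin.cons t v : Fin (a + 1) → ℂ) ∈ e.target →
      (Fin.cons t (γ v) : Fin (a + b + 1) → ℂ) ∈ (FP.chart e d hech hd p0).target := by
    intro v hv
    show L1 a b (Fin.cons t (γ v)) ∈ e.target ∧ L2 a b (Fin.cons t (γ v)) ∈ d.target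
    rw [hL1, hL2]
    exact ⟨hv, hd.cp_mem (mem_ch y)⟩
  have h2 : DifferentiableWithinAt ℂ ((fun z : Fin (a + b) → ℂ =>
      F ((FP.chart e d hech hd p0).symm (Fin.cons t z))) ∘ γ)
      {u | (Fin.cons t u : Fin (a + 1) → ℂ) ∈ e.target} u :=
    (h1 (γ u) (hγt u hu')).comp u (hγd u).differentiableWithinAt (fun v hv => hγt v hv)
  have key : ∀ v : Fin a → ℂ, (Fin.cons t v : Fin (a + 1) → ℂ) ∈ e.target →
      ext2 F (e.symm (Fin.cons t v)) y = F ((FP.chart e d hech hd p0).symm (Fin.cons t (γ v))) := by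
    intro v hv
    have hc : (cp (e.symm (Fin.cons t v)) : Fin (a + 1) → ℂ) 0 = (cp y : Fin (b + 1) → ℂ) 0 := by
      rw [hech.cp_symm hv, ← hy]; rfl
    rw [ext2_of _ hc]
    congr 1
    have : (FP.chart e d hech hd p0).symm (Fin.cons t (γ v)) =
        FP.mk' (e.symm (L1 a b (Fin.cons t (γ v)))) (d.symm (L2 a b (Fin.cons t (γ v))))
          (FP.compat hech hd (hγt v hv)) := dif_pos (hγt v hv)
    rw [this]
    apply FP.ext'
    · show e.symm (Fin.cons t v) = e.symm (L1 a b (Fin.cons t (γ v)))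
      rw [hL1]
    · show y = d.symm (L2 a b (Fin.cons t (γ v)))
      rw [hL2, hd.symm_cp (mem_ch y)]
  exact h2.congr (fun v hv => key v hv) (key u hu')

end FHol

/-! ### the Bergman inequality on powers -/

section pw

variable {R : ℝ}

/-- product of a function over the factors of `D.pw j` -/
def tp {E : Type*} [Mul E] (D : Dom R) (g : D.P → E) : ∀ j : ℕ, (D.pw j).P → E
  | 0 => g
  | j + 1 => fun p => tp D g j (FP.fst (M := (D.pw j).P) (N := D.P) p) *
      g (FP.snd (M := (D.pw j).P) (N := D.P) p)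

/-- the Borel structure on fibre products -/
local instance instMFP {a b : ℕ} {M N : Type} [TopologicalSpace M] [TopologicalSpace N]
    [RDom (a + 1) M] [RDom (b + 1) N] : MeasurableSpace (FP M N) := borel _
local instance instBFP {a b : ℕ} {M N : Type} [TopologicalSpace M] [TopologicalSpace N]
    [RDom (a + 1) M] [RDom (b + 1) N] : BorelSpace (FP M N) := ⟨rfl⟩


/-- Fubini inequality for fibre-holomorphic functions -/
lemma nrm_mul_ge' (Q D : Dom R) {F : (Q.mul D).P → ℂ} {t : ℂ} (hF : FHol t F) :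
    fi (fun q : Q.P => Q.wt q * D.nrm (fun x => ext2 (M := Q.P) (N := D.P) F q x) t) t ≤
      (Q.mul D).nrm F t := by
  set F' : (Q.mul D).P → ℂ := {x : (Q.mul D).P | tc x = t}.indicator F with hF'
  have hmF : Measurable F' := FHol.measurable_ind hF
  have h0 : (Q.mul D).nrm F t = (Q.mul D).nrm F' t :=
    Dom.nrm_congr _ fun x hx => (indicator_of_mem (s := {x : (Q.mul D).P | tc x = t}) hx F).symm
  rw [h0]
  have hm : Measurable ((Q.mul D).dens F') := by
    unfold Dom.dens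
    exact ((hmF.norm.pow_const 2).ennreal_ofReal).mul (Q.mul D).wt_meas
  have hfub : (Q.mul D).nrm F' t = fi (fun m : Q.P => fi (fun n : D.P =>
      ext2 (M := Q.P) (N := D.P) ((Q.mul D).dens F') m n) t) t :=
    fi_FP (M := Q.P) (N := D.P) hm t
  rw [hfub]
  refine fi_mono fun q hq => ?_
  refine (fi_const_mul_le _ t _).trans ?_
  refine fi_mono fun x hx => ?_
  have h : (cp q : Fin (Q.a + 1) → ℂ) 0 = (cp x : Fin (D.a + 1) → ℂ) 0 := by rw [hq, hx]
  have htq : tc (FP.mk' q x h : FP Q.P D.P) = t := hq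
  have h1 : ext2 (M := Q.P) (N := D.P) ((Q.mul D).dens F') q x =
      ENNReal.ofReal (‖F (FP.mk' q x h)‖ ^ 2) * (Q.wt q * D.wt x) := by
    rw [ext2_of (M := Q.P) (N := D.P) _ h]
    unfold Dom.dens
    rw [Dom.wt_mul]
    have h3 : F' (FP.mk' q x h) = F (FP.mk' q x h) :=
      indicator_of_mem (s := {x : (Q.mul D).P | tc x = t}) htq F
    rw [h3]
    rfl
  have h2 : D.dens (fun x => ext2 (M := Q.P) (N := D.P) F q x) x =
      ENNReal.ofReal (‖F (FP.mk' q x h)‖ ^ 2) * D.wt x := by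
    unfold Dom.dens
    beta_reduce
    rw [ext2_of (M := Q.P) (N := D.P) F h]
  rw [h1, h2]
  exact le_of_eq (by ring)


end pw

end Crest.Agent.R276.NbB_185
end
private theorem rz_330ed0cd67 : type_of% @_root_.Crest.Agent.R276.NbB_185.tp.eq_def := @_root_.Crest.Agent.R276.NbB_185.tp.eq_def -- L199
private theorem rz_bbe7a4dfc0 : type_of% @_root_.Crest.Agent.R276.NbB_185.tp.eq_1 := @_root_.Crest.Agent.R276.NbB_185.tp.eq_1 -- L199
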