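import Crest.Agent.R276.Sl_748
import Crest.Agent.R276.EngU_29
import Crest.Agent.R276.Restr_29
import Crest.Agent.R276.NbB_185
import Crest.Agent.R266.Osgood

/-!
# Row 276, task W1 (helper185): relative slices

* `f : M → Mb` a projection of Riemann domains (`Prj sp f`), `X : Lft Mb R` a lifted disc in `Mb`
  (`c l`, `cp (c l) = z₀ + l v`, `v = 0` allowed): `rsl S F X : Dom R` = `{(y, l) : f y = c l}`.
-/

set_option autoImplicit false
set_option linter.unusedSectionVars false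

noncomputable section

open Set Filter Topology Complex MeasureTheory Metric
open scoped ENNReal

namespace Crest.Agent.R276.Rs_185

open Crest.Agent.R271 Crest.Agent.R271.Ho51 Crest.Agent.R271.W792 Crest.Agent.R276.PV_159
  Crest.Agent.R276.P_748 Crest.Agent.R276.Sl_748 Crest.Agent.R276.SubL_29
open Crest.Agent.R276.EngU_29 (lev_res)
open Crest.Agent.R276.NbB_185 (tl cons_tl cont_tl)
open TopologicalSpace (Opens)

/-! ### projections and lifted discs -/

section rel

variable {r d n : ℕ} {M Mb : Type} [TopologicalSpace M] [RDom n M] [TopologicalSpace Mb]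
  [RDom r Mb]

/-- a projection of Riemann domains -/
structure Prj (sp : Fin r ⊕ Fin d ≃ Fin n) (f : M → Mb) : Prop where
  cont : Continuous f
  cp_eq : ∀ y, cp (f y) = bt sp (cp y)

variable (Mb) in
/-- a lifted disc -/
structure Lft (R : ℝ) where
  /-- the disc -/
  c : ℂ → Mb
  /-- the centre -/
  z₀ : Fin r → ℂ
  /-- the direction -/
  v : Fin r → ℂ
  cont : ContinuousOn c (ball 0 R)
  cc : ∀ l, ‖l‖ < R → cp (c l) = z₀ + l • v

variable {sp : Fin r ⊕ Fin d ≃ Fin n} {f : M → Mb}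

/-- leaves stay in the fibres -/
lemma Prj.leaf (F : Prj sp f) {e : OpenPartialHomeomorph M (Fin n → ℂ)} (he : IsCh e) {y : M}
    (hy : y ∈ e.source) : ∀ᶠ x in 𝓝 (fx sp (cp y)), f (e.symm (gl sp (cp (f y)) x)) = f y := by
  have h0 : gl sp (cp (f y)) (fx sp (cp y)) = cp y := by rw [F.cp_eq, gl_bt_fx]
  have hg : ContinuousAt (gl sp (cp (f y))) (fx sp (cp y)) := (continuous_gl _).continuousAt
  have h1 : ContinuousAt (fun x => e.symm (gl sp (cp (f y)) x)) (fx sp (cp y)) := by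
    refine ContinuousAt.comp (g := e.symm) ?_ hg
    rw [h0]
    exact e.continuousAt_symm (he.cp_mem hy)
  have h2 : ContinuousAt (fun x => f (e.symm (gl sp (cp (f y)) x))) (fx sp (cp y)) :=
    F.cont.continuousAt.comp h1
  have h3 : ∀ᶠ x in 𝓝 (fx sp (cp y)), f (e.symm (gl sp (cp (f y)) x)) ∈ (ch (f y)).source := by
    refine h2 ((ch (f y)).open_source.mem_nhds ?_)
    show f (e.symm (gl sp (cp (f y)) (fx sp (cp y)))) ∈ _
    rw [h0, he.symm_cp hy]
    exact mem_ch _
  have h4 : ∀ᶠ x in 𝓝 (fx sp (cp y)), gl sp (cp (f y)) x ∈ e.target := by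
    refine hg (e.open_target.mem_nhds ?_)
    rw [h0]
    exact he.cp_mem hy
  filter_upwards [h3, h4] with x h5 h6
  apply (isCh_ch (f y)).injOn h5 (mem_ch _)
  rw [F.cp_eq, he.cp_symm h6, bt_gl]

/-- holomorphic on the fibre of `f` over `z` -/
def HF (sp : Fin r ⊕ Fin d ≃ Fin n) (f : M → Mb) (z : Mb) (G : M → ℂ) : Prop :=
  ∀ y, f y = z → AnalyticAt ℂ (fun x : Fin d → ℂ => G ((ch y).symm (gl sp (cp z) x)))
    (fx sp (cp y))

lemma HF.congr (F : Prj sp f) {z : Mb} {G G' : M → ℂ} (hG : HF sp f z G)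
    (h : ∀ y, f y = z → G' y = G y) : HF sp f z G' := by
  intro y hy
  refine (hG y hy).congr ?_
  have h1 := F.leaf (isCh_ch y) (mem_ch y)
  rw [hy] at h1
  filter_upwards [h1] with x hx
  exact (h _ hx).symm

/-- in any chart -/
lemma HF.at (F : Prj sp f) {z : Mb} {G : M → ℂ} (hG : HF sp f z G)
    {e : OpenPartialHomeomorph M (Fin n → ℂ)} (he : IsCh e) {y : M} (hy : y ∈ e.source)
    (hz : f y = z) : AnalyticAt ℂ (fun x : Fin d → ℂ => G (e.symm (gl sp (cp z) x)))
      (fx sp (cp y)) := by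
  refine (hG y hz).congr ?_
  have h1 := he.germ (isCh_ch y) hy (mem_ch y)
  have h0 : gl sp (cp z) (fx sp (cp y)) = cp y := by rw [← hz, F.cp_eq, gl_bt_fx]
  have h2 : Tendsto (gl sp (cp z)) (𝓝 (fx sp (cp y))) (𝓝 (cp y)) := by
    have := (continuous_gl (sp := sp) (cp z)).tendsto (fx sp (cp y))
    rwa [h0] at this
  filter_upwards [h2.eventually h1] with u hu
  rw [hu]

variable [T2Space M] [SecondCountableTopology M] [T2Space Mb]

section

variable {R : ℝ}

lemma isClopen_rel (F : Prj sp f) (X : Lft Mb R) :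
    IsClopen {q : Sl M sp X.z₀ X.v R | f q.pr = X.c q.l} := by
  have hc : Continuous fun q : Sl M sp X.z₀ X.v R => X.c q.l := by
    rw [continuous_iff_continuousAt]
    intro q
    have h1 : ContinuousAt X.c q.l :=
      X.cont.continuousAt (isOpen_ball.mem_nhds (mem_ball_zero_iff.2 q.norm_l))
    exact h1.comp (f := fun q : Sl M sp X.z₀ X.v R => q.l) Sl.cont_l.continuousAt
  have hf : Continuous fun q : Sl M sp X.z₀ X.v R => f q.pr := F.cont.comp Sl.cont_pr
  refine ⟨isClosed_eq hf hc, ?_⟩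
  rw [isOpen_iff_mem_nhds]
  intro q hq
  have hq' : f q.pr = X.c q.l := hq
  have h1 : ∀ᶠ q' in 𝓝 q, f (Sl.pr q') ∈ (ch (f q.pr)).source :=
    hf.continuousAt ((ch (f q.pr)).open_source.mem_nhds (mem_ch _))
  have h2 : ∀ᶠ q' in 𝓝 q, X.c (Sl.l q') ∈ (ch (f q.pr)).source := by
    refine hc.continuousAt ((ch (f q.pr)).open_source.mem_nhds ?_)
    show X.c q.l ∈ _
    rw [← hq']
    exact mem_ch _
  filter_upwards [h1, h2] with q' h3 h4
  show f q'.pr = X.c q'.l
  apply (isCh_ch (f q.pr)).injOn h3 h4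
  rw [F.cp_eq, q'.bt_pr, X.cc _ q'.norm_l]

/-- the open set -/
@[reducible] def opn (F : Prj sp f) (X : Lft Mb R) : Opens (Sl M sp X.z₀ X.v R) :=
  ⟨{q : Sl M sp X.z₀ X.v R | f q.pr = X.c q.l}, (isClopen_rel F X).2⟩

/-- the relative slice `{(y, l) : f y = c l}` -/
def Rsl (F : Prj sp f) (X : Lft Mb R) : Type := opn F X

instance instTopRsl (F : Prj sp f) (X : Lft Mb R) : TopologicalSpace (Rsl F X) :=
  inferInstanceAs (TopologicalSpace (opn F X))
instance instT2Rsl (F : Prj sp f) (X : Lft Mb R) : T2Space (Rsl F X) :=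
  inferInstanceAs (T2Space (opn F X))
instance instSCRsl (F : Prj sp f) (X : Lft Mb R) : SecondCountableTopology (Rsl F X) :=
  inferInstanceAs (SecondCountableTopology (opn F X))
instance instRDomRsl (F : Prj sp f) (X : Lft Mb R) : RDom (d + 1) (Rsl F X) := rdO (opn F X)

/-- the inclusion into the slice -/
def Rsl.v {F : Prj sp f} {X : Lft Mb R} (q : Rsl F X) : Sl M sp X.z₀ X.v R := Subtype.val q

lemma isClosedEmbedding_v (F : Prj sp f) (X : Lft Mb R) :
    IsClosedEmbedding (Rsl.v : Rsl F X → Sl M sp X.z₀ X.v R) :=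
  IsClosed.isClosedEmbedding_subtypeVal (isClopen_rel F X).1

/-- the relative slice as a `Dom` -/
@[reducible] def rsl (S : SD n M) (F : Prj sp f) (X : Lft Mb R) : Dom R where
  P := Rsl F X
  top := instTopRsl F X
  t2 := instT2Rsl F X
  sc := instSCRsl F X
  a := d
  rd := instRDomRsl F X
  ρ := fun q => rh S.ρ q.v
  ρ_sm := sm_res (opn F X) (sm_rh S.ρ_sm)
  ρ_cpt := fun c => (isClosedEmbedding_v F X).isCompact_preimage (cpt_rh S.ρ_sm S.ρ_cpt c)
  ρ_lev := fun x w => (lev_rh S.ρ_sm S.ρ_lev x.v w).trans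
    (le_of_eq (lev_res (opn F X) (rh S.ρ) x w).symm)
  φ := fun k q => S.φ k q.v.pr
  φ_sm := fun k => sm_res (opn F X) (Sl.mor.sm (S.φ_sm k))
  φ_anti := fun q => S.φ_anti q.v.pr
  φ_lev := fun k x w => by
    have h1 := lev_res (opn F X) (fun q : Sl M sp X.z₀ X.v R => S.φ k q.pr) x w
    have h2 : 0 ≤ lev (fun q : Sl M sp X.z₀ X.v R => S.φ k q.pr) x.v w := by
      rw [Sl.mor.lev_eq (S.φ_sm k)]
      exact S.φ_lev k _ _
    exact h2.trans (le_of_eq h1.symm)
  tR := fun q => q.v.norm_l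

variable {S : SD n M} {F : Prj sp f} {X : Lft Mb R}

/-- the projection to `M` -/
def pr (q : (rsl S F X).P) : M := Sl.pr q.1

lemma f_pr (q : (rsl S F X).P) : f (pr q) = X.c (tc q) := q.2

lemma norm_tc (q : (rsl S F X).P) : ‖tc q‖ < R := (rsl S F X).tR q

lemma cont_pr : Continuous (pr : (rsl S F X).P → M) := Sl.cont_pr.comp continuous_subtype_val

/-- constructor -/
def mk (y : M) (l : ℂ) (hl : ‖l‖ < R) (h : f y = X.c l) : (rsl S F X).P :=
  ⟨Sl.mk' y l (by rw [← F.cp_eq, h, X.cc l hl]) hl, h⟩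

@[simp] lemma pr_mk (y : M) (l : ℂ) (hl : ‖l‖ < R) (h : f y = X.c l) :
    pr (mk y l hl h : (rsl S F X).P) = y := rfl

@[simp] lemma tc_mk (y : M) (l : ℂ) (hl : ‖l‖ < R) (h : f y = X.c l) :
    tc (mk y l hl h : (rsl S F X).P) = l := rfl

lemma ext' {p q : (rsl S F X).P} (h1 : pr p = pr q) (h2 : tc p = tc q) : p = q :=
  Subtype.ext (Sl.ext' h1 h2)

@[simp] lemma mk_pr (q : (rsl S F X).P) (hl : ‖tc q‖ < R) (h : f (pr q) = X.c (tc q)) :
    mk (pr q) (tc q) hl h = q := ext' rfl rfl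

lemma rsl_wt (q : (rsl S F X).P) : (rsl S F X).wt q = S.wt (pr q) := rfl

lemma tl_eq (q : (rsl S F X).P) : (tl q : Fin d → ℂ) = fx sp (cp (pr q)) := rfl

lemma cp_eq (q : (rsl S F X).P) :
    (cp q : Fin (d + 1) → ℂ) = Fin.cons (tc q) (fx sp (cp (pr q))) := rfl

lemma cp_pr (q : (rsl S F X).P) :
    cp (pr q) = gl sp (cp (X.c (tc q))) (tl q) := by
  rw [tl_eq, ← f_pr, F.cp_eq, gl_bt_fx]

/-- continuity into the relative slice -/
lemma continuousOn_iff {Z : Type*} [TopologicalSpace Z] {g : Z → (rsl S F X).P} {A : Set Z} :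
    ContinuousOn g A ↔ ContinuousOn (fun z => pr (g z)) A ∧ ContinuousOn (fun z => tc (g z)) A := by
  constructor
  · intro h
    exact ⟨cont_pr.comp_continuousOn h, cont_tc.comp_continuousOn h⟩
  · rintro ⟨h1, h2⟩
    have h3 : IsInducing (Rsl.v : Rsl F X → Sl M sp X.z₀ X.v R) :=
      (isClosedEmbedding_v F X).isInducing
    have h4 : IsInducing (Subtype.val : {q : M × ℂ // bt sp (cp q.1) = X.z₀ + q.2 • X.v ∧
        ‖q.2‖ < R} → M × ℂ) := Topology.IsInducing.subtypeVal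
    refine h3.continuousOn_iff.2 (h4.continuousOn_iff.2 ?_)
    exact h1.prodMk h2

lemma mor_pr : Mor (gl sp X.z₀ 0) (Lm sp X.v) (pr : (rsl S F X).P → M) where
  cont := cont_pr
  eq q := Sl.mor.eq q.1

lemma holMap_pr : Crest.Agent.R276.PshB_29.HolMap (pr : (rsl S F X).P → M) :=
  Restr_29.HolMap.of_mor mor_pr

lemma hol_pr {G : M → ℂ} (hG : Ho51.Hol G) : Ho51.Hol fun q : (rsl S F X).P => G (pr q) :=
  Restr_29.HolMap.comp_hol holMap_pr hG

/-- the chart of the relative slice in terms of the chart of `M` -/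
lemma germ_pr {q : (rsl S F X).P} {l : ℂ} (hq : tc q = l)
    {e : OpenPartialHomeomorph (rsl S F X).P (Fin (d + 1) → ℂ)} (he : IsCh e) (hqe : q ∈ e.source) :
    ∀ᶠ x in 𝓝 (tl q : Fin d → ℂ), (Fin.cons l x : Fin (d + 1) → ℂ) ∈ e.target ∧
      pr (e.symm (Fin.cons l x)) = (ch (pr q)).symm (gl sp (cp (X.c l)) x) := by
  have h0 : (Fin.cons l (tl q) : Fin (d + 1) → ℂ) = cp q := by
    rw [← hq]; exact cons_tl (a := d) q
  have hmem : (Fin.cons l (tl q) : Fin (d + 1) → ℂ) ∈ e.target := by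
    rw [h0]; exact he.cp_mem hqe
  have hcc : Continuous fun x : Fin d → ℂ => (Fin.cons l x : Fin (d + 1) → ℂ) :=
    (differentiable_cons l).continuous
  have h1 : ContinuousAt (fun x : Fin d → ℂ => e.symm (Fin.cons l x)) (tl q) :=
    ContinuousAt.comp (g := e.symm) (f := fun x : Fin d → ℂ => (Fin.cons l x : Fin (d + 1) → ℂ))
      (e.continuousAt_symm hmem) hcc.continuousAt
  have h2 : ContinuousAt (fun x : Fin d → ℂ => pr (e.symm (Fin.cons l x))) (tl q) :=
    (cont_pr (S := S) (F := F) (X := X)).continuousAt.comp h1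
  have h3 : ∀ᶠ x in 𝓝 (tl q : Fin d → ℂ), pr (e.symm (Fin.cons l x)) ∈ (ch (pr q)).source := by
    refine h2 ((ch (pr q)).open_source.mem_nhds ?_)
    show pr (e.symm (Fin.cons l (tl q))) ∈ _
    rw [h0, he.symm_cp hqe]
    exact mem_ch _
  have h4 : ∀ᶠ x in 𝓝 (tl q : Fin d → ℂ), (Fin.cons l x : Fin (d + 1) → ℂ) ∈ e.target :=
    hcc.continuousAt (e.open_target.mem_nhds hmem)
  filter_upwards [h3, h4] with x h5 h6
  refine ⟨h6, ?_⟩
  have h7 := (isCh_ch (pr q)).symm_cp h5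
  rw [← h7, cp_pr]
  have h8 : (cp (e.symm (Fin.cons l x)) : Fin (d + 1) → ℂ) = Fin.cons l x := he.cp_symm h6
  have h9 : tc (e.symm (Fin.cons l x)) = l := by
    show (cp (e.symm (Fin.cons l x)) : Fin (d + 1) → ℂ) 0 = l
    rw [h8]; rfl
  have h10 : (tl (e.symm (Fin.cons l x)) : Fin d → ℂ) = x := by
    funext i
    show (cp (e.symm (Fin.cons l x)) : Fin (d + 1) → ℂ) i.succ = x i
    rw [h8, Fin.cons_succ]
  rw [h9, h10]

/-- **fibrewise holomorphic functions**, from the relative slice to the fibre -/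
theorem hf_of_fhol {l : ℂ} (hl : ‖l‖ < R) {G : M → ℂ}
    (h : FHol l fun q : (rsl S F X).P => G (pr q)) : HF sp f (X.c l) G := by
  intro y hy
  set q : (rsl S F X).P := mk y l hl hy with hq
  set e := ch q with he
  have hech : IsCh e := isCh_ch q
  have hopen : IsOpen {u : Fin d → ℂ | (Fin.cons l u : Fin (d + 1) → ℂ) ∈ e.target} :=
    e.open_target.preimage (differentiable_cons l).continuous
  have h1 := germ_pr (q := q) (l := l) rfl hech (mem_ch q)
  have h2 : (tl q : Fin d → ℂ) ∈ {u : Fin d → ℂ | (Fin.cons l u : Fin (d + 1) → ℂ) ∈ e.target} :=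
    h1.self_of_nhds.1
  have h3 : AnalyticAt ℂ (fun u : Fin d → ℂ => G (pr (e.symm (Fin.cons l u)))) (tl q) :=
    Crest.Agent.R266.SCV.analyticOnNhd_of_differentiableOn hopen (h e hech) _ h2
  refine h3.congr ?_
  filter_upwards [h1] with x hx
  rw [hx.2, hq, pr_mk]


open Classical in
/-- a function on the relative slice as a function on `M` -/
def low (g : (rsl S F X).P → ℂ) (l : ℂ) (y : M) : ℂ :=
  if h : ‖l‖ < R ∧ f y = X.c l then g (mk y l h.1 h.2) else 0

lemma low_pr (g : (rsl S F X).P → ℂ) {l : ℂ} {q : (rsl S F X).P} (hq : tc q = l) :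
    low g l (pr q) = g q := by
  subst hq
  unfold low
  rw [dif_pos ⟨norm_tc q, f_pr q⟩, mk_pr]

/-- **fibrewise holomorphic functions**, from the relative slice to the fibre -/
theorem FHol.low {l : ℂ} (hl : ‖l‖ < R) {g : (rsl S F X).P → ℂ} (h : FHol l g) :
    HF sp f (X.c l) (Rs_185.low g l) :=
  hf_of_fhol hl (h.congr fun _ hq => low_pr g hq)

/-- fibres -/
def fibR {l : ℂ} (hl : ‖l‖ < R) (x : Fin d → ℂ) :
    {q : (rsl S F X).P // cp q = (Fin.cons l x : Fin (d + 1) → ℂ)} ≃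
      {y : M // f y = X.c l ∧ fx sp (cp y) = x} where
  toFun q := ⟨pr q.1, by
    have h := q.2
    have h1 : tc q.1 = l := by
      show (cp q.1 : Fin (d + 1) → ℂ) 0 = l
      rw [h]; rfl
    have h2 : (tl q.1 : Fin d → ℂ) = x := by
      funext i
      show (cp q.1 : Fin (d + 1) → ℂ) i.succ = x i
      rw [h, Fin.cons_succ]
    exact ⟨by rw [f_pr (S := S) (F := F) (X := X) q.1, h1], by rw [← tl_eq, h2]⟩⟩
  invFun y := ⟨mk y.1 l hl y.2.1, by
    rw [cp_eq, tc_mk, pr_mk, y.2.2]⟩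
  left_inv q := by
    apply Subtype.ext
    refine ext' rfl ?_
    show l = tc q.1
    show l = (cp q.1 : Fin (d + 1) → ℂ) 0
    rw [q.2]; rfl
  right_inv y := rfl

/-- **fibre integrals** -/
theorem fi_rsl {l : ℂ} (hl : ‖l‖ < R) {g : (rsl S F X).P → ℝ≥0∞} {G : M → ℝ≥0∞}
    (h : ∀ q, tc q = l → g q = G (pr q)) :
    fi g l = ∫⁻ x : Fin d → ℂ, ∑' y : {y : M // f y = X.c l ∧ fx sp (cp y) = x}, G y.1 := by
  unfold fi
  refine lintegral_congr fun x => ?_
  unfold fsum
  rw [← (fibR (S := S) (F := F) (X := X) hl x).tsum_eq]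
  refine tsum_congr fun q => ?_
  refine h q.1 ?_
  show (cp q.1 : Fin (d + 1) → ℂ) 0 = l
  rw [q.2]; rfl

end

/-! ### sections -/

section sec

variable {R : ℝ} (F : Prj sp f) {e : OpenPartialHomeomorph M (Fin n → ℂ)} (he : IsCh e)
  {z w : Fin n → ℂ} (hd : ∀ l ∈ ball (0 : ℂ) R, z + l • w ∈ e.target)

lemma contOn_disc (e : OpenPartialHomeomorph M (Fin n → ℂ)) {z w : Fin n → ℂ}
    (hd : ∀ l ∈ ball (0 : ℂ) R, z + l • w ∈ e.target) :
    ContinuousOn (fun l : ℂ => e.symm (z + l • w)) (ball 0 R) :=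
  e.continuousOn_symm.comp
    (continuous_const.add (continuous_id.smul continuous_const)).continuousOn hd

/-- the lifted disc `f (e⁻¹ (z + l w))` -/
def lft : Lft Mb R where
  c l := f (e.symm (z + l • w))
  z₀ := bt sp z
  v := bt sp w
  cont := F.cont.comp_continuousOn (contOn_disc e hd)
  cc l hl := by
    rw [F.cp_eq, he.cp_symm (hd l (mem_ball_zero_iff.2 hl))]
    rfl

open Classical in
/-- the section of the relative slice given by the disc `e⁻¹ (z + l w)` -/
def sec (S : SD n M) (hR : 0 < R) (l : ℂ) : (rsl S F (lft F he hd)).P :=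
  if hl : ‖l‖ < R then mk (e.symm (z + l • w)) l hl rfl else
    mk (e.symm (z + (0 : ℂ) • w)) 0 (by rwa [norm_zero]) rfl

variable {S : SD n M} (hR : 0 < R)

lemma pr_sec {l : ℂ} (hl : ‖l‖ < R) : pr (sec F he hd S hR l) = e.symm (z + l • w) := by
  unfold sec
  rw [dif_pos hl]
  rfl

lemma tc_sec {l : ℂ} (hl : ‖l‖ < R) : tc (sec F he hd S hR l) = l := by
  unfold sec
  rw [dif_pos hl]
  rfl

lemma cont_sec : ContinuousOn (sec F he hd S hR) (ball 0 R) := by
  rw [continuousOn_iff]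
  refine ⟨(contOn_disc e hd).congr fun l hl => pr_sec F he hd hR (mem_ball_zero_iff.1 hl),
    continuousOn_id.congr fun l hl => tc_sec F he hd hR (mem_ball_zero_iff.1 hl)⟩

lemma cp_sec {l : ℂ} (hl : ‖l‖ < R) :
    (cp (sec F he hd S hR l) : Fin (d + 1) → ℂ) = Fin.cons l (fx sp z + l • fx sp w) := by
  rw [cp_eq, tc_sec F he hd hR hl, pr_sec F he hd hR hl,
    he.cp_symm (hd l (mem_ball_zero_iff.2 hl))]
  rfl

lemma hol_sec : DifferentiableOn ℂ
    (fun l => (cp (sec F he hd S hR l) : Fin (d + 1) → ℂ)) (ball 0 R) := by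
  have h1 : Differentiable ℂ (fun l : ℂ => (Fin.cons l (fx sp z + l • fx sp w) :
      Fin (d + 1) → ℂ)) := by
    rw [differentiable_pi]
    intro i
    refine Fin.cases ?_ (fun j => ?_) i
    · exact differentiable_id
    · show Differentiable ℂ fun l : ℂ => fx sp z j + l * fx sp w j
      fun_prop
  exact h1.differentiableOn.congr fun l hl => cp_sec F he hd hR (mem_ball_zero_iff.1 hl)

end sec

end rel

end Crest.Agent.R276.Rs_185
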