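import Crest.Agent.R276.Top1_175
import Crest.Agent.R276.IpcDefs_735
import Crest.Agent.R276.Nil_840

-- ▼ part R276/TrA_617
section

/-!
# R276, helper617: GVHS-T, chain transport of a near-diagonal cocycle

* `Gd P U` : open preconnected set on which `P` is a cocycle.
* `Tr P x z g` : `g` transports the fibre at `z` to the fibre at `x` along a chain of `Gd` sets.
* `mon P x` : monodromy group at `x`.
* `Fl P v` : `v` is a flat section of the associated bundle (any `MulAction`).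
* `extend` : vectors fixed by the monodromy extend to flat sections.
* `tr_transport`, `exists_path` : comparison with transport along paths.
* `Tr.map` : functoriality.
-/

set_option autoImplicit false

open Set Topology Filter unitInterval

namespace Crest.Agent.R276.Tr_617

open Crest.Agent.R276.Ipc735 Crest.Agent.R276.Top1_175 Crest.Agent.R271.Ho51

variable {X : Type*} [TopologicalSpace X] {G : Type*} [Group G]

/-- open preconnected set on which `P` is a cocycle -/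
structure Gd (P : X → X → G) (U : Set X) : Prop where
  op : IsOpen U
  pc : IsPreconnected U
  mul : ∀ x ∈ U, ∀ y ∈ U, ∀ z ∈ U, P x y * P y z = P x z

/-- chain transport: `Tr P x z g` means that `g` transports the fibre at `z` to the fibre at `x` -/
inductive Tr (P : X → X → G) : X → X → G → Prop
  | refl (x : X) : Tr P x x 1
  | step {x y z : X} {g : G} {U : Set X} (hU : Gd P U) (hx : x ∈ U) (hy : y ∈ U)
      (h : Tr P y z g) : Tr P x z (P x y * g)

variable {P : X → X → G} {U : Set X} {x y z : X} {g k : G}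

namespace Gd

theorem self (h : Gd P U) (hx : x ∈ U) : P x x = 1 := by
  have h1 := h.mul x hx x hx x hx
  exact mul_eq_left.1 h1

theorem mul_swap (h : Gd P U) (hx : x ∈ U) (hy : y ∈ U) : P x y * P y x = 1 := by
  rw [h.mul x hx y hy x hx, h.self hx]

theorem inv (h : Gd P U) (hx : x ∈ U) (hy : y ∈ U) : (P x y)⁻¹ = P y x :=
  inv_eq_of_mul_eq_one_right (h.mul_swap hx hy)

/-- a function on a good set which is locally constant on it is constant -/
theorem const {α : Type*} (h : Gd P U) (f : X → α) (hf : ∀ z ∈ U, ∀ᶠ y in 𝓝 z, f y = f z)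
    (hx : x ∈ U) (hy : y ∈ U) : f x = f y := by
  have hp : PreconnectedSpace U := isPreconnected_iff_preconnectedSpace.1 h.pc
  have hl : IsLocallyConstant (fun x : U => f x) := by
    rw [IsLocallyConstant.iff_eventually_eq]
    rintro ⟨z, hz⟩
    have hc : Tendsto (Subtype.val : U → X) (𝓝 ⟨z, hz⟩) (𝓝 z) :=
      continuous_subtype_val.continuousAt
    exact hc.eventually (hf z hz)
  exact hl.apply_eq_of_preconnectedSpace ⟨x, hx⟩ ⟨y, hy⟩

end Gd

/-! ### T1: existence of good sets -/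

theorem exists_gd [LocallyConnectedSpace X] (h : NDC P) (x : X) {V : Set X} (hV : V ∈ 𝓝 x) :
    ∃ U, Gd P U ∧ x ∈ U ∧ U ⊆ V := by
  obtain ⟨W, hW, hc⟩ := h x
  obtain ⟨U, hUs, hUo, hxU, hUc⟩ :=
    locallyConnectedSpace_iff_subsets_isOpen_isConnected.1 inferInstance x _ (inter_mem hW hV)
  exact ⟨U, ⟨hUo, hUc.isPreconnected, fun a ha b hb c hc' =>
    hc a (hUs ha).1 b (hUs hb).1 c (hUs hc').1⟩, hxU, fun a ha => (hUs ha).2⟩


/-! ### T2: composition and inverse -/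

namespace Tr

theorem one_step (hU : Gd P U) (hx : x ∈ U) (hy : y ∈ U) : Tr P x y (P x y) := by
  have h := Tr.step hU hx hy (Tr.refl (P := P) y)
  rwa [mul_one] at h

theorem trans (h : Tr P x y g) (h' : Tr P y z k) : Tr P x z (g * k) := by
  induction h with
  | refl x => rwa [one_mul]
  | step hU hx hy _ ih => rw [mul_assoc]; exact Tr.step hU hx hy (ih h')

theorem symm (h : Tr P x y g) : Tr P y x g⁻¹ := by
  induction h with
  | refl x => rw [inv_one]; exact Tr.refl x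
  | step hU hx hy _ ih =>
    rw [mul_inv_rev, hU.inv hx hy]
    exact ih.trans (one_step hU hy hx)

theorem congr (h : Tr P x y g) (e : g = k) : Tr P x y k := e ▸ h

end Tr

/-- near the diagonal the transport is given by `P` -/
theorem tr_near [LocallyConnectedSpace X] (h : NDC P) (z : X) :
    ∀ᶠ y in 𝓝 z, Tr P z y (P z y) ∧ Tr P y z (P y z) ∧ P z y * P y z = 1 := by
  obtain ⟨U, hU, hz, -⟩ := exists_gd h z univ_mem
  filter_upwards [hU.op.mem_nhds hz] with y hy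
  exact ⟨Tr.one_step hU hz hy, Tr.one_step hU hy hz, hU.mul_swap hz hy⟩

/-! ### T3: existence of transports -/

theorem exists_tr [PreconnectedSpace X] [LocallyConnectedSpace X] (h : NDC P) (x y : X) :
    ∃ g, Tr P x y g := by
  have hS : IsClopen {x | ∃ g, Tr P x y g} := by
    constructor
    · rw [← isOpen_compl_iff, isOpen_iff_mem_nhds]
      intro z hz
      filter_upwards [tr_near h z] with a ha
      rintro ⟨g, hg⟩
      exact hz ⟨_, ha.1.trans hg⟩
    · rw [isOpen_iff_mem_nhds]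
      rintro z ⟨g, hg⟩
      filter_upwards [tr_near h z] with a ha
      exact ⟨_, ha.2.1.trans hg⟩
  have h1 := hS.eq_univ ⟨y, 1, Tr.refl y⟩
  have h2 : x ∈ {x | ∃ g, Tr P x y g} := by rw [h1]; exact mem_univ x
  exact h2

/-! ### T4: the monodromy group -/

/-- monodromy group at `x` -/
def mon (P : X → X → G) (x : X) : Subgroup G where
  carrier := {g | Tr P x x g}
  mul_mem' := fun ha hb => Tr.trans ha hb
  one_mem' := Tr.refl x
  inv_mem' := fun ha => Tr.symm ha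

theorem mem_mon : g ∈ mon P x ↔ Tr P x x g := Iff.rfl

theorem mon_conj (h : Tr P x y g) : k ∈ mon P y ↔ g * k * g⁻¹ ∈ mon P x := by
  constructor
  · intro hk
    exact (h.trans hk).trans h.symm
  · intro hk
    have h1 := (h.symm.trans hk).trans h
    refine h1.congr ?_
    group


theorem Tr.inv_mul_mem (h : Tr P x y g) (h' : Tr P x y k) : g⁻¹ * k ∈ mon P y :=
  h.symm.trans h'


/-! ### T5: flat sections -/

section flat

variable {A : Type*} [MulAction G A] {v w : X → A} {a : A}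

/-- flat section of the associated bundle with fibre `A` -/
def Fl (P : X → X → G) (v : X → A) : Prop := ∀ z, ∀ᶠ y in 𝓝 z, v z = P z y • v y

theorem Fl.gd (hv : Fl P v) (hU : Gd P U) (hx : x ∈ U) (hy : y ∈ U) : v x = P x y • v y := by
  have h1 : P x x • v x = P x y • v y := by
    refine hU.const (fun b => P x b • v b) (fun z hz => ?_) hx hy
    filter_upwards [hv z, hU.op.mem_nhds hz] with b hb hbU
    rw [hb, smul_smul, hU.mul x hx z hz b hbU]
  rwa [hU.self hx, one_smul] at h1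

theorem Fl.tr (hv : Fl P v) (h : Tr P x y g) : v x = g • v y := by
  induction h with
  | refl x => rw [one_smul]
  | step hU hx hy _ ih => rw [hv.gd hU hx hy, ih, smul_smul]

theorem Fl.mon (hv : Fl P v) (hk : k ∈ mon P x) : k • v x = v x := (hv.tr hk).symm

theorem Fl.ext [PreconnectedSpace X] [LocallyConnectedSpace X] (h : NDC P) (hv : Fl P v)
    (hw : Fl P w) (h0 : v x = w x) : v = w := by
  funext y
  obtain ⟨g, hg⟩ := exists_tr h y x
  rw [hv.tr hg, hw.tr hg, h0]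

theorem Fl.ext' [PreconnectedSpace X] (hv : Fl P v) (hw : Fl P w) (h0 : v x = w x) :
    v = w := by
  have hS : IsClopen {y | v y = w y} := by
    constructor
    · rw [← isOpen_compl_iff, isOpen_iff_mem_nhds]
      intro z hz
      filter_upwards [hv z, hw z] with b h1 h2 h3
      apply hz
      show v z = w z
      rw [h1, h2]
      congr 1
    · rw [isOpen_iff_mem_nhds]
      intro z hz
      filter_upwards [hv z, hw z] with b h1 h2
      have h3 : v z = w z := hz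
      rw [h1, h2] at h3
      exact smul_left_cancel _ h3
  have h1 := hS.eq_univ ⟨x, h0⟩
  funext y
  have h2 : y ∈ {y | v y = w y} := by rw [h1]; exact mem_univ y
  exact h2

/-- the other direction of transport near a point -/
theorem Fl.ev [LocallyConnectedSpace X] (h : NDC P) (hv : Fl P v) (z : X) :
    ∀ᶠ y in 𝓝 z, v y = P y z • v z := by
  filter_upwards [tr_near h z] with y hy
  exact hv.tr hy.2.1

theorem Fl.of_tr [LocallyConnectedSpace X] (h : NDC P)
    (hv : ∀ x y g, Tr P x y g → v x = g • v y) : Fl P v := by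
  intro z
  filter_upwards [tr_near h z] with y hy
  exact hv _ _ _ hy.1


/-- **a vector fixed by the monodromy extends to a flat section** -/
theorem extend [PreconnectedSpace X] [LocallyConnectedSpace X] (h : NDC P) (x₀ : X)
    (ha : ∀ k ∈ mon P x₀, k • a = a) :
    ∃ v : X → A, Fl P v ∧ v x₀ = a ∧ ∀ x g, Tr P x x₀ g → v x = g • a := by
  choose g hg using fun x => exists_tr h x x₀
  have key : ∀ x k, Tr P x x₀ k → g x • a = k • a := by
    intro x k hk
    have h1 := ha _ ((hg x).inv_mul_mem hk)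
    rw [← smul_smul, inv_smul_eq_iff] at h1
    exact h1.symm
  refine ⟨fun x => g x • a, Fl.of_tr h fun x y k hk => ?_, ?_, key⟩
  · show g x • a = k • g y • a
    rw [smul_smul]
    exact key x _ (hk.trans (hg y))
  · have h1 := key x₀ 1 (Tr.refl x₀)
    rwa [one_smul] at h1

theorem Fl.map {B : Type*} [MulAction G B] (hv : Fl P v) (f : A → B)
    (hf : ∀ (k : G) (a : A), f (k • a) = k • f a) : Fl P (fun x => f (v x)) := by
  intro z
  filter_upwards [hv z] with y hy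
  show f (v z) = P z y • f (v y)
  rw [hy, hf]

end flat


/-! ### T7: functoriality -/

theorem Gd.tr_comp {Y : Type*} [TopologicalSpace Y] [LocallyConnectedSpace X] (h : NDC P)
    {f : Y → X} (hf : Continuous f) {W : Set Y} (hW : Gd (fun a b => P (f a) (f b)) W)
    {a b : Y} (ha : a ∈ W) (hb : b ∈ W) : Tr P (f a) (f b) (P (f a) (f b)) := by
  have key : (Tr P (f a) (f b) (P (f a) (f b))) = (Tr P (f b) (f b) (P (f b) (f b))) := by
    refine hW.const (fun c => Tr P (f c) (f b) (P (f c) (f b))) (fun c hc => ?_) ha hb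
    filter_upwards [hf.continuousAt.eventually (tr_near h (f c)), hW.op.mem_nhds hc] with d hd hdW
    refine propext ⟨fun h1 => ?_, fun h1 => ?_⟩
    · have h2 := hd.1.trans h1
      rwa [hW.mul c hc d hdW b hb] at h2
    · have h2 := hd.2.1.trans h1
      rwa [hW.mul d hdW c hc b hb] at h2
  rw [key]
  have h1 : P (f b) (f b) = 1 := hW.self hb
  rw [h1]
  exact Tr.refl _

theorem Tr.map {Y : Type*} [TopologicalSpace Y] [LocallyConnectedSpace X] (h : NDC P)
    {f : Y → X} (hf : Continuous f) {a b : Y} (hab : Tr (fun a b => P (f a) (f b)) a b g) :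
    Tr P (f a) (f b) g := by
  induction hab with
  | refl x => exact Tr.refl _
  | step hW ha hb _ ih => exact (hW.tr_comp h hf ha hb).trans ih

theorem mon_comp {Y : Type*} [TopologicalSpace Y] [LocallyConnectedSpace X] (h : NDC P)
    {f : Y → X} (hf : Continuous f) (b : Y) :
    Tr_617.mon (fun a b => P (f a) (f b)) b ≤ Tr_617.mon P (f b) :=
  fun _ hg => Tr.map h hf hg


/-- a group homomorphism applied to the cocycle -/
theorem Tr.hom {H : Type*} [Group H] (φ : G →* H) (h : Tr P x y g) :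
    Tr (fun a b => φ (P a b)) x y (φ g) := by
  induction h with
  | refl x => rw [map_one]; exact Tr.refl x
  | @step x y z g U hU hx hy _ ih =>
    rw [map_mul]
    refine Tr.step (P := fun a b => φ (P a b)) (U := U) ⟨hU.op, hU.pc, fun a ha b hb c hc => ?_⟩
      hx hy ih
    show φ (P a b) * φ (P b c) = φ (P a c)
    rw [← map_mul, hU.mul a ha b hb c hc]

/-! ### comparison of two cocycles -/

/-- if two cocycles `P`, `P'` are related near the diagonal by a multiplicative relation `R`, then every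
chain transport of `P` is related to a chain transport of `P'` -/
theorem Tr.rel {H : Type*} [Group H] [LocallyConnectedSpace X] {P' : X → X → H} (h' : NDC P')
    (R : X → X → G → H → Prop) (h1 : ∀ x, R x x 1 1)
    (hmul : ∀ x y z g k g' k', R x y g g' → R y z k k' → R x z (g * k) (g' * k'))
    (hinv : ∀ x y g g', R x y g g' → R y x g⁻¹ g'⁻¹)
    (hloc : ∀ z, ∀ᶠ y in 𝓝 z, R z y (P z y) (P' z y)) (h : Tr P x y g) :
    ∃ g', Tr P' x y g' ∧ R x y g g' := by
  induction h with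
  | refl x => exact ⟨1, Tr.refl x, h1 x⟩
  | @step x y z g U hU hx hy _ ih =>
    obtain ⟨g', hg', hR⟩ := ih
    have key : (∃ k', Tr P' x y k' ∧ R x y (P x y) k') = (∃ k', Tr P' y y k' ∧ R y y (P y y) k') := by
      refine hU.const (fun c => ∃ k', Tr P' c y k' ∧ R c y (P c y) k') (fun c hc => ?_) hx hy
      filter_upwards [tr_near h' c, hloc c, hU.op.mem_nhds hc] with d hd hdl hdU
      refine propext ⟨?_, ?_⟩
      · rintro ⟨k', hk', hR'⟩
        refine ⟨_, hd.1.trans hk', ?_⟩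
        have h2 := hmul _ _ _ _ _ _ _ hdl hR'
        rwa [hU.mul c hc d hdU y hy] at h2
      · rintro ⟨k', hk', hR'⟩
        refine ⟨_, hd.1.symm.trans hk', ?_⟩
        have h2 := hmul _ _ _ _ _ _ _ (hinv _ _ _ _ hdl) hR'
        rwa [hU.inv hc hdU, hU.mul d hdU c hc y hy] at h2
    have h3 : ∃ k', Tr P' x y k' ∧ R x y (P x y) k' := by
      rw [key]
      refine ⟨1, Tr.refl y, ?_⟩
      rw [hU.self hy]
      exact h1 y
    obtain ⟨k', hk', hR'⟩ := h3
    exact ⟨k' * g', hk'.trans hg', hmul _ _ _ _ _ _ _ hR' hR⟩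

/-! ### T6: paths -/






end Crest.Agent.R276.Tr_617
end

-- ▼ part R276/HSL_574
section

/-!
# R276, helper574: linear algebra of `IsHS` (IpcDefs_735)

For a polarised Hodge structure `IsHS w S E` on `ℂ^N`: the projectors `hpr w p E`, the Weil operator,
positivity of the Hodge metric, polynomials in `E` and in `ad E`.
-/

set_option autoImplicit false

open Matrix Polynomial
open scoped ComplexOrder

namespace Crest.Agent.R276.HSL_574

open Crest.Agent.R276.Ipc735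

variable {N w : ℕ} {S E : Matrix (Fin N) (Fin N) ℂ}

/-- a polynomial vanishing on `0, …, w` kills `E` -/
theorem aeval_eq_zero (h : IsHS w S E) (f : ℂ[X]) (hf : ∀ p ∈ Finset.range (w + 1),
    f.eval (p : ℂ) = 0) : Polynomial.aeval E f = 0 := by
  have h1 : (∏ p ∈ Finset.range (w + 1), (X - C (p : ℂ))) ∣ f := by
    refine Finset.prod_dvd_of_coprime ?_ ?_
    · intro i _ j _ hij
      refine Polynomial.isCoprime_X_sub_C_of_isUnit_sub ?_
      rw [isUnit_iff_ne_zero, sub_ne_zero]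
      exact_mod_cast hij
    · intro p hp
      exact Polynomial.dvd_iff_isRoot.2 (hf p hp)
  obtain ⟨q, rfl⟩ := h1
  rw [map_mul, h.eig, zero_mul]

theorem aeval_congr (h : IsHS w S E) (f g : ℂ[X]) (hf : ∀ p ∈ Finset.range (w + 1),
    f.eval (p : ℂ) = g.eval (p : ℂ)) : Polynomial.aeval E f = Polynomial.aeval E g := by
  rw [← sub_eq_zero, ← map_sub]
  refine aeval_eq_zero h _ fun p hp => ?_
  rw [eval_sub, hf p hp, sub_self]

theorem injOn_cast : Set.InjOn (fun q : ℕ => (q : ℂ)) (Finset.range (w + 1) : Set ℕ) :=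
  fun _ _ _ _ h => Nat.cast_injective (R := ℂ) h

theorem eval_basis {p q : ℕ} (hp : p ∈ Finset.range (w + 1)) (hq : q ∈ Finset.range (w + 1)) :
    (Lagrange.basis (Finset.range (w + 1)) (fun q : ℕ => (q : ℂ)) p).eval (q : ℂ) =
      if p = q then 1 else 0 := by
  split_ifs with h
  · subst h
    exact Lagrange.eval_basis_self injOn_cast hp
  · exact Lagrange.eval_basis_of_ne (v := fun q : ℕ => (q : ℂ)) h hq

/-- functional calculus: `f(E) = ∑ f(p) P_p` -/
theorem aeval_eq_sum (h : IsHS w S E) (f : ℂ[X]) :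
    Polynomial.aeval E f = ∑ p ∈ Finset.range (w + 1), f.eval (p : ℂ) • hpr w p E := by
  have h1 : ∑ p ∈ Finset.range (w + 1), f.eval (p : ℂ) • hpr w p E =
      Polynomial.aeval E (∑ p ∈ Finset.range (w + 1), C (f.eval (p : ℂ)) *
        Lagrange.basis (Finset.range (w + 1)) (fun q : ℕ => (q : ℂ)) p) := by
    rw [map_sum]
    refine Finset.sum_congr rfl fun p _ => ?_
    rw [map_mul, aeval_C, ← Algebra.smul_def]
    rfl
  rw [h1]
  refine aeval_congr h _ _ fun q hq => ?_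
  rw [eval_finsetSum, Finset.sum_eq_single q]
  · rw [eval_mul, eval_C, eval_basis hq hq, if_pos rfl, mul_one]
  · intro b hb hbq
    rw [eval_mul, eval_basis hb hq, if_neg hbq, mul_zero]
  · intro hq'; exact absurd hq hq'

theorem sum_hpr (h : IsHS w S E) : ∑ p ∈ Finset.range (w + 1), hpr w p E = 1 := by
  have := aeval_eq_sum h (1 : ℂ[X])
  simpa using this.symm


theorem hpr_mul (h : IsHS w S E) {p q : ℕ} (hp : p ∈ Finset.range (w + 1))
    (hq : q ∈ Finset.range (w + 1)) :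
    hpr w p E * hpr w q E = if p = q then hpr w p E else 0 := by
  unfold hpr
  rw [← map_mul]
  split_ifs with hpq
  · subst hpq
    refine aeval_congr h _ _ fun r hr => ?_
    rw [eval_mul, eval_basis hp hr]
    split_ifs <;> simp
  · refine aeval_eq_zero h _ fun r hr => ?_
    rw [eval_mul, eval_basis hp hr, eval_basis hq hr]
    split_ifs with h1 h2
    · exact absurd (h1.trans h2.symm) hpq
    · simp
    · simp
    · simp

theorem E_mul_hpr (h : IsHS w S E) {p : ℕ} (hp : p ∈ Finset.range (w + 1)) :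
    E * hpr w p E = (p : ℂ) • hpr w p E := by
  have h1 : E * hpr w p E = Polynomial.aeval E
      (X * Lagrange.basis (Finset.range (w + 1)) (fun q : ℕ => (q : ℂ)) p) := by
    rw [map_mul, aeval_X]; rfl
  have h2 : (p : ℂ) • hpr w p E = Polynomial.aeval E
      (C (p : ℂ) * Lagrange.basis (Finset.range (w + 1)) (fun q : ℕ => (q : ℂ)) p) := by
    rw [map_mul, aeval_C, ← Algebra.smul_def]; rfl
  rw [h1, h2]
  refine aeval_congr h _ _ fun r hr => ?_
  rw [eval_mul, eval_mul, eval_X, eval_C, eval_basis hp hr]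
  split_ifs with hpr
  · subst hpr; rfl
  · simp

theorem commute_aeval (E : Matrix (Fin N) (Fin N) ℂ) (f : ℂ[X]) :
    Commute E (Polynomial.aeval E f) := by
  have h1 := map_mul (Polynomial.aeval (R := ℂ) E) X f
  have h2 := map_mul (Polynomial.aeval (R := ℂ) E) f X
  rw [mul_comm f X] at h2
  rw [aeval_X] at h1 h2
  exact h1.symm.trans h2

theorem commute_hpr (w p : ℕ) (E : Matrix (Fin N) (Fin N) ℂ) : Commute E (hpr w p E) :=
  commute_aeval E _

theorem hpr_mul_E (h : IsHS w S E) {p : ℕ} (hp : p ∈ Finset.range (w + 1)) :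
    hpr w p E * E = (p : ℂ) • hpr w p E := by
  rw [← (commute_hpr w p E).eq, E_mul_hpr h hp]

/-- a real polynomial in `E` is `S`-selfadjoint -/
theorem aeval_adj (h : IsHS w S E) (f : ℂ[X]) (hf : ∀ p ∈ Finset.range (w + 1),
    star (f.eval (p : ℂ)) = f.eval (p : ℂ)) :
    S * Polynomial.aeval E f = (Polynomial.aeval E f)ᴴ * S := by
  have h1 : ∀ g : ℂ[X], S * Polynomial.aeval E g = Polynomial.aeval Eᴴ g * S := by
    intro g
    induction g using Polynomial.induction_on' with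
    | add p q hp hq => rw [map_add, map_add, mul_add, add_mul, hp, hq]
    | monomial n a =>
      rw [← C_mul_X_pow_eq_monomial, map_mul, map_mul, aeval_C, aeval_C, map_pow, map_pow,
        aeval_X, aeval_X, ← Algebra.smul_def, ← Algebra.smul_def, Matrix.mul_smul,
        Matrix.smul_mul]
      congr 1
      induction n with
      | zero => simp
      | succ n ih => rw [pow_succ, ← mul_assoc, ih, mul_assoc, h.adj, ← mul_assoc, ← pow_succ]
  have h2 : ∀ g : ℂ[X], (Polynomial.aeval E g)ᴴ = Polynomial.aeval Eᴴ (g.map (starRingEnd ℂ)) := by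
    intro g
    induction g using Polynomial.induction_on' with
    | add p q hp hq => rw [map_add, Matrix.conjTranspose_add, hp, hq, Polynomial.map_add, map_add]
    | monomial n a =>
      rw [← C_mul_X_pow_eq_monomial, map_mul, aeval_C, map_pow, aeval_X, ← Algebra.smul_def,
        Matrix.conjTranspose_smul, Matrix.conjTranspose_pow, Polynomial.map_mul, Polynomial.map_C,
        Polynomial.map_pow, Polynomial.map_X, map_mul, aeval_C, map_pow, aeval_X,
        ← Algebra.smul_def]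
      rfl
  rw [h1, h2, ← h1, ← h1]
  congr 1
  refine aeval_congr h _ _ fun p hp => ?_
  have h3 : (p : ℂ) = starRingEnd ℂ (p : ℂ) := by simp
  conv_rhs => rw [h3, Polynomial.eval_map, Polynomial.eval₂_at_apply]
  exact (hf p hp).symm

theorem S_mul_hpr (h : IsHS w S E) {p : ℕ} (hp : p ∈ Finset.range (w + 1)) :
    S * hpr w p E = (hpr w p E)ᴴ * S := by
  refine aeval_adj h _ fun q hq => ?_
  rw [eval_basis hp hq]
  split_ifs <;> simp

theorem weil_mul_weil (h : IsHS w S E) : weil w E * weil w E = 1 := by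
  unfold weil
  rw [Finset.sum_mul]
  rw [← sum_hpr h]
  refine Finset.sum_congr rfl fun p hp => ?_
  rw [Finset.mul_sum, Finset.sum_eq_single p]
  · rw [Matrix.smul_mul, Matrix.mul_smul, hpr_mul h hp hp, if_pos rfl, smul_smul, ← mul_pow]
    simp
  · intro q hq hqp
    rw [Matrix.smul_mul, Matrix.mul_smul, hpr_mul h hp hq, if_neg (Ne.symm hqp)]
    simp
  · intro h'; exact absurd hp h'

theorem S_mul_weil (h : IsHS w S E) : S * weil w E = (weil w E)ᴴ * S := by
  unfold weil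
  rw [Finset.mul_sum, Matrix.conjTranspose_sum, Finset.sum_mul]
  refine Finset.sum_congr rfl fun p hp => ?_
  rw [Matrix.mul_smul, Matrix.conjTranspose_smul, Matrix.smul_mul, S_mul_hpr h hp]
  congr 1
  simp

theorem hodge_isHermitian (h : IsHS w S E) : (hodge w S E).IsHermitian := by
  unfold hodge
  rw [Matrix.IsHermitian, Matrix.conjTranspose_mul, h.herm.eq, S_mul_weil h]

/-- the Hodge metric is the orthogonal sum of the `(-1)^p S` on the types -/
theorem hodge_dot (h : IsHS w S E) (u v : Fin N → ℂ) :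
    star u ⬝ᵥ (hodge w S E *ᵥ v) =
      ∑ p ∈ Finset.range (w + 1), (-1 : ℂ) ^ p *
        (star (hpr w p E *ᵥ u) ⬝ᵥ (S *ᵥ (hpr w p E *ᵥ v))) := by
  unfold hodge weil
  rw [Finset.mul_sum, Matrix.sum_mulVec, dotProduct_sum]
  refine Finset.sum_congr rfl fun p hp => ?_
  rw [Matrix.mul_smul, Matrix.smul_mulVec, dotProduct_smul, smul_eq_mul]
  congr 1
  have h1 : hpr w p E = hpr w p E * hpr w p E := by rw [hpr_mul h hp hp, if_pos rfl]
  conv_lhs => rw [h1, ← mul_assoc, S_mul_hpr h hp]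
  rw [Matrix.star_mulVec, Matrix.mulVec_mulVec, ← Matrix.dotProduct_mulVec,
    Matrix.mulVec_mulVec, mul_assoc]

theorem hodge_posDef (h : IsHS w S E) : (hodge w S E).PosDef := by
  refine Matrix.PosDef.of_dotProduct_mulVec_pos (hodge_isHermitian h) fun v hv => ?_
  have hre : ∀ u : Fin N → ℂ, star u ⬝ᵥ (S *ᵥ u) = ((star u ⬝ᵥ (S *ᵥ u)).re : ℂ) := by
    intro u
    have h1 : star (star u ⬝ᵥ (S *ᵥ u)) = star u ⬝ᵥ (S *ᵥ u) := by
      rw [← Matrix.star_dotProduct_star, star_star, Matrix.star_mulVec, h.herm.eq,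
        ← Matrix.dotProduct_mulVec, dotProduct_comm]
    exact (Complex.conj_eq_iff_re.1 h1).symm
  have hE : ∀ p ∈ Finset.range (w + 1), E *ᵥ (hpr w p E *ᵥ v) = (p : ℂ) • (hpr w p E *ᵥ v) := by
    intro p hp
    rw [Matrix.mulVec_mulVec, E_mul_hpr h hp, Matrix.smul_mulVec]
  have hterm : ∀ p ∈ Finset.range (w + 1), (-1 : ℂ) ^ p *
        (star (hpr w p E *ᵥ v) ⬝ᵥ (S *ᵥ (hpr w p E *ᵥ v))) =
      (((-1 : ℝ) ^ p * (star (hpr w p E *ᵥ v) ⬝ᵥ (S *ᵥ (hpr w p E *ᵥ v))).re : ℝ) : ℂ) := by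
    intro p _
    rw [hre]
    push_cast
    rfl
  rw [hodge_dot h, Finset.sum_congr rfl hterm, ← Complex.ofReal_sum]
  rw [Complex.zero_lt_real]
  have hnn : ∀ p ∈ Finset.range (w + 1), 0 ≤ (-1 : ℝ) ^ p *
      (star (hpr w p E *ᵥ v) ⬝ᵥ (S *ᵥ (hpr w p E *ᵥ v))).re := by
    intro p hp
    by_cases h0 : hpr w p E *ᵥ v = 0
    · rw [h0]; simp
    · exact (h.pos p _ (Nat.lt_succ_iff.1 (Finset.mem_range.1 hp)) h0 (hE p hp)).le
  refine lt_of_le_of_ne (Finset.sum_nonneg hnn) fun h0 => hv ?_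
  have h1 := (Finset.sum_eq_zero_iff_of_nonneg hnn).1 h0.symm
  have h2 : ∀ p ∈ Finset.range (w + 1), hpr w p E *ᵥ v = 0 := by
    intro p hp
    by_contra h3
    exact absurd (h1 p hp) (h.pos p _ (Nat.lt_succ_iff.1 (Finset.mem_range.1 hp)) h3
      (hE p hp)).ne'
  calc v = (∑ p ∈ Finset.range (w + 1), hpr w p E) *ᵥ v := by rw [sum_hpr h, Matrix.one_mulVec]
    _ = 0 := by
      rw [Matrix.sum_mulVec]
      exact Finset.sum_eq_zero h2

/-! ### `ad E` -/

/-- `ad E` -/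
noncomputable def adL (E : Matrix (Fin N) (Fin N) ℂ) :
    Matrix (Fin N) (Fin N) ℂ →ₗ[ℂ] Matrix (Fin N) (Fin N) ℂ :=
  LinearMap.mulLeft ℂ E - LinearMap.mulRight ℂ E

theorem adL_apply (E A : Matrix (Fin N) (Fin N) ℂ) : adL E A = E * A - A * E := rfl

/-- the blocks of `A` -/
noncomputable def blk (w : ℕ) (E A : Matrix (Fin N) (Fin N) ℂ) (p q : ℕ) :
    Matrix (Fin N) (Fin N) ℂ := hpr w p E * A * hpr w q E

theorem sum_blk (h : IsHS w S E) (A : Matrix (Fin N) (Fin N) ℂ) :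
    A = ∑ p ∈ Finset.range (w + 1), ∑ q ∈ Finset.range (w + 1), blk w E A p q := by
  unfold blk
  simp_rw [← Finset.mul_sum]
  rw [sum_hpr h]
  simp_rw [mul_one]
  rw [← Finset.sum_mul, sum_hpr h, one_mul]

theorem adL_blk (h : IsHS w S E) (A : Matrix (Fin N) (Fin N) ℂ) {p q : ℕ}
    (hp : p ∈ Finset.range (w + 1)) (hq : q ∈ Finset.range (w + 1)) :
    adL E (blk w E A p q) = ((p : ℂ) - q) • blk w E A p q := by
  unfold blk
  rw [adL_apply, ← mul_assoc, ← mul_assoc, E_mul_hpr h hp, mul_assoc _ _ E, hpr_mul_E h hq,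
    sub_smul, Matrix.smul_mul, Matrix.smul_mul, Matrix.mul_smul]

theorem aeval_adL_blk (h : IsHS w S E) (A : Matrix (Fin N) (Fin N) ℂ) {p q : ℕ}
    (hp : p ∈ Finset.range (w + 1)) (hq : q ∈ Finset.range (w + 1)) (f : ℂ[X]) :
    Polynomial.aeval (adL E) f (blk w E A p q) = f.eval ((p : ℂ) - q) • blk w E A p q := by
  induction f using Polynomial.induction_on' with
  | add f g hf hg => rw [map_add, LinearMap.add_apply, hf, hg, eval_add, add_smul]
  | monomial n a =>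
    rw [← C_mul_X_pow_eq_monomial, map_mul, aeval_C, map_pow, aeval_X, Module.End.mul_apply,
      Module.algebraMap_end_apply, eval_mul, eval_C, eval_pow, eval_X, mul_smul]
    congr 1
    induction n with
    | zero => simp
    | succ n ih => rw [pow_succ, Module.End.mul_apply, adL_blk h A hp hq, map_smul, ih, smul_smul,
        pow_succ, mul_comm]

theorem aeval_adL (h : IsHS w S E) (A : Matrix (Fin N) (Fin N) ℂ) (f : ℂ[X]) :
    Polynomial.aeval (adL E) f A = ∑ p ∈ Finset.range (w + 1), ∑ q ∈ Finset.range (w + 1),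
      f.eval ((p : ℂ) - q) • blk w E A p q := by
  conv_lhs => rw [sum_blk h A]
  rw [map_sum]
  refine Finset.sum_congr rfl fun p hp => ?_
  rw [map_sum]
  exact Finset.sum_congr rfl fun q hq => aeval_adL_blk h A hp hq f

/-- the degree `k` part of `A` -/
noncomputable def cpt (w : ℕ) (E A : Matrix (Fin N) (Fin N) ℂ) (k : ℤ) :
    Matrix (Fin N) (Fin N) ℂ :=
  ∑ p ∈ Finset.range (w + 1), ∑ q ∈ Finset.range (w + 1),
    if (p : ℤ) - q = k then blk w E A p q else 0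

/-- interpolation on the differences -/
theorem exists_interp (w : ℕ) (r : ℤ → ℂ) : ∃ f : ℂ[X], ∀ p ∈ Finset.range (w + 1),
    ∀ q ∈ Finset.range (w + 1), f.eval ((p : ℂ) - q) = r ((p : ℤ) - q) := by
  let s : Finset ℤ := Finset.Icc (-(w : ℤ)) w
  refine ⟨Lagrange.interpolate s (fun k : ℤ => (k : ℂ)) r, fun p hp q hq => ?_⟩
  have hk : (p : ℤ) - q ∈ s := by
    rw [Finset.mem_range] at hp hq
    rw [Finset.mem_Icc]
    omega
  have h1 := Lagrange.eval_interpolate_at_node r (s := s) (v := fun k : ℤ => (k : ℂ))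
    (fun _ _ _ _ h => Int.cast_injective (α := ℂ) h) hk
  push_cast at h1
  exact h1

theorem sum_cpt (h : IsHS w S E) (A : Matrix (Fin N) (Fin N) ℂ) :
    A = ∑ k ∈ Finset.Icc (-(w : ℤ)) w, cpt w E A k := by
  unfold cpt
  rw [Finset.sum_comm]
  conv_lhs => rw [sum_blk h A]
  refine Finset.sum_congr rfl fun p hp => ?_
  rw [Finset.sum_comm]
  refine Finset.sum_congr rfl fun q hq => ?_
  rw [Finset.sum_ite_eq, if_pos]
  rw [Finset.mem_range] at hp hq
  rw [Finset.mem_Icc]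
  omega

theorem cpt_eq_aeval (h : IsHS w S E) (k : ℤ) : ∃ f : ℂ[X],
    ∀ A : Matrix (Fin N) (Fin N) ℂ, cpt w E A k = Polynomial.aeval (adL E) f A := by
  obtain ⟨f, hf⟩ := exists_interp w (fun j => if j = k then 1 else 0)
  refine ⟨f, fun A => ?_⟩
  rw [aeval_adL h]
  unfold cpt
  refine Finset.sum_congr rfl fun p hp => Finset.sum_congr rfl fun q hq => ?_
  rw [hf p hp q hq]
  split_ifs <;> simp

theorem weil_conj_eq_aeval (h : IsHS w S E) : ∃ f : ℂ[X],
    ∀ A : Matrix (Fin N) (Fin N) ℂ, weil w E * A * weil w E = Polynomial.aeval (adL E) f A := by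
  obtain ⟨f, hf⟩ := exists_interp w (fun j => (-1) ^ j.natAbs)
  refine ⟨f, fun A => ?_⟩
  rw [aeval_adL h]
  unfold weil
  rw [Finset.sum_mul, Finset.sum_mul]
  refine Finset.sum_congr rfl fun p hp => ?_
  rw [Finset.mul_sum]
  refine Finset.sum_congr rfl fun q hq => ?_
  rw [hf p hp q hq]
  unfold blk
  rw [Matrix.smul_mul, Matrix.smul_mul, Matrix.mul_smul, smul_smul]
  congr 1
  have h1 : ((p : ℤ) - q).natAbs % 2 = (p + q) % 2 := by omega
  rw [← pow_add]
  rcases Nat.even_or_odd (p + q) with h2 | h2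
  · rw [h2.neg_one_pow, Even.neg_one_pow]
    rw [Nat.even_iff] at h2 ⊢
    omega
  · rw [h2.neg_one_pow, Odd.neg_one_pow]
    rw [Nat.odd_iff] at h2 ⊢
    omega


theorem adL_cpt (h : IsHS w S E) (A : Matrix (Fin N) (Fin N) ℂ) (k : ℤ) :
    adL E (cpt w E A k) = (k : ℂ) • cpt w E A k := by
  unfold cpt
  rw [map_sum, Finset.smul_sum]
  refine Finset.sum_congr rfl fun p hp => ?_
  rw [map_sum, Finset.smul_sum]
  refine Finset.sum_congr rfl fun q hq => ?_
  split_ifs with h1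
  · rw [adL_blk h A hp hq, ← h1]
    push_cast
    rfl
  · rw [map_zero, smul_zero]

/-- an eigenvector of `ad E` for a nonzero eigenvalue is nilpotent -/
theorem isNilpotent_of_adL (h : IsHS w S E) {A : Matrix (Fin N) (Fin N) ℂ} {k : ℤ} (hk : k ≠ 0)
    (hA : adL E A = (k : ℂ) • A) : IsNilpotent A := by
  have h1 : ∀ n : ℕ, adL E (A ^ n) = ((n : ℂ) * k) • A ^ n := by
    intro n
    induction n with
    | zero => simp [adL_apply]
    | succ n ih =>
      have h2 : adL E (A ^ n * A) = adL E (A ^ n) * A + A ^ n * adL E A := by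
        simp only [adL_apply]
        noncomm_ring
      rw [pow_succ, h2, ih, hA, Matrix.smul_mul, Matrix.mul_smul, ← add_smul]
      congr 1
      push_cast
      ring
  refine ⟨2 * w + 1, ?_⟩
  have h3 := h1 (2 * w + 1)
  set B := A ^ (2 * w + 1) with hB
  have h4 : ∀ p ∈ Finset.range (w + 1), ∀ q ∈ Finset.range (w + 1), blk w E B p q = 0 := by
    intro p hp q hq
    have h5 : adL E (blk w E B p q) = (((2 * w + 1 : ℕ) : ℂ) * k) • blk w E B p q := by
      have h6 : adL E (blk w E B p q) = blk w E (adL E B) p q := by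
        simp only [adL_apply, blk]
        rw [mul_sub, sub_mul, ← mul_assoc E, ← mul_assoc E, (commute_hpr w p E).eq, mul_assoc _ _ E,
          ← (commute_hpr w q E).eq]
        noncomm_ring
      rw [h6, h3]
      unfold blk
      rw [Matrix.mul_smul, Matrix.smul_mul]
    rw [adL_blk h B hp hq, ← sub_eq_zero, ← sub_smul] at h5
    rcases smul_eq_zero.1 h5 with h6 | h6
    · exfalso
      have h7 : (p : ℤ) - q = (2 * w + 1 : ℕ) * k := by
        have : ((((p : ℤ) - q : ℤ) : ℂ)) = (((2 * w + 1 : ℕ) * k : ℤ) : ℂ) := by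
          push_cast
          push_cast at h6
          linear_combination h6
        exact_mod_cast this
      rw [Finset.mem_range] at hp hq
      have h8 : (2 * w + 1 : ℤ) ≤ |((2 * w + 1 : ℕ) : ℤ) * k| := by
        rw [abs_mul]
        have : 1 ≤ |k| := Int.one_le_abs hk
        push_cast
        rw [abs_of_nonneg (by positivity : (0 : ℤ) ≤ 2 * w + 1)]
        nlinarith
      rw [← h7] at h8
      have h9 : |(p : ℤ) - q| ≤ w := by
        rw [abs_le]; constructor <;> omega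
      omega
    · exact h6
  rw [sum_blk h B]
  exact Finset.sum_eq_zero fun p hp => Finset.sum_eq_zero fun q hq => h4 p hp q hq

/-- invariance of a subspace under polynomials in an operator -/
theorem aeval_mem {M : Type*} [AddCommGroup M] [Module ℂ M] (L : M →ₗ[ℂ] M) (p : Submodule ℂ M)
    (hp : ∀ x ∈ p, L x ∈ p) (f : ℂ[X]) : ∀ x ∈ p, Polynomial.aeval L f x ∈ p := by
  induction f using Polynomial.induction_on' with
  | add f g hf hg =>
    intro x hx
    rw [map_add, LinearMap.add_apply]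
    exact p.add_mem (hf x hx) (hg x hx)
  | monomial n a =>
    intro x hx
    rw [← C_mul_X_pow_eq_monomial, map_mul, aeval_C, map_pow, aeval_X, Module.End.mul_apply,
      Module.algebraMap_end_apply]
    refine p.smul_mem _ ?_
    induction n with
    | zero => simpa using hx
    | succ n ih =>
      rw [pow_succ', Module.End.mul_apply]
      exact hp _ ih

end Crest.Agent.R276.HSL_574
end

-- ▼ part R276/NilH_840
section

/-!
R276, helper840: the nilpotent commutator bound for the adjoint with respect to an arbitrary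
positive definite Hermitian matrix `H` (inner product `⟨x, y⟩ = xᵀ … `; the adjoint of `A` is
`H⁻¹ Aᴴ H`, i.e. `⟪A x, y⟫ = ⟪x, A^* y⟫` for `⟪x, y⟫ = xᴴ H y` read as `(A x)ᴴ H y = xᴴ H (H⁻¹ Aᴴ H) y`).
-/

set_option autoImplicit false

open Matrix Finset
open scoped ComplexOrder MatrixOrder

namespace Crest.Agent.R276.Nil_840

variable {n : ℕ}

/-- adjoint with respect to the form `xᴴ H y` -/
noncomputable def adjH (H A : Matrix (Fin n) (Fin n) ℂ) : Matrix (Fin n) (Fin n) ℂ :=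
  H⁻¹ * Aᴴ * H

/-- squared norm of `A` with respect to `H` -/
noncomputable def frH (H A : Matrix (Fin n) (Fin n) ℂ) : ℝ := (A * adjH H A).trace.re

theorem fr_eq_trace (A : Matrix (Fin n) (Fin n) ℂ) : fr A = (A * Aᴴ).trace.re := by
  simp only [fr, Matrix.trace, Matrix.diag, Matrix.mul_apply, Matrix.conjTranspose_apply,
    Complex.re_sum]
  refine Finset.sum_congr rfl fun i _ => Finset.sum_congr rfl fun j _ => ?_
  have h : A i j * star (A i j) = ((‖A i j‖ ^ 2 : ℝ) : ℂ) := by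
    rw [Complex.star_def, Complex.mul_conj, Complex.normSq_eq_norm_sq]
  rw [h, Complex.ofReal_re]

/-- `H = Gᴴ G` with `G` invertible -/
theorem exists_sqrt {H : Matrix (Fin n) (Fin n) ℂ} (hH : H.PosDef) :
    ∃ G : Matrix (Fin n) (Fin n) ℂ, IsUnit G ∧ H = Gᴴ * G := by
  obtain ⟨G, hG⟩ := CStarAlgebra.nonneg_iff_eq_star_mul_self.mp hH.posSemidef.nonneg
  refine ⟨G, ?_, hG⟩
  have h1 : IsUnit H := hH.isUnit
  rw [hG] at h1
  rw [Matrix.isUnit_iff_isUnit_det] at h1 ⊢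
  rw [Matrix.det_mul] at h1
  exact isUnit_of_mul_isUnit_right h1

theorem adjH_conj {H G A : Matrix (Fin n) (Fin n) ℂ} (hG : IsUnit G) (hHG : H = Gᴴ * G) :
    G * adjH H A * G⁻¹ = (G * A * G⁻¹)ᴴ := by
  have hd : IsUnit G.det := (Matrix.isUnit_iff_isUnit_det G).1 hG
  have hdH : IsUnit Gᴴ.det := by
    rw [Matrix.det_conjTranspose]
    exact hd.star
  rw [adjH, hHG, Matrix.mul_inv_rev, Matrix.conjTranspose_mul, Matrix.conjTranspose_mul,
    Matrix.conjTranspose_nonsing_inv]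
  calc G * (G⁻¹ * Gᴴ⁻¹ * Aᴴ * (Gᴴ * G)) * G⁻¹
      = (G * G⁻¹) * Gᴴ⁻¹ * Aᴴ * Gᴴ * (G * G⁻¹) := by noncomm_ring
    _ = Gᴴ⁻¹ * (Aᴴ * Gᴴ) := by
        rw [Matrix.mul_nonsing_inv _ hd]
        noncomm_ring

theorem frH_conj {H G A : Matrix (Fin n) (Fin n) ℂ} (hG : IsUnit G) (hHG : H = Gᴴ * G) :
    frH H A = fr (G * A * G⁻¹) := by
  have hd : IsUnit G.det := (Matrix.isUnit_iff_isUnit_det G).1 hG
  rw [fr_eq_trace, ← adjH_conj hG hHG, frH]
  congr 1
  have h1 : G * A * G⁻¹ * (G * adjH H A * G⁻¹) = G * (A * adjH H A) * G⁻¹ := by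
    calc G * A * G⁻¹ * (G * adjH H A * G⁻¹) = G * A * (G⁻¹ * G) * adjH H A * G⁻¹ := by
          noncomm_ring
      _ = _ := by
          rw [Matrix.nonsing_inv_mul _ hd]
          noncomm_ring
  rw [h1, Matrix.trace_mul_comm (G * (A * adjH H A)) G⁻¹, ← Matrix.mul_assoc,
    Matrix.nonsing_inv_mul _ hd, Matrix.one_mul]


theorem frH_eq_zero {H : Matrix (Fin n) (Fin n) ℂ} (hH : H.PosDef) {A : Matrix (Fin n) (Fin n) ℂ}
    (h : frH H A = 0) : A = 0 := by
  obtain ⟨G, hG, hHG⟩ := exists_sqrt hH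
  have hd : IsUnit G.det := (Matrix.isUnit_iff_isUnit_det G).1 hG
  rw [frH_conj hG hHG] at h
  have h1 := fr_eq_zero h
  calc A = G⁻¹ * (G * A * G⁻¹) * G := by
        calc A = (G⁻¹ * G) * A * (G⁻¹ * G) := by rw [Matrix.nonsing_inv_mul _ hd]; simp
          _ = _ := by noncomm_ring
    _ = 0 := by rw [h1]; simp


end Crest.Agent.R276.Nil_840
end

-- ▼ part R276/Hull_574
section

/-!
# R276, helper574: GVHS, algebraic part — flat endomorphisms and the rational hull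

`Γ` = monodromy group (subgroup of `GL_N(ℤ)`), `IsHS w S E` the polarised Hodge structure at the base
point.  Hypotheses `Mono`: `Γ` preserves `S`; `ad E` preserves the flat endomorphisms (commutant of `Γ`);
the orthogonal projector (for the Hodge metric) of every `Γ`-stable subspace is flat.

Results: flat endomorphisms are stable under the Hodge adjoint; the centre commutes with `E`;
`Hul Γ W` = rational hull of (flat endomorphisms)·`W` is a sub-Hodge structure, and every `g ∈ Γ` which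
is a scalar on `W` commutes on it with `E` and `Γ`, preserves the Hodge metric and has finite order.
-/

set_option autoImplicit false

open Matrix Polynomial
open scoped ComplexOrder

namespace Crest.Agent.R276.Hull_574

open Crest.Agent.R276.Ipc735 Crest.Agent.R276.HSL_574 Crest.Agent.R276.Nil_840

variable {N w : ℕ} {S E : Matrix (Fin N) (Fin N) ℂ}

/-! ### `cm` -/

theorem cm_eq (g : GL (Fin N) ℤ) :
    cm g = (Int.castRingHom ℂ).mapMatrix (g : Matrix (Fin N) (Fin N) ℤ) := rfl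

theorem cm_mul (g h : GL (Fin N) ℤ) : cm (g * h) = cm g * cm h := by
  rw [cm_eq, cm_eq, cm_eq, Units.val_mul, map_mul]

theorem cm_one : cm (1 : GL (Fin N) ℤ) = 1 := by
  rw [cm_eq, Units.val_one, map_one]

theorem cm_inv_mul (g : GL (Fin N) ℤ) : cm g⁻¹ * cm g = 1 := by
  rw [← cm_mul, inv_mul_cancel, cm_one]

theorem cm_mul_inv (g : GL (Fin N) ℤ) : cm g * cm g⁻¹ = 1 := by
  rw [← cm_mul, mul_inv_cancel, cm_one]


/-! ### flat endomorphisms -/

/-- flat endomorphisms -/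
def fl (Γ : Subgroup (GL (Fin N) ℤ)) : Submodule ℂ (Matrix (Fin N) (Fin N) ℂ) where
  carrier := {A | ∀ g ∈ Γ, A * cm g = cm g * A}
  add_mem' := fun {a b} ha hb g hg => by
    rw [add_mul, mul_add, ha g hg, hb g hg]
  zero_mem' := fun g _ => by rw [zero_mul, mul_zero]
  smul_mem' := fun c a ha g hg => by
    rw [Matrix.smul_mul, Matrix.mul_smul, ha g hg]

variable {Γ : Subgroup (GL (Fin N) ℤ)}


theorem mul_mem_fl {A B : Matrix (Fin N) (Fin N) ℂ} (hA : A ∈ fl Γ) (hB : B ∈ fl Γ) :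
    A * B ∈ fl Γ := fun g hg => by
  rw [mul_assoc, hB g hg, ← mul_assoc, hA g hg, mul_assoc]

theorem one_mem_fl : (1 : Matrix (Fin N) (Fin N) ℂ) ∈ fl Γ := fun g _ => by
  rw [one_mul, mul_one]

/-- `Γ`-stable subspaces -/
def IsSt (Γ : Subgroup (GL (Fin N) ℤ)) (U : Submodule ℂ (Fin N → ℂ)) : Prop :=
  ∀ g ∈ Γ, ∀ u ∈ U, cm g *ᵥ u ∈ U

/-- subspaces stable under flat endomorphisms -/
def IsFs (Γ : Subgroup (GL (Fin N) ℤ)) (U : Submodule ℂ (Fin N → ℂ)) : Prop :=
  ∀ A ∈ fl Γ, ∀ u ∈ U, A *ᵥ u ∈ U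

/-! ### subspaces defined by rational linear forms -/

/-- rational linear forms vanishing on `W` -/
def ann (W : Submodule ℂ (Fin N → ℂ)) : Submodule ℚ (Fin N → ℚ) where
  carrier := {x | ∀ u ∈ W, ∑ i, (x i : ℂ) * u i = 0}
  add_mem' := fun {a b} ha hb u hu => by
    simp only [Pi.add_apply, Rat.cast_add, add_mul, Finset.sum_add_distrib]
    rw [ha u hu, hb u hu, add_zero]
  zero_mem' := fun u _ => by simp
  smul_mem' := fun c a ha u hu => by
    simp only [Pi.smul_apply, smul_eq_mul, Rat.cast_mul, mul_assoc]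
    rw [← Finset.mul_sum, ha u hu, mul_zero]

/-- the complex subspace defined by a rational subspace of linear forms -/
def zer (R : Submodule ℚ (Fin N → ℚ)) : Submodule ℂ (Fin N → ℂ) where
  carrier := {v | ∀ x ∈ R, ∑ i, (x i : ℂ) * v i = 0}
  add_mem' := fun {a b} ha hb x hx => by
    simp only [Pi.add_apply, mul_add, Finset.sum_add_distrib]
    rw [ha x hx, hb x hx, add_zero]
  zero_mem' := fun x _ => by simp
  smul_mem' := fun c a ha x hx => by
    have h1 : ∀ i, (x i : ℂ) * (c • a) i = c * ((x i : ℂ) * a i) := fun i => by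
      simp only [Pi.smul_apply, smul_eq_mul]; ring
    simp only [h1]
    rw [← Finset.mul_sum, ha x hx, mul_zero]

/-- the hypotheses (which hold for the monodromy of a polarised variation over a model) -/
structure Mono (w : ℕ) (S E : Matrix (Fin N) (Fin N) ℂ) (Γ : Subgroup (GL (Fin N) ℤ)) : Prop where
  hs : IsHS w S E
  pres : ∀ g ∈ Γ, (cm g)ᴴ * S * cm g = S
  adE : ∀ A ∈ fl Γ, E * A - A * E ∈ fl Γ
  semi : ∀ R : Submodule ℚ (Fin N → ℚ), IsSt Γ (zer R) → ∃ Q ∈ fl Γ, Q * Q = Q ∧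
    Qᴴ * hodge w S E = hodge w S E * Q ∧ ∀ v, v ∈ zer R ↔ Q *ᵥ v = v

theorem isUnit_S (h : IsHS w S E) : IsUnit S := by
  have h1 : IsUnit (S * weil w E) := (hodge_posDef h).isUnit
  have h2 : IsUnit (weil w E) := IsUnit.of_mul_eq_one _ (weil_mul_weil h)
  have h3 : S = (S * weil w E) * weil w E := by
    rw [mul_assoc, weil_mul_weil h, mul_one]
  rw [h3]
  exact h1.mul h2

theorem adjS_mem (hM : Mono w S E Γ) {A : Matrix (Fin N) (Fin N) ℂ} (hA : A ∈ fl Γ) :
    S⁻¹ * Aᴴ * S ∈ fl Γ := by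
  intro g hg
  have hdet : IsUnit S.det := (Matrix.isUnit_iff_isUnit_det S).1 (isUnit_S hM.hs)
  have h1 : (cm g)ᴴ * S = S * cm g⁻¹ := by
    have := hM.pres g hg
    calc (cm g)ᴴ * S = (cm g)ᴴ * S * (cm g * cm g⁻¹) := by rw [cm_mul_inv, mul_one]
      _ = ((cm g)ᴴ * S * cm g) * cm g⁻¹ := by noncomm_ring
      _ = _ := by rw [this]
  have h1' : (cm g⁻¹)ᴴ * S = S * cm g := by
    have := hM.pres g⁻¹ (Γ.inv_mem hg)
    calc (cm g⁻¹)ᴴ * S = (cm g⁻¹)ᴴ * S * (cm g⁻¹ * cm g) := by rw [cm_inv_mul, mul_one]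
      _ = ((cm g⁻¹)ᴴ * S * cm g⁻¹) * cm g := by noncomm_ring
      _ = _ := by rw [this]
  have h2 : A * cm g⁻¹ = cm g⁻¹ * A := hA _ (Γ.inv_mem hg)
  have h3 : (cm g⁻¹)ᴴ * Aᴴ = Aᴴ * (cm g⁻¹)ᴴ := by
    rw [← Matrix.conjTranspose_mul, ← Matrix.conjTranspose_mul, h2]
  have h4 : S⁻¹ * (cm g⁻¹)ᴴ = cm g * S⁻¹ := by
    calc S⁻¹ * (cm g⁻¹)ᴴ = S⁻¹ * ((cm g⁻¹)ᴴ * S) * S⁻¹ := by
          rw [mul_assoc, mul_assoc, Matrix.mul_nonsing_inv _ hdet, mul_one]
      _ = S⁻¹ * (S * cm g) * S⁻¹ := by rw [h1']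
      _ = (S⁻¹ * S) * cm g * S⁻¹ := by noncomm_ring
      _ = _ := by rw [Matrix.nonsing_inv_mul _ hdet, one_mul]
  calc S⁻¹ * Aᴴ * S * cm g = S⁻¹ * Aᴴ * (S * cm g) := by noncomm_ring
    _ = S⁻¹ * Aᴴ * ((cm g⁻¹)ᴴ * S) := by rw [h1']
    _ = S⁻¹ * (Aᴴ * (cm g⁻¹)ᴴ) * S := by noncomm_ring
    _ = S⁻¹ * ((cm g⁻¹)ᴴ * Aᴴ) * S := by rw [h3]
    _ = (S⁻¹ * (cm g⁻¹)ᴴ) * Aᴴ * S := by noncomm_ring
    _ = (cm g * S⁻¹) * Aᴴ * S := by rw [h4]
    _ = cm g * (S⁻¹ * Aᴴ * S) := by noncomm_ring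

theorem adL_mem (hM : Mono w S E Γ) : ∀ A ∈ fl Γ, adL E A ∈ fl Γ := hM.adE

/-- flat endomorphisms are stable under the adjoint for the Hodge metric -/
theorem adjH_mem (hM : Mono w S E Γ) {A : Matrix (Fin N) (Fin N) ℂ} (hA : A ∈ fl Γ) :
    adjH (hodge w S E) A ∈ fl Γ := by
  obtain ⟨f, hf⟩ := weil_conj_eq_aeval hM.hs
  have h1 : adjH (hodge w S E) A = weil w E * (S⁻¹ * Aᴴ * S) * weil w E := by
    have h2 : (weil w E)⁻¹ = weil w E := Matrix.inv_eq_right_inv (weil_mul_weil hM.hs)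
    unfold adjH hodge
    rw [Matrix.mul_inv_rev, h2]
    noncomm_ring
  rw [h1, hf]
  exact aeval_mem _ _ (adL_mem hM) f _ (adjS_mem hM hA)

/-- the centre of the algebra of flat endomorphisms -/
def ctr (Γ : Subgroup (GL (Fin N) ℤ)) : Submodule ℂ (Matrix (Fin N) (Fin N) ℂ) where
  carrier := {A | A ∈ fl Γ ∧ ∀ B ∈ fl Γ, A * B = B * A}
  add_mem' := fun {a b} ha hb => ⟨(fl Γ).add_mem ha.1 hb.1, fun B hB => by
    rw [add_mul, mul_add, ha.2 B hB, hb.2 B hB]⟩
  zero_mem' := ⟨(fl Γ).zero_mem, fun B _ => by rw [zero_mul, mul_zero]⟩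
  smul_mem' := fun c a ha => ⟨(fl Γ).smul_mem c ha.1, fun B hB => by
    rw [Matrix.smul_mul, Matrix.mul_smul, ha.2 B hB]⟩


theorem adL_mem_ctr (hM : Mono w S E Γ) : ∀ A ∈ ctr Γ, adL E A ∈ ctr Γ := by
  intro A hA
  refine ⟨hM.adE A hA.1, fun B hB => ?_⟩
  have h1 := hA.2 B hB
  have h2 := hA.2 _ (hM.adE B hB)
  rw [adL_apply]
  have h3 : (E * A - A * E) * B - B * (E * A - A * E) =
      (E * (A * B) - (A * B) * E) - (E * (B * A) - (B * A) * E) -
        (A * (E * B - B * E) - (E * B - B * E) * A) := by noncomm_ring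
  rw [← sub_eq_zero, h3, h1, h2]
  simp

theorem eq_zero_of_normal {H A : Matrix (Fin N) (Fin N) ℂ} (hH : H.PosDef) (hA : IsNilpotent A)
    (hc : A * adjH H A = adjH H A * A) : A = 0 := by
  refine frH_eq_zero hH ?_
  have h1 : IsNilpotent (A * adjH H A) := by
    have hc' : Commute A (adjH H A) := hc
    exact hc'.isNilpotent_mul_right hA
  have h2 := Matrix.isNilpotent_trace_of_isNilpotent h1
  unfold frH
  rw [h2.eq_zero, Complex.zero_re]

/-- the centre commutes with `E` -/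
theorem ctr_comm (hM : Mono w S E Γ) {A : Matrix (Fin N) (Fin N) ℂ} (hA : A ∈ ctr Γ) :
    E * A = A * E := by
  have h1 : ∀ k : ℤ, k ≠ 0 → cpt w E A k = 0 := by
    intro k hk
    have h2 : cpt w E A k ∈ ctr Γ := by
      obtain ⟨f, hf⟩ := cpt_eq_aeval hM.hs k
      rw [hf]
      exact aeval_mem _ _ (adL_mem_ctr hM) f _ hA
    exact eq_zero_of_normal (hodge_posDef hM.hs)
      (isNilpotent_of_adL hM.hs hk (adL_cpt hM.hs A k)) (h2.2 _ (adjH_mem hM h2.1))
  have h3 : A = cpt w E A 0 := by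
    conv_lhs => rw [sum_cpt hM.hs A]
    rw [Finset.sum_eq_single 0]
    · intro k _ hk; exact h1 k hk
    · intro h; exact absurd (Finset.mem_Icc.2 ⟨by omega, by omega⟩) h
  have h4 := adL_cpt hM.hs A 0
  rw [← h3, adL_apply] at h4
  simpa [sub_eq_zero] using h4

theorem adjH_mul {H : Matrix (Fin N) (Fin N) ℂ} (hH : H.PosDef) (A B : Matrix (Fin N) (Fin N) ℂ) :
    adjH H (A * B) = adjH H B * adjH H A := by
  have hdet : IsUnit H.det := (Matrix.isUnit_iff_isUnit_det H).1 hH.isUnit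
  unfold adjH
  rw [Matrix.conjTranspose_mul]
  calc H⁻¹ * (Bᴴ * Aᴴ) * H = H⁻¹ * Bᴴ * (1 : Matrix (Fin N) (Fin N) ℂ) * Aᴴ * H := by noncomm_ring
    _ = H⁻¹ * Bᴴ * (H * H⁻¹) * Aᴴ * H := by rw [Matrix.mul_nonsing_inv _ hdet]
    _ = _ := by noncomm_ring

theorem adjH_adjH {H : Matrix (Fin N) (Fin N) ℂ} (hH : H.PosDef) (A : Matrix (Fin N) (Fin N) ℂ) :
    adjH H (adjH H A) = A := by
  have hdet : IsUnit H.det := (Matrix.isUnit_iff_isUnit_det H).1 hH.isUnit
  unfold adjH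
  rw [Matrix.conjTranspose_mul, Matrix.conjTranspose_mul, Matrix.conjTranspose_conjTranspose,
    Matrix.conjTranspose_nonsing_inv, hH.isHermitian.eq]
  calc H⁻¹ * (H * (A * H⁻¹)) * H = (H⁻¹ * H) * A * (H⁻¹ * H) := by noncomm_ring
    _ = _ := by rw [Matrix.nonsing_inv_mul _ hdet]; simp

theorem adjH_proj {H Q : Matrix (Fin N) (Fin N) ℂ} (hH : H.PosDef) (hQ : Qᴴ * H = H * Q) :
    adjH H Q = Q := by
  have hdet : IsUnit H.det := (Matrix.isUnit_iff_isUnit_det H).1 hH.isUnit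
  unfold adjH
  rw [mul_assoc, hQ, ← mul_assoc, Matrix.nonsing_inv_mul _ hdet, one_mul]

theorem ext_mulVec {A B : Matrix (Fin N) (Fin N) ℂ} (h : ∀ v, A *ᵥ v = B *ᵥ v) : A = B := by
  apply Matrix.toLin'.injective
  ext1 v
  ext1
  simp [h]

/-- the projector of a flat subspace stable under flat endomorphisms is central -/
theorem proj_ctr (hM : Mono w S E Γ) {U : Submodule ℂ (Fin N → ℂ)} (hF : IsFs Γ U)
    {Q : Matrix (Fin N) (Fin N) ℂ} (hQ : Q ∈ fl Γ)
    (hQH : Qᴴ * hodge w S E = hodge w S E * Q) (hQ2 : Q * Q = Q)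
    (hU : ∀ v, v ∈ U ↔ Q *ᵥ v = v) : Q ∈ ctr Γ := by
  refine ⟨hQ, fun B hB => ?_⟩
  have hpos := hodge_posDef hM.hs
  have h1 : ∀ A ∈ fl Γ, Q * (A * Q) = A * Q := by
    intro A hA
    refine ext_mulVec fun v => ?_
    have hv : Q *ᵥ v ∈ U := by
      rw [hU, Matrix.mulVec_mulVec, hQ2]
    have h2 := (hU _).1 (hF A hA _ hv)
    rw [← Matrix.mulVec_mulVec, ← Matrix.mulVec_mulVec]
    exact h2
  have h2 : Q * B = Q * B * Q := by
    have h3 := congrArg (adjH (hodge w S E)) (h1 _ (adjH_mem hM hB))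
    rw [adjH_mul hpos, adjH_mul hpos, adjH_adjH hpos, adjH_proj hpos hQH] at h3
    exact h3.symm
  rw [h2, mul_assoc, h1 B hB]

/-! ### rational hull -/

/-- rational hull -/
def hull (W : Submodule ℂ (Fin N → ℂ)) : Submodule ℂ (Fin N → ℂ) := zer (ann W)

theorem le_hull (W : Submodule ℂ (Fin N → ℂ)) : W ≤ hull W := fun u hu _ hx => hx u hu


/-- a rational matrix as a complex matrix -/
def qm (A : Matrix (Fin N) (Fin N) ℚ) : Matrix (Fin N) (Fin N) ℂ := A.map (fun a : ℚ => (a : ℂ))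

theorem row_mul (x : Fin N → ℚ) (A : Matrix (Fin N) (Fin N) ℚ) (v : Fin N → ℂ) :
    ∑ i, ((x ᵥ* A) i : ℂ) * v i = ∑ i, (x i : ℂ) * (qm A *ᵥ v) i := by
  simp only [Matrix.vecMul, Matrix.mulVec, dotProduct, qm, Matrix.map_apply, Rat.cast_sum,
    Rat.cast_mul, Finset.sum_mul, Finset.mul_sum]
  rw [Finset.sum_comm]
  refine Finset.sum_congr rfl fun i _ => Finset.sum_congr rfl fun j _ => ?_
  ring

/-- a rational matrix killing `W` kills the hull -/
theorem hull_kill {W : Submodule ℂ (Fin N → ℂ)} {A : Matrix (Fin N) (Fin N) ℚ}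
    (h : ∀ u ∈ W, qm A *ᵥ u = 0) : ∀ u ∈ hull W, qm A *ᵥ u = 0 := by
  intro v hv
  ext j
  have h1 : A j ∈ ann W := by
    intro u hu
    have := congrFun (h u hu) j
    simpa [qm, Matrix.mulVec, dotProduct] using this
  have := hv _ h1
  simpa [qm, Matrix.mulVec, dotProduct] using this

/-- a rational matrix preserving `W` preserves the hull -/
theorem hull_pres {W : Submodule ℂ (Fin N → ℂ)} {A : Matrix (Fin N) (Fin N) ℚ}
    (h : ∀ u ∈ W, qm A *ᵥ u ∈ W) : ∀ u ∈ hull W, qm A *ᵥ u ∈ hull W := by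
  intro v hv x hx
  rw [← row_mul]
  refine hv _ fun u hu => ?_
  rw [row_mul]
  exact hx _ (h u hu)

/-- an integral invertible matrix as rational matrix -/
def gq (g : GL (Fin N) ℤ) : Matrix (Fin N) (Fin N) ℚ :=
  (g : Matrix (Fin N) (Fin N) ℤ).map (fun a : ℤ => (a : ℚ))

theorem qm_gq (g : GL (Fin N) ℤ) : qm (gq g) = cm g := by
  ext i j
  simp [qm, gq, cm]

theorem qm_mul (A B : Matrix (Fin N) (Fin N) ℚ) : qm (A * B) = qm A * qm B := by
  have : qm = ⇑((Rat.castHom ℂ).mapMatrix (m := Fin N)) := rfl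
  rw [this, map_mul]

theorem qm_sub (A B : Matrix (Fin N) (Fin N) ℚ) : qm (A - B) = qm A - qm B := by
  have : qm = ⇑((Rat.castHom ℂ).mapMatrix (m := Fin N)) := rfl
  rw [this, map_sub]


/-- coordinates with respect to a `ℚ`-basis of `ℂ` -/
noncomputable def cb : Module.Basis (Module.Basis.ofVectorSpaceIndex ℚ ℂ) ℚ ℂ :=
  Module.Basis.ofVectorSpace ℚ ℂ

/-- the rational coordinate matrices of a complex matrix -/
noncomputable def co (A : Matrix (Fin N) (Fin N) ℂ) (j : Module.Basis.ofVectorSpaceIndex ℚ ℂ) :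
    Matrix (Fin N) (Fin N) ℚ := Matrix.of fun i k => cb.repr (A i k) j

theorem co_mul_gq (A : Matrix (Fin N) (Fin N) ℂ) (g : GL (Fin N) ℤ)
    (j : Module.Basis.ofVectorSpaceIndex ℚ ℂ) : co (A * cm g) j = co A j * gq g := by
  ext i k
  simp only [co, Matrix.of_apply, Matrix.mul_apply, gq, Matrix.map_apply, cm, map_sum,
    Finsupp.coe_finsetSum, Finset.sum_apply]
  refine Finset.sum_congr rfl fun l _ => ?_
  have h1 : A i l * (((g : Matrix (Fin N) (Fin N) ℤ) l k : ℤ) : ℂ) =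
      (((g : Matrix (Fin N) (Fin N) ℤ) l k : ℤ) : ℚ) • A i l := by
    rw [Rat.smul_def]; push_cast; ring
  rw [h1, map_smul, Finsupp.smul_apply, smul_eq_mul, mul_comm]

theorem co_gq_mul (A : Matrix (Fin N) (Fin N) ℂ) (g : GL (Fin N) ℤ)
    (j : Module.Basis.ofVectorSpaceIndex ℚ ℂ) : co (cm g * A) j = gq g * co A j := by
  ext i k
  simp only [co, Matrix.of_apply, Matrix.mul_apply, gq, Matrix.map_apply, cm, map_sum,
    Finsupp.coe_finsetSum, Finset.sum_apply]
  refine Finset.sum_congr rfl fun l _ => ?_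
  have h1 : (((g : Matrix (Fin N) (Fin N) ℤ) i l : ℤ) : ℂ) * A l k =
      (((g : Matrix (Fin N) (Fin N) ℤ) i l : ℤ) : ℚ) • A l k := by
    rw [Rat.smul_def]; push_cast; ring
  rw [h1, map_smul, Finsupp.smul_apply, smul_eq_mul]

theorem co_mem {A : Matrix (Fin N) (Fin N) ℂ} (hA : A ∈ fl Γ)
    (j : Module.Basis.ofVectorSpaceIndex ℚ ℂ) : qm (co A j) ∈ fl Γ := by
  intro g hg
  rw [← qm_gq, ← qm_mul, ← qm_mul, ← co_mul_gq, ← co_gq_mul, hA g hg]

theorem eq_sum_co (A : Matrix (Fin N) (Fin N) ℂ) :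
    ∃ J : Finset (Module.Basis.ofVectorSpaceIndex ℚ ℂ), A = ∑ j ∈ J, cb j • qm (co A j) := by
  classical
  refine ⟨Finset.univ.biUnion fun i => Finset.univ.biUnion fun k => (cb.repr (A i k)).support, ?_⟩
  ext i k
  rw [Matrix.sum_apply]
  have h1 := cb.linearCombination_repr (A i k)
  rw [Finsupp.linearCombination_apply, Finsupp.sum] at h1
  conv_lhs => rw [← h1]
  rw [Finset.sum_subset (s₂ := Finset.univ.biUnion fun i => Finset.univ.biUnion fun k =>
    (cb.repr (A i k)).support)]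
  · refine Finset.sum_congr rfl fun j _ => ?_
    simp only [Matrix.smul_apply, qm, Matrix.map_apply, co, Matrix.of_apply, smul_eq_mul,
      Rat.smul_def]
    ring
  · intro j hj
    rw [Finset.mem_biUnion]
    refine ⟨i, Finset.mem_univ _, ?_⟩
    rw [Finset.mem_biUnion]
    exact ⟨k, Finset.mem_univ _, hj⟩
  · intro j _ hj
    rw [Finsupp.notMem_support_iff.1 hj, zero_smul]

theorem hull_fs {W : Submodule ℂ (Fin N → ℂ)} (hW : IsFs Γ W) : IsFs Γ (hull W) := by
  intro A hA v hv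
  obtain ⟨J, hJ⟩ := eq_sum_co A
  rw [hJ, Matrix.sum_mulVec]
  refine Submodule.sum_mem _ fun j _ => ?_
  rw [Matrix.smul_mulVec]
  exact Submodule.smul_mem _ _ (hull_pres (fun u hu => hW _ (co_mem hA j) u hu) v hv)

theorem hull_st {W : Submodule ℂ (Fin N → ℂ)} (hW : IsSt Γ W) : IsSt Γ (hull W) := by
  intro g hg v hv
  rw [← qm_gq]
  refine hull_pres (fun u hu => ?_) v hv
  rw [qm_gq]
  exact hW g hg u hu

/-! ### the hull of a flat subspace -/

/-- (flat endomorphisms)·`W` -/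
def fspan (Γ : Subgroup (GL (Fin N) ℤ)) (W : Submodule ℂ (Fin N → ℂ)) : Submodule ℂ (Fin N → ℂ) :=
  Submodule.span ℂ {v | ∃ A ∈ fl Γ, ∃ u ∈ W, v = A *ᵥ u}

theorem le_fspan (W : Submodule ℂ (Fin N → ℂ)) : W ≤ fspan Γ W := fun u hu =>
  Submodule.subset_span ⟨1, one_mem_fl, u, hu, (Matrix.one_mulVec u).symm⟩

theorem fspan_fs (W : Submodule ℂ (Fin N → ℂ)) : IsFs Γ (fspan Γ W) := by
  intro A hA v hv
  refine Submodule.span_induction (p := fun v _ => A *ᵥ v ∈ fspan Γ W) ?_ ?_ ?_ ?_ hv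
  · rintro _ ⟨B, hB, u, hu, rfl⟩
    rw [Matrix.mulVec_mulVec]
    exact Submodule.subset_span ⟨A * B, mul_mem_fl hA hB, u, hu, rfl⟩
  · rw [Matrix.mulVec_zero]; exact Submodule.zero_mem _
  · intro x y _ _ hx hy
    rw [Matrix.mulVec_add]; exact Submodule.add_mem _ hx hy
  · intro c x _ hx
    rw [Matrix.mulVec_smul]; exact Submodule.smul_mem _ _ hx

theorem fspan_st {W : Submodule ℂ (Fin N → ℂ)} (hW : IsSt Γ W) : IsSt Γ (fspan Γ W) := by
  intro g hg v hv
  refine Submodule.span_induction (p := fun v _ => cm g *ᵥ v ∈ fspan Γ W) ?_ ?_ ?_ ?_ hv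
  · rintro _ ⟨B, hB, u, hu, rfl⟩
    rw [Matrix.mulVec_mulVec, ← hB g hg, ← Matrix.mulVec_mulVec]
    exact Submodule.subset_span ⟨B, hB, _, hW g hg u hu, rfl⟩
  · rw [Matrix.mulVec_zero]; exact Submodule.zero_mem _
  · intro x y _ _ hx hy
    rw [Matrix.mulVec_add]; exact Submodule.add_mem _ hx hy
  · intro c x _ hx
    rw [Matrix.mulVec_smul]; exact Submodule.smul_mem _ _ hx

theorem fspan_scalar {W : Submodule ℂ (Fin N → ℂ)} {g : GL (Fin N) ℤ} (hg : g ∈ Γ) {ζ : ℂ}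
    (h : ∀ u ∈ W, cm g *ᵥ u = ζ • u) : ∀ u ∈ fspan Γ W, cm g *ᵥ u = ζ • u := by
  intro v hv
  refine Submodule.span_induction (p := fun v _ => cm g *ᵥ v = ζ • v) ?_ ?_ ?_ ?_ hv
  · rintro _ ⟨B, hB, u, hu, rfl⟩
    rw [Matrix.mulVec_mulVec, ← hB g hg, ← Matrix.mulVec_mulVec, h u hu, Matrix.mulVec_smul]
  · rw [Matrix.mulVec_zero, smul_zero]
  · intro x y _ _ hx hy
    rw [Matrix.mulVec_add, hx, hy, smul_add]
  · intro c x _ hx
    rw [Matrix.mulVec_smul, hx, smul_comm]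

/-- the rational hull of (flat endomorphisms)·`W` -/
def Hul (Γ : Subgroup (GL (Fin N) ℤ)) (W : Submodule ℂ (Fin N → ℂ)) : Submodule ℂ (Fin N → ℂ) :=
  hull (fspan Γ W)

theorem le_Hul (W : Submodule ℂ (Fin N → ℂ)) : W ≤ Hul Γ W := (le_fspan W).trans (le_hull _)

theorem Hul_fs (W : Submodule ℂ (Fin N → ℂ)) : IsFs Γ (Hul Γ W) := hull_fs (fspan_fs W)

theorem Hul_st {W : Submodule ℂ (Fin N → ℂ)} (hW : IsSt Γ W) : IsSt Γ (Hul Γ W) :=
  hull_st (fspan_st hW)

/-- the projector on the hull -/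
theorem exists_proj (hM : Mono w S E Γ) {W : Submodule ℂ (Fin N → ℂ)} (hW : IsSt Γ W) :
    ∃ Q ∈ ctr Γ, Q * Q = Q ∧ Qᴴ * hodge w S E = hodge w S E * Q ∧
      ∀ v, v ∈ Hul Γ W ↔ Q *ᵥ v = v := by
  obtain ⟨Q, hQ, hQ2, hQH, hU⟩ := hM.semi _ (Hul_st hW)
  exact ⟨Q, proj_ctr hM (Hul_fs W) hQ hQH hQ2 hU, hQ2, hQH, hU⟩

/-- the hull is a sub-Hodge structure -/
theorem Hul_E (hM : Mono w S E Γ) {W : Submodule ℂ (Fin N → ℂ)} (hW : IsSt Γ W) :
    ∀ v ∈ Hul Γ W, E *ᵥ v ∈ Hul Γ W := by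
  obtain ⟨Q, hQ, hQ2, hQH, hU⟩ := exists_proj hM hW
  intro v hv
  rw [hU] at hv ⊢
  rw [Matrix.mulVec_mulVec, ← ctr_comm hM hQ, ← Matrix.mulVec_mulVec, hv]

/-- a transport which is a scalar on `W` commutes with all transports on the hull -/
theorem Hul_comm {W : Submodule ℂ (Fin N → ℂ)} (hW : IsSt Γ W) {g : GL (Fin N) ℤ}
    (hg : g ∈ Γ) {ζ : ℂ} (h : ∀ u ∈ W, cm g *ᵥ u = ζ • u) {k : GL (Fin N) ℤ} (hk : k ∈ Γ) :
    ∀ v ∈ Hul Γ W, cm g *ᵥ (cm k *ᵥ v) = cm k *ᵥ (cm g *ᵥ v) := by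
  intro v hv
  have h1 : ∀ u ∈ fspan Γ W, qm (gq g * gq k - gq k * gq g) *ᵥ u = 0 := by
    intro u hu
    rw [qm_sub, qm_mul, qm_mul, qm_gq, qm_gq, Matrix.sub_mulVec, ← Matrix.mulVec_mulVec,
      ← Matrix.mulVec_mulVec, fspan_scalar hg h _ hu,
      fspan_scalar hg h _ (fspan_st hW k hk u hu), Matrix.mulVec_smul, sub_self]
  have h2 := hull_kill h1 v hv
  rw [qm_sub, qm_mul, qm_mul, qm_gq, qm_gq, Matrix.sub_mulVec, ← Matrix.mulVec_mulVec,
    ← Matrix.mulVec_mulVec, sub_eq_zero] at h2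
  exact h2

/-- a transport which is a scalar on `W` commutes with `E` on the hull -/
theorem Hul_commE (hM : Mono w S E Γ) {W : Submodule ℂ (Fin N → ℂ)} (hW : IsSt Γ W)
    {g : GL (Fin N) ℤ} (hg : g ∈ Γ) {ζ : ℂ} (h : ∀ u ∈ W, cm g *ᵥ u = ζ • u) :
    ∀ v ∈ Hul Γ W, cm g *ᵥ (E *ᵥ v) = E *ᵥ (cm g *ᵥ v) := by
  obtain ⟨Q, hQ, hQ2, hQH, hU⟩ := exists_proj hM hW
  have hQm : ∀ v, Q *ᵥ v ∈ Hul Γ W := fun v => by
    rw [hU, Matrix.mulVec_mulVec, hQ2]
  have h1 : cm g * Q ∈ ctr Γ := by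
    constructor
    · intro k hk
      rw [mul_assoc, hQ.1 k hk, ← mul_assoc, ← mul_assoc]
      refine ext_mulVec fun v => ?_
      rw [← Matrix.mulVec_mulVec, ← Matrix.mulVec_mulVec, ← Matrix.mulVec_mulVec,
        ← Matrix.mulVec_mulVec]
      exact Hul_comm hW hg h hk _ (hQm v)
    · intro B hB
      rw [mul_assoc, hQ.2 B hB, ← mul_assoc, ← hB g hg, mul_assoc]
  have h2 := ctr_comm hM h1
  have h3 := ctr_comm hM hQ
  intro v hv
  have hv' := (hU v).1 hv
  have h4 : cm g *ᵥ (E *ᵥ v) = (cm g * Q * E) *ᵥ v := by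
    rw [mul_assoc, ← h3, ← Matrix.mulVec_mulVec, ← Matrix.mulVec_mulVec, hv']
  rw [h4, ← h2, ← Matrix.mulVec_mulVec, ← Matrix.mulVec_mulVec, hv']

theorem Hul_comm_aeval (hM : Mono w S E Γ) {W : Submodule ℂ (Fin N → ℂ)} (hW : IsSt Γ W)
    {g : GL (Fin N) ℤ} (hg : g ∈ Γ) {ζ : ℂ} (h : ∀ u ∈ W, cm g *ᵥ u = ζ • u) (f : ℂ[X]) :
    ∀ v ∈ Hul Γ W, Polynomial.aeval E f *ᵥ v ∈ Hul Γ W ∧
      cm g *ᵥ (Polynomial.aeval E f *ᵥ v) = Polynomial.aeval E f *ᵥ (cm g *ᵥ v) := by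
  induction f using Polynomial.induction_on' with
  | add f f' hf hf' =>
    intro v hv
    rw [map_add, Matrix.add_mulVec, Matrix.add_mulVec, Matrix.mulVec_add]
    exact ⟨Submodule.add_mem _ (hf v hv).1 (hf' v hv).1, by rw [(hf v hv).2, (hf' v hv).2]⟩
  | monomial n a =>
    intro v hv
    rw [← C_mul_X_pow_eq_monomial, map_mul, aeval_C, map_pow, aeval_X, ← Algebra.smul_def,
      Matrix.smul_mulVec, Matrix.smul_mulVec, Matrix.mulVec_smul]
    have h1 : ∀ n : ℕ, ∀ v ∈ Hul Γ W, E ^ n *ᵥ v ∈ Hul Γ W ∧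
        cm g *ᵥ (E ^ n *ᵥ v) = E ^ n *ᵥ (cm g *ᵥ v) := by
      intro n
      induction n with
      | zero => intro v hv; simp [hv]
      | succ n ih =>
        intro v hv
        rw [pow_succ', ← Matrix.mulVec_mulVec, ← Matrix.mulVec_mulVec]
        exact ⟨Hul_E hM hW _ (ih v hv).1, by
          rw [Hul_commE hM hW hg h _ (ih v hv).1, (ih v hv).2]⟩
    exact ⟨Submodule.smul_mem _ _ (h1 n v hv).1, by rw [(h1 n v hv).2]⟩

/-- a transport which is a scalar on `W` preserves the Hodge metric on the hull -/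
theorem Hul_herm (hM : Mono w S E Γ) {W : Submodule ℂ (Fin N → ℂ)} (hW : IsSt Γ W)
    {g : GL (Fin N) ℤ} (hg : g ∈ Γ) {ζ : ℂ} (h : ∀ u ∈ W, cm g *ᵥ u = ζ • u)
    (u v : Fin N → ℂ) (hv : v ∈ Hul Γ W) :
    star (cm g *ᵥ u) ⬝ᵥ (hodge w S E *ᵥ (cm g *ᵥ v)) = star u ⬝ᵥ (hodge w S E *ᵥ v) := by
  have h1 : ∃ f : ℂ[X], weil w E = Polynomial.aeval E f := by
    refine ⟨∑ p ∈ Finset.range (w + 1), C ((-1 : ℂ) ^ p) *
      Lagrange.basis (Finset.range (w + 1)) (fun q : ℕ => (q : ℂ)) p, ?_⟩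
    unfold weil
    rw [map_sum]
    refine Finset.sum_congr rfl fun p _ => ?_
    rw [map_mul, aeval_C, ← Algebra.smul_def]
    rfl
  obtain ⟨f, hf⟩ := h1
  unfold hodge
  rw [hf, ← Matrix.mulVec_mulVec, ← (Hul_comm_aeval hM hW hg h f v hv).2, Matrix.star_mulVec,
    ← Matrix.dotProduct_mulVec, Matrix.mulVec_mulVec, Matrix.mulVec_mulVec,
    hM.pres g hg, Matrix.mulVec_mulVec]

/-! ### integral vectors and finite order -/

/-- a vector of integers as complex vector -/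
def zv (v : Fin N → ℤ) : Fin N → ℂ := fun i => (v i : ℂ)

/-- coordinates of a vector with respect to a `ℚ`-basis of `ℂ` -/
noncomputable def cov (v : Fin N → ℂ) (j : Module.Basis.ofVectorSpaceIndex ℚ ℂ) : Fin N → ℚ :=
  fun i => cb.repr (v i) j

theorem eq_sum_cov (v : Fin N → ℂ) :
    ∃ J : Finset (Module.Basis.ofVectorSpaceIndex ℚ ℂ),
      v = ∑ j ∈ J, cb j • (fun i => ((cov v j i : ℚ) : ℂ)) := by
  classical
  refine ⟨Finset.univ.biUnion fun i => (cb.repr (v i)).support, ?_⟩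
  ext i
  rw [Finset.sum_apply]
  have h1 := cb.linearCombination_repr (v i)
  rw [Finsupp.linearCombination_apply, Finsupp.sum] at h1
  conv_lhs => rw [← h1]
  rw [Finset.sum_subset (s₂ := Finset.univ.biUnion fun i => (cb.repr (v i)).support)]
  · refine Finset.sum_congr rfl fun j _ => ?_
    simp only [Pi.smul_apply, cov, smul_eq_mul, Rat.smul_def]
    ring
  · intro j hj
    rw [Finset.mem_biUnion]
    exact ⟨i, Finset.mem_univ _, hj⟩
  · intro j _ hj
    rw [Finsupp.notMem_support_iff.1 hj, zero_smul]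

theorem cov_mem {R : Submodule ℚ (Fin N → ℚ)} {v : Fin N → ℂ} (hv : v ∈ zer R)
    (j : Module.Basis.ofVectorSpaceIndex ℚ ℂ) : (fun i => ((cov v j i : ℚ) : ℂ)) ∈ zer R := by
  intro x hx
  have h1 := hv x hx
  have h2 : cb.repr (∑ i, (x i : ℂ) * v i) j = ∑ i, x i * cov v j i := by
    rw [map_sum, Finsupp.coe_finsetSum, Finset.sum_apply]
    refine Finset.sum_congr rfl fun i _ => ?_
    rw [← Rat.smul_def, map_smul, Finsupp.smul_apply, smul_eq_mul]
    rfl
  rw [h1, map_zero, Finsupp.zero_apply] at h2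
  have h3 : ((∑ i, x i * cov v j i : ℚ) : ℂ) = 0 := by rw [← h2]; simp
  push_cast at h3
  exact h3

/-- clearing denominators -/
theorem exists_int (v : Fin N → ℚ) : ∃ d : ℕ, d ≠ 0 ∧ ∃ u : Fin N → ℤ, ∀ i, (u i : ℚ) = d * v i := by
  refine ⟨∏ i, (v i).den, Finset.prod_ne_zero_iff.2 fun i _ => (v i).den_nz, ?_⟩
  have h : ∀ i, ∃ m : ℤ, (m : ℚ) = ((∏ i, (v i).den : ℕ) : ℚ) * v i := by
    intro i
    obtain ⟨c, hc⟩ := Finset.dvd_prod_of_mem (fun i => (v i).den) (Finset.mem_univ i)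
    refine ⟨c * (v i).num, ?_⟩
    rw [hc]
    push_cast
    have h1 : ((v i).den : ℚ) * v i = (v i).num := by
      rw [mul_comm]; exact Rat.mul_den_eq_num (v i)
    rw [← h1]
    ring
  choose u hu using h
  exact ⟨u, hu⟩

/-- a subspace defined by rational forms is spanned by its integral vectors -/
theorem zer_eq_span (R : Submodule ℚ (Fin N → ℚ)) :
    zer R = Submodule.span ℂ {v | ∃ u : Fin N → ℤ, zv u = v ∧ v ∈ zer R} := by
  refine le_antisymm ?_ (Submodule.span_le.2 fun v hv => ?_)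
  · intro v hv
    obtain ⟨J, hJ⟩ := eq_sum_cov v
    rw [hJ]
    refine Submodule.sum_mem _ fun j _ => Submodule.smul_mem _ _ ?_
    obtain ⟨d, hd, u, hu⟩ := exists_int (cov v j)
    have h1 : (fun i => ((cov v j i : ℚ) : ℂ)) = ((d : ℂ)⁻¹) • zv u := by
      ext i
      have h2 : ((u i : ℚ) : ℂ) = ((d * cov v j i : ℚ) : ℂ) := by rw [hu i]
      push_cast at h2
      simp only [zv, Pi.smul_apply, smul_eq_mul]
      rw [h2, ← mul_assoc, inv_mul_cancel₀ (by exact_mod_cast hd), one_mul]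
    rw [h1]
    refine Submodule.smul_mem _ _ (Submodule.subset_span ⟨u, rfl, ?_⟩)
    have h3 : zv u = (d : ℂ) • (fun i => ((cov v j i : ℚ) : ℂ)) := by
      rw [h1, smul_smul, mul_inv_cancel₀ (by exact_mod_cast hd), one_smul]
    rw [h3]
    exact Submodule.smul_mem _ _ (cov_mem hv j)
  · obtain ⟨u, _, h2⟩ := hv
    exact h2

theorem finite_bdd {H : Matrix (Fin N) (Fin N) ℂ} (hH : H.PosDef) (K : ℝ) :
    Set.Finite {v : Fin N → ℤ | (star (zv v) ⬝ᵥ (H *ᵥ zv v)).re ≤ K} := by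
  obtain ⟨G, hG, hHG⟩ := exists_sqrt hH
  have hd : IsUnit G.det := (Matrix.isUnit_iff_isUnit_det G).1 hG
  have h1 : ∀ v : Fin N → ℂ, (star v ⬝ᵥ (H *ᵥ v)).re = ∑ i, ‖(G *ᵥ v) i‖ ^ 2 := by
    intro v
    rw [hHG, ← Matrix.mulVec_mulVec, Matrix.dotProduct_mulVec, ← Matrix.star_mulVec]
    simp only [dotProduct, Complex.re_sum, Pi.star_apply]
    refine Finset.sum_congr rfl fun i _ => ?_
    rw [Complex.star_def, mul_comm, Complex.mul_conj, Complex.normSq_eq_norm_sq, Complex.ofReal_re]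
  obtain ⟨C, hC⟩ : ∃ C : ℝ, ∀ v : Fin N → ℂ, ∀ i, ‖v i‖ ≤ C * ∑ j, ‖(G *ᵥ v) j‖ := by
    refine ⟨∑ i, ∑ j, ‖G⁻¹ i j‖, fun v i => ?_⟩
    have h2 : v = G⁻¹ *ᵥ (G *ᵥ v) := by
      rw [Matrix.mulVec_mulVec, Matrix.nonsing_inv_mul _ hd, Matrix.one_mulVec]
    have h3 : v i = ∑ j, G⁻¹ i j * (G *ᵥ v) j := by
      conv_lhs => rw [h2]
      rfl
    rw [h3]
    calc ‖∑ j, G⁻¹ i j * (G *ᵥ v) j‖ ≤ ∑ j, ‖G⁻¹ i j * (G *ᵥ v) j‖ := norm_sum_le _ _
      _ ≤ ∑ j, ‖G⁻¹ i j‖ * ∑ l, ‖(G *ᵥ v) l‖ := by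
          refine Finset.sum_le_sum fun j _ => ?_
          rw [norm_mul]
          exact mul_le_mul_of_nonneg_left (Finset.single_le_sum (f := fun l => ‖(G *ᵥ v) l‖)
            (fun _ _ => norm_nonneg _) (Finset.mem_univ j)) (norm_nonneg _)
      _ = (∑ j, ‖G⁻¹ i j‖) * ∑ l, ‖(G *ᵥ v) l‖ := by rw [Finset.sum_mul]
      _ ≤ (∑ i, ∑ j, ‖G⁻¹ i j‖) * ∑ l, ‖(G *ᵥ v) l‖ := by
          refine mul_le_mul_of_nonneg_right ?_ (Finset.sum_nonneg fun _ _ => norm_nonneg _)
          exact Finset.single_le_sum (f := fun i => ∑ j, ‖G⁻¹ i j‖)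
            (fun _ _ => Finset.sum_nonneg fun _ _ => norm_nonneg _) (Finset.mem_univ i)
  obtain ⟨B, hB⟩ : ∃ B : ℤ, C * (N * (K + 1)) < B ∧ 0 < B := by
    obtain ⟨B, hB⟩ := exists_int_gt (max (C * (N * (K + 1))) 0)
    exact ⟨B, lt_of_le_of_lt (le_max_left _ _) hB,
      by exact_mod_cast lt_of_le_of_lt (le_max_right _ _) hB⟩
  refine (Set.Finite.pi' (t := fun _ : Fin N => Set.Icc (-B) B)
    fun _ => Set.finite_Icc _ _).subset fun v hv i => ?_
  rw [Set.mem_ofPred_eq, h1] at hv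
  have hC0 : 0 ≤ C ∨ (∑ j, ‖(G *ᵥ zv v) j‖) = 0 := by
    by_contra hcon
    push Not at hcon
    have h4 := hC (zv v) i
    have h5 : 0 < ∑ j, ‖(G *ᵥ zv v) j‖ :=
      lt_of_le_of_ne (Finset.sum_nonneg fun _ _ => norm_nonneg _) (Ne.symm hcon.2)
    have h6 : C * ∑ j, ‖(G *ᵥ zv v) j‖ < 0 := mul_neg_of_neg_of_pos hcon.1 h5
    linarith [norm_nonneg (zv v i)]
  have h7 : ∑ j, ‖(G *ᵥ zv v) j‖ ≤ N * (K + 1) := by
    have h8 : ∀ j ∈ Finset.univ, ‖(G *ᵥ zv v) j‖ ≤ K + 1 := by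
      intro j _
      have h9 : ‖(G *ᵥ zv v) j‖ ^ 2 ≤ K := le_trans
        (Finset.single_le_sum (f := fun j => ‖(G *ᵥ zv v) j‖ ^ 2) (fun _ _ => sq_nonneg _)
          (Finset.mem_univ j)) hv
      nlinarith [sq_nonneg (‖(G *ᵥ zv v) j‖ - 1), norm_nonneg ((G *ᵥ zv v) j)]
    refine (Finset.sum_le_sum h8).trans_eq ?_
    rw [Finset.sum_const, Finset.card_univ, Fintype.card_fin, nsmul_eq_mul]
  have h10 : ‖zv v i‖ ≤ B := by
    refine (hC (zv v) i).trans ?_
    rcases hC0 with h0 | h0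
    · exact (mul_le_mul_of_nonneg_left h7 h0).trans hB.1.le
    · rw [h0, mul_zero]; exact_mod_cast hB.2.le
  have h11 : |(v i : ℝ)| ≤ B := by
    have : ‖zv v i‖ = |(v i : ℝ)| := by
      unfold zv
      rw [← Complex.ofReal_intCast, Complex.norm_real, Real.norm_eq_abs]
    rwa [this] at h10
  have h12 : |v i| ≤ B := by exact_mod_cast h11
  exact Set.mem_Icc.2 (abs_le.1 h12)

theorem cm_mulVec_zv (g : GL (Fin N) ℤ) (v : Fin N → ℤ) :
    cm g *ᵥ zv v = zv ((g : Matrix (Fin N) (Fin N) ℤ) *ᵥ v) := by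
  ext i
  simp [zv, cm, Matrix.mulVec, dotProduct]

/-- the restrictions to the hull of the transports which are scalars on `W` form a finite set -/
theorem Hul_finite (hM : Mono w S E Γ) {W : Submodule ℂ (Fin N → ℂ)} (hW : IsSt Γ W) :
    Set.Finite {f : Hul Γ W → (Fin N → ℂ) | ∃ g ∈ Γ, (∃ ζ : ℂ, ∀ u ∈ W, cm g *ᵥ u = ζ • u) ∧
      f = fun v : Hul Γ W => cm g *ᵥ (v : Fin N → ℂ)} := by
  have hspan : Hul Γ W = Submodule.span ℂ {v | ∃ u : Fin N → ℤ, zv u = v ∧ v ∈ Hul Γ W} :=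
    zer_eq_span _
  have hfg : (Submodule.span ℂ {v | ∃ u : Fin N → ℤ, zv u = v ∧ v ∈ Hul Γ W}).FG :=
    IsNoetherian.noetherian _
  obtain ⟨B, hB, hBs⟩ := Submodule.fg_span_iff_fg_span_finset_subset _ |>.1 hfg
  rw [← hspan] at hBs
  have hBm : ∀ b : B, (b : Fin N → ℂ) ∈ Hul Γ W := fun b => (hB b.2).choose_spec.2
  let F : B → Set (Fin N → ℂ) := fun b =>
    zv '' {v : Fin N → ℤ | (star (zv v) ⬝ᵥ (hodge w S E *ᵥ zv v)).re ≤
      (star (b : Fin N → ℂ) ⬝ᵥ (hodge w S E *ᵥ (b : Fin N → ℂ))).re}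
  have hF : (Set.pi Set.univ F).Finite :=
    Set.Finite.pi' (t := F) (fun b => (finite_bdd (hodge_posDef hM.hs) _).image _) |>.subset
      (fun f hf b => hf b (Set.mem_univ b))
  let r : (Hul Γ W → (Fin N → ℂ)) → (B → (Fin N → ℂ)) := fun f b => f ⟨b, hBm b⟩
  refine Set.Finite.of_finite_image (f := r) (hF.subset ?_) ?_
  · rintro _ ⟨f, ⟨g, hg, ⟨ζ, hζ⟩, rfl⟩, rfl⟩ b _
    obtain ⟨u, hu, hu2⟩ := hB b.2
    refine ⟨(g : Matrix (Fin N) (Fin N) ℤ) *ᵥ u, ?_, ?_⟩
    · rw [Set.mem_ofPred_eq, ← cm_mulVec_zv, hu, Hul_herm hM hW hg hζ _ _ hu2]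
    · rw [← cm_mulVec_zv, hu]
  · rintro _ ⟨g, hg, _, rfl⟩ _ ⟨g', hg', _, rfl⟩ he
    funext v
    obtain ⟨v, hv⟩ := v
    have h1 : v ∈ Submodule.span ℂ (B : Set (Fin N → ℂ)) := hBs ▸ hv
    show cm g *ᵥ v = cm g' *ᵥ v
    refine Submodule.span_induction (p := fun v _ => cm g *ᵥ v = cm g' *ᵥ v) ?_ ?_ ?_ ?_ h1
    · intro b hb
      exact congrFun he ⟨b, hb⟩
    · rw [Matrix.mulVec_zero, Matrix.mulVec_zero]
    · intro x y _ _ hx hy
      rw [Matrix.mulVec_add, Matrix.mulVec_add, hx, hy]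
    · intro c x _ hx
      rw [Matrix.mulVec_smul, Matrix.mulVec_smul, hx]

theorem scalar_pow {W : Submodule ℂ (Fin N → ℂ)} {g : GL (Fin N) ℤ} {ζ : ℂ}
    (h : ∀ u ∈ W, cm g *ᵥ u = ζ • u) (n : ℕ) : ∀ u ∈ W, cm (g ^ n) *ᵥ u = ζ ^ n • u := by
  induction n with
  | zero => intro u _; rw [pow_zero, pow_zero, cm_one, Matrix.one_mulVec, one_smul]
  | succ n ih =>
    intro u hu
    rw [pow_succ, cm_mul, ← Matrix.mulVec_mulVec, h u hu, Matrix.mulVec_smul, ih u hu, smul_smul,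
      pow_succ, mul_comm]

/-- uniform finite order -/
theorem Hul_order (hM : Mono w S E Γ) {W : Submodule ℂ (Fin N → ℂ)} (hW : IsSt Γ W) :
    ∃ M : ℕ, 0 < M ∧ ∀ g ∈ Γ, ∀ ζ : ℂ, (∀ u ∈ W, cm g *ᵥ u = ζ • u) →
      ∀ v ∈ Hul Γ W, cm (g ^ M) *ᵥ v = v := by
  have hfin := Hul_finite hM hW
  refine ⟨(hfin.toFinset.card + 1).factorial, Nat.factorial_pos _, fun g hg ζ hζ => ?_⟩
  let φ : Fin (hfin.toFinset.card + 1) → (Hul Γ W → (Fin N → ℂ)) :=
    fun n => fun v => cm (g ^ (n : ℕ)) *ᵥ (v : Fin N → ℂ)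
  have hφ : ∀ n, φ n ∈ hfin.toFinset := by
    intro n
    rw [Set.Finite.mem_toFinset]
    exact ⟨g ^ (n : ℕ), Γ.pow_mem hg _, ⟨ζ ^ (n : ℕ), scalar_pow hζ _⟩, rfl⟩
  obtain ⟨i, _, j, _, hij, he⟩ := Finset.exists_ne_map_eq_of_card_lt_of_maps_to
    (s := Finset.univ) (t := hfin.toFinset) (f := φ) (by simp) (fun n _ => hφ n)
  have key : ∀ i j : Fin (hfin.toFinset.card + 1), (i : ℕ) < j → φ i = φ j →
      ∀ v ∈ Hul Γ W, cm (g ^ ((j : ℕ) - i)) *ᵥ v = v := by
    intro i j hlt he v hv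
    have h1 := congrFun he ⟨v, hv⟩
    have h2 : cm (g ^ (i : ℕ)) *ᵥ v = cm (g ^ (j : ℕ)) *ᵥ v := h1
    have h3 : g ^ (j : ℕ) = g ^ (i : ℕ) * g ^ ((j : ℕ) - i) := by
      rw [← pow_add, Nat.add_sub_cancel' hlt.le]
    rw [h3, cm_mul, ← Matrix.mulVec_mulVec] at h2
    have h4 := congrArg (fun x => cm (g ^ (i : ℕ))⁻¹ *ᵥ x) h2
    simp only [Matrix.mulVec_mulVec] at h4
    rw [← mul_assoc, cm_inv_mul, one_mul, Matrix.one_mulVec] at h4
    exact h4.symm
  obtain ⟨d, hd0, hdle, hd⟩ : ∃ d : ℕ, 0 < d ∧ d ≤ hfin.toFinset.card + 1 ∧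
      ∀ v ∈ Hul Γ W, cm (g ^ d) *ᵥ v = v := by
    rcases lt_or_gt_of_ne (fun h => hij (Fin.ext h) : (i : ℕ) ≠ j) with h | h
    · exact ⟨j - i, by omega, by omega, key i j h he⟩
    · exact ⟨i - j, by omega, by omega, key j i h he.symm⟩
  obtain ⟨c, hc⟩ := Nat.dvd_factorial hd0 hdle
  have hpow : ∀ n : ℕ, ∀ v ∈ Hul Γ W, cm ((g ^ d) ^ n) *ᵥ v = v := by
    intro n
    induction n with
    | zero => intro v _; rw [pow_zero, cm_one, Matrix.one_mulVec]
    | succ n ih =>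
      intro v hv
      rw [pow_succ, cm_mul, ← Matrix.mulVec_mulVec, hd v hv, ih v hv]
  intro v hv
  rw [hc, pow_mul]
  exact hpow c v hv


/-- a nonzero vector gives a nonzero `W`, so the scalar is a root of unity -/
theorem scalar_root (hM : Mono w S E Γ) {W : Submodule ℂ (Fin N → ℂ)} (hW : IsSt Γ W)
    (h0 : W ≠ ⊥) : ∃ M : ℕ, 0 < M ∧ ∀ g ∈ Γ, ∀ ζ : ℂ, (∀ u ∈ W, cm g *ᵥ u = ζ • u) → ζ ^ M = 1 := by
  obtain ⟨M, hM0, h⟩ := Hul_order hM hW
  refine ⟨M, hM0, fun g hg ζ hζ => ?_⟩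
  obtain ⟨u, hu, hu0⟩ := Submodule.exists_mem_ne_zero_of_ne_bot h0
  have h1 := h g hg ζ hζ u (le_Hul W hu)
  rw [scalar_pow hζ M u hu] at h1
  have h2 : (ζ ^ M - 1) • u = 0 := by rw [sub_smul, h1, one_smul, sub_self]
  rcases smul_eq_zero.1 h2 with h3 | h3
  · exact sub_eq_zero.1 h3
  · exact absurd h3 hu0

end Crest.Agent.R276.Hull_574
end

-- ▼ part R276/TrB_617

/-!
# R276, helper617: GVHS-T, matrix forms of the chain transport

* `rdom_lpc`, `rdom_lc` : Riemann domains are locally (path) connected.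
* `mat_*` : flat endomorphism fields `lM P Φ z y = Φ z`.
* `vec_*` : flat sections `lV P v z y = v z`; `ivec_*` integral flat sections.
* `sub_*` : flat subbundles (`Submodule ℂ (Fin N → ℂ)`); `isub_*` for lattices.
* `form_*` : flat Hermitian forms `S y = (cm (P z y))ᴴ * S z * cm (P z y)`.
* `gl_*` : flat automorphisms (`P z y * ρ y = ρ z * P z y`).
-/

set_option autoImplicit false

open Set Topology Filter Matrix

namespace Crest.Agent.R276.Tr_617

open Crest.Agent.R276.Ipc735 Crest.Agent.R276.Top1_175 Crest.Agent.R271.Ho51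
  Crest.Agent.R276.Hull_574

/-! ### Riemann domains are locally path connected -/

theorem rdom_lpc {m : ℕ} {X : Type*} [TopologicalSpace X] [RDom m X] :
    LocallyPathConnectedSpace X := by
  let _ : ChartedSpace (Fin m → ℂ) X :=
    { atlas := Set.range fun x : X => ch x
      chartAt := fun x => ch x
      mem_chart_source := fun x => mem_ch x
      chart_mem_atlas := fun x => ⟨x, rfl⟩ }
  exact ChartedSpace.locallyPathConnectedSpace (Fin m → ℂ) X

instance (priority := 50) rdom_lpc' {m : ℕ} {X : Type*} [TopologicalSpace X] [RDom m X] :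
    LocallyPathConnectedSpace X := rdom_lpc (m := m)

theorem rdom_lc {m : ℕ} {X : Type*} [TopologicalSpace X] [RDom m X] :
    LocallyConnectedSpace X := by
  have := rdom_lpc (X := X)
  infer_instance

variable {X : Type*} [TopologicalSpace X] {N : ℕ} {P : X → X → GL (Fin N) ℤ} {x y z x₀ : X}
  {g k : GL (Fin N) ℤ}

/-! ### the actions -/

/-- conjugation action on matrices -/
def conjM (g : GL (Fin N) ℤ) (A : Matrix (Fin N) (Fin N) ℂ) : Matrix (Fin N) (Fin N) ℂ :=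
  cm g * A * cm g⁻¹

theorem conjM_one (A : Matrix (Fin N) (Fin N) ℂ) : conjM 1 A = A := by
  rw [conjM, inv_one, cm_one, one_mul, mul_one]

theorem conjM_mul (g h : GL (Fin N) ℤ) (A : Matrix (Fin N) (Fin N) ℂ) :
    conjM (g * h) A = conjM g (conjM h A) := by
  simp only [conjM]
  rw [_root_.mul_inv_rev, cm_mul, cm_mul]
  simp only [mul_assoc]

/-- complex matrices with the conjugation action -/
def CMat (N : ℕ) : Type := Matrix (Fin N) (Fin N) ℂ

instance : MulAction (GL (Fin N) ℤ) (CMat N) where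
  smul g A := conjM g A
  one_smul A := conjM_one A
  mul_smul g h A := conjM_mul g h A

/-- action on Hermitian forms -/
def conjF (g : GL (Fin N) ℤ) (A : Matrix (Fin N) (Fin N) ℂ) : Matrix (Fin N) (Fin N) ℂ :=
  (cm g⁻¹)ᴴ * A * cm g⁻¹

theorem conjF_one (A : Matrix (Fin N) (Fin N) ℂ) : conjF 1 A = A := by
  rw [conjF, inv_one, cm_one, conjTranspose_one, one_mul, mul_one]

theorem conjF_mul (g h : GL (Fin N) ℤ) (A : Matrix (Fin N) (Fin N) ℂ) :
    conjF (g * h) A = conjF g (conjF h A) := by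
  simp only [conjF]
  rw [_root_.mul_inv_rev, cm_mul, conjTranspose_mul]
  simp only [mul_assoc]

/-- Hermitian forms with the natural action -/
def CForm (N : ℕ) : Type := Matrix (Fin N) (Fin N) ℂ

instance : MulAction (GL (Fin N) ℤ) (CForm N) where
  smul g A := conjF g A
  one_smul A := conjF_one A
  mul_smul g h A := conjF_mul g h A

theorem cm_mulVec_mul (g h : GL (Fin N) ℤ) (v : Fin N → ℂ) :
    cm (g * h) *ᵥ v = cm g *ᵥ (cm h *ᵥ v) := by
  rw [cm_mul, mulVec_mulVec]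

theorem cm_mulVec_one (v : Fin N → ℂ) : cm (1 : GL (Fin N) ℤ) *ᵥ v = v := by
  rw [cm_one, one_mulVec]

/-- complex vectors -/
def CVec (N : ℕ) : Type := Fin N → ℂ

instance : MulAction (GL (Fin N) ℤ) (CVec N) where
  smul g v := cm g *ᵥ (show Fin N → ℂ from v)
  one_smul v := cm_mulVec_one v
  mul_smul g h v := cm_mulVec_mul g h v

theorem gl_mulVec_mul (g h : GL (Fin N) ℤ) (v : Fin N → ℤ) :
    ((g * h : GL (Fin N) ℤ) : Matrix (Fin N) (Fin N) ℤ) *ᵥ v
      = (g : Matrix (Fin N) (Fin N) ℤ) *ᵥ ((h : Matrix (Fin N) (Fin N) ℤ) *ᵥ v) := by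
  rw [Units.val_mul, mulVec_mulVec]

theorem gl_mulVec_one (v : Fin N → ℤ) :
    ((1 : GL (Fin N) ℤ) : Matrix (Fin N) (Fin N) ℤ) *ᵥ v = v := by
  rw [Units.val_one, one_mulVec]

/-- integral vectors -/
def ZVec (N : ℕ) : Type := Fin N → ℤ

instance : MulAction (GL (Fin N) ℤ) (ZVec N) where
  smul g v := (g : Matrix (Fin N) (Fin N) ℤ) *ᵥ (show Fin N → ℤ from v)
  one_smul v := gl_mulVec_one v
  mul_smul g h v := gl_mulVec_mul g h v

/-- conjugation action on integral matrices -/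
def conjZ (g : GL (Fin N) ℤ) (A : Matrix (Fin N) (Fin N) ℤ) : Matrix (Fin N) (Fin N) ℤ :=
  (g : Matrix (Fin N) (Fin N) ℤ) * A * ((g⁻¹ : GL (Fin N) ℤ) : Matrix (Fin N) (Fin N) ℤ)

theorem conjZ_one (A : Matrix (Fin N) (Fin N) ℤ) : conjZ 1 A = A := by
  rw [conjZ, inv_one, Units.val_one, one_mul, mul_one]

theorem conjZ_mul (g h : GL (Fin N) ℤ) (A : Matrix (Fin N) (Fin N) ℤ) :
    conjZ (g * h) A = conjZ g (conjZ h A) := by
  simp only [conjZ]
  rw [_root_.mul_inv_rev, Units.val_mul, Units.val_mul]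
  simp only [mul_assoc]


/-- integral matrices with the conjugation action -/
def ZMat (N : ℕ) : Type := Matrix (Fin N) (Fin N) ℤ

instance : MulAction (GL (Fin N) ℤ) (ZMat N) where
  smul g A := conjZ g A
  one_smul A := conjZ_one A
  mul_smul g h A := conjZ_mul g h A

/-- image of a subspace under `cm g` -/
def mapS (g : GL (Fin N) ℤ) (K : Submodule ℂ (Fin N → ℂ)) : Submodule ℂ (Fin N → ℂ) :=
  K.map (cm g).mulVecLin

theorem mem_mapS {K : Submodule ℂ (Fin N → ℂ)} {u : Fin N → ℂ} :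
    u ∈ mapS g K ↔ cm g⁻¹ *ᵥ u ∈ K := by
  rw [mapS, Submodule.mem_map]
  constructor
  · rintro ⟨v, hv, rfl⟩
    rwa [mulVecLin_apply, mulVec_mulVec, cm_inv_mul, one_mulVec]
  · intro h
    refine ⟨_, h, ?_⟩
    rw [mulVecLin_apply, mulVec_mulVec, cm_mul_inv, one_mulVec]

theorem mapS_one (K : Submodule ℂ (Fin N → ℂ)) : mapS 1 K = K := by
  ext u
  rw [mem_mapS, inv_one, cm_one, one_mulVec]

theorem mapS_mul (g h : GL (Fin N) ℤ) (K : Submodule ℂ (Fin N → ℂ)) :
    mapS (g * h) K = mapS g (mapS h K) := by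
  ext u
  rw [mem_mapS, mem_mapS, mem_mapS, _root_.mul_inv_rev, cm_mul, mulVec_mulVec]

theorem mulVec_mem_mapS {K : Submodule ℂ (Fin N → ℂ)} {u : Fin N → ℂ} :
    cm g *ᵥ u ∈ mapS g K ↔ u ∈ K := by
  rw [mem_mapS, mulVec_mulVec, cm_inv_mul, one_mulVec]

theorem finrank_mapS (g : GL (Fin N) ℤ) (K : Submodule ℂ (Fin N → ℂ)) :
    Module.finrank ℂ (mapS g K) = Module.finrank ℂ K := by
  have hinj : Function.Injective (cm g).mulVecLin := by
    intro u v huv
    have h1 := congrArg (fun t => cm g⁻¹ *ᵥ t) huv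
    simpa only [mulVecLin_apply, mulVec_mulVec, cm_inv_mul, one_mulVec] using h1
  exact (LinearEquiv.finrank_eq (Submodule.equivMapOfInjective _ hinj K)).symm


theorem isSt_of_mapS {Γ : Subgroup (GL (Fin N) ℤ)} {K : Submodule ℂ (Fin N → ℂ)}
    (h : ∀ g ∈ Γ, mapS g K = K) : IsSt Γ K := by
  intro g hg u hu
  rw [← h g hg]
  exact mulVec_mem_mapS.2 hu

/-- complex subspaces -/
def CSub (N : ℕ) : Type := Submodule ℂ (Fin N → ℂ)

instance : MulAction (GL (Fin N) ℤ) (CSub N) where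
  smul g K := mapS g K
  one_smul K := mapS_one K
  mul_smul g h K := mapS_mul g h K

/-! ### endomorphism fields -/

/-- flat endomorphism field -/
def FlM (P : X → X → GL (Fin N) ℤ) (Φ : X → Matrix (Fin N) (Fin N) ℂ) : Prop :=
  ∀ z, ∀ᶠ y in 𝓝 z, lM P Φ z y = Φ z

variable {Φ Ψ : X → Matrix (Fin N) (Fin N) ℂ}

theorem flM_iff : FlM P Φ ↔ Fl P (A := CMat N) Φ :=
  forall_congr' fun z => by
    constructor
    · intro h
      filter_upwards [h] with y hy
      exact hy.symm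
    · intro h
      filter_upwards [h] with y hy
      exact Eq.symm hy

theorem mat_tr (hΦ : FlM P Φ) (h : Tr P x y g) : Φ x = cm g * Φ y * cm g⁻¹ :=
  (flM_iff.1 hΦ).tr h

theorem mat_tr' (hΦ : FlM P Φ) (h : Tr P x y g) : Φ x * cm g = cm g * Φ y := by
  rw [mat_tr hΦ h, mul_assoc, cm_inv_mul, mul_one]

theorem mat_fl (hΦ : FlM P Φ) : Φ x ∈ fl (mon P x) := fun _ hk => mat_tr' hΦ hk




/-- **extension of flat endomorphisms** -/
theorem mat_extend [PreconnectedSpace X] [LocallyConnectedSpace X] (h : NDC P) (x₀ : X)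
    {F : Matrix (Fin N) (Fin N) ℂ} (hF : F ∈ fl (mon P x₀)) :
    ∃ Φ : X → Matrix (Fin N) (Fin N) ℂ, FlM P Φ ∧ Φ x₀ = F ∧
      ∀ x g, Tr P x x₀ g → Φ x = cm g * F * cm g⁻¹ := by
  obtain ⟨v, hv, h0, h1⟩ := extend (A := CMat N) (a := (F : CMat N)) h x₀ (fun k hk => by
    show cm k * F * cm k⁻¹ = F
    rw [← hF k hk, mul_assoc, cm_mul_inv, mul_one])
  exact ⟨v, flM_iff.2 hv, h0, h1⟩

/-- conjugation of flat endomorphisms by a transport -/
theorem fl_conj {F : Matrix (Fin N) (Fin N) ℂ} (h : Tr P x y g) :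
    F ∈ fl (mon P y) ↔ cm g * F * cm g⁻¹ ∈ fl (mon P x) := by
  have key : ∀ {x y : X} {g : GL (Fin N) ℤ} {F : Matrix (Fin N) (Fin N) ℂ}, Tr P x y g →
      F ∈ fl (mon P y) → cm g * F * cm g⁻¹ ∈ fl (mon P x) := by
    intro x y g F h hF k hk
    have hk' : g⁻¹ * k * g ∈ mon P y := (h.symm.trans hk).trans h
    have h1 := hF _ hk'
    have h2 : cm g * (F * cm (g⁻¹ * k * g)) * cm g⁻¹
        = cm g * (cm (g⁻¹ * k * g) * F) * cm g⁻¹ := by rw [h1]
    have h3 : cm (g⁻¹ * k * g) = cm g⁻¹ * cm k * cm g := by rw [cm_mul, cm_mul]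
    rw [h3] at h2
    have e1 : cm g * (F * (cm g⁻¹ * cm k * cm g)) * cm g⁻¹
        = cm g * F * cm g⁻¹ * cm k * (cm g * cm g⁻¹) := by simp only [mul_assoc]
    have e2 : cm g * (cm g⁻¹ * cm k * cm g * F) * cm g⁻¹
        = (cm g * cm g⁻¹) * cm k * (cm g * F * cm g⁻¹) := by simp only [mul_assoc]
    rw [e1, e2, cm_mul_inv, mul_one, one_mul] at h2
    exact h2
  refine ⟨key h, fun hF => ?_⟩
  have h1 := key h.symm hF
  rw [inv_inv] at h1
  have e1 : cm g⁻¹ * (cm g * F * cm g⁻¹) * cm g = (cm g⁻¹ * cm g) * F * (cm g⁻¹ * cm g) := by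
    simp only [mul_assoc]
  rwa [e1, cm_inv_mul, one_mul, mul_one] at h1

theorem FlM.add (hΦ : FlM P Φ) (hΨ : FlM P Ψ) : FlM P (fun x => Φ x + Ψ x) := by
  intro z
  filter_upwards [hΦ z, hΨ z] with y h1 h2
  rw [← h1, ← h2]
  simp only [lM, mul_add, add_mul]

theorem FlM.sub (hΦ : FlM P Φ) (hΨ : FlM P Ψ) : FlM P (fun x => Φ x - Ψ x) := by
  intro z
  filter_upwards [hΦ z, hΨ z] with y h1 h2
  rw [← h1, ← h2]
  simp only [lM, mul_sub, sub_mul]

theorem FlM.smul (c : ℂ) (hΦ : FlM P Φ) : FlM P (fun x => c • Φ x) := by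
  intro z
  filter_upwards [hΦ z] with y h1
  rw [← h1]
  simp only [lM, Matrix.mul_smul, Matrix.smul_mul]

theorem FlM.mul (hΦ : FlM P Φ) (hΨ : FlM P Ψ) : FlM P (fun x => Φ x * Ψ x) := by
  intro z
  filter_upwards [hΦ z, hΨ z] with y h1 h2
  rw [← h1, ← h2]
  simp only [lM]
  have e1 : cm (P z y) * Φ y * cm (P z y)⁻¹ * (cm (P z y) * Ψ y * cm (P z y)⁻¹)
      = cm (P z y) * Φ y * (cm (P z y)⁻¹ * cm (P z y)) * Ψ y * cm (P z y)⁻¹ := by
    simp only [mul_assoc]
  rw [e1, cm_inv_mul, mul_one]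
  simp only [mul_assoc]

theorem FlM.one : FlM P (fun _ => 1) := by
  intro z
  refine Eventually.of_forall fun y => ?_
  rw [lM, mul_one, cm_mul_inv]

/-! ### vector fields -/


variable {v w : X → Fin N → ℂ}










/-! ### flat subbundles -/

/-- flat subbundle -/
def FlS (P : X → X → GL (Fin N) ℤ) (K : X → Submodule ℂ (Fin N → ℂ)) : Prop :=
  ∀ z, ∀ᶠ y in 𝓝 z, mapS (P z y) (K y) = K z

variable {K L : X → Submodule ℂ (Fin N → ℂ)}

theorem flS_iff : FlS P K ↔ Fl P (A := CSub N) K :=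
  forall_congr' fun z => by
    constructor
    · intro h
      filter_upwards [h] with y hy
      exact hy.symm
    · intro h
      filter_upwards [h] with y hy
      exact Eq.symm hy

theorem sub_tr (hK : FlS P K) (h : Tr P x y g) : K x = mapS g (K y) := (flS_iff.1 hK).tr h


theorem sub_st (hK : FlS P K) : IsSt (mon P x) (K x) :=
  isSt_of_mapS fun _ hg => (sub_tr hK hg).symm


theorem sub_of_tr [LocallyConnectedSpace X] (h : NDC P)
    (hK : ∀ x y g, Tr P x y g → K x = mapS g (K y)) : FlS P K :=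
  flS_iff.2 (Fl.of_tr h hK)




/-! ### flat forms -/

variable {S : X → Matrix (Fin N) (Fin N) ℂ}

/-- flat form -/
def FlF (P : X → X → GL (Fin N) ℤ) (S : X → Matrix (Fin N) (Fin N) ℂ) : Prop :=
  ∀ z, ∀ᶠ y in 𝓝 z, S y = (cm (P z y))ᴴ * S z * cm (P z y)

theorem form_swap {A B : Matrix (Fin N) (Fin N) ℂ} :
    A = (cm g⁻¹)ᴴ * B * cm g⁻¹ ↔ B = (cm g)ᴴ * A * cm g := by
  constructor
  · rintro rfl
    have e : (cm g)ᴴ * ((cm g⁻¹)ᴴ * B * cm g⁻¹) * cm g
        = ((cm g)ᴴ * (cm g⁻¹)ᴴ) * B * (cm g⁻¹ * cm g) := by simp only [mul_assoc]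
    rw [e, ← conjTranspose_mul, cm_inv_mul, conjTranspose_one, one_mul, mul_one]
  · rintro rfl
    have e : (cm g⁻¹)ᴴ * ((cm g)ᴴ * A * cm g) * cm g⁻¹
        = ((cm g⁻¹)ᴴ * (cm g)ᴴ) * A * (cm g * cm g⁻¹) := by simp only [mul_assoc]
    rw [e, ← conjTranspose_mul, cm_mul_inv, conjTranspose_one, one_mul, mul_one]

theorem flF_iff : FlF P S ↔ Fl P (A := CForm N) S :=
  forall_congr' fun z => by
    constructor
    · intro h
      filter_upwards [h] with y hy
      exact form_swap.2 hy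
    · intro h
      filter_upwards [h] with y hy
      exact form_swap.1 hy

theorem form_tr (hS : FlF P S) (h : Tr P x y g) : S y = (cm g)ᴴ * S x * cm g :=
  form_swap.1 ((flF_iff.1 hS).tr h)

theorem form_mon (hS : FlF P S) (hk : k ∈ mon P x) : (cm k)ᴴ * S x * cm k = S x :=
  (form_tr hS hk).symm

/-! ### flat automorphisms -/


/-! ### variations of Hodge structures -/

section vhs

variable {m w : ℕ} [RDom m X] (V : VHS m X N w)

theorem vhs_S (h : Tr V.P x y g) : V.S y = (cm g)ᴴ * V.S x * cm g := form_tr V.flatS h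

theorem vhs_mon_S (hk : k ∈ mon V.P x) : (cm k)ᴴ * V.S x * cm k = V.S x := form_mon V.flatS hk

theorem vhs_exists_tr [PreconnectedSpace X] (x y : X) : ∃ g, Tr V.P x y g := exists_tr V.ndc x y

theorem vhs_mat_extend [PreconnectedSpace X] (x₀ : X) {F : Matrix (Fin N) (Fin N) ℂ}
    (hF : F ∈ fl (mon V.P x₀)) : ∃ Φ : X → Matrix (Fin N) (Fin N) ℂ, FlM V.P Φ ∧ Φ x₀ = F ∧
      ∀ x g, Tr V.P x x₀ g → Φ x = cm g * F * cm g⁻¹ := mat_extend V.ndc x₀ hF



end vhs

end Crest.Agent.R276.Tr_617
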