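import Mathlib
import Crest.Agent.R276.FKDefs_779

-- ▼ part R276/FKD1_508
section

/-!
# R276, leaf FK4 (helper508), part 1: Galois descent for subspaces; valuation rings in a constant
algebraic extension.

Setting: `K' = K ⊗_k k'` is a field, `k'/k` Galois (possibly infinite).
* `gal σ : K' ≃ₐ[K] K'` is the action of `σ : k' ≃ₐ[k] k'` on the second factor;
* `descent`: a `k'`-subspace of `K'` stable under all `gal σ` is spanned by its elements in `K`;
* `mem_span_of_forall`: an element in all valuation rings of `K'` over `R ⊆ K` is in `k' · R`;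
* `exists_frac`: every element of a valuation ring `V` of `K'` over `R` is `p / q` with
  `p, q ∈ k' · R` and `q` a unit of `V`.
-/

set_option autoImplicit false
set_option linter.unusedSectionVars false

open Algebra TensorProduct

namespace Crest.Agent.R276.FKD1_508

noncomputable section

section Descent

variable {k k' K K' : Type*} [Field k] [Field k'] [Field K] [Field K']
  [Algebra k k'] [Algebra k K] [Algebra k K'] [Algebra K K'] [Algebra k' K']
  [IsScalarTower k K K'] [IsScalarTower k k' K'] [Algebra.IsPushout k K k' K']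

variable (K K') in
/-- the action of `σ` on the factor `k'` of `K' = K ⊗ k'` -/
def gal (σ : k' ≃ₐ[k] k') : K' ≃ₐ[K] K' :=
  ((Algebra.IsPushout.equiv k K k' K').symm.trans
    (Algebra.TensorProduct.congr (AlgEquiv.refl : K ≃ₐ[K] K) σ)).trans
    (Algebra.IsPushout.equiv k K k' K')

theorem gal_algebraMap (σ : k' ≃ₐ[k] k') (c : k') :
    gal K K' σ (algebraMap k' K' c) = algebraMap k' K' (σ c) := by
  simp [gal, Algebra.IsPushout.equiv_symm_algebraMap_right, Algebra.IsPushout.equiv_tmul]

theorem gal_base (σ : k' ≃ₐ[k] k') (a : K) :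
    gal K K' σ (algebraMap K K' a) = algebraMap K K' a := by
  simp

theorem gal_smul (σ : k' ≃ₐ[k] k') (c : k') (x : K') :
    gal K K' σ (c • x) = σ c • gal K K' σ x := by
  rw [Algebra.smul_def, Algebra.smul_def, map_mul, gal_algebraMap]

variable (k k' K K') in
/-- a basis of `K'` over `k'` consisting of elements of `K` -/
def bas : Module.Basis (Module.Basis.ofVectorSpaceIndex k K) k' K' :=
  haveI h : Algebra.IsPushout k k' K K' := Algebra.IsPushout.symm inferInstance
  ((Module.Basis.ofVectorSpace k K).baseChange k').map h.out.equiv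

theorem bas_apply (i : Module.Basis.ofVectorSpaceIndex k K) :
    bas k k' K K' i = algebraMap K K' (Module.Basis.ofVectorSpace k K i) := by
  have h : Algebra.IsPushout k k' K K' := Algebra.IsPushout.symm inferInstance
  simp [bas, IsBaseChange.equiv_tmul]

theorem bas_gal (σ : k' ≃ₐ[k] k') (x : K') (i : Module.Basis.ofVectorSpaceIndex k K) :
    (bas k k' K K').repr (gal K K' σ x) i = σ ((bas k k' K K').repr x i) := by
  have hx := (bas k k' K K').linearCombination_repr x
  set r := (bas k k' K K').repr x with hr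
  have h1 : gal K K' σ x = Finsupp.linearCombination k' (bas k k' K K')
      (r.mapRange σ (map_zero σ)) := by
    rw [← hx, Finsupp.linearCombination_apply, Finsupp.sum, map_sum,
      Finsupp.linearCombination_apply, Finsupp.sum_mapRange_index (by simp), Finsupp.sum]
    refine Finset.sum_congr rfl fun j _ => ?_
    rw [gal_smul, bas_apply, gal_base]
  rw [h1, Module.Basis.repr_linearCombination, Finsupp.mapRange_apply]

/-- **Galois descent for subspaces.** -/
theorem descent [IsGalois k k'] (W : Submodule k' K')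
    (hW : ∀ σ : k' ≃ₐ[k] k', ∀ w ∈ W, gal K K' σ w ∈ W) (w : K') (hw : w ∈ W) :
    w ∈ Submodule.span k' ((algebraMap K K') '' {a | algebraMap K K' a ∈ W}) := by
  classical
  set B := bas k k' K K' with hB
  -- strong induction on the size of the support
  suffices H : ∀ N : ℕ, ∀ w ∈ W, (B.repr w).support.card ≤ N →
      w ∈ Submodule.span k' ((algebraMap K K') '' {a | algebraMap K K' a ∈ W}) from
    H _ w hw le_rfl
  intro N
  induction N with
  | zero =>
    intro w _ h
    have : (B.repr w).support = ∅ := by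
      rw [← Finset.card_eq_zero]; omega
    have h0 : B.repr w = 0 := Finsupp.support_eq_empty.1 this
    have : w = 0 := by simpa using h0
    rw [this]; exact Submodule.zero_mem _
  | succ N ih =>
    intro w hw hN
    by_cases h0 : w = 0
    · rw [h0]; exact Submodule.zero_mem _
    -- the nonzero elements of `W` with support inside the support of `w`
    let S : Set ℕ := {m | ∃ u ∈ W, u ≠ 0 ∧ (B.repr u).support ⊆ (B.repr w).support ∧
      (B.repr u).support.card = m}
    have hS : S.Nonempty := ⟨_, w, hw, h0, Finset.Subset.refl _, rfl⟩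
    obtain ⟨u, huW, hu0, husub, hucard⟩ := Nat.sInf_mem hS
    have hmin : ∀ v ∈ W, (B.repr v).support ⊂ (B.repr u).support → v = 0 := by
      intro v hv hlt
      by_contra hv0
      have : (B.repr v).support.card ∈ S := ⟨v, hv, hv0, hlt.subset.trans husub, rfl⟩
      have h1 := Nat.sInf_le this
      have h2 := Finset.card_lt_card hlt
      omega
    have hune : (B.repr u).support.Nonempty := by
      rw [Finset.nonempty_iff_ne_empty]
      intro h
      exact hu0 (by simpa using Finsupp.support_eq_empty.1 h)
    obtain ⟨i0, hi0⟩ := hune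
    have hc : B.repr u i0 ≠ 0 := Finsupp.mem_support_iff.1 hi0
    set u1 : K' := (B.repr u i0)⁻¹ • u with hu1
    have hu1W : u1 ∈ W := W.smul_mem _ huW
    have hrep : ∀ i, B.repr u1 i = (B.repr u i0)⁻¹ * B.repr u i := by
      intro i; simp [hu1]
    have hrep0 : B.repr u1 i0 = 1 := by rw [hrep, inv_mul_cancel₀ hc]
    have hsupp1 : (B.repr u1).support = (B.repr u).support := by
      ext i
      simp [Finsupp.mem_support_iff, hrep, hc]
    -- all coordinates are fixed
    have hfix : ∀ i, ∀ σ : k' ≃ₐ[k] k', σ (B.repr u1 i) = B.repr u1 i := by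
      intro i σ
      have hv : gal K K' σ u1 - u1 ∈ W := W.sub_mem (hW σ _ hu1W) hu1W
      have hco : ∀ j, B.repr (gal K K' σ u1 - u1) j = σ (B.repr u1 j) - B.repr u1 j := by
        intro j
        rw [map_sub, Finsupp.sub_apply, bas_gal]
      have hz := hmin _ hv (by
        rw [Finset.ssubset_iff_of_subset]
        · refine ⟨i0, hi0, ?_⟩
          rw [Finsupp.notMem_support_iff, hco, hrep0, map_one, sub_self]
        · intro j hj
          rw [Finsupp.mem_support_iff, hco] at hj
          rw [← hsupp1, Finsupp.mem_support_iff]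
          intro h
          rw [h, map_zero, sub_self] at hj
          exact hj rfl)
      have := hco i
      rw [hz] at this
      simpa [sub_eq_zero] using this.symm
    -- hence `u1` comes from `K`
    have hK : ∃ a : K, algebraMap K K' a = u1 := by
      have h1 : ∀ i, ∃ c : k, algebraMap k k' c = B.repr u1 i := by
        intro i
        exact (InfiniteGalois.mem_range_algebraMap_iff_fixed (K := k') _).2 (fun σ => hfix i σ)
      choose c hcc using h1
      refine ⟨∑ i ∈ (B.repr u1).support, c i • Module.Basis.ofVectorSpace k K i, ?_⟩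
      rw [map_sum]
      conv_rhs => rw [← B.linearCombination_repr u1, Finsupp.linearCombination_apply, Finsupp.sum]
      refine Finset.sum_congr rfl fun i _ => ?_
      rw [hB, bas_apply, ← hB, ← hcc i, Algebra.smul_def, map_mul,
        ← IsScalarTower.algebraMap_apply k K K', Algebra.smul_def,
        ← IsScalarTower.algebraMap_apply k k' K']
    obtain ⟨a, ha⟩ := hK
    have hmem : u1 ∈ Submodule.span k' ((algebraMap K K') '' {a | algebraMap K K' a ∈ W}) :=
      Submodule.subset_span ⟨a, by simpa [ha] using hu1W, ha⟩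
    -- subtract
    have hw2 : w - B.repr w i0 • u1 ∈ W := W.sub_mem hw (W.smul_mem _ hu1W)
    have hlt : (B.repr (w - B.repr w i0 • u1)).support ⊂ (B.repr w).support := by
      rw [Finset.ssubset_iff_of_subset]
      · refine ⟨i0, husub hi0, ?_⟩
        rw [Finsupp.notMem_support_iff, map_sub, map_smul, Finsupp.sub_apply,
          Finsupp.smul_apply, hrep0, smul_eq_mul, mul_one, sub_self]
      · intro j hj
        rw [Finsupp.mem_support_iff, map_sub, map_smul, Finsupp.sub_apply,
          Finsupp.smul_apply] at hj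
        by_contra hjw
        have h3 : B.repr u1 j = 0 := by
          rw [← Finsupp.notMem_support_iff, hsupp1]
          exact fun h => hjw (husub h)
        rw [h3, Finsupp.notMem_support_iff.1 hjw] at hj
        simp at hj
    have hcard := Finset.card_lt_card hlt
    have h4 := ih _ hw2 (by omega)
    have h5 : w = (w - B.repr w i0 • u1) + B.repr w i0 • u1 := by ring
    rw [h5]
    exact Submodule.add_mem _ h4 (Submodule.smul_mem _ _ hmem)

end Descent

section Val

variable {k k' K K' : Type*} [Field k] [Field k'] [Field K] [Field K']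
  [Algebra k k'] [Algebra k K] [Algebra k K'] [Algebra K K'] [Algebra k' K']
  [IsScalarTower k K K'] [IsScalarTower k k' K']

/-- `V` lies over `R` -/
def Over (V : ValuationSubring K') (R : ValuationSubring K) : Prop :=
  ∀ a : K, algebraMap K K' a ∈ V ↔ a ∈ R

omit [Algebra K K'] [IsScalarTower k K K'] [Algebra k K] [Field K] in
theorem const_mem [Algebra.IsAlgebraic k k'] (V : ValuationSubring K')
    (hk : ∀ c : k, algebraMap k K' c ∈ V) (c : k') : algebraMap k' K' c ∈ V := by
  have h1 : IsIntegral k (algebraMap k' K' c) :=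
    (Algebra.IsIntegral.isIntegral (R := k) c).algebraMap
  obtain ⟨p, hp, hp2⟩ := h1
  let φ : k →+* V := (algebraMap k K').codRestrict V.toSubring hk
  have h3 : IsIntegral V (algebraMap k' K' c) := by
    refine ⟨p.map φ, hp.map φ, ?_⟩
    rw [Polynomial.eval₂_map]
    exact hp2
  obtain ⟨y, hy⟩ := IsIntegrallyClosed.isIntegral_iff.1 h3
  rw [← hy]
  exact y.2

omit [Algebra k k'] [Algebra k K'] [Algebra k' K'] [IsScalarTower k K K']
  [IsScalarTower k k' K'] [Field k'] [Algebra k K] [Field k] in
theorem Over.val_le_one {V : ValuationSubring K'} {R : ValuationSubring K} (h : Over V R) (a : K) :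
    V.valuation (algebraMap K K' a) ≤ 1 ↔ R.valuation a ≤ 1 := by
  rw [V.valuation_le_one_iff, R.valuation_le_one_iff, h]

omit [Algebra k k'] [Algebra k K'] [Algebra k' K'] [IsScalarTower k K K']
  [IsScalarTower k k' K'] [Field k'] [Algebra k K] [Field k] in
theorem Over.val_le {V : ValuationSubring K'} {R : ValuationSubring K} (h : Over V R) (a b : K) :
    V.valuation (algebraMap K K' a) ≤ V.valuation (algebraMap K K' b) ↔
      R.valuation a ≤ R.valuation b := by
  by_cases hb : b = 0
  · subst hb
    simp
  · have h1 : R.valuation b ≠ 0 := by simpa using hb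
    have h2 : V.valuation (algebraMap K K' b) ≠ 0 := by simpa using hb
    have e1 : R.valuation a ≤ R.valuation b ↔ R.valuation (a / b) ≤ 1 := by
      rw [map_div₀, div_le_one₀ (zero_lt_iff.2 h1)]
    have e2 : V.valuation (algebraMap K K' a) ≤ V.valuation (algebraMap K K' b) ↔
        V.valuation (algebraMap K K' (a / b)) ≤ 1 := by
      rw [map_div₀, map_div₀, div_le_one₀ (zero_lt_iff.2 h2)]
    rw [e1, e2, h.val_le_one]

variable [Algebra.IsPushout k K k' K']

/-- image of a valuation ring under `gal σ` -/
def galV (σ : k' ≃ₐ[k] k') (V : ValuationSubring K') : ValuationSubring K' :=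
  V.comap (gal K K' σ : K' →+* K')

theorem mem_galV (σ : k' ≃ₐ[k] k') (V : ValuationSubring K') (x : K') :
    x ∈ galV (K := K) σ V ↔ gal K K' σ x ∈ V := Iff.rfl

theorem over_galV (σ : k' ≃ₐ[k] k') (V : ValuationSubring K') (R : ValuationSubring K)
    (h : Over V R) : Over (galV (K := K) σ V) R := by
  intro a
  rw [mem_galV, gal_base]
  exact h a

/-- the intersection of all valuation rings of `K'` over `R`, as a `k'`-space -/
def BW [Algebra.IsAlgebraic k k'] (R : ValuationSubring K)
    (hk : ∀ c : k, algebraMap k K c ∈ R) : Submodule k' K' where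
  carrier := {z | ∀ V : ValuationSubring K', Over V R → z ∈ V}
  add_mem' := fun {a b} ha hb V hV => V.add_mem _ _ (ha V hV) (hb V hV)
  zero_mem' := fun V _ => V.zero_mem
  smul_mem' := fun c x hx V hV => by
    rw [Algebra.smul_def]
    refine V.mul_mem _ _ (const_mem (k := k) V (fun c => ?_) c) (hx V hV)
    rw [IsScalarTower.algebraMap_apply k K K', hV]
    exact hk c


theorem mem_span_of_forall [IsGalois k k'] (R : ValuationSubring K)
    (hk : ∀ c : k, algebraMap k K c ∈ R) (hex : ∃ V : ValuationSubring K', Over V R) (z : K')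
    (hz : ∀ V : ValuationSubring K', Over V R → z ∈ V) :
    z ∈ Submodule.span k' ((algebraMap K K') '' (R : Set K)) := by
  have h1 := descent (k := k) (K := K) (BW (k' := k') (K' := K') R hk) (fun σ w hw V hV => by
    have := hw (galV (K := K) σ V) (over_galV σ V R hV)
    rwa [mem_galV] at this) z hz
  refine Submodule.span_mono (Set.image_mono ?_) h1
  intro a ha
  obtain ⟨V, hV⟩ := hex
  exact (hV a).1 (ha V hV)

end Val

section Horner

variable {K K' : Type*} [Field K] [Field K'] [Algebra K K']

/-- Horner sums `b_j = a_N x^j + a_{N-1} x^{j-1} + ... + a_{N-j}` -/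
def horner (a : ℕ → K) (N : ℕ) (x : K') : ℕ → K'
  | 0 => algebraMap K K' (a N)
  | j + 1 => horner a N x j * x + algebraMap K K' (a (N - (j + 1)))

theorem horner_mem (a : ℕ → K) (N : ℕ) (x : K') (V : ValuationSubring K')
    (ha : ∀ i, algebraMap K K' (a i) ∈ V) (h0 : horner a N x N = 0) :
    ∀ j ≤ N, horner a N x j ∈ V := by
  by_cases hx : x ∈ V
  · intro j _
    induction j with
    | zero => exact ha _
    | succ j ih =>
      exact V.add_mem _ _ (V.mul_mem _ _ (ih (by omega)) hx) (ha _)
  · have hx' : x⁻¹ ∈ V := (V.mem_or_inv_mem x).resolve_left hx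
    have hx0 : x ≠ 0 := fun h => hx (h ▸ V.zero_mem)
    -- downward induction
    have : ∀ d ≤ N, horner a N x (N - d) ∈ V := by
      intro d
      induction d with
      | zero => intro _; rw [Nat.sub_zero, h0]; exact V.zero_mem
      | succ d ih =>
        intro hd
        have h1 := ih (by omega)
        have e : N - d = (N - (d + 1)) + 1 := by omega
        rw [e, horner] at h1
        have h2 : horner a N x (N - (d + 1)) * x ∈ V := by
          have := V.add_mem _ _ h1 (V.neg_mem _ (ha (N - (N - (d + 1) + 1))))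
          simpa using this
        have h3 := V.mul_mem _ _ h2 hx'
        rwa [mul_assoc, mul_inv_cancel₀ hx0, mul_one] at h3
    intro j hj
    have := this (N - j) (by omega)
    rwa [show N - (N - j) = j by omega] at this

theorem horner_mul_mem (a : ℕ → K) (N : ℕ) (x : K') (V : ValuationSubring K')
    (ha : ∀ i, algebraMap K K' (a i) ∈ V) (h0 : horner a N x N = 0) (j : ℕ) (hj : j < N) :
    horner a N x j * x ∈ V := by
  have h1 := horner_mem a N x V ha h0 (j + 1) hj
  rw [horner] at h1
  have := V.add_mem _ _ h1 (V.neg_mem _ (ha (N - (j + 1))))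
  simpa using this

/-- if `x ∈ V`, not all Horner sums with `j < N` are non-units -/
theorem exists_horner_unit (a : ℕ → K) (N : ℕ) (x : K') (V : ValuationSubring K')
    (R : ValuationSubring K) (hVR : Over V R) (ha : ∀ i, a i ∈ R) (h0 : horner a N x N = 0)
    (hx : x ∈ V) (i : ℕ) (hi : i ≤ N) (hiu : R.valuation (a i) = 1) :
    ∃ j < N, V.valuation (horner a N x j) = 1 := by
  have ha' : ∀ i, algebraMap K K' (a i) ∈ V := fun i => (hVR _).2 (ha i)
  by_contra hcon
  push Not at hcon
  have hlt : ∀ j ≤ N, V.valuation (horner a N x j) < 1 := by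
    intro j hj
    rcases Nat.lt_or_eq_of_le hj with h | h
    · exact lt_of_le_of_ne ((V.valuation_le_one_iff _).2 (horner_mem a N x V ha' h0 j hj))
        (hcon j h)
    · rw [h, h0, map_zero]; exact zero_lt_one
  have hxv : V.valuation x ≤ 1 := (V.valuation_le_one_iff _).2 hx
  have hai : V.valuation (algebraMap K K' (a i)) < 1 := by
    rcases Nat.lt_or_eq_of_le hi with h | h
    · have e : N - i = (N - i - 1) + 1 := by omega
      have h1 : horner a N x (N - i) = horner a N x (N - i - 1) * x + algebraMap K K' (a i) := by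
        conv_lhs => rw [e, horner]
        rw [show N - (N - i - 1 + 1) = i by omega]
      have h2 : algebraMap K K' (a i) = horner a N x (N - i) - horner a N x (N - i - 1) * x := by
        rw [h1]; ring
      rw [h2]
      refine lt_of_le_of_lt (V.valuation.map_sub _ _) (max_lt (hlt _ (by omega)) ?_)
      rw [map_mul]
      exact mul_lt_one_of_lt_of_le (hlt _ (by omega)) hxv
    · have := hlt 0 (by omega)
      rw [horner, ← h] at this
      exact this
  have h5 : ¬ (V.valuation (algebraMap K K' 1) ≤ V.valuation (algebraMap K K' (a i))) := by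
    rw [map_one, map_one]; exact not_le.2 hai
  rw [hVR.val_le, hiu, map_one] at h5
  exact h5 le_rfl

theorem horner_eq_eval (P : Polynomial K) (x : K') :
    ∀ j ≤ P.natDegree, horner P.coeff P.natDegree x j =
      ∑ l ∈ Finset.range (j + 1), algebraMap K K' (P.coeff (P.natDegree - l)) * x ^ (j - l) := by
  intro j
  induction j with
  | zero => intro _; simp [horner]
  | succ j ih =>
    intro hj
    rw [horner, ih (by omega), Finset.sum_range_succ _ (j + 1), Finset.sum_mul]
    congr 1
    · refine Finset.sum_congr rfl fun l hl => ?_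
      rw [Finset.mem_range] at hl
      rw [show j + 1 - l = (j - l) + 1 by omega, pow_succ]
      ring
    · simp

theorem horner_natDegree (P : Polynomial K) (x : K') :
    horner P.coeff P.natDegree x P.natDegree = Polynomial.aeval x P := by
  rw [horner_eq_eval P x _ le_rfl, Polynomial.aeval_eq_sum_range]
  rw [← Finset.sum_range_reflect]
  refine Finset.sum_congr rfl fun l hl => ?_
  rw [Finset.mem_range] at hl
  rw [show P.natDegree + 1 - 1 - l = P.natDegree - l by omega,
    show P.natDegree - (P.natDegree - l) = l by omega, Algebra.smul_def]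

/-- a nonzero polynomial can be scaled to be primitive with respect to `R` -/
theorem exists_scale (P : Polynomial K) (hP : P ≠ 0) (R : ValuationSubring K) :
    ∃ c : K, c ≠ 0 ∧ (∀ i, c * P.coeff i ∈ R) ∧ ∃ i ≤ P.natDegree, R.valuation (c * P.coeff i) = 1 := by
  classical
  have hne : P.support.Nonempty := Polynomial.support_nonempty.2 hP
  obtain ⟨i, hi, hmax⟩ := P.support.exists_max_image (fun i => R.valuation (P.coeff i)) hne
  have hci : P.coeff i ≠ 0 := Polynomial.mem_support_iff.1 hi
  have hvi : R.valuation (P.coeff i) ≠ 0 := by simpa using hci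
  refine ⟨(P.coeff i)⁻¹, inv_ne_zero hci, fun j => ?_, i,
    Polynomial.le_natDegree_of_mem_supp i hi, ?_⟩
  · by_cases hj : P.coeff j = 0
    · rw [hj, mul_zero]; exact R.zero_mem
    · rw [← R.valuation_le_one_iff, map_mul, map_inv₀, mul_comm,
        mul_inv_le_iff₀ (zero_lt_iff.2 hvi), one_mul]
      exact hmax j (Polynomial.mem_support_iff.2 hj)
  · rw [inv_mul_cancel₀ hci, map_one]

end Horner

section Frac

variable {k k' K K' : Type*} [Field k] [Field k'] [Field K] [Field K']
  [Algebra k k'] [Algebra k K] [Algebra k K'] [Algebra K K'] [Algebra k' K']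
  [IsScalarTower k K K'] [IsScalarTower k k' K'] [Algebra.IsPushout k K k' K']

omit [Field k] [Field k'] [Algebra k k'] [Algebra k K] [Algebra k K'] [Algebra k' K']
  [IsScalarTower k K K'] [IsScalarTower k k' K'] [Algebra.IsPushout k K k' K'] in
/-- every element of `V` is a quotient of elements which lie in all valuation rings over `R` -/
theorem exists_frac' [Algebra.IsAlgebraic K K'] (R : ValuationSubring K)
    (V : ValuationSubring K') (hVR : Over V R) (x : K') (hx : x ∈ V) :
    ∃ p q : K', (∀ U : ValuationSubring K', Over U R → p ∈ U) ∧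
      (∀ U : ValuationSubring K', Over U R → q ∈ U) ∧ V.valuation q = 1 ∧ x = p / q := by
  obtain ⟨P, hP0, hPx⟩ := Algebra.IsAlgebraic.isAlgebraic (R := K) x
  obtain ⟨c, hc0, hcR, i, hi, hiu⟩ := exists_scale P hP0 R
  set Q : Polynomial K := Polynomial.C c * P with hQ
  have hQd : Q.natDegree = P.natDegree := Polynomial.natDegree_C_mul hc0
  have hQc : ∀ j, Q.coeff j = c * P.coeff j := fun j => Polynomial.coeff_C_mul P
  have h0 : horner Q.coeff Q.natDegree x Q.natDegree = 0 := by
    rw [horner_natDegree, hQ, map_mul, hPx, mul_zero]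
  have haR : ∀ j, Q.coeff j ∈ R := fun j => by rw [hQc]; exact hcR j
  obtain ⟨j, hj, hju⟩ := exists_horner_unit Q.coeff Q.natDegree x V R hVR haR h0 hx i
    (by rw [hQd]; exact hi) (by rw [hQc]; exact hiu)
  have hb0 : horner Q.coeff Q.natDegree x j ≠ 0 := by
    intro h; rw [h, map_zero] at hju; exact zero_ne_one hju
  refine ⟨horner Q.coeff Q.natDegree x j * x, horner Q.coeff Q.natDegree x j, fun U hU => ?_,
    fun U hU => ?_, hju, ?_⟩
  · exact horner_mul_mem _ _ _ U (fun l => (hU _).2 (haR l)) h0 j hj
  · exact horner_mem _ _ _ U (fun l => (hU _).2 (haR l)) h0 j hj.le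
  · rw [mul_div_cancel_left₀ _ hb0]

end Frac

end

end Crest.Agent.R276.FKD1_508
private theorem rz_608d23e3ad : type_of% @_root_.Crest.Agent.R276.FKD1_508.horner.eq_def := @_root_.Crest.Agent.R276.FKD1_508.horner.eq_def -- L279
private theorem rz_a1bc01cd77 : type_of% @_root_.Crest.Agent.R276.FKD1_508.horner.eq_1 := @_root_.Crest.Agent.R276.FKD1_508.horner.eq_1 -- L279
end

-- ▼ part R276/FKD2_508
section

/-!
# R276, leaf FK4 (helper508), part 2

* `exists_algInd`: if `d` algebraically independent elements are algebraic over `F[T]`, then `T`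
  contains `d` algebraically independent elements;
* `exists_det_le`: ultrametric expansion of a determinant;
* `bch`: base change of a basis of `Ω[K⁄k]` along a pushout `K' = K ⊗_k k'`, `jac`.
-/

set_option autoImplicit false
set_option linter.unusedSectionVars false

open Algebra TensorProduct KaehlerDifferential

namespace Crest.Agent.R276.FKD1_508

noncomputable section

section AlgInd

open AlgebraicIndependent in
/-- `d` algebraically independent elements which are algebraic over `F[T]` force `T` to contain
`d` algebraically independent elements. -/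
theorem exists_algInd {F E : Type*} [Field F] [Field E] [Algebra F E] (T : Set E) (d : ℕ)
    (x : Fin d → E) (hx : AlgebraicIndependent F x)
    (hT : ∀ i, IsAlgebraic (Algebra.adjoin F T) (x i)) :
    ∃ t : Fin d → E, (∀ i, t i ∈ T) ∧ AlgebraicIndependent F t := by
  classical
  obtain ⟨I, hI⟩ := (AlgebraicIndependent.matroid F E).exists_isBasis T
  have hxi : (AlgebraicIndependent.matroid F E).Indep (Set.range x) := by
    rw [AlgebraicIndependent.matroid_indep_iff]
    exact (algebraicIndependent_subtype_range hx.injective).2 hx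
  have hcl : Set.range x ⊆ (AlgebraicIndependent.matroid F E).closure T := by
    rintro _ ⟨i, rfl⟩
    rw [AlgebraicIndependent.matroid_closure_eq]
    exact hT i
  have h1 : (Set.range x).encard ≤ I.encard := by
    rw [hI.encard_eq_eRk, ← Matroid.eRk_closure_eq]
    exact hxi.encard_le_eRk_of_subset hcl
  have h2 : (Set.range x).encard = d := by
    rw [← Set.image_univ, hx.injective.encard_image, Set.encard_univ]
    simp
  rw [h2] at h1
  obtain ⟨J, hJI, hJ⟩ := Set.exists_subset_encard_eq h1
  have hJf : J.Finite := Set.finite_of_encard_eq_coe hJ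
  have hJc : J.ncard = d := by
    rw [Set.ncard_def, hJ]; rfl
  have hIi : AlgebraicIndependent F ((↑) : I → E) := by
    have := hI.indep
    rwa [AlgebraicIndependent.matroid_indep_iff] at this
  have := hJf.fintype
  have hcard : Fintype.card J = d := by
    rw [← Nat.card_eq_fintype_card]; exact hJc
  let e : Fin d ≃ J := (Fintype.equivFinOfCardEq hcard).symm
  refine ⟨fun i => (e i : E), fun i => hI.subset (hJI (e i).2), ?_⟩
  have := hIi.comp (fun i : Fin d => (⟨(e i : E), hJI (e i).2⟩ : I)) (by
    intro i j hij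
    exact e.injective (Subtype.ext (by simpa using congrArg Subtype.val hij)))
  exact this

end AlgInd

section Det

variable {K : Type*} [Field K] {M : Type*} [AddCommGroup M] [Module K M] {n : ℕ}

/-- a vector in the `V`-span of `S`: the determinant with this column is bounded by the
determinant with a column from `S` -/
theorem exists_col_le (V : ValuationSubring K) (b : Module.Basis (Fin n) K M)
    (S : Set M) (hS : S.Nonempty) (ω : Fin n → M) (i : Fin n)
    (h : ∃ (t : Finset M) (c : M → K), (∀ s ∈ t, s ∈ S) ∧ (∀ s ∈ t, c s ∈ V) ∧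
      ω i = ∑ s ∈ t, c s • s) :
    ∃ s ∈ S, V.valuation (b.det ω) ≤ V.valuation (b.det (Function.update ω i s)) := by
  classical
  obtain ⟨t, c, htS, hcV, hω⟩ := h
  have h1 : b.det ω = ∑ s ∈ t, c s * b.det (Function.update ω i s) := by
    conv_lhs => rw [← Function.update_eq_self i ω, hω]
    rw [AlternatingMap.map_update_sum]
    refine Finset.sum_congr rfl fun s _ => ?_
    rw [AlternatingMap.map_update_smul, smul_eq_mul]
  rcases t.eq_empty_or_nonempty with ht | ht
  · obtain ⟨s, hs⟩ := hS
    refine ⟨s, hs, ?_⟩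
    rw [h1, ht, Finset.sum_empty, map_zero]
    exact zero_le
  · obtain ⟨s, hs, hmax⟩ := t.exists_max_image
      (fun s => V.valuation (b.det (Function.update ω i s))) ht
    refine ⟨s, htS s hs, ?_⟩
    rw [h1]
    refine Valuation.map_sum_le _ fun u hu => ?_
    rw [map_mul]
    calc V.valuation (c u) * V.valuation (b.det (Function.update ω i u))
        ≤ 1 * V.valuation (b.det (Function.update ω i u)) :=
          mul_le_mul_left ((V.valuation_le_one_iff _).2 (hcV u hu)) _
      _ = V.valuation (b.det (Function.update ω i u)) := one_mul _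
      _ ≤ _ := hmax u hu

/-- replace all columns -/
theorem exists_det_le (V : ValuationSubring K) (b : Module.Basis (Fin n) K M)
    (S : Set M) (hS : S.Nonempty) (ω : Fin n → M)
    (h : ∀ i, ∃ (t : Finset M) (c : M → K), (∀ s ∈ t, s ∈ S) ∧ (∀ s ∈ t, c s ∈ V) ∧
      ω i = ∑ s ∈ t, c s • s) :
    ∃ η : Fin n → M, (∀ i, η i ∈ S) ∧ V.valuation (b.det ω) ≤ V.valuation (b.det η) := by
  classical
  suffices H : ∀ F : Finset (Fin n), ∃ η : Fin n → M, (∀ i ∈ F, η i ∈ S) ∧
      (∀ i ∉ F, η i = ω i) ∧ V.valuation (b.det ω) ≤ V.valuation (b.det η) by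
    obtain ⟨η, h1, -, h3⟩ := H Finset.univ
    exact ⟨η, fun i => h1 i (Finset.mem_univ i), h3⟩
  intro F
  induction F using Finset.induction_on with
  | empty => exact ⟨ω, by simp, fun i _ => rfl, le_rfl⟩
  | insert a F haF ih =>
    obtain ⟨η, h1, h2, h3⟩ := ih
    have ha := h a
    rw [← h2 a haF] at ha
    obtain ⟨s, hs, hle⟩ := exists_col_le V b S hS η a ha
    refine ⟨Function.update η a s, fun i hi => ?_, fun i hi => ?_, h3.trans hle⟩
    · by_cases hia : i = a
      · subst hia; simpa using hs
      · rw [Function.update_of_ne hia]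
        exact h1 i (Finset.mem_of_mem_insert_of_ne hi hia)
    · rw [Finset.mem_insert, not_or] at hi
      rw [Function.update_of_ne hi.1]
      exact h2 i hi.2

end Det

end

end Crest.Agent.R276.FKD1_508
end

-- ▼ part R276/FKD3_508
section

/-!
# R276, leaf FK4 (helper508), part 3: Jacobians and constant extensions
-/

set_option autoImplicit false
set_option linter.unusedSectionVars false

open Algebra TensorProduct KaehlerDifferential

namespace Crest.Agent.R276.FKD1_508

noncomputable section

/-- the Jacobian of `y` with respect to the basis `b` of `Ω[K⁄k]` -/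
def jac {k K : Type*} [Field k] [Field K] [Algebra k K] {n : ℕ}
    (b : Module.Basis (Fin n) K (Ω[K⁄k])) (y : Fin n → K) : K :=
  b.det (fun i => KaehlerDifferential.D k K (y i))

section Bch

variable {k k' K K' : Type*} [Field k] [Field k'] [Field K] [Field K']
  [Algebra k k'] [Algebra k K] [Algebra k K'] [Algebra K K'] [Algebra k' K']
  [IsScalarTower k K K'] [IsScalarTower k k' K'] [Algebra.IsPushout k K k' K']

variable (k' K') in
/-- base change of a basis of `Ω` -/
def bch {ι : Type*} (b : Module.Basis ι K (Ω[K⁄k])) : Module.Basis ι K' (Ω[K'⁄k']) :=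
  haveI : Algebra.IsPushout k k' K K' := Algebra.IsPushout.symm inferInstance
  (b.baseChange K').map (KaehlerDifferential.tensorKaehlerEquiv k k' K K')

theorem tke_one_tmul [Algebra.IsPushout k k' K K'] (ω : Ω[K⁄k]) :
    KaehlerDifferential.tensorKaehlerEquiv k k' K K' (1 ⊗ₜ ω) =
      KaehlerDifferential.map k k' K K' ω := by
  let f : Ω[K⁄k] →ₗ[K] Ω[K'⁄k'] :=
    ((KaehlerDifferential.tensorKaehlerEquiv k k' K K').toLinearMap.restrictScalars K).comp
      (TensorProduct.mk K K' (Ω[K⁄k]) 1)
  have hf : f = KaehlerDifferential.map k k' K K' := by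
    apply Derivation.liftKaehlerDifferential_unique
    ext a
    simp [f]
  exact LinearMap.congr_fun hf ω

theorem bch_apply {ι : Type*} (b : Module.Basis ι K (Ω[K⁄k])) (i : ι) :
    bch k' K' b i = KaehlerDifferential.map k k' K K' (b i) := by
  have : Algebra.IsPushout k k' K K' := Algebra.IsPushout.symm inferInstance
  rw [bch, Module.Basis.map_apply, Module.Basis.baseChange_apply, tke_one_tmul]

theorem bch_repr {ι : Type*} (b : Module.Basis ι K (Ω[K⁄k])) (ω : Ω[K⁄k]) (i : ι) :
    (bch k' K' b).repr (KaehlerDifferential.map k k' K K' ω) i = algebraMap K K' (b.repr ω i) := by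
  have h1 : KaehlerDifferential.map k k' K K' ω =
      Finsupp.linearCombination K' (bch k' K' b)
        ((b.repr ω).mapRange (algebraMap K K') (map_zero _)) := by
    conv_lhs => rw [← b.linearCombination_repr ω, Finsupp.linearCombination_apply, Finsupp.sum,
      map_sum]
    rw [Finsupp.linearCombination_apply, Finsupp.sum_mapRange_index (by simp), Finsupp.sum]
    refine Finset.sum_congr rfl fun j _ => ?_
    rw [map_smul, bch_apply, algebraMap_smul]
  rw [h1, Module.Basis.repr_linearCombination, Finsupp.mapRange_apply]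

theorem bch_repr_D {ι : Type*} (b : Module.Basis ι K (Ω[K⁄k])) (a : K) (i : ι) :
    (bch k' K' b).repr (D k' K' (algebraMap K K' a)) i = algebraMap K K' (b.repr (D k K a) i) := by
  rw [← bch_repr (k' := k') (K' := K') b, KaehlerDifferential.map_D]

theorem jac_bch {n : ℕ} (b : Module.Basis (Fin n) K (Ω[K⁄k])) (y : Fin n → K) :
    jac (bch k' K' b) (fun i => algebraMap K K' (y i)) = algebraMap K K' (jac b y) := by
  rw [jac, jac, Module.Basis.det_apply, Module.Basis.det_apply, RingHom.map_det]
  congr 1
  ext i j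
  simp [Module.Basis.toMatrix_apply, bch_repr_D]

/-- the `i`-th coordinate of `D` commutes with `gal σ` -/
theorem bch_gal {ι : Type*} (b : Module.Basis ι K (Ω[K⁄k])) (σ : k' ≃ₐ[k] k') (x : K') (i : ι) :
    (bch k' K' b).repr (D k' K' (gal K K' σ x)) i =
      gal K K' σ ((bch k' K' b).repr (D k' K' x) i) := by
  have hp : Algebra.IsPushout k k' K K' := Algebra.IsPushout.symm inferInstance
  let L1 : K' →ₗ[k'] K' :=
    { toFun := fun x => (bch k' K' b).repr (D k' K' x) i
      map_add' := fun x y => by simp
      map_smul' := fun c x => by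
        simp only [Derivation.map_smul, RingHom.id_apply]
        rw [← algebraMap_smul K' c (D k' K' x), map_smul, Finsupp.smul_apply, algebraMap_smul] }
  let L2 : K' →ₗ[k'] K' :=
    { toFun := fun x => (gal K K' σ).symm ((bch k' K' b).repr (D k' K' (gal K K' σ x)) i)
      map_add' := fun x y => by simp
      map_smul' := fun c x => by
        rw [RingHom.id_apply, AlgEquiv.symm_apply_eq, gal_smul σ c, gal_smul σ c,
          AlgEquiv.apply_symm_apply, Derivation.map_smul]
        rw [← algebraMap_smul K' (σ c) (D k' K' _), map_smul, Finsupp.smul_apply, algebraMap_smul] }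
  have hL : L1 = L2 := by
    refine hp.out.algHom_ext _ _ fun a => ?_
    change (bch k' K' b).repr (D k' K' (algebraMap K K' a)) i =
      (gal K K' σ).symm ((bch k' K' b).repr (D k' K' (gal K K' σ (algebraMap K K' a))) i)
    rw [gal_base, bch_repr_D, AlgEquiv.eq_symm_apply, gal_base]
  have := LinearMap.congr_fun hL x
  change (bch k' K' b).repr (D k' K' x) i =
    (gal K K' σ).symm ((bch k' K' b).repr (D k' K' (gal K K' σ x)) i) at this
  rw [this, AlgEquiv.apply_symm_apply]

theorem jac_gal {n : ℕ} (b : Module.Basis (Fin n) K (Ω[K⁄k])) (σ : k' ≃ₐ[k] k') (y : Fin n → K') :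
    jac (bch k' K' b) (fun i => gal K K' σ (y i)) = gal K K' σ (jac (bch k' K' b) y) := by
  have e : ∀ x : K', gal K K' σ x = (gal K K' σ : K' →+* K') x := fun _ => rfl
  rw [jac, jac, Module.Basis.det_apply, Module.Basis.det_apply, e, RingHom.map_det]
  congr 1
  ext i j
  simp only [Module.Basis.toMatrix_apply, bch_gal, RingHom.mapMatrix_apply, Matrix.map_apply]
  rfl

/-- `dx` for `x ∈ V` is a `V`-combination of the `da`, `a ∈ R` -/
theorem D_mem [IsGalois k k'] [Algebra.IsAlgebraic K K'] (R : ValuationSubring K)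
    (hk : ∀ c : k, algebraMap k K c ∈ R) (V : ValuationSubring K') (hVR : Over V R)
    (x : K') (hx : x ∈ V) :
    ∃ (t : Finset (Ω[K'⁄k'])) (c : Ω[K'⁄k'] → K'),
      (∀ s ∈ t, s ∈ (fun a => D k' K' (algebraMap K K' a)) '' (R : Set K)) ∧
      (∀ s ∈ t, c s ∈ V) ∧ D k' K' x = ∑ s ∈ t, c s • s := by
  classical
  -- the set of good differentials is a `V`-module
  let Md : Submodule V (Ω[K'⁄k']) :=
    Submodule.span V ((fun a => D k' K' (algebraMap K K' a)) '' (R : Set K))
  have hkV : ∀ c : k', algebraMap k' K' c ∈ V := const_mem (k := k) V (fun c => by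
    rw [IsScalarTower.algebraMap_apply k K K', hVR]; exact hk c)
  have hB : ∀ z ∈ Submodule.span k' ((algebraMap K K') '' (R : Set K)), D k' K' z ∈ Md := by
    intro z hz
    induction hz using Submodule.span_induction with
    | mem z hz =>
      obtain ⟨a, ha, rfl⟩ := hz
      exact Submodule.subset_span ⟨a, ha, rfl⟩
    | zero => rw [map_zero]; exact Submodule.zero_mem _
    | add z w _ _ h1 h2 => rw [map_add]; exact Submodule.add_mem _ h1 h2
    | smul c z _ h1 =>
      rw [Derivation.map_smul, ← algebraMap_smul K' c (D k' K' z)]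
      exact Submodule.smul_mem Md (⟨_, hkV c⟩ : V) h1
  have hmain : D k' K' x ∈ Md := by
    obtain ⟨p, q, hp, hq, hq1, hxpq⟩ := exists_frac' R V hVR x hx
    have hq0 : q ≠ 0 := by rintro rfl; rw [map_zero] at hq1; exact zero_ne_one hq1
    have hp' := hB p (mem_span_of_forall R hk ⟨V, hVR⟩ p hp)
    have hq' := hB q (mem_span_of_forall R hk ⟨V, hVR⟩ q hq)
    have hqi : q⁻¹ ∈ V := by
      rw [← V.valuation_le_one_iff, map_inv₀, hq1, inv_one]
    have e : D k' K' x = q⁻¹ • (D k' K' p) - (x * q⁻¹) • (D k' K' q) := by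
      have h1 : D k' K' p = q • D k' K' x + x • D k' K' q := by
        rw [show p = q * x by rw [hxpq]; field_simp, Derivation.leibniz]
      rw [h1, smul_add, smul_smul, inv_mul_cancel₀ hq0, one_smul, smul_smul, mul_comm q⁻¹ x]
      abel
    rw [e]
    exact Submodule.sub_mem _ (Submodule.smul_mem Md (⟨_, hqi⟩ : V) hp')
      (Submodule.smul_mem Md (⟨_, V.mul_mem _ _ hx hqi⟩ : V) hq')
  rw [show Md = Submodule.span V ((fun a => D k' K' (algebraMap K K' a)) '' (R : Set K)) from rfl,
    Submodule.mem_span_iff_exists_finset_subset] at hmain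
  obtain ⟨f, t, ht, hf, hsum⟩ := hmain
  exact ⟨t, fun s => (f s : K'), fun s hs => ht hs, fun s _ => (f s).2, hsum.symm⟩

/-- **Jacobians do not get larger in a constant algebraic extension.** -/
theorem exists_jac_le [IsGalois k k'] [Algebra.IsAlgebraic K K'] {n : ℕ}
    (b : Module.Basis (Fin n) K (Ω[K⁄k])) (R : ValuationSubring K)
    (hk : ∀ c : k, algebraMap k K c ∈ R) (V : ValuationSubring K') (hVR : Over V R)
    (y : Fin n → K') (hy : ∀ i, y i ∈ V) :
    ∃ z : Fin n → K, (∀ i, z i ∈ R) ∧
      V.valuation (jac (bch k' K' b) y) ≤ V.valuation (algebraMap K K' (jac b z)) := by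
  obtain ⟨η, h1, h2⟩ := exists_det_le V (bch k' K' b)
    ((fun a => D k' K' (algebraMap K K' a)) '' (R : Set K)) ⟨_, 0, R.zero_mem, rfl⟩
    (fun i => D k' K' (y i)) (fun i => D_mem R hk V hVR (y i) (hy i))
  choose z hz using h1
  refine ⟨z, fun i => (hz i).1, ?_⟩
  rw [← jac_bch (k' := k')]
  have : (fun i => D k' K' (algebraMap K K' (z i))) = η := by
    funext i; exact (hz i).2
  rw [jac, jac, this]
  exact h2

end Bch

end

end Crest.Agent.R276.FKD1_508
end

-- ▼ part R276/FKD4_508
section

/-!
# R276, leaf FK4 (helper508), part 4: pluricanonical forms w.r.t. a class of valuation rings,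
descent along `K' = K ⊗_k k'`, `k'/k` Galois.

`PlC C b m g`: `g · b^{⊗m}` is regular at all valuation rings of the class `C`.
* `plC_up`: from `K/k` to `K'/k'`;
* `plC_down`: for `g ∈ K`, from `K'/k'` to `K/k`;
* `plC_span`: pluricanonical forms of `K'/k'` are `k'`-combinations of those in `K`;
* `kapC_down`: `KapC` descends.
-/

set_option autoImplicit false
set_option linter.unusedSectionVars false

open Algebra TensorProduct KaehlerDifferential

namespace Crest.Agent.R276.FKD1_508

noncomputable section

/-- `g · b^{⊗m}` is regular at all valuation rings of the class `C` -/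
def PlC {k K : Type*} [Field k] [Field K] [Algebra k K] {n : ℕ} (C : ValuationSubring K → Prop)
    (b : Module.Basis (Fin n) K (Ω[K⁄k])) (m : ℕ) (g : K) : Prop :=
  ∀ R : ValuationSubring K, C R → ∃ y : Fin n → K, (∀ i, y i ∈ R) ∧
    R.valuation g ≤ R.valuation (jac b y) ^ m


section Basic

variable {k K : Type*} [Field k] [Field K] [Algebra k K] {n : ℕ}
  {C : ValuationSubring K → Prop} (b : Module.Basis (Fin n) K (Ω[K⁄k])) {m : ℕ}

theorem PlC.zero : PlC C b m 0 := fun R _ =>
  ⟨0, fun _ => R.zero_mem, by rw [map_zero]; exact zero_le⟩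

variable {b}

theorem PlC.add {g h : K} (hg : PlC C b m g) (hh : PlC C b m h) : PlC C b m (g + h) := by
  intro R hR
  obtain ⟨y, hy, h1⟩ := hg R hR
  obtain ⟨z, hz, h2⟩ := hh R hR
  rcases le_total (R.valuation (jac b y)) (R.valuation (jac b z)) with h | h
  · exact ⟨z, hz, (R.valuation.map_add _ _).trans (max_le (h1.trans (pow_le_pow_left' h m)) h2)⟩
  · exact ⟨y, hy, (R.valuation.map_add _ _).trans (max_le h1 (h2.trans (pow_le_pow_left' h m)))⟩

theorem PlC.smul (hC : ∀ R, C R → ∀ c : k, algebraMap k K c ∈ R) {g : K} (hg : PlC C b m g)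
    (c : k) : PlC C b m (c • g) := by
  intro R hR
  obtain ⟨y, hy, h1⟩ := hg R hR
  refine ⟨y, hy, ?_⟩
  rw [Algebra.smul_def, map_mul]
  calc R.valuation (algebraMap k K c) * R.valuation g ≤ 1 * R.valuation g :=
        mul_le_mul_left ((R.valuation_le_one_iff _).2 (hC R hR c)) _
    _ = R.valuation g := one_mul _
    _ ≤ _ := h1

theorem PlC.mul {m' : ℕ} {g h : K} (hg : PlC C b m g) (hh : PlC C b m' h) :
    PlC C b (m + m') (g * h) := by
  intro R hR
  obtain ⟨y, hy, h1⟩ := hg R hR
  obtain ⟨z, hz, h2⟩ := hh R hR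
  rcases le_total (R.valuation (jac b y)) (R.valuation (jac b z)) with h | h
  · refine ⟨z, hz, ?_⟩
    rw [map_mul, pow_add]
    exact mul_le_mul' (h1.trans (pow_le_pow_left' h m)) h2
  · refine ⟨y, hy, ?_⟩
    rw [map_mul, pow_add]
    exact mul_le_mul' h1 (h2.trans (pow_le_pow_left' h m'))

theorem PlC.mono {C' : ValuationSubring K → Prop} (h : ∀ R, C' R → C R) {g : K}
    (hg : PlC C b m g) : PlC C' b m g := fun R hR => hg R (h R hR)

variable (b)

/-- change of basis -/
theorem jac_change (b' : Module.Basis (Fin n) K (Ω[K⁄k])) (y : Fin n → K) :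
    jac b y = b.det b' * jac b' y := by
  rw [jac, jac, Module.Basis.det_apply, Module.Basis.det_apply, Module.Basis.det_apply,
    ← Matrix.det_mul, Module.Basis.toMatrix_mul_toMatrix]

theorem det_ne_zero (b' : Module.Basis (Fin n) K (Ω[K⁄k])) : b.det b' ≠ 0 := by
  have h1 := b.det_self
  have h2 : b.det b = b.det b' * b'.det b := by
    rw [Module.Basis.det_apply, Module.Basis.det_apply, Module.Basis.det_apply,
      ← Matrix.det_mul, Module.Basis.toMatrix_mul_toMatrix]
  intro h
  rw [h1, h, zero_mul] at h2
  exact one_ne_zero h2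

theorem plC_change (b' : Module.Basis (Fin n) K (Ω[K⁄k])) (g : K) :
    PlC C b' m g ↔ PlC C b m (b.det b' ^ m * g) := by
  have h0 := det_ne_zero b b'
  refine forall₂_congr fun R _ => exists_congr fun y => and_congr_right fun _ => ?_
  rw [jac_change b b', map_mul, map_mul, mul_pow, map_pow,
    mul_le_mul_iff_right₀ (pow_pos (zero_lt_iff.2 ((Valuation.ne_zero_iff _).2 h0)) m)]

end Basic

section Descent

variable {k k' K K' : Type*} [Field k] [Field k'] [Field K] [Field K']
  [Algebra k k'] [Algebra k K] [Algebra k K'] [Algebra K K'] [Algebra k' K']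
  [IsScalarTower k K K'] [IsScalarTower k k' K'] [Algebra.IsPushout k K k' K']

/-- going up -/
theorem plC_up {n : ℕ} (b : Module.Basis (Fin n) K (Ω[K⁄k])) {m : ℕ}
    {C : ValuationSubring K → Prop} {C' : ValuationSubring K' → Prop}
    (hCC : ∀ V, C' V → ∃ R, C R ∧ Over V R) {g : K} (hg : PlC C b m g) :
    PlC C' (bch k' K' b) m (algebraMap K K' g) := by
  intro V hV
  obtain ⟨R, hR, hVR⟩ := hCC V hV
  obtain ⟨y, hy, h1⟩ := hg R hR
  refine ⟨fun i => algebraMap K K' (y i), fun i => (hVR _).2 (hy i), ?_⟩
  rw [jac_bch, ← map_pow, ← map_pow]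
  rw [← map_pow] at h1
  exact (hVR.val_le _ _).2 h1

variable [IsGalois k k'] [Algebra.IsAlgebraic K K']

/-- going down, for elements of `K` -/
theorem plC_down {n : ℕ} (b : Module.Basis (Fin n) K (Ω[K⁄k])) {m : ℕ}
    {C : ValuationSubring K → Prop} {C' : ValuationSubring K' → Prop}
    (hC : ∀ R, C R → ∀ c : k, algebraMap k K c ∈ R)
    (hCC : ∀ R, C R → ∃ V, C' V ∧ Over V R) {g : K}
    (hg : PlC C' (bch k' K' b) m (algebraMap K K' g)) : PlC C b m g := by
  intro R hR
  obtain ⟨V, hV, hVR⟩ := hCC R hR
  obtain ⟨y, hy, h1⟩ := hg V hV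
  obtain ⟨z, hz, h2⟩ := exists_jac_le (k' := k') b R (hC R hR) V hVR y hy
  refine ⟨z, hz, ?_⟩
  have h3 := h1.trans (pow_le_pow_left' h2 m)
  rw [← map_pow, ← map_pow] at h3
  rw [← map_pow]
  exact (hVR.val_le _ _).1 h3

theorem plC_gal {n : ℕ} (b : Module.Basis (Fin n) K (Ω[K⁄k])) {m : ℕ}
    {C' : ValuationSubring K' → Prop}
    (hgal : ∀ (σ : k' ≃ₐ[k] k') V, C' V → C' (galV (K := K) σ V)) (σ : k' ≃ₐ[k] k') {g : K'}
    (hg : PlC C' (bch k' K' b) m g) : PlC C' (bch k' K' b) m (gal K K' σ g) := by
  intro V hV
  obtain ⟨y, hy, h1⟩ := hg _ (hgal σ V hV)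
  refine ⟨fun i => gal K K' σ (y i), hy, ?_⟩
  rw [jac_gal]
  -- compare the valuations of `V` and of its pullback
  have key : ∀ a c : K', (galV (K := K) σ V).valuation a ≤ (galV (K := K) σ V).valuation c →
      V.valuation (gal K K' σ a) ≤ V.valuation (gal K K' σ c) := by
    intro a c h
    rw [ValuationSubring.valuation_le_iff] at h ⊢
    obtain ⟨r, hr⟩ := h
    exact ⟨⟨gal K K' σ r, r.2⟩, by rw [← hr, map_mul]⟩
  rw [← map_pow] at h1
  rw [← map_pow, ← map_pow]
  exact key _ _ h1

/-- pluricanonical forms of `K'/k'` are `k'`-combinations of pluricanonical forms in `K` -/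
theorem plC_span {n : ℕ} (b : Module.Basis (Fin n) K (Ω[K⁄k])) {m : ℕ}
    {C : ValuationSubring K → Prop} {C' : ValuationSubring K' → Prop}
    (hC : ∀ R, C R → ∀ c : k, algebraMap k K c ∈ R)
    (hC' : ∀ V, C' V → ∀ c : k', algebraMap k' K' c ∈ V)
    (hgal : ∀ (σ : k' ≃ₐ[k] k') V, C' V → C' (galV (K := K) σ V))
    (hCC : ∀ R, C R → ∃ V, C' V ∧ Over V R) {g : K'}
    (hg : PlC C' (bch k' K' b) m g) :
    g ∈ Submodule.span k' ((algebraMap K K') '' {a | PlC C b m a}) := by
  let W : Submodule k' K' :=
    { carrier := {g | PlC C' (bch k' K' b) m g}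
      add_mem' := fun h1 h2 => PlC.add h1 h2
      zero_mem' := PlC.zero _
      smul_mem' := fun c _ h => PlC.smul hC' h c }
  have h1 := descent (k := k) (K := K) W (fun σ w hw => plC_gal b hgal σ hw) g hg
  refine Submodule.span_mono (Set.image_mono ?_) h1
  intro a ha
  exact plC_down b hC hCC ha

/-- **descent of forms with algebraically independent ratios** -/
theorem forms_down
    {C : ValuationSubring K → Prop} {C' : ValuationSubring K' → Prop}
    (hC : ∀ R, C R → ∀ c : k, algebraMap k K c ∈ R)
    (hC' : ∀ V, C' V → ∀ c : k', algebraMap k' K' c ∈ V)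
    (hgal : ∀ (σ : k' ≃ₐ[k] k') V, C' V → C' (galV (K := K) σ V))
    (hCC : ∀ R, C R → ∃ V, C' V ∧ Over V R) {d n : ℕ}
    (b' : Module.Basis (Fin n) K' (Ω[K'⁄k'])) {m : ℕ} (f : Fin (d + 1) → K')
    (hf0 : ∀ i, f i ≠ 0) (hf : ∀ i, PlC C' b' m (f i))
    (hind : AlgebraicIndependent k' (fun i : Fin d => f i.succ / f 0)) :
    ∃ (b : Module.Basis (Fin n) K (Ω[K⁄k])) (g : Fin (d + 1) → K), (∀ i, g i ≠ 0) ∧
      (∀ i, PlC C b m (g i)) ∧
      AlgebraicIndependent k (fun i : Fin d => g i.succ / g 0) := by
  classical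
  -- a basis downstairs
  obtain ⟨b⟩ : Nonempty (Module.Basis (Fin n) K (Ω[K⁄k])) := by
    let β := Module.Basis.ofVectorSpace K (Ω[K⁄k])
    have e := (bch k' K' β).indexEquiv b'
    exact ⟨β.reindex e⟩
  have hF : ∀ i, PlC C' (bch k' K' b) m ((bch k' K' b).det b' ^ m * f i) := fun i =>
    (plC_change (bch k' K' b) b' (f i)).1 (hf i)
  set u : K' := (bch k' K' b).det b' ^ m with hu
  have hu0 : u ≠ 0 := pow_ne_zero _ (det_ne_zero _ _)
  have hspan : ∀ i, u * f i ∈ Submodule.span k' ((algebraMap K K') '' {a | PlC C b m a}) :=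
    fun i => plC_span b hC hC' hgal hCC (hF i)
  -- a nonzero section downstairs
  have hs0 : ∃ s0 : K, s0 ≠ 0 ∧ PlC C b m s0 := by
    by_contra hcon
    push Not at hcon
    have : Submodule.span k' ((algebraMap K K') '' {a | PlC C b m a}) = ⊥ := by
      rw [Submodule.span_eq_bot]
      rintro _ ⟨a, ha, rfl⟩
      by_cases h0 : a = 0
      · rw [h0, map_zero]
      · exact absurd ha (hcon a h0)
    have h1 := hspan 0
    rw [this, Submodule.mem_bot, mul_eq_zero] at h1
    rcases h1 with h1 | h1
    · exact hu0 h1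
    · exact hf0 0 h1
  obtain ⟨s0, hs0, hs0P⟩ := hs0
  have hs0' : algebraMap K K' s0 ≠ 0 := by simpa using hs0
  let T : Set K' := (fun a : K => algebraMap K K' (a / s0)) '' {a | PlC C b m a ∧ a ≠ 0}
  have hT' : ∀ z ∈ Submodule.span k' ((algebraMap K K') '' {a | PlC C b m a}),
      z / algebraMap K K' s0 ∈ Algebra.adjoin k' T := by
    intro z hz
    induction hz using Submodule.span_induction with
    | mem z hz =>
      obtain ⟨a, ha, rfl⟩ := hz
      by_cases h0 : a = 0
      · rw [h0, map_zero, zero_div]; exact Subalgebra.zero_mem _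
      · exact Algebra.subset_adjoin ⟨a, ⟨ha, h0⟩, map_div₀ _ _ _⟩
    | zero => rw [zero_div]; exact Subalgebra.zero_mem _
    | add z w _ _ h1 h2 => rw [add_div]; exact Subalgebra.add_mem _ h1 h2
    | smul c z _ h1 => rw [smul_div_assoc]; exact Subalgebra.smul_mem _ h1 c
  have hT : ∀ i, u * f i / algebraMap K K' s0 ∈ Algebra.adjoin k' T := fun i => hT' _ (hspan i)
  have halg : ∀ i : Fin d, IsAlgebraic (Algebra.adjoin k' T) (f i.succ / f 0) := by
    intro i
    have e : f i.succ / f 0 =
        (u * f i.succ / algebraMap K K' s0) / (u * f 0 / algebraMap K K' s0) := by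
      have := hf0 0
      field_simp
    rw [e, div_eq_mul_inv]
    exact (isAlgebraic_algebraMap (⟨_, hT i.succ⟩ : Algebra.adjoin k' T)).mul
      (isAlgebraic_algebraMap (⟨_, hT 0⟩ : Algebra.adjoin k' T)).inv
  obtain ⟨t, htT, htind⟩ := exists_algInd T d _ hind halg
  choose s hs using htT
  refine ⟨b, Fin.cons s0 s, ?_, ?_, ?_⟩
  · intro i
    refine Fin.cases ?_ (fun j => ?_) i
    · exact hs0
    · exact (hs j).1.2
  · intro i
    refine Fin.cases ?_ (fun j => ?_) i
    · exact hs0P
    · exact (hs j).1.1
  · have h1 : (fun i : Fin d => (Fin.cons s0 s : Fin (d + 1) → K) i.succ /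
        (Fin.cons s0 s : Fin (d + 1) → K) 0) = fun i => s i / s0 := by
      funext i; simp
    rw [h1]
    have h2 : AlgebraicIndependent k t := htind.restrictScalars (algebraMap k k').injective
    have h3 : t = fun i => algebraMap K K' (s i / s0) := by
      funext i; exact ((hs i).2).symm
    rw [h3] at h2
    exact AlgebraicIndependent.of_comp (IsScalarTower.toAlgHom k K K') h2


end Descent

end

end Crest.Agent.R276.FKD1_508
end

-- ▼ part R276/FKD5_508

/-!
# R276, leaf FK4 (helper508), part 5: divisorial valuation rings in algebraic extensions;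
ascent and descent of `KapGe`, `KapGeS` along `K' = K ⊗_k k'`, `k'/k` Galois.
-/

set_option autoImplicit false
set_option linter.unusedSectionVars false

open Algebra TensorProduct KaehlerDifferential

namespace Crest.Agent.R276.FKD1_508

open Crest.Agent.R276.FKDefs_779 (IsDiv RegAt Pluri PluriS KapGe KapGeS)

noncomputable section

section Exist

variable {K K' : Type*} [Field K] [Field K'] [Algebra K K']

/-- every valuation ring extends -/
theorem exists_over (R : ValuationSubring K) : ∃ V : ValuationSubring K', Over V R := by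
  obtain ⟨V, hV⟩ := (LocalSubring.map (algebraMap K K') R.toLocalSubring).exists_le_valuationSubring
  refine ⟨V, fun a => ⟨fun ha => ?_, fun ha => ?_⟩⟩
  · by_contra hR
    have h1 : a⁻¹ ∈ R := (R.mem_or_inv_mem a).resolve_left hR
    have ha0 : a ≠ 0 := by rintro rfl; exact hR R.zero_mem
    have h2 : algebraMap K K' a⁻¹ ∈ (LocalSubring.map (algebraMap K K') R.toLocalSubring).toSubring :=
      ⟨a⁻¹, h1, rfl⟩
    have h3 : IsUnit (⟨algebraMap K K' a⁻¹, h2⟩ :
        (LocalSubring.map (algebraMap K K') R.toLocalSubring).toSubring) := by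
      apply hV.2.map_nonunit
      rw [isUnit_iff_exists_inv]
      refine ⟨⟨algebraMap K K' a, ha⟩, ?_⟩
      apply Subtype.ext
      change algebraMap K K' a⁻¹ * algebraMap K K' a = 1
      rw [← map_mul, inv_mul_cancel₀ ha0, map_one]
    rw [isUnit_iff_exists_inv] at h3
    obtain ⟨⟨c, hc⟩, hc2⟩ := h3
    obtain ⟨c', hc', rfl⟩ := hc
    have h4 : algebraMap K K' a⁻¹ * algebraMap K K' c' = 1 := congrArg Subtype.val hc2
    rw [← map_mul, ← map_one (algebraMap K K')] at h4
    have h5 := (algebraMap K K').injective h4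
    have h6 : c' = a := by
      have := congrArg (fun z => a * z) h5
      simpa [mul_inv_cancel_left₀ ha0] using this
    rw [← h6] at hR
    exact hR hc'
  · exact hV.1 ⟨a, ha, rfl⟩

theorem over_comap (V : ValuationSubring K') : Over V (V.comap (algebraMap K K')) := fun _ => Iff.rfl

theorem Over.eq_top [Algebra.IsAlgebraic K K'] {V : ValuationSubring K'}
    (h : Over V (⊤ : ValuationSubring K)) : V = ⊤ := by
  rw [_root_.eq_top_iff]
  intro x _
  have h1 : IsIntegral K x := (Algebra.IsAlgebraic.isAlgebraic (R := K) x).isIntegral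
  obtain ⟨p, hp, hp2⟩ := h1
  let φ : K →+* V := (algebraMap K K').codRestrict V.toSubring
    (fun a => (h a).2 (ValuationSubring.mem_top a))
  have h3 : IsIntegral V x := by
    refine ⟨p.map φ, hp.map φ, ?_⟩
    rw [Polynomial.eval₂_map]
    exact hp2
  obtain ⟨y, hy⟩ := IsIntegrallyClosed.isIntegral_iff.1 h3
  rw [← hy]
  exact y.2

theorem over_top_iff [Algebra.IsAlgebraic K K'] {V : ValuationSubring K'}
    {R : ValuationSubring K} (h : Over V R) : V = ⊤ ↔ R = ⊤ := by
  constructor
  · rintro rfl
    ext a
    simp [← h a]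
  · rintro rfl
    exact h.eq_top

end Exist

section Residue

variable {k K : Type*} [Field k] [Field K] [Algebra k K]

/-- `k → κ(V)` -/
def resHom (V : ValuationSubring K) (hk : ∀ c : k, algebraMap k K c ∈ V) :
    k →+* IsLocalRing.ResidueField V :=
  (IsLocalRing.residue V).comp ((algebraMap k K).codRestrict V.toSubring hk)

theorem res_iff (V : ValuationSubring K) (hk : ∀ c : k, algebraMap k K c ∈ V) {d : ℕ}
    (x : Fin d → K) (hx : ∀ i, x i ∈ V) :
    letI := (resHom V hk).toAlgebra
    (∀ P : MvPolynomial (Fin d) k, P ≠ 0 → V.valuation (MvPolynomial.aeval x P) = 1) ↔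
      AlgebraicIndependent k (fun i => IsLocalRing.residue V ⟨x i, hx i⟩) := by
  let := (resHom V hk).toAlgebra
  let φ : k →+* V := (algebraMap k K).codRestrict V.toSubring hk
  let F : MvPolynomial (Fin d) k →+* V := MvPolynomial.eval₂Hom φ (fun i => ⟨x i, hx i⟩)
  have h1 : ∀ P, ((F P : V) : K) = MvPolynomial.aeval x P := by
    intro P
    have : (V.subtype.comp F) = (MvPolynomial.aeval x : MvPolynomial (Fin d) k →ₐ[k] K).toRingHom := by
      apply MvPolynomial.ringHom_ext
      · intro c; simp [F, φ]
      · intro i; simp [F]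
    exact congrArg (fun g : MvPolynomial (Fin d) k →+* K => g P) this
  have h2 : ∀ P, IsLocalRing.residue V (F P) =
      MvPolynomial.aeval (fun i => IsLocalRing.residue V ⟨x i, hx i⟩) P := by
    intro P
    have : ((IsLocalRing.residue V).comp F) =
        (MvPolynomial.aeval (fun i => IsLocalRing.residue V ⟨x i, hx i⟩) :
          MvPolynomial (Fin d) k →ₐ[k] IsLocalRing.ResidueField V).toRingHom := by
      apply MvPolynomial.ringHom_ext
      · intro c
        simp only [RingHom.coe_comp, Function.comp_apply, F, MvPolynomial.eval₂Hom_C,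
          AlgHom.toRingHom_eq_coe, RingHom.coe_coe, MvPolynomial.algHom_C]
        rfl
      · intro i; simp [F]
    exact congrArg (fun g : MvPolynomial (Fin d) k →+* IsLocalRing.ResidueField V => g P) this
  rw [algebraicIndependent_iff_injective_aeval, injective_iff_map_eq_zero]
  constructor
  · intro h P hP
    by_contra hP0
    have h3 := h P hP0
    rw [← h2, IsLocalRing.residue_eq_zero_iff, V.valuation_lt_one_iff, h1, h3] at hP
    exact lt_irrefl _ hP
  · intro h P hP0
    by_contra hne
    refine hP0 (h P ?_)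
    rw [← h2, IsLocalRing.residue_eq_zero_iff, V.valuation_lt_one_iff, h1]
    refine lt_of_le_of_ne ?_ hne
    rw [← h1]
    exact V.valuation_le_one _

end Residue

section Div

variable {k k' K K' : Type*} [Field k] [Field k'] [Field K] [Field K']
  [Algebra k k'] [Algebra k K] [Algebra k K'] [Algebra K K'] [Algebra k' K']
  [IsScalarTower k K K'] [IsScalarTower k k' K']

theorem isDiv_up [Algebra.IsAlgebraic k k'] [Algebra.IsAlgebraic K K'] {n : ℕ}
    {R : ValuationSubring K} {V : ValuationSubring K'} (hVR : Over V R) (h : IsDiv k n R) :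
    IsDiv k' n V := by
  have hkV : ∀ c : k, algebraMap k K' c ∈ V := fun c => by
    rw [IsScalarTower.algebraMap_apply k K K', hVR]; exact h.alg c
  have hkV' : ∀ c : k', algebraMap k' K' c ∈ V := const_mem (k := k) V hkV
  refine ⟨hkV', fun hV => h.ne_top ((over_top_iff hVR).1 hV), ?_⟩
  obtain ⟨x, hx, hx2⟩ := h.res
  have hx' : ∀ i, algebraMap K K' (x i) ∈ V := fun i => (hVR _).2 (hx i)
  refine ⟨fun i => algebraMap K K' (x i), hx', ?_⟩
  let a1 := (resHom V hkV).toAlgebra
  let a2 := (resHom V hkV').toAlgebra
  have : IsScalarTower k k' (IsLocalRing.ResidueField V) := by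
    refine IsScalarTower.of_algebraMap_eq fun c => ?_
    change resHom V hkV c = resHom V hkV' (algebraMap k k' c)
    simp only [resHom, RingHom.coe_comp, Function.comp_apply]
    congr 1
    apply Subtype.ext
    exact IsScalarTower.algebraMap_apply k k' K' c
  rw [res_iff V hkV' _ hx']
  have h1 : AlgebraicIndependent k (fun i => IsLocalRing.residue V ⟨algebraMap K K' (x i), hx' i⟩) := by
    rw [← res_iff V hkV _ hx']
    intro P hP
    have h2 := hx2 P hP
    have h3 : MvPolynomial.aeval (fun i => algebraMap K K' (x i)) P =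
        algebraMap K K' (MvPolynomial.aeval x P) :=
      (MvPolynomial.aeval_algebraMap_apply K' x P)
    rw [h3]
    have e1 := (hVR.val_le (MvPolynomial.aeval x P) 1).2 (by rw [h2, map_one])
    have e2 := (hVR.val_le 1 (MvPolynomial.aeval x P)).2 (by rw [h2, map_one])
    rw [map_one, map_one] at e1 e2
    exact le_antisymm e1 e2
  exact h1.extendScalars k'

theorem isDiv_down [Algebra.IsAlgebraic k k'] [Algebra.IsAlgebraic K K'] {n : ℕ}
    {R : ValuationSubring K} {V : ValuationSubring K'} (hVR : Over V R) (h : IsDiv k' n V) :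
    IsDiv k n R := by
  have hkV' : ∀ c : k', algebraMap k' K' c ∈ V := h.alg
  have hkV : ∀ c : k, algebraMap k K' c ∈ V := fun c => by
    rw [IsScalarTower.algebraMap_apply k k' K']; exact hkV' _
  have hkR : ∀ c : k, algebraMap k K c ∈ R := fun c => by
    rw [← hVR, ← IsScalarTower.algebraMap_apply]; exact hkV c
  refine ⟨hkR, fun hR => h.ne_top ((over_top_iff hVR).2 hR), ?_⟩
  obtain ⟨x, hx, hx2⟩ := h.res
  let a1 := (resHom V hkV).toAlgebra
  let a2 := (resHom V hkV').toAlgebra
  let a3 := (resHom R hkR).toAlgebra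
  have : IsScalarTower k k' (IsLocalRing.ResidueField V) := by
    refine IsScalarTower.of_algebraMap_eq fun c => ?_
    change resHom V hkV c = resHom V hkV' (algebraMap k k' c)
    simp only [resHom, RingHom.coe_comp, Function.comp_apply]
    congr 1
    apply Subtype.ext
    exact IsScalarTower.algebraMap_apply k k' K' c
  rw [res_iff V hkV' _ hx] at hx2
  have h1 : AlgebraicIndependent k (fun i => IsLocalRing.residue V ⟨x i, hx i⟩) :=
    hx2.restrictScalars (algebraMap k k').injective
  -- the residue field of `V` is algebraic over the image of that of `R`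
  let ι : R →+* V := ((algebraMap K K').comp R.subtype).codRestrict V.toSubring
    (fun a => (hVR _).2 a.2)
  let T : Set (IsLocalRing.ResidueField V) := Set.range (fun a : R => IsLocalRing.residue V (ι a))
  have halg : ∀ z : IsLocalRing.ResidueField V, IsAlgebraic (Algebra.adjoin k T) z := by
    intro z
    obtain ⟨z, rfl⟩ := IsLocalRing.residue_surjective z
    -- primitive polynomial of `z` over `K`
    obtain ⟨P, hP0, hPz⟩ := Algebra.IsAlgebraic.isAlgebraic (R := K) (z : K')
    obtain ⟨c, hc0, hcR, i, hi, hiu⟩ := exists_scale P hP0 R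
    -- polynomial over `adjoin k T`
    let co : ℕ → Algebra.adjoin k T := fun j =>
      ⟨IsLocalRing.residue V (ι ⟨c * P.coeff j, hcR j⟩), Algebra.subset_adjoin ⟨_, rfl⟩⟩
    let Q : Polynomial (Algebra.adjoin k T) :=
      ∑ j ∈ Finset.range (P.natDegree + 1), Polynomial.monomial j (co j)
    have hQc : ∀ j ≤ P.natDegree, Q.coeff j = co j := by
      intro j hj
      simp only [Q, Polynomial.finsetSum_coeff, Polynomial.coeff_monomial]
      rw [Finset.sum_eq_single j]
      · simp
      · intro l _ hl; simp [hl]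
      · intro hj'; exact absurd (Finset.mem_range.2 (by omega)) hj'
    refine ⟨Q, fun hQ => ?_, ?_⟩
    · have h2 : co i = 0 := by rw [← hQc i hi, hQ, Polynomial.coeff_zero]
      have h3 : IsLocalRing.residue V (ι ⟨c * P.coeff i, hcR i⟩) = 0 := congrArg Subtype.val h2
      rw [IsLocalRing.residue_eq_zero_iff, V.valuation_lt_one_iff] at h3
      have h4 : V.valuation (algebraMap K K' (c * P.coeff i)) < V.valuation (algebraMap K K' 1) := by
        rw [map_one, map_one]; exact h3
      have h5 := (hVR.val_le 1 (c * P.coeff i)).2 (by rw [hiu, map_one])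
      exact absurd h4 (not_lt.2 h5)
    · simp only [Q, map_sum, Polynomial.aeval_monomial]
      have h6 : ∑ j ∈ Finset.range (P.natDegree + 1), ι ⟨c * P.coeff j, hcR j⟩ * z ^ j = 0 := by
        apply Subtype.ext
        have h7 : algebraMap K K' c * Polynomial.aeval (z : K') P = 0 := by rw [hPz, mul_zero]
        rw [Polynomial.aeval_eq_sum_range, Finset.mul_sum] at h7
        rw [← V.subtype_apply, map_sum]
        rw [← V.subtype_apply (x := 0), map_zero, ← h7]
        refine Finset.sum_congr rfl fun j _ => ?_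
        rw [map_mul, map_pow]
        change algebraMap K K' (c * P.coeff j) * (z : K') ^ j = _
        rw [map_mul, Algebra.smul_def, mul_assoc]
      have h8 := congrArg (IsLocalRing.residue V) h6
      rw [map_sum, map_zero] at h8
      rw [← h8]
      refine Finset.sum_congr rfl fun j _ => ?_
      rw [map_mul, map_pow]
      rfl
  obtain ⟨t, htT, htind⟩ := exists_algInd T _ _ h1 (fun i => halg _)
  choose a ha using htT
  refine ⟨fun i => (a i : K), fun i => (a i).2, ?_⟩
  intro P hP
  have h9 := (res_iff V hkV (fun i => algebraMap K K' (a i : K)) (fun i => (hVR _).2 (a i).2)).2 (by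
    have : (fun i => IsLocalRing.residue V ⟨algebraMap K K' (a i : K), (hVR _).2 (a i).2⟩) = t := by
      funext i; exact ha i
    rw [this]; exact htind) P hP
  have h3 : MvPolynomial.aeval (fun i => algebraMap K K' (a i : K)) P =
      algebraMap K K' (MvPolynomial.aeval (fun i => (a i : K)) P) :=
    (MvPolynomial.aeval_algebraMap_apply K' _ P)
  rw [h3] at h9
  have e1 := (hVR.val_le (MvPolynomial.aeval (fun i => (a i : K)) P) 1).1 (by
    rw [map_one, map_one, h9])
  have e2 := (hVR.val_le 1 (MvPolynomial.aeval (fun i => (a i : K)) P)).1 (by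
    rw [map_one, map_one, h9])
  rw [map_one] at e1 e2
  exact le_antisymm e1 e2

end Div

section Main

variable {k k' K K' : Type*} [Field k] [Field k'] [Field K] [Field K']
  [Algebra k k'] [Algebra k K] [Algebra k K'] [Algebra K K'] [Algebra k' K']
  [IsScalarTower k K K'] [IsScalarTower k k' K'] [Algebra.IsPushout k K k' K']





/-- `K'/K` is algebraic if `k'/k` is -/
theorem isAlgebraic_of_isPushout [Algebra.IsAlgebraic k k'] : Algebra.IsAlgebraic K K' := by
  have h1 : Algebra.IsIntegral K (K ⊗[k] k') := by infer_instance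
  have h2 : Algebra.IsIntegral K K' := by
    refine ⟨fun x => ?_⟩
    have := (h1.1 ((Algebra.IsPushout.equiv k K k' K').symm x)).map
      (Algebra.IsPushout.equiv k K k' K')
    simpa using this
  exact Algebra.IsIntegral.isAlgebraic

/-- algebraic independence goes up -/
theorem algInd_up [Algebra.IsAlgebraic k k'] {d : ℕ} {x : Fin d → K}
    (h : AlgebraicIndependent k x) :
    AlgebraicIndependent k' (fun i => algebraMap K K' (x i)) := by
  have h1 : AlgebraicIndependent k (fun i => algebraMap K K' (x i)) :=
    h.map' (f := IsScalarTower.toAlgHom k K K') (algebraMap K K').injective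
  exact h1.extendScalars k'

/-- divisorial and strong pluricanonical forms go up -/
theorem pluri_up [Algebra.IsAlgebraic k k'] {n : ℕ} (b : Module.Basis (Fin n) K (Ω[K⁄k])) {m : ℕ}
    {g : K} (hg : Pluri k b m g) : Pluri k' (bch k' K' b) m (algebraMap K K' g) := by
  have := isAlgebraic_of_isPushout (k := k) (k' := k') (K := K) (K' := K')
  exact plC_up b (fun V hV => ⟨V.comap (algebraMap K K'), isDiv_down (over_comap V) hV,
    over_comap V⟩) hg

theorem pluriS_up {n : ℕ} (b : Module.Basis (Fin n) K (Ω[K⁄k])) {m : ℕ}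
    {g : K} (hg : PluriS k b m g) : PluriS k' (bch k' K' b) m (algebraMap K K' g) := by
  refine plC_up (C := fun R => ∀ c : k, algebraMap k K c ∈ R) b
    (fun V hV => ⟨V.comap (algebraMap K K'), fun c => ?_, over_comap V⟩) hg
  change algebraMap K K' (algebraMap k K c) ∈ V
  rw [← IsScalarTower.algebraMap_apply, IsScalarTower.algebraMap_apply k k' K']
  exact hV _

/-- divisorial pluricanonical forms go down -/
theorem pluri_down [IsGalois k k'] {n : ℕ} (b : Module.Basis (Fin n) K (Ω[K⁄k])) {m : ℕ}
    {g : K} (hg : Pluri k' (bch k' K' b) m (algebraMap K K' g)) : Pluri k b m g := by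
  have := isAlgebraic_of_isPushout (k := k) (k' := k') (K := K) (K' := K')
  exact plC_down (k' := k') (K' := K') (C := IsDiv k n) (C' := IsDiv k' n) b
    (fun R hR => hR.alg)
    (fun R hR => by
      obtain ⟨V, hV⟩ := exists_over (K' := K') R
      exact ⟨V, isDiv_up hV hR, hV⟩) hg

theorem pluriS_down [IsGalois k k'] {n : ℕ} (b : Module.Basis (Fin n) K (Ω[K⁄k])) {m : ℕ}
    {g : K} (hg : PluriS k' (bch k' K' b) m (algebraMap K K' g)) : PluriS k b m g := by
  have := isAlgebraic_of_isPushout (k := k) (k' := k') (K := K) (K' := K')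
  exact plC_down (k' := k') (K' := K') (C := fun R => ∀ c : k, algebraMap k K c ∈ R)
    (C' := fun V => ∀ c : k', algebraMap k' K' c ∈ V) b
    (fun R hR => hR)
    (fun R hR => by
      obtain ⟨V, hV⟩ := exists_over (K' := K') R
      exact ⟨V, const_mem (k := k) V (fun c => by
        rw [IsScalarTower.algebraMap_apply k K K', hV]; exact hR c), hV⟩) hg

/-- **ascent of `κ ≥ d`** (constant algebraic extension) -/
theorem kapGe_up [Algebra.IsAlgebraic k k'] {d : ℕ} (h : KapGe k K d) : KapGe k' K' d := by
  obtain ⟨n, b, m, hm, f, hf, hind⟩ := h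
  refine ⟨n, bch k' K' b, m, hm, fun i => algebraMap K K' (f i), fun i => ⟨?_, ?_⟩, ?_⟩
  · simpa using (hf i).1
  · exact pluri_up b (hf i).2
  · simpa only [map_div₀] using algInd_up (k' := k') (K' := K') hind

theorem kapGeS_up [Algebra.IsAlgebraic k k'] {d : ℕ} (h : KapGeS k K d) : KapGeS k' K' d := by
  obtain ⟨n, b, m, hm, f, hf, hind⟩ := h
  refine ⟨n, bch k' K' b, m, hm, fun i => algebraMap K K' (f i), fun i => ⟨?_, ?_⟩, ?_⟩
  · simpa using (hf i).1
  · exact pluriS_up b (hf i).2
  · simpa only [map_div₀] using algInd_up (k' := k') (K' := K') hind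

theorem isDiv_gal [Algebra.IsAlgebraic k k'] {n : ℕ} (σ : k' ≃ₐ[k] k') (V : ValuationSubring K')
    (hV : IsDiv k' n V) : IsDiv k' n (galV (K := K) σ V) := by
  have := isAlgebraic_of_isPushout (k := k) (k' := k') (K := K) (K' := K')
  have h1 : IsDiv k n (V.comap (algebraMap K K')) := isDiv_down (over_comap V) hV
  exact isDiv_up (over_galV σ V _ (over_comap V)) h1

/-- **descent of `κ ≥ d`** (constant Galois extension) -/
theorem kapGe_down [IsGalois k k'] {d : ℕ} (h : KapGe k' K' d) : KapGe k K d := by
  have := isAlgebraic_of_isPushout (k := k) (k' := k') (K := K) (K' := K')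
  obtain ⟨n, b', m, hm, f, hf, hind⟩ := h
  obtain ⟨b, g, h1, h2, h3⟩ := forms_down (k := k) (k' := k') (K := K) (K' := K')
    (C := IsDiv k n) (C' := IsDiv k' n)
    (fun R hR => hR.alg) (fun V hV => hV.alg) (fun σ V hV => isDiv_gal σ V hV)
    (fun R hR => by
      obtain ⟨V, hV⟩ := exists_over (K' := K') R
      exact ⟨V, isDiv_up (k := k) (k' := k') hV hR, hV⟩) b' f (fun i => (hf i).1) (fun i => (hf i).2) hind
  exact ⟨n, b, m, hm, g, fun i => ⟨h1 i, h2 i⟩, h3⟩

theorem kapGeS_down [IsGalois k k'] {d : ℕ} (h : KapGeS k' K' d) : KapGeS k K d := by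
  have := isAlgebraic_of_isPushout (k := k) (k' := k') (K := K) (K' := K')
  obtain ⟨n, b', m, hm, f, hf, hind⟩ := h
  obtain ⟨b, g, h1, h2, h3⟩ := forms_down (k := k) (k' := k') (K := K) (K' := K')
    (C := fun R => ∀ c : k, algebraMap k K c ∈ R)
    (C' := fun V => ∀ c : k', algebraMap k' K' c ∈ V)
    (fun R hR => hR) (fun V hV => hV)
    (fun σ V hV c => by
      rw [mem_galV, gal_algebraMap (K := K)]; exact hV _)
    (fun R hR => by
      obtain ⟨V, hV⟩ := exists_over (K' := K') R
      exact ⟨V, const_mem (k := k) V (fun c => by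
        rw [IsScalarTower.algebraMap_apply k K K', hV]; exact hR c), hV⟩)
    b' f (fun i => (hf i).1) (fun i => (hf i).2) hind
  exact ⟨n, b, m, hm, g, fun i => ⟨h1 i, h2 i⟩, h3⟩

end Main

end

end Crest.Agent.R276.FKD1_508
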