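import Mathlib
import Crest.Prelude.Def_SmoothDivisors
import Crest.Agent.R271.UfdG_243
import Crest.Agent.R276.FKB4_594
import Crest.Agent.R276.FKD5_508
import Crest.Agent.R276.BetaDefs_231

-- ▼ part R276/ConnA_617
section

set_option autoImplicit false

/-!
# Row 276, FK-CONN, part A: pure algebra / topology

`fib_conn`: a continuous map from a preconnected space to `Spec A[T]/(g)` lying over one rational
point `v` of `A` cannot hit two different roots of `g` mod `v`.
`exists_glue`: on an integral scheme a rational function regular at every point of an open set is a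
section over it.
-/

open Polynomial TopologicalSpace

namespace Crest.Agent.R276.ConnA_617

theorem fib_conn {A k : Type*} [CommRing A] [Field k] (s : k →+* A) (v : A →+* k)
    (hvs : ∀ c, v (s c) = c) (g : A[X]) (hg : g.Monic) (hsplit : (g.map v).Splits)
    {c₁ c₂ : k} (h12 : c₁ ≠ c₂) {T : Type*} [TopologicalSpace T] [PreconnectedSpace T]
    (Θ : T → PrimeSpectrum (AdjoinRoot g)) (hΘ : Continuous Θ)
    (hker : ∀ y, ∀ a, v a = 0 → AdjoinRoot.of g a ∈ (Θ y).asIdeal) (y₁ y₂ : T)
    (hy₁ : AdjoinRoot.root g - AdjoinRoot.of g (s c₁) ∈ (Θ y₁).asIdeal)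
    (hy₂ : AdjoinRoot.root g - AdjoinRoot.of g (s c₂) ∈ (Θ y₂).asIdeal) : False := by
  classical
  -- the product over the roots lies in every point
  have hprod : ∀ y, ((g.map v).roots.map
      (fun c => AdjoinRoot.root g - AdjoinRoot.of g (s c))).prod ∈ (Θ y).asIdeal := by
    intro y
    -- the polynomial g - ∏ (T - s c) has coefficients in ker v
    set P : A[X] := ((g.map v).roots.map (fun c => X - C (s c))).prod with hP
    have hPv : P.map v = g.map v := by
      rw [hP, Polynomial.map_multiset_prod, Multiset.map_map]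
      have h1 := hsplit.eq_prod_roots_of_monic (hg.map v)
      conv_rhs => rw [h1]
      congr 1
      apply Multiset.map_congr rfl
      intro c _
      simp [hvs]
    have h2 : (aeval (AdjoinRoot.root g)) (P - g) ∈ (Θ y).asIdeal := by
      rw [Polynomial.aeval_eq_sum_range]
      refine Ideal.sum_mem _ fun i _ => ?_
      have h3 : v ((P - g).coeff i) = 0 := by
        have := congrArg (fun q : k[X] => q.coeff i) hPv
        simp only [Polynomial.coeff_map] at this
        simp [this]
      rw [Algebra.smul_def]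
      exact Ideal.mul_mem_right _ _ (hker y _ h3)
    have h4 : (aeval (AdjoinRoot.root g)) g = 0 := by
      rw [AdjoinRoot.aeval_eq, AdjoinRoot.mk_self]
    rw [map_sub, h4, sub_zero, hP, map_multiset_prod, Multiset.map_map] at h2
    have h5 : (⇑(aeval (AdjoinRoot.root g)) ∘ fun c => X - C (s c)) =
        fun c => AdjoinRoot.root g - AdjoinRoot.of g (s c) := by
      funext c
      simp [AdjoinRoot.algebraMap_eq]
    rw [h5] at h2
    exact h2
  -- each point has some root
  have hex : ∀ y, ∃ c ∈ (g.map v).roots, AdjoinRoot.root g - AdjoinRoot.of g (s c) ∈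
      (Θ y).asIdeal := by
    intro y
    obtain ⟨p, hp, hpy⟩ := ((Θ y).isPrime.multiset_prod_mem_iff_exists_mem _).1 (hprod y)
    obtain ⟨c, hc, rfl⟩ := Multiset.mem_map.1 hp
    exact ⟨c, hc, hpy⟩
  -- uniqueness
  have huniq : ∀ y (c c' : k), AdjoinRoot.root g - AdjoinRoot.of g (s c) ∈ (Θ y).asIdeal →
      AdjoinRoot.root g - AdjoinRoot.of g (s c') ∈ (Θ y).asIdeal → c = c' := by
    intro y c c' h h'
    by_contra hne
    apply (Θ y).isPrime.ne_top
    have h3 : AdjoinRoot.of g (s (c' - c)) ∈ (Θ y).asIdeal := by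
      have := Ideal.sub_mem _ h h'
      simpa using this
    rw [Ideal.eq_top_iff_one]
    have h4 : AdjoinRoot.of g (s ((c' - c)⁻¹)) * AdjoinRoot.of g (s (c' - c)) = 1 := by
      rw [← map_mul, ← map_mul, inv_mul_cancel₀ (sub_ne_zero.2 (Ne.symm hne)), map_one, map_one]
    rw [← h4]
    exact Ideal.mul_mem_left _ _ h3
  -- the clopen set
  let E : k → Set T := fun c => Θ ⁻¹' (PrimeSpectrum.zeroLocus
    {AdjoinRoot.root g - AdjoinRoot.of g (s c)})
  have hEcl : ∀ c, IsClosed (E c) := fun c => (PrimeSpectrum.isClosed_zeroLocus _).preimage hΘ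
  have hmem : ∀ c y, y ∈ E c ↔ AdjoinRoot.root g - AdjoinRoot.of g (s c) ∈ (Θ y).asIdeal := by
    intro c y
    simp [E, PrimeSpectrum.mem_zeroLocus]
  have hcompl : (E c₁)ᶜ = ⋃ c ∈ ((g.map v).roots.toFinset.erase c₁), E c := by
    ext y
    simp only [Set.mem_compl_iff, Set.mem_iUnion, Finset.mem_erase, Multiset.mem_toFinset,
      exists_prop]
    constructor
    · intro hy
      obtain ⟨c, hc, hcy⟩ := hex y
      refine ⟨c, ⟨?_, hc⟩, (hmem c y).2 hcy⟩
      rintro rfl
      exact hy ((hmem _ y).2 hcy)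
    · rintro ⟨c, ⟨hne, hc⟩, hcy⟩ hy
      exact hne (huniq y c c₁ ((hmem c y).1 hcy) ((hmem c₁ y).1 hy))
  have hclopen : IsClopen (E c₁) := by
    refine ⟨hEcl c₁, ?_⟩
    rw [← isClosed_compl_iff, hcompl]
    exact isClosed_biUnion_finset fun c _ => hEcl c
  rcases isClopen_iff.1 hclopen with h | h
  · have : y₁ ∈ E c₁ := (hmem _ _).2 hy₁
    rw [h] at this
    exact this
  · have : y₂ ∈ E c₁ := by rw [h]; trivial
    exact h12 (huniq y₂ c₁ c₂ ((hmem _ _).1 this) hy₂)

open AlgebraicGeometry CategoryTheory Opposite in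
/-- On an integral scheme, a rational function which is regular at every point of an open set is
(the germ of) a section over this open set. -/
theorem exists_glue (X : Scheme.{0}) [IsIntegral X] (W : X.Opens) [Nonempty W]
    (a : X.functionField)
    (h : ∀ x ∈ W, a ∈ (algebraMap (X.presheaf.stalk x) X.functionField).range) :
    ∃ t : Γ(X, W), X.germToFunctionField W t = a := by
  classical
  -- local sections
  have hloc : ∀ x : W, ∃ (U : X.Opens) (hU : U ≤ W) (hxU : x.1 ∈ U) (t : Γ(X, U)),
      ∀ [Nonempty U], X.germToFunctionField U t = a := by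
    intro x
    obtain ⟨b, hb⟩ := h x.1 x.2
    obtain ⟨U, hxU, t, rfl⟩ := X.presheaf.exists_germ_eq b
    refine ⟨U ⊓ W, inf_le_right, ⟨hxU, x.2⟩, X.presheaf.map (homOfLE inf_le_left).op t, ?_⟩
    intro hne
    have : Nonempty U := ⟨⟨x.1, hxU⟩⟩
    rw [← hb, Scheme.algebraMap_germ_eq_germToFunctionField X hxU]
    change (X.presheaf.germ _ _ _).hom _ = (X.presheaf.germ _ _ _).hom _
    exact X.presheaf.germ_res_apply (homOfLE inf_le_left) _ _ _
  choose U hUW hxU t ht using hloc
  have hneU : ∀ x, Nonempty (U x) := fun x => ⟨⟨x.1, hxU x⟩⟩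
  have hcomp : TopCat.Presheaf.IsCompatible X.presheaf U t := by
    intro x y
    have hne : Nonempty (U x ⊓ U y : X.Opens) := by
      have h1 := nonempty_preirreducible_inter (U x).isOpen (U y).isOpen
        ⟨x.1, hxU x⟩ ⟨y.1, hxU y⟩
      obtain ⟨z, hz1, hz2⟩ := h1
      exact ⟨⟨z, hz1, hz2⟩⟩
    apply X.germToFunctionField_injective (U x ⊓ U y)
    have e1 : X.germToFunctionField (U x ⊓ U y)
        (X.presheaf.map (Opens.infLELeft (U x) (U y)).op (t x)) = X.germToFunctionField (U x) (t x) :=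
      X.presheaf.germ_res_apply _ _ _ _
    have e2 : X.germToFunctionField (U x ⊓ U y)
        (X.presheaf.map (Opens.infLERight (U x) (U y)).op (t y)) = X.germToFunctionField (U y) (t y) :=
      X.presheaf.germ_res_apply _ _ _ _
    rw [e1, e2]
    have := hneU x
    have := hneU y
    rw [ht x, ht y]
  obtain ⟨s, hs, -⟩ := X.sheaf.existsUnique_gluing' U W (fun x => homOfLE (hUW x))
    (fun x hx => Opens.mem_iSup.2 ⟨⟨x, hx⟩, hxU ⟨x, hx⟩⟩) t hcomp
  refine ⟨s, ?_⟩
  obtain ⟨x⟩ := ‹Nonempty W›
  have := hneU x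
  rw [← ht x, ← hs x]
  symm
  exact X.presheaf.germ_res_apply _ _ _ _

end Crest.Agent.R276.ConnA_617
end

-- ▼ part R276/ConnB_617
section

set_option autoImplicit false

/-!
# Row 276, FK-CONN, part B: scheme side

`algClosed_of_connected`: if all fibres of `f : X ⟶ Z` over complex points are connected then the
function field of `Z` is algebraically closed in the function field of `X`.
-/

open AlgebraicGeometry CategoryTheory Order TopologicalSpace Polynomial Opposite
open Crest.AlgGeometry.Divisors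
open Crest.Agent.R276.ConnA_617 Crest.Agent.R271.UFD243

namespace Crest.Agent.R276.ConnB_617

/-! ### algebra -/

/-- Nullstellensatz, with a nonvanishing condition -/
theorem exists_point_ne {A : Type} [CommRing A] [IsDomain A] [Algebra ℂ A]
    [Algebra.FiniteType ℂ A] (d : A) (hd : d ≠ 0) : ∃ v : A →ₐ[ℂ] ℂ, v d ≠ 0 := by
  let B := Localization.Away d
  have h0 : Nontrivial B :=
    (IsLocalization.injective B (M := Submonoid.powers d)
      (powers_le_nonZeroDivisors_of_noZeroDivisors hd)).nontrivial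
  have h1 : Algebra.FiniteType A B := IsLocalization.finiteType_of_monoid_fg (Submonoid.powers d) B
  have h2 : Algebra.FiniteType ℂ B := Algebra.FiniteType.trans (S := A) inferInstance h1
  obtain ⟨m, hm⟩ := Ideal.exists_maximal B
  let _ := Ideal.Quotient.field m
  have h3 : Module.Finite ℂ (B ⧸ m) := finite_of_finite_type_of_isJacobsonRing ℂ (B ⧸ m)
  have h4 : Algebra.IsAlgebraic ℂ (B ⧸ m) := inferInstance
  let g : (B ⧸ m) →ₐ[ℂ] ℂ := IsAlgClosed.lift
  let v : A →ₐ[ℂ] ℂ := (g.comp (Ideal.Quotient.mkₐ ℂ m)).comp (IsScalarTower.toAlgHom ℂ A B)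
  refine ⟨v, ?_⟩
  have h5 : IsUnit (v d) := by
    have : IsUnit (algebraMap A B d) := IsLocalization.Away.algebraMap_isUnit d
    exact this.map (g.comp (Ideal.Quotient.mkₐ ℂ m))
  exact h5.ne_zero

/-- clearing denominators in a Bezout relation `u g + w g' = 1` -/
theorem exists_bezout {A M : Type*} [CommRing A] [IsDomain A] [Field M] [Algebra A M]
    [IsFractionRing A M] (g : A[X]) (hsep : (g.map (algebraMap A M)).Separable) :
    ∃ d : A, d ≠ 0 ∧ ∃ U W : A[X], U * g + W * derivative g = C d := by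
  obtain ⟨u, w, huw⟩ := hsep
  obtain ⟨b₁, hb₁', hb₁⟩ := IsLocalization.integerNormalization_spec (nonZeroDivisors A) u
  obtain ⟨b₂, hb₂', hb₂⟩ := IsLocalization.integerNormalization_spec (nonZeroDivisors A) w
  refine ⟨b₁ * b₂, mul_ne_zero (nonZeroDivisors.ne_zero hb₁') (nonZeroDivisors.ne_zero hb₂'),
    C (b₂ : A) * IsLocalization.integerNormalization (nonZeroDivisors A) u,
    C (b₁ : A) * IsLocalization.integerNormalization (nonZeroDivisors A) w, ?_⟩
  apply Polynomial.map_injective (algebraMap A M) (IsFractionRing.injective A M)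
  simp only [Polynomial.map_add, Polynomial.map_mul, Polynomial.map_C, hb₁, hb₂]
  have e1 : (b₁ : A) • u = C (algebraMap A M b₁) * u := by
    rw [← Polynomial.smul_eq_C_mul, algebraMap_smul]
  have e2 : (b₂ : A) • w = C (algebraMap A M b₂) * w := by
    rw [← Polynomial.smul_eq_C_mul, algebraMap_smul]
  rw [e1, e2, ← Polynomial.derivative_map, map_mul, C_mul]
  linear_combination (C (algebraMap A M b₁) * C (algebraMap A M b₂)) * huw

/-! ### the chart -/

section chart

variable (X : Scheme.{0}) [IsIntegral X] (W : X.Opens) (C : CommRingCat.{0})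
  (ψ : C ⟶ Γ(X, W))

omit [IsIntegral X] in
theorem mem_iff (x : W) (c : C) :
    c ∉ ((W.toSpecΓ ≫ Spec.map ψ) x).asIdeal ↔ x.1 ∈ X.basicOpen (ψ c) := by
  have h := Scheme.Opens.toSpecΓ_preimage_basicOpen W (ψ c)
  have h2 : (x ∈ W.toSpecΓ ⁻¹ᵁ PrimeSpectrum.basicOpen (ψ c)) ↔
      x ∈ W.ι ⁻¹ᵁ X.basicOpen (ψ c) := by rw [h]
  exact h2

theorem surj (hψ : Function.Injective ψ)
    (hcl : IsClosedMap (W.toSpecΓ ≫ Spec.map ψ)) :
    Function.Surjective (W.toSpecΓ ≫ Spec.map ψ) := by
  by_contra hns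
  rw [← Set.range_eq_univ] at hns
  have hclr : IsClosed (Set.range (W.toSpecΓ ≫ Spec.map ψ)) := hcl.isClosed_range
  obtain ⟨p, hp⟩ := (Set.ne_univ_iff_exists_notMem _).1 hns
  obtain ⟨_, ⟨c, rfl⟩, hpc, hc⟩ := PrimeSpectrum.isTopologicalBasis_basic_opens.exists_subset_of_mem_open
    (show p ∈ (Set.range (W.toSpecΓ ≫ Spec.map ψ))ᶜ from hp) hclr.isOpen_compl
  have h1 : X.basicOpen (ψ c) = ⊥ := by
    rw [eq_bot_iff]
    intro x hx
    have hxW : x ∈ W := X.basicOpen_le _ hx
    have h2 := (mem_iff X W C ψ ⟨x, hxW⟩ c).2 hx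
    exact absurd ⟨⟨x, hxW⟩, rfl⟩ (hc h2)
  have h3 : ψ c = 0 := eq_zero_of_basicOpen_eq_bot _ h1
  have h4 : c = 0 := hψ (by rw [h3, map_zero])
  exact hpc (by rw [h4]; exact p.asIdeal.zero_mem)

end chart

/-! ### normality -/

section normal

variable (X : Scheme.{0}) [Algebra ℂ Γ(X, ⊤)] [IsIntegral X] [IsLocallyNoetherian X] {n : ℕ}

/-- An element of the function field integral over (the image of) a ring of sections over `W` is
a section over `W`. -/
theorem exists_section_of_integral (hX : IsSmoothProperVariety ℂ X n) (W : X.Opens) [Nonempty W]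
    {A : Type*} [CommRing A] (i : A →+* Γ(X, W)) (a : X.functionField)
    (ha : ((X.germToFunctionField W).hom.comp i).IsIntegralElem a) :
    ∃ t : Γ(X, W), X.germToFunctionField W t = a := by
  apply exists_glue
  intro x hx
  have hufd := stalk_ufd X hX x
  have hic : IsIntegrallyClosed (X.presheaf.stalk x) := inferInstance
  have h1 : IsIntegral (X.presheaf.stalk x) a := by
    obtain ⟨p, hp, hpa⟩ := ha
    refine ⟨p.map (((X.presheaf.germ W x hx).hom).comp i), hp.map _, ?_⟩
    rw [Polynomial.eval₂_map]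
    have h2 : (algebraMap (X.presheaf.stalk x) X.functionField).comp
        (((X.presheaf.germ W x hx).hom).comp i) = (X.germToFunctionField W).hom.comp i := by
      ext c
      exact Scheme.algebraMap_germ_eq_germToFunctionField X hx (i c)
    rw [h2]
    exact hpa
  obtain ⟨y, hy⟩ := IsIntegrallyClosed.isIntegral_iff.1 h1
  exact ⟨y, hy⟩

end normal

end Crest.Agent.R276.ConnB_617
end

-- ▼ part R276/ConnC_617
section

set_option autoImplicit false

/-!
# Row 276, FK-CONN, part C: the theorem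
-/

open AlgebraicGeometry CategoryTheory Order TopologicalSpace Polynomial Opposite
open Crest.AlgGeometry.Divisors
open Crest.Agent.R276.ConnA_617 Crest.Agent.R271.UFD243 Crest.Agent.R276.ConnB_617

namespace Crest.Agent.R276.ConnC_617

/-- two different roots of a separable polynomial of degree at least two -/
theorem exists_two_roots (q : ℂ[X]) (hsep : q.Separable) (hdeg : 2 ≤ q.natDegree) :
    ∃ c₁ c₂ : ℂ, c₁ ≠ c₂ ∧ q.IsRoot c₁ ∧ q.IsRoot c₂ := by
  classical
  have hq : q ≠ 0 := by rintro rfl; simp at hdeg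
  have h1 : q.roots.card = q.natDegree := (IsAlgClosed.splits q).natDegree_eq_card_roots.symm
  have h2 : q.roots.Nodup := nodup_roots hsep
  have h3 : 1 < q.roots.toFinset.card := by
    rw [Multiset.toFinset_card_of_nodup h2, h1]; omega
  obtain ⟨c₁, hc₁, c₂, hc₂, hne⟩ := Finset.one_lt_card.1 h3
  refine ⟨c₁, c₂, hne, ?_, ?_⟩
  · exact (mem_roots hq).1 (Multiset.mem_toFinset.1 hc₁)
  · exact (mem_roots hq).1 (Multiset.mem_toFinset.1 hc₂)

/-- a complex point of an affine open set from a ring homomorphism -/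
theorem point_structure (Z : Scheme.{0}) [Algebra ℂ Γ(Z, ⊤)] (V : Z.Opens) (hV : IsAffineOpen V)
    (v : Γ(Z, V) →+* ℂ) (hv : ∀ c, v (resC Z V c) = c) :
    (Spec.map (CommRingCat.ofHom v) ≫ hV.fromSpec) ≫ structureMorphism ℂ Z = 𝟙 _ := by
  rw [structureMorphism, Category.assoc, IsAffineOpen.fromSpec_toSpecΓ_assoc,
    ← Spec.map_comp, ← Spec.map_comp, ← Spec.map_id]
  congr 1
  ext c
  exact hv c

/-- coordinate rings of affine open sets are integrally closed -/
theorem isIntegrallyClosed_of_affine (Z : Scheme.{0}) [Algebra ℂ Γ(Z, ⊤)] [IsIntegral Z]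
    [IsLocallyNoetherian Z] {m : ℕ} (hZ : IsSmoothProperVariety ℂ Z m) (V : Z.Opens)
    (hV : IsAffineOpen V) [Nonempty V] : IsIntegrallyClosed Γ(Z, V) := by
  have := functionField_isFractionRing_of_isAffineOpen Z V hV
  rw [isIntegrallyClosed_iff Z.functionField]
  intro x hx
  obtain ⟨t, ht⟩ := exists_section_of_integral Z hZ V (RingHom.id Γ(Z, V)) x hx
  exact ⟨t, ht⟩

/-- coordinate rings of affine open sets are of finite type -/
theorem finiteType_of_affine (Z : Scheme.{0}) [Algebra ℂ Γ(Z, ⊤)]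
    (hZ : IsProper (structureMorphism ℂ Z)) (V : Z.Opens)
    (hV : IsAffineOpen V) : (resC Z V).FiniteType := by
  have e : V ≤ (structureMorphism ℂ Z) ⁻¹ᵁ ⊤ := le_top
  rw [← structureMorphism_appLE Z V e]
  have h1 : ((structureMorphism ℂ Z).appLE ⊤ V e).hom.FiniteType :=
    (structureMorphism ℂ Z).finiteType_appLE (isAffineOpen_top _) hV e
  exact h1.comp (RingHom.FiniteType.of_surjective _
    (Scheme.ΓSpecIso (CommRingCat.of ℂ)).symm.commRingCatIsoToRingEquiv.surjective)

section main

variable (X Z : Scheme.{0}) [Algebra ℂ Γ(X, ⊤)] [Algebra ℂ Γ(Z, ⊤)]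
  [IsIntegral X] [IsLocallyNoetherian X] [IsIntegral Z] [IsLocallyNoetherian Z] {n m : ℕ}
  (f : X ⟶ Z)

omit [AlgebraicGeometry.IsIntegral X] [IsLocallyNoetherian X] [AlgebraicGeometry.IsIntegral Z]
  [IsLocallyNoetherian Z] in
/-- the morphism is proper -/
theorem isProper_of (hX : IsSmoothProperVariety ℂ X n) (hZ : IsSmoothProperVariety ℂ Z m)
    (hf : f ≫ structureMorphism ℂ Z = structureMorphism ℂ X) : IsProper f := by
  have h1 : IsProper (f ≫ structureMorphism ℂ Z) := by rw [hf]; exact hX.2.1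
  have h2 : IsProper (structureMorphism ℂ Z) := hZ.2.1
  exact IsProper.of_comp f (structureMorphism ℂ Z)

theorem core (hX : IsSmoothProperVariety ℂ X n) (hZ : IsSmoothProperVariety ℂ Z m)
    (hf : f ≫ structureMorphism ℂ Z = structureMorphism ℂ X)
    (hconn : ∀ z : Spec (CommRingCat.of ℂ) ⟶ Z, z ≫ structureMorphism ℂ Z = 𝟙 _ →
      PreconnectedSpace ↥(Limits.pullback f z))
    (φ : Z.functionField →+* X.functionField)
    (hφ : ∀ (V : Z.Opens) [Nonempty V] [Nonempty (f ⁻¹ᵁ V : X.Opens)] (s : Γ(Z, V)),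
      φ (Z.germToFunctionField V s) = X.germToFunctionField (f ⁻¹ᵁ V) (f.app V s))
    (V : Z.Opens) (hV : IsAffineOpen V) [Nonempty V] [Nonempty (f ⁻¹ᵁ V : X.Opens)]
    (a : X.functionField)
    (ha : ((X.germToFunctionField (f ⁻¹ᵁ V)).hom.comp (f.app V).hom).IsIntegralElem a) :
    a ∈ φ.range := by
  classical
  by_contra hna
  have hprop : IsProper f := isProper_of X Z f hX hZ hf
  obtain ⟨t, ht⟩ := exists_section_of_integral X hX (f ⁻¹ᵁ V) (f.app V).hom a ha
  have hfr := functionField_isFractionRing_of_isAffineOpen Z V hV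
  have hic := isIntegrallyClosed_of_affine Z hZ V hV
  -- algebra structures
  let W : X.Opens := f ⁻¹ᵁ V
  let iAK : Algebra Γ(Z, V) X.functionField :=
    ((X.germToFunctionField (f ⁻¹ᵁ V)).hom.comp (f.app V).hom).toAlgebra
  let iMK : Algebra Z.functionField X.functionField := φ.toAlgebra
  have htow : IsScalarTower Γ(Z, V) Z.functionField X.functionField :=
    IsScalarTower.of_algebraMap_eq (fun s => (hφ V s).symm)
  have hinjA : Function.Injective (algebraMap Γ(Z, V) X.functionField) := by
    rw [IsScalarTower.algebraMap_eq Γ(Z, V) Z.functionField X.functionField]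
    exact φ.injective.comp (IsFractionRing.injective Γ(Z, V) Z.functionField)
  have htf : Module.IsTorsionFree Γ(Z, V) X.functionField := by
    rw [Module.isTorsionFree_iff_algebraMap_injective]
    exact hinjA
  have hint : IsIntegral Γ(Z, V) a := ha
  -- the minimal polynomial
  let g : Γ(Z, V)[X] := minpoly Γ(Z, V) a
  have hgm : g.Monic := minpoly.monic hint
  have hgM : minpoly Z.functionField a = g.map (algebraMap Γ(Z, V) Z.functionField) :=
    minpoly.isIntegrallyClosed_eq_field_fractions' Z.functionField hint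
  have hintM : IsIntegral Z.functionField a := hint.tower_top
  have hdeg : 2 ≤ g.natDegree := by
    have h1 : 2 ≤ (minpoly Z.functionField a).natDegree :=
      (minpoly.two_le_natDegree_iff hintM).2 hna
    rwa [hgM, hgm.natDegree_map] at h1
  have hch : CharZero Z.functionField := by
    have h1 : Function.Injective ((algebraMap Γ(Z, V) Z.functionField).comp (resC Z V)) :=
      RingHom.injective _
    exact charZero_of_injective_ringHom h1
  have hsep : (g.map (algebraMap Γ(Z, V) Z.functionField)).Separable := by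
    rw [← hgM]
    exact (minpoly.irreducible hintM).separable
  obtain ⟨d, hd, U, U', hU⟩ := exists_bezout g hsep
  -- the point
  let iCA : Algebra ℂ Γ(Z, V) := (resC Z V).toAlgebra
  have hft : Algebra.FiniteType ℂ Γ(Z, V) := finiteType_of_affine Z hZ.2.1 V hV
  obtain ⟨v, hvd⟩ := exists_point_ne d hd
  have hvs : ∀ c, v (resC Z V c) = c := fun c => v.commutes c
  have hvm : (g.map (v : Γ(Z, V) →+* ℂ)).Monic := hgm.map _
  have hvsep : (g.map (v : Γ(Z, V) →+* ℂ)).Separable := by
    refine ⟨C (v d)⁻¹ * U.map (v : Γ(Z, V) →+* ℂ), C (v d)⁻¹ * U'.map (v : Γ(Z, V) →+* ℂ), ?_⟩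
    have h1 := congrArg (Polynomial.map (v : Γ(Z, V) →+* ℂ)) hU
    simp only [Polynomial.map_add, Polynomial.map_mul, Polynomial.map_C,
      ← Polynomial.derivative_map] at h1
    have h2 : C (v d)⁻¹ * C (v d) = (1 : ℂ[X]) := by
      rw [← C_mul, inv_mul_cancel₀ hvd, C_1]
    have h3 : C ((v : Γ(Z, V) →+* ℂ) d) = C (v d) := rfl
    rw [h3] at h1
    linear_combination (C (v d)⁻¹) * h1 + h2
  have hvdeg : 2 ≤ (g.map (v : Γ(Z, V) →+* ℂ)).natDegree := by
    rwa [hgm.natDegree_map]
  obtain ⟨c₁, c₂, hne, hc₁, hc₂⟩ := exists_two_roots _ hvsep hvdeg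
  -- the map to the spectrum
  have hgt : g.eval₂ (f.app V).hom t = 0 := by
    apply (X.germToFunctionField_injective (f ⁻¹ᵁ V))
    have h1 : (X.germToFunctionField (f ⁻¹ᵁ V)).hom (g.eval₂ (f.app V).hom t) =
        g.eval₂ ((X.germToFunctionField (f ⁻¹ᵁ V)).hom.comp (f.app V).hom)
          ((X.germToFunctionField (f ⁻¹ᵁ V)).hom t) := by
      rw [Polynomial.hom_eval₂]
    have h2 : (X.germToFunctionField (f ⁻¹ᵁ V)).hom t = a := ht
    have h3 : g.eval₂ ((X.germToFunctionField (f ⁻¹ᵁ V)).hom.comp (f.app V).hom) a = 0 :=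
      minpoly.aeval Γ(Z, V) a
    rw [h2, h3] at h1
    rw [map_zero]
    exact h1
  let ψ : CommRingCat.of (AdjoinRoot g) ⟶ Γ(X, f ⁻¹ᵁ V) :=
    CommRingCat.ofHom (AdjoinRoot.lift (f.app V).hom t hgt)
  have hψinj : Function.Injective ψ := by
    have h0 : Function.Injective (AdjoinRoot.lift (f.app V).hom t hgt) := by
      rw [injective_iff_map_eq_zero]
      intro x hx
      obtain ⟨q, rfl⟩ := AdjoinRoot.mk_surjective x
      rw [AdjoinRoot.lift_mk] at hx
      have h1 : Polynomial.aeval a q = 0 := by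
        have h2 := congrArg (X.germToFunctionField (f ⁻¹ᵁ V)).hom hx
        rw [Polynomial.hom_eval₂, map_zero] at h2
        have h3 : (X.germToFunctionField (f ⁻¹ᵁ V)).hom t = a := ht
        rw [h3] at h2
        exact h2
      rw [AdjoinRoot.mk_eq_zero]
      exact minpoly.isIntegrallyClosed_dvd hint h1
    exact h0
  have hdom : IsDomain (CommRingCat.of (AdjoinRoot g)) := by
    have : IsDomain Γ(X, f ⁻¹ᵁ V) := inferInstance
    exact hψinj.isDomain ψ.hom
  let h : (f ⁻¹ᵁ V).toScheme ⟶ Spec (CommRingCat.of (AdjoinRoot g)) :=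
    (f ⁻¹ᵁ V).toSpecΓ ≫ Spec.map ψ
  have hcomp : h ≫ Spec.map (CommRingCat.ofHom (AdjoinRoot.of g)) = f ∣_ V ≫ V.toSpecΓ := by
    rw [← Scheme.Opens.toSpecΓ_naturality, Category.assoc, ← Spec.map_comp]
    congr 2
    ext s
    simp [ψ]
  have hhcl : UniversallyClosed h := by
    have h1 : IsProper (f ∣_ V) := IsZariskiLocalAtTarget.restrict hprop V
    have h2 : IsIso V.toSpecΓ := by
      rw [← hV.isoSpec_hom]; infer_instance
    have h3 : UniversallyClosed (h ≫ Spec.map (CommRingCat.ofHom (AdjoinRoot.of g))) := by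
      rw [hcomp]; infer_instance
    exact UniversallyClosed.of_comp_of_isSeparated h
      (Spec.map (CommRingCat.ofHom (AdjoinRoot.of g)))
  have hsurj' : Function.Surjective h := surj X (f ⁻¹ᵁ V) _ ψ hψinj h.isClosedMap
  -- the primes of the roots
  have hev : ∀ c, (g.map (v : Γ(Z, V) →+* ℂ)).IsRoot c →
      g.eval₂ (v : Γ(Z, V) →+* ℂ) c = 0 := by
    intro c hc
    rw [Polynomial.IsRoot.def, Polynomial.eval_map] at hc
    exact hc
  let z : Spec (CommRingCat.of ℂ) ⟶ Z :=
    Spec.map (CommRingCat.ofHom (v : Γ(Z, V) →+* ℂ)) ≫ hV.fromSpec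
  have hz : z ≫ structureMorphism ℂ Z = 𝟙 _ := point_structure Z V hV _ hvs
  have hpre := hconn z hz
  -- the formula for `f` on the preimage
  have hfx : ∀ x : (f ⁻¹ᵁ V : X.Opens),
      f x.1 = hV.fromSpec (Spec.map (CommRingCat.ofHom (AdjoinRoot.of g)) (h x)) := by
    intro x
    have h1 : (h ≫ Spec.map (CommRingCat.ofHom (AdjoinRoot.of g))) ≫ hV.fromSpec =
        (f ⁻¹ᵁ V).ι ≫ f := by
      rw [hcomp, Category.assoc, IsAffineOpen.toSpecΓ_fromSpec, morphismRestrict_ι]
    have h2 := congrArg (fun k : (f ⁻¹ᵁ V).toScheme ⟶ Z => k x) h1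
    exact h2.symm
  have hfsinj : Function.Injective hV.fromSpec := hV.fromSpec.isOpenEmbedding.injective
  -- points over the roots
  have hpts : ∀ c, (g.map (v : Γ(Z, V) →+* ℂ)).IsRoot c →
      ∃ y : ↥(Limits.pullback f z), ∃ hy : Limits.pullback.fst f z y ∈ f ⁻¹ᵁ V,
        AdjoinRoot.root g - AdjoinRoot.of g (resC Z V c) ∈
          (h ⟨Limits.pullback.fst f z y, hy⟩).asIdeal := by
    intro c hc
    let ev : AdjoinRoot g →+* ℂ := AdjoinRoot.lift (v : Γ(Z, V) →+* ℂ) c (hev c hc)
    let P : PrimeSpectrum (AdjoinRoot g) := ⟨RingHom.ker ev, RingHom.ker_isPrime ev⟩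
    obtain ⟨x, hx⟩ := hsurj' P
    have hpt : f x.1 = z (IsLocalRing.closedPoint ℂ) := by
      rw [hfx x, hx]
      change hV.fromSpec _ = hV.fromSpec _
      congr 1
      apply PrimeSpectrum.ext
      ext s
      change ev (AdjoinRoot.of g s) = 0 ↔ v s ∈ IsLocalRing.maximalIdeal ℂ
      rw [IsLocalRing.mem_maximalIdeal, mem_nonunits_iff, isUnit_iff_ne_zero, not_not]
      simp [ev]
    obtain ⟨y, hy, -⟩ := Scheme.Pullback.exists_preimage_pullback (f := f) (g := z) x.1
      (IsLocalRing.closedPoint ℂ) hpt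
    refine ⟨y, by rw [hy]; exact x.2, ?_⟩
    have hxy : (⟨Limits.pullback.fst f z y, by rw [hy]; exact x.2⟩ :
        (f ⁻¹ᵁ V : X.Opens)) = x := Subtype.ext hy
    rw [hxy, hx]
    change ev _ = 0
    simp [ev, hvs]
  have hmem : ∀ y : ↥(Limits.pullback f z), Limits.pullback.fst f z y ∈ f ⁻¹ᵁ V := by
    intro y
    have h1 : f (Limits.pullback.fst f z y) = z (Limits.pullback.snd f z y) := by
      rw [← Scheme.Hom.comp_apply, Limits.pullback.condition, Scheme.Hom.comp_apply]
    change f (Limits.pullback.fst f z y) ∈ V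
    rw [h1]
    change hV.fromSpec _ ∈ (V : Set Z)
    rw [← hV.range_fromSpec]
    exact ⟨_, rfl⟩
  let Θ : ↥(Limits.pullback f z) → PrimeSpectrum (AdjoinRoot g) := fun y =>
    h ⟨Limits.pullback.fst f z y, hmem y⟩
  have hΘ : Continuous Θ := by
    refine h.continuous.comp ?_
    exact Continuous.subtype_mk (Limits.pullback.fst f z).continuous _
  obtain ⟨y₁, hy₁, hy₁'⟩ := hpts c₁ hc₁
  obtain ⟨y₂, hy₂, hy₂'⟩ := hpts c₂ hc₂
  refine fib_conn (resC Z V) (v : Γ(Z, V) →+* ℂ) hvs g hgm (IsAlgClosed.splits _) hne Θ hΘ ?_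
    y₁ y₂ hy₁' hy₂'
  intro y s hs
  have h1 : Spec.map (CommRingCat.ofHom (AdjoinRoot.of g)) (Θ y) =
      Spec.map (CommRingCat.ofHom (v : Γ(Z, V) →+* ℂ)) (Limits.pullback.snd f z y) := by
    apply hfsinj
    rw [← hfx ⟨Limits.pullback.fst f z y, hmem y⟩]
    change f (Limits.pullback.fst f z y) = z (Limits.pullback.snd f z y)
    rw [← Scheme.Hom.comp_apply, Limits.pullback.condition, Scheme.Hom.comp_apply]
  have h2 : AdjoinRoot.of g s ∈ (Θ y).asIdeal ↔ v s ∈ (Limits.pullback.snd f z y).asIdeal := by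
    have := congrArg (fun q : PrimeSpectrum Γ(Z, V) => s ∈ q.asIdeal) h1
    exact this.to_iff
  rw [h2]
  have h3 : v s = 0 := hs
  rw [h3]
  exact Ideal.zero_mem _

/-- **FK-CONN.** Let `f : X ⟶ Z` be a surjective morphism of smooth proper complex varieties all of
whose fibres over complex points are connected. Then the function field of `Z` is algebraically
closed in the function field of `X`. The homomorphism `φ` of function fields is any one compatible
with the sections over the open sets. -/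
theorem algClosed_of_connected (hX : IsSmoothProperVariety ℂ X n)
    (hZ : IsSmoothProperVariety ℂ Z m)
    (hf : f ≫ structureMorphism ℂ Z = structureMorphism ℂ X)
    (hsurj : Function.Surjective f)
    (hconn : ∀ z : Spec (CommRingCat.of ℂ) ⟶ Z, z ≫ structureMorphism ℂ Z = 𝟙 _ →
      PreconnectedSpace ↥(Limits.pullback f z))
    (φ : Z.functionField →+* X.functionField)
    (hφ : ∀ (V : Z.Opens) [Nonempty V] [Nonempty (f ⁻¹ᵁ V : X.Opens)] (s : Γ(Z, V)),
      φ (Z.germToFunctionField V s) = X.germToFunctionField (f ⁻¹ᵁ V) (f.app V s))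
    (a : X.functionField) (p : Z.functionField[X]) (hp : p ≠ 0) (hpa : p.eval₂ φ a = 0) :
    a ∈ φ.range := by
  obtain ⟨V, hV, hgV, -⟩ := exists_isAffineOpen_mem_and_subset (X := Z) (x := genericPoint Z)
    (U := ⊤) trivial
  have hVne : Nonempty V := ⟨⟨_, hgV⟩⟩
  obtain ⟨x, hx⟩ := hsurj (genericPoint Z)
  have hWne : Nonempty (f ⁻¹ᵁ V : X.Opens) := ⟨⟨x, by
    change f x ∈ V
    rw [hx]; exact hgV⟩⟩
  have hfr := functionField_isFractionRing_of_isAffineOpen Z V hV
  let iAK : Algebra Γ(Z, V) X.functionField :=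
    ((X.germToFunctionField (f ⁻¹ᵁ V)).hom.comp (f.app V).hom).toAlgebra
  let iMK : Algebra Z.functionField X.functionField := φ.toAlgebra
  have htow : IsScalarTower Γ(Z, V) Z.functionField X.functionField :=
    IsScalarTower.of_algebraMap_eq (fun s => (hφ V s).symm)
  have halg : IsAlgebraic Z.functionField a := ⟨p, hp, hpa⟩
  have halgA : IsAlgebraic Γ(Z, V) a :=
    (IsFractionRing.isAlgebraic_iff Γ(Z, V) Z.functionField X.functionField).2 halg
  obtain ⟨b, hb, hbint⟩ := halgA.exists_integral_multiple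
  obtain ⟨y, hy⟩ := core X Z f hX hZ hf hconn φ hφ V hV (b • a) hbint
  have hb0 : algebraMap Γ(Z, V) Z.functionField b ≠ 0 := by
    intro h0
    exact hb (IsFractionRing.injective Γ(Z, V) Z.functionField (by rw [h0, map_zero]))
  refine ⟨(algebraMap Γ(Z, V) Z.functionField b)⁻¹ * y, ?_⟩
  rw [map_mul, map_inv₀, hy, Algebra.smul_def,
    IsScalarTower.algebraMap_apply Γ(Z, V) Z.functionField X.functionField]
  have h1 : φ (algebraMap Γ(Z, V) Z.functionField b) ≠ 0 := by
    exact (_root_.map_ne_zero φ).2 hb0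
  change (φ (algebraMap Γ(Z, V) Z.functionField b))⁻¹ *
    (φ (algebraMap Γ(Z, V) Z.functionField b) * a) = a
  field_simp

end main

end Crest.Agent.R276.ConnC_617
end

-- ▼ part R276/FKFin_849

/-!
# Row 276 (S0419): final assembly of the algebraic half (helper849)

* `CoreDE` : THE GEOMETRIC CORE in direct form: for a finitely generated `K/ℂ` and `L → K` with `L`
  algebraically closed in `K`, `κ(K/L) ≥ d` and `κ(L/ℂ) ≥ e` (regularity at all valuation rings)
  imply `κ(K/ℂ) ≥ d + e` (finite test version).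
* `VGF` : very general fibre ⇒ generic fibre (output of FK3 and FK4).
* `main` : `CoreDE → VGF →` the statement of S0419.
* `mainBeta` : the same from 231's `CoreBeta` (honest fields) for given `f : X ⟶ Z`.
* `kapGeS_equiv`, `honest_equiv` : transport along `K ≃ₐ[k] K'`; `honest_functionField`.
-/

set_option autoImplicit false
set_option linter.style.haveILetI false
set_option linter.unusedSectionVars false

open AlgebraicGeometry Order CategoryTheory Crest.AlgGeometry.Divisors TopologicalSpace
open Crest.Agent.R276.FKDefs_779 Crest.Agent.R276.FKB4_594 Crest.Agent.R276.ConnC_617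
open Crest.Agent.R271.Bs960 Crest.Agent.R271.Kx735 Crest.Agent.R276.BetaDefs_231
open Crest.Agent.R276.FKD1_508 (bch pluri_up pluriS_up pluri_down pluriS_down kapGeS_up)

noncomputable section

namespace Crest.Agent.R276.FKFin_849



section transport

variable {k K K' : Type*} [Field k] [Field K] [Field K'] [Algebra k K] [Algebra k K']

/-- an isomorphism is a (trivial) base change -/
theorem isPushout_of_equiv (e : K ≃ₐ[k] K') :
    letI : Algebra K K' := e.toRingEquiv.toRingHom.toAlgebra
    ∃ (_ : IsScalarTower k K K'), Algebra.IsPushout k K k K' := by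
  letI : Algebra K K' := e.toRingEquiv.toRingHom.toAlgebra
  haveI h1 : IsScalarTower k K K' := IsScalarTower.of_algebraMap_eq fun c => (e.commutes c).symm
  refine ⟨h1, ?_⟩
  have hbij : Function.Bijective (algebraMap K K') := e.bijective
  let e2 : TensorProduct k K k ≃ₗ[K] K' :=
    (TensorProduct.AlgebraTensorModule.rid k K K).trans
      (LinearEquiv.ofBijective (Algebra.linearMap K K') hbij)
  refine ⟨IsBaseChange.of_equiv e2 fun x => ?_⟩
  change algebraMap K K' (x • (1 : K)) = algebraMap k K' x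
  rw [Algebra.smul_def, mul_one, ← IsScalarTower.algebraMap_apply]

/-- transport of `κ ≥ d` along an isomorphism -/
theorem kapGeS_equiv (e : K ≃ₐ[k] K') {d : ℕ} (h : KapGeS k K d) : KapGeS k K' d := by
  letI : Algebra K K' := e.toRingEquiv.toRingHom.toAlgebra
  obtain ⟨_, h2⟩ := isPushout_of_equiv e
  exact kapGeS_up (k := k) (k' := k) (K := K) (K' := K') h

/-- transport of `Honest` along an isomorphism -/
theorem honest_equiv (e : K ≃ₐ[k] K') (h : Honest k K) : Honest k K' := by
  intro n b m g hg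
  letI : Algebra K' K := e.symm.toRingEquiv.toRingHom.toAlgebra
  obtain ⟨_, h2⟩ := isPushout_of_equiv e.symm
  have h3 := pluri_up (k := k) (k' := k) (K := K') (K' := K) b hg
  exact pluriS_down (k := k) (k' := k) (K := K') (K' := K) b (h n _ m _ h3)

end transport

/-- the function field of a smooth proper variety is honest -/
theorem honest_functionField (X : Scheme.{0}) [Algebra ℂ Γ(X, ⊤)] [IsIntegral X]
    [IsLocallyNoetherian X] {n : ℕ} (hX : IsSmoothProperVariety ℂ X n) {D : WeilDiv X}
    (hD : IsCanonicalDivisor ℂ X n D) :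
    letI : Algebra ℂ X.functionField := fnFieldAlgebra ℂ X
    Honest ℂ X.functionField := by
  letI : Algebra ℂ X.functionField := fnFieldAlgebra ℂ X
  intro n' b m g hg
  obtain rfl := card_eq hX b
  by_cases hg0 : g = 0
  · subst hg0
    intro R hR
    exact ⟨fun _ => 0, fun _ => R.zero_mem, by simp⟩
  obtain ⟨c, hc, hcK⟩ := canonical_ord hD b
  have h1 := isSection_of_regAt hX b hc hcK m hg0
    (fun z hd => hg _ (isDiv_stalkVal hX z.1 z.2 hd))
  have h2 := pluriS_of_isSection hX b hc hcK m h1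
  rwa [div_mul_cancel₀ _ (pow_ne_zero m hc)] at h2

/-- the function field of a smooth proper variety is finitely generated -/
theorem fgf_functionField (X : Scheme.{0}) [Algebra ℂ Γ(X, ⊤)] [IsIntegral X]
    [IsLocallyNoetherian X] {n : ℕ} (hX : IsSmoothProperVariety ℂ X n) :
    letI : Algebra ℂ X.functionField := fnFieldAlgebra ℂ X
    FGF ℂ X.functionField := by
  letI : Algebra ℂ X.functionField := fnFieldAlgebra ℂ X
  obtain ⟨V, hV, hgV, -⟩ := exists_isAffineOpen_mem_and_subset (X := X) (x := genericPoint X)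
    (U := ⊤) trivial
  have hVne : Nonempty V := ⟨⟨_, hgV⟩⟩
  have hfr := functionField_isFractionRing_of_isAffineOpen X V hV
  letI := secAlg X V
  haveI ht := tower_sec_fn X V
  haveI hft : Algebra.FiniteType ℂ Γ(X, V) := by
    have h1 := finiteType_of_affine X hX.2.1 V hV
    exact h1
  haveI h2 : Algebra.EssFiniteType Γ(X, V) X.functionField :=
    Algebra.EssFiniteType.of_isLocalization X.functionField (nonZeroDivisors Γ(X, V))
  exact IntermediateField.fg_top_iff.2 (Algebra.EssFiniteType.comp ℂ Γ(X, V) X.functionField)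



end Crest.Agent.R276.FKFin_849
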