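import Crest.Agent.R276.FKB0_143
import Crest.Agent.R276.FKFin_849
import Crest.Agent.R276.Mod1_987

/-!
# Row 276: degenerate cases of `CoreBeta` (helper63)

* `kapGeF_of_kapGeS` : `KapGeS ℂ K d → KapGeF ℂ K d`.
* `exists_tb` : transcendence bases indexed by `Fin n`.
* `CoreBetaPos`, `coreBeta_of_pos` : it is enough to prove `CoreBeta` when `K/L` and `L/ℂ` have
  positive transcendence degree.
-/

set_option autoImplicit false
set_option linter.style.haveILetI false
set_option linter.unusedSectionVars false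

open Crest.Agent.R276.FKDefs_779 Crest.Agent.R276.FKB0_143 Crest.Agent.R276.BetaDefs_231
open Crest.Agent.R276.FKFin_849 Crest.Agent.R276.Mod1_987

noncomputable section

namespace Crest.Agent.R276.Triv_63

section tb

variable {k K : Type} [Field k] [CharZero k] [Field K] [Algebra k K] {n : ℕ}

/-- a transcendence basis with `n` elements -/
theorem exists_tb (b : Module.Basis (Fin n) K (Ω[K⁄k])) :
    ∃ x : Fin n → K, IsTranscendenceBasis k x := by
  obtain ⟨s, hs⟩ := exists_isTranscendenceBasis k K
  let e : Fin n ≃ s := b.indexEquiv (kbasis hs)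
  exact ⟨_, hs.comp_equiv e⟩

theorem isAlgebraic_of_basis_zero (b : Module.Basis (Fin 0) K (Ω[K⁄k])) :
    Algebra.IsAlgebraic k K := by
  obtain ⟨x, hx⟩ := exists_tb b
  exact hx.isEmpty_iff_isAlgebraic.1 inferInstance

theorem eq_zero_of_isAlgebraic [Algebra.IsAlgebraic k K] {d : ℕ} {f : Fin d → K}
    (h : AlgebraicIndependent k f) : d = 0 := by
  have h1 : IsEmpty (Fin d) := h.isEmpty_of_isAlgebraic
  rcases d with _ | d
  · rfl
  · exact (h1.false 0).elim

end tb

section F

variable {K : Type} [Field K] [Algebra ℂ K]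

theorem kapGeF_of_kapGeS (hK : FGF ℂ K) {d : ℕ} (h : KapGeS ℂ K d) : KapGeF ℂ K d := by
  classical
  haveI : Algebra.EssFiniteType ℂ K := IntermediateField.fg_top_iff.1 hK
  obtain ⟨n, b0, m0, hm0, f0, hf0, hi0⟩ := h
  obtain ⟨x, hx⟩ := exists_tb b0
  have hS : KapGeS ℂ K d := ⟨n, b0, m0, hm0, f0, hf0, hi0⟩
  obtain ⟨m, hm, f, hf, hi⟩ := (kapGeS_iff (kbasis hx) d).1 hS
  obtain ⟨g, hg, hM⟩ := exists_mdl x hx (Finset.univ.image f)
  obtain ⟨M, -, hz, hfM⟩ := hM g hg dvd_rfl
  have hz' : (fun i => (M.z i : K)) = x := funext hz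
  refine ⟨n, M.B, x, kbasis hx, ⟨?_, ?_, ?_, ?_⟩, fun i => kbasis_apply hx i, ?_⟩
  · exact (Subalgebra.fg_iff_finiteType _).2 M.ft
  · intro a
    obtain ⟨p, q, hq, rfl⟩ := M.frac a
    exact ⟨p, p.2, q, q.2, fun h => hq (Subtype.ext h), div_eq_mul_inv _ _⟩
  · intro i
    rw [← hz i]
    exact (M.z i).2
  · have hmem : ∀ i, x i ∈ M.B := fun i => by rw [← hz i]; exact (M.z i).2
    have e : (fun i => (⟨x i, hmem i⟩ : M.B)) = M.z := funext fun i => Subtype.ext (hz i).symm
    have h1 := M.het
    rw [← e] at h1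
    exact h1
  · intro S hS1 hS2
    exact ⟨m, hm, f, fun i => ⟨(hf i).1, (hfM (f i) (by simp)).1,
      fun R hR => (hf i).2 R (hS2 R hR).alg⟩, hi⟩

end F

section bot

variable {k K : Type*} [Field k] [Field K] [Algebra k K]

/-- change of the base field along an isomorphism -/
theorem kapGeS_bot {d : ℕ} (h : KapGeS (⊥ : IntermediateField k K) K d) : KapGeS k K d := by
  let e : (⊥ : IntermediateField k K) ≃ₐ[k] k := IntermediateField.botEquiv k K
  letI : Algebra (⊥ : IntermediateField k K) k := e.toRingEquiv.toRingHom.toAlgebra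
  have hmap : ∀ c : (⊥ : IntermediateField k K), algebraMap _ k c = e c := fun c => rfl
  have hmap2 : ∀ c : (⊥ : IntermediateField k K), algebraMap k K (e c) = c := by
    intro c
    have h1 : e.symm (e c) = c := e.symm_apply_apply c
    have h2 : ((e.symm (e c) : (⊥ : IntermediateField k K)) : K) = algebraMap k K (e c) :=
      IntermediateField.botEquiv_symm (F := k) (E := K) (e c) ▸ rfl
    rw [← h2, h1]
  haveI : IsScalarTower (⊥ : IntermediateField k K) k K :=
    IsScalarTower.of_algebraMap_eq fun c => by rw [hmap, hmap2]; rfl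
  haveI : Algebra.IsAlgebraic (⊥ : IntermediateField k K) k := by
    refine ⟨fun c => ?_⟩
    have h3 : algebraMap (⊥ : IntermediateField k K) k (e.symm c) = c := by
      rw [hmap, e.apply_symm_apply]
    rw [← h3]
    exact isAlgebraic_algebraMap _
  haveI : Algebra.IsPushout (⊥ : IntermediateField k K) K k K := by
    let e1 : k ≃ₗ[(⊥ : IntermediateField k K)] (⊥ : IntermediateField k K) :=
      { toFun := e.symm
        invFun := e
        left_inv := e.apply_symm_apply
        right_inv := e.symm_apply_apply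
        map_add' := map_add e.symm
        map_smul' := fun a b => by
          rw [RingHom.id_apply, Algebra.smul_def, hmap, map_mul, e.symm_apply_apply]; rfl }
    let e2 : TensorProduct (⊥ : IntermediateField k K) K k ≃ₗ[K] K :=
      (TensorProduct.AlgebraTensorModule.congr (LinearEquiv.refl K K) e1).trans
        (TensorProduct.AlgebraTensorModule.rid (⊥ : IntermediateField k K) K K)
    refine ⟨IsBaseChange.of_equiv e2 fun x => ?_⟩
    change (e.symm x : K) • (1 : K) = algebraMap k K x
    have h4 := hmap2 (e.symm x)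
    rw [e.apply_symm_apply] at h4
    rw [h4, smul_eq_mul, mul_one]
  exact Crest.Agent.R276.FKD1_508.kapGeS_up (k := (⊥ : IntermediateField k K)) (k' := k)
    (K := K) (K' := K) h

end bot



end Crest.Agent.R276.Triv_63
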