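import Crest.Agent.R276.SkelDefs_220
import Crest.Agent.R276.EndRest_870
import Crest.Agent.R276.FriD_348
import Crest.Agent.R276.Mod6_987
import Crest.Agent.R271.Null_956
import Mathlib
import Crest.Agent.R276.SkelGeo_220
import Crest.Agent.R276.End0A_508
import Crest.Agent.R276.WPack_505
import Crest.Agent.R276.CJ_505

-- ▼ part R276/CInd_534
section

/-!
# Row 276, leaves (NZ) and (IND) of `SkelDefs_220` (helper534)

* `cNz`  : a nonzero function of `B_L` does not vanish identically on almost all fibres `G_y` of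
  `M_L → M_T`;
* `cInd` : if `w_1/w_0, …, w_e/w_0` are algebraically independent, then for almost every `c` at
  least `e - ρ` of them stay independent on every fibre `G_y`, `y` over `c`.
-/

set_option autoImplicit false

open Set Filter Topology MeasureTheory
open scoped ENNReal

noncomputable section

namespace Crest.Agent.R276.CInd_534

open Crest.Agent.R271 Crest.Agent.R271.Defs710 Crest.Agent.R271.Rd692 Crest.Agent.R271.Ho51
open Crest.Agent.R276.Mod1_987 Crest.Agent.R276.SkelDefs_220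

/-! ### polynomials -/

section poly

variable {ρ a : ℕ}

lemma eval_left (P : MvPolynomial (Fin (ρ + a)) ℂ) (x : Fin a → ℂ) (c : Fin ρ → ℂ) :
    MvPolynomial.eval c (MvPolynomial.aeval (Fin.append (fun i => MvPolynomial.X i)
      (fun j => MvPolynomial.C (x j)) : Fin (ρ + a) → MvPolynomial (Fin ρ) ℂ) P) =
      MvPolynomial.eval (Fin.append c x) P := by
  have h1 : ((MvPolynomial.aeval c : MvPolynomial (Fin ρ) ℂ →ₐ[ℂ] ℂ).comp
      (MvPolynomial.aeval (Fin.append (fun i => MvPolynomial.X i)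
      (fun j => MvPolynomial.C (x j)) : Fin (ρ + a) → MvPolynomial (Fin ρ) ℂ))) =
      MvPolynomial.aeval (Fin.append c x) := by
    apply MvPolynomial.algHom_ext
    intro i
    refine Fin.addCases (fun i => ?_) (fun j => ?_) i <;> simp
  have h2 := congrArg (fun f : MvPolynomial (Fin (ρ + a)) ℂ →ₐ[ℂ] ℂ => f P) h1
  simpa [MvPolynomial.coe_aeval_eq_eval] using h2

lemma eval_right (P : MvPolynomial (Fin (ρ + a)) ℂ) (c : Fin ρ → ℂ) (x : Fin a → ℂ) :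
    MvPolynomial.eval x (MvPolynomial.aeval (Fin.append (fun i => MvPolynomial.C (c i))
      (fun j => MvPolynomial.X j) : Fin (ρ + a) → MvPolynomial (Fin a) ℂ) P) =
      MvPolynomial.eval (Fin.append c x) P := by
  have h1 : ((MvPolynomial.aeval x : MvPolynomial (Fin a) ℂ →ₐ[ℂ] ℂ).comp
      (MvPolynomial.aeval (Fin.append (fun i => MvPolynomial.C (c i))
      (fun j => MvPolynomial.X j) : Fin (ρ + a) → MvPolynomial (Fin a) ℂ))) =
      MvPolynomial.aeval (Fin.append c x) := by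
    apply MvPolynomial.algHom_ext
    intro i
    refine Fin.addCases (fun i => ?_) (fun j => ?_) i <;> simp
  have h2 := congrArg (fun f : MvPolynomial (Fin (ρ + a)) ℂ →ₐ[ℂ] ℂ => f P) h1
  simpa [MvPolynomial.coe_aeval_eq_eval] using h2

/-- almost all partial evaluations of a nonzero polynomial are nonzero -/
theorem ae_exists {P : MvPolynomial (Fin (ρ + a)) ℂ} (hP : P ≠ 0) :
    ∀ᵐ c : Fin ρ → ℂ, ∃ x : Fin a → ℂ, MvPolynomial.eval (Fin.append c x) P ≠ 0 := by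
  obtain ⟨ζ, hζ⟩ : ∃ ζ : Fin (ρ + a) → ℂ, MvPolynomial.eval ζ P ≠ 0 := by
    by_contra hcon
    push Not at hcon
    exact hP (MvPolynomial.funext fun x => by rw [hcon, map_zero])
  set c0 : Fin ρ → ℂ := fun i => ζ (Fin.castAdd a i) with hc0
  set x0 : Fin a → ℂ := fun j => ζ (Fin.natAdd ρ j) with hx0
  have e0 : Fin.append c0 x0 = ζ := by
    funext i
    refine Fin.addCases (fun i => ?_) (fun j => ?_) i <;> simp [hc0, hx0]
  set P' := MvPolynomial.aeval (Fin.append (fun i => MvPolynomial.X i)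
      (fun j => MvPolynomial.C (x0 j)) : Fin (ρ + a) → MvPolynomial (Fin ρ) ℂ) P with hP'
  have h1 : P' ≠ 0 := by
    intro h0
    apply hζ
    rw [← e0, ← eval_left P x0 c0, ← hP', h0, map_zero]
  filter_upwards [Null956.ae_eval_ne h1] with c hc
  exact ⟨x0, by rw [← eval_left P x0 c]; exact hc⟩

end poly

section main

variable {T L : Type} [Field T] [Field L] [Algebra ℂ T] [Algebra ℂ L] [Algebra T L]
  [IsScalarTower ℂ T L] {ρ a : ℕ}

/-- points of the fibre near a point of the fibre -/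
theorem exists_in_fibre (R : RMdl T L ρ a) (z0 : R.MK.Pts) {U : Set R.MK.Pts} (hU : U ∈ 𝓝 z0) :
    ∃ V ∈ 𝓝 (R.x z0), ∀ x ∈ V, ∃ z ∈ U, R.q z = R.q z0 ∧ R.x z = x := by
  obtain ⟨e, he, he'⟩ := R.isLocalHomeomorph_φ z0
  have h1 : R.φ z0 = (R.q z0, R.x z0) := rfl
  have h2 : (R.q z0, R.x z0) ∈ e.target := by
    rw [← h1, he']
    exact e.map_source he
  have h3 : e.symm (R.q z0, R.x z0) = z0 := by
    rw [← h1, he']
    exact e.left_inv he
  have h4 : ContinuousAt e.symm (R.q z0, R.x z0) := e.continuousAt_symm h2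
  have h5 : ContinuousAt (fun x => e.symm (R.q z0, x)) (R.x z0) :=
    ContinuousAt.comp (g := e.symm) (f := fun x => (R.q z0, x)) h4
      (by fun_prop)
  have h6 : ∀ᶠ x in 𝓝 (R.x z0), (R.q z0, x) ∈ e.target := by
    have : ContinuousAt (fun x : Cn a => (R.q z0, x)) (R.x z0) := by fun_prop
    exact this.eventually_mem (e.open_target.mem_nhds h2)
  have h7 : ∀ᶠ x in 𝓝 (R.x z0), e.symm (R.q z0, x) ∈ U := by
    apply h5.eventually_mem
    show U ∈ 𝓝 (e.symm (R.q z0, R.x z0))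
    rw [h3]; exact hU
  refine ⟨_, h6.and h7, fun x hx => ⟨e.symm (R.q z0, x), hx.2, ?_⟩⟩
  have h8 : R.φ (e.symm (R.q z0, x)) = (R.q z0, x) := by
    rw [he']; exact e.right_inv hx.1
  exact ⟨congrArg Prod.fst h8, congrArg Prod.snd h8⟩

/-- near a point, the slices are contained in the fibres -/
theorem exists_slice (R : RMdl T L ρ a) (z0 : R.MK.Pts) : ∃ U ∈ 𝓝 z0, ∀ z ∈ U,
    (∀ i : Fin ρ, R.MK.pz z (Fin.castAdd a i) = R.MK.pz z0 (Fin.castAdd a i)) →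
      R.q z = R.q z0 := by
  obtain ⟨e, he, he'⟩ := isLocalHomeomorph_pr R.ML.hch (R.q z0)
  refine ⟨R.q ⁻¹' e.source, R.continuous_q.continuousAt.preimage_mem_nhds
    (e.open_source.mem_nhds he), fun z hz h => ?_⟩
  apply e.injOn hz he
  rw [← he']
  funext i
  have h1 := R.pz_q z i
  have h2 := R.pz_q z0 i
  exact h1.trans ((h i).trans h2.symm)

/-- the relative model of `SkelDefs_220` is a relative model of 987 -/
def toR {MT : Mdl T ρ} {ML : Mdl L (ρ + a)} (H₁ : Rel MT ML) : RMdl T L ρ a where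
  ML := MT
  MK := ML
  z_eq := H₁.coord
  incl_mem := H₁.mem

theorem toR_q {MT : Mdl T ρ} {ML : Mdl L (ρ + a)} (H₁ : Rel MT ML) (z : ML.Pts) :
    (toR H₁).q z = H₁.f z := AlgHom.ext fun _ => rfl

theorem exists_fib {MT : Mdl T ρ} {ML : Mdl L (ρ + a)} (H₁ : Rel MT ML) (y : MT.Pts) :
    ∃ z : ML.Pts, H₁.f z = y := by
  obtain ⟨z, hz⟩ := H₁.surj y
  exact ⟨z, AlgHom.ext fun b => hz b _ rfl⟩

/-- **(NZ)** -/
theorem cNz {MT : Mdl T ρ} {ML : Mdl L (ρ + a)} (H₁ : Rel MT ML) : CNz H₁ := by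
  intro σ hσ
  obtain ⟨P, hP0, hP⟩ := FriD_348.exists_ne_of_ne ML σ hσ
  filter_upwards [ae_exists hP0] with c hc y hy
  obtain ⟨x1, hx1⟩ := hc
  obtain ⟨z0, hz0⟩ := exists_fib H₁ y
  obtain ⟨V, hV, hVz⟩ := exists_in_fibre (toR H₁) z0 (univ_mem (f := 𝓝 z0))
  have hne : MvPolynomial.aeval (Fin.append (fun i => MvPolynomial.C (c i))
      (fun j => MvPolynomial.X j) : Fin (ρ + a) → MvPolynomial (Fin a) ℂ) P ≠ 0 := by
    intro h0
    apply hx1
    rw [← eval_right P c x1, h0, map_zero]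
  obtain ⟨x, hxV, hx⟩ := EndRest_870.exists_eval_ne hV hne
  obtain ⟨z, -, hzq, hzx⟩ := hVz x hxV
  refine ⟨z, by rw [← hz0, ← toR_q, ← toR_q]; exact hzq, hP z ?_⟩
  have h1 : ML.pz z = Fin.append c x := by
    have h2 := (toR H₁).append_eq z
    have h3 : (toR H₁).ML.pz ((toR H₁).q z) = c := by
      rw [hzq, toR_q, hz0]
      exact hy
    rw [h3, hzx] at h2
    exact h2.symm
  rw [h1, ← eval_right P c x]
  exact hx

/-! ### independence -/

lemma eval_cons {r : ℕ} (Q : MvPolynomial (Fin (r + 1)) ℂ) (v : Fin r → ℂ) :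
    MvPolynomial.eval v (MvPolynomial.aeval (Fin.cons 1 (fun j => MvPolynomial.X j) :
      Fin (r + 1) → MvPolynomial (Fin r) ℂ) Q) = MvPolynomial.eval (Fin.cons 1 v) Q := by
  have h1 : ((MvPolynomial.aeval v : MvPolynomial (Fin r) ℂ →ₐ[ℂ] ℂ).comp
      (MvPolynomial.aeval (Fin.cons 1 (fun j => MvPolynomial.X j) :
        Fin (r + 1) → MvPolynomial (Fin r) ℂ))) =
      MvPolynomial.aeval (Fin.cons 1 v : Fin (r + 1) → ℂ) := by
    apply MvPolynomial.algHom_ext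
    intro i
    refine Fin.cases ?_ (fun j => ?_) i <;> simp
  have h2 := congrArg (fun f : MvPolynomial (Fin (r + 1)) ℂ →ₐ[ℂ] ℂ => f Q) h1
  simpa [MvPolynomial.coe_aeval_eq_eval] using h2

/-- dehomogenisation is injective on homogeneous polynomials -/
theorem dehom_ne {r Δ : ℕ} {Q : MvPolynomial (Fin (r + 1)) ℂ} (hQ : Q.IsHomogeneous Δ)
    (h0 : Q ≠ 0) : MvPolynomial.aeval (Fin.cons 1 (fun j => MvPolynomial.X j) :
      Fin (r + 1) → MvPolynomial (Fin r) ℂ) Q ≠ 0 := by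
  intro h1
  apply h0
  have h2 : MvPolynomial.X 0 * Q = 0 := by
    apply MvPolynomial.funext
    intro u
    rw [map_mul, map_zero, MvPolynomial.eval_X]
    by_cases hu : u 0 = 0
    · rw [hu, zero_mul]
    · have h3 := eval_cons Q (fun j => u j.succ / u 0)
      rw [h1, map_zero] at h3
      have h4 : u = u 0 • (Fin.cons 1 (fun j => u j.succ / u 0) : Fin (r + 1) → ℂ) := by
        funext i
        refine Fin.cases ?_ (fun j => ?_) i
        · simp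
        · simp [mul_div_cancel₀ _ hu]
      have h5 : MvPolynomial.eval u Q = 0 := by
        rw [h4, Null956.eval_smul_homog hQ, ← h3, mul_zero]
      rw [h5, mul_zero]
  exact (mul_eq_zero.1 h2).resolve_left (MvPolynomial.X_ne_zero 0)

/-- **(IND)** -/
theorem cInd {MT : Mdl T ρ} {ML : Mdl L (ρ + a)} (H₁ : Rel MT ML) {e : ℕ}
    (w : Fin (e + 1) → ML.B) (hw0 : w 0 ≠ 0)
    (hind : AlgebraicIndependent ℂ fun j : Fin e => (w j.succ : L) / (w 0 : L)) :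
    CInd H₁ w := by
  classical
  obtain ⟨r, α, -, hcard, h, hh0, hh⟩ := EndRest_870.rest ML (w 0) (fun j : Fin e => w j.succ) hw0
    hind (Finset.univ.image (Fin.castAdd a : Fin ρ → Fin (ρ + a)))
  refine ⟨r, Fin.cons 0 (fun j => (α j).succ), ?_, ?_⟩
  · have h1 : (Finset.univ.image (Fin.castAdd a : Fin ρ → Fin (ρ + a))).card = ρ := by
      rw [Finset.card_image_of_injective _ (Fin.castAdd_injective ρ a), Finset.card_univ,
        Fintype.card_fin]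
    rw [h1, Fintype.card_fin] at hcard
    exact hcard
  filter_upwards [cNz H₁ h hh0] with c hc y hy Δ Q hQ hvan
  by_contra hQ0
  obtain ⟨z, hz, hzh⟩ := hc y hy
  obtain ⟨U, hU, hUq⟩ := exists_slice (toR H₁) z
  obtain ⟨z', hz'U, hz's, hz'0, hz'Q⟩ := hh z hzh _ (dehom_ne hQ hQ0) U hU
  have h1 : H₁.f z' = y := by
    rw [← hz, ← toR_q, ← toR_q]
    exact hUq z' hz'U fun i => hz's _ (Finset.mem_image_of_mem _ (Finset.mem_univ i))
  have h2 := hvan z' h1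
  apply hz'Q
  rw [eval_cons]
  have h3 : (fun i => z' (w ((Fin.cons 0 (fun j => (α j).succ) : Fin (r + 1) → Fin (e + 1)) i))) =
      z' (w 0) • (Fin.cons 1 (fun j => z' (w (α j).succ) / z' (w 0)) : Fin (r + 1) → ℂ) := by
    funext i
    refine Fin.cases ?_ (fun j => ?_) i
    · simp
    · simp [mul_div_cancel₀ _ hz'0]
  rw [h3, Null956.eval_smul_homog hQ] at h2
  exact (mul_eq_zero.1 h2).resolve_left (pow_ne_zero _ hz'0)

end main

end Crest.Agent.R276.CInd_534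
end
end

-- ▼ part R276/Skel_220

/-!
# Row 276 (S0419), SKEL (helper220): composition

`coreBetaPosU` : `CoreBetaPosU` from the frozen Props
`LSat, LGeo, LHull, LPerTow, LEv, LCY, LC1, LC2, LC4, LTCh, LFlat, LComp, LogExt`.
-/

set_option autoImplicit false

open Set Filter Topology MeasureTheory
open scoped ENNReal

noncomputable section

namespace Crest.Agent.R276.Skel_220

open Crest.Agent.R271 Crest.Agent.R271.Defs710 Crest.Agent.R271.Rd692 Crest.Agent.R271.Ho51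
open Crest.Agent.R276.Mod1_987 Crest.Agent.R276.FKDefs_779
open Crest.Agent.R276.BetaDefs_231 Crest.Agent.R276.SkelDefs_220
open Crest.Agent.R276.TowA_849 Crest.Agent.R276.SkelGeo_220
open Crest.Agent.R276.UHon_845 (UHon)
open Crest.Agent.R276.CmpR_652 (Cmp)
open Crest.Agent.R276.FlatDefs_236 (SatFam DN)
open Crest.Agent.R276.FKB0_143 (kbasis)

/-! ## Props on towers -/

/-- (PER + TOW) [409, 437, 595 (VERT), 849 (MODPACK)] -/
def LPerTow : Prop :=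
  ∀ (L K : Type) [Field L] [Field K] [Algebra ℂ L] [Algebra ℂ K] [Algebra L K]
    [IsScalarTower ℂ L K] (m r : ℕ), Setup L K → 0 < m → 0 < r →
    ∀ (R : RMdl L K m r) (N s : ℕ) (σ : Fin s → K) (X : GeoD R N σ), X.Hull →
    ∃ (T : IntermediateField ℂ L) (ρ a : ℕ) (W : Tow T L K ρ a r), m = ρ + a ∧
      (∀ b : L, IsAlgebraic T b → b ∈ T) ∧
      (∀ j, W.MK.zK (Fin.natAdd (ρ + a) j) = R.MK.zK (Fin.natAdd m j)) ∧
      Ev W fun W' => ∃ (H₁ : Rel W'.MT W'.ML) (H₂ : Rel W'.ML W'.MK), H₁.Conn ∧ H₂.Conn ∧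
        ∃ X' : GeoD W'.LK N σ, X'.Hull ∧ Adapt X'

/-- (EV) [220, 652, 849, 236, 327]: `TowOK` is stable under shrinking -/
def LEv : Prop := ForTow fun W N d e₀ _ _ σ w => Ev W fun W' => TowOK W' N d e₀ σ w

/-- (C1) + (SKO) [185, 845] -/
def LC1 : Prop := ForTow fun W N _ _ _ _ σ w => ∃ ε₀ : ℝ, 0 < ε₀ ∧ Ev W fun W' =>
  ∀ q : ℕ, 0 < q → 1 / (q : ℝ) < ε₀ → Stm W' N σ w fun H₁ H₂ u _ D =>
    (∀ k : ℕ, 0 < k → ∃ b₁, C1 H₁ H₂ N k u D (1 / (q : ℝ)) b₁) ∧ SkoP H₂ N u (1 / (q : ℝ))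

/-- (C2) [748] -/
def LC2 : Prop := ForTow fun W N _ e₀ _ _ σ w => Ev W fun W' =>
  Stm W' N σ w fun H₁ H₂ _ w _ => ∃ b₂, C2 H₁ H₂ w e₀ b₂

/-- (C4) [857, 804, 327, 217, 606, 651, 767] -/
def LC4 : Prop := ForTow fun W N _ _ _ _ σ w => Ev W fun W' =>
  Stm W' N σ w fun H₁ H₂ _ _ D => C4 H₁ H₂ D

/-- (TCH) [858, 590] -/
def LTCh : Prop := ForTow fun W N _ _ _ _ σ w => Ev W fun W' =>
  Stm W' N σ w fun H₁ H₂ _ _ _ => TCh H₁ H₂

/-- (FLAT) [793, 464, 739, 999, 333, 236, 348, 39, 617] -/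
def LFlat : Prop := ForTow fun W N d _ _ _ σ w => ∀ ε : ℝ, 0 < ε →
  Stm W N σ w (fun _ H₂ u _ _ => SkoP H₂ N u ε) →
  Stm W N σ w fun H₁ H₂ u _ D => Flat H₁ H₂ N d u D ε

/-- (CY) -/
def LCY : Prop := ForTow fun W N _ _ _ _ σ w => Stm W N σ w fun _ H₂ u _ D => IsCY H₂ N u D

/-- (COMP) [723, 870]: the endgame -/
def LComp : Prop :=
  ∀ (T L K : Type) [Field T] [Field L] [Field K] [Algebra ℂ T] [Algebra ℂ L] [Algebra ℂ K]
    [Algebra T L] [Algebra L K] [IsScalarTower ℂ T L] [IsScalarTower ℂ L K]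
    (ρ a r N s e₀ d e : ℕ) (MT : Mdl T ρ) (ML : Mdl L (ρ + a)) (MK : Mdl K (ρ + a + r))
    (H₁ : Rel MT ML) (H₂ : Rel ML MK) (u : Fin s → MK.B) (w : Fin (e + 1) → ML.B)
    (D : ML.Pts → ℝ) (ε : ℝ), FGF ℂ K → 0 < N → 0 < s → 0 < e₀ → 0 < ε → IsCY H₂ N u D →
    H₁.Conn → H₂.Conn → TCh H₁ H₂ → (∀ k : ℕ, 0 < k → ∃ b₁, C1 H₁ H₂ N k u D ε b₁) →
    (∃ b₂, C2 H₁ H₂ w e₀ b₂) → C3 H₁ H₂ w e₀ → C4 H₁ H₂ D → Flat H₁ H₂ N d u D ε →
    CJ ML w e₀ → CInd H₁ w → CNz H₁ → KapGeF ℂ K (d + e)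

/-! ## Algebra -/

section alg

variable {k K : Type*} [Field k] [Field K] [Algebra k K] {n : ℕ}
  {b : Module.Basis (Fin n) K (Ω[K⁄k])}

theorem pluriS_mul {m₁ m₂ : ℕ} {g₁ g₂ : K} (h₁ : PluriS k b m₁ g₁) (h₂ : PluriS k b m₂ g₂) :
    PluriS k b (m₁ + m₂) (g₁ * g₂) := fun R hR =>
  Crest.Agent.R276.End0_508.regAt_mul (h₁ R hR) (h₂ R hR)

end alg

section ev

variable {T L K : Type} [Field T] [Field L] [Field K] [Algebra ℂ T] [Algebra ℂ L] [Algebra ℂ K]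
  [Algebra T L] [Algebra L K] [IsScalarTower ℂ T L] [IsScalarTower ℂ L K] {ρ a r : ℕ}

/-- shrinking does not change the coordinates -/
theorem ev_coord (W : Tow T L K ρ a r) :
    Ev W fun W' => W'.ML.zK = W.ML.zK ∧ W'.MK.zK = W.MK.zK :=
  ⟨1, one_ne_zero, fun _ _ _ => ⟨1, one_ne_zero, fun _ _ _ => ⟨1, one_ne_zero, fun _ _ _ =>
    ⟨rfl, rfl⟩⟩⟩⟩

theorem ev_mem (W : Tow T L K ρ a r) {n : ℕ} (w : Fin n → L) :
    Ev W fun W' => ∀ j, w j ∈ W'.ML.B := by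
  classical
  have hess : Algebra.EssFiniteType ℂ L := Cmp_595.essFiniteType W.ML
  refine Ev.of_ML (Q := fun M => ∀ j, w j ∈ M.B) ((Ev1.units W.ML
    (Cmp_595.isTranscendenceBasis W.ML) (Finset.univ.image w)).mono fun M h j => ?_)
  exact (h (w j) (by simp)).1

end ev

/-! ## The composition -/

theorem coreBetaPosU (hSat : LSat) (hGeo : LGeo) (hHull : LHull) (hPT : LPerTow) (hEv : LEv)
    (hCY : LCY) (hC1 : LC1) (hC2 : LC2) (hC4 : LC4) (hTCh : LTCh) (hFlat : LFlat)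
    (hComp : LComp) :
    ∀ (K : Type) [Field K] [Algebra ℂ K] (L : IntermediateField ℂ K), FGF ℂ K →
    (∀ a : K, IsAlgebraic L a → a ∈ L) →
    Honest ℂ K → Honest ℂ L → UHon L K →
    ∀ (r m : ℕ), 0 < r → 0 < m → ∀ (_ : Module.Basis (Fin r) K (Ω[K⁄L]))
      (_ : Module.Basis (Fin m) L (Ω[L⁄ℂ])),
    ∀ d e : ℕ, KapGeS L K d → KapGeS ℂ L e → KapGeF ℂ K (d + e) := by
  intro K _ _ L hfg hac hK hL hU r m hr hm bK bL d e hd he
  have hS : Setup L K := ⟨hfg, fun a ha => ⟨⟨a, hac a ha⟩, rfl⟩, hK, hL, hU⟩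
  obtain ⟨z, hz⟩ := Triv_63.exists_tb bL
  obtain ⟨x, hx⟩ := Triv_63.exists_tb bK
  obtain ⟨m₁, hm₁, f, hf, hfi⟩ := (FKB0_143.kapGeS_iff (kbasis hx) d).1 hd
  -- the weight `N = 4 m₁`
  have hf0 : f 0 ≠ 0 := (hf 0).1
  have hg : ∀ i, PluriS L (kbasis hx) (m₁ + (m₁ + (m₁ + m₁))) (f i * (f 0 * (f 0 * f 0))) := fun i =>
    pluriS_mul (hf i).2 (pluriS_mul (hf 0).2 (pluriS_mul (hf 0).2 (hf 0).2))
  have hP : ∀ i, Pluri L (kbasis hx) (m₁ + (m₁ + (m₁ + m₁))) (f i * (f 0 * (f 0 * f 0))) :=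
    fun i R hR => hg i R hR.alg
  generalize hN : m₁ + (m₁ + (m₁ + m₁)) = N at hP
  have hNe : Even N := ⟨m₁ + m₁, by omega⟩
  have hN4 : 4 ≤ N := by omega
  obtain ⟨R, s, σ, hσ, -, hRx, hsat, hspan⟩ := hSat L K m r hS hm hr z x hz hx N hNe hN4
    ⟨_, mul_ne_zero hf0 (mul_ne_zero hf0 (mul_ne_zero hf0 hf0)), hP 0⟩
  obtain ⟨R₁, hc₁, hX₁⟩ := hGeo L K m r hS hm hr R N s σ hσ hsat hspan
  obtain ⟨X₂, hX₂⟩ := hHull L K m r R₁ N s σ hm hX₁
  obtain ⟨T, ρ, a, W, hma, hT, hWx, hEvW⟩ := hPT L K m r hS hm hr R₁ N s σ X₂ hX₂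
  subst hma
  have htb : IsTranscendenceBasis ℂ W.ML.zK := Cmp_595.isTranscendenceBasis W.ML
  obtain ⟨e₀, he₀, w, hw, hwi⟩ := (FKB0_143.kapGeS_iff (kbasis htb) e).1 he
  obtain ⟨s₁, hs₁, p₁, hp₁, c₁', hc₁', hQ⟩ := (hEvW.and ((ev_mem W w).and (ev_coord W))).exists
  generalize hW₁ : W.shrink c₁' hc₁' p₁ hp₁ s₁ hs₁ = W₁ at hQ
  obtain ⟨⟨H₁, H₂, hcn₁, hcn₂, X', hX'h, hX'a⟩, hwm, hzL, hzK⟩ := hQ
  have hspan₁ : SpanV W₁.LK N σ := by
    intro b hb v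
    apply hspan b
    intro j
    rw [hb j]
    congr 1
    calc W₁.LK.MK.zK (Fin.natAdd (ρ + a) j) = W.MK.zK (Fin.natAdd (ρ + a) j) := congrFun hzK _
      _ = R₁.MK.zK (Fin.natAdd (ρ + a) j) := hWx j
      _ = R.MK.zK (Fin.natAdd (ρ + a) j) := hc₁.x_eq j
  have hOK : TowOK W₁ N d e₀ σ w :=
    { N_even := hNe
      N_ge := hN4
      s_pos := X'.sat.s_pos
      e₀_pos := he₀
      r_pos := hr
      m_pos := hm
      setup := hS
      acT := fun b hb => ⟨⟨b, hT b hb⟩, rfl⟩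
      H₁ := H₁
      H₂ := H₂
      conn₁ := hcn₁
      conn₂ := hcn₂
      span := hspan₁
      ind := by
        refine ⟨fun i => f i * (f 0 * (f 0 * f 0)),
          mul_ne_zero hf0 (mul_ne_zero hf0 (mul_ne_zero hf0 hf0)), fun i => ?_, ?_⟩
        · exact (hspan (kbasis hx) (fun j => by rw [FKB0_143.kbasis_apply, hRx]) _).1 (hP i)
        · have h1 : (fun i : Fin d => f i.succ * (f 0 * (f 0 * f 0)) / (f 0 * (f 0 * (f 0 * f 0))))
              = fun i : Fin d => f i.succ / f 0 := by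
            funext i
            rw [mul_div_mul_right _ _ (mul_ne_zero hf0 (mul_ne_zero hf0 hf0))]
          rw [h1]
          exact hfi
      geo := ⟨X', hX'h, hX'a⟩
      wmem := hwm
      wreg := by
        intro b hb j
        have h1 : b = kbasis htb := Module.Basis.eq_of_apply_eq fun i => by
          rw [hb i, FKB0_143.kbasis_apply, hzL]
        rw [h1]
        exact (hw j).2
      w0 := (hw 0).1
      wind := hwi }
  obtain ⟨ε₀, hε₀, h1⟩ := hC1 _ _ _ _ _ _ W₁ N d e e₀ s σ w hOK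
  obtain ⟨q, hq⟩ := exists_nat_gt (1 / ε₀)
  have hq0 : (0 : ℝ) < q := lt_trans (by positivity) hq
  have hqn : 0 < q := by exact_mod_cast hq0
  have hqε : 1 / (q : ℝ) < ε₀ := by
    rw [div_lt_iff₀ hq0]
    rw [div_lt_iff₀ hε₀] at hq
    linarith
  obtain ⟨s₂, hs₂, p₂, hp₂, c₂, hc₂, hQ₂⟩ := ((hEv _ _ _ _ _ _ W₁ N d e e₀ s σ w hOK).and
    (h1.and ((hC2 _ _ _ _ _ _ W₁ N d e e₀ s σ w hOK).and
    ((hC4 _ _ _ _ _ _ W₁ N d e e₀ s σ w hOK).and
      (hTCh _ _ _ _ _ _ W₁ N d e e₀ s σ w hOK))))).exists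
  generalize hW₂ : W₁.shrink c₂ hc₂ p₂ hp₂ s₂ hs₂ = W₂ at hQ₂
  obtain ⟨hOK₂, h1', h2', h4', ht'⟩ := hQ₂
  obtain ⟨K₁, K₂, hσ₂, hw₂, hc1, hsko⟩ := h1' q hqn hqε
  obtain ⟨_, _, _, _, hc2⟩ := h2'
  obtain ⟨_, _, _, _, hc4⟩ := h4'
  obtain ⟨_, _, _, _, htch⟩ := ht'
  obtain ⟨_, _, _, _, hcy⟩ := hCY _ _ _ _ _ _ W₂ N d e e₀ s σ w hOK₂
  have hε : (0 : ℝ) < 1 / (q : ℝ) := by positivity
  obtain ⟨_, _, _, _, hflat⟩ := hFlat _ _ _ _ _ _ W₂ N d e e₀ s σ w hOK₂ (1 / (q : ℝ)) hε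
    ⟨K₁, K₂, hσ₂, hw₂, hsko⟩
  have htb₂ : IsTranscendenceBasis ℂ W₂.ML.zK := Cmp_595.isTranscendenceBasis W₂.ML
  have hreg := hOK₂.wreg (kbasis htb₂) (fun j => FKB0_143.kbasis_apply htb₂ j)
  have hc3 : C3 K₁ K₂ (fun j => (⟨w j, hw₂ j⟩ : W₂.ML.B)) e₀ :=
    WPack_505.c3 (H₁ := K₁) (H₂ := K₂) _ (kbasis htb₂)
      (fun j => FKB0_143.kbasis_apply htb₂ j) hreg
  have hcj : CJ W₂.ML (fun j => (⟨w j, hw₂ j⟩ : W₂.ML.B)) e₀ :=
    CJ_505.cj _ he₀ (kbasis htb₂) (fun j => FKB0_143.kbasis_apply htb₂ j) _ hreg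
  have hci : CInd K₁ (fun j => (⟨w j, hw₂ j⟩ : W₂.ML.B)) :=
    CInd_534.cInd K₁ _ (fun h => hOK₂.w0 (congrArg Subtype.val h)) hOK₂.wind
  exact hComp _ _ _ _ _ _ N s e₀ d e W₂.MT W₂.ML W₂.MK K₁ K₂ _ _ _ (1 / (q : ℝ)) hfg
    (by omega) hOK₂.s_pos he₀ hε hcy hOK₂.conn₁ hOK₂.conn₂ htch hc1 hc2 hc3 hc4 hflat hcj hci
    (CInd_534.cNz K₁)

end Crest.Agent.R276.Skel_220
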