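import Mathlib
import Crest.Agent.R276.Den_464_Mg
import Crest.Agent.R276.W1Defs_185
import Crest.Agent.R276.End0A_508
import Crest.Agent.R276.Skel_220
import Crest.Agent.R276.ModPack_849
import Crest.Agent.R276.SatI_152
import Crest.Agent.R276.C1bdF_986
import Crest.Agent.R276.C1gr_505
import Crest.Agent.R276.Ann_696
import Crest.Agent.R276.NbE_185
import Crest.Agent.R276.CmpB_595
import Crest.Agent.R276.Rs_185
import Crest.Agent.R276.CInd_870
import Crest.Agent.R276.NbB_185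
import Crest.Agent.R266.Osgood
import Crest.Agent.R276.C1bdB_986
import Crest.Agent.R276.PVl_159
import Crest.Agent.R276.Sl_748
import Crest.Agent.R276.Mod4_987
import Crest.Agent.R276.NbD_185
import Crest.Agent.R276.StU_748

-- ▼ part R276/LC1a_464
section

/-!
# Row 276 (helper464): the data of (C1), part (a): on one relative model

* `lb_sum`, `bb_of_lb` : (B) of 185 from 845's local boundedness;
* `cl_of` : (Cl) of 185 from 886;
* `exists_family` : the family `v` = `P^a ·` (basis of `V_{N₁}`) together with all monomials of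
  degree `N₁/N` in `u`.
-/

set_option autoImplicit false
set_option linter.unusedSectionVars false

open Set Filter Topology MeasureTheory
open scoped ENNReal

noncomputable section

namespace Crest.Agent.R276.LC1a_464

open Crest.Agent.R271 Crest.Agent.R271.Ho51
open Crest.Agent.R271.Rd692 hiding evs
open Crest.Agent.R271.Defs710 hiding glue
open Crest.Agent.R276.Mod1_987 Crest.Agent.R276.FKDefs_779 Crest.Agent.R276.BetaDefs_231
open Crest.Agent.R276.FlatDefs_236
open Crest.Agent.R276.SkelDefs_220 Crest.Agent.R276.CInd_870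
open Crest.Agent.R276.SkoP_845 Crest.Agent.R276.W1_185

variable {L K : Type} [Field L] [Field K] [Algebra ℂ L] [Algebra ℂ K] [Algebra L K]
  [IsScalarTower ℂ L K] {m r : ℕ} {ML : Mdl L m} {MK : Mdl K (m + r)} {H : Rel ML MK}

/-! ### sums -/

theorem lb_sum {s : ℕ} {u : Fin s → MK.B} {p : ℝ} {ι : Type} [Fintype ι] (g : ι → MK.Pts → ℝ≥0∞)
    (hg : ∀ i, Measurable (g i)) (h : ∀ i, LB (rm H) u p (g i)) :
    LB (rm H) u p (fun y => ∑ i, g i y) := by
  intro w0
  choose c hc hev using fun i => h i w0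
  refine ⟨∑ i, c i, by rw [ENNReal.sum_ne_top]; exact fun i _ => hc i, ?_⟩
  have h1 : ∀ᶠ w in 𝓝 w0, ∀ i, ∀ μ : Measure ((rm H).Fib w), IsLeb μ →
      ∀ A : Fin s → ℂ, ∫⁻ x, g i x.val * ‖∑ i, A i * (x.val) (u i)‖ₑ ^ (-p) ∂μ ≤
        c i * ‖A‖ₑ ^ (-p) := eventually_all.2 hev
  filter_upwards [h1] with w hw μ hμ A
  have hv : Measurable (RMdl.Fib.val (rm H) : (rm H).Fib w → (rm H).MK.Pts) :=
    (RMdl.Fib.continuous_val (R := rm H) w).measurable
  have hA : Measurable fun x : (rm H).Fib w => ‖∑ i, A i * (x.val) (u i)‖ₑ ^ (-p) := by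
    refine Measurable.pow_const (Measurable.enorm ?_) _
    exact Finset.measurable_fun_sum _ fun i _ =>
      ((continuous_ev (u i)).measurable.comp hv).const_mul (A i)
  calc ∫⁻ x, (∑ i, g i x.val) * ‖∑ i, A i * (x.val) (u i)‖ₑ ^ (-p) ∂μ
      = ∫⁻ x, ∑ i, g i x.val * ‖∑ i, A i * (x.val) (u i)‖ₑ ^ (-p) ∂μ := by
        refine lintegral_congr fun x => ?_
        rw [Finset.sum_mul]
    _ = ∑ i, ∫⁻ x, g i x.val * ‖∑ i, A i * (x.val) (u i)‖ₑ ^ (-p) ∂μ :=
        lintegral_finsetSum _ fun i _ => ((hg i).comp hv).mul hA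
    _ ≤ ∑ i, c i * ‖A‖ₑ ^ (-p) := Finset.sum_le_sum fun i _ => hw i μ hμ A
    _ = (∑ i, c i) * ‖A‖ₑ ^ (-p) := by rw [Finset.sum_mul]

lemma ofReal_Kf {q : ℕ} (v : Fin q → MK.B) (y : MK.Pts) :
    ENNReal.ofReal (Kf v y) = ∑ i, ‖y (v i)‖ₑ ^ 2 := by
  unfold Kf
  rw [ENNReal.ofReal_sum_of_nonneg fun i _ => by positivity]
  refine Finset.sum_congr rfl fun i _ => ?_
  rw [ENNReal.ofReal_pow (norm_nonneg _), ofReal_norm]

lemma Kf_rpow_le {q : ℕ} (v : Fin q → MK.B) {θ : ℝ} (hθ : 0 < θ) (hθ1 : θ ≤ 1) (y : MK.Pts) :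
    ENNReal.ofReal (Kf v y) ^ θ ≤ ∑ i, ‖y (v i)‖ₑ ^ (2 * θ) := by
  rw [ofReal_Kf]
  refine (DetB_606.rpow_sum_le Finset.univ _ hθ hθ1).trans (le_of_eq ?_)
  refine Finset.sum_congr rfl fun i _ => ?_
  rw [← ENNReal.rpow_natCast, ← ENNReal.rpow_mul]
  norm_num

/-- **(B)** -/
theorem bb_of_lb {s q : ℕ} {u : Fin s → MK.B} {v : Fin q → MK.B} {θ ε : ℝ} (hθ : 0 < θ)
    (hθ1 : θ ≤ 1) (hε : 0 ≤ ε) (h : ∀ i, LB (rm H) u (2 * ε) (fun y => ‖y (v i)‖ₑ ^ (2 * θ))) :
    BB H u v θ ε := by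
  intro z₀
  have hm : ∀ i, Measurable fun y : MK.Pts => ‖y (v i)‖ₑ ^ (2 * θ) := fun i =>
    (continuous_ev (v i)).measurable.enorm.pow_const _
  obtain ⟨C, hC, hev⟩ := Hsko_793.fintS_lb H (u := u) (p := 2 * ε) (by positivity) (ι := Unit)
    (fun _ y => ∑ i, ‖y (v i)‖ₑ ^ (2 * θ))
    (fun _ => Finset.measurable_fun_sum _ fun i _ => hm i) (fun _ => lb_sum _ hm h) z₀
  refine ⟨C, hC, ?_⟩
  filter_upwards [hev] with z hz
  refine le_trans ?_ (hz fun _ => ())
  refine lintegral_mono fun x => ENNReal.tsum_le_tsum fun y => ?_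
  refine mul_le_mul_left ?_ _
  rw [← ENNReal.prod_rpow_of_nonneg hθ.le]
  exact Finset.prod_le_prod' fun j _ => Kf_rpow_le v hθ hθ1 _

/-- **(Cl)** -/
theorem cl_of {q N₁ : ℕ} (hN : 0 < N₁) {bK : Module.Basis (Fin r) K (Ω[K⁄L])}
    (hbK : IsRelBasis MK bK) {v : Fin q → MK.B} (hv : ∀ i, Pluri L bK N₁ (v i : K))
    (hspan : ∀ g : K, Pluri L bK N₁ g →
      g ∈ Submodule.span L (Set.range fun i => ((v i : MK.B) : K))) :
    CL H v (1 - 1 / (N₁ : ℝ)) := by
  have hN0 : (0 : ℝ) < N₁ := by exact_mod_cast hN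
  obtain ⟨P, hP, h⟩ := SatC_886.cl_pluri H hN hbK hv hspan
  refine ⟨MvPolynomial.aeval ML.z P, fun h0 => hP ?_, fun z hz => ?_⟩
  · exact ML.az_injective (by rw [map_zero]; exact h0)
  · have e1 : z (MvPolynomial.aeval ML.z P) = MvPolynomial.eval (ML.pz z) P := by
      rw [← MvPolynomial.aeval_eq_eval, MvPolynomial.comp_aeval_apply]
      rfl
    rw [e1] at hz
    obtain ⟨C, -, hC, hf⟩ := h z hz
    refine ⟨C, hC, fun f hfh hfin y hy => ?_⟩
    have e2 : (fun y : MK.Pts => ‖f y‖ₑ ^ (2 : ℝ) / ENNReal.ofReal (Kf v y ^ (1 - 1 / (N₁ : ℝ)))) =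
        fun y => ‖f y‖ₑ ^ 2 * SatC_886.kv N₁ v y := by
      funext y
      have h0 : 0 ≤ Kf v y := Finset.sum_nonneg fun i _ => by positivity
      have h1 : (0 : ℝ) ≤ 1 - 1 / N₁ := by
        have h3 : (1 : ℝ) ≤ N₁ := by exact_mod_cast hN
        have h4 : 1 / (N₁ : ℝ) ≤ 1 := by rw [div_le_one hN0]; exact h3
        linarith
      unfold SatC_886.kv
      rw [← ENNReal.ofReal_rpow_of_nonneg h0 h1, ENNReal.div_eq_inv_mul, ← ENNReal.rpow_neg,
        mul_comm, ENNReal.rpow_ofNat]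
      congr 2
      field_simp
    rw [e2] at hfin ⊢
    have h5 := hf f hfh hfin.ne y hy
    rw [ENNReal.rpow_ofNat]
    exact h5

/-! ### the family -/

section alg

variable {k F : Type*} [Field k] [Field F] [Algebra k F] {n : ℕ}
  {b : Module.Basis (Fin n) F (Ω[F⁄k])}


lemma pluriS_monomial {s N : ℕ} (u : Fin s → F) (hu : ∀ i, PluriS k b N (u i)) (α : Fin s →₀ ℕ) :
    PluriS k b (N * α.degree) (∏ i, u i ^ α i) := by
  classical
  intro R hR
  have h1 : ∀ S : Finset (Fin s), RegAt k R b (N * ∑ i ∈ S, α i) (∏ i ∈ S, u i ^ α i) := by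
    intro S
    induction S using Finset.induction_on with
    | empty => exact ⟨0, fun _ => R.zero_mem, by simp⟩
    | insert i S hi ih =>
      rw [Finset.sum_insert hi, Finset.prod_insert hi, mul_add]
      exact End0_508.regAt_mul (End0_508.regAt_pow (hu i R hR) _) ih
  have h2 := h1 Finset.univ
  have h3 : ∑ i, α i = α.degree := by
    rw [Finsupp.degree_eq_sum]
  rwa [h3] at h2

end alg

/-- the family `v` -/
theorem exists_family (hHon : Honest L K) {bK : Module.Basis (Fin r) K (Ω[K⁄L])}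
    (hbK : IsRelBasis MK bK) {s N N₁ d : ℕ} (hN : 0 < N) (hd : N₁ = N * d) (u : Fin s → MK.B)
    (hu : ∀ i, PluriS L bK N (u i : K)) {p t : ℝ} (ht : 0 < t) (hNt : (N₁ : ℝ) * t = 2 + p * N)
    (hu1 : LB (rm H) u p (fun y => (∑ i, ‖y (u i)‖ₑ) ^ ((2 + p * N) / N)))
    (hv1 : ∀ v : MK.B, Pluri L bK N₁ (v : K) → ∃ (P : ML.B) (a0 : ℕ), P ≠ 0 ∧
      ∀ P' : ML.B, P ∣ P' → ∀ a : ℕ, a0 ≤ a →
        LB (rm H) u p (fun y => ‖y ((rm H).incl P' ^ a * v)‖ₑ ^ t)) :
    ∃ (n : ℕ) (v : Fin n → MK.B), (∀ i, PluriS L bK N₁ (v i : K)) ∧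
      (∀ α : Fin s →₀ ℕ, α.degree = d → ∃ i, v i = ∏ j, u j ^ α j) ∧
      (∀ g, Pluri L bK N₁ g → g ∈ Submodule.span L (Set.range fun i => ((v i : MK.B) : K))) ∧
      ∀ i, LB (rm H) u p (fun y => ‖y (v i)‖ₑ ^ t) := by
  classical
  obtain ⟨n₀, v₀, -, hv₀, hsp⟩ := Den_464.exists_v H bK hbK hHon N₁
  choose P a0 hP hLB using fun i => hv1 (v₀ i) fun R hR => hv₀ i R hR.alg
  set P' : ML.B := ∏ i, P i with hP'
  have hP'0 : P' ≠ 0 := Finset.prod_ne_zero_iff.2 fun i _ => hP i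
  set a : ℕ := ∑ i, a0 i with ha
  have hLB' : ∀ i, LB (rm H) u p (fun y => ‖y ((rm H).incl P' ^ a * v₀ i)‖ₑ ^ t) := fun i =>
    hLB i P' (Finset.dvd_prod_of_mem _ (Finset.mem_univ i)) a
      (Finset.single_le_sum (f := a0) (fun _ _ => Nat.zero_le _) (Finset.mem_univ i))
  -- the index type
  let ι : Type := Fin n₀ ⊕ {α : Fin s →₀ ℕ // α ∈ Finset.finsuppAntidiag Finset.univ d}
  let f : ι → MK.B := Sum.elim (fun i => (rm H).incl P' ^ a * v₀ i) fun α => ∏ j, u j ^ α.1 j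
  let e : ι ≃ Fin (Fintype.card ι) := Fintype.equivFin ι
  have hmem : ∀ α : Fin s →₀ ℕ, α ∈ Finset.finsuppAntidiag Finset.univ d ↔ α.degree = d := by
    intro α
    rw [Finset.mem_finsuppAntidiag, Finsupp.degree_eq_sum]
    exact ⟨fun h => h.1, fun h => ⟨h, Finset.subset_univ _⟩⟩
  have hfS : ∀ x : ι, PluriS L bK N₁ (f x : K) := by
    rintro (i | α)
    · intro R hR
      obtain ⟨y, hy, hle⟩ := hv₀ i R hR
      refine ⟨y, hy, ?_⟩
      have e1 : ((f (Sum.inl i) : MK.B) : K) = algebraMap L K ((P' : L) ^ a) * (v₀ i : K) := by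
        rw [map_pow]
        rfl
      rw [e1, map_mul]
      have h3 : R.valuation (algebraMap L K ((P' : L) ^ a)) ≤ 1 :=
        (ValuationSubring.valuation_le_one_iff _ _).2 (hR _)
      calc _ ≤ 1 * R.valuation (v₀ i : K) := mul_le_mul_left h3 _
        _ ≤ _ := by rw [one_mul]; exact hle
    · have h1 := pluriS_monomial (k := L) (fun i => (u i : K)) hu α.1
      rw [(hmem _).1 α.2, ← hd] at h1
      have e1 : ((f (Sum.inr α) : MK.B) : K) = ∏ i, (u i : K) ^ α.1 i := by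
        change ((∏ j, u j ^ α.1 j : MK.B) : K) = _
        push_cast
        rfl
      rw [e1]
      exact h1
  have hfLB : ∀ x : ι, LB (rm H) u p (fun y => ‖y (f x)‖ₑ ^ t) := by
    rintro (i | α)
    · exact hLB' i
    · have hN0 : (0 : ℝ) < N := by exact_mod_cast hN
      have hq : (d : ℝ) * t = (2 + p * N) / N := by
        rw [← hNt, hd]
        push_cast
        field_simp
      have h1 := Hsko_793.lb_homog H (k := d) ht.le hq hu1
        (P := MvPolynomial.monomial α.1 1)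
        (MvPolynomial.isHomogeneous_monomial (1 : ℂ) ((hmem _).1 α.2))
      have e1 : MvPolynomial.aeval u (MvPolynomial.monomial α.1 (1 : ℂ)) = ∏ j, u j ^ α.1 j := by
        rw [MvPolynomial.aeval_monomial, map_one, one_mul, Finsupp.prod_fintype _ _ fun _ => pow_zero _]
      rw [e1] at h1
      exact h1
  refine ⟨Fintype.card ι, fun i => f (e.symm i), fun i => hfS _, fun α hα => ?_, fun g hg => ?_,
    fun i => hfLB _⟩
  · refine ⟨e (Sum.inr ⟨α, (hmem α).2 hα⟩), ?_⟩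
    simp only [Equiv.symm_apply_apply]
    rfl
  · refine Submodule.span_le.2 ?_ (hsp g hg)
    rintro _ ⟨i, rfl⟩
    have hP0 : (P' : L) ^ a ≠ 0 := pow_ne_zero _ fun h => hP'0 (Subtype.ext h)
    have e1 : ((f (Sum.inl i) : MK.B) : K) = (P' : L) ^ a • (v₀ i : K) := by
      rw [Algebra.smul_def, map_pow]
      rfl
    have h4 : (v₀ i : K) = ((P' : L) ^ a)⁻¹ • ((f (Sum.inl i) : MK.B) : K) := by
      rw [e1, smul_smul, inv_mul_cancel₀ hP0, one_smul]
    have h5 : ((f (Sum.inl i) : MK.B) : K) ∈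
        Submodule.span L (Set.range fun j => ((f (e.symm j) : MK.B) : K)) :=
      Submodule.subset_span ⟨e (Sum.inl i), by simp⟩
    change (v₀ i : K) ∈ Submodule.span L (Set.range fun j => ((f (e.symm j) : MK.B) : K))
    rw [h4]
    exact Submodule.smul_mem _ _ h5

end Crest.Agent.R276.LC1a_464
end
end

-- ▼ part R276/LC1b_464
section

/-!
# Row 276 (helper464): the data of (C1), part (b): on all small towers

`data` : from 425's estimate on the pieces (`PEAll`), on every sufficiently small tower: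
`Ieps ≠ ∞` (SKO), and for every `q` with `1/q < ε₀` and every `k` the family `v` of (C1) with
(B) and (Cl).
-/

set_option autoImplicit false
set_option linter.unusedSectionVars false

open Set Filter Topology MeasureTheory
open scoped ENNReal

noncomputable section

namespace Crest.Agent.R276.LC1a_464

open Crest.Agent.R271 Crest.Agent.R271.Ho51
open Crest.Agent.R271.Rd692 hiding evs
open Crest.Agent.R271.Defs710 hiding glue
open Crest.Agent.R276.Mod1_987 Crest.Agent.R276.FKDefs_779 Crest.Agent.R276.BetaDefs_231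
open Crest.Agent.R276.FlatDefs_236 Crest.Agent.R276.TowA_849
open Crest.Agent.R276.SkelDefs_220 Crest.Agent.R276.CInd_870 Crest.Agent.R276.SkelGeo_220
open Crest.Agent.R276.SkoP_845 Crest.Agent.R276.W1_185 Crest.Agent.R276.SkoT_845
open Crest.Agent.R276.SkoM_845 Crest.Agent.R276.SkoN_845

/-- (PE) [425]: the estimate on all pieces -/
def PEAll : Prop :=
  ∀ (L K : Type) [Field L] [Field K] [Algebra ℂ L] [Algebra ℂ K] [Algebra L K]
    [IsScalarTower ℂ L K] (r : ℕ) (bas : Module.Basis (Fin r) K (Ω[K⁄L])) (N s : ℕ)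
    (Y : Finset (Fin r → K)) (u : Fin s → K), Setup L K → 0 < r → 0 < N → IsFrames bas Y →
    LinearIndependent L u → (∀ i, Pluri L bas N (u i)) →
    ∃ p₀ : ℝ, 0 < p₀ ∧ ∃ (AA : Finset L) (BB : Finset K), ∀ (AA' : Finset L) (BB' : Finset K),
      AA ⊆ AA' → BB ⊆ BB' → ∀ p : ℝ, 0 ≤ p → p < p₀ → ∀ y ∈ Y, PE bas N u y AA' BB' p

/-! ### linear independence -/

section li

variable {L K : Type} [Field L] [Field K] [Algebra ℂ L] [Algebra ℂ K] [Algebra L K]
  [IsScalarTower ℂ L K] {m r : ℕ}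

theorem li_of_sat {R : RMdl L K m r} {N s : ℕ} {u : Fin s → R.MK.B} (hS : SatFam R N u) :
    LinearIndependent L fun i => (u i : K) := by
  classical
  have hfr : IsFractionRing R.ML.B L := inferInstance
  rw [Fintype.linearIndependent_iff]
  intro c hc
  by_contra hcon
  push Not at hcon
  obtain ⟨i₀, hi₀⟩ := hcon
  obtain ⟨b, hb⟩ := IsLocalization.exist_integer_multiples_of_finite (nonZeroDivisors R.ML.B) c
  choose a ha using hb
  have hb0 : ((b : R.ML.B) : L) ≠ 0 := fun h =>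
    nonZeroDivisors.ne_zero b.2 (Subtype.ext h)
  have ha' : ∀ i, ((a i : R.ML.B) : L) = ((b : R.ML.B) : L) * c i := fun i => by
    have h1 := ha i
    rw [Algebra.smul_def] at h1
    exact h1
  have hai : a i₀ ≠ 0 := by
    intro h
    have h1 := ha' i₀
    rw [h] at h1
    exact mul_ne_zero hb0 hi₀ h1.symm
  obtain ⟨p, hp, hpt⟩ := RMdl.exists_dvd_poly R.ML hai
  obtain ⟨w, hw⟩ := GlobF_739.exists_pt (R := R) hp
  have h0 : ∑ i, R.incl (a i) * u i = 0 := by
    apply Subtype.ext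
    push_cast
    have h1 : ∀ i, ((R.incl (a i) : R.MK.B) : K) * (u i : K) =
        algebraMap L K ((b : R.ML.B) : L) * (c i • (u i : K)) := by
      intro i
      rw [RMdl.incl_coe, ha', map_mul, Algebra.smul_def]
      ring
    rw [Finset.sum_congr rfl fun i _ => h1 i, ← Finset.mul_sum, hc, mul_zero]
  have h2 := hS.indep w (fun i => w (a i)) fun y => by
    have h3 := congrArg (y.val : R.MK.B →ₐ[ℂ] ℂ) h0
    rw [map_sum, map_zero] at h3
    rw [← h3]
    refine Finset.sum_congr rfl fun i _ => ?_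
    rw [map_mul]
    have h4 : (y.val : R.MK.B →ₐ[ℂ] ℂ) (R.incl (a i)) = w (a i) := by
      rw [← R.q_apply, y.q_eq]
    rw [h4]
    rfl
  exact hpt w hw (congrFun h2 i₀)

end li

/-! ### towers -/

section tow

variable {T L K : Type} [Field T] [Field L] [Field K] [Algebra ℂ T] [Algebra ℂ L] [Algebra ℂ K]
  [Algebra T L] [Algebra L K] [IsScalarTower ℂ T L] [IsScalarTower ℂ L K] {ρ a r : ℕ}

/-- the data on one small tower -/
structure Dat1 (W : Tow T L K ρ a r) (N : ℕ) {s : ℕ} (σ : Fin s → K) (ε₀ : ℝ)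
    (H₂ : Rel W.ML W.MK) (u : Fin s → W.MK.B) (bK : Module.Basis (Fin r) K (Ω[K⁄L])) : Prop where
  basis : IsRelBasis W.MK bK
  pluri : ∀ i, PluriS L bK N (u i : K)
  sko : ∀ ε : ℝ, 0 ≤ ε → ε < ε₀ → ∀ (z : W.ML.Pts) (k : ℕ) (P : MvPolynomial (Fin s) ℂ), 0 < k →
    P.IsHomogeneous k → Ieps H₂ N k u ε z (evs u P) ≠ ∞
  fam : ∀ q : ℕ, 0 < q → 1 / (q : ℝ) < ε₀ → ∀ k : ℕ, 0 < k →
    ∃ (n : ℕ) (v : Fin n → W.MK.B), (∀ i, PluriS L bK (N * (k * (q + N))) (v i : K)) ∧
      (∀ α : Fin s →₀ ℕ, α.degree = k * (q + N) → ∃ i, v i = ∏ j, u j ^ α j) ∧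
      (∀ g, Pluri L bK (N * (k * (q + N))) g →
        g ∈ Submodule.span L (Set.range fun i => ((v i : W.MK.B) : K))) ∧
      BB H₂ u v (1 / ((q * k * N : ℕ) : ℝ)) (1 / (q : ℝ)) ∧
      CL H₂ v (1 - 1 / ((N * (k * (q + N)) : ℕ) : ℝ))

/-- **the data of (C1)** -/
theorem data (hPE : PEAll) {W : Tow T L K ρ a r} {N d e₀ s e : ℕ} {σ : Fin s → K}
    {w : Fin (e + 1) → L} (h : TowOK W N d e₀ σ w) :
    ∃ (ε₀ : ℝ) (bK : Module.Basis (Fin r) K (Ω[K⁄L])), 0 < ε₀ ∧
      Ev W fun W' => ∀ (H₂ : Rel W'.ML W'.MK) (u : Fin s → W'.MK.B), (∀ i, (u i : K) = σ i) →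
        Dat1 W' N σ ε₀ H₂ u bK := by
  classical
  obtain ⟨X, -, -⟩ := h.geo
  have hN : 0 < N := by have := h.N_ge; omega
  have hN0 : (0 : ℝ) < N := by exact_mod_cast hN
  have hcL : CharZero L := charZero_of_injective_algebraMap (algebraMap ℂ L).injective
  obtain ⟨bK, hb⟩ : ∃ b : Module.Basis (Fin r) K (Ω[K⁄L]),
      ∀ j, b j = KaehlerDifferential.D L K (W.MK.zK (Fin.natAdd (ρ + a) j)) :=
    FKB0_143.exists_kbasis (SatG_152.isTB_x W.LK)
  have hHon : Honest L K := h.setup.uhon.honest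
  have hσ : ∀ i, Pluri L bK N (σ i) := fun i =>
    (h.span bK hb (σ i)).2 (Submodule.subset_span ⟨i, rfl⟩)
  have hli : LinearIndependent L σ := li_of_sat X.sat
  obtain ⟨Y, hY⟩ := exists_frames h.setup.uhon bK
  obtain ⟨p₀, hp₀, AA, BB₀, hpe⟩ := hPE L K r bK N s Y σ h.setup h.r_pos hN hY hli hσ
  obtain ⟨A0, hlbu⟩ := lb_u hY hN hσ
  refine ⟨p₀ / 2, bK, by positivity, ?_⟩
  refine ((ModPack_849.ev_units W ∅ (AA ∪ A0) (BB₀ ∪ bb bK Y N σ)).and
    (Skel_220.ev_coord W)).mono ?_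
  rintro W' ⟨⟨-, hL, hK⟩, hzL, hzK⟩ H₂ u hu
  have hcompat : Compat bK (rm H₂) := by
    intro j
    rw [hb j]
    congr 1
    exact (congrFun hzK _).symm
  have hbas : IsRelBasis W'.MK bK := hcompat
  have hU : Units' (rm H₂) (AA ∪ A0) (BB₀ ∪ bb bK Y N σ) := ⟨hL, hK⟩
  have hHas : Has bK Y N σ (BB₀ ∪ bb bK Y N σ) := has_bb Finset.subset_union_right
  have hpe' : ∀ p : ℝ, 0 ≤ p → p < p₀ → ∀ y ∈ Y,
      PE bK N σ y (AA ∪ A0) (BB₀ ∪ bb bK Y N σ) p := fun p h1 h2 =>
    hpe _ _ Finset.subset_union_left Finset.subset_union_left p h1 h2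
  have hlb : ∀ p : ℝ, 0 ≤ p → p < p₀ →
      LB (rm H₂) u p (fun y => (∑ i, ‖y (u i)‖ₑ) ^ ((2 + p * N) / N)) := fun p h1 h2 =>
    hlbu _ _ Finset.subset_union_right hHas p h1 (hpe' p h1 h2) _ (rm H₂) hcompat hU u hu
  have hPS : ∀ i, PluriS L bK N (u i : K) := fun i => by
    rw [hu i]; exact hHon r bK N (σ i) (hσ i)
  refine ⟨hbas, hPS, fun ε hε0 hε1 z k P hk hP => ?_, fun q hq hqε k hk => ?_⟩
  · exact Hsko_793.hsko_of_lb H₂ hN hε0 (by
      have := hlb (2 * ε) (by positivity) (by linarith)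
      exact this) z k P hk hP
  · have hq0 : (0 : ℝ) < q := by exact_mod_cast hq
    have hk0 : (0 : ℝ) < k := by exact_mod_cast hk
    set t : ℝ := 2 * (1 / ((q * k * N : ℕ) : ℝ)) with ht
    have hcast : ((q * k * N : ℕ) : ℝ) = q * k * N := by push_cast; ring
    have ht0 : 0 < t := by rw [ht, hcast]; positivity
    have hNt : ((N * (k * (q + N)) : ℕ) : ℝ) * t = 2 + (2 * (1 / (q : ℝ))) * N := by
      rw [ht, hcast]
      push_cast
      field_simp
    have hp1 : 2 * (1 / (q : ℝ)) < p₀ := by linarith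
    obtain ⟨n, v, hv1, hv2, hv3, hv4⟩ := exists_family (H := H₂) hHon hbas hN
      (N₁ := N * (k * (q + N))) (d := k * (q + N)) rfl u hPS (p := 2 * (1 / (q : ℝ))) ht0 hNt
      (hlb _ (by positivity) hp1) (fun v hv =>
        lb_v hY hσ hHas (hpe' _ (by positivity) hp1) (rm H₂) hcompat hU hu v ht0 hNt hv)
    refine ⟨n, v, hv1, hv2, hv3, ?_, ?_⟩
    · refine bb_of_lb (by rw [hcast]; positivity) ?_ (by positivity) hv4
      rw [div_le_one (by rw [hcast]; positivity)]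
      exact_mod_cast Nat.mul_pos (Nat.mul_pos hq hk) hN
    · refine cl_of (Nat.mul_pos hN (Nat.mul_pos hk (by omega))) hbas
        (fun i R hR => hv1 i R hR.alg) hv3

end tow

end Crest.Agent.R276.LC1a_464
end
end

-- ▼ part R276/C1asm_986
section

/-!
# Row 276 (helper986), W1-ASM: the weight `b₁` of `SkelDefs_220.C1`, everything except `psh`

* `bEc H u v N' ε y` : supremum of `|τ(y,…,y)|^{2/N'} / ∫_{M_z^s} |τ|^{2/N'} |δ|^{-2ε}` over the
  holomorphic `τ` with `|τ|² ≤ C ∏ⱼ ∑ᵢ |yⱼ(vᵢ)|²`;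
* `b1w = ush (bEc).toReal`;
* `c1_of_psh` : `LPsh b1w → C1 H₁ H₂ N k u D ε b1w`.
-/

set_option autoImplicit false
set_option linter.unusedSectionVars false

open Set Filter Topology MeasureTheory Metric
open scoped ENNReal BigOperators

noncomputable section

namespace Crest.Agent.R276.C1bd_986

open Crest.Agent.R271 Crest.Agent.R271.Defs710 Crest.Agent.R271.Rd692 Crest.Agent.R271.Ho51
open Crest.Agent.R276.Mod1_987 Crest.Agent.R276.FKDefs_779 Crest.Agent.R276.SkelDefs_220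
open Crest.Agent.R276.AcOpen_89 Crest.Agent.R276.BR_590
open Crest.Agent.R276.EngU_29 (LPsh)
open Crest.Agent.R273.Reg_844 (ush LocB)

section rel

variable {L K : Type} [Field L] [Field K] [Algebra ℂ L] [Algebra ℂ K] [Algebra L K]
  [IsScalarTower ℂ L K] {m r : ℕ} {ML : Mdl L m} {MK : Mdl K (m + r)} (H : Rel ML MK) {s q : ℕ}

/-- the integral of the class -/
def II (u : Fin s → MK.B) (p ε : ℝ) (z : ML.Pts) (τ : (Fin s → MK.Pts) → ℂ) : ℝ≥0∞ :=
  H.fintS s z (fun y => ‖τ y‖ₑ ^ p * ‖dl u y‖ₑ ^ (-(2 * ε)))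

/-- the kernel -/
def bEc (u : Fin s → MK.B) (v : Fin q → MK.B) (p ε : ℝ) (y : MK.Pts) : ℝ≥0∞ :=
  ⨆ (τ : (Fin s → MK.Pts) → ℂ) (_ : HolFS H s (H.f y) τ) (_ : Cls H v s (H.f y) τ),
    ‖τ (fun _ => y)‖ₑ ^ p / II H u p ε (H.f y) τ

lemma le_bEc (u : Fin s → MK.B) (v : Fin q → MK.B) (p ε : ℝ) {y : MK.Pts}
    {τ : (Fin s → MK.Pts) → ℂ} (hτ : HolFS H s (H.f y) τ) (hc : Cls H v s (H.f y) τ) :
    ‖τ (fun _ => y)‖ₑ ^ p / II H u p ε (H.f y) τ ≤ bEc H u v p ε y := by
  unfold bEc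
  exact le_iSup_of_le τ (le_iSup_of_le hτ (le_iSup_of_le hc le_rfl))

lemma bEc_le_iff (u : Fin s → MK.B) (v : Fin q → MK.B) (p ε : ℝ) (y : MK.Pts) (B : ℝ≥0∞) :
    bEc H u v p ε y ≤ B ↔ ∀ τ : (Fin s → MK.Pts) → ℂ, HolFS H s (H.f y) τ →
      Cls H v s (H.f y) τ → ‖τ (fun _ => y)‖ₑ ^ p / II H u p ε (H.f y) τ ≤ B := by
  unfold bEc
  simp only [iSup_le_iff]

lemma bEc_le_bAll (u : Fin s → MK.B) (v : Fin q → MK.B) (p ε : ℝ) (y : MK.Pts) :
    bEc H u v p ε y ≤ C1gr_505.bAll H u p ε y := by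
  rw [bEc_le_iff]
  intro τ hτ _
  exact C1gr_505.le_bAll H u p ε (fun y hy => hτ y hy)

variable {H}

lemma bEc_ne_top (u : Fin s → MK.B) (v : Fin q → MK.B) {p ε : ℝ} (hp : 0 < p) (hε : 0 ≤ ε)
    (y : MK.Pts) : bEc H u v p ε y ≠ ∞ :=
  ne_top_of_le_ne_top (C1gr_505.bAll_ne_top H u hp hε y) (bEc_le_bAll H u v p ε y)

variable (H)

/-- the real kernel -/
def bRc (u : Fin s → MK.B) (v : Fin q → MK.B) (p ε : ℝ) (y : MK.Pts) : ℝ :=
  (bEc H u v p ε y).toReal

/-- **the weight `b₁`** -/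
def b1w (u : Fin s → MK.B) (v : Fin q → MK.B) (p ε : ℝ) : MK.Pts → ℝ := ush (bRc H u v p ε)

variable {H}

lemma ofReal_bRc (u : Fin s → MK.B) (v : Fin q → MK.B) {p ε : ℝ} (hp : 0 < p) (hε : 0 ≤ ε)
    (y : MK.Pts) : ENNReal.ofReal (bRc H u v p ε y) = bEc H u v p ε y :=
  ENNReal.ofReal_toReal (bEc_ne_top u v hp hε y)

theorem gr_b1w (u : Fin s → MK.B) (v : Fin q → MK.B) {p ε : ℝ} (hp : 0 < p) (hε : 0 ≤ ε) :
    LocB (bRc H u v p ε) ∧ PGr MK (bRc H u v p ε) ∧ PGr MK (b1w H u v p ε) ∧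
      (∀ y, 0 ≤ b1w H u v p ε y) ∧ ∀ y, bRc H u v p ε y ≤ b1w H u v p ε y :=
  C1gr_505.gr_all H u hp hε (fun _ => ENNReal.toReal_nonneg) fun y => by
    rw [ofReal_bRc u v hp hε]
    exact bEc_le_bAll H u v p ε y

/-! ### the test functions -/

/-- evaluation of elements is holomorphic on the `s`-fold fibre -/
lemma analyticAt_evS (H : Rel ML MK) {z : ML.Pts} {y : Fin s → MK.Pts} (hy : ∀ i, H.f (y i) = z)
    (w : MK.B) (i : Fin s) : AnalyticAt ℂ (fun x : Fin s → Cn r =>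
      ((ch (y i)).symm (Fin.append (ML.pz z) (x i))) w) fun i => fc (y i) := by
  have h4 : AnalyticAt ℂ ((fun y : MK.Pts => y w) ∘ (ch (y i)).symm) (MK.pz (y i)) :=
    (Crest.Agent.R276.AB2_590.holA_iff MK.hch).mpr (Crest.Agent.R276.AB2_590.holB_ev w) (y i)
  have h5 : cat (ML.pz z) (fc (y i)) = MK.pz (y i) := by
    have := append_fc H (y i)
    rwa [hy i] at this
  have h6 : AnalyticAt ℂ (fun x : Cn r => cat (ML.pz z) x) (fc (y i)) := analyticAt_cat _ _
  have h7 : AnalyticAt ℂ (fun x : Cn r =>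
      ((fun y : MK.Pts => y w) ∘ (ch (y i)).symm) (cat (ML.pz z) x)) (fc (y i)) := by
    refine AnalyticAt.comp (g := (fun y : MK.Pts => y w) ∘ (ch (y i)).symm) ?_ h6
    rw [h5]; exact h4
  exact AnalyticAt.comp (g := fun x : Cn r =>
      ((fun y : MK.Pts => y w) ∘ (ch (y i)).symm) (cat (ML.pz z) x))
    (f := fun x' : Fin s → Cn r => x' i) h7
    ((ContinuousLinearMap.proj (R := ℂ) (φ := fun _ : Fin s => Cn r) i).analyticAt _)

/-- products of elements over the factors -/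
lemma holFS_prod (H : Rel ML MK) (z : ML.Pts) (w : MK.B) :
    HolFS H s z (fun y => ∏ j, y j w) := by
  intro y hy
  refine Finset.analyticAt_fun_prod _ fun i _ => ?_
  exact analyticAt_evS H hy w i

lemma evs_eq (u : Fin s → MK.B) (P : MvPolynomial (Fin s) ℂ) (y : MK.Pts) :
    evs u P y = y (MvPolynomial.aeval u P) := by
  unfold SkelDefs_220.evs
  have h : y (MvPolynomial.aeval u P) = (y.comp (MvPolynomial.aeval u)) P := rfl
  rw [h, MvPolynomial.comp_aeval]
  rfl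

/-- a homogeneous polynomial in `u` is bounded by the monomials -/
lemma evs_bound (u : Fin s → MK.B) (v : Fin q → MK.B) {d : ℕ}
    (hv : ∀ α : Fin s →₀ ℕ, α.degree = d → ∃ i, v i = ∏ j, u j ^ α j)
    {P : MvPolynomial (Fin s) ℂ} (hP : P.IsHomogeneous d) :
    ∃ C : ℝ, 0 ≤ C ∧ ∀ y : MK.Pts, ‖evs u P y‖ ^ 2 ≤ C * ∑ i, ‖y (v i)‖ ^ 2 := by
  refine ⟨(∑ α ∈ P.support, ‖P.coeff α‖) ^ 2, by positivity, fun y => ?_⟩
  set S : ℝ := ∑ i, ‖y (v i)‖ ^ 2 with hS
  have hS0 : 0 ≤ S := Finset.sum_nonneg fun i _ => by positivity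
  have h1 : ‖evs u P y‖ ≤ (∑ α ∈ P.support, ‖P.coeff α‖) * Real.sqrt S := by
    unfold SkelDefs_220.evs
    rw [MvPolynomial.eval_eq', Finset.sum_mul]
    refine (norm_sum_le _ _).trans (Finset.sum_le_sum fun α hα => ?_)
    rw [norm_mul]
    refine mul_le_mul_of_nonneg_left ?_ (norm_nonneg _)
    have hdeg : α.degree = d := by
      have h2 := hP (MvPolynomial.mem_support_iff.1 hα)
      rw [Finsupp.degree_eq_weight_one]
      exact h2
    obtain ⟨i, hi⟩ := hv α hdeg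
    have h3 : (∏ j, y (u j) ^ α j) = y (v i) := by
      rw [hi, map_prod]
      simp only [map_pow]
    rw [h3]
    refine Real.le_sqrt_of_sq_le ?_
    exact Finset.single_le_sum (f := fun i => ‖y (v i)‖ ^ 2) (fun i _ => by positivity)
      (Finset.mem_univ i)
  calc ‖evs u P y‖ ^ 2 ≤ ((∑ α ∈ P.support, ‖P.coeff α‖) * Real.sqrt S) ^ 2 :=
        pow_le_pow_left₀ (norm_nonneg _) h1 2
    _ = _ := by rw [mul_pow, Real.sq_sqrt hS0]

/-- **the inequality `low`** at one point -/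
theorem low_point (u : Fin s → MK.B) (v : Fin q → MK.B) {N N' N₁ k l : ℕ}
    (hN : 0 < N) (hN' : 0 < N') (hk : 0 < k) {ε : ℝ} (hε : 0 ≤ ε)
    (hN₁ : (N₁ : ℝ) = N' * (1 + ε * N)) (hl : N₁ = N * (k * l))
    (hv : ∀ α : Fin s →₀ ℕ, α.degree = k * l → ∃ i, v i = ∏ j, u j ^ α j)
    {P : MvPolynomial (Fin s) ℂ} (hP : P.IsHomogeneous k) {y : MK.Pts}
    (hI : Ieps H N k u ε (H.f y) (evs u P) ≠ ∞) :
    ‖evs u P y‖ₑ ^ (2 * s * (1 + ε * N) / (k * N)) ≤
      ENNReal.ofReal (b1w H u v (2 / (N' : ℝ)) ε y) * Ieps H N k u ε (H.f y) (evs u P) := by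
  have hp : (0 : ℝ) < 2 / N' := by positivity
  obtain ⟨-, -, -, -, hle⟩ := gr_b1w (H := H) u v (p := 2 / (N' : ℝ)) hp hε
  -- the test function
  set τ : (Fin s → MK.Pts) → ℂ := fun y => ∏ j, (evs u P (y j)) ^ l with hτ
  have hτe : τ = fun y => ∏ j, y j ((MvPolynomial.aeval u P) ^ l) := by
    funext y
    rw [hτ]
    refine Finset.prod_congr rfl fun j _ => ?_
    rw [evs_eq, map_pow]
  have hhol : HolFS H s (H.f y) τ := by
    rw [hτe]; exact holFS_prod H _ _
  have hcls : Cls H v s (H.f y) τ := by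
    have hPl : (P ^ l).IsHomogeneous (k * l) := hP.pow l
    obtain ⟨C, hC0, hC⟩ := evs_bound u v hv hPl
    refine ⟨C ^ s, fun y' _ => ?_⟩
    have h1 : ‖τ y'‖ ^ 2 = ∏ j, ‖evs u (P ^ l) (y' j)‖ ^ 2 := by
      rw [hτ]
      simp only
      rw [norm_prod, ← Finset.prod_pow]
      refine Finset.prod_congr rfl fun j _ => ?_
      unfold SkelDefs_220.evs
      rw [map_pow]
    rw [h1]
    calc ∏ j, ‖evs u (P ^ l) (y' j)‖ ^ 2 ≤ ∏ j, (C * ∑ i, ‖y' j (v i)‖ ^ 2) :=
          Finset.prod_le_prod (fun j _ => by positivity) fun j _ => hC (y' j)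
      _ = C ^ s * ∏ j, ∑ i, ‖y' j (v i)‖ ^ 2 := by
          rw [Finset.prod_mul_distrib]; simp
  -- exponents
  have hNk : (l : ℝ) * (2 / N') = 2 * (1 + ε * N) / (k * N) := by
    have hk0 : (k : ℝ) ≠ 0 := by positivity
    have hN0 : (N : ℝ) ≠ 0 := by positivity
    have hN'0 : (N' : ℝ) ≠ 0 := by positivity
    have h1 : (N : ℝ) * (k * l) = N' * (1 + ε * N) := by
      rw [← hN₁, hl]; push_cast; ring
    field_simp
    linear_combination h1
  have hInt : II H u (2 / (N' : ℝ)) ε (H.f y) τ = Ieps H N k u ε (H.f y) (evs u P) := by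
    unfold II Ieps
    congr 1
    funext y'
    congr 1
    rw [hτ]
    simp only
    rw [← ofReal_norm, norm_prod, ENNReal.ofReal_prod_of_nonneg (fun _ _ => norm_nonneg _)]
    refine (ENNReal.prod_rpow_of_nonneg hp.le).symm.trans ?_
    refine Finset.prod_congr rfl fun j _ => ?_
    rw [norm_pow, ENNReal.ofReal_pow (norm_nonneg _), ofReal_norm, ← ENNReal.rpow_natCast,
      ← ENNReal.rpow_mul, hNk]
  have hval : ‖τ (fun _ => y)‖ₑ ^ (2 / (N' : ℝ)) =
      ‖evs u P y‖ₑ ^ (2 * s * (1 + ε * N) / (k * N)) := by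
    rw [hτ]
    simp only [Finset.prod_const, Finset.card_univ, Fintype.card_fin]
    rw [enorm_pow, enorm_pow, ← pow_mul, ← ENNReal.rpow_natCast, ← ENNReal.rpow_mul]
    congr 1
    push_cast
    have : (l : ℝ) * s * (2 / N') = s * (l * (2 / N')) := by ring
    rw [this, hNk]
    ring
  have h1 := le_bEc H u v (2 / (N' : ℝ)) ε hhol hcls
  rw [hInt, hval] at h1
  have h2 : bEc H u v (2 / (N' : ℝ)) ε y ≤ ENNReal.ofReal (b1w H u v (2 / (N' : ℝ)) ε y) := by
    rw [← ofReal_bRc u v hp hε]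
    exact ENNReal.ofReal_le_ofReal (hle y)
  rw [← ENNReal.div_le_iff_le_mul (Or.inr ENNReal.ofReal_ne_top) (Or.inl hI)]
  exact h1.trans h2

end rel

/-! ### assembly -/

variable {T L K : Type} [Field T] [Field L] [Field K] [Algebra ℂ T] [Algebra ℂ L] [Algebra ℂ K]
  [Algebra T L] [Algebra L K] [IsScalarTower ℂ T L] [IsScalarTower ℂ L K] {ρ a r : ℕ}
  {MT : Mdl T ρ} {ML : Mdl L (ρ + a)} {MK : Mdl K (ρ + a + r)}
  (H₁ : Rel MT ML) (H₂ : Rel ML MK)

/-- **`C1` from plurisubharmonicity** -/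
theorem c1_of_psh (b : Module.Basis (Fin r) K (Ω[K⁄L])) (hb : IsRelBasis MK b)
    {s N N' N₁ k l q : ℕ} (hN : 0 < N) (hN' : 0 < N') (hk : 0 < k) {ε : ℝ} (hε : 0 ≤ ε)
    (hN₁ : (N₁ : ℝ) = N' * (1 + ε * N)) (hl : N₁ = N * (k * l))
    (u : Fin s → MK.B) (hu : ∀ i, PluriS L b N (u i : K)) (v : Fin q → MK.B)
    (hv : ∀ i, PluriS L b N₁ (v i : K))
    (hmon : ∀ α : Fin s →₀ ℕ, α.degree = k * l → ∃ i, v i = ∏ j, u j ^ α j)
    {D : ML.Pts → ℝ} (hD : IsCY H₂ N u D) (hDc : Continuous D)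
    (hpsh : LPsh (b1w H₂ u v (2 / (N' : ℝ)) ε)) :
    C1 H₁ H₂ N k u D ε (b1w H₂ u v (2 / (N' : ℝ)) ε) := by
  have hp : (0 : ℝ) < 2 / N' := by positivity
  refine ⟨hpsh, (gr_b1w u v hp hε).2.2.1, fun R _ => ?_, ?_⟩
  · refine c1_field (H₁ := H₁) (H₂ := H₂) b hb hN hN' hε hN₁ u hu v hv hD hDc
      (bRc H₂ u v (2 / (N' : ℝ)) ε) (fun y B hB0 hB => ?_) R
    refine ENNReal.toReal_le_of_le_ofReal hB0 ?_
    rw [bEc_le_iff]
    intro τ hτ hc
    exact ENNReal.div_le_of_le_mul (hB τ hτ hc)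
  · refine Filter.Eventually.of_forall fun c z _ P hP hI y hy => ?_
    subst hy
    exact low_point u v hN hN' hk hε hN₁ hl hmon hP hI

end Crest.Agent.R276.C1bd_986
end
end

-- ▼ part R276/AnnG_986
section

/-!
# Row 276, W1 (helper986): from annuli to `LPsh`, with a dense set of good points

The kernel `b` of (C1) is controlled (closure (Cl)) only over the good points `G = {h ≠ 0}`.  The
mean inequality is available for every disc which meets `G` (centre arbitrary), against usc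
majorants of `b` on `G`.  Then `ush b` is log-psh.
-/

set_option autoImplicit false
set_option linter.unusedSectionVars false

open MeasureTheory Set Metric Filter Topology
open scoped ENNReal

noncomputable section

namespace Crest.Agent.R276.AnnG_986

open Crest.Agent.R275.FL606 Crest.Agent.R271.Ho51 Crest.Agent.R273.Reg_844
open Crest.Agent.R276.PV_159 (Ann isOpen_Ann measurableSet_Ann Ann_sub vol_Ann_lt vol_Ann_pos)
open Crest.Agent.R276.EngU_29 (LPsh)
open Crest.Agent.R276.Ann_696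

variable {n : ℕ} {M : Type*} [TopologicalSpace M] [RDom n M]

/-- retraction onto the closed unit disc -/
def ret (t : ℂ) : ℂ := ((1 / max 1 ‖t‖ : ℝ) : ℂ) * t

lemma continuous_ret : Continuous ret := by
  refine (Complex.continuous_ofReal.comp ?_).mul continuous_id
  refine continuous_const.div (continuous_const.max continuous_norm) fun t => ?_
  exact (lt_of_lt_of_le one_pos (le_max_left _ _)).ne'

lemma norm_ret (t : ℂ) : ‖ret t‖ ≤ 1 := by
  have hm : 0 < max 1 ‖t‖ := lt_of_lt_of_le one_pos (le_max_left _ _)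
  unfold ret
  rw [norm_mul, Complex.norm_real, Real.norm_eq_abs, abs_of_pos (div_pos one_pos hm),
    div_mul_eq_mul_div, div_le_iff₀ hm, one_mul, one_mul]
  exact le_max_right _ _

lemma ret_eq {t : ℂ} (ht : ‖t‖ ≤ 1) : ret t = t := by
  unfold ret
  rw [max_eq_left ht, div_one, Complex.ofReal_one, one_mul]

/-- small annuli around the centre: the mean of a usc function is at most its value plus `ε` -/
theorem le_of_small_ann {u : M → ℝ} (hu : UpperSemicontinuous u) (hub : LocB u)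
    {e : OpenPartialHomeomorph M (Fin n → ℂ)} {z v : Fin n → ℂ} {R : ℝ} (hR : 1 < R)
    (hd : ∀ t : ℂ, ‖t‖ < R → z + t • v ∈ e.target) {c : ℝ}
    (hc : ∀ r2, 0 < r2 → r2 < R → c ≤ ⨍ t in Ann 0 r2, u (e.symm (z + t • v))) :
    c ≤ u (e.symm z) := by
  refine le_of_forall_gt_imp_ge_of_dense fun a ha => ?_
  have hcont : Continuous fun t : ℂ => e.symm (z + ret t • v) := by
    refine e.symm.continuousOn.comp_continuous ?_ fun t => ?_
    · exact continuous_const.add (continuous_ret.smul continuous_const)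
    · exact hd _ ((norm_ret t).trans_lt hR)
  set g : ℂ → ℝ := fun t => u (e.symm (z + ret t • v)) with hg
  have hgu : UpperSemicontinuous g := hu.comp hcont
  have hg0 : g 0 = u (e.symm z) := by
    simp only [hg]
    rw [ret_eq (by simp), zero_smul, add_zero]
  obtain ⟨K, hK⟩ : ∃ K, ∀ t, |g t| ≤ K := by
    have hcomp : IsCompact ((fun w : ℂ => e.symm (z + ret w • v)) '' closedBall 0 1) :=
      (isCompact_closedBall (0 : ℂ) 1).image hcont
    obtain ⟨K, hK⟩ := hub.exists_bound hcomp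
    refine ⟨K, fun t => hK _ ⟨ret t, ?_, ?_⟩⟩
    · rw [mem_closedBall_zero_iff]; exact norm_ret t
    · simp only
      rw [ret_eq (norm_ret t)]
  have h1 : ∀ᶠ t in 𝓝 (0 : ℂ), g t < a := hgu 0 a (show g 0 < a by rw [hg0]; exact ha)
  obtain ⟨r, hr, hball⟩ := Metric.eventually_nhds_iff.1 h1
  set r2 := min r 1 with hr2
  have hr20 : 0 < r2 := lt_min hr one_pos
  have hr21 : r2 ≤ 1 := min_le_right _ _
  refine (hc r2 hr20 (lt_of_le_of_lt hr21 hR)).trans ?_
  have hV : 0 < volume.real (Ann 0 r2) :=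
    ENNReal.toReal_pos (vol_Ann_pos le_rfl hr20).ne' (vol_Ann_lt 0 r2).ne
  have : IsFiniteMeasure (volume.restrict (Ann 0 r2)) := ⟨by
    rw [Measure.restrict_apply_univ]; exact vol_Ann_lt 0 r2⟩
  have e1 : ∫ t in Ann 0 r2, u (e.symm (z + t • v)) = ∫ t in Ann 0 r2, g t := by
    refine setIntegral_congr_fun (measurableSet_Ann 0 r2) fun t ht => ?_
    simp only [hg]
    rw [ret_eq (ht.2.le.trans hr21)]
  have hint : IntegrableOn g (Ann 0 r2) :=
    Integrable.of_bound hgu.measurable.aestronglyMeasurable K (Eventually.of_forall fun t => by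
      rw [Real.norm_eq_abs]; exact hK t)
  have h2 : ∫ t in Ann 0 r2, g t ≤ ∫ t in Ann 0 r2, a := by
    refine setIntegral_mono_on hint (integrableOn_const (vol_Ann_lt 0 r2).ne)
      (measurableSet_Ann 0 r2) fun t ht => ?_
    refine (hball ?_).le
    rw [dist_zero_right]
    exact ht.2.trans_le (min_le_left _ _)
  rw [setAverage_eq, e1, smul_eq_mul, ← div_eq_inv_mul, div_le_iff₀ hV]
  rw [setIntegral_const, smul_eq_mul] at h2
  linarith

/-- **from annuli to `LPsh`, only discs meeting a dense set `G`, only majorants on `G`** -/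
theorem lpsh_ush_good {b : M → ℝ} (h0 : ∀ x, 0 ≤ b x) (hb : ∀ x, ∃ K : ℝ, ∀ᶠ y in 𝓝 x, b y ≤ K)
    {G : Set M} (hG : Dense G)
    (hyp : ∀ e : OpenPartialHomeomorph M (Fin n → ℂ), IsCh e → ∀ (z v : Fin n → ℂ) (R : ℝ), 1 < R →
      (∀ t : ℂ, ‖t‖ < R → z + t • v ∈ e.target) →
      (∃ t : ℂ, ‖t‖ < R ∧ e.symm (z + t • v) ∈ G) →
      ∀ u : M → ℝ, UpperSemicontinuous u → LocB u →
      (∀ x ∈ G, b x ≤ Real.exp (u x)) → ∀ r1 r2 : ℝ, 0 ≤ r1 → r1 < r2 → r2 < R →
      b (e.symm z) ≤ Real.exp (⨍ t in Ann r1 r2, u (e.symm (z + t • v)))) :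
    LPsh (ush b) := by
  classical
  set b' : M → ℝ := G.indicator b with hb'
  have hle : ∀ x, b' x ≤ b x := fun x => indicator_le_self' (fun _ _ => h0 x) x
  have h0' : ∀ x, 0 ≤ b' x := fun x => indicator_nonneg (fun y _ => h0 y) x
  have hbb' : ∀ x, ∃ K : ℝ, ∀ᶠ y in 𝓝 x, b' y ≤ K := fun x => by
    obtain ⟨K, hK⟩ := hb x
    exact ⟨K, hK.mono fun y hy => (hle y).trans hy⟩
  have hL : LocB b := fun x => by
    obtain ⟨K, hK⟩ := hb x
    refine ⟨|K|, hK.mono fun y hy => ?_⟩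
    rw [abs_of_nonneg (h0 y)]
    exact hy.trans (le_abs_self K)
  have hL' : LocB b' := fun x => by
    obtain ⟨K, hK⟩ := hbb' x
    refine ⟨|K|, hK.mono fun y hy => ?_⟩
    rw [abs_of_nonneg (h0' y)]
    exact hy.trans (le_abs_self K)
  -- the cut off kernel
  have hpsh : LPsh (ush b') := by
    refine lpsh_ush h0' hbb' fun e he z v R hR hd u hu1 hu2 hbu r1 r2 h1 h12 h2 => ?_
    by_cases hz : e.symm z ∈ G
    · rw [hb', indicator_of_mem hz]
      refine hyp e he z v R hR hd ⟨0, by rw [norm_zero]; linarith, by simpa using hz⟩ u hu1 hu2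
        (fun x hx => ?_) r1 r2 h1 h12 h2
      have := hbu x
      rwa [hb', indicator_of_mem hx] at this
    · rw [hb', indicator_of_notMem hz]
      exact (Real.exp_pos _).le
  -- the full kernel is below
  have hkey : ∀ x, b x ≤ ush b' x := by
    intro x
    refine le_of_forall_pos_le_add fun δ hδ => ?_
    set U : M → ℝ := fun y => Real.log (ush b' y + δ) with hU
    have hup : ∀ y, 0 < ush b' y + δ := fun y => by
      have := (h0' y).trans (hL'.le_ush y)
      linarith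
    have hU1 : UpperSemicontinuous U := by
      set F : ℝ → ℝ := fun s => Real.log (max (s + δ) δ) with hF
      have hFc : Continuous F := by
        refine Continuous.log (by fun_prop) fun s => ?_
        exact (lt_of_lt_of_le hδ (le_max_right _ _)).ne'
      have hFm : Monotone F := fun s s' hs =>
        Real.log_le_log (lt_of_lt_of_le hδ (le_max_right _ _)) (max_le_max (by linarith) le_rfl)
      have hUF : U = fun y => F (ush b' y) := by
        funext y
        have := (h0' y).trans (hL'.le_ush y)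
        simp only [hU, hF]
        rw [max_eq_left (by linarith)]
      rw [hUF]
      exact hFc.comp_upperSemicontinuous hL'.ush_usc hFm
    have hU2 : LocB U := by
      intro y
      obtain ⟨K, hK⟩ := hL'.ush_locB y
      refine ⟨|Real.log δ| + |Real.log (K + δ)|, hK.mono fun w hw => ?_⟩
      have h1 := (abs_le.1 hw).2
      have hw0 := (h0' w).trans (hL'.le_ush w)
      have h2 : Real.log δ ≤ U w := Real.log_le_log hδ (by linarith)
      have h3 : U w ≤ Real.log (K + δ) := Real.log_le_log (hup w) (by linarith)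
      rw [abs_le]
      constructor
      · have := neg_abs_le (Real.log δ)
        have := abs_nonneg (Real.log (K + δ))
        linarith
      · have := le_abs_self (Real.log (K + δ))
        have := abs_nonneg (Real.log δ)
        linarith
    have hbU : ∀ y ∈ G, b y ≤ Real.exp (U y) := by
      intro y hy
      rw [hU]
      simp only
      rw [Real.exp_log (hup y)]
      have h1 : b' y = b y := indicator_of_mem hy b
      have h2 := hL'.le_ush y
      linarith
    -- the chart at `x` and a disc which meets `G`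
    set e := (ch x : OpenPartialHomeomorph M (Fin n → ℂ)) with he
    have hxs : x ∈ e.source := mem_ch x
    obtain ⟨ε, hε, hball⟩ := Metric.isOpen_iff.1 e.open_target (e x) (e.map_source hxs)
    have hopen : IsOpen (e.source ∩ e ⁻¹' ball (e x) (ε / 2)) :=
      e.isOpen_inter_preimage isOpen_ball
    obtain ⟨x1, hx1, hx1G⟩ := hG.inter_open_nonempty _ hopen
      ⟨x, hxs, mem_ball_self (by linarith)⟩
    have hvn : ‖e x1 - e x‖ < ε / 2 := by
      have := hx1.2
      rwa [mem_preimage, mem_ball, dist_eq_norm] at this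
    have hd : ∀ t : ℂ, ‖t‖ < 2 → e x + t • (e x1 - e x) ∈ e.target := by
      intro t ht
      refine hball ?_
      rw [mem_ball, dist_eq_norm, add_sub_cancel_left, norm_smul]
      have h1 : ‖t‖ * ‖e x1 - e x‖ ≤ 2 * ‖e x1 - e x‖ :=
        mul_le_mul_of_nonneg_right ht.le (norm_nonneg _)
      linarith
    have hgood : ∃ t : ℂ, ‖t‖ < 2 ∧ e.symm (e x + t • (e x1 - e x)) ∈ G := by
      refine ⟨1, by norm_num, ?_⟩
      rw [one_smul, add_sub_cancel, e.left_inv hx1.1]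
      exact hx1G
    have hmean : ∀ r2 : ℝ, 0 < r2 → r2 < 2 →
        b x ≤ Real.exp (⨍ t in Ann 0 r2, U (e.symm (e x + t • (e x1 - e x)))) := by
      intro r2 hr hr2
      have := hyp e (isCh_ch x) (e x) (e x1 - e x) 2 (by norm_num) hd hgood U hU1 hU2 hbU 0 r2
        le_rfl hr hr2
      rwa [e.left_inv hxs] at this
    rcases eq_or_lt_of_le (h0 x) with hx0 | hx0
    · rw [← hx0]; exact (hup x).le
    · have h1 : Real.log (b x) ≤ U (e.symm (e x)) := by
        refine le_of_small_ann hU1 hU2 (by norm_num) hd fun r2 hr hr2 => ?_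
        rw [Real.log_le_iff_le_exp hx0]
        exact hmean r2 hr hr2
      rw [e.left_inv hxs, hU] at h1
      exact (Real.log_le_log_iff hx0 (hup x)).1 h1
  have heq : ush b = ush b' := by
    funext x
    refine le_antisymm (ush_le_of_le hL'.ush_usc hkey x) ?_
    exact ush_le_of_le hL.ush_usc (fun y => (hle y).trans (hL.le_ush y)) x
  rw [heq]
  exact hpsh

end Crest.Agent.R276.AnnG_986
end
end

-- ▼ part R276/DiscA_986
section

/-!
# Row 276, W1 (helper986): the mean inequality of the kernel of (C1) over a disc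

`DD`: the `s`-fold fibre product over a disc of `M_L` as a Stein family `Dom R` over the disc, with
the diagonal section; `disc_le`: 185's theorem `nb` in terms of the kernel `bRc`.
-/

set_option autoImplicit false
set_option linter.unusedSectionVars false
set_option linter.unusedVariables false

noncomputable section

open Set Filter Topology Complex MeasureTheory Metric
open scoped ENNReal BigOperators

namespace Crest.Agent.R276.DiscA_986

open Crest.Agent.R271 Crest.Agent.R271.Defs710 Crest.Agent.R271.Rd692 Crest.Agent.R271.Ho51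
open Crest.Agent.R276.Mod1_987 Crest.Agent.R276.FKDefs_779 Crest.Agent.R276.SkelDefs_220
open Crest.Agent.R276.C1bd_986 Crest.Agent.R276.W1_185
open Crest.Agent.R276.PV_159 (Dom Sec FHol fi fi_mono fi_congr pn Ann isOpen_Ann measurableSet_Ann
  vol_Ann_lt vol_Ann_pos Dom.nrm)
open Crest.Agent.R276.NbD_185 (NB wi SS nb)
open Crest.Agent.R276.OTB_189 (OTB)
open Crest.Agent.R273.Reg_844 (ush LocB)

variable {L K : Type} [Field L] [Field K] [Algebra ℂ L] [Algebra ℂ K] [Algebra L K]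
  [IsScalarTower ℂ L K] {m r : ℕ} {ML : Mdl L m} {MK : Mdl K (m + r)}

/-- the `s`-fold fibre product of `M_K` over a disc `c` of `M_L`, as a family over the disc; `y` is
the disc of `M_K` which gives the diagonal section. -/
structure DD (H : Rel ML MK) (s : ℕ) (R : ℝ) (c : ℂ → ML.Pts) (y : ℂ → MK.Pts) (D : Dom R) where
  Φ : D.P → Fin s → MK.Pts
  fib : ∀ x i, H.f (Φ x i) = c (PV_159.tc x)
  surj : ∀ t : ℂ, ‖t‖ < R → ∀ w : Fin s → MK.Pts, (∀ i, H.f (w i) = c t) →
    ∃ x : D.P, PV_159.tc x = t ∧ Φ x = w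
  fi_eq : ∀ t : ℂ, ‖t‖ < R → ∀ G : (Fin s → MK.Pts) → ℝ≥0∞,
    fi (fun x : D.P => G (Φ x)) t = H.fintS s (c t) G
  to_hol : ∀ t : ℂ, ‖t‖ < R → ∀ τ : (Fin s → MK.Pts) → ℂ, HolFS H s (c t) τ →
    FHol t (fun x : D.P => τ (Φ x))
  of_hol : ∀ t : ℂ, ‖t‖ < R → ∀ f : D.P → ℂ, FHol t f → ∃ τ : (Fin s → MK.Pts) → ℂ,
    HolFS H s (c t) τ ∧ ∀ x : D.P, PV_159.tc x = t → τ (Φ x) = f x
  sec : Sec D
  sec_eq : ∀ t : ℂ, ‖t‖ < R → Φ (sec.x t) = fun _ => y t

/-! ### small facts -/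

/-- retraction onto the closed disc of radius `ρ` -/
def retr (ρ : ℝ) (t : ℂ) : ℂ := ((ρ / max ρ ‖t‖ : ℝ) : ℂ) * t

lemma continuous_retr {ρ : ℝ} (hρ : 0 < ρ) : Continuous (retr ρ) := by
  refine (Complex.continuous_ofReal.comp ?_).mul continuous_id
  refine continuous_const.div (continuous_const.max continuous_norm) fun t => ?_
  exact (lt_of_lt_of_le hρ (le_max_left _ _)).ne'

lemma norm_retr {ρ : ℝ} (hρ : 0 < ρ) (t : ℂ) : ‖retr ρ t‖ ≤ ρ := by
  have hm : 0 < max ρ ‖t‖ := lt_of_lt_of_le hρ (le_max_left _ _)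
  unfold retr
  rw [norm_mul, Complex.norm_real, Real.norm_eq_abs, abs_of_pos (div_pos hρ hm),
    div_mul_eq_mul_div, div_le_iff₀ hm]
  exact mul_le_mul_of_nonneg_left (le_max_right _ _) hρ.le

lemma retr_eq {ρ : ℝ} (hρ : 0 < ρ) {t : ℂ} (ht : ‖t‖ ≤ ρ) : retr ρ t = t := by
  unfold retr
  rw [max_eq_left ht, div_self hρ.ne', Complex.ofReal_one, one_mul]

/-- a usc locally bounded function along a continuous disc is bounded and integrable on annuli -/
lemma integrable_along {M : Type*} [TopologicalSpace M] {g : M → ℝ} (hg : UpperSemicontinuous g)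
    (hgb : LocB g) {y : ℂ → M} {R : ℝ} (hy : ContinuousOn y (ball 0 R)) {r1 r2 : ℝ} (hr1 : 0 ≤ r1)
    (hr : r1 < r2) (hrR : r2 < R) :
    ∃ K : ℝ, (∀ t ∈ Ann r1 r2, |g (y t)| ≤ K) ∧ IntegrableOn (fun t => g (y t)) (Ann r1 r2) := by
  have h2 : 0 < r2 := lt_of_le_of_lt hr1 hr
  have hcont : Continuous fun t : ℂ => y (retr r2 t) := by
    refine hy.comp_continuous (continuous_retr h2) fun t => ?_
    rw [mem_ball_zero_iff]
    exact (norm_retr h2 t).trans_lt hrR
  set f : ℂ → ℝ := fun t => g (y (retr r2 t)) with hf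
  have hfu : UpperSemicontinuous f := hg.comp hcont
  obtain ⟨K, hK⟩ : ∃ K, ∀ t, |f t| ≤ K := by
    have hcomp : IsCompact ((fun w : ℂ => y (retr r2 w)) '' closedBall 0 r2) :=
      (isCompact_closedBall (0 : ℂ) r2).image hcont
    obtain ⟨K, hK⟩ := hgb.exists_bound hcomp
    refine ⟨K, fun t => hK _ ⟨retr r2 t, ?_, ?_⟩⟩
    · rw [mem_closedBall_zero_iff]; exact norm_retr h2 t
    · simp only
      rw [retr_eq h2 (norm_retr h2 t)]
  have heq : ∀ t ∈ Ann r1 r2, f t = g (y t) := by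
    intro t ht
    simp only [hf]
    rw [retr_eq h2 ht.2.le]
  refine ⟨K, fun t ht => ?_, ?_⟩
  · rw [← heq t ht]; exact hK t
  · have : IsFiniteMeasure (volume.restrict (Ann r1 r2)) := ⟨by
      rw [Measure.restrict_apply_univ]; exact vol_Ann_lt r1 r2⟩
    have hint : IntegrableOn f (Ann r1 r2) :=
      Integrable.of_bound hfu.measurable.aestronglyMeasurable K (Eventually.of_forall fun t => by
        rw [Real.norm_eq_abs]; exact hK t)
    exact hint.congr_fun heq (measurableSet_Ann r1 r2)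

lemma wi_eq {z : ℂ} {ε : ℝ} (hε : 0 ≤ ε) :
    (ENNReal.ofReal (‖z‖ ^ (2 * ε)))⁻¹ = ‖z‖ₑ ^ (-(2 * ε)) := by
  rw [NbD_185.ofReal_rpow_norm (by linarith), ENNReal.rpow_neg]

variable {H : Rel ML MK} {s : ℕ} {R : ℝ} {c : ℂ → ML.Pts} {y : ℂ → MK.Pts} {D : Dom R}

/-- the weighted `p`-norms on the fibres of the family are the integrals `II` -/
lemma DD.pn_eq (T : DD H s R c y D) {u : Fin s → MK.B} {θ ε : ℝ} (hθ : 0 < θ) (hε : 0 ≤ ε) {t : ℂ}
    (ht : ‖t‖ < R) (g : D.P → ℂ) (τ : (Fin s → MK.Pts) → ℂ)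
    (hg : ∀ x : D.P, PV_159.tc x = t → τ (T.Φ x) = g x) :
    pn (2 * θ) (wi (D := D) fun x => ‖dl u (T.Φ x)‖ ^ (2 * ε)) g t = II H u (2 * θ) ε (c t) τ := by
  unfold II
  rw [← T.fi_eq t ht]
  unfold PV_159.pn
  refine fi_congr fun x hx => ?_
  rw [← hg x hx, NbD_185.ofReal_rpow_norm (by linarith)]
  congr 1
  unfold NbD_185.wi
  exact wi_eq hε

lemma DD.ss_eq (T : DD H s R c y D) (hR : 0 < R) {u : Fin s → MK.B} {θ ε : ℝ} (hθ : 0 < θ)
    (hε : 0 ≤ ε) (τ : (Fin s → MK.Pts) → ℂ) :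
    SS D θ (fun x => ‖dl u (T.Φ x)‖ ^ (2 * ε)) (fun x => τ (T.Φ x)) =
      II H u (2 * θ) ε (c 0) τ := by
  unfold II
  rw [← T.fi_eq 0 (by rwa [norm_zero])]
  unfold NbD_185.SS
  refine fi_congr fun x hx => ?_
  rw [ENNReal.div_eq_inv_mul, mul_comm, wi_eq hε]

/-- **the mean inequality over a disc** -/
theorem DD.disc_le (T : DD H s R c y D) (hOT : OTB R) {u : Fin s → MK.B} {q : ℕ}
    {v : Fin q → MK.B} {θ ε : ℝ} (hε : 0 ≤ ε)
    (hNB : NB D θ (fun x => ∏ i, Kf v (T.Φ x i)) (fun x => ‖dl u (T.Φ x)‖ ^ (2 * ε)))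
    (hy : ContinuousOn y (ball 0 R)) (hcy : ∀ t : ℂ, ‖t‖ < R → H.f (y t) = c t)
    {g : MK.Pts → ℝ} (hg : UpperSemicontinuous g) (hgb : LocB g)
    (hbg : ∀ᵐ t : ℂ, ‖t‖ < R → bRc H u v (2 * θ) ε (y t) ≤ Real.exp (g (y t)))
    {r1 r2 : ℝ} (hr1 : 0 ≤ r1) (hr : r1 < r2) (hrR : r2 < R) :
    bRc H u v (2 * θ) ε (y 0) ≤ Real.exp (⨍ t in Ann r1 r2, g (y t)) := by
  have hθ : 0 < θ := hNB.h0
  have hp : 0 < 2 * θ := by linarith
  have hR : 0 < R := lt_of_le_of_lt hr1 (hr.trans hrR)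
  have h0R : ‖(0 : ℂ)‖ < R := by rwa [norm_zero]
  set κ : ℂ → ℝ := fun t => Real.exp (g (y t)) with hκ
  have hκ0 : ∀ t, 0 < κ t := fun t => Real.exp_pos _
  have hlog : ∀ t, Real.log (κ t) = g (y t) := fun t => Real.log_exp _
  -- the bound on almost all fibres
  have hbd : ∀ᵐ t : ℂ, ‖t‖ < R → ∀ f : D.P → ℂ, FHol t f → D.nrm f t < ∞ →
      ENNReal.ofReal (‖f (T.sec.x t)‖ ^ (2 * θ)) ≤ ENNReal.ofReal (κ t) *
        pn (2 * θ) (wi (D := D) fun x => ‖dl u (T.Φ x)‖ ^ (2 * ε)) f t := by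
    filter_upwards [hbg, hNB.cl] with t hb hcl ht f hf hn
    obtain ⟨C, hC, hCb⟩ := hcl ht
    obtain ⟨τ, hτ, hτf⟩ := T.of_hol t ht f hf
    have hst : PV_159.tc (T.sec.x t) = t := T.sec.sec t (by rwa [mem_ball_zero_iff])
    rw [T.pn_eq hθ hε ht f τ hτf]
    -- `τ` is in the class
    have hcls : Cls H v s (c t) τ := by
      refine ⟨(C * D.nrm f t).toReal, fun w hw => ?_⟩
      obtain ⟨x, hx, hxw⟩ := T.surj t ht w hw
      have h1 := hCb f hf hn x hx
      have h2 : ENNReal.ofReal (‖τ w‖ ^ 2) ≤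
          ENNReal.ofReal ((C * D.nrm f t).toReal * ∏ j, ∑ i, ‖w j (v i)‖ ^ 2) := by
        rw [ENNReal.ofReal_mul ENNReal.toReal_nonneg,
          ENNReal.ofReal_toReal (ENNReal.mul_ne_top hC hn.ne)]
        rw [← hτf x hx, hxw] at h1
        calc ENNReal.ofReal (‖τ w‖ ^ 2) ≤ C * ENNReal.ofReal (∏ i, Kf v (w i)) * D.nrm f t := h1
          _ = _ := by
            unfold Kf
            ring
      exact (ENNReal.ofReal_le_ofReal_iff (mul_nonneg ENNReal.toReal_nonneg
        (Finset.prod_nonneg fun j _ => Finset.sum_nonneg fun i _ => by positivity))).1 h2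
    have e1 : H.f (y t) = c t := hcy t ht
    have h3 : ‖τ (fun _ => y t)‖ₑ ^ (2 * θ) / II H u (2 * θ) ε (H.f (y t)) τ ≤
        ENNReal.ofReal (κ t) := by
      refine (le_bEc H u v (2 * θ) ε (y := y t) (by rwa [e1]) (by rwa [e1])).trans ?_
      rw [← ofReal_bRc u v hp hε]
      exact ENNReal.ofReal_le_ofReal (hb ht)
    rw [e1, ENNReal.div_le_iff_le_mul (Or.inr ENNReal.ofReal_ne_top)
      (Or.inr (ENNReal.ofReal_pos.2 (hκ0 t)).ne')] at h3
    rw [← hτf _ hst, T.sec_eq t ht, NbD_185.ofReal_rpow_norm hp.le]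
    exact h3
  -- the centre
  obtain ⟨K0, hK0, hint⟩ := integrable_along hg hgb hy hr1 hr hrR
  have hmain : bEc H u v (2 * θ) ε (y 0) ≤ ENNReal.ofReal (Real.exp (⨍ t in Ann r1 r2, g (y t))) := by
    rw [bEc_le_iff]
    intro τ hτ hcls
    rw [hcy 0 h0R] at hτ hcls ⊢
    obtain ⟨C, hC⟩ := hcls
    have hUK : ∀ x : D.P, PV_159.tc x = 0 → ‖τ (T.Φ x)‖ₑ ^ (2 : ℝ) ≤
        ENNReal.ofReal C * ENNReal.ofReal (∏ i, Kf v (T.Φ x i)) := by
      intro x hx
      have h1 := hC (T.Φ x) (fun i => by rw [T.fib x i, hx])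
      rw [← NbD_185.ofReal_sq_norm, ← ENNReal.ofReal_mul' (Finset.prod_nonneg fun j _ => by
        unfold Kf; exact Finset.sum_nonneg fun i _ => by positivity)]
      exact ENNReal.ofReal_le_ofReal h1
    have h4 := nb hOT hNB T.sec κ hκ0 hbd (T.to_hol 0 h0R τ hτ) ENNReal.ofReal_ne_top hUK hr1 hr hrR
      (by simpa only [hlog] using hint) (c0 := -K0) (fun t ht => by
        rw [hlog]; exact (abs_le.1 (hK0 t ht)).1)
    simp only [hlog] at h4
    rw [T.ss_eq hR hθ hε, T.sec_eq 0 h0R] at h4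
    have hSS : II H u (2 * θ) ε (c 0) τ ≠ ∞ := by
      rw [← T.ss_eq hR hθ hε]
      exact (NbD_185.SS_lt_top hNB hR ENNReal.ofReal_ne_top hUK).ne
    refine ENNReal.div_le_of_le_mul ?_
    rw [← NbD_185.ofReal_rpow_norm hp.le, ← ENNReal.ofReal_toReal hSS,
      ← ENNReal.ofReal_mul (Real.exp_pos _).le]
    exact ENNReal.ofReal_le_ofReal h4
  unfold bRc
  exact ENNReal.toReal_le_of_le_ofReal (Real.exp_pos _).le hmain

end Crest.Agent.R276.DiscA_986
end
end

-- ▼ part R276/CmpC_595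
section

/-!
Row 276 (S0419), MODPACK (B3): comparison of models with different coordinates (helper595),
part C: the image of the comparison map is dense and of full measure.
-/

set_option autoImplicit false

open Polynomial Topology Filter Set MeasureTheory
open scoped ENNReal

noncomputable section

namespace Crest.Agent.R276.Cmp_595

open Crest.Agent.R271.Defs710 Crest.Agent.R271.Alg255 Crest.Agent.R271.Rd692
open Crest.Agent.R271.Ho51 Crest.Agent.R276.Ipc735 Crest.Agent.R271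
open Crest.Agent.R276.AB2_590 Crest.Agent.R276.Mod1_987 Crest.Agent.R276.PfDer_676
open Crest.Agent.R276.VPull_327

/-- the complement of the zero set of a nonzero polynomial is dense -/
theorem dense_eval_ne {n : ℕ} {p : MvPolynomial (Fin n) ℂ} (hp : p ≠ 0) :
    Dense {ζ : Cn n | MvPolynomial.eval ζ p ≠ 0} := by
  have h1 : ∀ᵐ ζ : Cn n, MvPolynomial.eval ζ p ≠ 0 := Null956.ae_eval_ne hp
  exact Measure.dense_of_ae h1

variable {K : Type} [Field K] [Algebra ℂ K] {n : ℕ}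

/-- `{c ≠ 0}` is dense -/
theorem dense_ne (M : Mdl K n) {c : M.B} (hc : c ≠ 0) : Dense {y : M.Pts | y c ≠ 0} := by
  have hc0 : (c : K) ≠ 0 := fun h => hc (Subtype.ext h)
  obtain ⟨p, hp, d, hd, hpd⟩ := exists_aK_dvd M c.2 hc0
  rw [dense_iff_inter_open]
  intro U hU hne
  obtain ⟨ζ, ⟨y, hyU, rfl⟩, hζ⟩ := (dense_iff_inter_open.mp (dense_eval_ne hp)) (M.pz '' U)
    ((isLocalHomeomorph_pr M.hch).isOpenMap U hU) (hne.image _)
  refine ⟨y, hyU, ?_⟩
  intro h0
  apply hζ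
  rw [← M.apply_az']
  have h1 : az M.z p = c * ⟨d, hd⟩ := by
    apply Subtype.ext
    rw [← M.aK_eq]
    exact hpd
  rw [h1, map_mul, h0, zero_mul]


variable {M M' : Mdl K n} (h : IsLoc M.B M'.B)



end Crest.Agent.R276.Cmp_595
end
end

-- ▼ part R276/DiscB_986
section

/-!
# Row 276, W1 (helper986): `b₁` of (C1) is log-psh, from the disc data

`lpsh_of_disc`: if over every disc of `M_K` which meets `{h ≠ 0}` the `s`-fold fibre product is a
family `DD` with 185's `NB`, then `LPsh (b1 H u v (2θ) ε)`.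
-/

set_option autoImplicit false
set_option linter.unusedSectionVars false
set_option linter.unusedVariables false

noncomputable section

open Set Filter Topology Complex MeasureTheory Metric
open scoped ENNReal BigOperators

namespace Crest.Agent.R276.DiscA_986

open Crest.Agent.R271 Crest.Agent.R271.Defs710 Crest.Agent.R271.Rd692 Crest.Agent.R271.Ho51
open Crest.Agent.R276.Mod1_987 Crest.Agent.R276.FKDefs_779 Crest.Agent.R276.SkelDefs_220
open Crest.Agent.R276.C1bd_986 Crest.Agent.R276.W1_185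
open Crest.Agent.R276.PV_159 (Dom Sec FHol fi fi_mono fi_congr pn Ann isOpen_Ann measurableSet_Ann
  vol_Ann_lt vol_Ann_pos Dom.nrm)
open Crest.Agent.R276.NbD_185 (NB wi SS nb)
open Crest.Agent.R276.OTB_189 (OTB otb_dom)
open Crest.Agent.R273.Reg_844 (ush LocB)
open Crest.Agent.R276.EngU_29 (LPsh)

/-- zeros of a nonzero holomorphic function on a disc are a null set -/
lemma ae_ne_zero {f : ℂ → ℂ} {R : ℝ} (hf : DifferentiableOn ℂ f (ball 0 R))
    (h : ∃ t ∈ ball (0 : ℂ) R, f t ≠ 0) : ∀ᵐ t : ℂ, ‖t‖ < R → f t ≠ 0 := by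
  obtain ⟨t0, ht0, hft0⟩ := h
  have h1 : AnalyticOnNhd ℂ f (ball 0 R) := hf.analyticOnNhd isOpen_ball
  have h2 := h1.preimage_zero_mem_codiscreteWithin (x := t0) hft0 ht0
    ((convex_ball (0 : ℂ) R).isConnected ⟨t0, ht0⟩)
  have h3 := ae_restrict_le_codiscreteWithin (μ := (volume : Measure ℂ)) (U := ball (0 : ℂ) R)
    measurableSet_ball h2
  have h4 : ∀ᵐ t ∂(volume.restrict (ball (0 : ℂ) R)), f t ≠ 0 := h3
  rw [ae_restrict_iff' measurableSet_ball] at h4
  filter_upwards [h4] with t ht htR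
  exact ht (by rwa [mem_ball_zero_iff])

/-- elements of the ring along a disc of a chart -/
lemma differentiableOn_disc {K : Type} [Field K] [Algebra ℂ K] {n : ℕ} (M : Mdl K n) (b : M.B)
    {e : OpenPartialHomeomorph M.Pts (Cn n)} (he : IsCh e) {z v : Cn n} {R : ℝ}
    (hd : ∀ t : ℂ, ‖t‖ < R → z + t • v ∈ e.target) :
    DifferentiableOn ℂ (fun t : ℂ => (e.symm (z + t • v)) b) (ball 0 R) := by
  have h1 : Ho51.Hol (fun y : M.Pts => y b) :=
    AB2_590.hol51_iff.mpr ((AB2_590.holA_iff M.hch).mpr (AB2_590.holB_ev b))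
  have h2 := h1 e he
  exact h2.comp (f := fun t : ℂ => z + t • v) (by fun_prop) fun t ht => hd t (by
    rwa [mem_ball_zero_iff] at ht)

lemma continuousOn_disc {K : Type} [Field K] [Algebra ℂ K] {n : ℕ} {M : Mdl K n}
    {e : OpenPartialHomeomorph M.Pts (Cn n)} {z v : Cn n} {R : ℝ}
    (hd : ∀ t : ℂ, ‖t‖ < R → z + t • v ∈ e.target) :
    ContinuousOn (fun t : ℂ => e.symm (z + t • v)) (ball 0 R) :=
  e.symm.continuousOn.comp (by fun_prop) fun t ht => hd t (by rwa [mem_ball_zero_iff] at ht)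

variable {L K : Type} [Field L] [Field K] [Algebra ℂ L] [Algebra ℂ K] [Algebra L K]
  [IsScalarTower ℂ L K] {m r : ℕ} {ML : Mdl L m} {MK : Mdl K (m + r)} {H : Rel ML MK}


lemma incl_ne {h : ML.B} (hh : h ≠ 0) : H.incl h ≠ 0 := by
  intro h0
  apply hh
  have h1 : ((H.incl h : MK.B) : K) = 0 := by rw [h0]; rfl
  have h2 : algebraMap L K (h : L) = 0 := h1
  rw [map_eq_zero] at h2
  exact Subtype.ext h2

/-- **plurisubharmonicity of `b₁` from the disc data** -/
theorem lpsh_of_disc {s q : ℕ} {u : Fin s → MK.B} {v : Fin q → MK.B} {θ ε : ℝ} (hθ : 0 < θ)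
    (hε : 0 ≤ ε) {h : ML.B} (hh : h ≠ 0)
    (hdisc : ∀ e : OpenPartialHomeomorph MK.Pts (Cn (m + r)), IsCh e →
      ∀ (z v' : Cn (m + r)) (R : ℝ), 1 < R → (∀ t : ℂ, ‖t‖ < R → z + t • v' ∈ e.target) →
      (∀ᵐ t : ℂ, ‖t‖ < R → H.f (e.symm (z + t • v')) h ≠ 0) → ∀ R' : ℝ, 0 < R' → R' < R →
      ∃ (D : Dom R') (T : DD H s R' (fun t => H.f (e.symm (z + t • v')))
        (fun t => e.symm (z + t • v')) D),
        NB D θ (fun x => ∏ i, Kf v (T.Φ x i)) (fun x => ‖dl u (T.Φ x)‖ ^ (2 * ε))) :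
    LPsh (b1 H u v (2 * θ) ε) := by
  have hp : 0 < 2 * θ := by linarith
  have h0 : ∀ y, 0 ≤ bRc H u v (2 * θ) ε y := fun y => ENNReal.toReal_nonneg
  have hL : LocB (bRc H u v (2 * θ) ε) := (gr_b1w (H := H) u v hp hε).1
  have hG : Dense {y : MK.Pts | y (H.incl h) ≠ 0} := Cmp_595.dense_ne MK (incl_ne hh)
  show LPsh (ush (bRc H u v (2 * θ) ε))
  refine AnnG_986.lpsh_ush_good h0 (fun x => ?_) hG ?_
  · obtain ⟨C, hC⟩ := hL x
    exact ⟨C, hC.mono fun y hy => (le_abs_self _).trans hy⟩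
  · intro e he z v' R hR hd hgood g hg hgb hbg r1 r2 h1 h12 h2
    have hae : ∀ᵐ t : ℂ, ‖t‖ < R → (e.symm (z + t • v')) (H.incl h) ≠ 0 := by
      refine ae_ne_zero (differentiableOn_disc MK (H.incl h) he hd) ?_
      obtain ⟨t, ht, htG⟩ := hgood
      exact ⟨t, by rwa [mem_ball_zero_iff], htG⟩
    obtain ⟨R', hR'1, hR'2⟩ := exists_between h2
    have hR'0 : 0 < R' := lt_trans (lt_of_le_of_lt h1 h12) hR'1
    obtain ⟨D, T, hNB⟩ := hdisc e he z v' R hR hd hae R' hR'0 hR'2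
    have h5 := T.disc_le (otb_dom hR'0) hε hNB
      (continuousOn_disc fun t ht => hd t (ht.trans hR'2)) (fun t _ => rfl) hg hgb
      (by
        filter_upwards [hae] with t ht htR
        exact hbg _ (ht (htR.trans hR'2))) h1 h12 hR'1
    simpa using h5

end Crest.Agent.R276.DiscA_986
end
end

-- ▼ part R276/Rsr_185
section

/-!
# Row 276, task W1 (helper185): relative slices for `H : Rel ML MK`

`prj H : Prj finSumFinEquiv H.f`; `HF ↔ H.HolF`; fibre integrals = `H.fint`.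
-/

set_option autoImplicit false
set_option linter.unusedSectionVars false

open Set Filter Topology MeasureTheory
open scoped ENNReal

noncomputable section

namespace Crest.Agent.R276.Rs_185

open Crest.Agent.R271 Crest.Agent.R271.Defs710 Crest.Agent.R271.Rd692 Crest.Agent.R271.Ho51
open Crest.Agent.R276.Mod1_987 Crest.Agent.R276.PV_159
open Crest.Agent.R276.SkelDefs_220 hiding tc
open Crest.Agent.R276.Sl_748 (SD bt fx gl)
open Crest.Agent.R276.C1bd_986 (HolFS Cls fc pz_f)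
open Crest.Agent.R276.NbB_185 (tl cons_tl cont_tl)

variable {L K : Type} [Field L] [Field K] [Algebra ℂ L] [Algebra ℂ K] [Algebra L K]
  [IsScalarTower ℂ L K] {m r : ℕ} {ML : Mdl L m} {MK : Mdl K (m + r)}

/-- the splitting of the coordinates -/
abbrev spR (m r : ℕ) : Fin m ⊕ Fin r ≃ Fin (m + r) := finSumFinEquiv

lemma gl_spR (t : Cn m) (x : Cn r) : gl (spR m r) t x = Fin.append t x := by
  funext k
  refine Fin.addCases (fun i => ?_) (fun j => ?_) k
  · simp [gl, spR]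
  · simp [gl, spR]

lemma bt_spR (z : Cn (m + r)) : bt (spR m r) z = fun i => z (Fin.castAdd r i) := by
  funext i
  simp [bt, spR]

lemma fx_spR (z : Cn (m + r)) : fx (spR m r) z = fun j => z (Fin.natAdd m j) := by
  funext j
  simp [fx, spR]

lemma continuous_f (H : Rel ML MK) : Continuous H.f := by
  have h1 := (CInd_870.rm H).continuous_q
  have h2 : (CInd_870.rm H).q = H.f := funext fun y => CInd_870.rm_q H y
  rw [h2] at h1
  exact h1

/-- `H.f` is a projection of Riemann domains -/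
lemma prj (H : Rel ML MK) : Prj (spR m r) H.f where
  cont := continuous_f H
  cp_eq y := by
    rw [bt_spR]
    funext i
    exact pz_f H y i


theorem hf_iff (H : Rel ML MK) {z : ML.Pts} {G : MK.Pts → ℂ} :
    HF (spR m r) H.f z G ↔ H.HolF z G := by
  unfold HF Rel.HolF
  refine forall_congr' fun y => forall_congr' fun _ => ?_
  rw [fx_spR]
  have h : (fun x : Fin r → ℂ => G ((ch y).symm (gl (spR m r) (cp z) x))) =
      fun x : Cn r => G ((ch y).symm (Fin.append (ML.pz z) x)) := by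
    funext x
    rw [gl_spR]
    rfl
  rw [h]
  exact Iff.rfl

theorem fint_eq (H : Rel ML MK) (z : ML.Pts) (G : MK.Pts → ℝ≥0∞) :
    ∫⁻ x : Fin r → ℂ, ∑' y : {y : MK.Pts // H.f y = z ∧ fx (spR m r) (cp y) = x}, G y.1 =
      H.fint z G := by
  unfold Rel.fint
  refine lintegral_congr fun x => ?_
  let E : {y : MK.Pts // H.f y = z ∧ fx (spR m r) (cp y) = x} ≃
      {y : MK.Pts // H.f y = z ∧ (fun j => MK.pz y (Fin.natAdd m j)) = x} :=
    Equiv.subtypeEquivRight fun y => by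
      rw [fx_spR]
      exact Iff.rfl
  exact E.tsum_eq fun y => G y.1

variable {R : ℝ} {S : SD (m + r) MK.Pts} {H : Rel ML MK} {X : Lft ML.Pts R}

/-- fibre integrals -/
theorem fi_rel {l : ℂ} (hl : ‖l‖ < R) {g : (rsl S (prj H) X).P → ℝ≥0∞} {G : MK.Pts → ℝ≥0∞}
    (h : ∀ q, tc q = l → g q = G (pr q)) : fi g l = H.fint (X.c l) G := by
  rw [fi_rsl hl h, fint_eq]


end Crest.Agent.R276.Rs_185
end
end

-- ▼ part R276/Pws_201
section

/-!
# Row 276, task W1 (helper201): tuples and the points of the fibre powers `D.pw j`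

`D : Dom R` (159's families over a disc).

* `tup D j : (D.pw j).P → (Fin (j+1) → D.P)`, a closed embedding onto the tuples with equal `t`;
  inverse `mk D j y h`; `tl (tup D j p i) = unc D j (tl p) i`, `tl (mk ..) = cat D j ..`;
* `fi_tup`: the fibre integral on `D.pw j` as an integral over tuples of fibre points (`fi_mk`);
* `fhol_iff`: `FHol t` on `D.pw j` = analyticity in the tuple coordinates.
-/

set_option autoImplicit false
set_option linter.unusedSectionVars false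

noncomputable section

open Set Filter Topology Complex MeasureTheory Metric
open scoped ENNReal

namespace Crest.Agent.R276.Pws_201

open Crest.Agent.R271 Crest.Agent.R271.Ho51 Crest.Agent.R271.W792 Crest.Agent.R276.PV_159
  Crest.Agent.R276.NbB_185

variable {R : ℝ} (D : Dom R)

/-! ### tuples -/

/-- the tuple of a point of the fibre power -/
def tup : ∀ j : ℕ, (D.pw j).P → Fin (j + 1) → D.P
  | 0, x => fun _ => x
  | j + 1, p => Fin.snoc (α := fun _ => D.P)
      (tup j (FP.fst (M := (D.pw j).P) (N := D.P) p)) (FP.snd (M := (D.pw j).P) (N := D.P) p)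

lemma tup_zero (x : (D.pw 0).P) : tup D 0 x = fun _ => x := rfl

lemma tup_succ (j : ℕ) (p : (D.pw (j + 1)).P) : tup D (j + 1) p = Fin.snoc (α := fun _ => D.P)
    (tup D j (FP.fst (M := (D.pw j).P) (N := D.P) p)) (FP.snd (M := (D.pw j).P) (N := D.P) p) := rfl

lemma tc_tup : ∀ (j : ℕ) (p : (D.pw j).P) (i : Fin (j + 1)), tc (tup D j p i) = tc p
  | 0, _, _ => rfl
  | j + 1, p, i => by
    rw [tup_succ]
    refine Fin.lastCases ?_ (fun i => ?_) i
    · rw [Fin.snoc_last]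
      exact (FP.cond (M := (D.pw j).P) (N := D.P) p).symm
    · rw [Fin.snoc_castSucc]
      exact tc_tup j _ i

/-- the point with a given tuple -/
def mkA (t : ℂ) : ∀ (j : ℕ) (y : Fin (j + 1) → D.P), (∀ i, tc (y i) = t) →
    {p : (D.pw j).P // tc p = t}
  | 0, y, h => ⟨y 0, h 0⟩
  | j + 1, y, h => ⟨FP.mk' (M := (D.pw j).P) (N := D.P)
      (mkA t j (fun i => y i.castSucc) fun i => h i.castSucc).1 (y (Fin.last _))
      ((mkA t j (fun i => y i.castSucc) fun i => h i.castSucc).2.trans (h (Fin.last _)).symm),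
      (mkA t j (fun i => y i.castSucc) fun i => h i.castSucc).2⟩

/-- the point with a given tuple -/
def mk (j : ℕ) (y : Fin (j + 1) → D.P) {t : ℂ} (h : ∀ i, tc (y i) = t) : (D.pw j).P :=
  (mkA D t j y h).1

lemma tc_mk (j : ℕ) (y : Fin (j + 1) → D.P) {t : ℂ} (h : ∀ i, tc (y i) = t) :
    tc (mk D j y h) = t := (mkA D t j y h).2

lemma tup_mk {t : ℂ} : ∀ (j : ℕ) (y : Fin (j + 1) → D.P) (h : ∀ i, tc (y i) = t),
    tup D j (mk D j y h) = y
  | 0, y, _ => by
    funext i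
    have hi : i = 0 := Subsingleton.elim (α := Fin 1) i 0
    rw [hi]
    rfl
  | j + 1, y, h => by
    rw [tup_succ]
    funext i
    refine Fin.lastCases ?_ (fun i => ?_) i
    · rw [Fin.snoc_last]; rfl
    · rw [Fin.snoc_castSucc]
      exact congrFun (tup_mk j (fun i => y i.castSucc) fun i => h i.castSucc) i

lemma tup_inj : ∀ j : ℕ, Function.Injective (tup D j)
  | 0, x, y, h => congrFun h 0
  | j + 1, p, q, h => by
    rw [tup_succ, tup_succ] at h
    refine FP.ext' (M := (D.pw j).P) (N := D.P) (tup_inj j ?_) ?_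
    · funext i
      have := congrFun h i.castSucc
      rwa [Fin.snoc_castSucc, Fin.snoc_castSucc] at this
    · have := congrFun h (Fin.last _)
      rwa [Fin.snoc_last, Fin.snoc_last] at this

lemma mk_tup (j : ℕ) (p : (D.pw j).P) {t : ℂ} (h : ∀ i, tc (tup D j p i) = t) :
    mk D j (tup D j p) h = p := tup_inj D j (tup_mk D j _ h)

lemma mk_congr (j : ℕ) {y y' : Fin (j + 1) → D.P} (hy : y = y') {t t' : ℂ}
    (h : ∀ i, tc (y i) = t) (h' : ∀ i, tc (y' i) = t') : mk D j y h = mk D j y' h' := by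
  apply tup_inj D j
  rw [tup_mk, tup_mk, hy]



/-! ### topology -/

lemma cont_tup : ∀ j : ℕ, Continuous (tup D j)
  | 0 => continuous_pi fun _ => continuous_id
  | j + 1 => by
    refine continuous_pi fun i => ?_
    refine Fin.lastCases ?_ (fun i => ?_) i
    · have : (fun p : (D.pw (j + 1)).P => tup D (j + 1) p (Fin.last (j + 1))) =
          FP.snd (M := (D.pw j).P) (N := D.P) := by
        funext p
        rw [tup_succ, Fin.snoc_last]
      rw [this]
      exact FP.cont_snd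
    · have : (fun p : (D.pw (j + 1)).P => tup D (j + 1) p i.castSucc) =
          fun p => tup D j (FP.fst (M := (D.pw j).P) (N := D.P) p) i := by
        funext p
        rw [tup_succ, Fin.snoc_castSucc]
      rw [this]
      exact (continuous_apply i).comp ((cont_tup j).comp FP.cont_fst)

lemma isEmbedding_tup : ∀ j : ℕ, IsEmbedding (tup D j)
  | 0 => by
    refine IsEmbedding.of_comp (g := fun y : Fin 1 → D.P => y 0) (cont_tup D 0)
      (continuous_apply 0) ?_
    exact IsEmbedding.id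
  | j + 1 => by
    refine IsEmbedding.of_comp
      (g := fun y : Fin (j + 2) → D.P => ((fun i : Fin (j + 1) => y i.castSucc), y (Fin.last _)))
      (cont_tup D (j + 1)) (by fun_prop) ?_
    have h1 : ((fun y : Fin (j + 2) → D.P => ((fun i : Fin (j + 1) => y i.castSucc),
        y (Fin.last _))) ∘ tup D (j + 1)) = Prod.map (tup D j) id ∘
        (Subtype.val : {p : (D.pw j).P × D.P // (cp p.1 : Fin ((D.pw j).a + 1) → ℂ) 0 =
          (cp p.2 : Fin (D.a + 1) → ℂ) 0} → (D.pw j).P × D.P) := by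
      funext p
      refine Prod.ext ?_ ?_
      · funext i
        show tup D (j + 1) p i.castSucc = tup D j _ i
        rw [tup_succ, Fin.snoc_castSucc]
        rfl
      · show tup D (j + 1) p (Fin.last _) = _
        rw [tup_succ, Fin.snoc_last]
        rfl
    rw [h1]
    exact ((isEmbedding_tup j).prodMap IsEmbedding.id).comp IsEmbedding.subtypeVal


lemma continuousAt_iff {X : Type*} [TopologicalSpace X] {j : ℕ} {f : X → (D.pw j).P} {x : X} :
    ContinuousAt f x ↔ ∀ i, ContinuousAt (fun x => tup D j (f x) i) x := by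
  rw [(isEmbedding_tup D j).continuousAt_iff, continuousAt_pi]
  rfl

lemma continuous_iff {X : Type*} [TopologicalSpace X] {j : ℕ} {f : X → (D.pw j).P} :
    Continuous f ↔ ∀ i, Continuous (fun x => tup D j (f x) i) := by
  rw [(isEmbedding_tup D j).continuous_iff, continuous_pi_iff]
  rfl


/-- continuity of `mk` along a family -/
lemma continuous_mk {X : Type*} [TopologicalSpace X] {j : ℕ} {y : X → Fin (j + 1) → D.P} {t : X → ℂ}
    (h : ∀ x i, tc (y x i) = t x) (hy : ∀ i, Continuous fun x => y x i) :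
    Continuous fun x => mk D j (y x) (h x) := by
  rw [continuous_iff]
  intro i
  simp only [tup_mk]
  exact hy i



/-- the diagonal -/
def diag (j : ℕ) (x : D.P) : (D.pw j).P := mk D j (fun _ => x) fun _ => rfl

lemma tup_diag (j : ℕ) (x : D.P) : tup D j (diag D j x) = fun _ => x := tup_mk D j _ _
lemma tc_diag (j : ℕ) (x : D.P) : tc (diag D j x) = tc x := tc_mk D j _ _
lemma cont_diag (j : ℕ) : Continuous (diag D j) := continuous_mk D _ fun _ => continuous_id

/-! ### coordinates -/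

/-- splitting the coordinates -/
def unc : ∀ j : ℕ, (Fin (D.pw j).a → ℂ) → Fin (j + 1) → Fin D.a → ℂ
  | 0, z => fun _ => z
  | j + 1, z => Fin.snoc (α := fun _ => Fin D.a → ℂ) (unc j fun i => z (Fin.castAdd D.a i))
      fun i => z (Fin.natAdd (D.pw j).a i)

/-- concatenating the coordinates -/
def cat : ∀ j : ℕ, (Fin (j + 1) → Fin D.a → ℂ) → Fin (D.pw j).a → ℂ
  | 0, x => x 0
  | j + 1, x => Fin.append (cat j fun i => x i.castSucc) (x (Fin.last _))

lemma unc_succ (j : ℕ) (z : Fin (D.pw (j + 1)).a → ℂ) : unc D (j + 1) z =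
    Fin.snoc (α := fun _ => Fin D.a → ℂ) (unc D j fun i => z (Fin.castAdd D.a i))
      fun i => z (Fin.natAdd (D.pw j).a i) := rfl

lemma cat_succ (j : ℕ) (x : Fin (j + 2) → Fin D.a → ℂ) : cat D (j + 1) x =
    Fin.append (cat D j fun i => x i.castSucc) (x (Fin.last _)) := rfl

lemma unc_cat : ∀ (j : ℕ) (x : Fin (j + 1) → Fin D.a → ℂ), unc D j (cat D j x) = x
  | 0, x => by
    funext i
    have hi : i = 0 := Subsingleton.elim (α := Fin 1) i 0
    rw [hi]
    rfl
  | j + 1, x => by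
    rw [unc_succ, cat_succ]
    funext i
    refine Fin.lastCases ?_ (fun i => ?_) i
    · rw [Fin.snoc_last]
      funext k
      exact Fin.append_right _ _ _
    · rw [Fin.snoc_castSucc]
      have : (fun i : Fin (D.pw j).a => (Fin.append (cat D j fun i => x i.castSucc)
          (x (Fin.last (j + 1))) : Fin ((D.pw j).a + D.a) → ℂ) (Fin.castAdd D.a i)) =
          cat D j fun i => x i.castSucc := by
        funext k
        exact Fin.append_left _ _ _
      exact (congrFun (congrArg (unc D j) this) i).trans (congrFun (unc_cat j _) i)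

lemma cat_unc : ∀ (j : ℕ) (z : Fin (D.pw j).a → ℂ), cat D j (unc D j z) = z
  | 0, _ => rfl
  | j + 1, z => by
    rw [cat_succ, unc_succ]
    simp only [Fin.snoc_castSucc, Fin.snoc_last]
    rw [cat_unc j]
    funext i
    refine Fin.addCases (fun i => ?_) (fun i => ?_) i
    · rw [Fin.append_left]
    · rw [Fin.append_right]

lemma differentiable_unc : ∀ j : ℕ, Differentiable ℂ (unc D j)
  | 0 => by
    rw [differentiable_pi]
    intro _
    exact differentiable_id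
  | j + 1 => by
    rw [differentiable_pi]
    intro i
    refine Fin.lastCases ?_ (fun i => ?_) i
    · have : (fun z => unc D (j + 1) z (Fin.last (j + 1))) =
          fun z : Fin ((D.pw j).a + D.a) → ℂ => fun i => z (Fin.natAdd (D.pw j).a i) := by
        funext z
        rw [unc_succ, Fin.snoc_last]
      rw [this, differentiable_pi]
      intro k
      exact differentiable_apply _
    · have : (fun z => unc D (j + 1) z i.castSucc) =
          fun z : Fin ((D.pw j).a + D.a) → ℂ => unc D j (fun i => z (Fin.castAdd D.a i)) i := by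
        funext z
        rw [unc_succ, Fin.snoc_castSucc]
      rw [this]
      have h1 := differentiable_unc j
      rw [differentiable_pi] at h1
      refine (h1 i).comp (f := fun z : Fin ((D.pw j).a + D.a) → ℂ =>
        fun i => z (Fin.castAdd D.a i)) ?_
      rw [differentiable_pi]
      intro k
      exact differentiable_apply _

lemma differentiable_cat : ∀ j : ℕ, Differentiable ℂ (cat D j)
  | 0 => differentiable_apply (𝕜 := ℂ) (0 : Fin 1)
  | j + 1 => by
    have : Differentiable ℂ (fun x : Fin (j + 2) → Fin D.a → ℂ =>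
        (Fin.append (cat D j fun i => x i.castSucc) (x (Fin.last _)) :
          Fin ((D.pw j).a + D.a) → ℂ)) := by
      rw [differentiable_pi]
      intro i
      refine Fin.addCases (fun i => ?_) (fun i => ?_) i
      · simp only [Fin.append_left]
        have h1 := differentiable_cat j
        rw [differentiable_pi] at h1
        refine (h1 i).comp (f := fun x : Fin (j + 2) → Fin D.a → ℂ =>
          fun i : Fin (j + 1) => x i.castSucc) ?_
        rw [differentiable_pi]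
        intro k
        exact differentiable_apply _
      · simp only [Fin.append_right]
        fun_prop
    exact this

lemma cont_unc (j : ℕ) : Continuous (unc D j) := (differentiable_unc D j).continuous
lemma cont_cat (j : ℕ) : Continuous (cat D j) := (differentiable_cat D j).continuous

/-- coordinates as a measurable equivalence -/
def eU (j : ℕ) : (Fin (D.pw j).a → ℂ) ≃ᵐ (Fin (j + 1) → Fin D.a → ℂ) where
  toFun := unc D j
  invFun := cat D j
  left_inv := cat_unc D j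
  right_inv := unc_cat D j
  measurable_toFun := (cont_unc D j).measurable
  measurable_invFun := (cont_cat D j).measurable

lemma unc_mp : ∀ j : ℕ, MeasurePreserving (unc D j) volume volume
  | 0 => (volume_preserving_funUnique (Fin 1) (Fin D.a → ℂ)).symm
  | j + 1 => by
    have h1 := (eApp_mp (D.pw j).a D.a).symm
    have h2 : MeasurePreserving (Prod.map (unc D j) (id : (Fin D.a → ℂ) → _))
        ((volume : Measure (Fin (D.pw j).a → ℂ)).prod volume)
        ((volume : Measure (Fin (j + 1) → Fin D.a → ℂ)).prod volume) :=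
      (unc_mp j).prod (MeasurePreserving.id _)
    have h3 := (volume_preserving_piFinSuccAbove (fun _ : Fin (j + 2) => Fin D.a → ℂ)
      (Fin.last _)).symm
    have h4 : MeasurePreserving (Prod.swap : (Fin (j + 1) → Fin D.a → ℂ) × (Fin D.a → ℂ) → _)
        (Measure.prod volume volume) (Measure.prod volume volume) := Measure.measurePreserving_swap
    have h5 := h3.comp (h4.comp (h2.comp h1))
    have h6 : (⇑(MeasurableEquiv.piFinSuccAbove (fun _ : Fin (j + 2) => Fin D.a → ℂ)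
        (Fin.last _)).symm ∘ Prod.swap ∘ Prod.map (unc D j) id ∘ ⇑(eApp (D.pw j).a D.a).symm) =
        unc D (j + 1) := by
      funext z
      obtain ⟨p, rfl⟩ : ∃ p, eApp (D.pw j).a D.a p = z :=
        ⟨(eApp (D.pw j).a D.a).symm z, (eApp (D.pw j).a D.a).apply_symm_apply z⟩
      simp only [Function.comp_apply, MeasurableEquiv.symm_apply_apply]
      show (Fin.insertNth (Fin.last (j + 1)) p.2 (unc D j p.1) : Fin (j + 2) → Fin D.a → ℂ) = _
      rw [Fin.insertNth_last', eApp_apply]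
      have e1 : (fun i => (Fin.append p.1 p.2 : Fin ((D.pw j).a + D.a) → ℂ) (Fin.castAdd D.a i)) =
          p.1 := funext fun i => Fin.append_left _ _ _
      have e2 : (fun i => (Fin.append p.1 p.2 : Fin ((D.pw j).a + D.a) → ℂ)
          (Fin.natAdd (D.pw j).a i)) = p.2 := funext fun i => Fin.append_right _ _ _
      show _ = (Fin.snoc (α := fun _ => Fin D.a → ℂ) (unc D j fun i => (Fin.append p.1 p.2 :
        Fin ((D.pw j).a + D.a) → ℂ) (Fin.castAdd D.a i)) fun i => (Fin.append p.1 p.2 :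
        Fin ((D.pw j).a + D.a) → ℂ) (Fin.natAdd (D.pw j).a i) : Fin (j + 2) → Fin D.a → ℂ)
      rw [e1, e2]
    rw [← h6]
    exact h5


lemma tl_tup : ∀ (j : ℕ) (p : (D.pw j).P) (i : Fin (j + 1)),
    tl (tup D j p i) = unc D j (tl p) i
  | 0, _, _ => rfl
  | j + 1, p, i => by
    rw [tup_succ]
    refine Fin.lastCases ?_ (fun i => ?_) i
    · rw [Fin.snoc_last, unc_succ, Fin.snoc_last]
      funext k
      exact (Fin.append_right (tl (FP.fst (M := (D.pw j).P) (N := D.P) p))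
        (tl (FP.snd (M := (D.pw j).P) (N := D.P) p)) k).symm
    · rw [Fin.snoc_castSucc, unc_succ, Fin.snoc_castSucc]
      have : (fun i : Fin (D.pw j).a => (Fin.append (tl (FP.fst (M := (D.pw j).P) (N := D.P) p))
          (tl (FP.snd (M := (D.pw j).P) (N := D.P) p)) : Fin ((D.pw j).a + D.a) → ℂ)
          (Fin.castAdd D.a i)) = tl (FP.fst (M := (D.pw j).P) (N := D.P) p) :=
        funext fun k => Fin.append_left _ _ _
      exact (tl_tup j _ i).trans (congrFun (congrArg (unc D j) this) i).symm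

lemma tl_eq_cat (j : ℕ) (p : (D.pw j).P) : tl p = cat D j fun i => tl (tup D j p i) := by
  have : (fun i => tl (tup D j p i)) = unc D j (tl p) := funext fun i => tl_tup D j p i
  rw [this, cat_unc]

lemma cp_tup (j : ℕ) (p : (D.pw j).P) (i : Fin (j + 1)) :
    cp (tup D j p i) = (Fin.cons (tc p) (unc D j (tl p) i) : Fin (D.a + 1) → ℂ) := by
  rw [← tl_tup, ← tc_tup D j p i, cons_tl]

lemma cp_mk (j : ℕ) (y : Fin (j + 1) → D.P) {t : ℂ} (h : ∀ i, tc (y i) = t) :
    cp (mk D j y h) = (Fin.cons t (cat D j fun i => tl (y i)) : Fin ((D.pw j).a + 1) → ℂ) := by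
  rw [← cons_tl, tc_mk, tl_eq_cat, tup_mk]

lemma cp_mk' (j : ℕ) (y : Fin (j + 1) → D.P) {t : ℂ} {x : Fin (j + 1) → Fin D.a → ℂ}
    (hx : ∀ i, cp (y i) = (Fin.cons t (x i) : Fin (D.a + 1) → ℂ)) (h : ∀ i, tc (y i) = t) :
    cp (mk D j y h) = (Fin.cons t (cat D j x) : Fin ((D.pw j).a + 1) → ℂ) := by
  rw [cp_mk]
  congr 2
  funext i k
  show (cp (y i) : Fin (D.a + 1) → ℂ) k.succ = _
  rw [hx i, Fin.cons_succ]

/-! ### fibre integrals -/

lemma tc_of {a : ℕ} {M : Type} [TopologicalSpace M] [RDom (a + 1) M] {y : M} {t : ℂ}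
    {x : Fin a → ℂ} (h : cp y = (Fin.cons t x : Fin (a + 1) → ℂ)) : tc y = t := by
  unfold tc
  rw [h]
  rfl

/-- the fibre of the power -/
def fibE (t : ℂ) (j : ℕ) (x : Fin (j + 1) → Fin D.a → ℂ) :
    {p : (D.pw j).P // cp p = (Fin.cons t (cat D j x) : Fin ((D.pw j).a + 1) → ℂ)} ≃
      {y : Fin (j + 1) → D.P // ∀ i, cp (y i) = (Fin.cons t (x i) : Fin (D.a + 1) → ℂ)} where
  toFun p := ⟨tup D j p.1, fun i => by
    rw [cp_tup, tc_of p.2]
    have : tl p.1 = cat D j x := by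
      funext k
      show (cp p.1 : Fin ((D.pw j).a + 1) → ℂ) k.succ = _
      rw [p.2, Fin.cons_succ]
    rw [this, unc_cat]⟩
  invFun y := ⟨mk D j y.1 (t := t) fun i => tc_of (y.2 i), cp_mk' D j y.1 y.2 _⟩
  left_inv p := Subtype.ext (mk_tup D j p.1 _)
  right_inv y := Subtype.ext (tup_mk D j y.1 _)

/-- **fibre integrals on the power, in terms of tuples** -/
theorem fi_tup (j : ℕ) (G : (Fin (j + 1) → D.P) → ℝ≥0∞) (t : ℂ) :
    fi (fun p : (D.pw j).P => G (tup D j p)) t = ∫⁻ x : Fin (j + 1) → Fin D.a → ℂ,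
      ∑' y : {y : Fin (j + 1) → D.P // ∀ i, cp (y i) = (Fin.cons t (x i) : Fin (D.a + 1) → ℂ)},
        G y.1 := by
  rw [← (unc_mp D j).lintegral_comp_emb (eU D j).measurableEmbedding]
  unfold fi
  refine lintegral_congr fun z => ?_
  obtain ⟨x, rfl⟩ : ∃ x, cat D j x = z := ⟨unc D j z, cat_unc D j z⟩
  rw [unc_cat]
  unfold fsum
  exact (fibE D t j x).tsum_eq (fun y => G y.1)


/-! ### holomorphic functions on the fibres -/

/-- the condition of 986's `HolFS` on the fibre over `t` -/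
def THol (t : ℂ) (j : ℕ) (τ : (Fin (j + 1) → D.P) → ℂ) : Prop :=
  ∀ y : Fin (j + 1) → D.P, (∀ i, tc (y i) = t) →
    AnalyticAt ℂ (fun x : Fin (j + 1) → Fin D.a → ℂ => τ fun i => (ch (y i)).symm (Fin.cons t (x i)))
      (fun i => tl (y i))

variable {D}

theorem FHol.thol {t : ℂ} {j : ℕ} {τ : (Fin (j + 1) → D.P) → ℂ}
    (h : FHol t fun p : (D.pw j).P => τ (tup D j p)) : THol D t j τ := by
  intro y hy
  set p : (D.pw j).P := mk D j y hy with hp
  set e := ch p with he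
  have hech : IsCh e := isCh_ch p
  have hty : tup D j p = y := tup_mk D j y hy
  have hopen : IsOpen {u : Fin (D.pw j).a → ℂ | (Fin.cons t u : Fin ((D.pw j).a + 1) → ℂ) ∈ e.target} :=
    e.open_target.preimage (differentiable_cons t).continuous
  have hcp : cp p = (Fin.cons t (cat D j fun i => tl (y i)) : Fin ((D.pw j).a + 1) → ℂ) :=
    cp_mk D j y hy
  have hmem : (cat D j fun i => tl (y i)) ∈
      {u : Fin (D.pw j).a → ℂ | (Fin.cons t u : Fin ((D.pw j).a + 1) → ℂ) ∈ e.target} := by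
    show _ ∈ e.target
    rw [← hcp]
    exact hech.cp_mem (mem_ch p)
  have h1 : AnalyticAt ℂ (fun u : Fin (D.pw j).a → ℂ => τ (tup D j (e.symm (Fin.cons t u))))
      (cat D j fun i => tl (y i)) :=
    Crest.Agent.R266.SCV.analyticOnNhd_of_differentiableOn hopen (h e hech) _ hmem
  have h2 : AnalyticAt ℂ (cat D j) (fun i => tl (y i)) :=
    Crest.Agent.R266.SCV.analyticOnNhd_of_differentiableOn isOpen_univ
      (differentiable_cat D j).differentiableOn _ (mem_univ _)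
  have h3 := h1.comp h2
  refine h3.congr ?_
  -- continuity of the inverse charts
  have h4 : ContinuousAt (fun x : Fin (j + 1) → Fin D.a → ℂ =>
      e.symm (Fin.cons t (cat D j x))) (fun i => tl (y i)) := by
    refine ContinuousAt.comp (g := e.symm) (f := fun x : Fin (j + 1) → Fin D.a → ℂ =>
      (Fin.cons t (cat D j x) : Fin ((D.pw j).a + 1) → ℂ)) ?_ ?_
    · exact e.continuousAt_symm hmem
    · exact ((differentiable_cons t).continuous.comp (cont_cat D j)).continuousAt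
  have h5 : e.symm (Fin.cons t (cat D j fun i => tl (y i))) = p := by
    rw [← hcp]
    exact hech.symm_cp (mem_ch p)
  have h6 : ∀ i, ∀ᶠ x in 𝓝 (fun i => tl (y i)),
      tup D j (e.symm (Fin.cons t (cat D j x))) i ∈ (ch (y i)).source := by
    intro i
    have h7 := (continuousAt_iff D).1 h4 i
    refine h7 ((ch (y i)).open_source.mem_nhds ?_)
    show tup D j (e.symm (Fin.cons t (cat D j fun i => tl (y i)))) i ∈ _
    rw [h5, hty]
    exact mem_ch _
  have h8 : ∀ᶠ x in 𝓝 (fun i => tl (y i)), cat D j x ∈ {u : Fin (D.pw j).a → ℂ |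
      (Fin.cons t u : Fin ((D.pw j).a + 1) → ℂ) ∈ e.target} :=
    (cont_cat D j).continuousAt (hopen.mem_nhds hmem)
  filter_upwards [eventually_all.2 h6, h8] with x hx hx'
  show τ (tup D j (e.symm (Fin.cons t (cat D j x)))) = _
  congr 1
  funext i
  have h9 := (isCh_ch (y i)).symm_cp (hx i)
  rw [← h9, cp_tup]
  have hx'' : (Fin.cons t (cat D j x) : Fin ((D.pw j).a + 1) → ℂ) ∈ e.target := hx'
  have h10 := hech.cp_symm hx''
  have h11 : tc (e.symm (Fin.cons t (cat D j x))) = t := tc_of h10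
  have h12 : tl (e.symm (Fin.cons t (cat D j x))) = cat D j x := by
    funext k
    show (cp (e.symm (Fin.cons t (cat D j x))) : Fin ((D.pw j).a + 1) → ℂ) k.succ = _
    rw [h10, Fin.cons_succ]
  rw [h11, h12, unc_cat]

theorem THol.fhol {t : ℂ} {j : ℕ} {τ : (Fin (j + 1) → D.P) → ℂ} (h : THol D t j τ) :
    FHol t fun p : (D.pw j).P => τ (tup D j p) := by
  intro e hech u0 hu0
  have hu0' : (Fin.cons t u0 : Fin ((D.pw j).a + 1) → ℂ) ∈ e.target := hu0
  set p : (D.pw j).P := e.symm (Fin.cons t u0) with hp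
  have hcp : cp p = (Fin.cons t u0 : Fin ((D.pw j).a + 1) → ℂ) := hech.cp_symm hu0'
  have htc : tc p = t := tc_of hcp
  have htl : tl p = u0 := by
    funext k
    show (cp p : Fin ((D.pw j).a + 1) → ℂ) k.succ = _
    rw [hcp, Fin.cons_succ]
  have h1 := h (tup D j p) fun i => (tc_tup D j p i).trans htc
  have h2 : (fun i => tl (tup D j p i)) = unc D j u0 := by
    funext i
    rw [tl_tup, htl]
  rw [h2] at h1
  have h3 : DifferentiableAt ℂ ((fun x : Fin (j + 1) → Fin D.a → ℂ => τ fun i =>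
      (ch (tup D j p i)).symm (Fin.cons t (x i))) ∘ unc D j) u0 :=
    h1.differentiableAt.comp u0 (differentiable_unc D j u0)
  have hopen : IsOpen {u : Fin (D.pw j).a → ℂ | (Fin.cons t u : Fin ((D.pw j).a + 1) → ℂ) ∈ e.target} :=
    e.open_target.preimage (differentiable_cons t).continuous
  refine (h3.congr_of_eventuallyEq ?_).differentiableWithinAt
  have h4 : ContinuousAt (fun u : Fin (D.pw j).a → ℂ => e.symm (Fin.cons t u)) u0 :=
    ContinuousAt.comp (g := e.symm) (f := fun u : Fin (D.pw j).a → ℂ =>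
      (Fin.cons t u : Fin ((D.pw j).a + 1) → ℂ)) (e.continuousAt_symm hu0')
      (differentiable_cons t).continuous.continuousAt
  have h6 : ∀ i, ∀ᶠ u in 𝓝 u0,
      tup D j (e.symm (Fin.cons t u)) i ∈ (ch (tup D j p i)).source := by
    intro i
    have h7 := (continuousAt_iff D).1 h4 i
    exact h7 ((ch (tup D j p i)).open_source.mem_nhds (mem_ch _))
  filter_upwards [eventually_all.2 h6, hopen.mem_nhds hu0] with u hu hu'
  show τ (tup D j (e.symm (Fin.cons t u))) = _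
  simp only [Function.comp_apply]
  congr 1
  funext i
  have h9 := (isCh_ch (tup D j p i)).symm_cp (hu i)
  rw [← h9, cp_tup]
  have hu'' : (Fin.cons t u : Fin ((D.pw j).a + 1) → ℂ) ∈ e.target := hu'
  have h10 := hech.cp_symm hu''
  have h11 : tc (e.symm (Fin.cons t u)) = t := tc_of h10
  have h12 : tl (e.symm (Fin.cons t u)) = u := by
    funext k
    show (cp (e.symm (Fin.cons t u)) : Fin ((D.pw j).a + 1) → ℂ) k.succ = _
    rw [h10, Fin.cons_succ]
  rw [h11, h12]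


open Classical in
/-- a function on the power as a function of tuples -/
def ofT (j : ℕ) (f : (D.pw j).P → ℂ) (y : Fin (j + 1) → D.P) : ℂ :=
  if h : ∀ i, tc (y i) = tc (y 0) then f (mk D j y h) else 0

lemma ofT_mk {j : ℕ} (f : (D.pw j).P → ℂ) {y : Fin (j + 1) → D.P} {t : ℂ} (h : ∀ i, tc (y i) = t) :
    ofT j f y = f (mk D j y h) := by
  have h' : ∀ i, tc (y i) = tc (y 0) := fun i => (h i).trans (h 0).symm
  rw [ofT, dif_pos h', mk_congr D j rfl h' h]

lemma ofT_tup {j : ℕ} (f : (D.pw j).P → ℂ) (p : (D.pw j).P) : ofT j f (tup D j p) = f p := by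
  rw [ofT_mk f (tc_tup D j p), mk_tup]

theorem FHol.thol' {t : ℂ} {j : ℕ} {f : (D.pw j).P → ℂ} (h : FHol t f) : THol D t j (ofT j f) := by
  refine FHol.thol ?_
  simp only [ofT_tup]
  exact h

end Crest.Agent.R276.Pws_201
end
end

-- ▼ part R276/Brg_201
section

/-!
# Row 276, task W1 (helper201): fibre powers of a slice = fibre products of a relative model

`H : Rel ML MK`, `D : Dom R` a slice with projection `pr : D.P → MK.Pts` over the lifted disc
`c : ℂ → ML.Pts` (`RS H c D pr`).  For the power `D.pw j` and `Φ p i = pr (tup D j p i)`: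
`fib`, `surj`, `fi_eq` (fibre integral = `fintS`), `to_hol`, `of_hol` (`FHol` = `HolFS`), `secP`
(the diagonal section).
-/

set_option autoImplicit false
set_option linter.unusedSectionVars false

noncomputable section

open Set Filter Topology Complex MeasureTheory Metric
open scoped ENNReal

namespace Crest.Agent.R276.Brg_201

open Crest.Agent.R271 Crest.Agent.R271.Ho51 Crest.Agent.R271.W792 Crest.Agent.R276.PV_159
  Crest.Agent.R276.NbB_185 Crest.Agent.R276.Pws_201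
open Crest.Agent.R276.Mod1_987 Crest.Agent.R276.C1bd_986
open Crest.Agent.R276.SkelDefs_220 (Rel)

variable {L K : Type} [Field L] [Field K] [Algebra ℂ L] [Algebra ℂ K] [Algebra L K]
  [IsScalarTower ℂ L K] {m r : ℕ} {ML : Mdl L m} {MK : Mdl K (m + r)} {R : ℝ}

/-- one-fold data: `D` is the slice of `M_K` over the lifted disc `c` -/
structure RS (H : Rel ML MK) (c : ℂ → ML.Pts) (D : Dom R) (pr : D.P → MK.Pts) : Prop where
  ha : D.a = r
  cont : Continuous pr
  fib : ∀ x, H.f (pr x) = c (PV_159.tc x)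
  crd : ∀ x (i : Fin r), MK.pz (pr x) (Fin.natAdd m i) = tl x (Fin.cast ha.symm i)
  inj : ∀ x x', PV_159.tc x = PV_159.tc x' → pr x = pr x' → x = x'
  surj : ∀ t, ‖t‖ < R → ∀ w, H.f w = c t → ∃ x, PV_159.tc x = t ∧ pr x = w

/-- the tuple of a point of the power -/
def Phi (D : Dom R) (pr : D.P → MK.Pts) (j : ℕ) (p : (D.pw j).P) (i : Fin (j + 1)) : MK.Pts :=
  pr (tup D j p i)

lemma pz_eq (H : Rel ML MK) (w : MK.Pts) : MK.pz w = Fin.append (ML.pz (H.f w)) (fc w) := by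
  funext i
  refine Fin.addCases (fun i => ?_) (fun i => ?_) i
  · rw [Fin.append_left, pz_f]
  · rw [Fin.append_right]; rfl

variable {H : Rel ML MK} {c : ℂ → ML.Pts} {D : Dom R} {pr : D.P → MK.Pts}


theorem RS.fib_Phi (S : RS H c D pr) (j : ℕ) (p : (D.pw j).P) (i : Fin (j + 1)) :
    H.f (Phi D pr j p i) = c (PV_159.tc p) := by
  rw [Phi, S.fib, tc_tup]

theorem RS.surj_Phi (S : RS H c D pr) (j : ℕ) (t : ℂ) (ht : ‖t‖ < R) (w : Fin (j + 1) → MK.Pts)
    (hw : ∀ i, H.f (w i) = c t) : ∃ p : (D.pw j).P, PV_159.tc p = t ∧ Phi D pr j p = w := by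
  choose x hx1 hx2 using fun i => S.surj t ht (w i) (hw i)
  refine ⟨Pws_201.mk D j x hx1, tc_mk D j x hx1, ?_⟩
  funext i
  rw [Phi, tup_mk, hx2]

/-- `fc ∘ pr = tl`, after `subst` -/
lemma fc_pr {D : Dom R} {MK : Mdl K (m + D.a)} {H : Rel ML MK} {pr : D.P → MK.Pts}
    (S : RS H c D pr) (x : D.P) : fc (pr x) = tl x := by
  funext i
  exact S.crd x i

/-- the charts correspond -/
lemma chart_eq {D : Dom R} {MK : Mdl K (m + D.a)} {H : Rel ML MK} {pr : D.P → MK.Pts}
    (S : RS H c D pr) (x : D.P) {t : ℂ} (hx : PV_159.tc x = t) :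
    ∀ᶠ u in 𝓝 (tl x), PV_159.tc ((ch x).symm (Fin.cons t u)) = t ∧
      pr ((ch x).symm (Fin.cons t u)) = (ch (pr x)).symm (Fin.append (ML.pz (c t)) u) := by
  have hech : IsCh (ch x) := isCh_ch x
  have hopen : IsOpen {u : Fin D.a → ℂ | (Fin.cons t u : Fin (D.a + 1) → ℂ) ∈ (ch x).target} :=
    (ch x).open_target.preimage (differentiable_cons t).continuous
  have hcp : cp x = (Fin.cons t (tl x) : Fin (D.a + 1) → ℂ) := by rw [← hx, cons_tl]
  have hmem : (Fin.cons t (tl x) : Fin (D.a + 1) → ℂ) ∈ (ch x).target := by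
    rw [← hcp]
    exact hech.cp_mem (mem_ch x)
  have h4 : ContinuousAt (fun u : Fin D.a → ℂ => pr ((ch x).symm (Fin.cons t u))) (tl x) := by
    refine S.cont.continuousAt.comp (f := fun u : Fin D.a → ℂ => (ch x).symm (Fin.cons t u)) ?_
    exact ContinuousAt.comp (g := (ch x).symm) (f := fun u : Fin D.a → ℂ =>
      (Fin.cons t u : Fin (D.a + 1) → ℂ)) ((ch x).continuousAt_symm hmem)
      (differentiable_cons t).continuous.continuousAt
  have h5 : (ch x).symm (Fin.cons t (tl x)) = x := by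
    rw [← hcp]
    exact hech.symm_cp (mem_ch x)
  have h6 : ∀ᶠ u in 𝓝 (tl x), pr ((ch x).symm (Fin.cons t u)) ∈ (ch (pr x)).source := by
    refine h4 ((ch (pr x)).open_source.mem_nhds ?_)
    show pr ((ch x).symm (Fin.cons t (tl x))) ∈ _
    rw [h5]
    exact mem_ch _
  filter_upwards [h6, hopen.mem_nhds hmem] with u hu hu'
  have hu'' : (Fin.cons t u : Fin (D.a + 1) → ℂ) ∈ (ch x).target := hu'
  have h10 := hech.cp_symm hu''
  have h11 : PV_159.tc ((ch x).symm (Fin.cons t u)) = t := tc_of h10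
  refine ⟨h11, ?_⟩
  have h12 : tl ((ch x).symm (Fin.cons t u)) = u := by
    funext k
    show (cp ((ch x).symm (Fin.cons t u)) : Fin (D.a + 1) → ℂ) k.succ = _
    rw [h10, Fin.cons_succ]
  have h13 := (isCh_ch (pr x)).symm_cp hu
  have h14 : cp (pr ((ch x).symm (Fin.cons t u))) = Fin.append (ML.pz (c t)) u := by
    show MK.pz _ = _
    rw [pz_eq H, S.fib, fc_pr S, h11, h12]
  rw [← h13, h14]

theorem RS.to_thol (S : RS H c D pr) (j : ℕ) (t : ℂ) (τ : (Fin (j + 1) → MK.Pts) → ℂ)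
    (hτ : HolFS H (j + 1) (c t) τ) : THol D t j (fun y => τ fun i => pr (y i)) := by
  obtain rfl := S.ha
  intro y hy
  have h1 := hτ (fun i => pr (y i)) (fun i => by rw [S.fib, hy])
  have h2 : (fun i => fc (pr (y i))) = fun i => tl (y i) := funext fun i => fc_pr S (y i)
  rw [h2] at h1
  refine h1.congr ?_
  have h3 : ∀ i, ∀ᶠ x : Fin (j + 1) → Fin D.a → ℂ in 𝓝 (fun i => tl (y i)),
      pr ((ch (y i)).symm (Fin.cons t (x i))) =
        (ch (pr (y i))).symm (Fin.append (ML.pz (c t)) (x i)) := by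
    intro i
    have h4 := chart_eq S (y i) (hy i)
    have h5 : Tendsto (fun x : Fin (j + 1) → Fin D.a → ℂ => x i) (𝓝 (fun i => tl (y i)))
        (𝓝 (tl (y i))) := (continuous_apply i).continuousAt
    exact (h5.eventually h4).mono fun x hx => hx.2
  filter_upwards [eventually_all.2 h3] with x hx
  congr 1
  funext i
  exact (hx i).symm

theorem RS.to_hol (S : RS H c D pr) (j : ℕ) (t : ℂ) (τ : (Fin (j + 1) → MK.Pts) → ℂ)
    (hτ : HolFS H (j + 1) (c t) τ) : FHol t fun p : (D.pw j).P => τ (Phi D pr j p) :=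
  THol.fhol (S.to_thol j t τ hτ)

theorem RS.of_hol (S : RS H c D pr) (j : ℕ) (t : ℂ) (ht : ‖t‖ < R) (f : (D.pw j).P → ℂ)
    (hf : FHol t f) : ∃ τ, HolFS H (j + 1) (c t) τ ∧
      ∀ p, PV_159.tc p = t → τ (Phi D pr j p) = f p := by
  classical
  obtain rfl := S.ha
  set τ : (Fin (j + 1) → MK.Pts) → ℂ := fun w =>
    if h : ∀ i, ∃ x, PV_159.tc x = t ∧ pr x = w i then ofT j f (fun i => (h i).choose) else 0
    with hτdef
  have key : ∀ y : Fin (j + 1) → D.P, (∀ i, PV_159.tc (y i) = t) →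
      τ (fun i => pr (y i)) = ofT j f y := by
    intro y hy
    have h : ∀ i, ∃ x, PV_159.tc x = t ∧ pr x = pr (y i) := fun i => ⟨y i, hy i, rfl⟩
    have h1 : τ (fun i => pr (y i)) = ofT j f (fun i => (h i).choose) := dif_pos h
    rw [h1]
    congr 1
    funext i
    exact S.inj _ _ ((h i).choose_spec.1.trans (hy i).symm) (h i).choose_spec.2
  refine ⟨τ, fun w hw => ?_, fun p hp => ?_⟩
  · choose y hy1 hy2 using fun i => S.surj t ht (w i) (hw i)
    have hth := FHol.thol' hf y hy1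
    have h2 : (fun i => fc (w i)) = fun i => tl (y i) := funext fun i => by
      rw [← hy2 i, fc_pr S]
    rw [h2]
    refine hth.congr ?_
    have h3 : ∀ i, ∀ᶠ x : Fin (j + 1) → Fin D.a → ℂ in 𝓝 (fun i => tl (y i)),
        PV_159.tc ((ch (y i)).symm (Fin.cons t (x i))) = t ∧
        pr ((ch (y i)).symm (Fin.cons t (x i))) =
          (ch (pr (y i))).symm (Fin.append (ML.pz (c t)) (x i)) := by
      intro i
      have h4 := chart_eq S (y i) (hy1 i)
      have h5 : Tendsto (fun x : Fin (j + 1) → Fin D.a → ℂ => x i) (𝓝 (fun i => tl (y i)))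
          (𝓝 (tl (y i))) := (continuous_apply i).continuousAt
      exact h5.eventually h4
    filter_upwards [eventually_all.2 h3] with x hx
    have h6 : (fun i => (ch (w i)).symm (Fin.append (ML.pz (c t)) (x i))) =
        fun i => pr ((ch (y i)).symm (Fin.cons t (x i))) := by
      funext i
      rw [(hx i).2, hy2 i]
    rw [h6, key _ fun i => (hx i).1]
  · have h1 : Phi D pr j p = fun i => pr (tup D j p i) := rfl
    rw [h1, key _ fun i => (tc_tup D j p i).trans hp, ofT_tup]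

/-- the index sets of the two fibre sums correspond -/
theorem RS.fi_eq (S : RS H c D pr) (j : ℕ) (t : ℂ) (ht : ‖t‖ < R)
    (G : (Fin (j + 1) → MK.Pts) → ℝ≥0∞) :
    fi (fun p : (D.pw j).P => G (Phi D pr j p)) t = H.fintS (j + 1) (c t) G := by
  obtain rfl := S.ha
  refine Eq.trans (fi_tup D j (fun y : Fin (j + 1) → D.P => G fun i => pr (y i)) t) ?_
  unfold Rel.fintS
  refine lintegral_congr fun x => ?_
  have hcp : ∀ (y : D.P) (u : Fin D.a → ℂ), cp y = (Fin.cons t u : Fin (D.a + 1) → ℂ) ↔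
      PV_159.tc y = t ∧ tl y = u := by
    intro y u
    constructor
    · intro h
      refine ⟨tc_of h, ?_⟩
      funext k
      show (cp y : Fin (D.a + 1) → ℂ) k.succ = _
      rw [h, Fin.cons_succ]
    · rintro ⟨h1, h2⟩
      rw [← h1, ← h2, cons_tl]
  let Ψ : {y : Fin (j + 1) → D.P // ∀ i, cp (y i) = (Fin.cons t (x i) : Fin (D.a + 1) → ℂ)} →
      {w : Fin (j + 1) → MK.Pts // (∀ i, H.f (w i) = c t) ∧
        ∀ i, (fun j => MK.pz (w i) (Fin.natAdd m j)) = x i} := fun y =>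
    ⟨fun i => pr (y.1 i), fun i => by rw [S.fib, ((hcp _ _).1 (y.2 i)).1], fun i =>
      (fc_pr S (y.1 i)).trans ((hcp _ _).1 (y.2 i)).2⟩
  have hΨ : Function.Bijective Ψ := by
    constructor
    · intro y y' h
      apply Subtype.ext
      funext i
      have h1 := congrFun (congrArg Subtype.val h) i
      exact S.inj _ _ (((hcp _ _).1 (y.2 i)).1.trans ((hcp _ _).1 (y'.2 i)).1.symm) h1
    · rintro ⟨w, hw1, hw2⟩
      choose y hy1 hy2 using fun i => S.surj t ht (w i) (hw1 i)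
      refine ⟨⟨y, fun i => (hcp _ _).2 ⟨hy1 i, ?_⟩⟩, ?_⟩
      · rw [← fc_pr S, hy2 i]
        exact hw2 i
      · apply Subtype.ext
        funext i
        exact hy2 i
  exact (Equiv.ofBijective Ψ hΨ).tsum_eq (fun w => G w.1)


/-- the diagonal section of the power -/
def secP (s : Sec D) (j : ℕ) : Sec (D.pw j) where
  x t := diag D j (s.x t)
  cont := (cont_diag D j).comp_continuousOn s.cont
  hol := by
    have h1 : ∀ t, (cp (diag D j (s.x t)) : Fin ((D.pw j).a + 1) → ℂ) =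
        Fin.cons (PV_159.tc (s.x t)) (cat D j fun _ => tl (s.x t)) := by
      intro t
      exact cp_mk D j _ _
    simp only [h1]
    have h2 := s.hol
    rw [differentiableOn_pi] at h2 ⊢
    have h3 : DifferentiableOn ℂ (fun t => cat D j fun _ => tl (s.x t)) (ball 0 R) := by
      refine (differentiable_cat D j).comp_differentiableOn ?_
      rw [differentiableOn_pi]
      intro _
      rw [differentiableOn_pi]
      intro i
      exact h2 i.succ
    rw [differentiableOn_pi] at h3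
    intro i
    refine Fin.cases ?_ (fun i => ?_) i
    · exact h2 0
    · exact h3 i
  sec t ht := (tc_diag D j _).trans (s.sec t ht)

lemma Phi_secP (s : Sec D) (j : ℕ) (t : ℂ) : Phi D pr j ((secP s j).x t) = fun _ => pr (s.x t) := by
  funext i
  show pr (tup D j (diag D j (s.x t)) i) = _
  rw [tup_diag]

/-! ### products over the factors -/


end Crest.Agent.R276.Brg_201
end
end

-- ▼ part R276/StU_999
section

/-!
# Stein data with the weight `(∑ |u_i|²)^{-(1-1/N)}` on a model (helper999, row 276; for 159)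
-/

set_option autoImplicit false
set_option linter.unusedSectionVars false

open MeasureTheory Filter Topology
open scoped ENNReal

namespace Crest.Agent.R276.StU_999

open Crest.Agent.R271 Crest.Agent.R271.Ho51 Crest.Agent.R276.Mod1_987
open Crest.Agent.R271.W792 (nS lg lev sm_lg lev_lg_nonneg lg_antitone nS_nonneg)
open Crest.Agent.R276.Sl_748 (SD)

/-- the supremum of the regularised weights -/
theorem iSup_wt {S α : ℝ} (hS : 0 ≤ S) (hα : 0 ≤ α) :
    ⨆ k : ℕ, ENNReal.ofReal (Real.exp (-(α * Real.log (S + 1 / ((k : ℝ) + 1))))) =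
      (ENNReal.ofReal (S ^ α))⁻¹ := by
  have hδ : ∀ k : ℕ, 0 < 1 / ((k : ℝ) + 1) := fun k => by positivity
  have hg : ∀ k : ℕ, ENNReal.ofReal (Real.exp (-(α * Real.log (S + 1 / ((k : ℝ) + 1))))) =
      (ENNReal.ofReal ((S + 1 / ((k : ℝ) + 1)) ^ α))⁻¹ := by
    intro k
    have hp : 0 < S + 1 / ((k : ℝ) + 1) := by have := hδ k; linarith
    rw [← ENNReal.ofReal_inv_of_pos (Real.rpow_pos_of_pos hp α), Real.rpow_def_of_pos hp,
      ← Real.exp_neg, mul_comm α]
  have hmono : Monotone fun k : ℕ =>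
      ENNReal.ofReal (Real.exp (-(α * Real.log (S + 1 / ((k : ℝ) + 1))))) := by
    intro k l hkl
    apply ENNReal.ofReal_le_ofReal
    apply Real.exp_le_exp.mpr
    apply neg_le_neg
    apply mul_le_mul_of_nonneg_left _ hα
    apply Real.log_le_log
    · have := hδ l; linarith
    · have : (1 : ℝ) / ((l : ℝ) + 1) ≤ 1 / ((k : ℝ) + 1) := by
        apply one_div_le_one_div_of_le (by positivity)
        have : (k : ℝ) ≤ l := by exact_mod_cast hkl
        linarith
      linarith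
  refine tendsto_nhds_unique (tendsto_atTop_iSup hmono) ?_
  simp only [hg]
  have h1 : Tendsto (fun k : ℕ => S + 1 / ((k : ℝ) + 1)) atTop (𝓝 (S + 0)) :=
    tendsto_const_nhds.add tendsto_one_div_add_atTop_nhds_zero_nat
  rw [add_zero] at h1
  have h2 := ((Real.continuous_rpow_const hα).tendsto S).comp h1
  exact ((continuous_inv (G := ℝ≥0∞)).tendsto _).comp
    ((ENNReal.continuous_ofReal.tendsto _).comp h2)


section general

variable {n : ℕ} {M : Type} [TopologicalSpace M] [RDom n M] {ι : Type*} [Fintype ι]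



end general

section model

variable {K : Type} [Field K] [Algebra ℂ K] {n : ℕ} (M : Mdl K n) {s : ℕ}




end model

end Crest.Agent.R276.StU_999
end

-- ▼ part R276/C1cp_505
section

/-!
# Row 276, task W1 (helper505, for helper185): the frame bound and the re-weighted product domain

* `fr`, `fr_of`: `FR H u v (ε/d) ε`;
* `rew`: a Stein family over a disc with a new weight `(∑ |F_i|²)^α (|δ|²)^β`;
* `tpI V j I = ∏_i V_{I i}(p_i)`, `sum_tpI : ∑_I |tpI V j I p|² = tp D (∑ |V_i|²) j p`;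
* `nb_of`: the data `NB` of helper185's theorem on the re-weighted powers.
-/

set_option autoImplicit false
set_option linter.unusedSectionVars false

noncomputable section

open Set Filter Topology MeasureTheory
open scoped ENNReal

namespace Crest.Agent.R276.C1cp_505

/-! ### the frame bound -/

section FR

open Crest.Agent.R271 Crest.Agent.R271.Defs710 Crest.Agent.R271.Rd692 Crest.Agent.R271.Ho51
open Crest.Agent.R276.Mod1_987 Crest.Agent.R276.SkelDefs_220 Crest.Agent.R276.W1_185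

variable {L K : Type} [Field L] [Field K] [Algebra ℂ L] [Algebra ℂ K] [Algebra L K]
  [IsScalarTower ℂ L K] {m r : ℕ} {ML : Mdl L m} {MK : Mdl K (m + r)}

lemma Kf_nonneg {q : ℕ} (v : Fin q → MK.B) (y : MK.Pts) : 0 ≤ Kf v y :=
  Finset.sum_nonneg fun _ _ => by positivity

lemma norm_det_le {s : ℕ} (A : Matrix (Fin s) (Fin s) ℂ) {M : Fin s → ℝ}
    (h : ∀ i j, ‖A i j‖ ≤ M j) : ‖A.det‖ ≤ (s.factorial : ℝ) * ∏ j, M j := by
  rw [Matrix.det_apply]
  refine (norm_sum_le _ _).trans ?_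
  have h1 : ∀ σ : Equiv.Perm (Fin s), ‖Equiv.Perm.sign σ • ∏ i, A (σ i) i‖ ≤ ∏ j, M j := by
    intro σ
    rw [Units.smul_def, zsmul_eq_mul, norm_mul]
    have h2 : ‖((Equiv.Perm.sign σ : ℤ) : ℂ)‖ = 1 := by
      rcases Int.units_eq_one_or (Equiv.Perm.sign σ) with h | h <;> rw [h] <;> simp
    rw [h2, one_mul, norm_prod]
    exact Finset.prod_le_prod (fun _ _ => norm_nonneg _) fun i _ => h _ _
  refine (Finset.sum_le_sum fun σ _ => h1 σ).trans ?_
  rw [Finset.sum_const, Finset.card_univ, Fintype.card_perm, Fintype.card_fin, nsmul_eq_mul]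

/-- **the frame bound**, from `|u_i|^(2d) ≤ c K` -/
theorem fr_of (H : Rel ML MK) {s : ℕ} (u : Fin s → MK.B) {q : ℕ} (v : Fin q → MK.B) {d : ℕ}
    (hd : 0 < d) {c : ℝ} (hc : 0 ≤ c) (h : ∀ i (y : MK.Pts), ‖y (u i)‖ ^ (2 * d) ≤ c * Kf v y) {ε : ℝ}
    (hε : 0 ≤ ε) : FR H u v (ε / d) ε := by
  have hd' : (0 : ℝ) < d := by exact_mod_cast hd
  set e : ℝ := 1 / (2 * d) with he
  have he0 : 0 ≤ e := by positivity
  have h1 : ∀ i (y : MK.Pts), ‖y (u i)‖ ≤ (c * Kf v y) ^ e := by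
    intro i y
    have h2 : ‖y (u i)‖ = (‖y (u i)‖ ^ (2 * d)) ^ e := by
      rw [← Real.rpow_natCast, ← Real.rpow_mul (norm_nonneg _), he]
      push_cast
      rw [mul_one_div_cancel (by positivity), Real.rpow_one]
    rw [h2]
    exact Real.rpow_le_rpow (by positivity) (h i y) he0
  refine ⟨((s.factorial : ℝ) * c ^ (e * s) + 1) ^ (2 * ε), by positivity, fun y => ?_⟩
  have hK : ∀ j, 0 ≤ Kf v (y j) := fun j => Kf_nonneg v (y j)
  have hP : 0 ≤ ∏ j, Kf v (y j) := Finset.prod_nonneg fun j _ => hK j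
  have h3 : ‖dl u y‖ ≤ (s.factorial : ℝ) * ∏ j, (c * Kf v (y j)) ^ e := by
    unfold dl
    exact norm_det_le _ fun i j => h1 _ _
  have h4 : ∏ j, (c * Kf v (y j)) ^ e = c ^ (e * s) * (∏ j, Kf v (y j)) ^ e := by
    rw [Real.finsetProd_rpow _ _ (fun j _ => mul_nonneg hc (hK j)), Finset.prod_mul_distrib,
      Finset.prod_const, Finset.card_univ, Fintype.card_fin, Real.mul_rpow (by positivity) hP,
      ← Real.rpow_natCast, ← Real.rpow_mul hc, mul_comm (s : ℝ) e]
  rw [h4, ← mul_assoc] at h3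
  have h5 : ‖dl u y‖ ≤ ((s.factorial : ℝ) * c ^ (e * s) + 1) * (∏ j, Kf v (y j)) ^ e := by
    refine h3.trans (mul_le_mul_of_nonneg_right (by linarith) (Real.rpow_nonneg hP _))
  calc ‖dl u y‖ ^ (2 * ε)
      ≤ (((s.factorial : ℝ) * c ^ (e * s) + 1) * (∏ j, Kf v (y j)) ^ e) ^ (2 * ε) :=
        Real.rpow_le_rpow (norm_nonneg _) h5 (by positivity)
    _ = ((s.factorial : ℝ) * c ^ (e * s) + 1) ^ (2 * ε) * (∏ j, Kf v (y j)) ^ (ε / d) := by
        rw [Real.mul_rpow (by positivity) (Real.rpow_nonneg hP _), ← Real.rpow_mul hP]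
        congr 2
        rw [he]
        field_simp

/-- **the frame bound**, if the family `v` contains all `u_i^d` -/
theorem fr (H : Rel ML MK) {s : ℕ} (u : Fin s → MK.B) {q : ℕ} (v : Fin q → MK.B) {d : ℕ}
    (hd : 0 < d) (h : ∀ i, ∃ k, v k = u i ^ d) {ε : ℝ} (hε : 0 ≤ ε) : FR H u v (ε / d) ε := by
  refine fr_of H u v hd zero_le_one (fun i y => ?_) hε
  obtain ⟨k, hk⟩ := h i
  rw [one_mul, mul_comm 2 d, pow_mul, ← norm_pow, ← map_pow, ← hk]
  exact Finset.single_le_sum (f := fun k => ‖y (v k)‖ ^ 2) (fun _ _ => by positivity)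
    (Finset.mem_univ k)

end FR

/-! ### the re-weighted domain -/

section rew

open Complex Metric
open scoped ComplexConjugate
open Crest.Agent.R271 Crest.Agent.R271.Ho51 Crest.Agent.R276.PV_159 Crest.Agent.R276.NbB_185
  Crest.Agent.R276.NbA_185 Crest.Agent.R276.NbC_185 Crest.Agent.R276.NbD_185
  Crest.Agent.R276.EngU_29 Crest.Agent.R276.OTB_189
open Crest.Agent.R271.W792 (nS lg lev sm_lg lev_lg_nonneg lg_antitone nS_nonneg lev_add
  lev_const_mul)

variable {R : ℝ}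

/-- the Borel structure on fibre products -/
local instance instMFPc {a b : ℕ} {M N : Type} [TopologicalSpace M] [TopologicalSpace N]
    [RDom (a + 1) M] [RDom (b + 1) N] : MeasurableSpace (FP M N) := borel _
local instance instBFPc {a b : ℕ} {M N : Type} [TopologicalSpace M] [TopologicalSpace N]
    [RDom (a + 1) M] [RDom (b + 1) N] : BorelSpace (FP M N) := ⟨rfl⟩

section gen

variable {n : ℕ} {M : Type} [TopologicalSpace M] [RDom n M] {ι : Type} [Fintype ι]

/-- `α log (∑ |F_i|² + 1/(k+1))` -/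
def wl (F : ι → M → ℂ) (α : ℝ) (k : ℕ) (x : M) : ℝ := α * lg F (1 / ((k : ℝ) + 1)) x

lemma wl_pos (F : ι → M → ℂ) (k : ℕ) (x : M) : 0 < nS F x + 1 / ((k : ℝ) + 1) := by
  have := nS_nonneg F x
  positivity

lemma wl_sm {F : ι → M → ℂ} (hF : ∀ i, Ho51.Hol (F i)) (α : ℝ) (k : ℕ) : Sm (wl F α k) :=
  (Sm.const α).mulR (sm_lg (fun j => (hol_of _ (hF j)).sm) (wl_pos F k))

lemma wl_anti {F : ι → M → ℂ} {α : ℝ} (hα : 0 ≤ α) (x : M) : Antitone fun k => wl F α k x := by
  intro k l hkl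
  refine mul_le_mul_of_nonneg_left (lg_antitone _ ?_ x (wl_pos F l x)) hα
  have : (k : ℝ) ≤ l := by exact_mod_cast hkl
  gcongr

lemma wl_lev {F : ι → M → ℂ} (hF : ∀ i, Ho51.Hol (F i)) {α : ℝ} (hα : 0 ≤ α) (k : ℕ) (x : M)
    (w : Fin n → ℂ) : 0 ≤ lev (wl F α k) x w := by
  have h1 : lev (wl F α k) x w = α * lev (lg F (1 / ((k : ℝ) + 1))) x w :=
    lev_const_mul (sm_lg (fun j => (hol_of _ (hF j)).sm) (wl_pos F k)) _ x w
  rw [h1]
  exact mul_nonneg hα (lev_lg_nonneg (fun j => hol_of _ (hF j)) (by positivity) (wl_pos F k) x w)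

lemma wl_iSup {F : ι → M → ℂ} {α : ℝ} (hα : 0 ≤ α) (x : M) :
    ⨆ k : ℕ, ENNReal.ofReal (Real.exp (-wl F α k x)) =
      (ENNReal.ofReal ((∑ i, ‖F i x‖ ^ 2) ^ α))⁻¹ :=
  StU_999.iSup_wt (nS_nonneg F x) hα

end gen

/-- **the domain `Q` with the weight `((∑ |F_i|²)^α (|δ|²)^β)⁻¹`** -/
@[reducible] def rew (Q : Dom R) {ι : Type} [Fintype ι] (F : ι → Q.P → ℂ)
    (hF : ∀ i, Ho51.Hol (F i)) {α : ℝ} (hα : 0 ≤ α) (δ : Q.P → ℂ) (hδ : Ho51.Hol δ) {β : ℝ}
    (hβ : 0 ≤ β) : Dom R where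
  P := Q.P
  a := Q.a
  ρ := Q.ρ
  ρ_sm := Q.ρ_sm
  ρ_cpt := Q.ρ_cpt
  ρ_lev := Q.ρ_lev
  φ k x := wl F α k x + wl (fun _ : Unit => δ) β k x
  φ_sm k := (wl_sm hF α k).add (wl_sm (fun _ => hδ) β k)
  φ_anti x _ _ h := add_le_add (wl_anti hα x h) (wl_anti hβ x h)
  φ_lev k x w := by
    rw [lev_add (wl_sm hF α k) (wl_sm (fun _ => hδ) β k)]
    exact add_nonneg (wl_lev hF hα k x w) (wl_lev (fun _ => hδ) hβ k x w)
  tR := Q.tR

section

variable (Q : Dom R) {ι : Type} [Fintype ι] (F : ι → Q.P → ℂ)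
    (hF : ∀ i, Ho51.Hol (F i)) {α : ℝ} (hα : 0 ≤ α) (δ : Q.P → ℂ) (hδ : Ho51.Hol δ) {β : ℝ}
    (hβ : 0 ≤ β)

lemma rew_wt (x : Q.P) : (rew Q F hF hα δ hδ hβ).wt x =
    (ENNReal.ofReal ((∑ i, ‖F i x‖ ^ 2) ^ α * (‖δ x‖ ^ 2) ^ β))⁻¹ := by
  have h1 : ∀ k : ℕ, ENNReal.ofReal (Real.exp (-(rew Q F hF hα δ hδ hβ).φ k x)) =
      ENNReal.ofReal (Real.exp (-wl F α k x)) *
        ENNReal.ofReal (Real.exp (-wl (fun _ : Unit => δ) β k x)) := by
    intro k
    rw [← ENNReal.ofReal_mul (Real.exp_pos _).le, ← Real.exp_add]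
    congr 2
    show -(wl F α k x + wl (fun _ : Unit => δ) β k x) = _
    ring
  have h2 : ∀ {ι : Type} [Fintype ι] (G : ι → Q.P → ℂ) {γ : ℝ}, 0 ≤ γ →
      Monotone fun k => ENNReal.ofReal (Real.exp (-wl G γ k x)) := fun G _ hγ i j h =>
    ENNReal.ofReal_le_ofReal (Real.exp_le_exp.2 (neg_le_neg (wl_anti hγ x h)))
  unfold Dom.wt
  simp only [h1]
  rw [iSup_mul_iSup_mono (h2 F hα) (h2 _ hβ), wl_iSup hα, wl_iSup hβ,
    ENNReal.ofReal_mul (Real.rpow_nonneg (Finset.sum_nonneg fun _ _ => by positivity) _),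
    ENNReal.mul_inv (Or.inr ENNReal.ofReal_ne_top) (Or.inl ENNReal.ofReal_ne_top)]
  congr 3
  simp

lemma rew_wt' (x : Q.P) : (rew Q F hF hα δ hδ hβ).wt x =
    (ENNReal.ofReal ((∑ i, ‖F i x‖ ^ 2) ^ α * ‖δ x‖ ^ (2 * β)))⁻¹ := by
  rw [rew_wt, Real.rpow_mul (norm_nonneg _)]
  norm_num

end

/-! ### products of `V_{I i}` -/

section tpI

variable {D : Dom R} {q : ℕ}

/-- `∏_i V_{I i}(p_i)` on the fibre power -/
def tpI (V : Fin q → D.P → ℂ) : ∀ j : ℕ, (Fin (j + 1) → Fin q) → (D.pw j).P → ℂ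
  | 0, I => V (I 0)
  | j + 1, I => fun p => tpI V j (fun i => I i.castSucc) (FP.fst (M := (D.pw j).P) (N := D.P) p) *
      V (I (Fin.last _)) (FP.snd (M := (D.pw j).P) (N := D.P) p)

lemma tpI_hol {V : Fin q → D.P → ℂ} (hV : ∀ i, Ho51.Hol (V i)) :
    ∀ (j : ℕ) (I : Fin (j + 1) → Fin q), Ho51.Hol (tpI V j I)
  | 0, I => hV (I 0)
  | j + 1, I => hol_mul (hol_to _ (FP.mor_fst.hol (hol_of _ (tpI_hol hV j fun i => I i.castSucc))))
      (hol_to _ (FP.mor_snd.hol (hol_of _ (hV (I (Fin.last _))))))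

lemma sum_tpI (V : Fin q → D.P → ℂ) : ∀ (j : ℕ) (p : (D.pw j).P),
    ∑ I : Fin (j + 1) → Fin q, ‖tpI V j I p‖ ^ 2 = tp D (fun x => ∑ i, ‖V i x‖ ^ 2) j p
  | 0, p => by
    show ∑ I : Fin 1 → Fin q, ‖V (I 0) p‖ ^ 2 = ∑ i, ‖V i p‖ ^ 2
    exact (Equiv.funUnique (Fin 1) (Fin q)).sum_comp fun i => ‖V i p‖ ^ 2
  | j + 1, p => by
    rw [tp_succ, ← sum_tpI V j, Finset.sum_mul_sum, ← Fintype.sum_prod_type',
      ← (Fin.snocEquiv fun _ : Fin (j + 2) => Fin q).sum_comp, ← (Equiv.prodComm _ _).sum_comp]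
    refine Finset.sum_congr rfl fun I _ => ?_
    show ‖tpI V j (fun i => (Fin.snoc (α := fun _ => Fin q) I.1 I.2 : Fin (j + 2) → Fin q)
      i.castSucc) _ * V ((Fin.snoc (α := fun _ => Fin q) I.1 I.2 : Fin (j + 2) → Fin q)
      (Fin.last _)) _‖ ^ 2 = _
    simp only [Fin.snoc_castSucc, Fin.snoc_last]
    rw [norm_mul, mul_pow]

end tpI

/-! ### the comparison of the weights -/

lemma inv_le_of {a b c : ℝ≥0∞} (hc0 : c ≠ 0) (hc : c ≠ ∞) (h : a ≤ c * b) : b⁻¹ ≤ c * a⁻¹ := by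
  have h1 : (c * b)⁻¹ ≤ a⁻¹ := ENNReal.inv_le_inv.2 h
  rw [ENNReal.mul_inv (Or.inl hc0) (Or.inl hc)] at h1
  calc b⁻¹ = c * (c⁻¹ * b⁻¹) := by rw [← mul_assoc, ENNReal.mul_inv_cancel hc0 hc, one_mul]
    _ ≤ c * a⁻¹ := mul_le_mul_right h1 _

lemma wt_comp {k b c θ θ1 : ℝ} (hk : 0 ≤ k) (hc : 0 < c) (hθ : θ1 ≤ θ) (h1 : θ ≤ 1)
    (h : b ≤ c * k ^ (θ - θ1)) :
    (ENNReal.ofReal (k ^ (1 - θ1)))⁻¹ ≤
      ENNReal.ofReal c * (ENNReal.ofReal (k ^ (1 - θ) * b))⁻¹ := by
  refine inv_le_of (ENNReal.ofReal_pos.2 hc).ne' ENNReal.ofReal_ne_top ?_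
  rw [← ENNReal.ofReal_mul hc.le]
  apply ENNReal.ofReal_le_ofReal
  have h2 : k ^ (1 - θ1) = k ^ (1 - θ) * k ^ (θ - θ1) := by
    rw [← Real.rpow_add_of_nonneg hk (by linarith) (by linarith)]
    congr 1
    ring
  rw [h2]
  calc k ^ (1 - θ) * b ≤ k ^ (1 - θ) * (c * k ^ (θ - θ1)) :=
        mul_le_mul_of_nonneg_left h (Real.rpow_nonneg hk _)
    _ = _ := by ring

/-! ### the data of the theorem -/

/-- **the data `NB` on the re-weighted powers** -/
theorem nb_of (D : Dom R) {q : ℕ} (V : Fin q → D.P → ℂ) (hV : ∀ i, Ho51.Hol (V i))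
    {θ θ1 ε : ℝ} (h0 : 0 < θ1) (h01 : θ1 ≤ θ) (h1 : θ ≤ 1) (hε : 0 ≤ ε)
    (hwt : ∀ x, D.wt x = (ENNReal.ofReal ((∑ i, ‖V i x‖ ^ 2) ^ (1 - θ1)))⁻¹)
    (j : ℕ) (δ : (D.pw j).P → ℂ) (hδ : Ho51.Hol δ)
    (hFR : ∃ C : ℝ, 0 < C ∧ ∀ p, ‖δ p‖ ^ (2 * ε) ≤
      C * (tp D (fun x => ∑ i, ‖V i x‖ ^ 2) j p) ^ (θ - θ1))
    (hbd : ∃ B : ℝ≥0∞, B ≠ ∞ ∧ ∀ t, ‖t‖ < R →
      fi (fun p : (D.pw j).P => ENNReal.ofReal (tp D (fun x => ∑ i, ‖V i x‖ ^ 2) j p) ^ θ /
        ENNReal.ofReal (‖δ p‖ ^ (2 * ε))) t ≤ B)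
    (hcl : ∀ᵐ t, ‖t‖ < R → ∃ C : ℝ≥0∞, C ≠ ∞ ∧ ∀ f, FHol t f → D.nrm f t < ∞ → ∀ x, tc x = t →
      ENNReal.ofReal (‖f x‖ ^ 2) ≤ C * ENNReal.ofReal (∑ i, ‖V i x‖ ^ 2) * D.nrm f t) :
    NB (rew (D.pw j) (tpI V j) (tpI_hol hV j) (α := 1 - θ) (by linarith) δ hδ hε) θ
      (tp D (fun x => ∑ i, ‖V i x‖ ^ 2) j) (fun p => ‖δ p‖ ^ (2 * ε)) := by
  set K1 : D.P → ℝ := fun x => ∑ i, ‖V i x‖ ^ 2 with hK1
  have hK0 : ∀ x, 0 ≤ K1 x := fun x => Finset.sum_nonneg fun _ _ => by positivity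
  have hKt : ∀ p, 0 ≤ tp D K1 j p := tp_nonneg hK0 j
  have hwr : ∀ p, (rew (D.pw j) (tpI V j) (tpI_hol hV j) (α := 1 - θ) (by linarith) δ hδ hε).wt p =
      (ENNReal.ofReal (tp D K1 j p ^ (1 - θ) * ‖δ p‖ ^ (2 * ε)))⁻¹ := by
    intro p
    rw [rew_wt', sum_tpI]
  have hwp : ∀ p : (D.pw j).P, (D.pw j).wt p = (ENNReal.ofReal (tp D K1 j p ^ (1 - θ1)))⁻¹ := by
    intro p
    have h2 : D.wt = fun x => (ENNReal.ofReal (K1 x ^ (1 - θ1)))⁻¹ := funext hwt
    rw [wt_eq, h2, ← tp_inv (fun _ => ENNReal.ofReal_ne_top),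
      ← tp_ofReal (fun x => Real.rpow_nonneg (hK0 x) _), tp_rpowR hK0]
  obtain ⟨C, hC, hCb⟩ := hFR
  refine ⟨by linarith, h1, ?_, ?_, hwr, hbd, ?_⟩
  · exact tp_lpsh (LPsh.sum_hol Finset.univ fun i _ => hV i) j
  · exact LPsh.of_hol_rpow hδ (by linarith)
  · filter_upwards [hcl] with t ht htR
    obtain ⟨Ct, hCt, hbd'⟩ := ht htR
    refine ⟨Ct ^ (j + 1) * ENNReal.ofReal C,
      ENNReal.mul_ne_top (ENNReal.pow_ne_top hCt) ENNReal.ofReal_ne_top, fun f hf hfin x hx => ?_⟩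
    have hn : (D.pw j).nrm f t ≤ ENNReal.ofReal C *
        (rew (D.pw j) (tpI V j) (tpI_hol hV j) (α := 1 - θ) (by linarith) δ hδ hε).nrm f t := by
      unfold Dom.nrm
      rw [← fi_const_mul ENNReal.ofReal_ne_top]
      refine fi_mono fun p _ => ?_
      unfold Dom.dens
      rw [hwr, hwp]
      calc ENNReal.ofReal (‖f p‖ ^ 2) * (ENNReal.ofReal (tp D K1 j p ^ (1 - θ1)))⁻¹
          ≤ ENNReal.ofReal (‖f p‖ ^ 2) * (ENNReal.ofReal C *
            (ENNReal.ofReal (tp D K1 j p ^ (1 - θ) * ‖δ p‖ ^ (2 * ε)))⁻¹) :=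
            mul_le_mul_right (wt_comp (hKt p) hC h01 h1 (hCb p)) _
        _ = _ := by ring
    have hn' : (D.pw j).nrm f t < ∞ :=
      lt_of_le_of_lt hn (ENNReal.mul_lt_top ENNReal.ofReal_lt_top hfin)
    have h3 := prod_bound' D (t := t) (κ := fun x => Ct * ENNReal.ofReal (K1 x))
      (fun x => ENNReal.mul_ne_top hCt ENNReal.ofReal_ne_top) hbd' j f hf hn' x hx
    rw [tp_mul, tp_const, ← tp_ofReal hK0] at h3
    calc ENNReal.ofReal (‖f x‖ ^ 2)
        ≤ Ct ^ (j + 1) * ENNReal.ofReal (tp D K1 j x) * (D.pw j).nrm f t := h3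
      _ ≤ Ct ^ (j + 1) * ENNReal.ofReal (tp D K1 j x) * (ENNReal.ofReal C *
          (rew (D.pw j) (tpI V j) (tpI_hol hV j) (α := 1 - θ) (by linarith) δ hδ hε).nrm f t) :=
          mul_le_mul_right hn _
      _ = _ := by ring

end rew

end Crest.Agent.R276.C1cp_505
end
end

-- ▼ part R276/DiscC_986
section

/-!
# Row 276, W1 (helper986): `b₁` of (C1) is log-psh, final theorem

`lpsh_b1`: (B), (Cl), the frame bound ⟹ `LPsh (b1 H u v (2θ) ε)`.
-/

set_option autoImplicit false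
set_option linter.unusedSectionVars false
set_option linter.unusedVariables false

noncomputable section

open Set Filter Topology Complex MeasureTheory Metric
open scoped ENNReal BigOperators

namespace Crest.Agent.R276.DiscC_986

open Crest.Agent.R271 Crest.Agent.R271.Ho51
open Crest.Agent.R276.Mod1_987
open Crest.Agent.R276.SkelDefs_220 (Rel dl)
open Crest.Agent.R276.C1bd_986 (HolFS Cls)
open Crest.Agent.R276.W1_185
open Crest.Agent.R276.PV_159
open Crest.Agent.R276.NbB_185 (tl)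
open Crest.Agent.R276.NbD_185 (tp_ofReal)
open Crest.Agent.R276.NbD_185 (NB wi)
open Crest.Agent.R276.Sl_748 (SD bt fx gl)
open Crest.Agent.R276.Rs_185
open Crest.Agent.R276.Brg_201
open Crest.Agent.R276.C1cp_505 (rew tpI tpI_hol nb_of)
open Crest.Agent.R276.StU_748 (stC stC_wt')
open Crest.Agent.R276.DiscA_986
open Crest.Agent.R276.EngU_29 (LPsh)

/-- the Borel structure on fibre products -/
local instance instMFPc {a b : ℕ} {M N : Type} [TopologicalSpace M] [TopologicalSpace N]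
    [RDom (a + 1) M] [RDom (b + 1) N] : MeasurableSpace (FP M N) := borel _
local instance instBFPc {a b : ℕ} {M N : Type} [TopologicalSpace M] [TopologicalSpace N]
    [RDom (a + 1) M] [RDom (b + 1) N] : BorelSpace (FP M N) := ⟨rfl⟩

/-! ### general facts about powers -/

section pw

variable {R : ℝ} {D : Dom R}

lemma hol_tup {G : D.P → ℂ} (hG : Ho51.Hol G) : ∀ (j : ℕ) (i : Fin (j + 1)),
    Ho51.Hol fun p : (D.pw j).P => G (Pws_201.tup D j p i)
  | 0, _ => hG
  | j + 1, i => by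
    refine Fin.lastCases ?_ (fun i => ?_) i
    · have h : (fun p : (D.pw (j + 1)).P => G (Pws_201.tup D (j + 1) p (Fin.last (j + 1)))) =
          fun p => G (FP.snd (M := (D.pw j).P) (N := D.P) p) := by
        funext p
        rw [Pws_201.tup_succ, Fin.snoc_last]
      rw [h]
      exact hol_to _ (FP.mor_snd.hol (hol_of _ hG))
    · have h : (fun p : (D.pw (j + 1)).P => G (Pws_201.tup D (j + 1) p i.castSucc)) =
          fun p => (fun p' : (D.pw j).P => G (Pws_201.tup D j p' i))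
            (FP.fst (M := (D.pw j).P) (N := D.P) p) := by
        funext p
        rw [Pws_201.tup_succ, Fin.snoc_castSucc]
      rw [h]
      exact hol_to _ (FP.mor_fst.hol (hol_of _ (hol_tup hG j i)))

lemma tp_eq_prodR {κ : D.P → ℝ} : ∀ (j : ℕ) (p : (D.pw j).P),
    NbB_185.tp D κ j p = ∏ i, κ (Pws_201.tup D j p i)
  | 0, p => by simp [NbB_185.tp, Pws_201.tup_zero]
  | j + 1, p => by
    rw [Fin.prod_univ_castSucc]
    simp only [Pws_201.tup_succ, Fin.snoc_castSucc, Fin.snoc_last]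
    rw [← tp_eq_prodR j]
    rfl

end pw

lemma hol_det {n : ℕ} {M : Type*} [TopologicalSpace M] [RDom n M] {s : ℕ}
    {A : M → Matrix (Fin s) (Fin s) ℂ} (hA : ∀ i k, Ho51.Hol fun x => A x i k) :
    Ho51.Hol fun x => (A x).det := by
  intro e he
  have h : (fun x => (A x).det) ∘ e.symm = fun z => ∑ σ : Equiv.Perm (Fin s),
      (Equiv.Perm.sign σ : ℂ) * ∏ i, A (e.symm z) (σ i) i := by
    funext z
    simp only [Function.comp_apply]
    rw [Matrix.det_apply']
  rw [h]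
  refine DifferentiableOn.fun_sum fun σ _ => ?_
  refine (differentiableOn_const _).mul ?_
  have h2 : ∀ (u : Finset (Fin s)), DifferentiableOn ℂ (fun z => ∏ i ∈ u, A (e.symm z) (σ i) i)
      e.target := by
    intro u
    induction u using Finset.induction_on with
    | empty => simp
    | insert a u ha ih =>
      simp only [Finset.prod_insert ha]
      exact (hA (σ a) a e he).mul ih
  exact h2 Finset.univ

variable {L K : Type} [Field L] [Field K] [Algebra ℂ L] [Algebra ℂ K] [Algebra L K]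
  [IsScalarTower ℂ L K] {m r : ℕ} {ML : Mdl L m} {MK : Mdl K (m + r)} {H : Rel ML MK} {R : ℝ}

/-! ### the relative slice -/

lemma rs_rsl (S : SD (m + r) MK.Pts) (X : Lft ML.Pts R) :
    RS H X.c (rsl S (prj H) X) (Rs_185.pr) where
  ha := rfl
  cont := cont_pr
  fib := f_pr
  crd x i := by
    rw [tl_eq, fx_spR]
    rfl
  inj x x' h1 h2 := ext' h2 h1
  surj t ht w hw := ⟨Rs_185.mk w t ht hw, rfl, rfl⟩

/-- the disc data over a relative slice -/
def mkDD (S : SD (m + r) MK.Pts) (X : Lft ML.Pts R) (j : ℕ) (s : Sec (rsl S (prj H) X))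
    {y : ℂ → MK.Pts} (hy : ∀ t : ℂ, ‖t‖ < R → Rs_185.pr (s.x t) = y t) {ι : Type} [Fintype ι]
    (F : ι → ((rsl S (prj H) X).pw j).P → ℂ) (hF : ∀ i, Ho51.Hol (F i)) {α : ℝ} (hα : 0 ≤ α)
    (δ : ((rsl S (prj H) X).pw j).P → ℂ) (hδ : Ho51.Hol δ) {β : ℝ} (hβ : 0 ≤ β) :
    DD H (j + 1) R X.c y (rew ((rsl S (prj H) X).pw j) F hF hα δ hδ hβ) where
  Φ := Phi (rsl S (prj H) X) Rs_185.pr j
  fib := (rs_rsl S X).fib_Phi j
  surj := (rs_rsl S X).surj_Phi j
  fi_eq := (rs_rsl S X).fi_eq j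
  to_hol t _ τ hτ := (rs_rsl S X).to_hol j t τ hτ
  of_hol := (rs_rsl S X).of_hol j
  sec :=
    { x := (secP s j).x
      cont := (secP s j).cont
      hol := (secP s j).hol
      sec := (secP s j).sec }
  sec_eq t ht := by
    show Phi (rsl S (prj H) X) Rs_185.pr j ((secP s j).x t) = fun _ => y t
    rw [Phi_secP, hy t ht]

/-! ### the bound (B) on a compact disc -/

lemma bb_disc {s q : ℕ} {u : Fin s → MK.B} {v : Fin q → MK.B} {θ ε : ℝ} (hBB : BB H u v θ ε)
    {c : ℂ → ML.Pts} (hc : ContinuousOn c (ball 0 R)) {R' : ℝ} (hR' : R' < R) :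
    ∃ B : ℝ≥0∞, B ≠ ∞ ∧ ∀ t : ℂ, ‖t‖ ≤ R' →
      H.fintS s (c t) (fun y => (∏ j, ENNReal.ofReal (Kf v (y j))) ^ θ * ‖dl u y‖ₑ ^ (-(2 * ε))) ≤
        B := by
  have h := (isCompact_closedBall (0 : ℂ) R').induction_on
    (p := fun A => ∃ B : ℝ≥0∞, B ≠ ∞ ∧ ∀ t ∈ A,
      H.fintS s (c t) (fun y => (∏ j, ENNReal.ofReal (Kf v (y j))) ^ θ * ‖dl u y‖ₑ ^ (-(2 * ε))) ≤
        B) ⟨0, by simp, by simp⟩
    (fun A A' hA ⟨B, hB, h⟩ => ⟨B, hB, fun t ht => h t (hA ht)⟩)
    (fun A A' ⟨B, hB, h⟩ ⟨B', hB', h'⟩ => ⟨max B B', (max_lt hB.lt_top hB'.lt_top).ne,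
      fun t ht => ht.elim (fun h1 => (h t h1).trans (le_max_left _ _))
        fun h1 => (h' t h1).trans (le_max_right _ _)⟩)
    (fun t ht => by
      obtain ⟨C, hC, hC'⟩ := hBB (c t)
      have h1 : ContinuousAt c t := hc.continuousAt (isOpen_ball.mem_nhds
        (mem_ball_zero_iff.2 ((mem_closedBall_zero_iff.1 ht).trans_lt hR')))
      exact ⟨_, mem_nhdsWithin_of_mem_nhds (h1 hC'), C, hC, fun t' ht' => ht'⟩)
  obtain ⟨B, hB, h⟩ := h
  exact ⟨B, hB, fun t ht => h t (mem_closedBall_zero_iff.2 ht)⟩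

/-! ### the final theorem -/

/-- **`b₁` is log-psh** -/
theorem lpsh_b1 (H : Rel ML MK) {j q : ℕ} (u : Fin (j + 1) → MK.B) (v : Fin q → MK.B)
    {θ θ1 ε : ℝ} (h0 : 0 < θ1) (h01 : θ1 ≤ θ) (h1 : θ ≤ 1) (hε : 0 ≤ ε) (hBB : BB H u v θ ε)
    (hCL : CL H v (1 - θ1)) (hFR : FR H u v (θ - θ1) ε) : LPsh (b1 H u v (2 * θ) ε) := by
  obtain ⟨h, hh, hCL⟩ := hCL
  refine lpsh_of_disc (by linarith) hε hh fun e he z v' R hR hd hae R' hR'0 hR' => ?_
  have hd' : ∀ l ∈ ball (0 : ℂ) R', z + l • v' ∈ e.target := fun l hl =>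
    hd l ((mem_ball_zero_iff.1 hl).trans hR')
  have hα1 : 0 ≤ 1 - θ1 := by linarith
  set S := stC MK v (1 - θ1) hα1 with hS
  set X : Lft ML.Pts R' := lft (prj H) he hd' with hX
  set D1 : Dom R' := rsl S (prj H) X with hD1
  set V : Fin q → D1.P → ℂ := fun i x => (Rs_185.pr x : MK.Pts) (v i) with hV
  have hev : ∀ b : MK.B, Ho51.Hol (fun y : MK.Pts => y b) := fun b =>
    AB2_590.hol51_iff.mpr ((AB2_590.holA_iff MK.hch).mpr (AB2_590.holB_ev b))
  have hVh : ∀ i, Ho51.Hol (V i) := fun i => hol_pr (hev (v i))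
  have hwt : ∀ x, D1.wt x = (ENNReal.ofReal ((∑ i, ‖V i x‖ ^ 2) ^ (1 - θ1)))⁻¹ := fun x =>
    stC_wt' MK v (1 - θ1) hα1 (Rs_185.pr x)
  set δ : (D1.pw j).P → ℂ := fun p => dl u (Phi D1 Rs_185.pr j p) with hδ
  have hδh : Ho51.Hol δ := by
    refine hol_det (A := fun p => Matrix.of fun i k => (Phi D1 Rs_185.pr j p k) (u i)) fun i k => ?_
    exact hol_tup (hol_pr (hev (u i))) j k
  have hKprod : ∀ p : (D1.pw j).P, NbB_185.tp D1 (fun x => ∑ i, ‖V i x‖ ^ 2) j p =
      ∏ k, Kf v (Phi D1 Rs_185.pr j p k) := fun p => tp_eq_prodR j p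
  have hR'1 : ∀ t : ℂ, ‖t‖ < R' → X.c t = H.f (e.symm (z + t • v')) := fun t _ => rfl
  -- the frame bound
  have hFR' : ∃ C : ℝ, 0 < C ∧ ∀ p : (D1.pw j).P, ‖δ p‖ ^ (2 * ε) ≤
      C * (NbB_185.tp D1 (fun x => ∑ i, ‖V i x‖ ^ 2) j p) ^ (θ - θ1) := by
    obtain ⟨C, hC, hb⟩ := hFR
    refine ⟨C, hC, fun p => ?_⟩
    rw [hKprod]
    exact hb _
  -- (B)
  have hbd : ∃ B : ℝ≥0∞, B ≠ ∞ ∧ ∀ t, ‖t‖ < R' →
      fi (fun p : (D1.pw j).P => ENNReal.ofReal
        (NbB_185.tp D1 (fun x => ∑ i, ‖V i x‖ ^ 2) j p) ^ θ /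
        ENNReal.ofReal (‖δ p‖ ^ (2 * ε))) t ≤ B := by
    have hcc : ContinuousOn (fun t : ℂ => H.f (e.symm (z + t • v'))) (ball 0 R) :=
      (Rs_185.continuous_f H).comp_continuousOn (continuousOn_disc hd)
    obtain ⟨B, hB, hBt⟩ := bb_disc hBB hcc hR'
    refine ⟨B, hB, fun t ht => ?_⟩
    refine le_trans (le_of_eq ?_) (hBt t ht.le)
    have h5 := (rs_rsl (H := H) S X).fi_eq j t ht (fun y =>
      (∏ j, ENNReal.ofReal (Kf v (y j))) ^ θ * ‖dl u y‖ₑ ^ (-(2 * ε)))
    refine Eq.trans ?_ h5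
    refine fi_congr fun p _ => ?_
    rw [hKprod, ENNReal.ofReal_prod_of_nonneg (fun i _ => by
      unfold Kf; exact Finset.sum_nonneg fun _ _ => by positivity), div_eq_mul_inv, wi_eq hε]
  -- (Cl)
  have hcl : ∀ᵐ t, ‖t‖ < R' → ∃ C : ℝ≥0∞, C ≠ ∞ ∧ ∀ f : D1.P → ℂ, FHol t f → D1.nrm f t < ∞ →
      ∀ x, tc x = t →
      ENNReal.ofReal (‖f x‖ ^ 2) ≤ C * ENNReal.ofReal (∑ i, ‖V i x‖ ^ 2) * D1.nrm f t := by
    filter_upwards [hae] with t ht htR
    obtain ⟨C, hC, hCb⟩ := hCL _ (ht (htR.trans hR'))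
    refine ⟨C, hC, fun f hf hn x hx => ?_⟩
    have h6 : H.HolF (X.c t) (Rs_185.low f t) := (hf_iff H).1 (FHol.low htR hf)
    have h7 : D1.nrm f t = H.fint (X.c t) (fun y => ‖Rs_185.low f t y‖ₑ ^ (2 : ℝ) /
        ENNReal.ofReal (Kf v y ^ (1 - θ1))) := by
      refine fi_rel htR fun q hq => ?_
      rw [low_pr f hq]
      unfold Dom.dens
      rw [hwt, NbD_185.ofReal_sq_norm, div_eq_mul_inv]
      rfl
    have h8 := hCb _ h6 (by
      rw [hR'1 t htR] at h7
      rw [← h7]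
      exact hn) (Rs_185.pr x) (by
        rw [f_pr (S := S) (F := prj H) (X := X) x, hx]
        rfl)
    rw [low_pr f hx] at h8
    rw [hR'1 t htR] at h7
    rw [NbD_185.ofReal_sq_norm, h7]
    exact h8
  have hnb := nb_of D1 V hVh h0 h01 h1 hε hwt j δ hδh hFR' hbd hcl
  set sc : Sec D1 :=
    { x := Rs_185.sec (prj H) he hd' S hR'0
      cont := cont_sec (prj H) he hd' hR'0
      hol := hol_sec (prj H) he hd' hR'0
      sec := fun t ht => tc_sec (prj H) he hd' hR'0 (mem_ball_zero_iff.1 ht) } with hsc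
  refine ⟨_, mkDD S X j sc (y := fun t => e.symm (z + t • v'))
    (fun t ht => pr_sec (prj H) he hd' hR'0 ht) (tpI V j) (tpI_hol hVh j) (α := 1 - θ) (by linarith)
    δ hδh hε, ?_⟩
  have h9 : (fun x : (D1.pw j).P => ∏ i, Kf v (Phi D1 Rs_185.pr j x i)) =
      NbB_185.tp D1 (fun x => ∑ i, ‖V i x‖ ^ 2) j := funext fun p => (hKprod p).symm
  show NB (rew (D1.pw j) (tpI V j) (tpI_hol hVh j) (α := 1 - θ) (by linarith) δ hδh hε) θ
    (fun x : (D1.pw j).P => ∏ i, Kf v (Phi D1 Rs_185.pr j x i)) (fun p => ‖δ p‖ ^ (2 * ε))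
  rw [h9]
  exact hnb

/-- **`b₁` is log-psh**, integer exponents -/
theorem lpsh_b1' (H : Rel ML MK) {s q : ℕ} (hs : 0 < s) (u : Fin s → MK.B) (v : Fin q → MK.B)
    {N' N₁ : ℕ} (hN' : 0 < N') (hle : N' ≤ N₁) {ε : ℝ} (hε : 0 ≤ ε)
    (hBB : BB H u v (1 / (N' : ℝ)) ε) (hCL : CL H v (1 - 1 / (N₁ : ℝ)))
    (hFR : FR H u v (1 / (N' : ℝ) - 1 / (N₁ : ℝ)) ε) : LPsh (b1 H u v (2 / (N' : ℝ)) ε) := by
  obtain ⟨j, rfl⟩ : ∃ j, s = j + 1 := ⟨s - 1, by omega⟩
  have h1 : (0 : ℝ) < N' := by exact_mod_cast hN'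
  have h2 : (N' : ℝ) ≤ N₁ := by exact_mod_cast hle
  have h3 : (1 : ℝ) ≤ N' := by exact_mod_cast hN'
  have h5 : (0 : ℝ) < N₁ := h1.trans_le h2
  have h := lpsh_b1 H u v (θ := 1 / (N' : ℝ)) (θ1 := 1 / (N₁ : ℝ)) (by positivity)
    (one_div_le_one_div_of_le h1 h2) (by rw [div_le_one h1]; exact h3) hε hBB hCL hFR
  have h4 : 2 * (1 / (N' : ℝ)) = 2 / (N' : ℝ) := by ring
  rwa [h4] at h

end Crest.Agent.R276.DiscC_986
end
end

-- ▼ part R276/C1fin_986

/-!
# Row 276, W1 (helper986): (C1) from (B) and (Cl)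

`c1_data`: the structure `SkelDefs_220.C1` for `b₁ = W1_185.b1 H₂ u v (2/N') ε`, from
`BB H₂ u v (1/N') ε` (845's SKO), `CL H₂ v (1 - 1/N₁)` (886's closure), `IsCY` and `Continuous D`.
-/

set_option autoImplicit false
set_option linter.unusedSectionVars false

noncomputable section

open Set Filter Topology MeasureTheory
open scoped ENNReal BigOperators

namespace Crest.Agent.R276.C1fin_986

open Crest.Agent.R271 Crest.Agent.R271.Ho51
open Crest.Agent.R276.Mod1_987 Crest.Agent.R276.FKDefs_779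
open Crest.Agent.R276.SkelDefs_220
open Crest.Agent.R276.C1bd_986 Crest.Agent.R276.W1_185

variable {T L K : Type} [Field T] [Field L] [Field K] [Algebra ℂ T] [Algebra ℂ L] [Algebra ℂ K]
  [Algebra T L] [Algebra L K] [IsScalarTower ℂ T L] [IsScalarTower ℂ L K] {ρ a r : ℕ}
  {MT : Mdl T ρ} {ML : Mdl L (ρ + a)} {MK : Mdl K (ρ + a + r)}

/-- the frame bound from the monomials -/
theorem fr_mon (H : Rel ML MK) {s q : ℕ} (u : Fin s → MK.B) (v : Fin q → MK.B) {N N' N₁ k l : ℕ}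
    (hN : 0 < N) (hN' : 0 < N') (hk : 0 < k) {ε : ℝ} (hε : 0 ≤ ε)
    (hN₁ : (N₁ : ℝ) = N' * (1 + ε * N)) (hl : N₁ = N * (k * l))
    (hmon : ∀ α : Fin s →₀ ℕ, α.degree = k * l → ∃ i, v i = ∏ j, u j ^ α j) :
    FR H u v (1 / (N' : ℝ) - 1 / (N₁ : ℝ)) ε := by
  classical
  have hN'0 : (0 : ℝ) < N' := by exact_mod_cast hN'
  have hN0 : (0 : ℝ) < N := by exact_mod_cast hN
  have hN₁0 : (0 : ℝ) < N₁ := by
    rw [hN₁]
    positivity
  have hN₁n : 0 < N₁ := by exact_mod_cast hN₁0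
  have hd : 0 < k * l := by
    rcases Nat.eq_zero_or_pos (k * l) with h | h
    · rw [h, Nat.mul_zero] at hl
      omega
    · exact h
  have he : 1 / (N' : ℝ) - 1 / (N₁ : ℝ) = ε / ((k * l : ℕ) : ℝ) := by
    have hd0 : (0 : ℝ) < ((k * l : ℕ) : ℝ) := by exact_mod_cast hd
    have h1 : (N₁ : ℝ) = N * ((k * l : ℕ) : ℝ) := by exact_mod_cast hl
    have h2 : 1 / (N' : ℝ) - 1 / (N₁ : ℝ) = (N₁ - N') / (N' * N₁) := by
      field_simp
    have h3 : (N₁ : ℝ) - N' = N' * (ε * N) := by rw [hN₁]; ring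
    rw [h2, h3, h1]
    field_simp
  rw [he]
  refine C1cp_505.fr H u v hd (fun i => ?_) hε
  obtain ⟨k', hk'⟩ := hmon (Finsupp.single i (k * l)) (by rw [Finsupp.degree_single])
  refine ⟨k', ?_⟩
  rw [hk', Finset.prod_eq_single i]
  · rw [Finsupp.single_eq_same]
  · intro j _ hj
    rw [Finsupp.single_eq_of_ne hj, pow_zero]
  · intro h
    exact absurd (Finset.mem_univ i) h

/-- **(C1)** -/
theorem c1_data (H₁ : Rel MT ML) (H₂ : Rel ML MK) (b : Module.Basis (Fin r) K (Ω[K⁄L]))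
    (hb : IsRelBasis MK b) {s N N' N₁ k l q : ℕ} (hs : 0 < s) (hN : 0 < N) (hN' : 0 < N')
    (hk : 0 < k) {ε : ℝ} (hε : 0 ≤ ε) (hN₁ : (N₁ : ℝ) = N' * (1 + ε * N)) (hl : N₁ = N * (k * l))
    (u : Fin s → MK.B) (hu : ∀ i, PluriS L b N (u i : K)) (v : Fin q → MK.B)
    (hv : ∀ i, PluriS L b N₁ (v i : K))
    (hmon : ∀ α : Fin s →₀ ℕ, α.degree = k * l → ∃ i, v i = ∏ j, u j ^ α j)
    {D : ML.Pts → ℝ} (hD : IsCY H₂ N u D) (hDc : Continuous D)
    (hBB : BB H₂ u v (1 / (N' : ℝ)) ε) (hCL : CL H₂ v (1 - 1 / (N₁ : ℝ))) :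
    C1 H₁ H₂ N k u D ε (b1 H₂ u v (2 / (N' : ℝ)) ε) := by
  have hN'0 : (0 : ℝ) < N' := by exact_mod_cast hN'
  have hle : N' ≤ N₁ := by
    have h1 : (N' : ℝ) ≤ N₁ := by
      rw [hN₁]
      have h2 : (0 : ℝ) ≤ ε * N := by positivity
      nlinarith
    exact_mod_cast h1
  exact c1_of_psh (H₁ := H₁) (H₂ := H₂) b hb hN hN' hk hε hN₁ hl u hu v hv hmon hD hDc
    (DiscC_986.lpsh_b1' H₂ hs u v hN' hle hε hBB hCL
      (fr_mon H₂ u v hN hN' hk hε hN₁ hl hmon))

end Crest.Agent.R276.C1fin_986
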