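import Crest.Agent.R276.SkelDefs_220
import Mathlib
import Crest.Agent.R276.BcqB_828
import Crest.Agent.R271.Montel_868

-- ▼ part R276/W2Defs_748
section

/-!
# Row 276, W2 (helper748): frozen statements of the pieces of (C2)

`b₂` := usc hull of `z ↦ sup {|s z|² : s holomorphic on the slice {t = t(z)}, nW s ≤ 1}`.
-/

set_option autoImplicit false

open Set Filter Topology MeasureTheory
open scoped ENNReal

noncomputable section

namespace Crest.Agent.R276.W2Defs_748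

open Crest.Agent.R271 Crest.Agent.R271.Defs710 Crest.Agent.R271.Rd692 Crest.Agent.R271.Ho51
open Crest.Agent.R276.Mod1_987 Crest.Agent.R276.FKDefs_779 Crest.Agent.R276.BC_986
open Crest.Agent.R276.EngU_29 (LPsh)
open Crest.Agent.R276.BetaDefs_231 Crest.Agent.R276.SkelDefs_220

section one

variable {L : Type} [Field L] [Algebra ℂ L] {ρ a : ℕ} (ML : Mdl L (ρ + a)) {e : ℕ}
  (w : Fin (e + 1) → ML.B) (e₀ : ℕ)

/-- squared norm of `s` on the slice `{t = c}` with weight `W^{-(e₀-1)/e₀}` -/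
def nW (c : Cn ρ) (s : ML.Pts → ℂ) : ℝ≥0∞ :=
  sint ML (eL ρ a) c
    (fun z => ‖s z‖ₑ ^ 2 * ENNReal.ofReal (Wf w z) ^ (-(((e₀ : ℝ) - 1) / e₀)))

/-- `s` is in the unit ball of the slice through `z` -/
def InBall (z : ML.Pts) (s : ML.Pts → ℂ) : Prop :=
  HolS ML (eL ρ a) (tc ML (eL ρ a) z) s ∧ nW ML w e₀ (tc ML (eL ρ a) z) s ≤ 1

/-- (W2-PG) polynomial growth [505] -/
def PgStmt : Prop :=
  ∃ (C : ℝ) (j k : ℕ), ∀ (z : ML.Pts) (s : ML.Pts → ℂ), InBall ML w e₀ z s →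
    ‖s z‖ ^ 2 * ‖MvPolynomial.eval (ML.pz z) ML.h‖ ^ j ≤ C * (1 + ∑ i, ‖ML.pz z i‖ ^ 2) ^ k

end one

section tower

variable {T L K : Type} [Field T] [Field L] [Field K] [Algebra ℂ T] [Algebra ℂ L] [Algebra ℂ K]
  [Algebra T L] [Algebra L K] [IsScalarTower ℂ T L] [IsScalarTower ℂ L K] {ρ a r : ℕ}
  {MT : Mdl T ρ} {ML : Mdl L (ρ + a)} {MK : Mdl K (ρ + a + r)}


/-- (W2-BD) bound in the frame of a good tower chart [155] -/
def BdStmt (H₁ : Rel MT ML) (H₂ : Rel ML MK) {e : ℕ} (w : Fin (e + 1) → ML.B) (e₀ : ℕ)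
    (R : ValuationSubring K) : Prop :=
  ∃ (F : Finset K) (FL : Finset L), (∀ f ∈ F, f ≠ 0) ∧ (∀ f ∈ FL, f ≠ 0) ∧
    ∀ Y : TChart H₁ H₂ R, Y.Dict → Y.Good F → Y.GoodL FL →
      ∀ δ' < Y.δ, ∃ C : ℝ, ∀ η ∈ PD δ' (low (some Y.i₀)), ∀ s : ML.Pts → ℂ,
        InBall ML w e₀ (Y.cL.s η) s →
          ‖s (Y.cL.s η)‖ ^ 2 * ‖Y.jG η‖ ^ 2 * ‖Y.cL.J η‖ ^ (2 * (e₀ - 1)) ≤ C

end tower

end Crest.Agent.R276.W2Defs_748
end
end

-- ▼ part R276/W2pg_505

/-!
# R276, leaf W2-PG (helper505): polynomial growth of the weighted Bergman kernel of the slices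

Also reusable: `oz_growth` (growth of generators on a model), `hol_slice`, `int_slice` (holomorphic
functions and integrals on slices in a chart), `point_le` (weighted mean value inequality).
-/

set_option autoImplicit false

open Set Filter Topology MeasureTheory Metric
open scoped ENNReal

noncomputable section

namespace Crest.Agent.R276.W2pg_505

open Crest.Agent.R271 Crest.Agent.R271.Rd692 Crest.Agent.R271.Ho51
open Crest.Agent.R271.Defs710 hiding glue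
open Crest.Agent.R271.Alg255
open Crest.Agent.R276.Mod1_987 Crest.Agent.R276.FKDefs_779 Crest.Agent.R276.SkelDefs_220
open Crest.Agent.R276.W2Defs_748

/-! ### growth on a model -/

section growth

variable {K : Type} [Field K] [Algebra ℂ K] {n : ℕ} (M : Mdl K n)

/-- `1 + |z|²` -/
def GG (y : M.Pts) : ℝ := 1 + ∑ i, ‖M.pz y i‖ ^ 2

theorem one_le_GG (y : M.Pts) : 1 ≤ GG M y := by
  have : 0 ≤ ∑ i, ‖M.pz y i‖ ^ 2 := Finset.sum_nonneg fun i _ => by positivity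
  unfold GG
  linarith

/-- polynomial growth in `z` and `1/h` -/
def Gw (f : M.Pts → ℝ) : Prop :=
  ∃ (C : ℝ) (k l : ℕ), 0 ≤ C ∧ ∀ y : M.Pts,
    ‖MvPolynomial.eval (M.pz y) M.h‖ ^ l * f y ≤ C * GG M y ^ k

theorem gw_h : ∃ (C : ℝ) (k : ℕ), 0 ≤ C ∧ ∀ y : M.Pts,
    ‖MvPolynomial.eval (M.pz y) M.h‖ ≤ C * GG M y ^ k := by
  have h1 : PG M.z (az M.z M.h) := by
    apply PG.adjoin
    rw [Algebra.adjoin_range_eq_range_aeval]
    exact ⟨M.h, rfl⟩
  obtain ⟨C, k, hC, h2⟩ := h1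
  refine ⟨C, k, hC, fun y => ?_⟩
  have h3 := h2 y
  rw [M.apply_az'] at h3
  exact h3

variable {M}

theorem Gw.add {f g : M.Pts → ℝ} (hf : Gw M f) (hg : Gw M g) : Gw M (fun y => f y + g y) := by
  obtain ⟨C₁, k₁, l₁, hC₁, h₁⟩ := hf
  obtain ⟨C₂, k₂, l₂, hC₂, h₂⟩ := hg
  obtain ⟨C₀, k₀, hC₀, h₀⟩ := gw_h M
  refine ⟨C₀ ^ l₂ * C₁ + C₀ ^ l₁ * C₂, k₀ * l₂ + k₁ + (k₀ * l₁ + k₂), l₁ + l₂, by positivity,
    fun y => ?_⟩
  set H := ‖MvPolynomial.eval (M.pz y) M.h‖ with hH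
  have hG := one_le_GG M y
  have hH0 : 0 ≤ H := norm_nonneg _
  have hp : ∀ l : ℕ, H ^ l ≤ C₀ ^ l * GG M y ^ (k₀ * l) := by
    intro l
    calc H ^ l ≤ (C₀ * GG M y ^ k₀) ^ l := pow_le_pow_left₀ hH0 (h₀ y) l
      _ = _ := by rw [mul_pow, pow_mul]
  have e1 : H ^ (l₁ + l₂) * (f y + g y) =
      H ^ l₂ * (H ^ l₁ * f y) + H ^ l₁ * (H ^ l₂ * g y) := by ring
  rw [e1]
  have a1 : H ^ l₂ * (H ^ l₁ * f y) ≤ (C₀ ^ l₂ * C₁) * GG M y ^ (k₀ * l₂ + k₁ + (k₀ * l₁ + k₂)) := by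
    calc H ^ l₂ * (H ^ l₁ * f y) ≤ H ^ l₂ * (C₁ * GG M y ^ k₁) :=
          mul_le_mul_of_nonneg_left (h₁ y) (by positivity)
      _ ≤ (C₀ ^ l₂ * GG M y ^ (k₀ * l₂)) * (C₁ * GG M y ^ k₁) := by
          gcongr
          exact hp l₂
      _ = (C₀ ^ l₂ * C₁) * GG M y ^ (k₀ * l₂ + k₁) := by rw [pow_add]; ring
      _ ≤ _ := mul_le_mul_of_nonneg_left (pow_le_pow_right₀ hG (by omega)) (by positivity)
  have a2 : H ^ l₁ * (H ^ l₂ * g y) ≤ (C₀ ^ l₁ * C₂) * GG M y ^ (k₀ * l₂ + k₁ + (k₀ * l₁ + k₂)) := by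
    calc H ^ l₁ * (H ^ l₂ * g y) ≤ H ^ l₁ * (C₂ * GG M y ^ k₂) :=
          mul_le_mul_of_nonneg_left (h₂ y) (by positivity)
      _ ≤ (C₀ ^ l₁ * GG M y ^ (k₀ * l₁)) * (C₂ * GG M y ^ k₂) := by
          gcongr
          exact hp l₁
      _ = (C₀ ^ l₁ * C₂) * GG M y ^ (k₀ * l₁ + k₂) := by rw [pow_add]; ring
      _ ≤ _ := mul_le_mul_of_nonneg_left (pow_le_pow_right₀ hG (by omega)) (by positivity)
  calc _ ≤ (C₀ ^ l₂ * C₁) * GG M y ^ (k₀ * l₂ + k₁ + (k₀ * l₁ + k₂)) +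
      (C₀ ^ l₁ * C₂) * GG M y ^ (k₀ * l₂ + k₁ + (k₀ * l₁ + k₂)) := add_le_add a1 a2
    _ = _ := by ring

theorem Gw.mul {f g : M.Pts → ℝ} (hf : Gw M f) (hg : Gw M g) (hg0 : ∀ y, 0 ≤ g y) :
    Gw M (fun y => f y * g y) := by
  obtain ⟨C₁, k₁, l₁, hC₁, h₁⟩ := hf
  obtain ⟨C₂, k₂, l₂, hC₂, h₂⟩ := hg
  refine ⟨C₁ * C₂, k₁ + k₂, l₁ + l₂, by positivity, fun y => ?_⟩
  set H := ‖MvPolynomial.eval (M.pz y) M.h‖ with hH
  have hG := one_le_GG M y
  have hH0 : 0 ≤ H := norm_nonneg _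
  have a1 : 0 ≤ H ^ l₂ * g y := mul_nonneg (by positivity) (hg0 y)
  calc H ^ (l₁ + l₂) * (f y * g y) = (H ^ l₁ * f y) * (H ^ l₂ * g y) := by ring
    _ ≤ (C₁ * GG M y ^ k₁) * (H ^ l₂ * g y) := mul_le_mul_of_nonneg_right (h₁ y) a1
    _ ≤ (C₁ * GG M y ^ k₁) * (C₂ * GG M y ^ k₂) :=
        mul_le_mul_of_nonneg_left (h₂ y) (by positivity)
    _ = C₁ * C₂ * GG M y ^ (k₁ + k₂) := by rw [pow_add]; ring

theorem Gw.const (c : ℝ) : Gw M fun _ => c :=
  ⟨|c|, 0, 0, abs_nonneg c, fun y => by simpa using le_abs_self c⟩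

theorem Gw.mono {f g : M.Pts → ℝ} (hg : Gw M g) (h : ∀ y, f y ≤ g y) : Gw M f := by
  obtain ⟨C, k, l, hC, h₁⟩ := hg
  refine ⟨C, k, l, hC, fun y => le_trans ?_ (h₁ y)⟩
  have := h y
  gcongr

theorem Gw.pow {f : M.Pts → ℝ} (hf : Gw M f) (hf0 : ∀ y, 0 ≤ f y) (k : ℕ) :
    Gw M (fun y => f y ^ k) := by
  induction k with
  | zero => simpa using Gw.const (M := M) 1
  | succ k ih =>
    simp only [pow_succ]
    exact ih.mul hf hf0

theorem Gw.sum {ι : Type*} (s : Finset ι) {f : ι → M.Pts → ℝ} (hf : ∀ i ∈ s, Gw M (f i)) :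
    Gw M (fun y => ∑ i ∈ s, f i y) := by
  classical
  induction s using Finset.induction_on with
  | empty => simpa using Gw.const (M := M) 0
  | insert i s hi ih =>
    have h1 := hf i (Finset.mem_insert_self i s)
    have h2 := ih fun j hj => hf j (Finset.mem_insert_of_mem hj)
    have h3 := h1.add h2
    refine h3.mono fun y => ?_
    rw [Finset.sum_insert hi]

theorem Gw.ev (b : M.B) : Gw M fun y => ‖y b‖ := M.growth b

theorem Gw.oz {N : ℕ} (a : Fin N → M.B) : Gw M (oz a) :=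
  (Gw.const 1).add (Gw.sum Finset.univ fun i _ => (Gw.ev (a i)).pow (fun _ => norm_nonneg _) 2)

end growth

/-! ### slices in a chart -/

section slice

variable {K : Type} [Field K] [Algebra ℂ K] {n ρ p : ℕ} {M : Mdl K n} {e : Fin ρ ⊕ Fin p ≃ Fin n}

theorem glue_inl (c : Cn ρ) (x : Cn p) (i : Fin ρ) : glue e c x (e (Sum.inl i)) = c i := by
  simp [glue]

theorem glue_inr (c : Cn ρ) (x : Cn p) (i : Fin p) : glue e c x (e (Sum.inr i)) = x i := by
  simp [glue]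

theorem eq_glue (y : M.Pts) : M.pz y = glue e (tc M e y) (xc M e y) := by
  funext j
  obtain ⟨k, rfl⟩ := e.surjective j
  rcases k with i | i
  · rw [glue_inl]; rfl
  · rw [glue_inr]; rfl

theorem tc_eq {y : M.Pts} {c : Cn ρ} {x : Cn p} (h : M.pz y = glue e c x) : tc M e y = c := by
  funext i
  have := congrFun h (e (Sum.inl i))
  rw [glue_inl] at this
  exact this

theorem xc_eq {y : M.Pts} {c : Cn ρ} {x : Cn p} (h : M.pz y = glue e c x) : xc M e y = x := by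
  funext i
  have := congrFun h (e (Sum.inr i))
  rw [glue_inr] at this
  exact this

theorem continuous_glue (c : Cn ρ) : Continuous fun x : Cn p => glue e c x := by
  refine continuous_pi fun j => ?_
  obtain ⟨k, rfl⟩ := e.surjective j
  rcases k with i | i
  · simp only [glue_inl]; exact continuous_const
  · simp only [glue_inr]; exact continuous_apply i

theorem glue_mem_ball {c : Cn ρ} {x₀ x : Cn p} {R : ℝ} (hx : x ∈ ball x₀ R) :
    glue e c x ∈ ball (glue e c x₀) R := by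
  have hR : 0 < R := lt_of_le_of_lt dist_nonneg (mem_ball.1 hx)
  rw [mem_ball, dist_pi_lt_iff hR] at hx ⊢
  intro j
  obtain ⟨k, rfl⟩ := e.surjective j
  rcases k with i | i
  · rw [glue_inl, glue_inl, dist_self]; exact hR
  · rw [glue_inr, glue_inr]; exact hx i

/-- functions holomorphic on the slice are holomorphic in the slice coordinates of any chart -/
theorem hol_slice {E : OpenPartialHomeomorph M.Pts (Cn n)} (hE : IsCh E) {c : Cn ρ} {x₀ : Cn p}
    {R : ℝ} (hT : ball (glue e c x₀) R ⊆ E.target) {s : M.Pts → ℂ} (hs : HolS M e c s) :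
    DifferentiableOn ℂ (fun x => s (E.symm (glue e c x))) (ball x₀ R) := by
  intro x₁ hx₁
  have h1 : glue e c x₁ ∈ E.target := hT (glue_mem_ball hx₁)
  set y₁ := E.symm (glue e c x₁) with hy₁
  have h2 : y₁ ∈ E.source := E.map_target h1
  have h3 : cp y₁ = glue e c x₁ := hE.cp_symm h1
  have h4 : tc M e y₁ = c := tc_eq h3
  have h5 : xc M e y₁ = x₁ := xc_eq h3
  have h6 := hs y₁ h4
  rw [h5] at h6
  have h7 := (isCh_ch y₁).germ hE (mem_ch y₁) h2
  rw [h3] at h7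
  have h8 : (fun x : Cn p => s ((ch y₁).symm (glue e c x))) =ᶠ[𝓝 x₁]
      fun x => s (E.symm (glue e c x)) := by
    have h9 : ∀ᶠ x in 𝓝 x₁, (ch y₁).symm (glue e c x) = E.symm (glue e c x) :=
      (continuous_glue (e := e) c).continuousAt.eventually h7
    filter_upwards [h9] with x hx
    rw [hx]
  exact (h6.congr h8).differentiableAt.differentiableWithinAt

/-- integrals over the slice dominate integrals over chart polydiscs -/
theorem int_slice {E : OpenPartialHomeomorph M.Pts (Cn n)} (hE : IsCh E) {c : Cn ρ} {x₀ : Cn p}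
    {R : ℝ} (hT : ball (glue e c x₀) R ⊆ E.target) (g : M.Pts → ℝ≥0∞) :
    ∫⁻ x in ball x₀ R, g (E.symm (glue e c x)) ≤ sint M e c g := by
  unfold sint
  refine le_trans ?_ (setLIntegral_le_lintegral (ball x₀ R) _)
  refine setLIntegral_mono' measurableSet_ball fun x hx => ?_
  have h1 : glue e c x ∈ E.target := hT (glue_mem_ball hx)
  have h3 : cp (E.symm (glue e c x)) = glue e c x := hE.cp_symm h1
  exact ENNReal.le_tsum (f := fun y : {y : M.Pts // tc M e y = c ∧ xc M e y = x} => g y.1)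
    ⟨E.symm (glue e c x), tc_eq h3, xc_eq h3⟩

theorem volume_ball_ge (p : ℕ) {R : ℝ} (hR : 0 < R) :
    ENNReal.ofReal (R ^ (2 * p)) ≤ volume (ball (0 : Cn p) R) := by
  rw [volume_pi, Measure.pi_ball _ _ hR]
  simp only [Complex.volume_ball]
  rw [Finset.prod_const, Finset.card_univ, Fintype.card_fin, pow_mul,
    ENNReal.ofReal_pow (by positivity)]
  gcongr
  rw [ENNReal.ofReal_pow hR.le]
  have h1 : (1 : ℝ≥0∞) ≤ (NNReal.pi : ℝ≥0∞) := by
    rw [ENNReal.one_le_coe_iff]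
    exact_mod_cast (by linarith [Real.pi_gt_three] : (1 : ℝ) ≤ Real.pi)
  calc ENNReal.ofReal R ^ 2 = ENNReal.ofReal R ^ 2 * 1 := (mul_one _).symm
    _ ≤ _ := by gcongr

/-- weighted mean value inequality on a slice -/
theorem point_le {E : OpenPartialHomeomorph M.Pts (Cn n)} (hE : IsCh E) {z : M.Pts} {R : ℝ}
    (hR : 0 < R) (hz : z ∈ E.source) (hT : ball (M.pz z) R ⊆ E.target) {s : M.Pts → ℂ}
    (hs : HolS M e (tc M e z) s) {α : ℝ} (hα0 : 0 ≤ α) (hα1 : α ≤ 1) {W : M.Pts → ℝ} {S : ℝ}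
    (hS : 1 ≤ S) (hW : ∀ v ∈ ball (M.pz z) R, W (E.symm v) ≤ S)
    (hn : sint M e (tc M e z) (fun y => ‖s y‖ₑ ^ 2 * ENNReal.ofReal (W y) ^ (-α)) ≤ 1) :
    ‖s z‖ ^ 2 * R ^ (2 * p) ≤ S := by
  have hzg : M.pz z = glue e (tc M e z) (xc M e z) := eq_glue z
  rw [hzg] at hT hW
  set c := tc M e z with hc
  set x₀ := xc M e z with hx₀
  have hf := hol_slice hE hT hs
  have h1 := Montel868.enorm_sq_mul_le hR hf
  have h2 : ∫⁻ x in ball x₀ R, ‖s (E.symm (glue e c x))‖ₑ ^ 2 ≤ ENNReal.ofReal S := by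
    calc ∫⁻ x in ball x₀ R, ‖s (E.symm (glue e c x))‖ₑ ^ 2
        ≤ ∫⁻ x in ball x₀ R, ENNReal.ofReal S * (‖s (E.symm (glue e c x))‖ₑ ^ 2 *
            ENNReal.ofReal (W (E.symm (glue e c x))) ^ (-α)) := by
          refine setLIntegral_mono' measurableSet_ball fun x hx => ?_
          have h3 : W (E.symm (glue e c x)) ≤ S := hW _ (glue_mem_ball hx)
          have h4 : ENNReal.ofReal (W (E.symm (glue e c x))) ^ α ≤ ENNReal.ofReal S := by
            calc ENNReal.ofReal (W (E.symm (glue e c x))) ^ α ≤ ENNReal.ofReal S ^ α := by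
                  exact ENNReal.rpow_le_rpow (ENNReal.ofReal_le_ofReal h3) hα0
              _ ≤ ENNReal.ofReal S ^ (1 : ℝ) :=
                  ENNReal.rpow_le_rpow_of_exponent_le (by
                    rw [← ENNReal.ofReal_one]; exact ENNReal.ofReal_le_ofReal hS) hα1
              _ = ENNReal.ofReal S := ENNReal.rpow_one _
          have h5 : 1 ≤ ENNReal.ofReal S * ENNReal.ofReal (W (E.symm (glue e c x))) ^ (-α) := by
            rw [ENNReal.rpow_neg]
            calc (1 : ℝ≥0∞) = ENNReal.ofReal S * (ENNReal.ofReal S)⁻¹ := by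
                  rw [ENNReal.mul_inv_cancel]
                  · exact (ENNReal.ofReal_pos.2 (by linarith)).ne'
                  · exact ENNReal.ofReal_ne_top
              _ ≤ _ := by gcongr
          calc ‖s (E.symm (glue e c x))‖ₑ ^ 2 = ‖s (E.symm (glue e c x))‖ₑ ^ 2 * 1 :=
                (mul_one _).symm
            _ ≤ ‖s (E.symm (glue e c x))‖ₑ ^ 2 * (ENNReal.ofReal S *
                ENNReal.ofReal (W (E.symm (glue e c x))) ^ (-α)) := by gcongr
            _ = _ := by ring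
      _ = ENNReal.ofReal S * ∫⁻ x in ball x₀ R, (‖s (E.symm (glue e c x))‖ₑ ^ 2 *
            ENNReal.ofReal (W (E.symm (glue e c x))) ^ (-α)) :=
          lintegral_const_mul' _ _ ENNReal.ofReal_ne_top
      _ ≤ ENNReal.ofReal S * sint M e c (fun y => ‖s y‖ₑ ^ 2 * ENNReal.ofReal (W y) ^ (-α)) := by
          gcongr
          exact int_slice hE hT (fun y => ‖s y‖ₑ ^ 2 * ENNReal.ofReal (W y) ^ (-α))
      _ ≤ ENNReal.ofReal S * 1 := by gcongr
      _ = ENNReal.ofReal S := mul_one _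
  have h3 : E.symm (glue e c x₀) = z := by
    rw [← hzg]
    exact hE.symm_cp hz
  rw [h3] at h1
  have h4 : ‖s z‖ₑ ^ 2 * ENNReal.ofReal (R ^ (2 * p)) ≤ ENNReal.ofReal S :=
    le_trans (by gcongr; exact volume_ball_ge p hR) (h1.trans h2)
  rw [← ofReal_norm, ← ENNReal.ofReal_pow (norm_nonneg _),
    ← ENNReal.ofReal_mul (by positivity)] at h4
  exact (ENNReal.ofReal_le_ofReal_iff (by linarith)).1 h4

end slice

/-! ### (W2-PG) -/

section main

variable {L : Type} [Field L] [Algebra ℂ L] {ρ a : ℕ} (ML : Mdl L (ρ + a)) {e : ℕ}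
  (w : Fin (e + 1) → ML.B) {e₀ : ℕ}

theorem pg (he : 0 < e₀) : PgStmt ML w e₀ := by
  classical
  obtain ⟨N, g, hg⟩ := exists_gens ML.ft
  obtain ⟨c, κ, hc0, hc1, hch⟩ := Bcq_828.exists_qchart ML.het g hg
  obtain ⟨Mc, κ', hMc, hw⟩ := Bcq_828.PG_unif (a := g) w (fun i => Bcq_828.PG_all hg _)
  -- exponents
  set α : ℝ := ((e₀ : ℝ) - 1) / e₀ with hα
  have he1 : (1 : ℝ) ≤ e₀ := by exact_mod_cast he
  have hα0 : 0 ≤ α := div_nonneg (by linarith) (by linarith)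
  have hα1 : α ≤ 1 := by
    rw [hα, div_le_one (by linarith)]
    linarith
  -- bound at a point
  have key : ∀ (z : ML.Pts) (s : ML.Pts → ℂ), InBall ML w e₀ z s →
      ‖s z‖ ^ 2 * c ^ (2 * a) ≤
        (1 + (e + 1) * (Mc * (2 * oz g z) ^ κ') ^ 2) * oz g z ^ (κ * (2 * a)) := by
    intro z s hs
    have hoz := one_le_oz g z
    set R : ℝ := c / oz g z ^ κ with hR
    have hR0 : 0 < R := by positivity
    obtain ⟨C, hCr, hC⟩ := hch z R hR0 (by rw [hR]; field_simp; rfl)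
    set E := chartHomeo ML.hch C with hE
    have hEc : IsCh E := rfl
    have hT : ball (ML.pz z) R ⊆ E.target := by
      rw [hE, chartHomeo_target, hCr]
    have hW : ∀ v ∈ ball (ML.pz z) R,
        Wf w (E.symm v) ≤ 1 + (e + 1) * (Mc * (2 * oz g z) ^ κ') ^ 2 := by
      intro v hv
      have h1 : v - ML.pz z ∈ ball (0 : Cn (ρ + a)) C.r := by
        rw [hCr, mem_ball_zero_iff, ← dist_eq_norm]
        exact hv
      have h2 := hC _ h1
      have h3 : E.symm v = C.s (v - ML.pz z) := chartHomeo_symm ML.hch C v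
      rw [h3]
      have h4 : Wf w (C.s (v - ML.pz z)) ≤ ∑ _j : Fin (e + 1), (Mc * (2 * oz g z) ^ κ') ^ 2 := by
        refine Finset.sum_le_sum fun j _ => ?_
        have h5 := hw j (C.s (v - ML.pz z))
        have h6 : (0 : ℝ) ≤ oz g (C.s (v - ML.pz z)) :=
          le_trans zero_le_one (one_le_oz g _)
        gcongr
        exact h5.trans (by gcongr)
      rw [Finset.sum_const, Finset.card_univ, Fintype.card_fin, nsmul_eq_mul] at h4
      push_cast at h4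
      linarith
    have h1 := point_le (e := eL ρ a) hEc hR0 (self_mem_sheet C) hT hs.1 hα0 hα1
      (S := 1 + (e + 1) * (Mc * (2 * oz g z) ^ κ') ^ 2) (by
        have : (0 : ℝ) ≤ (e + 1) * (Mc * (2 * oz g z) ^ κ') ^ 2 := by positivity
        linarith) hW hs.2
    rw [hR, div_pow, ← pow_mul] at h1
    have h2 : (0 : ℝ) < oz g z ^ (κ * (2 * a)) := by positivity
    rw [← mul_div_assoc, div_le_iff₀ h2] at h1
    exact h1
  -- growth
  have hG : Gw ML (fun z => (1 + (e + 1) * (Mc * (2 * oz g z) ^ κ') ^ 2) *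
      oz g z ^ (κ * (2 * a))) := by
    have hoz0 : ∀ z : ML.Pts, 0 ≤ oz g z := fun z => le_trans zero_le_one (one_le_oz g z)
    have h1 : Gw ML (fun z => (2 * oz g z)) := (Gw.const 2).mul (Gw.oz g) hoz0
    have h2 : Gw ML (fun z => (2 * oz g z) ^ κ') := h1.pow (fun z => by
      have := hoz0 z; positivity) κ'
    have h3 : Gw ML (fun z => Mc * (2 * oz g z) ^ κ') := (Gw.const Mc).mul h2 (fun z => by
      have := hoz0 z; positivity)
    have h4 : Gw ML (fun z => (Mc * (2 * oz g z) ^ κ') ^ 2) := h3.pow (fun z => by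
      have := hoz0 z; positivity) 2
    have h5 : Gw ML (fun z => ((e : ℝ) + 1) * (Mc * (2 * oz g z) ^ κ') ^ 2) :=
      (Gw.const ((e : ℝ) + 1)).mul h4 (fun z => by positivity)
    exact ((Gw.const 1).add h5).mul ((Gw.oz g).pow hoz0 _) (fun z => by
      have := hoz0 z; positivity)
  obtain ⟨C, k, l, hC, hCk⟩ := hG
  refine ⟨C / c ^ (2 * a), l, k, fun z s hs => ?_⟩
  have h1 := key z s hs
  have h2 := hCk z
  have hc : (0 : ℝ) < c ^ (2 * a) := by positivity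
  rw [div_mul_eq_mul_div, le_div_iff₀ hc]
  calc ‖s z‖ ^ 2 * ‖MvPolynomial.eval (ML.pz z) ML.h‖ ^ l * c ^ (2 * a)
      = ‖MvPolynomial.eval (ML.pz z) ML.h‖ ^ l * (‖s z‖ ^ 2 * c ^ (2 * a)) := by ring
    _ ≤ ‖MvPolynomial.eval (ML.pz z) ML.h‖ ^ l *
        ((1 + (e + 1) * (Mc * (2 * oz g z) ^ κ') ^ 2) * oz g z ^ (κ * (2 * a))) := by gcongr
    _ ≤ _ := h2

end main

end Crest.Agent.R276.W2pg_505
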