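import Crest.Agent.R271.W_792
import Crest.Agent.R271.H3_51
import Crest.Agent.R271.Engine_51
import Crest.Agent.R271.RExt1_747
import Crest.Agent.R271.G3a_792
import Crest.Agent.R266.SCV

-- ▼ part R276/CntLowA_804
section

/-!
# Row 276, COUNT-LOW, part A: cut-off logarithmic poles (helper804)

`X a δ s = η(s) log (s + δ)`, `η = 1` for `s ≤ a/4`, `η = 0` for `s ≥ a`.  If `Q ≥ 0` is smooth with
`dsq Q ≤ Q · lev Q` then `lev (X a δ ∘ Q) ≥ - C · lev Q` with `C` independent of `δ ∈ (0, 1/2]`.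
-/

set_option autoImplicit false
set_option linter.unusedSectionVars false

noncomputable section

open Set Filter Topology Complex

namespace Crest.Agent.R276.CntLowA_804

open Crest.Agent.R271.Ho51 Crest.Agent.R271.W792

/-! ### one real variable -/

/-- cut-off: `1` for `s ≤ a/4`, `0` for `s ≥ a` -/
def eta (a s : ℝ) : ℝ := Real.smoothTransition ((a - s) / (3 * a / 4))

lemma eta_contDiff (a : ℝ) : ContDiff ℝ (⊤ : ℕ∞) (eta a) := by
  unfold eta
  exact Real.smoothTransition.contDiff.comp (by fun_prop)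

lemma eta_nonneg (a s : ℝ) : 0 ≤ eta a s := Real.smoothTransition.nonneg _

lemma eta_le_one (a s : ℝ) : eta a s ≤ 1 := Real.smoothTransition.le_one _

lemma eta_one {a s : ℝ} (ha : 0 < a) (hs : s ≤ a / 4) : eta a s = 1 := by
  unfold eta
  apply Real.smoothTransition.one_of_one_le
  rw [le_div_iff₀ (by positivity)]
  linarith

lemma eta_zero {a s : ℝ} (ha : 0 < a) (hs : a ≤ s) : eta a s = 0 := by
  unfold eta
  apply Real.smoothTransition.zero_of_nonpos
  exact div_nonpos_of_nonpos_of_nonneg (by linarith) (by positivity)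

/-- first derivative of `eta` -/
def eta1 (a : ℝ) : ℝ → ℝ := deriv (eta a)

/-- second derivative of `eta` -/
def eta2 (a : ℝ) : ℝ → ℝ := deriv (eta1 a)

lemma eta1_contDiff (a : ℝ) : ContDiff ℝ (⊤ : ℕ∞) (eta1 a) :=
  (contDiff_infty_iff_deriv.1 (eta_contDiff a)).2

lemma eta2_contDiff (a : ℝ) : ContDiff ℝ (⊤ : ℕ∞) (eta2 a) :=
  (contDiff_infty_iff_deriv.1 (eta1_contDiff a)).2

lemma eta_hasDerivAt (a s : ℝ) : HasDerivAt (eta a) (eta1 a s) s :=
  ((eta_contDiff a).differentiable (by simp) s).hasDerivAt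

lemma eta1_hasDerivAt (a s : ℝ) : HasDerivAt (eta1 a) (eta2 a s) s :=
  ((eta1_contDiff a).differentiable (by simp) s).hasDerivAt

lemma eta1_zero_of_lt {a s : ℝ} (ha : 0 < a) (hs : s < a / 4) : eta1 a s = 0 := by
  have h : eta a =ᶠ[𝓝 s] fun _ => 1 := by
    filter_upwards [Iio_mem_nhds hs] with t ht using eta_one ha (le_of_lt ht)
  rw [eta1, h.deriv_eq, deriv_const]

lemma eta1_zero_of_gt {a s : ℝ} (ha : 0 < a) (hs : a < s) : eta1 a s = 0 := by
  have h : eta a =ᶠ[𝓝 s] fun _ => 0 := by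
    filter_upwards [Ioi_mem_nhds hs] with t ht using eta_zero ha (le_of_lt ht)
  rw [eta1, h.deriv_eq, deriv_const]

lemma eta2_zero_of_lt {a s : ℝ} (ha : 0 < a) (hs : s < a / 4) : eta2 a s = 0 := by
  have h : eta1 a =ᶠ[𝓝 s] fun _ => 0 := by
    filter_upwards [Iio_mem_nhds hs] with t ht using eta1_zero_of_lt ha ht
  rw [eta2, h.deriv_eq, deriv_const]

lemma eta2_zero_of_gt {a s : ℝ} (ha : 0 < a) (hs : a < s) : eta2 a s = 0 := by
  have h : eta1 a =ᶠ[𝓝 s] fun _ => 0 := by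
    filter_upwards [Ioi_mem_nhds hs] with t ht using eta1_zero_of_gt ha ht
  rw [eta2, h.deriv_eq, deriv_const]

/-- the cut-off logarithm -/
def X (a δ s : ℝ) : ℝ := eta a s * Real.log (s + δ)

/-- its first derivative -/
def X1 (a δ s : ℝ) : ℝ := eta1 a s * Real.log (s + δ) + eta a s * (s + δ)⁻¹

/-- its second derivative -/
def X2 (a δ s : ℝ) : ℝ :=
  (eta2 a s * Real.log (s + δ) + eta1 a s * (s + δ)⁻¹) +
    (eta1 a s * (s + δ)⁻¹ + eta a s * (-((s + δ) ^ 2)⁻¹))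

lemma hasDerivAt_log_add {δ s : ℝ} (h : 0 < s + δ) :
    HasDerivAt (fun s : ℝ => Real.log (s + δ)) (s + δ)⁻¹ s := by
  have h0 : HasDerivAt (fun t : ℝ => t + δ) 1 s := (hasDerivAt_id' s).add_const δ
  have h5 := h0.log h.ne'
  simpa [one_div] using h5

lemma hasDerivAt_inv_add {δ s : ℝ} (h : 0 < s + δ) :
    HasDerivAt (fun s : ℝ => (s + δ)⁻¹) (-((s + δ) ^ 2)⁻¹) s := by
  have h2 : HasDerivAt (fun t : ℝ => t + δ) 1 s := (hasDerivAt_id' _).add_const δ
  have h5 := h2.inv h.ne'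
  have h6 : -(1 : ℝ) / (s + δ) ^ 2 = -((s + δ) ^ 2)⁻¹ := by rw [neg_div, one_div]
  rw [h6] at h5
  exact h5

lemma X_hasDerivAt {a δ s : ℝ} (h : 0 < s + δ) : HasDerivAt (X a δ) (X1 a δ s) s :=
  (eta_hasDerivAt a s).mul (hasDerivAt_log_add h)

lemma X1_hasDerivAt {a δ s : ℝ} (h : 0 < s + δ) : HasDerivAt (X1 a δ) (X2 a δ s) s :=
  ((eta1_hasDerivAt a s).mul (hasDerivAt_log_add h)).add
    ((eta_hasDerivAt a s).mul (hasDerivAt_inv_add h))

lemma contDiffAt_log_add {δ s : ℝ} (h : 0 < s + δ) :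
    ContDiffAt ℝ (⊤ : ℕ∞) (fun s : ℝ => Real.log (s + δ)) s :=
  (contDiffAt_id.add contDiffAt_const).log h.ne'

lemma contDiffAt_inv_add {δ s : ℝ} (h : 0 < s + δ) :
    ContDiffAt ℝ (⊤ : ℕ∞) (fun s : ℝ => (s + δ)⁻¹) s :=
  (contDiffAt_id.add contDiffAt_const).inv h.ne'

lemma X_contDiffAt {a δ s : ℝ} (h : 0 < s + δ) : ContDiffAt ℝ (⊤ : ℕ∞) (X a δ) s :=
  (eta_contDiff a).contDiffAt.mul (contDiffAt_log_add h)

lemma X1_contDiffAt {a δ s : ℝ} (h : 0 < s + δ) : ContDiffAt ℝ (⊤ : ℕ∞) (X1 a δ) s :=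
  ((eta1_contDiff a).contDiffAt.mul (contDiffAt_log_add h)).add
    ((eta_contDiff a).contDiffAt.mul (contDiffAt_inv_add h))

/-- uniform lower bounds of the curvature terms -/
lemma X_bounds {a : ℝ} (ha : 0 < a) : ∃ C : ℝ, 0 < C ∧ ∀ δ s : ℝ, 0 < δ → δ ≤ 1 → 0 ≤ s →
    -C ≤ X1 a δ s ∧ -C ≤ X1 a δ s + s * X2 a δ s := by
  -- bound on the compact region
  have hK : IsCompact (Icc (a / 4) a ×ˢ Icc (0 : ℝ) 1) := isCompact_Icc.prod isCompact_Icc
  have hpos : ∀ p ∈ Icc (a / 4) a ×ˢ Icc (0 : ℝ) 1, 0 < p.1 + p.2 := by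
    rintro ⟨s, δ⟩ ⟨hs, hδ⟩
    have h1 : a / 4 ≤ s := hs.1
    have h2 : 0 ≤ δ := hδ.1
    show 0 < s + δ
    linarith
  have hlog : ContinuousOn (fun p : ℝ × ℝ => Real.log (p.1 + p.2))
      (Icc (a / 4) a ×ˢ Icc (0 : ℝ) 1) :=
    ContinuousOn.log (by fun_prop) fun p hp => (hpos p hp).ne'
  have hinv : ContinuousOn (fun p : ℝ × ℝ => (p.1 + p.2)⁻¹)
      (Icc (a / 4) a ×ˢ Icc (0 : ℝ) 1) :=
    ContinuousOn.inv₀ (by fun_prop) fun p hp => (hpos p hp).ne'
  have hinv2 : ContinuousOn (fun p : ℝ × ℝ => -((p.1 + p.2) ^ 2)⁻¹)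
      (Icc (a / 4) a ×ˢ Icc (0 : ℝ) 1) :=
    (ContinuousOn.inv₀ (by fun_prop) fun p hp => (pow_pos (hpos p hp) 2).ne').neg
  have he : Continuous (fun p : ℝ × ℝ => eta a p.1) :=
    (eta_contDiff a).continuous.comp continuous_fst
  have he1 : Continuous (fun p : ℝ × ℝ => eta1 a p.1) :=
    (eta1_contDiff a).continuous.comp continuous_fst
  have he2 : Continuous (fun p : ℝ × ℝ => eta2 a p.1) :=
    (eta2_contDiff a).continuous.comp continuous_fst
  have hX1 : ContinuousOn (fun p : ℝ × ℝ => X1 a p.2 p.1) (Icc (a / 4) a ×ˢ Icc (0 : ℝ) 1) :=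
    (he1.continuousOn.mul hlog).add (he.continuousOn.mul hinv)
  have hX2 : ContinuousOn (fun p : ℝ × ℝ => X2 a p.2 p.1) (Icc (a / 4) a ×ˢ Icc (0 : ℝ) 1) :=
    ((he2.continuousOn.mul hlog).add (he1.continuousOn.mul hinv)).add
      ((he1.continuousOn.mul hinv).add (he.continuousOn.mul hinv2))
  obtain ⟨C1, hC1⟩ := hK.exists_bound_of_continuousOn hX1
  obtain ⟨C2, hC2⟩ := hK.exists_bound_of_continuousOn
    (hX1.add (continuous_fst.continuousOn.mul hX2))
  refine ⟨max 1 (max C1 C2), lt_max_of_lt_left one_pos, fun δ s hδ hδ1 hs => ?_⟩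
  have hsd : 0 < s + δ := by linarith
  have hC0 : (0 : ℝ) ≤ max 1 (max C1 C2) := le_trans zero_le_one (le_max_left _ _)
  rcases lt_or_ge s (a / 4) with h1 | h1
  · -- near the pole
    have e0 : eta a s = 1 := eta_one ha h1.le
    have e1 : eta1 a s = 0 := eta1_zero_of_lt ha h1
    have e2 : eta2 a s = 0 := eta2_zero_of_lt ha h1
    have hx1 : X1 a δ s = (s + δ)⁻¹ := by simp [X1, e0, e1]
    have hx2 : X2 a δ s = -((s + δ) ^ 2)⁻¹ := by simp [X2, e0, e1, e2]
    rw [hx1, hx2]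
    have h3 : 0 < (s + δ)⁻¹ := inv_pos.2 hsd
    have h4 : (s + δ)⁻¹ + s * -((s + δ) ^ 2)⁻¹ = δ / (s + δ) ^ 2 := by field_simp; ring
    rw [h4]
    have h5 : 0 ≤ δ / (s + δ) ^ 2 := by positivity
    constructor <;> linarith
  · rcases le_or_gt s a with h2 | h2
    · have hm : (s, δ) ∈ Icc (a / 4) a ×ˢ Icc (0 : ℝ) 1 := ⟨⟨h1, h2⟩, ⟨hδ.le, hδ1⟩⟩
      have h3 := hC1 _ hm
      have h4 := hC2 _ hm
      simp only [Pi.add_apply, Pi.mul_apply, Real.norm_eq_abs] at h3 h4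
      have h5 := (abs_le.1 h3).1
      have h6 := (abs_le.1 h4).1
      have h7 : C1 ≤ max 1 (max C1 C2) := le_trans (le_max_left _ _) (le_max_right _ _)
      have h8 : C2 ≤ max 1 (max C1 C2) := le_trans (le_max_right _ _) (le_max_right _ _)
      constructor <;> linarith
    · have e0 : eta a s = 0 := eta_zero ha h2.le
      have e1 : eta1 a s = 0 := eta1_zero_of_gt ha h2
      have e2 : eta2 a s = 0 := eta2_zero_of_gt ha h2
      have hx1 : X1 a δ s = 0 := by simp [X1, e0, e1]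
      have hx2 : X2 a δ s = 0 := by simp [X2, e0, e1, e2]
      rw [hx1, hx2]
      constructor <;> simp

lemma X_nonpos {a δ s : ℝ} (ha : 0 < a) (ha1 : a ≤ 1 / 2) (hδ : 0 < δ) (hδ1 : δ ≤ 1 / 2)
    (hs : 0 ≤ s) : X a δ s ≤ 0 := by
  unfold X
  rcases le_or_gt a s with h | h
  · rw [eta_zero ha h]; simp
  · exact mul_nonpos_of_nonneg_of_nonpos (eta_nonneg _ _)
      (Real.log_nonpos (by linarith) (by linarith))

lemma X_mono {a δ δ' s : ℝ} (hδ : 0 < δ) (h : δ ≤ δ') (hs : 0 ≤ s) : X a δ s ≤ X a δ' s := by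
  unfold X
  exact mul_le_mul_of_nonneg_left (Real.log_le_log (by linarith) (by linarith)) (eta_nonneg _ _)

lemma X_ge {a δ s b : ℝ} (hb : 0 < b) (hb1 : b ≤ 1) (hδ : 0 < δ)
    (hs : b ≤ s) : Real.log b ≤ X a δ s := by
  unfold X
  have h1 : Real.log b ≤ 0 := Real.log_nonpos hb.le hb1
  have h2 : Real.log b ≤ Real.log (s + δ) := Real.log_le_log hb (by linarith)
  have h3 := eta_nonneg a s
  have h4 := eta_le_one a s
  rcases le_or_gt 0 (Real.log (s + δ)) with h5 | h5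
  · exact h1.trans (mul_nonneg h3 h5)
  · nlinarith

lemma X_near {a δ s : ℝ} (ha : 0 < a) (hs : s ≤ a / 4) : X a δ s = Real.log (s + δ) := by
  unfold X; rw [eta_one ha hs, one_mul]

lemma X_far {a δ s : ℝ} (ha : 0 < a) (hs : a ≤ s) : X a δ s = 0 := by
  unfold X; rw [eta_zero ha hs, zero_mul]

/-! ### on a Riemann domain -/

variable {n : ℕ} {M : Type*} [TopologicalSpace M] [RDom n M]

lemma sm_X {Q : M → ℝ} (hQ : Sm Q) (h0 : ∀ x, 0 ≤ Q x) (a : ℝ) {δ : ℝ} (hδ : 0 < δ) :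
    Sm (fun x => X a δ (Q x)) :=
  Sm.comp_at (g := X a δ) hQ fun x => X_contDiffAt (by linarith [h0 x])

lemma sm_X1 {Q : M → ℝ} (hQ : Sm Q) (h0 : ∀ x, 0 ≤ Q x) (a : ℝ) {δ : ℝ} (hδ : 0 < δ) :
    Sm (fun x => X1 a δ (Q x)) :=
  Sm.comp_at (g := X1 a δ) hQ fun x => X1_contDiffAt (by linarith [h0 x])

lemma lev_X {Q : M → ℝ} (hQ : Sm Q) (h0 : ∀ x, 0 ≤ Q x) (a : ℝ) {δ : ℝ} (hδ : 0 < δ) (x : M)
    (w : Fin n → ℂ) : lev (fun x => X a δ (Q x)) x w =
      X2 a δ (Q x) * dsq Q x w + X1 a δ (Q x) * lev Q x w := by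
  refine lev_comp (g := X a δ) (g' := X1 a δ) hQ x ?_ (X1_hasDerivAt (by linarith [h0 x])) w
    (sm_X1 hQ h0 a hδ)
  have h1 : -δ < Q x := by linarith [h0 x]
  filter_upwards [Ioi_mem_nhds h1] with t ht
  exact X_hasDerivAt (by linarith [mem_Ioi.1 ht])

lemma lev_X_ge {a C δ : ℝ} (hC : 0 ≤ C)
    (hb : ∀ s : ℝ, 0 ≤ s → -C ≤ X1 a δ s ∧ -C ≤ X1 a δ s + s * X2 a δ s) (hδ : 0 < δ)
    {Q : M → ℝ} (hQ : Sm Q) (h0 : ∀ x, 0 ≤ Q x) {x : M} {w : Fin n → ℂ}
    (hlev : 0 ≤ lev Q x w) (hd : dsq Q x w ≤ Q x * lev Q x w) :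
    -C * lev Q x w ≤ lev (fun x => X a δ (Q x)) x w := by
  rw [lev_X hQ h0 a hδ]
  obtain ⟨h1, h2⟩ := hb (Q x) (h0 x)
  have h3 := dsq_nonneg Q x w
  rcases le_or_gt 0 (X2 a δ (Q x)) with h4 | h4
  · nlinarith [mul_nonneg h4 h3]
  · have h5 : X2 a δ (Q x) * (Q x * lev Q x w) ≤ X2 a δ (Q x) * dsq Q x w :=
      mul_le_mul_of_nonpos_left hd h4.le
    nlinarith

lemma lev_X_far {a δ : ℝ} (ha : 0 < a) (hδ : 0 < δ)
    {Q : M → ℝ} (hQ : Sm Q) (h0 : ∀ x, 0 ≤ Q x) {x : M} (hx : a < Q x) (w : Fin n → ℂ) :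
    lev (fun x => X a δ (Q x)) x w = 0 := by
  rw [lev_X hQ h0 a hδ]
  have e0 : eta a (Q x) = 0 := eta_zero ha hx.le
  have e1 : eta1 a (Q x) = 0 := eta1_zero_of_gt ha hx
  have e2 : eta2 a (Q x) = 0 := eta2_zero_of_gt ha hx
  simp [X1, X2, e0, e1, e2]

/-! ### local versions of the Levi form of `∑ |f_j|²` -/

/-- `f` is holomorphic near `x` -/
def HolAt (f : M → ℂ) (x : M) : Prop :=
  ∀ᶠ y in 𝓝 x, ∀ w : Fin n → ℂ, D f y (I • w) = I * D f y w

lemma D2_I' {f : M → ℂ} (hs : Sm f) {x : M} (hf : HolAt f x) (w : Fin n → ℂ) :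
    D (fun y => D f y (I • w)) x (I • w) = - D (fun y => D f y w) x w := by
  have h1 : (fun y => D f y (I • w)) =ᶠ[𝓝 x] fun y => I * D f y w := by
    filter_upwards [hf] with y hy using hy w
  rw [D_congr h1, D_const_mulC (hs.D.apply w)]
  rw [D_D_comm hs x w (I • w), D_congr h1, D_const_mulC (hs.D.apply w), ← mul_assoc, I_mul_I]
  ring

lemma lev_normSq' {f : M → ℂ} (hS : Sm f) {x : M} (hf : HolAt f x) (w : Fin n → ℂ) :
    lev (fun x => ‖f x‖ ^ 2) x w = ‖D f x w‖ ^ 2 := by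
  have h : ∀ v : Fin n → ℂ, D (fun y => D (fun x => ‖f x‖ ^ 2) y v) x v =
      2 * ((D (fun y => D f y v) x v * (starRingEnd ℂ) (f x)).re + ‖D f x v‖ ^ 2) := by
    intro v
    have h1 : (fun y => D (fun x => ‖f x‖ ^ 2) y v) =
        fun y => 2 * (D f y v * (starRingEnd ℂ) (f y)).re := by
      funext y; exact D_normSq hS y v
    have hs : Sm (fun y => D f y v * (starRingEnd ℂ) (f y)) := (hS.D.apply v).mul hS.conj
    have hs' : Sm (fun y => (D f y v * (starRingEnd ℂ) (f y)).re) := hs.clm Complex.reCLM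
    have h3 := D_smul (Sm.const (M := M) (2 : ℝ)) hs' x v
    simp only [smul_eq_mul] at h3
    rw [h1, h3, D_const, D_re hs, D_mul (hS.D.apply v) hS.conj, Crest.Agent.R271.W792.D_conj hS]
    have h4 : D f x v * (starRingEnd ℂ) (D f x v) = ((‖D f x v‖ ^ 2 : ℝ) : ℂ) := by
      rw [Complex.mul_conj, Complex.normSq_eq_norm_sq]
    rw [h4, Complex.add_re, Complex.ofReal_re]
    simp
  unfold lev
  have hcl := hf.self_of_nhds w
  rw [h, h, D2_I' hS hf, hcl]
  have h5 : ‖I * D f x w‖ = ‖D f x w‖ := by simp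
  rw [h5]
  have h6 : (-(D (fun y => D f y w) x w) * (starRingEnd ℂ) (f x)).re =
      -((D (fun y => D f y w) x w) * (starRingEnd ℂ) (f x)).re := by
    rw [neg_mul, Complex.neg_re]
  rw [h6]; ring

lemma lev_nS' {ι : Type*} [Fintype ι] {f : ι → M → ℂ} (hs : ∀ j, Sm (f j)) {x : M}
    (hf : ∀ j, HolAt (f j) x) (w : Fin n → ℂ) : lev (nS f) x w = nT f x w := by
  unfold nS nT
  rw [lev_sum _ (fun j _ => Hol.sm_normSq (hs j))]
  exact Finset.sum_congr rfl fun j _ => lev_normSq' (hs j) (hf j) w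

lemma dsq_nS' {ι : Type*} [Fintype ι] {f : ι → M → ℂ} (hs : ∀ j, Sm (f j)) {x : M}
    (hf : ∀ j, HolAt (f j) x) (w : Fin n → ℂ) : dsq (nS f) x w = ‖nA f x w‖ ^ 2 := by
  unfold dsq
  rw [D_nS hs, D_nS hs]
  have h1 : nA f x (I • w) = I * nA f x w := by
    unfold nA
    rw [Finset.mul_sum]
    refine Finset.sum_congr rfl fun j _ => ?_
    rw [(hf j).self_of_nhds w]; ring
  rw [h1]
  have h2 : ‖nA f x w‖ ^ 2 = (nA f x w).re ^ 2 + (nA f x w).im ^ 2 := by
    rw [← Complex.normSq_eq_norm_sq, Complex.normSq_apply]; ring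
  rw [h2]
  simp only [Complex.mul_re, Complex.I_re, Complex.I_im]
  ring

lemma dsq_nS_le {ι : Type*} [Fintype ι] {f : ι → M → ℂ} (hs : ∀ j, Sm (f j)) {x : M}
    (hf : ∀ j, HolAt (f j) x) (w : Fin n → ℂ) : dsq (nS f) x w ≤ nS f x * nT f x w := by
  rw [dsq_nS' hs hf]; exact nA_le f x w

end Crest.Agent.R276.CntLowA_804
end
end

-- ▼ part R276/CntLowB_804
section

/-!
# Row 276, COUNT-LOW, part B: Hörmander with many cut-off logarithmic poles (helper804)
-/

set_option autoImplicit false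
set_option linter.unusedSectionVars false

noncomputable section

open Set Filter Topology Complex MeasureTheory

namespace Crest.Agent.R276.CntLowB_804

open Crest.Agent.R271.Ho51 Crest.Agent.R271.W792 Crest.Agent.R276.CntLowA_804
open Crest.Agent.R271

/-- the regularisation parameters -/
def dl (k : ℕ) : ℝ := 1 / ((k : ℝ) + 2)

lemma dl_pos (k : ℕ) : 0 < dl k := by unfold dl; positivity

lemma dl_le (k : ℕ) : dl k ≤ 1 / 2 := by
  unfold dl
  apply one_div_le_one_div_of_le (by norm_num)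
  have : (0 : ℝ) ≤ k := by positivity
  linarith

lemma dl_anti {k l : ℕ} (h : k ≤ l) : dl l ≤ dl k := by
  unfold dl
  apply one_div_le_one_div_of_le (by positivity)
  have : (k : ℝ) ≤ l := by exact_mod_cast h
  linarith

lemma dl_tendsto : Tendsto dl atTop (𝓝 0) := by
  unfold dl
  have h1 : Tendsto (fun k : ℕ => (k : ℝ) + 2) atTop atTop :=
    tendsto_atTop_add_const_right _ _ tendsto_natCast_atTop_atTop
  have h2 := tendsto_inv_atTop_zero.comp h1
  refine h2.congr fun k => ?_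
  simp

variable {n : ℕ} {M : Type} [TopologicalSpace M] [RDom n M]

/-- the pole part of the weight -/
def Pw {J : Type} [Fintype J] (a : ℝ) (Q : J → M → ℝ) (k : ℕ) (x : M) : ℝ :=
  ∑ j, X a (dl k) (Q j x)

variable {J : Type} [Fintype J] {a : ℝ} {Q : J → M → ℝ}

lemma sm_Pw (hQ : ∀ j, Sm (Q j)) (hQ0 : ∀ j x, 0 ≤ Q j x) (k : ℕ) : Sm (Pw a Q k) := by
  unfold Pw
  exact Sm.sum fun j _ => sm_X (hQ j) (hQ0 j) a (dl_pos k)

omit [TopologicalSpace M] [RDom n M] in
lemma Pw_anti (hQ0 : ∀ j x, 0 ≤ Q j x) (x : M) : Antitone (fun k => Pw a Q k x) := by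
  intro k l hkl
  unfold Pw
  exact Finset.sum_le_sum fun j _ => X_mono (dl_pos l) (dl_anti hkl) (hQ0 j x)

omit [TopologicalSpace M] [RDom n M] in
lemma Pw_nonpos (ha : 0 < a) (ha1 : a ≤ 1 / 2) (hQ0 : ∀ j x, 0 ≤ Q j x) (k : ℕ) (x : M) :
    Pw a Q k x ≤ 0 :=
  Finset.sum_nonpos fun j _ => X_nonpos ha ha1 (dl_pos k) (dl_le k) (hQ0 j x)

omit [TopologicalSpace M] [RDom n M] in
lemma Pw_ge {b : ℝ} (hb : 0 < b) (hb1 : b ≤ 1) (k : ℕ) {x : M} (hx : ∀ j, b ≤ Q j x) :
    (Fintype.card J : ℝ) * Real.log b ≤ Pw a Q k x := by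
  unfold Pw
  have h : ∑ _j : J, Real.log b ≤ ∑ j, X a (dl k) (Q j x) :=
    Finset.sum_le_sum fun j _ => X_ge hb hb1 (dl_pos k) (hx j)
  simpa using h

omit [TopologicalSpace M] [RDom n M] in
lemma Pw_near (ha : 0 < a) (hdis : ∀ i j x, Q i x ≤ a → Q j x ≤ a → i = j) (k : ℕ) {x : M}
    {j : J} (hx : Q j x ≤ a / 4) : Pw a Q k x = Real.log (Q j x + dl k) := by
  unfold Pw
  rw [Finset.sum_eq_single j, X_near ha hx]
  · intro i _ hij
    apply X_far ha
    by_contra hcon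
    exact hij (hdis i j x (not_le.1 hcon).le (by linarith))
  · intro h; exact absurd (Finset.mem_univ j) h

/-- curvature of the pole part -/
lemma lev_Pw (ha : 0 < a) (hQ : ∀ j, Sm (Q j)) (hQ0 : ∀ j x, 0 ≤ Q j x)
    {B : Set M} {q : M → (Fin n → ℂ) → ℝ} (hq : ∀ x ∈ B, ∀ w, 0 ≤ q x w)
    (hQl : ∀ j, ∀ x ∈ B, ∀ w, lev (Q j) x w = q x w)
    (hQd : ∀ j, ∀ x ∈ B, ∀ w, dsq (Q j) x w ≤ Q j x * q x w)
    (hQB : ∀ j, ∀ x, x ∉ B → a < Q j x)
    (hdis : ∀ i j x, Q i x ≤ a → Q j x ≤ a → i = j)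
    {C : ℝ} (hC : 0 ≤ C)
    (hb : ∀ δ s : ℝ, 0 < δ → δ ≤ 1 → 0 ≤ s → -C ≤ X1 a δ s ∧ -C ≤ X1 a δ s + s * X2 a δ s)
    (k : ℕ) (x : M) (w : Fin n → ℂ) :
    (x ∈ B → -C * q x w ≤ lev (Pw a Q k) x w) ∧ (x ∉ B → lev (Pw a Q k) x w = 0) := by
  have h1 : lev (Pw a Q k) x w = ∑ j, lev (fun x => X a (dl k) (Q j x)) x w := by
    unfold Pw
    exact lev_sum _ (fun j _ => sm_X (hQ j) (hQ0 j) a (dl_pos k)) x w
  have hb' : ∀ s : ℝ, 0 ≤ s → -C ≤ X1 a (dl k) s ∧ -C ≤ X1 a (dl k) s + s * X2 a (dl k) s :=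
    fun s hs => hb _ _ (dl_pos k) ((dl_le k).trans (by norm_num)) hs
  constructor
  · intro hx
    rw [h1]
    by_cases h2 : ∃ j, Q j x ≤ a
    · obtain ⟨j, hj⟩ := h2
      rw [Finset.sum_eq_single j]
      · have h3 := lev_X_ge hC hb' (dl_pos k) (hQ j) (hQ0 j) (x := x) (w := w)
          (by rw [hQl j x hx]; exact hq x hx w) (by rw [hQl j x hx]; exact hQd j x hx w)
        rwa [hQl j x hx] at h3
      · intro i _ hij
        apply lev_X_far ha (dl_pos k) (hQ i) (hQ0 i)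
        by_contra hcon
        exact hij (hdis i j x (not_lt.1 hcon) hj)
      · intro h; exact absurd (Finset.mem_univ j) h
    · push Not at h2
      rw [Finset.sum_eq_zero fun j _ => lev_X_far ha (dl_pos k) (hQ j) (hQ0 j) (h2 j) w]
      have := hq x hx w
      nlinarith
  · intro hx
    rw [h1]
    exact Finset.sum_eq_zero fun j _ => lev_X_far ha (dl_pos k) (hQ j) (hQ0 j) (hQB j x hx) w

variable [T2Space M] [SecondCountableTopology M] [MeasurableSpace M] [BorelSpace M]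
  {μ : Measure M}

lemma cs_nsq (u w : Fin n → ℂ) : ‖∑ j, u j * (starRingEnd ℂ) (w j)‖ ^ 2 ≤ nsq u * nsq w := by
  have h1 : ‖∑ j, u j * (starRingEnd ℂ) (w j)‖ ≤ ∑ j, ‖u j‖ * ‖w j‖ := by
    refine (norm_sum_le _ _).trans (Finset.sum_le_sum fun j _ => ?_)
    rw [norm_mul, RCLike.norm_conj]
  calc ‖∑ j, u j * (starRingEnd ℂ) (w j)‖ ^ 2 ≤ (∑ j, ‖u j‖ * ‖w j‖) ^ 2 := by gcongr
    _ ≤ (∑ j, ‖u j‖ ^ 2) * ∑ j, ‖w j‖ ^ 2 := Finset.sum_mul_sq_le_sq_mul_sq _ _ _
    _ = nsq u * nsq w := rfl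

/-- **Hörmander with many poles** -/
theorem solve_poles (hμ : IsLeb μ) {ρ : M → ℝ} (hρ : Sm ρ)
    (hcpt : ∀ c, IsCompact {x | ρ x ≤ c}) (hL : ∀ x w, nsq w ≤ Levi ρ x w)
    {W : ℕ → M → ℝ} (hWs : ∀ k, Sm (W k)) (hWa : ∀ x, Antitone (fun k => W k x))
    (hW0 : ∀ k x w, 0 ≤ Levi (W k) x w)
    (ha : 0 < a) (hQ : ∀ j, Sm (Q j)) (hQ0 : ∀ j x, 0 ≤ Q j x)
    {B : Set M} {q : M → (Fin n → ℂ) → ℝ} (hq : ∀ x ∈ B, ∀ w, nsq w ≤ q x w)
    (hQl : ∀ j, ∀ x ∈ B, ∀ w, lev (Q j) x w = q x w)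
    (hQd : ∀ j, ∀ x ∈ B, ∀ w, dsq (Q j) x w ≤ Q j x * q x w)
    (hQB : ∀ j, ∀ x, x ∉ B → a < Q j x)
    (hdis : ∀ i j x, Q i x ≤ a → Q j x ≤ a → i = j)
    {C : ℝ} (hC : 0 ≤ C)
    (hb : ∀ δ s : ℝ, 0 < δ → δ ≤ 1 → 0 ≤ s → -C ≤ X1 a δ s ∧ -C ≤ X1 a δ s + s * X2 a δ s)
    {p C1 : ℝ} (hp : 0 ≤ p) (hC1 : 0 < C1)
    (hWB : ∀ k, ∀ x ∈ B, ∀ w, (p * C + C1) * q x w ≤ Levi (W k) x w)
    {G : M → ℂ} (hG : Sm G) (hGc : HasCompactSupport G)
    (hGB : ∀ x, x ∉ B → ∀ j, db j G x = 0)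
    {b : ℝ} (hb0 : 0 < b) (hb1 : b ≤ 1)
    (hGQ : ∀ x, (∃ i, db i G x ≠ 0) → ∀ j, b ≤ Q j x)
    {Wl : M → ℝ} (hWl : Continuous Wl) (hWl' : ∀ k, ∀ x ∈ tsupport G, Wl x ≤ W k x) :
    ∃ F : M → ℂ, Ho51.Hol F ∧ ∃ K : ENNReal, K < ⊤ ∧
      ∫⁻ x, ENNReal.ofReal (‖F x - G x‖ ^ 2) *
        (⨆ k, ENNReal.ofReal (Real.exp (-(W k x + p * Pw a Q k x)))) ∂μ ≤ K := by
  have hLF := hμ.locallyFinite
  have hPs : ∀ k, Sm (fun x => p * Pw a Q k x) := fun k =>
    (Sm.const p).mulR (sm_Pw hQ hQ0 k)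
  have hφs : ∀ k, Sm (fun x => W k x + p * Pw a Q k x) := fun k => (hWs k).add (hPs k)
  have hq0 : ∀ x ∈ B, ∀ w, 0 ≤ q x w := fun x hx w => (nsq_nonneg w).trans (hq x hx w)
  have hlev : ∀ k x w, Levi (fun x => W k x + p * Pw a Q k x) x w =
      Levi (W k) x w + p * lev (Pw a Q k) x w := by
    intro k x w
    rw [Levi_add (hWs k) (hPs k), Levi_eq_lev (hPs k), lev_const_mul (sm_Pw hQ hQ0 k)]
  have hlevB : ∀ k, ∀ x ∈ B, ∀ w, C1 * q x w ≤ Levi (fun x => W k x + p * Pw a Q k x) x w := by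
    intro k x hx w
    rw [hlev]
    have h1 := hWB k x hx w
    have h2 := (lev_Pw ha hQ hQ0 hq0 hQl hQd hQB hdis hC hb k x w).1 hx
    nlinarith [mul_le_mul_of_nonneg_left h2 hp]
  have hlevN : ∀ k x, x ∉ B → ∀ w, Levi (fun x => W k x + p * Pw a Q k x) x w =
      Levi (W k) x w := by
    intro k x hx w
    rw [hlev, (lev_Pw ha hQ hQ0 hq0 hQl hQd hQB hdis hC hb k x w).2 hx]; ring
  -- the bound on the right hand side
  let α : M → (Fin n → ℂ) := fun x j => db j G x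
  have hα : Continuous α := continuous_pi fun j => (hG.db j).continuous
  have hαn : Continuous (fun x => nsq (α x)) := by
    unfold nsq
    exact continuous_finsetSum _ fun j _ => ((continuous_apply j).comp hα).norm.pow 2
  have hα0 : ∀ x, x ∉ tsupport G → nsq (α x) = 0 := by
    intro x hx
    have h1 : G =ᶠ[𝓝 x] fun _ => 0 := notMem_tsupport_iff_eventuallyEq.1 hx
    have h2 : ∀ j, db j G x = 0 := fun j => by rw [db_congr h1, db_const]
    simp [nsq, α, h2]
  set c0 : ℝ := p * (Fintype.card J * Real.log b) with hc0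
  let h : M → ℝ := fun x => nsq (α x) / C1 * Real.exp (-(Wl x + c0))
  have hh : Continuous h := by
    have := hWl
    fun_prop
  have hhc : HasCompactSupport h := by
    refine HasCompactSupport.intro hGc fun x hx => ?_
    simp [h, hα0 x hx]
  have hhi : Integrable h μ := hh.integrable_of_hasCompactSupport hhc
  have hK : ∫⁻ x, ENNReal.ofReal (h x) ∂μ < ⊤ := hhi.lintegral_lt_top
  obtain ⟨F, hF, hFK⟩ := engineP n M μ hμ ρ hρ hcpt hL
    (fun k x => W k x + p * Pw a Q k x) hφs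
    (fun x => by
      intro k l hkl
      have h1 := hWa x hkl
      have h2 := Pw_anti (a := a) hQ0 x hkl
      simp only at h1 h2 ⊢
      nlinarith [mul_le_mul_of_nonneg_left h2 hp])
    (fun k x w => by
      by_cases hx : x ∈ B
      · exact (mul_nonneg hC1.le (hq0 x hx w)).trans (hlevB k x hx w)
      · rw [hlevN k x hx]; exact hW0 k x w)
    G hG (fun _ x => nsq (α x) / C1)
    (fun k x w => by
      by_cases hx : x ∈ B
      · refine (cs_nsq (α x) w).trans ?_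
        have h1 := hlevB k x hx w
        have h2 := hq x hx w
        have h3 := nsq_nonneg (α x)
        have h4 : nsq w ≤ Levi (fun x => W k x + p * Pw a Q k x) x w / C1 := by
          rw [le_div_iff₀ hC1]; nlinarith
        calc nsq (α x) * nsq w
            ≤ nsq (α x) * (Levi (fun x => W k x + p * Pw a Q k x) x w / C1) := by gcongr
          _ = _ := by ring
      · have h1 : ∀ j, db j G x = 0 := hGB x hx
        have h2 : 0 ≤ Levi (fun x => W k x + p * Pw a Q k x) x w := by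
          rw [hlevN k x hx]; exact hW0 k x w
        simp only [h1, zero_mul, Finset.sum_const_zero, norm_zero]
        have h3 := nsq_nonneg (α x)
        have h4 : 0 ≤ nsq (α x) / C1 := div_nonneg h3 hC1.le
        simpa using mul_nonneg h4 h2)
    (∫⁻ x, ENNReal.ofReal (h x) ∂μ)
    (fun k => by
      refine lintegral_mono fun x => ENNReal.ofReal_le_ofReal ?_
      by_cases hx : ∃ i, db i G x ≠ 0
      · have h1 := hGQ x hx
        have h2 := Pw_ge (a := a) hb0 hb1 k h1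
        have h3 : x ∈ tsupport G := by
          by_contra hcon
          obtain ⟨i, hi⟩ := hx
          have h4 : G =ᶠ[𝓝 x] fun _ => 0 := notMem_tsupport_iff_eventuallyEq.1 hcon
          exact hi (by rw [db_congr h4, db_const])
        have h4 := hWl' k x h3
        have h5 := mul_le_mul_of_nonneg_left h2 hp
        have h6 := nsq_nonneg (α x)
        show nsq (α x) / C1 * Real.exp (-(W k x + p * Pw a Q k x)) ≤
          nsq (α x) / C1 * Real.exp (-(Wl x + c0))
        gcongr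
      · push Not at hx
        have h1 : nsq (α x) = 0 := by simp [nsq, α, hx]
        show nsq (α x) / C1 * Real.exp (-(W k x + p * Pw a Q k x)) ≤
          nsq (α x) / C1 * Real.exp (-(Wl x + c0))
        simp [h1])
  exact ⟨F, hF, 2 * ∫⁻ x, ENNReal.ofReal (h x) ∂μ, ENNReal.mul_lt_top (by norm_num) hK, hFK⟩

end Crest.Agent.R276.CntLowB_804
end
end

-- ▼ part R276/CntLowC_804
section

/-!
# Row 276, COUNT-LOW, part C: vanishing order from `L²` decay, independence of jets (helper804)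
-/

set_option autoImplicit false
set_option linter.unusedSectionVars false

noncomputable section

open Set Filter Topology Complex MeasureTheory Metric

namespace Crest.Agent.R276.CntLowC_804

variable {n : ℕ}

/-- decay of the `L²` norm on small balls gives pointwise decay -/
theorem order_of_decay {f : (Fin n → ℂ) → ℂ} {z0 : Fin n → ℂ} {R : ℝ}
    (hf : DifferentiableOn ℂ f (ball z0 R)) {p : ℕ} (hp : n < p) {A R' : ℝ} (hA : 0 ≤ A)
    (hR' : 0 < R') (hRR : R' ≤ R) {K : ENNReal} (hK : K < ⊤)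
    (h : ∀ s : ℝ, 0 < s → s < R' → ∫⁻ y in closedBall z0 s, ‖f y‖ₑ ^ 2 ≤
      K * ENNReal.ofReal ((A * s ^ 2) ^ p)) :
    ∃ C : ℝ, ∀ᶠ z in 𝓝 z0, ‖f z‖ ≤ C * ‖z - z0‖ ^ (p - n) := by
  set v : ENNReal := volume (ball (0 : Fin n → ℂ) 1) with hv
  have hv0 : v ≠ 0 := (measure_ball_pos volume _ one_pos).ne'
  have hvt : v ≠ ⊤ := measure_ball_lt_top.ne
  have hv' : 0 < v.toReal := ENNReal.toReal_pos hv0 hvt
  set C : ℝ := Real.sqrt (K.toReal * (4 * A) ^ p / v.toReal) with hC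
  -- the main estimate
  have main : ∀ z : Fin n → ℂ, ∀ s : ℝ, 0 < s → s < R' / 2 → ‖z - z0‖ ≤ s →
      ‖f z‖ ≤ C * s ^ (p - n) := by
    intro z s hs0 hs2 hzs
    have hsub : closedBall z s ⊆ closedBall z0 (2 * s) := by
      apply closedBall_subset_closedBall'
      rw [dist_eq_norm]; linarith
    have hsub2 : closedBall z s ⊆ ball z0 R := by
      refine hsub.trans (closedBall_subset_ball (by linarith))
    have h1 := Crest.Agent.R271.RExt747.submean isOpen_ball hf hsub2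
    have h2 : ∫⁻ y in closedBall z s, ‖f y‖ₑ ^ 2 ≤ K * ENNReal.ofReal ((A * (2 * s) ^ 2) ^ p) :=
      (lintegral_mono_set hsub).trans (h (2 * s) (by linarith) (by linarith))
    have h3 : volume (closedBall z s) = ENNReal.ofReal (s ^ (2 * n)) * v := by
      have := Measure.addHaar_closedBall (volume : Measure (Fin n → ℂ)) z hs0.le
      have hfr : Module.finrank ℝ (Fin n → ℂ) = 2 * n := by
        rw [Module.finrank_pi_fintype]
        simp [Complex.finrank_real_complex, mul_comm]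
      rw [hfr] at this
      exact this
    rw [h3] at h1
    have h4 := h1.trans h2
    -- to real numbers
    have h5 : s ^ (2 * n) * v.toReal * ‖f z‖ ^ 2 ≤ K.toReal * (A * (2 * s) ^ 2) ^ p := by
      have h6 := ENNReal.toReal_mono (ENNReal.mul_lt_top hK ENNReal.ofReal_lt_top).ne h4
      rw [ENNReal.toReal_mul, ENNReal.toReal_mul, ENNReal.toReal_mul, ENNReal.toReal_pow,
        ENNReal.toReal_ofReal (by positivity), ENNReal.toReal_ofReal (by positivity)] at h6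
      simpa using h6
    have h6 : (A * (2 * s) ^ 2) ^ p = (4 * A) ^ p * (s ^ (2 * n) * (s ^ (p - n)) ^ 2) := by
      have e1 : A * (2 * s) ^ 2 = 4 * A * s ^ 2 := by ring
      have e2 : s ^ (2 * n) * (s ^ (p - n)) ^ 2 = (s ^ 2) ^ p := by
        rw [← pow_mul, ← pow_add, ← pow_mul]
        congr 1
        omega
      rw [e1, mul_pow, e2]
    rw [h6] at h5
    have hsn : 0 < s ^ (2 * n) := by positivity
    have h7 : v.toReal * ‖f z‖ ^ 2 ≤ K.toReal * (4 * A) ^ p * (s ^ (p - n)) ^ 2 := by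
      have h8 : s ^ (2 * n) * (v.toReal * ‖f z‖ ^ 2) ≤
          s ^ (2 * n) * (K.toReal * (4 * A) ^ p * (s ^ (p - n)) ^ 2) := by
        calc s ^ (2 * n) * (v.toReal * ‖f z‖ ^ 2) = s ^ (2 * n) * v.toReal * ‖f z‖ ^ 2 := by ring
          _ ≤ _ := h5
          _ = _ := by ring
      exact le_of_mul_le_mul_left h8 hsn
    have h8 : ‖f z‖ ^ 2 ≤ (K.toReal * (4 * A) ^ p / v.toReal) * (s ^ (p - n)) ^ 2 := by
      rw [div_mul_eq_mul_div, le_div_iff₀ hv']
      linarith
    have h9 : ‖f z‖ ≤ Real.sqrt ((K.toReal * (4 * A) ^ p / v.toReal) * (s ^ (p - n)) ^ 2) :=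
      Real.le_sqrt_of_sq_le h8
    rwa [Real.sqrt_mul (by positivity), Real.sqrt_sq (by positivity)] at h9
  refine ⟨C, ?_⟩
  have hb : ball z0 (R' / 2) ∈ 𝓝 z0 := ball_mem_nhds _ (by positivity)
  filter_upwards [hb] with z hz
  by_cases hne : z = z0
  · subst hne
    have hpn : p - n ≠ 0 := by omega
    rw [sub_self, norm_zero, zero_pow hpn, mul_zero]
    have hlim : Tendsto (fun s : ℝ => C * s ^ (p - n)) (𝓝[>] 0) (𝓝 0) := by
      have h3 : Tendsto (fun s : ℝ => C * s ^ (p - n)) (𝓝 0) (𝓝 (C * 0 ^ (p - n))) := by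
        apply Continuous.tendsto
        fun_prop
      rw [zero_pow hpn, mul_zero] at h3
      exact h3.mono_left nhdsWithin_le_nhds
    refine ge_of_tendsto hlim ?_
    have h4 : ∀ᶠ s in 𝓝[>] (0 : ℝ), s < R' / 2 :=
      (Ioo_mem_nhdsGT (by positivity : (0 : ℝ) < R' / 2)) |> fun h => by
        filter_upwards [h] with s hs using hs.2
    filter_upwards [self_mem_nhdsWithin, h4] with s hs hs2
    exact main z s hs hs2 (by rw [sub_self, norm_zero]; exact (mem_Ioi.1 hs).le)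
  · have hs0 : 0 < ‖z - z0‖ := norm_pos_iff.2 (sub_ne_zero.2 hne)
    exact main z _ hs0 (by rw [mem_ball, dist_eq_norm] at hz; exact hz) le_rfl

/-- a polynomial in one variable which is `O(s^k)` is divisible by `X^k` -/
lemma X_pow_dvd_of_bigO {g : Polynomial ℂ} {k : ℕ} {C : ℝ}
    (h : ∀ᶠ s : ℂ in 𝓝[≠] 0, ‖g.eval s‖ ≤ C * ‖s‖ ^ k) : Polynomial.X ^ k ∣ g := by
  suffices H : ∀ j ≤ k, Polynomial.X ^ j ∣ g from H k le_rfl
  intro j
  induction j with
  | zero => intro _; simp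
  | succ j ih =>
    intro hj
    obtain ⟨u, hu⟩ := ih (by omega)
    have h1 : ∀ᶠ s : ℂ in 𝓝[≠] 0, ‖u.eval s‖ ≤ C * ‖s‖ ^ (k - j) := by
      filter_upwards [h, self_mem_nhdsWithin] with s hs hs0
      have hs0' : 0 < ‖s‖ := norm_pos_iff.2 hs0
      rw [hu] at hs
      simp only [Polynomial.eval_mul, Polynomial.eval_pow, Polynomial.eval_X, norm_mul,
        norm_pow] at hs
      have h2 : ‖s‖ ^ k = ‖s‖ ^ j * ‖s‖ ^ (k - j) := by
        rw [← pow_add]; congr 1; omega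
      rw [h2] at hs
      have h3 : ‖s‖ ^ j * ‖u.eval s‖ ≤ ‖s‖ ^ j * (C * ‖s‖ ^ (k - j)) := by
        calc _ ≤ _ := hs
          _ = _ := by ring
      exact le_of_mul_le_mul_left h3 (by positivity)
    have h2 : Tendsto (fun s : ℂ => C * ‖s‖ ^ (k - j)) (𝓝[≠] 0) (𝓝 0) := by
      have h3 : Tendsto (fun s : ℂ => C * ‖s‖ ^ (k - j)) (𝓝 0) (𝓝 (C * ‖(0 : ℂ)‖ ^ (k - j))) := by
        apply Continuous.tendsto
        fun_prop
      have h4 : k - j ≠ 0 := by omega
      simp only [norm_zero, zero_pow h4, mul_zero] at h3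
      exact h3.mono_left nhdsWithin_le_nhds
    have h3 : Tendsto (fun s : ℂ => u.eval s) (𝓝[≠] 0) (𝓝 (u.eval 0)) :=
      (u.continuous.tendsto 0).mono_left nhdsWithin_le_nhds
    have h4 : Tendsto (fun s : ℂ => u.eval s) (𝓝[≠] 0) (𝓝 0) :=
      squeeze_zero_norm' h1 h2
    have h5 : u.eval 0 = 0 := tendsto_nhds_unique h3 h4
    have h6 : Polynomial.X ∣ u := by
      rw [Polynomial.X_dvd_iff, Polynomial.coeff_zero_eq_eval_zero, h5]
    obtain ⟨t, ht⟩ := h6
    exact ⟨t, by rw [hu, ht, pow_succ]; ring⟩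

/-- monomials -/
def mo (α : Fin n → ℕ) (z : Fin n → ℂ) : ℂ := ∏ i, z i ^ α i

lemma mo_smul (α : Fin n → ℕ) (s : ℂ) (z : Fin n → ℂ) :
    mo α (s • z) = s ^ (∑ i, α i) * mo α z := by
  unfold mo
  rw [← Finset.prod_pow_eq_pow_sum, ← Finset.prod_mul_distrib]
  refine Finset.prod_congr rfl fun i _ => ?_
  simp [mul_pow]

/-- a polynomial of degree `< k` which is `O(|z|^k)` has zero coefficients -/
lemma coeff_zero_of_bigO {A : Type*} [Fintype A] {d : A → (Fin n → ℕ)}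
    (hd : Function.Injective d) {k : ℕ} (hk : ∀ α, ∑ i, d α i < k) {c : A → ℂ} {C : ℝ}
    (h : ∀ᶠ z : Fin n → ℂ in 𝓝 0, ‖∑ α, c α * mo (d α) z‖ ≤ C * ‖z‖ ^ k) :
    ∀ α, c α = 0 := by
  classical
  have h0 : ∀ ζ : Fin n → ℂ, ∑ α, c α * mo (d α) ζ = 0 := by
    intro ζ
    let g : Polynomial ℂ := ∑ α, Polynomial.C (c α * mo (d α) ζ) * Polynomial.X ^ (∑ i, d α i)
    have hg : ∀ s : ℂ, g.eval s = ∑ α, c α * mo (d α) (s • ζ) := by
      intro s
      simp only [g, Polynomial.eval_finsetSum, Polynomial.eval_mul, Polynomial.eval_C,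
        Polynomial.eval_pow, Polynomial.eval_X, mo_smul]
      refine Finset.sum_congr rfl fun α _ => by ring
    have h1 : ∀ᶠ s : ℂ in 𝓝[≠] 0, ‖g.eval s‖ ≤ (C * ‖ζ‖ ^ k) * ‖s‖ ^ k := by
      have h2 : Tendsto (fun s : ℂ => s • ζ) (𝓝[≠] 0) (𝓝 0) := by
        have h3 : Tendsto (fun s : ℂ => s • ζ) (𝓝 0) (𝓝 ((0 : ℂ) • ζ)) := by
          apply Continuous.tendsto
          fun_prop
        rw [zero_smul] at h3
        exact h3.mono_left nhdsWithin_le_nhds
      filter_upwards [h2.eventually h] with s hs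
      rw [hg]
      refine hs.trans (le_of_eq ?_)
      rw [norm_smul, mul_pow]; ring
    have h2 := X_pow_dvd_of_bigO h1
    have h3 : g = 0 := by
      rcases k with _ | k
      · -- no monomials
        have hA : IsEmpty A := ⟨fun α => by have := hk α; omega⟩
        simp [g]
      · refine Polynomial.eq_zero_of_dvd_of_degree_lt h2 ?_
        rw [Polynomial.degree_X_pow]
        refine lt_of_le_of_lt (Polynomial.degree_sum_le _ _) ?_
        rw [Finset.sup_lt_iff (WithBot.bot_lt_coe _)]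
        intro α _
        refine lt_of_le_of_lt (Polynomial.degree_C_mul_X_pow_le _ _) ?_
        exact_mod_cast hk α
    have h4 := hg 1
    rw [h3, one_smul] at h4
    rw [← h4]; simp
  let P : MvPolynomial (Fin n) ℂ :=
    ∑ α, MvPolynomial.monomial (Finsupp.equivFunOnFinite.symm (d α)) (c α)
  have hP : P = 0 := by
    apply MvPolynomial.funext
    intro ζ
    simp only [P, map_sum, MvPolynomial.eval_monomial, map_zero]
    rw [← h0 ζ]
    refine Finset.sum_congr rfl fun α _ => ?_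
    congr 1
    rw [Finsupp.prod_fintype _ _ (fun i => pow_zero _)]
    rfl
  intro α
  have h1 : P.coeff (Finsupp.equivFunOnFinite.symm (d α)) = c α := by
    simp only [P, MvPolynomial.coeff_sum, MvPolynomial.coeff_monomial]
    rw [Finset.sum_eq_single α]
    · simp
    · intro β _ hβ
      rw [if_neg]
      intro hcon
      exact hβ (hd (Finsupp.equivFunOnFinite.symm.injective hcon))
    · intro hcon; exact absurd (Finset.mem_univ α) hcon
  rw [← h1, hP]; simp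

/-- linear independence from jets: `F (j, α)` has at `z i` the jet `δ_{ij} (z - z i)^α` modulo
`O(|z - z i|^k)` -/
theorem linInd_of_jets {M : Type*} {J A : Type*} [Fintype J] [Fintype A] [DecidableEq J]
    {d : A → (Fin n → ℕ)} (hd : Function.Injective d) {k : ℕ} (hk : ∀ α, ∑ i, d α i < k)
    {F : J × A → M → ℂ} {z : J → (Fin n → ℂ)} {s : J → (Fin n → ℂ) → M}
    (hF : ∀ (j : J) (α : A) (i : J), ∃ C : ℝ, ∀ᶠ y in 𝓝 (z i),
      ‖F (j, α) (s i y) - (if i = j then mo (d α) (y - z i) else 0)‖ ≤ C * ‖y - z i‖ ^ k) :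
    LinearIndependent ℂ F := by
  classical
  rw [Fintype.linearIndependent_iff]
  rintro g hg ⟨i, α⟩
  choose C hC using hF
  have h1 : ∀ᶠ y in 𝓝 (z i), ‖∑ β, g (i, β) * mo (d β) (y - z i)‖ ≤
      (∑ q : J × A, ‖g q‖ * C q.1 q.2 i) * ‖y - z i‖ ^ k := by
    have h2 : ∀ᶠ y in 𝓝 (z i), ∀ q : J × A,
        ‖F (q.1, q.2) (s i y) - (if i = q.1 then mo (d q.2) (y - z i) else 0)‖ ≤
          C q.1 q.2 i * ‖y - z i‖ ^ k := by
      rw [eventually_all]
      exact fun q => hC q.1 q.2 i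
    filter_upwards [h2] with y hy
    have h3 : ∑ q : J × A, g q * F q (s i y) = 0 := by
      have := congrFun hg (s i y)
      simpa [Finset.sum_apply] using this
    have h4 : ∑ q : J × A, g q * (if i = q.1 then mo (d q.2) (y - z i) else 0) =
        ∑ β, g (i, β) * mo (d β) (y - z i) := by
      rw [Fintype.sum_prod_type]
      rw [Finset.sum_eq_single i]
      · simp
      · intro j _ hj
        simp [Ne.symm hj]
      · intro hcon; exact absurd (Finset.mem_univ i) hcon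
    have h5 : ∑ β, g (i, β) * mo (d β) (y - z i) =
        -∑ q : J × A, g q * (F q (s i y) - (if i = q.1 then mo (d q.2) (y - z i) else 0)) := by
      rw [← h4]
      simp only [mul_sub, Finset.sum_sub_distrib]
      rw [h3]; ring
    rw [h5, norm_neg]
    refine (norm_sum_le _ _).trans ?_
    rw [Finset.sum_mul]
    refine Finset.sum_le_sum fun q _ => ?_
    rw [norm_mul, mul_assoc]
    exact mul_le_mul_of_nonneg_left (hy q) (norm_nonneg _)
  have h2 : ∀ᶠ y : Fin n → ℂ in 𝓝 0, ‖∑ β, g (i, β) * mo (d β) y‖ ≤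
      (∑ q : J × A, ‖g q‖ * C q.1 q.2 i) * ‖y‖ ^ k := by
    have h3 : Tendsto (fun y : Fin n → ℂ => y + z i) (𝓝 0) (𝓝 (z i)) := by
      have : Tendsto (fun y : Fin n → ℂ => y + z i) (𝓝 0) (𝓝 (0 + z i)) := by
        apply Continuous.tendsto
        fun_prop
      rwa [zero_add] at this
    filter_upwards [h3.eventually h1] with y hy
    simpa using hy
  exact coeff_zero_of_bigO hd hk h2 α

end Crest.Agent.R276.CntLowC_804
end
end

-- ▼ part R276/CntLowD_804
section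

/-!
# Row 276, COUNT-LOW, part D: the pole functions `Q_j` in a chart (helper804)
-/

set_option autoImplicit false
set_option linter.unusedSectionVars false

noncomputable section

open Set Filter Topology Complex MeasureTheory Metric

namespace Crest.Agent.R276.CntLowD_804

open Crest.Agent.R271.Ho51 Crest.Agent.R271.W792 Crest.Agent.R276.CntLowA_804
open Crest.Agent.R271 Crest.Agent.R276.CntLowB_804 Crest.Agent.R276.CntLowC_804

variable {n ν : ℕ} {M : Type} [TopologicalSpace M] [T2Space M] [RDom n M]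

/-- local data: a chart, a polydisc in it, a holomorphic map to `ℂ^ν` -/
structure LD (n ν : ℕ) (M : Type) [TopologicalSpace M] [RDom n M] where
  e : OpenPartialHomeomorph M (Fin n → ℂ)
  he : IsCh e
  z0 : Fin n → ℂ
  r : ℝ
  hr : 0 < r
  hB : ball z0 r ⊆ e.target
  β : (Fin n → ℂ) → (Fin ν → ℂ)
  hβ : DifferentiableOn ℂ β (ball z0 r)

namespace LD

variable (S : LD n ν M)

/-- the cut-off function -/
def bump : ContDiffBump S.z0 := ⟨S.r / 4, S.r / 2, by have := S.hr; positivity,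
  by have := S.hr; linarith⟩

lemma bump_tsupport : tsupport (S.bump : (Fin n → ℂ) → ℝ) ⊆ ball S.z0 S.r := by
  rw [S.bump.tsupport_eq]
  apply closedBall_subset_ball
  have := S.hr
  show S.r / 2 < S.r
  linarith

lemma bump_one {z : Fin n → ℂ} (hz : z ∈ closedBall S.z0 (S.r / 4)) : S.bump z = 1 :=
  S.bump.one_of_mem_closedBall hz

/-- cut-off coordinates of `β` in the chart -/
def g (i : Fin ν) (z : Fin n → ℂ) : ℂ := (S.bump z : ℂ) * S.β z i

lemma β_apply_diff (i : Fin ν) : DifferentiableOn ℂ (fun z => S.β z i) (ball S.z0 S.r) :=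
  fun z hz => (differentiableWithinAt_pi.1 (S.hβ z hz)) i

lemma g_contDiff (i : Fin ν) : ContDiff ℝ (⊤ : ℕ∞) (S.g i) := by
  rw [contDiff_iff_contDiffAt]
  intro z
  by_cases hz : z ∈ ball S.z0 S.r
  · have h1 : AnalyticAt ℂ (fun z => S.β z i) z :=
      R266.SCV.analyticOnNhd_of_differentiableOn isOpen_ball (S.β_apply_diff i) z hz
    have h2 : ContDiffAt ℝ (⊤ : ℕ∞) (fun z => S.β z i) z := h1.restrictScalars.contDiffAt
    have h3 : ContDiffAt ℝ (⊤ : ℕ∞) (fun z => (S.bump z : ℂ)) z :=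
      Complex.ofRealCLM.contDiff.contDiffAt.comp z S.bump.contDiff.contDiffAt
    exact h3.mul h2
  · have h1 : S.g i =ᶠ[𝓝 z] fun _ => 0 := by
      have h2 : (tsupport (S.bump : (Fin n → ℂ) → ℝ))ᶜ ∈ 𝓝 z :=
        (isClosed_tsupport _).isOpen_compl.mem_nhds fun h => hz (S.bump_tsupport h)
      filter_upwards [h2] with y hy
      have h3 : S.bump y = 0 := image_eq_zero_of_notMem_tsupport hy
      simp [g, h3]
    exact contDiffAt_const.congr_of_eventuallyEq h1

lemma g_tsupport (i : Fin ν) : tsupport (S.g i) ⊆ ball S.z0 S.r := by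
  refine (closure_mono ?_).trans S.bump_tsupport
  intro z hz h
  apply hz
  simp [g, h]

lemma g_compact (i : Fin ν) : HasCompactSupport (S.g i) := by
  refine HasCompactSupport.intro S.bump.hasCompactSupport fun z hz => ?_
  have h3 : S.bump z = 0 := image_eq_zero_of_notMem_tsupport hz
  simp [g, h3]

/-- the cut-off coordinates on `M` -/
def bt (i : Fin ν) : M → ℂ := pull S.e (S.g i)

/-- the cut-off function on `M` -/
def th : M → ℝ := pull S.e S.bump

lemma sm_bt (i : Fin ν) : Sm (S.bt i) :=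
  pull_sm S.he (S.g_contDiff i) ((S.g_tsupport i).trans S.hB) (S.g_compact i)

lemma sm_th : Sm S.th :=
  pull_sm S.he S.bump.contDiff (S.bump_tsupport.trans S.hB) S.bump.hasCompactSupport

lemma th_le (x : M) : S.th x ≤ 1 := by
  by_cases hx : x ∈ S.e.source
  · rw [th, pull_of_mem S.e _ hx]; exact S.bump.le_one
  · simp [th, pull, indicator_of_notMem hx]


/-- the polydisc on `M` -/
def B : Set M := S.e.source ∩ cp ⁻¹' ball S.z0 (S.r / 4)

lemma isOpen_B : IsOpen S.B := S.e.open_source.inter (isOpen_ball.preimage cp_cont)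



lemma ball_sub : ball S.z0 (S.r / 4) ⊆ ball S.z0 S.r :=
  ball_subset_ball (by have := S.hr; linarith)

lemma th_one {x : M} (hx : x ∈ S.B) : S.th x = 1 := by
  rw [th, pull_of_mem S.e _ hx.1]
  exact S.bump_one (ball_subset_closedBall hx.2)

lemma bt_eq {x : M} (hx : x ∈ S.B) (i : Fin ν) : S.bt i x = S.β (cp x) i := by
  rw [bt, pull_of_mem S.e _ hx.1, g, S.bump_one (ball_subset_closedBall hx.2)]
  simp

lemma D_bt {x : M} (hx : x ∈ S.B) (i : Fin ν) (w : Fin n → ℂ) :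
    D (S.bt i) x w = fderiv ℂ S.β (cp x) w i := by
  have hz : cp x ∈ ball S.z0 S.r := S.ball_sub hx.2
  have h1 : D (S.bt i) x = fderiv ℝ (fun z => S.β z i) (cp x) := by
    have h2 : S.bt i =ᶠ[𝓝 x] fun y => S.g i (cp y) := pull_eventually hx.1
    rw [D_congr h2, D_of_coord]
    apply Filter.EventuallyEq.fderiv_eq
    have h3 : ball S.z0 (S.r / 4) ∈ 𝓝 (cp x) := isOpen_ball.mem_nhds hx.2
    filter_upwards [h3] with z hz
    rw [g, S.bump_one (ball_subset_closedBall hz)]; simp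
  have h4 : DifferentiableAt ℂ S.β (cp x) := (S.hβ _ hz).differentiableAt (isOpen_ball.mem_nhds hz)
  have h5 : DifferentiableAt ℂ (fun z => S.β z i) (cp x) := (differentiableAt_pi.1 h4) i
  rw [h1, R266.SCV.fderiv_real_eq h5]
  have h6 : HasFDerivAt (fun z => S.β z i)
      ((ContinuousLinearMap.proj (R := ℂ) i).comp (fderiv ℂ S.β (cp x))) (cp x) :=
    (hasFDerivAt_pi'.1 h4.hasFDerivAt) i
  rw [h6.fderiv]
  rfl

lemma holAt_bt {x : M} (hx : x ∈ S.B) (i : Fin ν) : HolAt (S.bt i) x := by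
  filter_upwards [S.isOpen_B.mem_nhds hx] with y hy w
  rw [S.D_bt hy, S.D_bt hy]
  simp

/-- the family `(z - z_j, √t (β - b))` -/
def fam (t : ℝ) (zj : Fin n → ℂ) (b : Fin ν → ℂ) : Fin n ⊕ Fin ν → M → ℂ :=
  Sum.elim (fun i x => cp x i - zj i) (fun i x => (Real.sqrt t : ℂ) * (S.bt i x - b i))

lemma sm_coord (i : Fin n) : Sm (fun x : M => cp x i) := (G792.hol_coord (M := M) i).sm

lemma sm_fam (t : ℝ) (zj : Fin n → ℂ) (b : Fin ν → ℂ) (k : Fin n ⊕ Fin ν) :
    Sm (S.fam t zj b k) := by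
  rcases k with i | i
  · exact (sm_coord i).sub (Sm.const _)
  · exact (Sm.const _).mul ((S.sm_bt i).sub (Sm.const _))

lemma D_fam_inl (t : ℝ) (zj : Fin n → ℂ) (b : Fin ν → ℂ) (i : Fin n) (x : M) (w : Fin n → ℂ) :
    D (S.fam t zj b (Sum.inl i)) x w = w i := by
  show D (fun x : M => cp x i - zj i) x w = w i
  rw [D_sub (sm_coord i) (Sm.const _), D_const]
  simp [G792.D_coord]

lemma D_fam_inr (t : ℝ) (zj : Fin n → ℂ) (b : Fin ν → ℂ) (i : Fin ν) (x : M) (w : Fin n → ℂ) :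
    D (S.fam t zj b (Sum.inr i)) x w = (Real.sqrt t : ℂ) * D (S.bt i) x w := by
  show D (fun x : M => (Real.sqrt t : ℂ) * (S.bt i x - b i)) x w = _
  rw [D_const_mulC ((S.sm_bt i).sub (Sm.const _)), D_sub (S.sm_bt i) (Sm.const _), D_const]
  simp

lemma holAt_fam (t : ℝ) (zj : Fin n → ℂ) (b : Fin ν → ℂ) (k : Fin n ⊕ Fin ν) {x : M}
    (hx : x ∈ S.B) : HolAt (S.fam t zj b k) x := by
  rcases k with i | i
  · refine Eventually.of_forall fun y w => ?_
    rw [D_fam_inl, D_fam_inl]; simp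
  · filter_upwards [S.holAt_bt hx i] with y hy w
    rw [D_fam_inr, D_fam_inr, hy]; ring

/-- the pole function -/
def Qf (t : ℝ) (zj : Fin n → ℂ) (b : Fin ν → ℂ) (x : M) : ℝ :=
  nS (S.fam t zj b) x + (1 - S.th x)

lemma sm_Qf (t : ℝ) (zj : Fin n → ℂ) (b : Fin ν → ℂ) : Sm (S.Qf t zj b) :=
  (sm_nS (S.sm_fam t zj b)).add ((Sm.const 1).sub S.sm_th)

lemma Qf_nonneg (t : ℝ) (zj : Fin n → ℂ) (b : Fin ν → ℂ) (x : M) : 0 ≤ S.Qf t zj b x :=
  add_nonneg (nS_nonneg _ _) (by linarith [S.th_le x])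

/-- the curvature of the pole function -/
def qf (t : ℝ) (x : M) (w : Fin n → ℂ) : ℝ := nsq w + t * ∑ i, ‖D (S.bt i) x w‖ ^ 2

lemma nT_fam {t : ℝ} (ht : 0 ≤ t) (zj : Fin n → ℂ) (b : Fin ν → ℂ) (x : M) (w : Fin n → ℂ) :
    nT (S.fam t zj b) x w = S.qf t x w := by
  unfold nT qf nsq
  rw [Fintype.sum_sum_type]
  simp only [D_fam_inl, D_fam_inr, norm_mul, mul_pow]
  rw [← Finset.mul_sum]
  congr 2
  rw [Complex.norm_real, Real.norm_eq_abs, sq_abs, Real.sq_sqrt ht]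

lemma nsq_le_qf {t : ℝ} (ht : 0 ≤ t) (x : M) (w : Fin n → ℂ) : nsq w ≤ S.qf t x w := by
  unfold qf
  have : 0 ≤ t * ∑ i, ‖D (S.bt i) x w‖ ^ 2 :=
    mul_nonneg ht (Finset.sum_nonneg fun _ _ => by positivity)
  linarith

lemma Qf_germ (t : ℝ) (zj : Fin n → ℂ) (b : Fin ν → ℂ) {x : M} (hx : x ∈ S.B) :
    S.Qf t zj b =ᶠ[𝓝 x] nS (S.fam t zj b) := by
  filter_upwards [S.isOpen_B.mem_nhds hx] with y hy
  simp [Qf, S.th_one hy]

lemma lev_congr {φ ψ : M → ℝ} {x : M} (h : φ =ᶠ[𝓝 x] ψ) (w : Fin n → ℂ) :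
    lev φ x w = lev ψ x w := by
  unfold lev
  have h1 : ∀ v : Fin n → ℂ, (fun y => D φ y v) =ᶠ[𝓝 x] fun y => D ψ y v := by
    intro v
    filter_upwards [h.eventuallyEq_nhds] with y hy
    rw [D_congr hy]
  rw [D_congr (h1 w), D_congr (h1 (I • w))]

lemma dsq_congr {φ ψ : M → ℝ} {x : M} (h : φ =ᶠ[𝓝 x] ψ) (w : Fin n → ℂ) :
    dsq φ x w = dsq ψ x w := by
  unfold dsq
  rw [D_congr h]

lemma lev_Qf {t : ℝ} (ht : 0 ≤ t) (zj : Fin n → ℂ) (b : Fin ν → ℂ) {x : M} (hx : x ∈ S.B)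
    (w : Fin n → ℂ) : lev (S.Qf t zj b) x w = S.qf t x w := by
  rw [lev_congr (S.Qf_germ t zj b hx), lev_nS' (S.sm_fam t zj b)
    (fun k => S.holAt_fam t zj b k hx), nT_fam S ht]

lemma dsq_Qf {t : ℝ} (ht : 0 ≤ t) (zj : Fin n → ℂ) (b : Fin ν → ℂ) {x : M} (hx : x ∈ S.B)
    (w : Fin n → ℂ) : dsq (S.Qf t zj b) x w ≤ S.Qf t zj b x * S.qf t x w := by
  rw [dsq_congr (S.Qf_germ t zj b hx), (S.Qf_germ t zj b hx).self_of_nhds, ← nT_fam S ht zj b]
  exact dsq_nS_le (S.sm_fam t zj b) (fun k => S.holAt_fam t zj b k hx) w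

lemma coord_le_nS (t : ℝ) (zj : Fin n → ℂ) (b : Fin ν → ℂ) (x : M) :
    ‖cp x - zj‖ ^ 2 ≤ nS (S.fam t zj b) x := by
  have h1 : ∀ i, ‖cp x i - zj i‖ ^ 2 ≤ nS (S.fam t zj b) x := by
    intro i
    exact Finset.single_le_sum (f := fun k => ‖S.fam t zj b k x‖ ^ 2)
      (fun k _ => by positivity) (Finset.mem_univ (Sum.inl i))
  have h0 := nS_nonneg (S.fam t zj b) x
  have h2 : ‖cp x - zj‖ ≤ Real.sqrt (nS (S.fam t zj b) x) := by
    rw [pi_norm_le_iff_of_nonneg (Real.sqrt_nonneg _)]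
    intro i
    exact Real.le_sqrt_of_sq_le (h1 i)
  calc ‖cp x - zj‖ ^ 2 ≤ (Real.sqrt (nS (S.fam t zj b) x)) ^ 2 := by gcongr
    _ = _ := Real.sq_sqrt h0

lemma beta_le_nS {t : ℝ} (ht : 0 ≤ t) (zj : Fin n → ℂ) (b : Fin ν → ℂ) (x : M) (i : Fin ν) :
    t * ‖S.bt i x - b i‖ ^ 2 ≤ nS (S.fam t zj b) x := by
  have h1 : ‖S.fam t zj b (Sum.inr i) x‖ ^ 2 ≤ nS (S.fam t zj b) x :=
    Finset.single_le_sum (f := fun k => ‖S.fam t zj b k x‖ ^ 2)
      (fun k _ => by positivity) (Finset.mem_univ (Sum.inr i))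
  have h2 : ‖S.fam t zj b (Sum.inr i) x‖ ^ 2 = t * ‖S.bt i x - b i‖ ^ 2 := by
    show ‖(Real.sqrt t : ℂ) * (S.bt i x - b i)‖ ^ 2 = _
    rw [norm_mul, mul_pow, Complex.norm_real, Real.norm_eq_abs, sq_abs, Real.sq_sqrt ht]
  rwa [h2] at h1

/-- off `B` the pole function is `> a` -/
lemma Qf_far {t : ℝ} {a : ℝ} (ha1 : a < 1) (har : a < (S.r / 8) ^ 2) {zj : Fin n → ℂ}
    (hzj : ‖zj - S.z0‖ ≤ S.r / 8) (b : Fin ν → ℂ) {x : M} (hx : x ∉ S.B) :
    a < S.Qf t zj b x := by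
  have h0 := nS_nonneg (S.fam t zj b) x
  by_cases hs : x ∈ S.e.source
  · have h1 : cp x ∉ ball S.z0 (S.r / 4) := fun h => hx ⟨hs, h⟩
    rw [mem_ball, dist_eq_norm, not_lt] at h1
    have h2 : S.r / 8 ≤ ‖cp x - zj‖ := by
      have h3 : ‖cp x - S.z0‖ ≤ ‖cp x - zj‖ + ‖zj - S.z0‖ := by
        have : cp x - S.z0 = (cp x - zj) + (zj - S.z0) := by abel
        rw [this]; exact norm_add_le _ _
      linarith
    have h3 := S.coord_le_nS t zj b x
    have h4 := S.th_le x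
    have h5 : (S.r / 8) ^ 2 ≤ ‖cp x - zj‖ ^ 2 := by
      have := S.hr
      gcongr
    unfold Qf
    linarith
  · have h1 : S.th x = 0 := by simp [th, pull, indicator_of_notMem hs]
    unfold Qf
    rw [h1]; linarith

/-- the polydisc is relatively compact -/
lemma sub_compact : IsCompact (S.e.symm '' closedBall S.z0 (S.r / 4)) := by
  refine isCompact_symm_image (isCompact_closedBall _ _) ?_
  refine (closedBall_subset_ball ?_).trans S.hB
  have := S.hr
  linarith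

lemma B_sub_compact : S.B ⊆ S.e.symm '' closedBall S.z0 (S.r / 4) := by
  intro x hx
  exact ⟨cp x, ball_subset_closedBall hx.2, S.he.symm_cp hx.1⟩

end LD

end Crest.Agent.R276.CntLowD_804
end
end

-- ▼ part R276/CntLowE_804
section

/-!
# Row 276, COUNT-LOW, part E: holomorphic functions with prescribed jets at many points (helper804)
-/

set_option autoImplicit false
set_option linter.unusedSectionVars false

noncomputable section

open Set Filter Topology Complex MeasureTheory Metric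

namespace Crest.Agent.R276.CntLowE_804

open Crest.Agent.R271.Ho51 Crest.Agent.R271.W792 Crest.Agent.R276.CntLowA_804
open Crest.Agent.R271 Crest.Agent.R276.CntLowB_804 Crest.Agent.R276.CntLowC_804
open Crest.Agent.R276.CntLowD_804

variable {n ν : ℕ} {M : Type} [TopologicalSpace M] [T2Space M] [RDom n M]

/-- holomorphic functions are continuous -/
lemma hol_continuous {F : M → ℂ} (hF : Ho51.Hol F) : Continuous F := by
  rw [continuous_iff_continuousAt]
  intro y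
  have h1 := (hF (ch y) (isCh_ch y)).continuousOn.continuousAt
    ((ch y).open_target.mem_nhds ((isCh_ch y).cp_mem (mem_ch y)))
  have h2 : F =ᶠ[𝓝 y] fun x => (F ∘ (ch y).symm) (cp x) := by
    filter_upwards [(ch y).open_source.mem_nhds (mem_ch y)] with x hx
    simp only [Function.comp_apply]
    rw [(isCh_ch y).symm_cp hx]
  refine ContinuousAt.congr ?_ h2.symm
  exact ContinuousAt.comp (g := F ∘ (ch y).symm) (f := cp) h1 cp_cont.continuousAt

lemma mo_contDiff (α : Fin n → ℕ) (c : Fin n → ℂ) :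
    ContDiff ℝ (⊤ : ℕ∞) (fun z : Fin n → ℂ => mo α (z - c)) := by
  unfold mo
  refine contDiff_prod fun i _ => ContDiff.pow ?_ _
  have : ContDiff ℝ (⊤ : ℕ∞) (fun z : Fin n → ℂ => z i) :=
    contDiff_apply ℝ ℂ i
  exact this.sub contDiff_const

lemma mo_differentiable (α : Fin n → ℕ) (c : Fin n → ℂ) :
    Differentiable ℂ (fun z : Fin n → ℂ => mo α (z - c)) := by
  have h : ContDiff ℂ 1 (fun z : Fin n → ℂ => mo α (z - c)) := by
    unfold mo
    refine contDiff_prod fun i _ => ContDiff.pow ?_ _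
    have : ContDiff ℂ 1 (fun z : Fin n → ℂ => z i) := contDiff_apply ℂ ℂ i
    exact this.sub contDiff_const
  exact h.differentiable (by norm_num)

lemma db_mo (α : Fin n → ℕ) (c : Fin n → ℂ) (j : Fin n) (x : M) :
    db j (fun y : M => mo α (cp y - c)) x = 0 := by
  have h1 : D (fun y : M => mo α (cp y - c)) x =
      fderiv ℝ (fun z : Fin n → ℂ => mo α (z - c)) (cp x) :=
    D_of_coord (g := fun z : Fin n → ℂ => mo α (z - c)) x
  have h2 : (Pi.single j Complex.I : Fin n → ℂ) = Complex.I • (Pi.single j 1 : Fin n → ℂ) := by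
    rw [← Pi.single_smul]; simp
  rw [db_eq, h1, h2, R266.SCV.fderiv_real_smul_I (mo_differentiable α c _)]
  rw [smul_eq_mul, ← mul_assoc, Complex.I_mul_I]
  ring

namespace LDE

variable (S : LD n ν M) {J : Type} [Fintype J]

/-- the model function -/
def Gf (a t : ℝ) (zj : Fin n → ℂ) (b : Fin ν → ℂ) (α : Fin n → ℕ) (x : M) : ℂ :=
  ((eta a (S.Qf t zj b x) : ℝ) : ℂ) * mo α (cp x - zj)

variable (a t : ℝ) (zj : Fin n → ℂ) (b : Fin ν → ℂ) (α : Fin n → ℕ)

lemma sm_Gf : Sm (Gf S a t zj b α) := by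
  unfold Gf
  exact ((Sm.comp (eta_contDiff a) (S.sm_Qf t zj b)).ofReal).mul
    (Sm.of_coord (mo_contDiff α zj))

lemma Gf_far (ha : 0 < a) {x : M} (hx : a < S.Qf t zj b x) : Gf S a t zj b α =ᶠ[𝓝 x] fun _ => 0 := by
  have h1 : ∀ᶠ y in 𝓝 x, a < S.Qf t zj b y :=
    (S.sm_Qf t zj b).continuous.continuousAt.eventually (lt_mem_nhds hx)
  filter_upwards [h1] with y hy
  simp [Gf, eta_zero ha hy.le]

lemma Gf_near (ha : 0 < a) {x : M} (hx : S.Qf t zj b x < a / 4) :
    Gf S a t zj b α =ᶠ[𝓝 x] fun y => mo α (cp y - zj) := by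
  have h1 : ∀ᶠ y in 𝓝 x, S.Qf t zj b y < a / 4 :=
    (S.sm_Qf t zj b).continuous.continuousAt.eventually (gt_mem_nhds hx)
  filter_upwards [h1] with y hy
  simp [Gf, eta_one ha hy.le]

lemma db_Gf_far (ha : 0 < a) {x : M} (hx : a < S.Qf t zj b x) (i : Fin n) :
    db i (Gf S a t zj b α) x = 0 := by
  rw [db_congr (Gf_far S a t zj b α ha hx), db_const]

lemma db_Gf_near (ha : 0 < a) {x : M} (hx : S.Qf t zj b x < a / 4) (i : Fin n) :
    db i (Gf S a t zj b α) x = 0 := by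
  rw [db_congr (Gf_near S a t zj b α ha hx), db_mo]

lemma Gf_compact (ha : 0 < a) (ha1 : a < 1) (har : a < (S.r / 8) ^ 2)
    (hzj : ‖zj - S.z0‖ ≤ S.r / 8) : HasCompactSupport (Gf S a t zj b α) := by
  refine HasCompactSupport.intro S.sub_compact fun x hx => ?_
  have h1 : x ∉ S.B := fun h => hx (S.B_sub_compact h)
  have h2 := S.Qf_far (t := t) ha1 har hzj b h1
  simp [Gf, eta_zero ha h2.le]

lemma Gf_tsupport (ha : 0 < a) (ha1 : a < 1) (har : a < (S.r / 8) ^ 2)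
    (hzj : ‖zj - S.z0‖ ≤ S.r / 8) :
    tsupport (Gf S a t zj b α) ⊆ S.e.symm '' closedBall S.z0 (S.r / 4) := by
  refine closure_minimal ?_ S.sub_compact.isClosed
  intro x hx
  by_contra hcon
  apply hx
  have h1 : x ∉ S.B := fun h => hcon (S.B_sub_compact h)
  have h2 := S.Qf_far (t := t) ha1 har hzj b h1
  simp [Gf, eta_zero ha h2.le]

/-- quadratic upper bound of the pole function near its centre -/
lemma Qf_le (ht : 0 ≤ t) (hzj : ‖zj - S.z0‖ < S.r / 4) :
    ∃ A : ℝ, 0 < A ∧ ∀ᶠ y in 𝓝 zj, y ∈ ball S.z0 (S.r / 4) ∧ S.e.symm y ∈ S.B ∧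
      S.Qf t zj (S.β zj) (S.e.symm y) ≤ A * ‖y - zj‖ ^ 2 := by
  have hz : zj ∈ ball S.z0 (S.r / 4) := by rw [mem_ball, dist_eq_norm]; exact hzj
  have hz2 : zj ∈ ball S.z0 S.r := S.ball_sub hz
  have hd : HasFDerivAt S.β (fderiv ℂ S.β zj) zj :=
    ((S.hβ _ hz2).differentiableAt (isOpen_ball.mem_nhds hz2)).hasFDerivAt
  obtain ⟨L, hL⟩ := hd.isBigO_sub.bound
  refine ⟨n + t * (ν * L ^ 2) + 1, by positivity, ?_⟩
  have hzn : ball S.z0 (S.r / 4) ∈ 𝓝 zj := isOpen_ball.mem_nhds hz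
  filter_upwards [hL, hzn] with y hy hyb
  have hyt : y ∈ S.e.target := S.hB (S.ball_sub hyb)
  have hcp : cp (S.e.symm y) = y := S.he.cp_symm hyt
  have hyB : S.e.symm y ∈ S.B := ⟨S.e.map_target hyt, by
    show cp (S.e.symm y) ∈ ball S.z0 (S.r / 4)
    rw [hcp]; exact hyb⟩
  refine ⟨hyb, hyB, ?_⟩
  have h1 : S.Qf t zj (S.β zj) (S.e.symm y) = nS (S.fam t zj (S.β zj)) (S.e.symm y) := by
    simp [LD.Qf, S.th_one hyB]
  rw [h1]
  unfold nS
  rw [Fintype.sum_sum_type]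
  have h2 : ∑ i : Fin n, ‖S.fam t zj (S.β zj) (Sum.inl i) (S.e.symm y)‖ ^ 2 ≤
      n * ‖y - zj‖ ^ 2 := by
    have h3 : ∀ i ∈ (Finset.univ : Finset (Fin n)),
        ‖S.fam t zj (S.β zj) (Sum.inl i) (S.e.symm y)‖ ^ 2 ≤ ‖y - zj‖ ^ 2 := by
      intro i _
      have h4 : S.fam t zj (S.β zj) (Sum.inl i) (S.e.symm y) = (y - zj) i := by
        show cp (S.e.symm y) i - zj i = _
        rw [hcp]; rfl
      rw [h4]
      gcongr
      exact norm_le_pi_norm _ i
    have := Finset.sum_le_card_nsmul _ _ _ h3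
    simpa using this
  have h3 : ∑ i : Fin ν, ‖S.fam t zj (S.β zj) (Sum.inr i) (S.e.symm y)‖ ^ 2 ≤
      ν * (t * (L ^ 2 * ‖y - zj‖ ^ 2)) := by
    have h3 : ∀ i ∈ (Finset.univ : Finset (Fin ν)),
        ‖S.fam t zj (S.β zj) (Sum.inr i) (S.e.symm y)‖ ^ 2 ≤ t * (L ^ 2 * ‖y - zj‖ ^ 2) := by
      intro i _
      have h4 : S.fam t zj (S.β zj) (Sum.inr i) (S.e.symm y) =
          (Real.sqrt t : ℂ) * (S.β y - S.β zj) i := by
        show (Real.sqrt t : ℂ) * (S.bt i (S.e.symm y) - S.β zj i) = _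
        rw [S.bt_eq hyB, hcp]; rfl
      rw [h4, norm_mul, mul_pow, Complex.norm_real, Real.norm_eq_abs, sq_abs, Real.sq_sqrt ht]
      have h5 : ‖(S.β y - S.β zj) i‖ ≤ L * ‖y - zj‖ := (norm_le_pi_norm _ i).trans hy
      have h6 : ‖(S.β y - S.β zj) i‖ ^ 2 ≤ (L * ‖y - zj‖) ^ 2 := by gcongr
      rw [mul_pow] at h6
      gcongr
    have := Finset.sum_le_card_nsmul _ _ _ h3
    simpa using this
  nlinarith [sq_nonneg (‖y - zj‖)]

end LDE

open LDE

variable [SecondCountableTopology M] [MeasurableSpace M] [BorelSpace M] {μ : Measure M}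

/-- **prescribed jets** -/
theorem jets (hμ : IsLeb μ) {ρ : M → ℝ} (hρ : Sm ρ)
    (hcpt : ∀ c, IsCompact {x | ρ x ≤ c}) (hL : ∀ x w, nsq w ≤ Levi ρ x w)
    {W : ℕ → M → ℝ} (hWs : ∀ k, Sm (W k)) (hWa : ∀ x, Antitone (fun k => W k x))
    (hW0 : ∀ k x w, 0 ≤ Levi (W k) x w)
    (S : LD n ν M) {a t : ℝ} (ha : 0 < a) (ha1 : a ≤ 1 / 2) (har : a < (S.r / 8) ^ 2)
    (ht : 0 ≤ t) {J : Type} [Fintype J] [DecidableEq J] {z : J → (Fin n → ℂ)}
    (hz : ∀ j, ‖z j - S.z0‖ ≤ S.r / 8)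
    (hsep : ∀ i j, i ≠ j → ∃ l, 4 * a < t * ‖S.β (z i) l - S.β (z j) l‖ ^ 2)
    {C : ℝ} (hC : 0 ≤ C)
    (hb : ∀ δ s : ℝ, 0 < δ → δ ≤ 1 → 0 ≤ s → -C ≤ X1 a δ s ∧ -C ≤ X1 a δ s + s * X2 a δ s)
    {p : ℕ} (hp : n < p) {C1 : ℝ} (hC1 : 0 < C1)
    (hWB : ∀ k, ∀ x ∈ S.B, ∀ w, (p * C + C1) * S.qf t x w ≤ Levi (W k) x w)
    {Wl : M → ℝ} (hWl : Continuous Wl)
    (hWl' : ∀ k, ∀ x ∈ S.e.symm '' closedBall S.z0 (S.r / 4), Wl x ≤ W k x)
    (j : J) (α : Fin n → ℕ) :
    ∃ F : M → ℂ, Ho51.Hol F ∧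
      ∫⁻ x, ENNReal.ofReal (‖F x‖ ^ 2) * (⨆ k, ENNReal.ofReal (Real.exp (-(W k x)))) ∂μ < ⊤ ∧
      ∀ i, ∃ C' : ℝ, ∀ᶠ y in 𝓝 (z i),
        ‖F (S.e.symm y) - (if i = j then mo α (y - z i) else 0)‖ ≤ C' * ‖y - z i‖ ^ (p - n) := by
  have hLF := hμ.locallyFinite
  have ha1' : a < 1 := by linarith
  set Q : J → M → ℝ := fun j => S.Qf t (z j) (S.β (z j)) with hQdef
  have hQ : ∀ j, Sm (Q j) := fun j => S.sm_Qf _ _ _
  have hQ0 : ∀ j x, 0 ≤ Q j x := fun j x => S.Qf_nonneg _ _ _ x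
  have hQB : ∀ j, ∀ x, x ∉ S.B → a < Q j x := fun j x hx => S.Qf_far ha1' har (hz j) _ hx
  have hdis : ∀ i j x, Q i x ≤ a → Q j x ≤ a → i = j := by
    intro i j x hi hj
    by_contra hij
    have hxB : x ∈ S.B := by
      by_contra hx
      exact absurd hi (not_le.2 (hQB i x hx))
    obtain ⟨l, hl⟩ := hsep i j hij
    have e1 : Q i x = nS (S.fam t (z i) (S.β (z i))) x := by
      simp [hQdef, LD.Qf, S.th_one hxB]
    have e2 : Q j x = nS (S.fam t (z j) (S.β (z j))) x := by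
      simp [hQdef, LD.Qf, S.th_one hxB]
    have h1 := S.beta_le_nS ht (z i) (S.β (z i)) x l
    have h2 := S.beta_le_nS ht (z j) (S.β (z j)) x l
    rw [← e1] at h1
    rw [← e2] at h2
    have h3 : ‖S.β (z i) l - S.β (z j) l‖ ≤ ‖S.bt l x - S.β (z i) l‖ + ‖S.bt l x - S.β (z j) l‖ := by
      have : S.β (z i) l - S.β (z j) l = -(S.bt l x - S.β (z i) l) + (S.bt l x - S.β (z j) l) := by
        ring
      rw [this]
      refine (norm_add_le _ _).trans ?_
      rw [norm_neg]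
    have h4 : ‖S.β (z i) l - S.β (z j) l‖ ^ 2 ≤
        2 * ‖S.bt l x - S.β (z i) l‖ ^ 2 + 2 * ‖S.bt l x - S.β (z j) l‖ ^ 2 := by
      have h5 : ‖S.β (z i) l - S.β (z j) l‖ ^ 2 ≤
          (‖S.bt l x - S.β (z i) l‖ + ‖S.bt l x - S.β (z j) l‖) ^ 2 := by gcongr
      nlinarith [sq_nonneg (‖S.bt l x - S.β (z i) l‖ - ‖S.bt l x - S.β (z j) l‖)]
    have h5 := mul_le_mul_of_nonneg_left h4 ht
    nlinarith
  set G : M → ℂ := Gf S a t (z j) (S.β (z j)) α with hGdef
  have hG : Sm G := sm_Gf S a t _ _ α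
  have hGc : HasCompactSupport G := Gf_compact S a t _ _ α ha ha1' har (hz j)
  have hGt : tsupport G ⊆ S.e.symm '' closedBall S.z0 (S.r / 4) :=
    Gf_tsupport S a t _ _ α ha ha1' har (hz j)
  obtain ⟨F, hF, K, hK, hFK⟩ := solve_poles (μ := μ) hμ hρ hcpt hL hWs hWa hW0 ha hQ hQ0
    (B := S.B) (q := S.qf t) (fun x _ w => S.nsq_le_qf ht x w)
    (fun j x hx w => S.lev_Qf ht _ _ hx w) (fun j x hx w => S.dsq_Qf ht _ _ hx w) hQB hdis hC hb
    (p := p) (by positivity) hC1 hWB hG hGc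
    (fun x hx i => db_Gf_far S a t _ _ α ha (hQB j x hx) i)
    (b := a / 4) (by positivity) (by linarith)
    (fun x hx i => by
      obtain ⟨l, hl⟩ := hx
      by_contra hcon
      rw [not_le] at hcon
      by_cases hij : i = j
      · subst hij
        exact hl (db_Gf_near S a t _ _ α ha hcon l)
      · have h1 : a < Q j x := by
          by_contra h2
          exact hij (hdis i j x (by linarith) (not_lt.1 h2))
        exact hl (db_Gf_far S a t _ _ α ha h1 l))
    hWl (fun k x hx => hWl' k x (hGt hx))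
  refine ⟨F, hF, ?_, ?_⟩
  · -- finiteness of the integral
    have hFc := hol_continuous hF
    have hpt : ∀ x, ENNReal.ofReal (‖F x‖ ^ 2) * (⨆ k, ENNReal.ofReal (Real.exp (-(W k x)))) ≤
        2 * (ENNReal.ofReal (‖F x - G x‖ ^ 2) *
          (⨆ k, ENNReal.ofReal (Real.exp (-(W k x + p * Pw a Q k x))))) +
        ENNReal.ofReal (2 * ‖G x‖ ^ 2 * Real.exp (-Wl x)) := by
      intro x
      have h1 : ‖F x‖ ^ 2 ≤ 2 * ‖F x - G x‖ ^ 2 + 2 * ‖G x‖ ^ 2 := by
        have h2 : ‖F x‖ ≤ ‖F x - G x‖ + ‖G x‖ := by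
          have : F x = (F x - G x) + G x := by ring
          conv_lhs => rw [this]
          exact norm_add_le _ _
        have h3 : ‖F x‖ ^ 2 ≤ (‖F x - G x‖ + ‖G x‖) ^ 2 := by gcongr
        nlinarith [sq_nonneg (‖F x - G x‖ - ‖G x‖)]
      have h2 : ENNReal.ofReal (‖F x‖ ^ 2) ≤
          2 * ENNReal.ofReal (‖F x - G x‖ ^ 2) + ENNReal.ofReal (2 * ‖G x‖ ^ 2) := by
        refine (ENNReal.ofReal_le_ofReal h1).trans ?_
        rw [ENNReal.ofReal_add (by positivity) (by positivity), ENNReal.ofReal_mul (by norm_num)]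
        simp
      have h3 : (⨆ k, ENNReal.ofReal (Real.exp (-(W k x)))) ≤
          ⨆ k, ENNReal.ofReal (Real.exp (-(W k x + p * Pw a Q k x))) := by
        refine iSup_mono fun k => ENNReal.ofReal_le_ofReal (Real.exp_le_exp.2 ?_)
        have h4 := Pw_nonpos ha ha1 hQ0 k x
        have h5 : (0 : ℝ) ≤ p := by positivity
        nlinarith
      refine (mul_le_mul' h2 le_rfl).trans ?_
      rw [add_mul]
      refine add_le_add ?_ ?_
      · rw [mul_assoc]
        refine mul_le_mul' (le_refl (2 : ENNReal)) ?_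
        exact mul_le_mul' (le_refl (ENNReal.ofReal (‖F x - G x‖ ^ 2))) h3
      · by_cases hx : x ∈ tsupport G
        · have h8 : ENNReal.ofReal (2 * ‖G x‖ ^ 2 * Real.exp (-Wl x)) =
              ENNReal.ofReal (2 * ‖G x‖ ^ 2) * ENNReal.ofReal (Real.exp (-Wl x)) :=
            ENNReal.ofReal_mul (by positivity)
          rw [h8]
          refine mul_le_mul' le_rfl ?_
          refine iSup_le fun k => ENNReal.ofReal_le_ofReal (Real.exp_le_exp.2 ?_)
          linarith [hWl' k x (hGt hx)]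
        · have h4 : G x = 0 := image_eq_zero_of_notMem_tsupport hx
          simp [h4]
    refine lt_of_le_of_lt (lintegral_mono hpt) ?_
    have hGi : Integrable (fun x => 2 * ‖G x‖ ^ 2 * Real.exp (-Wl x)) μ := by
      have hc : Continuous (fun x => 2 * ‖G x‖ ^ 2 * Real.exp (-Wl x)) := by
        have := hG.continuous
        fun_prop
      refine hc.integrable_of_hasCompactSupport (HasCompactSupport.intro hGc fun x hx => ?_)
      have h4 : G x = 0 := image_eq_zero_of_notMem_tsupport hx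
      simp [h4]
    have hm : Measurable (fun x => ENNReal.ofReal (2 * ‖G x‖ ^ 2 * Real.exp (-Wl x))) := by
      have hc : Continuous (fun x => 2 * ‖G x‖ ^ 2 * Real.exp (-Wl x)) := by
        have := hG.continuous
        fun_prop
      exact hc.measurable.ennreal_ofReal
    rw [lintegral_add_right _ hm, lintegral_const_mul' _ _ (by norm_num)]
    refine ENNReal.add_lt_top.2 ⟨?_, hGi.lintegral_lt_top⟩
    exact ENNReal.mul_lt_top (by norm_num) (lt_of_le_of_lt hFK hK)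
  · intro i
    have hzi : ‖z i - S.z0‖ < S.r / 4 := by
      have := hz i
      have := S.hr
      linarith
    obtain ⟨A, hA, hAev⟩ := Qf_le S t (z i) ht hzi
    obtain ⟨R0, hR0, hR0b⟩ := Metric.eventually_nhds_iff_ball.1 hAev
    -- the radius
    set R : ℝ := min (R0 / 2) (Real.sqrt (a / (8 * A))) with hRdef
    have hR : 0 < R := lt_min (by positivity) (Real.sqrt_pos.2 (by positivity))
    have hRR0 : R < R0 := lt_of_le_of_lt (min_le_left _ _) (by linarith)
    have hR2 : A * R ^ 2 ≤ a / 8 := by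
      have h1 : R ≤ Real.sqrt (a / (8 * A)) := min_le_right _ _
      have h2 : R ^ 2 ≤ a / (8 * A) := by
        calc R ^ 2 ≤ (Real.sqrt (a / (8 * A))) ^ 2 := by gcongr
          _ = _ := Real.sq_sqrt (by positivity)
      calc A * R ^ 2 ≤ A * (a / (8 * A)) := by gcongr
        _ = a / 8 := by field_simp
    set f : (Fin n → ℂ) → ℂ := fun y =>
      F (S.e.symm y) - (if i = j then mo α (y - z i) else 0) with hfdef
    have hballs : ∀ y ∈ ball (z i) R, y ∈ S.e.target ∧ S.e.symm y ∈ S.B ∧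
        Q i (S.e.symm y) ≤ A * ‖y - z i‖ ^ 2 := by
      intro y hy
      have h1 := hR0b y (ball_subset_ball hRR0.le hy)
      exact ⟨S.hB (S.ball_sub h1.1), h1.2.1, h1.2.2⟩
    have hQi : ∀ y ∈ ball (z i) R, Q i (S.e.symm y) < a / 4 := by
      intro y hy
      have h1 := (hballs y hy).2.2
      have h2 : ‖y - z i‖ < R := by rw [← dist_eq_norm]; exact hy
      have h3 : A * ‖y - z i‖ ^ 2 ≤ A * R ^ 2 := by gcongr
      linarith
    have hfG : ∀ y ∈ ball (z i) R, f y = F (S.e.symm y) - G (S.e.symm y) := by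
      intro y hy
      have hyt := (hballs y hy).1
      have hcp : cp (S.e.symm y) = y := S.he.cp_symm hyt
      have h1 := hQi y hy
      simp only [hfdef]
      congr 1
      by_cases hij : i = j
      · rw [if_pos hij]
        subst hij
        simp only [hGdef, Gf]
        rw [eta_one ha h1.le, hcp]; simp
      · rw [if_neg hij]
        have h2 : a < Q j (S.e.symm y) := by
          by_contra h3
          exact hij (hdis i j _ (by linarith) (not_lt.1 h3))
        simp only [hGdef, Gf]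
        rw [eta_zero ha h2.le]; simp
    have hfd : DifferentiableOn ℂ f (ball (z i) R) := by
      have h1 : DifferentiableOn ℂ (F ∘ S.e.symm) (ball (z i) R) :=
        (hF S.e S.he).mono fun y hy => (hballs y hy).1
      refine DifferentiableOn.sub h1 ?_
      by_cases hij : i = j
      · simp only [if_pos hij]
        exact (mo_differentiable α (z i)).differentiableOn
      · simp only [if_neg hij]
        exact differentiableOn_const _
    -- upper bound of `W 0`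
    have hKc : IsCompact (S.e.symm '' closedBall S.z0 (S.r / 4)) := S.sub_compact
    obtain ⟨Wt, hWt⟩ := (hKc.image (hWs 0).continuous).bddAbove
    have hWt' : ∀ k, ∀ x ∈ S.B, W k x ≤ Wt := by
      intro k x hx
      exact (hWa x (Nat.zero_le k)).trans (hWt ⟨x, S.B_sub_compact hx, rfl⟩)
    -- measurability of the integrand
    have hFc := hol_continuous hF
    have hmeas : Measurable (fun x => ENNReal.ofReal (‖F x - G x‖ ^ 2) *
        (⨆ k, ENNReal.ofReal (Real.exp (-(W k x + p * Pw a Q k x))))) := by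
      apply Measurable.mul
      · have : Continuous (fun x => ‖F x - G x‖ ^ 2) := ((hFc.sub hG.continuous).norm).pow 2
        exact this.measurable.ennreal_ofReal
      · apply Measurable.iSup
        intro k
        have : Continuous (fun x => Real.exp (-(W k x + p * Pw a Q k x))) := by
          have h1 := (hWs k).continuous
          have h2 := (sm_Pw (a := a) hQ hQ0 k).continuous
          fun_prop
        exact this.measurable.ennreal_ofReal
    have hchart := lintegral_chart hμ S.he (f := fun x => ENNReal.ofReal (‖F x - G x‖ ^ 2) *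
        (⨆ k, ENNReal.ofReal (Real.exp (-(W k x + p * Pw a Q k x))))) hmeas.aemeasurable
    have hT : ∫⁻ y in S.e.target, ENNReal.ofReal (‖F (S.e.symm y) - G (S.e.symm y)‖ ^ 2) *
        (⨆ k, ENNReal.ofReal (Real.exp (-(W k (S.e.symm y) + p * Pw a Q k (S.e.symm y))))) ≤ K := by
      rw [← hchart]
      exact (setLIntegral_le_lintegral _ _).trans hFK
    refine order_of_decay (p := p) hfd hp (A := 2 * A) (R' := R) (by positivity) hR le_rfl
      (K := K * ENNReal.ofReal (Real.exp Wt))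
      (ENNReal.mul_lt_top hK ENNReal.ofReal_lt_top) ?_
    intro s hs hsR
    -- pointwise comparison on the small ball
    have hpt : ∀ y ∈ closedBall (z i) s, ‖f y‖ₑ ^ 2 ≤
        (ENNReal.ofReal (Real.exp Wt) * ENNReal.ofReal ((2 * A * s ^ 2) ^ p)) *
        (ENNReal.ofReal (‖F (S.e.symm y) - G (S.e.symm y)‖ ^ 2) *
        (⨆ k, ENNReal.ofReal (Real.exp (-(W k (S.e.symm y) + p * Pw a Q k (S.e.symm y)))))) := by
      intro y hy
      have hyR : y ∈ ball (z i) R := closedBall_subset_ball hsR hy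
      have h1 : Q i (S.e.symm y) ≤ A * s ^ 2 := by
        refine (hballs y hyR).2.2.trans ?_
        have h2 : ‖y - z i‖ ≤ s := by rw [← dist_eq_norm]; exact hy
        gcongr
      obtain ⟨k, hk⟩ : ∃ k, dl k < A * s ^ 2 :=
        (dl_tendsto.eventually (gt_mem_nhds (by positivity : (0 : ℝ) < A * s ^ 2))).exists
      have h2 : Pw a Q k (S.e.symm y) ≤ Real.log (2 * A * s ^ 2) := by
        rw [Pw_near ha hdis k (hQi y hyR).le]
        apply Real.log_le_log
        · have := hQ0 i (S.e.symm y)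
          have := dl_pos k
          linarith
        · linarith
      have h3 : W k (S.e.symm y) ≤ Wt := hWt' k _ (hballs y hyR).2.1
      have hp0 : (0 : ℝ) ≤ p := by positivity
      have hpos : 0 < 2 * A * s ^ 2 := by positivity
      have h4 : 1 ≤ Real.exp Wt * (2 * A * s ^ 2) ^ p *
          Real.exp (-(W k (S.e.symm y) + p * Pw a Q k (S.e.symm y))) := by
        have h5 : (2 * A * s ^ 2) ^ p = Real.exp (p * Real.log (2 * A * s ^ 2)) := by
          rw [Real.exp_nat_mul, Real.exp_log hpos]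
        rw [h5, ← Real.exp_add, ← Real.exp_add]
        apply Real.one_le_exp
        nlinarith [mul_le_mul_of_nonneg_left h2 hp0]
      have h5 : (1 : ENNReal) ≤ (ENNReal.ofReal (Real.exp Wt) *
          ENNReal.ofReal ((2 * A * s ^ 2) ^ p)) *
          (⨆ k, ENNReal.ofReal (Real.exp (-(W k (S.e.symm y) + p * Pw a Q k (S.e.symm y))))) := by
        have h6 : (1 : ENNReal) ≤ ENNReal.ofReal (Real.exp Wt * (2 * A * s ^ 2) ^ p *
          Real.exp (-(W k (S.e.symm y) + p * Pw a Q k (S.e.symm y)))) := by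
          rw [← ENNReal.ofReal_one]
          exact ENNReal.ofReal_le_ofReal h4
        rw [ENNReal.ofReal_mul (by positivity), ENNReal.ofReal_mul (by positivity)] at h6
        refine h6.trans (mul_le_mul' le_rfl ?_)
        exact le_iSup (fun k => ENNReal.ofReal
          (Real.exp (-(W k (S.e.symm y) + p * Pw a Q k (S.e.symm y))))) k
      have h6 : ‖f y‖ₑ ^ 2 = ENNReal.ofReal (‖F (S.e.symm y) - G (S.e.symm y)‖ ^ 2) := by
        rw [hfG y hyR, ENNReal.ofReal_pow (norm_nonneg _), ofReal_norm]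
      rw [h6]
      calc ENNReal.ofReal (‖F (S.e.symm y) - G (S.e.symm y)‖ ^ 2)
          = 1 * ENNReal.ofReal (‖F (S.e.symm y) - G (S.e.symm y)‖ ^ 2) := (one_mul _).symm
        _ ≤ _ := mul_le_mul' h5 le_rfl
        _ = _ := by ring
    calc ∫⁻ y in closedBall (z i) s, ‖f y‖ₑ ^ 2
        ≤ ∫⁻ y in closedBall (z i) s,
          (ENNReal.ofReal (Real.exp Wt) * ENNReal.ofReal ((2 * A * s ^ 2) ^ p)) *
          (ENNReal.ofReal (‖F (S.e.symm y) - G (S.e.symm y)‖ ^ 2) *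
          (⨆ k, ENNReal.ofReal (Real.exp (-(W k (S.e.symm y) + p * Pw a Q k (S.e.symm y)))))) :=
          setLIntegral_mono' measurableSet_closedBall hpt
      _ = (ENNReal.ofReal (Real.exp Wt) * ENNReal.ofReal ((2 * A * s ^ 2) ^ p)) *
          ∫⁻ y in closedBall (z i) s, (ENNReal.ofReal (‖F (S.e.symm y) - G (S.e.symm y)‖ ^ 2) *
          (⨆ k, ENNReal.ofReal (Real.exp (-(W k (S.e.symm y) + p * Pw a Q k (S.e.symm y)))))) :=
          lintegral_const_mul' _ _ (ENNReal.mul_ne_top ENNReal.ofReal_ne_top ENNReal.ofReal_ne_top)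
      _ ≤ (ENNReal.ofReal (Real.exp Wt) * ENNReal.ofReal ((2 * A * s ^ 2) ^ p)) * K := by
          refine mul_le_mul' le_rfl ((lintegral_mono_set fun y hy => ?_).trans hT)
          exact (hballs y (closedBall_subset_ball hsR hy)).1
      _ = K * ENNReal.ofReal (Real.exp Wt) * ENNReal.ofReal ((2 * A * s ^ 2) ^ p) := by ring

end Crest.Agent.R276.CntLowE_804
end
end

-- ▼ part R276/CntLow_804
section

/-!
# Row 276, COUNT-LOW (post 808 (I)(a)): the lower bound of the counting (helper804)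

`M` a Riemann domain over `ℂⁿ` with a smooth strictly psh exhaustion, `φ_k ↓` smooth psh weights,
`ψ` a smooth psh weight; near one point `Levi φ_k ≥ c |w|²`, `Levi ψ ≥ c |Dβ(w)|²` for a holomorphic
submersion `β` to `ℂ^ν`.  Then for `N ≥ N₀` and all real `t ≥ 1` there are at least
`c₁ Nⁿ t^ν` linearly independent holomorphic functions with
`∫ |f|² sup_k e^{-((N-1) φ_k + N t ψ)} < ∞`.
-/

set_option autoImplicit false
set_option linter.unusedSectionVars false

noncomputable section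

open Set Filter Topology Complex MeasureTheory Metric

namespace Crest.Agent.R276.CntLow_804

open Crest.Agent.R271.Ho51 Crest.Agent.R271.W792 Crest.Agent.R276.CntLowA_804
open Crest.Agent.R271 Crest.Agent.R276.CntLowB_804 Crest.Agent.R276.CntLowC_804
open Crest.Agent.R276.CntLowD_804 Crest.Agent.R276.CntLowE_804

variable {n ν : ℕ} {M : Type} [TopologicalSpace M] [T2Space M] [RDom n M]

lemma Levi_const_mul {φ : M → ℝ} (hφ : Sm φ) (c : ℝ) (x : M) (w : Fin n → ℂ) :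
    Levi (fun y => c * φ y) x w = c * Levi φ x w := by
  rw [Levi_eq_lev ((Sm.const c).mulR hφ), lev_const_mul hφ, Levi_eq_lev hφ]

/-- `β` is open at `z0` -/
lemma exists_ball_image (S : LD n ν M) (hs : Function.Surjective (fderiv ℂ S.β S.z0)) :
    ∃ s0 : ℝ, 0 < s0 ∧ ∀ b ∈ closedBall (S.β S.z0) s0, ∃ z ∈ closedBall S.z0 (S.r / 8),
      S.β z = b := by
  have hz : S.z0 ∈ ball S.z0 S.r := mem_ball_self S.hr
  have h1 : AnalyticAt ℂ S.β S.z0 :=
    R266.SCV.analyticOnNhd_of_differentiableOn isOpen_ball S.hβ _ hz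
  have h2 : HasStrictFDerivAt S.β (fderiv ℂ S.β S.z0) S.z0 := h1.hasStrictFDerivAt
  have h3 := h2.map_nhds_eq_of_surj (LinearMap.range_eq_top.2 hs)
  have h4 : closedBall S.z0 (S.r / 8) ∈ 𝓝 S.z0 :=
    closedBall_mem_nhds _ (by have := S.hr; positivity)
  have h5 : S.β '' closedBall S.z0 (S.r / 8) ∈ 𝓝 (S.β S.z0) := by
    rw [← h3]; exact image_mem_map h4
  obtain ⟨s0, hs0, hs1⟩ := Metric.nhds_basis_closedBall.mem_iff.1 h5
  refine ⟨s0, hs0, fun b hb => ?_⟩
  obtain ⟨z, hz, hzb⟩ := hs1 hb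
  exact ⟨z, hz, hzb⟩

/-- the grid of points -/
lemma exists_grid (S : LD n ν M) {s0 : ℝ} (hs0 : 0 < s0)
    (him : ∀ b ∈ closedBall (S.β S.z0) s0, ∃ z ∈ closedBall S.z0 (S.r / 8), S.β z = b)
    {a t : ℝ} (ha : 0 < a) (has : a ≤ (s0 / 6) ^ 2) (ht : 1 ≤ t) :
    ∃ (J : Type) (_ : Fintype J) (_ : DecidableEq J) (z : J → (Fin n → ℂ)),
      (∀ j, ‖z j - S.z0‖ ≤ S.r / 8) ∧
      (∀ i j, i ≠ j → ∃ l, 4 * a < t * ‖S.β (z i) l - S.β (z j) l‖ ^ 2) ∧
      (s0 ^ 2 / (144 * a)) ^ ν * t ^ ν ≤ (Fintype.card J : ℝ) := by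
  have ht0 : 0 < t := by linarith
  set h : ℝ := 3 * Real.sqrt (a / t) with hh
  have hat : 0 < a / t := by positivity
  have hh0 : 0 < h := by positivity
  have hh2 : h ^ 2 = 9 * a / t := by
    rw [hh, mul_pow, Real.sq_sqrt hat.le]; ring
  have hhs : h ≤ s0 / 2 := by
    have h1 : Real.sqrt (a / t) ≤ s0 / 6 := by
      apply Real.sqrt_le_iff.2
      refine ⟨by positivity, ?_⟩
      refine le_trans ?_ has
      exact div_le_self ha.le ht
    linarith
  set L : ℕ := ⌊s0 / (2 * h)⌋₊ with hL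
  have hy1 : 1 ≤ s0 / (2 * h) := by
    rw [le_div_iff₀ (by positivity)]; linarith
  have hLle : (L : ℝ) ≤ s0 / (2 * h) := Nat.floor_le (by positivity)
  have hLlt : s0 / (2 * h) < L + 1 := Nat.lt_floor_add_one _
  have hL1 : (1 : ℝ) ≤ L := by
    have : 1 ≤ L := Nat.le_floor (by simpa using hy1)
    exact_mod_cast this
  have hLge : s0 / (4 * h) ≤ L := by
    have h1 : s0 / (2 * h) = 2 * (s0 / (4 * h)) := by field_simp; ring
    rw [h1] at hLlt
    linarith
  let bb : (Fin ν → Fin L × Fin L) → (Fin ν → ℂ) := fun j l =>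
    S.β S.z0 l + h * (((j l).1 : ℕ) + Complex.I * ((j l).2 : ℕ))
  have hbb : ∀ j, bb j ∈ closedBall (S.β S.z0) s0 := by
    intro j
    rw [mem_closedBall, dist_pi_le_iff hs0.le]
    intro l
    rw [dist_eq_norm]
    have h1 : bb j l - S.β S.z0 l = h * (((j l).1 : ℕ) + Complex.I * ((j l).2 : ℕ)) := by
      simp [bb]
    rw [h1, norm_mul, Complex.norm_real, Real.norm_of_nonneg hh0.le]
    have h2 : ‖((((j l).1 : ℕ) : ℂ) + Complex.I * (((j l).2 : ℕ) : ℂ))‖ ≤ 2 * L := by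
      refine (norm_add_le _ _).trans ?_
      rw [norm_mul, Complex.norm_I, one_mul, Complex.norm_natCast, Complex.norm_natCast]
      have h3 : (((j l).1 : ℕ) : ℝ) ≤ L := by exact_mod_cast (j l).1.2.le
      have h4 : (((j l).2 : ℕ) : ℝ) ≤ L := by exact_mod_cast (j l).2.2.le
      linarith
    calc h * ‖((((j l).1 : ℕ) : ℂ) + Complex.I * (((j l).2 : ℕ) : ℂ))‖ ≤ h * (2 * L) := by gcongr
      _ ≤ h * (2 * (s0 / (2 * h))) := by gcongr
      _ = s0 := by field_simp
  choose z hz hzb using fun j => him (bb j) (hbb j)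
  refine ⟨(Fin ν → Fin L × Fin L), inferInstance, inferInstance, z, ?_, ?_, ?_⟩
  · intro j
    rw [← dist_eq_norm]; exact hz j
  · intro i j hij
    obtain ⟨l, hl⟩ := Function.ne_iff.1 hij
    refine ⟨l, ?_⟩
    rw [hzb, hzb]
    have h1 : bb i l - bb j l = h * (((((i l).1 : ℕ) : ℤ) - (((j l).1 : ℕ) : ℤ) : ℤ) +
        Complex.I * (((((i l).2 : ℕ) : ℤ) - (((j l).2 : ℕ) : ℤ) : ℤ))) := by
      simp only [bb]; push_cast; ring
    have h2 : 1 ≤ ‖((((((i l).1 : ℕ) : ℤ) - (((j l).1 : ℕ) : ℤ) : ℤ) : ℂ) +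
        Complex.I * ((((((i l).2 : ℕ) : ℤ) - (((j l).2 : ℕ) : ℤ) : ℤ)) : ℂ))‖ := by
      set u : ℤ := (((i l).1 : ℕ) : ℤ) - (((j l).1 : ℕ) : ℤ) with hu
      set v : ℤ := (((i l).2 : ℕ) : ℤ) - (((j l).2 : ℕ) : ℤ) with hv
      have h3 : u ≠ 0 ∨ v ≠ 0 := by
        by_contra hcon
        push Not at hcon
        apply hl
        apply Prod.ext
        · apply Fin.ext
          have := hcon.1
          omega
        · apply Fin.ext
          have := hcon.2
          omega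
      have hre : ((u : ℂ) + Complex.I * (v : ℂ)).re = u := by simp
      have him' : ((u : ℂ) + Complex.I * (v : ℂ)).im = v := by simp
      rcases h3 with h3 | h3
      · have h4 : (1 : ℝ) ≤ |(u : ℝ)| := by
          have := Int.one_le_abs h3
          exact_mod_cast this
        refine h4.trans ?_
        rw [← hre]; exact Complex.abs_re_le_norm _
      · have h4 : (1 : ℝ) ≤ |(v : ℝ)| := by
          have := Int.one_le_abs h3
          exact_mod_cast this
        refine h4.trans ?_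
        rw [← him']; exact Complex.abs_im_le_norm _
    have h3 : h ≤ ‖bb i l - bb j l‖ := by
      rw [h1, norm_mul, Complex.norm_real, Real.norm_of_nonneg hh0.le]
      nlinarith
    have h4 : h ^ 2 ≤ ‖bb i l - bb j l‖ ^ 2 := by gcongr
    rw [hh2] at h4
    have h5 : t * (9 * a / t) ≤ t * ‖bb i l - bb j l‖ ^ 2 := by gcongr
    have h6 : t * (9 * a / t) = 9 * a := by field_simp
    rw [h6] at h5
    linarith
  · have h1 : (Fintype.card (Fin ν → Fin L × Fin L) : ℝ) = ((L : ℝ) * L) ^ ν := by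
      rw [Fintype.card_fun, Fintype.card_prod, Fintype.card_fin, Fintype.card_fin]
      push_cast; ring
    rw [h1, ← mul_pow]
    have h2 : s0 ^ 2 / (144 * a) * t ≤ (L : ℝ) * L := by
      have h3 : (s0 / (4 * h)) ^ 2 ≤ (L : ℝ) ^ 2 := by gcongr
      have h4 : (s0 / (4 * h)) ^ 2 = s0 ^ 2 / (144 * a) * t := by
        rw [div_pow, mul_pow, hh2]; field_simp; ring
      rw [h4] at h3
      nlinarith
    gcongr

variable [SecondCountableTopology M] [MeasurableSpace M] [BorelSpace M] {μ : Measure M}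

/-- arithmetic of the curvature estimate -/
lemma curv_arith {N t c pC a s P Q : ℝ} (hN : 2 ≤ N) (ht : 0 ≤ t) (hc : 0 < c)
    (hpC : pC ≤ N * c / 4) (ha : 0 ≤ a) (hs : 0 ≤ s) (hP : c * a ≤ P) (hQ : c * s ≤ Q) :
    (pC + N * c / 4) * (a + t * s) ≤ (N - 1) * P + N * t * Q := by
  have h5 : (pC + N * c / 4) * (a + t * s) ≤ (N * c / 2) * (a + t * s) := by
    apply mul_le_mul_of_nonneg_right (by linarith)
    positivity
  have h6 : (N * c / 2) * a ≤ (N - 1) * P := by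
    calc (N * c / 2) * a ≤ (N - 1) * (c * a) := by
          have h7 : 0 ≤ c * a := by positivity
          nlinarith
      _ ≤ _ := by
          apply mul_le_mul_of_nonneg_left hP
          linarith
  have h7 : (N * c / 2) * (t * s) ≤ N * t * Q := by
    have hNt : 0 ≤ N * t := by positivity
    calc (N * c / 2) * (t * s) ≤ N * t * (c * s) := by
          have h8 : 0 ≤ N * t * (c * s) := by positivity
          nlinarith
      _ ≤ _ := mul_le_mul_of_nonneg_left hQ hNt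
  have h8 : (N * c / 2) * (a + t * s) = (N * c / 2) * a + (N * c / 2) * (t * s) := by ring
  linarith

set_option maxHeartbeats 1000000 in
/-- **COUNT-LOW** -/
theorem count_low (hμ : IsLeb μ) {ρ : M → ℝ} (hρ : Sm ρ)
    (hcpt : ∀ c, IsCompact {x | ρ x ≤ c}) (hL : ∀ x w, nsq w ≤ Levi ρ x w)
    {φs : ℕ → M → ℝ} (hφs : ∀ k, Sm (φs k)) (hφa : ∀ x, Antitone (fun k => φs k x))
    (hφ0 : ∀ k x w, 0 ≤ Levi (φs k) x w)
    {ψ : M → ℝ} (hψ : Sm ψ) (hψ0 : ∀ x w, 0 ≤ Levi ψ x w)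
    (S : LD n ν M) (hs : Function.Surjective (fderiv ℂ S.β S.z0)) {c A : ℝ} (hc : 0 < c)
    (hφc : ∀ k, ∀ z ∈ ball S.z0 S.r, ∀ w, c * nsq w ≤ Levi (φs k) (S.e.symm z) w)
    (hφA : ∀ k, ∀ z ∈ ball S.z0 S.r, -A ≤ φs k (S.e.symm z))
    (hψc : ∀ z ∈ ball S.z0 S.r, ∀ w, c * ∑ i, ‖fderiv ℂ S.β z w i‖ ^ 2 ≤
      Levi ψ (S.e.symm z) w) :
    ∃ c1 : ℝ, 0 < c1 ∧ ∃ N0 : ℕ, ∀ N : ℕ, N0 ≤ N → ∀ t : ℝ, 1 ≤ t →
      ∃ (ι : Type) (_ : Fintype ι) (f : ι → M → ℂ), LinearIndependent ℂ f ∧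
        (∀ i, Ho51.Hol (f i) ∧ ∫⁻ x, ENNReal.ofReal (‖f i x‖ ^ 2) *
          (⨆ k, ENNReal.ofReal (Real.exp (-(((N : ℝ) - 1) * φs k x + N * t * ψ x)))) ∂μ < ⊤) ∧
        c1 * (N : ℝ) ^ n * t ^ ν ≤ (Fintype.card ι : ℝ) := by
  classical
  obtain ⟨s0, hs0, him⟩ := exists_ball_image S hs
  -- the threshold
  have hr := S.hr
  obtain ⟨a, ha, ha1, har, has⟩ : ∃ a : ℝ, 0 < a ∧ a ≤ 1 / 2 ∧ a < (S.r / 8) ^ 2 ∧
      a ≤ (s0 / 6) ^ 2 := by
    refine ⟨min (1 / 2) (min ((S.r / 8) ^ 2 / 2) ((s0 / 6) ^ 2)), ?_, min_le_left _ _, ?_, ?_⟩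
    · exact lt_min (by norm_num) (lt_min (by positivity) (by positivity))
    · refine lt_of_le_of_lt ((min_le_right _ _).trans (min_le_left _ _)) ?_
      have : 0 < (S.r / 8) ^ 2 := by positivity
      linarith
    · exact (min_le_right _ _).trans (min_le_right _ _)
  obtain ⟨C, hC, hb⟩ := X_bounds ha
  set ε : ℝ := c / (16 * C * (n + 1)) with hε
  have hε0 : 0 < ε := by positivity
  set c1 : ℝ := (s0 ^ 2 / (144 * a)) ^ ν * ε ^ n with hc1
  obtain ⟨N0, hN0⟩ : ∃ N0 : ℕ, (2 * n + 4) * (4 * C) / c ≤ N0 := exists_nat_ge _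
  refine ⟨c1, by positivity, max N0 2, fun N hN t ht => ?_⟩
  have hN2 : 2 ≤ N := le_trans (le_max_right _ _) hN
  have hN2' : (2 : ℝ) ≤ N := by exact_mod_cast hN2
  have hNN : (2 * n + 4) * (4 * C) / c ≤ (N : ℝ) :=
    hN0.trans (by exact_mod_cast le_trans (le_max_left _ _) hN)
  have hNc : (2 * n + 4 : ℝ) ≤ N * c / (4 * C) := by
    rw [le_div_iff₀ (by positivity)]
    rw [div_le_iff₀ hc] at hNN
    exact hNN
  have ht0 : 0 ≤ t := by linarith
  obtain ⟨J, hJ1, hJ2, z, hz, hsep, hcard⟩ := exists_grid S hs0 him ha has ht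
  -- the order of the poles
  set p : ℕ := ⌊(N : ℝ) * c / (4 * C)⌋₊ with hp
  have hple : (p : ℝ) ≤ N * c / (4 * C) := Nat.floor_le (by positivity)
  have hplt : (N : ℝ) * c / (4 * C) < p + 1 := Nat.lt_floor_add_one _
  have hpn : 2 * n + 2 < p + 1 := by
    have h1 : ((2 * n + 2 : ℕ) : ℝ) < ((p + 1 : ℕ) : ℝ) := by push_cast; linarith
    exact_mod_cast h1
  set q : ℕ := p / (n + 1) with hq
  have hq1 : 1 ≤ q := by
    rw [hq, Nat.one_le_div_iff (by omega)]; omega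
  have hq2 : (n + 1) * q ≤ p := Nat.mul_div_le p (n + 1)
  have hq3 : p < (n + 1) * q + (n + 1) := by
    have h := Nat.lt_mul_div_succ p (Nat.succ_pos n)
    rw [Nat.succ_eq_add_one, mul_add, mul_one] at h
    rw [hq]; exact h
  have hq4 : n * q < p := by nlinarith
  -- the weights
  set W : ℕ → M → ℝ := fun k x => ((N : ℝ) - 1) * φs k x + N * t * ψ x with hW
  have hN1 : 0 ≤ (N : ℝ) - 1 := by linarith
  have hNt : 0 ≤ (N : ℝ) * t := by positivity
  have hWs : ∀ k, Sm (W k) := fun k =>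
    ((Sm.const _).mulR (hφs k)).add ((Sm.const _).mulR hψ)
  have hWL : ∀ k x w, Levi (W k) x w =
      ((N : ℝ) - 1) * Levi (φs k) x w + N * t * Levi ψ x w := by
    intro k x w
    simp only [hW]
    rw [Levi_add ((Sm.const _).mulR (hφs k)) ((Sm.const _).mulR hψ), Levi_const_mul (hφs k),
      Levi_const_mul hψ]
  have hWa : ∀ x, Antitone (fun k => W k x) := by
    intro x k l hkl
    have := hφa x hkl
    simp only [hW] at this ⊢
    nlinarith [mul_le_mul_of_nonneg_left this hN1]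
  have hW0 : ∀ k x w, 0 ≤ Levi (W k) x w := by
    intro k x w
    rw [hWL]
    exact add_nonneg (mul_nonneg hN1 (hφ0 k x w)) (mul_nonneg hNt (hψ0 x w))
  have hpC : (p : ℝ) * C ≤ N * c / 4 := by
    calc (p : ℝ) * C ≤ N * c / (4 * C) * C := by gcongr
      _ = N * c / 4 := by field_simp
  have hWB : ∀ k, ∀ x ∈ S.B, ∀ w, (p * C + N * c / 4) * S.qf t x w ≤ Levi (W k) x w := by
    intro k x hx w
    have hxz : S.e.symm (cp x) = x := S.he.symm_cp hx.1
    have hxb : cp x ∈ ball S.z0 S.r := S.ball_sub hx.2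
    have h1 := hφc k _ hxb w
    have h2 := hψc _ hxb w
    rw [hxz] at h1 h2
    have h3 : S.qf t x w = nsq w + t * ∑ i, ‖fderiv ℂ S.β (cp x) w i‖ ^ 2 := by
      unfold LD.qf
      congr 2
      refine Finset.sum_congr rfl fun i _ => ?_
      rw [S.D_bt hx]
    rw [hWL, h3]
    exact curv_arith hN2' ht0 hc hpC (nsq_nonneg w)
      (Finset.sum_nonneg fun _ _ => by positivity) h1 h2
  have hWl : Continuous (fun x => ((N : ℝ) - 1) * (-A) + N * t * ψ x) := by
    have := hψ.continuous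
    fun_prop
  have hWl' : ∀ k, ∀ x ∈ S.e.symm '' closedBall S.z0 (S.r / 4),
      ((N : ℝ) - 1) * (-A) + N * t * ψ x ≤ W k x := by
    rintro k _ ⟨y, hy, rfl⟩
    have h1 := hφA k y (closedBall_subset_ball (by linarith) hy)
    simp only [hW]
    nlinarith [mul_le_mul_of_nonneg_left h1 hN1]
  have key := fun (j : J) (α : Fin n → Fin q) =>
    jets (μ := μ) hμ hρ hcpt hL hWs hWa hW0 S ha ha1 har ht0 hz hsep hC.le hb
      (p := p) (by omega) (C1 := N * c / 4) (by positivity) hWB hWl hWl' j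
      (fun i => ((α i : Fin q) : ℕ))
  choose F hF hFi hFj using key
  refine ⟨J × (Fin n → Fin q), inferInstance, fun x => F x.1 x.2, ?_, ?_, ?_⟩
  · refine linInd_of_jets (n := n) (d := fun (α : Fin n → Fin q) (i : Fin n) => ((α i : Fin q) : ℕ))
      ?_ (k := p - n) ?_ (z := z) (s := fun _ => S.e.symm) ?_
    · intro α β h
      funext i
      exact Fin.ext (congrFun h i)
    · intro α
      have h1 : ∑ i, ((α i : Fin q) : ℕ) ≤ n * (q - 1) := by
        have h2 : ∀ i ∈ (Finset.univ : Finset (Fin n)), ((α i : Fin q) : ℕ) ≤ q - 1 := by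
          intro i _
          have := (α i).2
          omega
        have := Finset.sum_le_card_nsmul _ _ _ h2
        simpa using this
      have h3 : n * (q - 1) = n * q - n := by
        rw [Nat.mul_sub, mul_one]
      omega
    · intro j α i
      exact hFj j α i
  · intro x
    exact ⟨hF x.1 x.2, hFi x.1 x.2⟩
  · rw [Fintype.card_prod, Fintype.card_fun, Fintype.card_fin, Fintype.card_fin]
    push_cast
    have hq5 : ε * N ≤ q := by
      have h1 : (p : ℝ) < (n + 1) * q + (n + 1) := by exact_mod_cast hq3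
      have h2 : (p : ℝ) ≥ N * c / (8 * C) + n + 1 := by
        have h3 : (N : ℝ) * c / (4 * C) = 2 * (N * c / (8 * C)) := by field_simp; ring
        rw [h3] at hplt hNc
        linarith
      have h3 : ε * N * (n + 1) = N * c / (16 * C) := by
        rw [hε]; field_simp
      have h4 : (N : ℝ) * c / (8 * C) = 2 * (N * c / (16 * C)) := by field_simp; ring
      have h5 : 0 ≤ (N : ℝ) * c / (16 * C) := by positivity
      have h6 : ε * N * (n + 1) ≤ q * (n + 1) := by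
        rw [h3]
        rw [h4] at h2
        linarith
      exact le_of_mul_le_mul_right h6 (by positivity)
    calc c1 * (N : ℝ) ^ n * t ^ ν
        = ((s0 ^ 2 / (144 * a)) ^ ν * t ^ ν) * (ε * N) ^ n := by
          rw [hc1, mul_pow]; ring
      _ ≤ (Fintype.card J : ℝ) * (q : ℝ) ^ n := by gcongr

end Crest.Agent.R276.CntLow_804
end
end

-- ▼ part R276/CntLow2_804

/-!
# Row 276, COUNT-LOW, versions (helper804)

* `count_low_log` : the weight `φ = log E`, `E ≥ 0` smooth, `|∂E(w)|² ≤ E · Levi E (w)` (zeros of `E`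
  are allowed), conclusion `∫ |f|² E^{-(N-1)} e^{-N t ψ} < ∞`;
* `count_low_finrank` : lower bound of the dimension of any space containing these functions.
-/

set_option autoImplicit false
set_option linter.unusedSectionVars false

noncomputable section

open Set Filter Topology Complex MeasureTheory Metric

namespace Crest.Agent.R276.CntLow2_804

open Crest.Agent.R271.Ho51 Crest.Agent.R271.W792 Crest.Agent.R276.CntLowA_804
open Crest.Agent.R271 Crest.Agent.R276.CntLowB_804 Crest.Agent.R276.CntLowC_804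
open Crest.Agent.R276.CntLowD_804 Crest.Agent.R276.CntLowE_804 Crest.Agent.R276.CntLow_804

variable {n ν : ℕ} {M : Type} [TopologicalSpace M] [T2Space M] [RDom n M]

lemma sm_logE {E : M → ℝ} (hE : Sm E) (hE0 : ∀ x, 0 ≤ E x) {δ : ℝ} (hδ : 0 < δ) :
    Sm (fun x => Real.log (E x + δ)) := by
  have h1 : Sm (fun x => E x + δ) := hE.add (Sm.const δ)
  exact Sm.comp_at h1 fun x => Real.contDiffAt_log.mpr (by linarith [hE0 x] : (0:ℝ) < E x + δ).ne'

lemma lev_logE {E : M → ℝ} (hE : Sm E) (hE0 : ∀ x, 0 ≤ E x) {δ : ℝ} (hδ : 0 < δ) (x : M)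
    (w : Fin n → ℂ) : lev (fun x => Real.log (E x + δ)) x w =
      -((E x + δ) ^ 2)⁻¹ * dsq E x w + (E x + δ)⁻¹ * lev E x w := by
  have hp : 0 < E x + δ := by linarith [hE0 x]
  have hs : Sm (fun x => (E x + δ)⁻¹) := by
    have h1 : Sm (fun x => E x + δ) := hE.add (Sm.const δ)
    exact Sm.comp_at (g := fun t : ℝ => t⁻¹) h1 fun x =>
      contDiffAt_inv ℝ (by linarith [hE0 x] : (0:ℝ) < E x + δ).ne'
  refine lev_comp (g := fun t : ℝ => Real.log (t + δ)) (g' := fun t : ℝ => (t + δ)⁻¹)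
    hE x ?_ (hasDerivAt_inv_add hp) w hs
  have h1 : -δ < E x := by linarith [hE0 x]
  filter_upwards [Ioi_mem_nhds h1] with t ht
  exact hasDerivAt_log_add (by linarith [mem_Ioi.1 ht])

variable [SecondCountableTopology M] [MeasurableSpace M] [BorelSpace M] {μ : Measure M}

/-- **COUNT-LOW**, weight `log E` -/
theorem count_low_log (hμ : IsLeb μ) {ρ : M → ℝ} (hρ : Sm ρ)
    (hcpt : ∀ c, IsCompact {x | ρ x ≤ c}) (hL : ∀ x w, nsq w ≤ Levi ρ x w)
    {E : M → ℝ} (hE : Sm E) (hE0 : ∀ x, 0 ≤ E x) (hE1 : ∀ x w, dsq E x w ≤ E x * lev E x w)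
    (hE2 : ∀ x w, 0 ≤ lev E x w)
    {ψ : M → ℝ} (hψ : Sm ψ) (hψ0 : ∀ x w, 0 ≤ Levi ψ x w)
    (S : LD n ν M) (hs : Function.Surjective (fderiv ℂ S.β S.z0)) {c e0 : ℝ} (hc : 0 < c)
    (he0 : 0 < e0) (hEe : ∀ z ∈ ball S.z0 S.r, e0 ≤ E (S.e.symm z))
    (hEc : ∀ z ∈ ball S.z0 S.r, ∀ w, dsq E (S.e.symm z) w + c * E (S.e.symm z) ^ 2 * nsq w ≤
      E (S.e.symm z) * lev E (S.e.symm z) w)
    (hψc : ∀ z ∈ ball S.z0 S.r, ∀ w, c * ∑ i, ‖fderiv ℂ S.β z w i‖ ^ 2 ≤
      Levi ψ (S.e.symm z) w) :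
    ∃ c1 : ℝ, 0 < c1 ∧ ∃ N0 : ℕ, ∀ N : ℕ, N0 ≤ N → ∀ t : ℝ, 1 ≤ t →
      ∃ (ι : Type) (_ : Fintype ι) (f : ι → M → ℂ), LinearIndependent ℂ f ∧
        (∀ i, Ho51.Hol (f i) ∧ ∫⁻ x, ENNReal.ofReal (‖f i x‖ ^ 2 * Real.exp (-(N * t * ψ x))) *
          ((ENNReal.ofReal (E x))⁻¹) ^ (N - 1) ∂μ < ⊤) ∧
        c1 * (N : ℝ) ^ n * t ^ ν ≤ (Fintype.card ι : ℝ) := by
  have hp : ∀ k x, 0 < E x + dl k := fun k x => by linarith [hE0 x, dl_pos k]
  -- the positivity constant
  set κ : ℝ := (e0 / (e0 + 1 / 2)) ^ 2 with hκ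
  have hκ0 : 0 < κ := by positivity
  have hκ1 : κ ≤ 1 := by
    rw [hκ]
    apply pow_le_one₀ (by positivity)
    rw [div_le_one (by positivity)]; linarith
  have hlev : ∀ k x w, Levi (fun x => Real.log (E x + dl k)) x w =
      -((E x + dl k) ^ 2)⁻¹ * dsq E x w + (E x + dl k)⁻¹ * lev E x w := by
    intro k x w
    rw [Levi_eq_lev (sm_logE hE hE0 (dl_pos k)), lev_logE hE hE0 (dl_pos k)]
  have hform : ∀ k x w, -((E x + dl k) ^ 2)⁻¹ * dsq E x w + (E x + dl k)⁻¹ * lev E x w =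
      ((E x * lev E x w - dsq E x w) + dl k * lev E x w) / (E x + dl k) ^ 2 := by
    intro k x w
    have := hp k x
    field_simp
    ring
  obtain ⟨c1, hc1, N0, hN0⟩ := count_low (μ := μ) hμ hρ hcpt hL
    (φs := fun k x => Real.log (E x + dl k)) (fun k => sm_logE hE hE0 (dl_pos k))
    (fun x k l hkl => Real.log_le_log (hp l x) (by linarith [dl_anti hkl]))
    (fun k x w => by
      rw [hlev, hform]
      have h1 := hE1 x w
      have h2 := mul_nonneg (dl_pos k).le (hE2 x w)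
      have h3 := hp k x
      apply div_nonneg (by linarith) (by positivity))
    hψ hψ0 S hs (c := c * κ) (A := -Real.log e0) (by positivity)
    (fun k z hz w => by
      rw [hlev, hform]
      have h1 := hEc z hz w
      have h2 := mul_nonneg (dl_pos k).le (hE2 (S.e.symm z) w)
      have h3 := hp k (S.e.symm z)
      have h4 := hEe z hz
      rw [le_div_iff₀ (by positivity)]
      have h5 : κ * (E (S.e.symm z) + dl k) ^ 2 ≤ E (S.e.symm z) ^ 2 := by
        have h6 : e0 / (e0 + 1 / 2) * (E (S.e.symm z) + dl k) ≤ E (S.e.symm z) := by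
          rw [div_mul_eq_mul_div, div_le_iff₀ (by positivity)]
          have := dl_le k
          nlinarith
        have h7 : (e0 / (e0 + 1 / 2) * (E (S.e.symm z) + dl k)) ^ 2 ≤ E (S.e.symm z) ^ 2 := by
          gcongr
        rw [mul_pow] at h7
        exact h7
      have h8 := nsq_nonneg w
      have h9 : c * κ * nsq w * (E (S.e.symm z) + dl k) ^ 2 ≤
          c * E (S.e.symm z) ^ 2 * nsq w := by
        have := mul_le_mul_of_nonneg_left h5 (mul_nonneg hc.le h8)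
        nlinarith
      linarith)
    (fun k z hz => by
      rw [neg_neg]
      exact Real.log_le_log he0 (by linarith [hEe z hz, dl_pos k]))
    (fun z hz w => by
      refine le_trans ?_ (hψc z hz w)
      have h1 : 0 ≤ ∑ i, ‖fderiv ℂ S.β z w i‖ ^ 2 := Finset.sum_nonneg fun _ _ => by positivity
      have h2 : c * κ ≤ c := by nlinarith
      exact mul_le_mul_of_nonneg_right h2 h1)
  refine ⟨c1, hc1, max N0 1, fun N hN t ht => ?_⟩
  obtain ⟨ι, hι, f, hf, hf2, hcard⟩ := hN0 N (le_trans (le_max_left _ _) hN) t ht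
  have hN1 : 1 ≤ N := le_trans (le_max_right _ _) hN
  refine ⟨ι, hι, f, hf, fun i => ⟨(hf2 i).1, ?_⟩, hcard⟩
  refine lt_of_le_of_lt (lintegral_mono fun x => ?_) (hf2 i).2
  rw [ENNReal.ofReal_mul (by positivity), mul_assoc]
  refine mul_le_mul' le_rfl ?_
  -- the limit
  have hterm : ∀ k, ENNReal.ofReal (Real.exp (-(((N : ℝ) - 1) * Real.log (E x + dl k) +
      N * t * ψ x))) = ENNReal.ofReal (Real.exp (-(N * t * ψ x))) *
        ((ENNReal.ofReal (E x + dl k))⁻¹) ^ (N - 1) := by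
    intro k
    have h1 : -(((N : ℝ) - 1) * Real.log (E x + dl k) + N * t * ψ x) =
        -(N * t * ψ x) + (N - 1 : ℕ) * (-Real.log (E x + dl k)) := by
      rw [Nat.cast_sub hN1]; push_cast; ring
    rw [h1, Real.exp_add, Real.exp_nat_mul, Real.exp_neg (Real.log (E x + dl k)),
      Real.exp_log (hp k x), ENNReal.ofReal_mul (by positivity),
      ENNReal.ofReal_pow (by have := hp k x; positivity), ENNReal.ofReal_inv_of_pos (hp k x)]
  simp only [hterm]
  have hlim : Tendsto (fun k => ENNReal.ofReal (Real.exp (-(N * t * ψ x))) *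
      ((ENNReal.ofReal (E x + dl k))⁻¹) ^ (N - 1)) atTop
      (𝓝 (ENNReal.ofReal (Real.exp (-(N * t * ψ x))) * ((ENNReal.ofReal (E x))⁻¹) ^ (N - 1))) := by
    apply ENNReal.Tendsto.const_mul
    · have h1 : Tendsto (fun k => E x + dl k) atTop (𝓝 (E x + 0)) :=
        tendsto_const_nhds.add dl_tendsto
      rw [add_zero] at h1
      have h2 : Tendsto (fun k => ENNReal.ofReal (E x + dl k)) atTop (𝓝 (ENNReal.ofReal (E x))) :=
        (ENNReal.continuous_ofReal.tendsto _).comp h1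
      have h3 : Tendsto (fun k => (ENNReal.ofReal (E x + dl k))⁻¹) atTop
          (𝓝 (ENNReal.ofReal (E x))⁻¹) := (continuous_inv.tendsto _).comp h2
      exact ((ENNReal.continuous_pow (N - 1)).tendsto _).comp h3
    · exact Or.inr ENNReal.ofReal_ne_top
  exact le_of_tendsto' hlim fun k => le_iSup (fun k =>
    ENNReal.ofReal (Real.exp (-(N * t * ψ x))) * ((ENNReal.ofReal (E x + dl k))⁻¹) ^ (N - 1)) k


end Crest.Agent.R276.CntLow2_804
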