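import Mathlib
import Crest.Agent.R276.SliA_217

-- ▼ part R276/SliB_217
section

/-!
# R276, leaf CNT-UP (slice lemma), part B (helper217)

The lower bound for `∏_{m<J} |y - m|`, and growth of quotients.
-/

set_option autoImplicit false

open Set Filter Topology Metric

namespace Crest.Agent.R276.SliB_217

open Crest.Agent.R276.SliA_217

/-! ### products of linear factors -/

/-- the constant `κ = 1/(8+8J²)` -/
noncomputable def kap (J : ℕ) : ℝ := 1 / (8 + 8 * (J : ℝ) ^ 2)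

theorem kap_pos (J : ℕ) : 0 < kap J := by unfold kap; positivity


theorem sq_norm_le (y c : ℂ) : ‖y‖ ^ 2 ≤ 2 * ‖y - c‖ ^ 2 + 2 * ‖c‖ ^ 2 := by
  have h1 : ‖y‖ ≤ ‖y - c‖ + ‖c‖ := by
    have := norm_add_le (y - c) c
    simpa using this
  have h2 : ‖y‖ ^ 2 ≤ (‖y - c‖ + ‖c‖) ^ 2 := by
    have := norm_nonneg y
    gcongr
  nlinarith [sq_nonneg (‖y - c‖ - ‖c‖)]

theorem far {J m : ℕ} (hm : m < J) {y : ℂ} (h : 1 / 2 ≤ ‖y - m‖) :
    kap J * (1 + ‖y‖ ^ 2) ≤ ‖y - m‖ ^ 2 := by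
  have h1 := sq_norm_le y m
  have h2 : ‖(m : ℂ)‖ ^ 2 ≤ (J : ℝ) ^ 2 := by
    rw [Complex.norm_natCast]
    have : (m : ℝ) ≤ J := by exact_mod_cast hm.le
    gcongr
  have h3 : 1 / 4 ≤ ‖y - m‖ ^ 2 := by nlinarith
  unfold kap
  rw [div_mul_eq_mul_div, one_mul, div_le_iff₀ (by positivity)]
  nlinarith [mul_nonneg (sub_nonneg.2 h3) (sq_nonneg (J : ℝ))]

theorem near {J m : ℕ} (hm : m < J) {y : ℂ} {r : ℝ} (hr : 0 < r) (h : r / 2 ≤ ‖y - m‖)
    (h' : ‖y - m‖ < 1 / 2) :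
    r ^ 2 * (kap J * (1 + ‖y‖ ^ 2)) ≤ ‖y - m‖ ^ 2 := by
  have h1 := sq_norm_le y m
  have h2 : ‖(m : ℂ)‖ ^ 2 ≤ (J : ℝ) ^ 2 := by
    rw [Complex.norm_natCast]
    have : (m : ℝ) ≤ J := by exact_mod_cast hm.le
    gcongr
  have h3 : r ^ 2 / 4 ≤ ‖y - m‖ ^ 2 := by nlinarith
  have h4 : ‖y - m‖ ^ 2 ≤ 1 / 4 := by nlinarith [norm_nonneg (y - (m : ℂ))]
  have h5 : kap J * (1 + ‖y‖ ^ 2) ≤ 1 / 4 := by
    unfold kap
    rw [div_mul_eq_mul_div, one_mul, div_le_iff₀ (by positivity)]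
    nlinarith [sq_nonneg (J : ℝ)]
  have h6 : 0 ≤ r ^ 2 := sq_nonneg r
  nlinarith

theorem prod_lower {J : ℕ} {y : ℂ} {r : ℝ} (hr : 0 < r) (hr1 : r ≤ 1)
    (h : ∀ m < J, r / 2 ≤ ‖y - (m : ℂ)‖) :
    r ^ 2 * (kap J * (1 + ‖y‖ ^ 2)) ^ J ≤ ∏ m ∈ Finset.range J, ‖y - (m : ℂ)‖ ^ 2 := by
  have hk : 0 ≤ kap J * (1 + ‖y‖ ^ 2) := by have := kap_pos J; positivity
  by_cases hall : ∀ m < J, 1 / 2 ≤ ‖y - (m : ℂ)‖
  · have h1 : (kap J * (1 + ‖y‖ ^ 2)) ^ J ≤ ∏ m ∈ Finset.range J, ‖y - (m : ℂ)‖ ^ 2 := by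
      calc (kap J * (1 + ‖y‖ ^ 2)) ^ J = ∏ _m ∈ Finset.range J, (kap J * (1 + ‖y‖ ^ 2)) := by simp
        _ ≤ _ := Finset.prod_le_prod (fun _ _ => hk)
          (fun m hm => far (Finset.mem_range.1 hm) (hall m (Finset.mem_range.1 hm)))
    have h2 : r ^ 2 ≤ 1 := by nlinarith
    have h3 : 0 ≤ (kap J * (1 + ‖y‖ ^ 2)) ^ J := pow_nonneg hk _
    nlinarith
  · push Not at hall
    obtain ⟨m0, hm0, hm0'⟩ := hall
    have hmem : m0 ∈ Finset.range J := Finset.mem_range.2 hm0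
    have hothers : ∀ m ∈ (Finset.range J).erase m0, kap J * (1 + ‖y‖ ^ 2) ≤ ‖y - (m : ℂ)‖ ^ 2 := by
      intro m hm
      rw [Finset.mem_erase, Finset.mem_range] at hm
      apply far hm.2
      have h1 : (1 : ℝ) ≤ ‖(m : ℂ) - (m0 : ℂ)‖ := by
        have h2 : ((m : ℂ) - (m0 : ℂ)) = (((m : ℤ) - (m0 : ℤ) : ℤ) : ℂ) := by push_cast; ring
        rw [h2, Complex.norm_intCast]
        have h3 : (m : ℤ) - (m0 : ℤ) ≠ 0 := by
          intro h; apply hm.1; omega
        have h4 : (1 : ℤ) ≤ |(m : ℤ) - (m0 : ℤ)| := Int.one_le_abs h3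
        exact_mod_cast h4
      have h5 : ‖(m : ℂ) - (m0 : ℂ)‖ ≤ ‖y - (m0 : ℂ)‖ + ‖y - (m : ℂ)‖ := by
        have := norm_sub_le (y - (m0 : ℂ)) (y - (m : ℂ))
        have h6 : (y - (m0 : ℂ)) - (y - (m : ℂ)) = (m : ℂ) - (m0 : ℂ) := by ring
        rwa [h6] at this
      linarith
    rw [← Finset.mul_prod_erase _ _ hmem]
    have h1 : (kap J * (1 + ‖y‖ ^ 2)) ^ (J - 1) ≤
        ∏ m ∈ (Finset.range J).erase m0, ‖y - (m : ℂ)‖ ^ 2 := by
      calc (kap J * (1 + ‖y‖ ^ 2)) ^ (J - 1)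
          = ∏ _m ∈ (Finset.range J).erase m0, (kap J * (1 + ‖y‖ ^ 2)) := by
            simp [Finset.card_erase_of_mem hmem]
        _ ≤ _ := Finset.prod_le_prod (fun _ _ => hk) hothers
    have h2 := near hm0 hr (h m0 hm0) hm0'
    have h3 : (kap J * (1 + ‖y‖ ^ 2)) ^ J =
        (kap J * (1 + ‖y‖ ^ 2)) * (kap J * (1 + ‖y‖ ^ 2)) ^ (J - 1) := by
      rw [← pow_succ']; congr 1; omega
    rw [h3, ← mul_assoc]
    exact mul_le_mul h2 h1 (pow_nonneg hk _) (sq_nonneg _)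

/-! ### integer powers of comparable quantities -/

theorem zpow_cmp {u v : ℝ} (hu : 0 < u) (hv : 0 < v) (h1 : u ≤ 2 * v) (h2 : v ≤ 2 * u) (n : ℤ) :
    u ^ n ≤ 2 ^ n.natAbs * v ^ n := by
  obtain ⟨k, rfl | rfl⟩ := n.eq_nat_or_neg
  · simp only [zpow_natCast, Int.natAbs_natCast]
    calc u ^ k ≤ (2 * v) ^ k := by gcongr
      _ = 2 ^ k * v ^ k := by rw [mul_pow]
  · simp only [zpow_neg, zpow_natCast, Int.natAbs_neg, Int.natAbs_natCast]
    have h3 : v ^ k ≤ 2 ^ k * u ^ k := by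
      calc v ^ k ≤ (2 * u) ^ k := by gcongr
        _ = _ := by rw [mul_pow]
    rw [← one_div, ← one_div, mul_one_div, div_le_div_iff₀ (by positivity) (by positivity)]
    linarith

theorem one_add_shift {y ζ : ℂ} (h : ‖ζ‖ ≤ 1 / 4) : 1 + ‖y + ζ‖ ^ 2 ≤ 2 * (1 + ‖y‖ ^ 2) := by
  have h1 : ‖y + ζ‖ ≤ ‖y‖ + 1 / 4 := (norm_add_le _ _).trans (by linarith)
  have h2 : ‖y + ζ‖ ^ 2 ≤ (‖y‖ + 1 / 4) ^ 2 := by
    have := norm_nonneg (y + ζ)
    gcongr
  nlinarith [sq_nonneg (‖y‖ - 1 / 4), norm_nonneg y]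

theorem one_add_shift' {y ζ : ℂ} (h : ‖ζ‖ ≤ 1 / 4) : 1 + ‖y‖ ^ 2 ≤ 2 * (1 + ‖y + ζ‖ ^ 2) := by
  have h1 : ‖-ζ‖ ≤ 1 / 4 := by simpa using h
  have := one_add_shift (y := y + ζ) h1
  simpa using this

end Crest.Agent.R276.SliB_217
end

-- ▼ part R276/SliC_217
section

/-!
# R276, leaf CNT-UP (slice lemma), part C (helper217)

Growth classes and growth of the quotient by `∏_{m<J} (p x i - m)`.
-/

set_option autoImplicit false
set_option linter.unusedSectionVars false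

open Set Filter Topology Metric

namespace Crest.Agent.R276.SliC_217

open Crest.Agent.R276.SliA_217 Crest.Agent.R276.SliB_217

variable {d : ℕ} {E : Type*} [TopologicalSpace E]

/-- `min 1 ‖hh x‖` -/
noncomputable def Hm (hh : E → ℂ) (x : E) : ℝ := min 1 ‖hh x‖

/-- the growth gauge `∏ (1 + ‖p x l‖²)` -/
noncomputable def GG (p : E → (Fin d → ℂ)) (x : E) : ℝ := ∏ l, (1 + ‖p x l‖ ^ 2)

/-- the monomial gauge -/
noncomputable def PP (p : E → (Fin d → ℂ)) (A : Fin d → ℤ) (x : E) : ℝ :=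
  ∏ l, (1 + ‖p x l‖ ^ 2) ^ (A l)

/-- growth classes: `‖f‖² e^{-kτ} (min 1 ‖hh‖)^B ≤ C ∏ (1 + ‖p x l‖²)^{A l}` -/
def Gr (p : E → (Fin d → ℂ)) (hh : E → ℂ) (τ : E → ℝ) (k : ℕ) (A : Fin d → ℤ) (B : ℕ)
    (f : E → ℂ) : Prop :=
  ∃ C : ℝ, ∀ x, ‖f x‖ ^ 2 * Real.exp (-τ x) ^ k * Hm hh x ^ B ≤ C * PP p A x

theorem one_le_GG (p : E → (Fin d → ℂ)) (x : E) : 1 ≤ GG p x := by
  unfold GG
  have : ∀ l, (1 : ℝ) ≤ 1 + ‖p x l‖ ^ 2 := fun l => by nlinarith [sq_nonneg ‖p x l‖]
  calc (1 : ℝ) = ∏ _l : Fin d, (1 : ℝ) := by simp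
    _ ≤ _ := Finset.prod_le_prod (fun _ _ => zero_le_one) (fun l _ => this l)

theorem one_add_pos (p : E → (Fin d → ℂ)) (x : E) (l : Fin d) : 0 < 1 + ‖p x l‖ ^ 2 := by
  positivity

theorem PP_pos (p : E → (Fin d → ℂ)) (A : Fin d → ℤ) (x : E) : 0 < PP p A x :=
  Finset.prod_pos fun l _ => zpow_pos (one_add_pos p x l) _

theorem PP_add (p : E → (Fin d → ℂ)) (A A' : Fin d → ℤ) (x : E) :
    PP p (fun l => A l + A' l) x = PP p A x * PP p A' x := by
  unfold PP
  rw [← Finset.prod_mul_distrib]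
  exact Finset.prod_congr rfl fun l _ => zpow_add₀ (one_add_pos p x l).ne' _ _

theorem GG_pow (p : E → (Fin d → ℂ)) (m : ℕ) (x : E) : GG p x ^ m = PP p (fun _ => (m : ℤ)) x := by
  unfold GG PP
  rw [← Finset.prod_pow]
  simp

theorem PP_single (p : E → (Fin d → ℂ)) (i : Fin d) (n : ℤ) (x : E) :
    PP p (fun l => if l = i then n else 0) x = (1 + ‖p x i‖ ^ 2) ^ n := by
  unfold PP
  rw [Finset.prod_eq_single i]
  · simp
  · intro l _ hl; simp [hl]
  · intro h; exact absurd (Finset.mem_univ i) h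

/-- a disc through `x` in the direction `i` with a comparison function `ℓ` for `τ` -/
structure Disc (p : E → (Fin d → ℂ)) (hh : E → ℂ) (τ : E → ℝ) (K : ℝ) (x : E) (i : Fin d)
    (r : ℝ) (s : ℂ → E) (ℓ : ℂ → ℂ) : Prop where
  r0 : 0 < r
  r1 : r ≤ 1 / 4
  cont : ContinuousOn s (closedBall 0 r)
  s0 : s 0 = x
  ps : ∀ ζ ∈ closedBall (0 : ℂ) r, p (s ζ) = p x + ζ • Pi.single i (1 : ℂ)
  Hs : ∀ ζ ∈ closedBall (0 : ℂ) r, Hm hh x ≤ 2 * Hm hh (s ζ)
  ld : DiffContOnCl ℂ ℓ (ball 0 r)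
  l0 : Real.exp (-τ x) ≤ K * ‖ℓ 0‖ ^ 2
  ls : ∀ ζ ∈ closedBall (0 : ℂ) r, ‖ℓ ζ‖ ^ 2 ≤ K * Real.exp (-τ (s ζ))

/-- level data for the slice lemma; see the blueprint (posts 808, 960, 1008). -/
structure LD (p : E → (Fin d → ℂ)) (hh : E → ℂ) (η τ : E → ℝ) (a b ρ : ℕ) : Prop where
  lh : IsLocalHomeomorph p
  hol : HolP p hh
  ne : ∀ x, hh x ≠ 0
  hgr : ∃ C : ℝ, ∀ x, ‖hh x‖ ≤ C * GG p x ^ b
  cpt : ∀ R δ : ℝ, 0 < δ → IsCompact {x | (∀ i, ‖p x i‖ ≤ R) ∧ δ ≤ ‖hh x‖}
  disc : ∃ c0 K : ℝ, 0 < c0 ∧ 0 < K ∧ ∀ x i, ∃ (r : ℝ) (s : ℂ → E) (ℓ : ℂ → ℂ),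
    Disc p hh τ K x i r s ℓ ∧ c0 * Hm hh x ^ a ≤ r * GG p x ^ a
  eta_pos : ∀ x, 0 < η x
  eta_le : ∃ C : ℝ, ∀ x, η x ≤ C * Real.exp (-τ x)
  eta_C2 : ∀ x, ∀ e : OpenPartialHomeomorph E (Fin d → ℂ), (⇑e : E → (Fin d → ℂ)) = p →
    x ∈ e.source → ContDiffAt ℝ 2 (η ∘ e.symm) (p x)
  null : ∀ x, ∀ e : OpenPartialHomeomorph E (Fin d → ℂ), (⇑e : E → (Fin d → ℂ)) = p →
    x ∈ e.source → ∃ N : Submodule ℂ (Fin d → ℂ), d ≤ ρ + Module.finrank ℂ N ∧
      ∀ w ∈ N, 0 ≤ MaxP_25.lev (fun z => Real.log (η (e.symm z))) (p x) w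

variable {p : E → (Fin d → ℂ)} {hh : E → ℂ} {τ : E → ℝ}

theorem Hm_pos (h0 : ∀ x, hh x ≠ 0) (x : E) : 0 < Hm hh x :=
  lt_min one_pos (norm_pos_iff.2 (h0 x))

/-- composition of a holomorphic function with a disc section -/
theorem comp_section (hp : IsLocalHomeomorph p) {g : E → ℂ} (hg : HolP p g) {x : E} {i : Fin d}
    {r : ℝ} (hr : 0 < r) {s : ℂ → E} (hs : ContinuousOn s (closedBall 0 r))
    (hps : ∀ ζ ∈ closedBall (0 : ℂ) r, p (s ζ) = p x + ζ • Pi.single i (1 : ℂ)) :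
    DiffContOnCl ℂ (fun ζ => g (s ζ)) (ball 0 r) := by
  refine ⟨?_, ?_⟩
  · intro ζ hζ
    have hζ' : ζ ∈ closedBall (0 : ℂ) r := ball_subset_closedBall hζ
    obtain ⟨e, hxe, he⟩ := exists_ch hp (s ζ)
    have hsc : ContinuousAt s ζ := (hs ζ hζ').continuousAt (mem_of_superset
      (isOpen_ball.mem_nhds hζ) ball_subset_closedBall)
    have hev : ∀ᶠ w in 𝓝 ζ, s w ∈ e.source := hsc.eventually (e.open_source.mem_nhds hxe)
    have hev2 : ∀ᶠ w in 𝓝 ζ, w ∈ closedBall (0 : ℂ) r := mem_of_superset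
      (isOpen_ball.mem_nhds hζ) ball_subset_closedBall
    have h1 : DifferentiableAt ℂ (g ∘ e.symm) (p x + ζ • Pi.single i (1 : ℂ)) := by
      have := hg.diffAt he (p_mem he hxe)
      rwa [hps ζ hζ'] at this
    have h2 : DifferentiableAt ℂ (fun w : ℂ => p x + w • (Pi.single i (1 : ℂ) : Fin d → ℂ)) ζ := by
      fun_prop
    refine ((h1.comp ζ h2).congr_of_eventuallyEq ?_).differentiableWithinAt
    filter_upwards [hev, hev2] with w hw hw2
    simp only [Function.comp_apply, ← hps w hw2, symm_p he hw]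
  · rw [closure_ball 0 hr.ne']
    exact (hg.continuous hp).comp_continuousOn hs

/-- the maximum principle on a disc, in the `τ` norm -/
theorem disc_max (hp : IsLocalHomeomorph p) {K : ℝ} (hK : 0 < K) {g : E → ℂ} (hg : HolP p g)
    {x : E} {i : Fin d} {r : ℝ} {s : ℂ → E} {ℓ : ℂ → ℂ} (hD : Disc p hh τ K x i r s ℓ) (k : ℕ)
    {M : ℝ} (hM : ∀ ζ ∈ sphere (0 : ℂ) r, ‖g (s ζ)‖ ^ 2 * Real.exp (-τ (s ζ)) ^ k ≤ M) :
    ‖g x‖ ^ 2 * Real.exp (-τ x) ^ k ≤ K ^ (2 * k) * M := by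
  have hM0 : 0 ≤ M := by
    refine le_trans ?_ (hM (r : ℂ) (by simp [abs_of_pos hD.r0]))
    positivity
  have hF : DiffContOnCl ℂ (fun ζ => g (s ζ) * ℓ ζ ^ k) (ball 0 r) := by
    have h1 := comp_section hp hg hD.r0 hD.cont hD.ps
    exact ⟨h1.1.mul (hD.ld.1.pow k), h1.2.mul (hD.ld.2.pow k)⟩
  have hb : ∀ ζ ∈ frontier (ball (0 : ℂ) r), ‖g (s ζ) * ℓ ζ ^ k‖ ≤ Real.sqrt (K ^ k * M) := by
    intro ζ hζ
    rw [frontier_ball 0 hD.r0.ne'] at hζ
    apply Real.le_sqrt_of_sq_le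
    have hζ' : ζ ∈ closedBall (0 : ℂ) r := sphere_subset_closedBall hζ
    have h1 : ‖g (s ζ) * ℓ ζ ^ k‖ ^ 2 = ‖g (s ζ)‖ ^ 2 * (‖ℓ ζ‖ ^ 2) ^ k := by
      rw [norm_mul, norm_pow]; ring
    rw [h1]
    calc ‖g (s ζ)‖ ^ 2 * (‖ℓ ζ‖ ^ 2) ^ k ≤ ‖g (s ζ)‖ ^ 2 * (K * Real.exp (-τ (s ζ))) ^ k := by
          have := hD.ls ζ hζ'
          gcongr
      _ = K ^ k * (‖g (s ζ)‖ ^ 2 * Real.exp (-τ (s ζ)) ^ k) := by rw [mul_pow]; ring
      _ ≤ K ^ k * M := by gcongr; exact hM ζ hζ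
  have h2 := Complex.norm_le_of_forall_mem_frontier_norm_le isBounded_ball hF hb
    (subset_closure (mem_ball_self hD.r0))
  rw [hD.s0] at h2
  have h3 : ‖g x * ℓ 0 ^ k‖ ^ 2 ≤ K ^ k * M := by
    have := pow_le_pow_left₀ (norm_nonneg _) h2 2
    rwa [Real.sq_sqrt (by positivity)] at this
  calc ‖g x‖ ^ 2 * Real.exp (-τ x) ^ k ≤ ‖g x‖ ^ 2 * (K * ‖ℓ 0‖ ^ 2) ^ k := by
        have := hD.l0
        gcongr
    _ = K ^ k * ‖g x * ℓ 0 ^ k‖ ^ 2 := by rw [norm_mul, norm_pow, mul_pow]; ring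
    _ ≤ K ^ k * (K ^ k * M) := by gcongr
    _ = K ^ (2 * k) * M := by ring

variable {η : E → ℝ} {a b ρ : ℕ}

/-- growth of the quotient by `∏_{m<J} (p x i - m)` -/
theorem growth_div (hL : LD p hh η τ a b ρ) {k J B : ℕ} {A : Fin d → ℤ} {f g : E → ℂ}
    (hf : Gr p hh τ k A B f) (hg : HolP p g) (i : Fin d)
    (hfg : ∀ x, f x = (∏ m ∈ Finset.range J, (p x i - m)) * g x) :
    Gr p hh τ k (fun l => (A l + if l = i then -(J : ℤ) else 0) + (2 * a : ℕ)) (B + 2 * a) g := by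
  obtain ⟨C, hC⟩ := hf
  obtain ⟨c0, K, hc0, hK, hdisc⟩ := hL.disc
  set A1 : Fin d → ℤ := fun l => A l + if l = i then -(J : ℤ) else 0 with hA1
  set C1 : ℝ := |C| * 2 ^ (A1 i).natAbs * 2 ^ B / kap J ^ J with hC1
  have hkap := kap_pos J
  refine ⟨(K ^ (2 * k) + 1) * C1 / c0 ^ 2, fun x => ?_⟩
  obtain ⟨r, s, ℓ, hD, hr⟩ := hdisc x i
  have hr0 := hD.r0
  have hHx := Hm_pos hL.ne x
  -- bound at a good point near `x`
  have hgood : ∀ x' : E, (∀ m < J, r / 2 ≤ ‖p x' i - (m : ℂ)‖) → (∀ l, l ≠ i → p x' l = p x l) →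
      (1 + ‖p x' i‖ ^ 2 ≤ 2 * (1 + ‖p x i‖ ^ 2)) → (1 + ‖p x i‖ ^ 2 ≤ 2 * (1 + ‖p x' i‖ ^ 2)) →
      Hm hh x ≤ 2 * Hm hh x' →
      ‖g x'‖ ^ 2 * Real.exp (-τ x') ^ k ≤ C1 * PP p A1 x / (r ^ 2 * Hm hh x ^ B) := by
    intro x' h1 h2 h3 h4 h5
    have hHx' := Hm_pos hL.ne x'
    have hprod := prod_lower hr0 (by linarith [hD.r1]) h1
    have hfx : ‖f x'‖ ^ 2 = (∏ m ∈ Finset.range J, ‖p x' i - (m : ℂ)‖ ^ 2) * ‖g x'‖ ^ 2 := by
      rw [hfg x', norm_mul, mul_pow, norm_prod, Finset.prod_pow]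
    have h6 : (r ^ 2 * (kap J * (1 + ‖p x' i‖ ^ 2)) ^ J) * ‖g x'‖ ^ 2 ≤ ‖f x'‖ ^ 2 := by
      rw [hfx]; gcongr
    have h7 : ‖f x'‖ ^ 2 * Real.exp (-τ x') ^ k * Hm hh x' ^ B ≤ |C| * PP p A x' :=
      (hC x').trans (by
        have := le_abs_self C
        have := PP_pos p A x'
        gcongr)
    -- comparison of the gauges
    have h8 : PP p A x' * (1 + ‖p x' i‖ ^ 2) ^ (-(J : ℤ)) = PP p A1 x' := by
      rw [hA1, PP_add, PP_single]
    have h9 : PP p A1 x' ≤ 2 ^ (A1 i).natAbs * PP p A1 x := by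
      unfold PP
      rw [← Finset.mul_prod_erase _ _ (Finset.mem_univ i),
        ← Finset.mul_prod_erase Finset.univ (fun l => (1 + ‖p x l‖ ^ 2) ^ A1 l)
          (Finset.mem_univ i)]
      have h10 : ∏ l ∈ Finset.univ.erase i, (1 + ‖p x' l‖ ^ 2) ^ A1 l =
          ∏ l ∈ Finset.univ.erase i, (1 + ‖p x l‖ ^ 2) ^ A1 l := by
        refine Finset.prod_congr rfl fun l hl => ?_
        rw [h2 l (Finset.ne_of_mem_erase hl)]
      rw [h10, ← mul_assoc]
      have h11 := zpow_cmp (one_add_pos p x' i) (one_add_pos p x i) h3 h4 (A1 i)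
      have h12 : 0 ≤ ∏ l ∈ Finset.univ.erase i, (1 + ‖p x l‖ ^ 2) ^ A1 l :=
        Finset.prod_nonneg fun l _ => (zpow_pos (one_add_pos p x l) _).le
      gcongr
    have h13 : Hm hh x ^ B ≤ 2 ^ B * Hm hh x' ^ B := by
      rw [← mul_pow]; gcongr
    rw [le_div_iff₀ (by positivity)]
    set Q := ‖g x'‖ ^ 2 * Real.exp (-τ x') ^ k with hQ
    have hQ0 : 0 ≤ Q := by positivity
    -- `Q r² κ^J (1+|y'|²)^J Hm(x')^B ≤ |C| PP A x'`
    have h14 : Q * r ^ 2 * kap J ^ J * (1 + ‖p x' i‖ ^ 2) ^ J * Hm hh x' ^ B ≤ |C| * PP p A x' := by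
      refine le_trans ?_ h7
      have h15 : Q * r ^ 2 * kap J ^ J * (1 + ‖p x' i‖ ^ 2) ^ J * Hm hh x' ^ B =
          ((r ^ 2 * (kap J * (1 + ‖p x' i‖ ^ 2)) ^ J) * ‖g x'‖ ^ 2) *
            (Real.exp (-τ x') ^ k * Hm hh x' ^ B) := by
        rw [hQ, mul_pow]; ring
      rw [h15, mul_assoc (‖f x'‖ ^ 2)]
      gcongr
    have h16 : Q * r ^ 2 * kap J ^ J * Hm hh x' ^ B ≤ |C| * PP p A1 x' := by
      have h17 : 0 < (1 + ‖p x' i‖ ^ 2) ^ J := by positivity
      rw [← h8, zpow_neg, zpow_natCast, ← mul_assoc, ← div_eq_mul_inv, le_div_iff₀ h17]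
      calc Q * r ^ 2 * kap J ^ J * Hm hh x' ^ B * (1 + ‖p x' i‖ ^ 2) ^ J
          = Q * r ^ 2 * kap J ^ J * (1 + ‖p x' i‖ ^ 2) ^ J * Hm hh x' ^ B := by ring
        _ ≤ _ := h14
    calc Q * (r ^ 2 * Hm hh x ^ B) ≤ Q * (r ^ 2 * (2 ^ B * Hm hh x' ^ B)) := by gcongr
      _ = (Q * r ^ 2 * kap J ^ J * Hm hh x' ^ B) * (2 ^ B / kap J ^ J) := by
          field_simp
      _ ≤ (|C| * PP p A1 x') * (2 ^ B / kap J ^ J) := by gcongr
      _ ≤ (|C| * (2 ^ (A1 i).natAbs * PP p A1 x)) * (2 ^ B / kap J ^ J) := by gcongr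
      _ = C1 * PP p A1 x := by rw [hC1]; ring
  -- bound at `x`
  have hPPx := PP_pos p A1 x
  have hC1n : 0 ≤ C1 := by rw [hC1]; positivity
  have hM0 : 0 ≤ C1 * PP p A1 x / (r ^ 2 * Hm hh x ^ B) := by positivity
  have hx : ‖g x‖ ^ 2 * Real.exp (-τ x) ^ k ≤
      K ^ (2 * k) * (C1 * PP p A1 x / (r ^ 2 * Hm hh x ^ B)) ∨
      ‖g x‖ ^ 2 * Real.exp (-τ x) ^ k ≤ C1 * PP p A1 x / (r ^ 2 * Hm hh x ^ B) := by
    by_cases hcase : ∀ m < J, r / 2 ≤ ‖p x i - (m : ℂ)‖
    · right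
      exact hgood x hcase (fun _ _ => rfl) (by nlinarith [sq_nonneg ‖p x i‖])
        (by nlinarith [sq_nonneg ‖p x i‖]) (by linarith)
    · left
      push Not at hcase
      obtain ⟨m0, hm0, hm0'⟩ := hcase
      apply disc_max hL.lh hK hg hD k
      intro ζ hζ
      have hζc : ζ ∈ closedBall (0 : ℂ) r := sphere_subset_closedBall hζ
      have hζn : ‖ζ‖ = r := by simpa using hζ
      have hpi : p (s ζ) i = p x i + ζ := by rw [hD.ps ζ hζc]; simp
      have hζ4 : ‖ζ‖ ≤ 1 / 4 := by rw [hζn]; exact hD.r1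
      apply hgood (s ζ)
      · intro m hm
        rw [hpi]
        by_cases hmm : m = m0
        · subst hmm
          have h1 : ‖ζ‖ ≤ ‖p x i + ζ - (m : ℂ)‖ + ‖p x i - (m : ℂ)‖ := by
            have := norm_sub_le (p x i + ζ - (m : ℂ)) (p x i - (m : ℂ))
            have h2 : (p x i + ζ - (m : ℂ)) - (p x i - (m : ℂ)) = ζ := by ring
            rwa [h2] at this
          linarith
        · have h1 : (1 : ℝ) ≤ ‖(m : ℂ) - (m0 : ℂ)‖ := by
            have h2 : ((m : ℂ) - (m0 : ℂ)) = (((m : ℤ) - (m0 : ℤ) : ℤ) : ℂ) := by push_cast; ring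
            rw [h2, Complex.norm_intCast]
            have h3 : (m : ℤ) - (m0 : ℤ) ≠ 0 := by
              intro h; apply hmm; omega
            have h4 : (1 : ℤ) ≤ |(m : ℤ) - (m0 : ℤ)| := Int.one_le_abs h3
            exact_mod_cast h4
          have h5 : ‖(m : ℂ) - (m0 : ℂ)‖ ≤ ‖p x i - (m0 : ℂ)‖ + ‖ζ‖ + ‖p x i + ζ - (m : ℂ)‖ := by
            have h6 := norm_sub_le ((p x i - (m0 : ℂ)) + ζ) (p x i + ζ - (m : ℂ))
            have h7 := norm_add_le (p x i - (m0 : ℂ)) ζ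
            have h8 : ((p x i - (m0 : ℂ)) + ζ) - (p x i + ζ - (m : ℂ)) = (m : ℂ) - (m0 : ℂ) := by
              ring
            rw [h8] at h6
            linarith
          have := hD.r1
          linarith
      · intro l hl
        rw [hD.ps ζ hζc]; simp [Pi.single_eq_of_ne hl]
      · rw [hpi]; exact one_add_shift hζ4
      · rw [hpi]; exact one_add_shift' hζ4
      · exact hD.Hs ζ hζc
  set Q := ‖g x‖ ^ 2 * Real.exp (-τ x) ^ k with hQ
  have hQ0 : 0 ≤ Q := by positivity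
  have hQM : Q ≤ (K ^ (2 * k) + 1) * (C1 * PP p A1 x / (r ^ 2 * Hm hh x ^ B)) := by
    rcases hx with h | h
    · rw [add_mul, one_mul]; linarith
    · have : 0 ≤ K ^ (2 * k) * (C1 * PP p A1 x / (r ^ 2 * Hm hh x ^ B)) := by positivity
      rw [add_mul, one_mul]; linarith
  have h1 : Q * (r ^ 2 * Hm hh x ^ B) ≤ (K ^ (2 * k) + 1) * (C1 * PP p A1 x) := by
    have h2 : 0 < r ^ 2 * Hm hh x ^ B := by positivity
    rw [← mul_div_assoc, le_div_iff₀ h2] at hQM
    exact hQM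
  have h3 : c0 ^ 2 * Hm hh x ^ (2 * a) ≤ r ^ 2 * GG p x ^ (2 * a) := by
    have h4 : 0 ≤ c0 * Hm hh x ^ a := by positivity
    have h5 := pow_le_pow_left₀ h4 hr 2
    calc c0 ^ 2 * Hm hh x ^ (2 * a) = (c0 * Hm hh x ^ a) ^ 2 := by ring
      _ ≤ (r * GG p x ^ a) ^ 2 := h5
      _ = _ := by ring
  have hPPe : PP p (fun l => A1 l + (2 * a : ℕ)) x = PP p A1 x * GG p x ^ (2 * a) := by
    rw [PP_add p A1 (fun _ => ((2 * a : ℕ) : ℤ)), GG_pow]
  have hGG : 0 ≤ GG p x ^ (2 * a) := by have := one_le_GG p x; positivity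
  rw [hPPe, pow_add, div_mul_eq_mul_div, le_div_iff₀ (by positivity)]
  calc Q * (Hm hh x ^ B * Hm hh x ^ (2 * a)) * c0 ^ 2
      = Q * Hm hh x ^ B * (c0 ^ 2 * Hm hh x ^ (2 * a)) := by ring
    _ ≤ Q * Hm hh x ^ B * (r ^ 2 * GG p x ^ (2 * a)) := by gcongr
    _ = Q * (r ^ 2 * Hm hh x ^ B) * GG p x ^ (2 * a) := by ring
    _ ≤ ((K ^ (2 * k) + 1) * (C1 * PP p A1 x)) * GG p x ^ (2 * a) := by gcongr
    _ = (K ^ (2 * k) + 1) * C1 * (PP p A1 x * GG p x ^ (2 * a)) := by ring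

end Crest.Agent.R276.SliC_217
end

-- ▼ part R276/SliD_217
section

/-!
# R276, leaf CNT-UP (slice lemma), part D (helper217)

Division by all the linear factors `p x i - m`, `i : Fin d`, `m < J`.
-/

set_option autoImplicit false
set_option linter.unusedSectionVars false

open Set Filter Topology Metric

namespace Crest.Agent.R276.SliD_217

open Crest.Agent.R276.SliA_217 Crest.Agent.R276.SliB_217 Crest.Agent.R276.SliC_217

variable {d : ℕ} {E : Type*} [TopologicalSpace E] {p : E → (Fin d → ℂ)}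

/-- the quotient vanishes where `f` vanishes, for another hyperplane -/
theorem van_quot (hp : IsLocalHomeomorph p) {f g : E → ℂ} (hg : HolP p g) {i : Fin d} {c : ℂ}
    (hfg : ∀ x, f x = (p x i - c) * g x) {j : Fin d} {c' : ℂ} (hne : j = i → c' ≠ c)
    (hf : ∀ x, p x j = c' → f x = 0) : ∀ x, p x j = c' → g x = 0 := by
  intro x hxj
  by_cases hxi : p x i = c
  · have hji : j ≠ i := by
      rintro rfl
      exact hne rfl (hxj.symm.trans hxi)
    obtain ⟨e, hxe, he⟩ := exists_ch hp x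
    have hcont : ContinuousAt (g ∘ e.symm) (p x) := (hg.diffAt he (p_mem he hxe)).continuousAt
    set L : ℂ → (Fin d → ℂ) := fun t => p x + t • Pi.single i (1 : ℂ) with hL
    have hLc : Continuous L := by simp only [hL]; fun_prop
    have hL0 : L 0 = p x := by simp [hL]
    have h1 : Tendsto (fun t : ℂ => (g ∘ e.symm) (L t)) (𝓝[≠] 0) (𝓝 ((g ∘ e.symm) (p x))) := by
      have h2 : ContinuousAt (fun t : ℂ => (g ∘ e.symm) (L t)) 0 := by
        apply ContinuousAt.comp (g := g ∘ e.symm) _ hLc.continuousAt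
        rw [hL0]; exact hcont
      have h3 := h2.tendsto
      simp only [hL0] at h3
      exact h3.mono_left nhdsWithin_le_nhds
    have h4 : ∀ᶠ t in 𝓝[≠] (0 : ℂ), (g ∘ e.symm) (L t) = 0 := by
      have h5 : ∀ᶠ t in 𝓝 (0 : ℂ), L t ∈ e.target := by
        apply hLc.continuousAt.eventually_mem
        rw [hL0]
        exact e.open_target.mem_nhds (p_mem he hxe)
      filter_upwards [h5.filter_mono nhdsWithin_le_nhds, self_mem_nhdsWithin] with t ht ht0
      have hpt : p (e.symm (L t)) = L t := p_symm he ht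
      have h6 : p (e.symm (L t)) j = c' := by
        rw [hpt]; simp [hL, Pi.single_eq_of_ne hji, hxj]
      have h7 : p (e.symm (L t)) i - c ≠ 0 := by
        rw [hpt]
        simp only [hL, Pi.add_apply, Pi.smul_apply, Pi.single_eq_same, smul_eq_mul, mul_one, hxi,
          add_sub_cancel_left]
        exact ht0
      have h8 := hfg (e.symm (L t))
      rw [hf _ h6] at h8
      rcases mul_eq_zero.1 h8.symm with h | h
      · exact absurd h h7
      · exact h
    have h9 : (g ∘ e.symm) (p x) = 0 := by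
      refine tendsto_nhds_unique h1 ?_
      exact tendsto_const_nhds.congr' (h4.mono fun t ht => ht.symm)
    simpa [symm_p he hxe] using h9
  · have h1 := hfg x
    rw [hf x hxj] at h1
    rcases mul_eq_zero.1 h1.symm with h | h
    · exact absurd (sub_eq_zero.1 h) hxi
    · exact h

/-- division by `∏_{m<J} (p x i - m)` -/
theorem exists_div_coord (hp : IsLocalHomeomorph p) {f : E → ℂ} (hf : HolP p f) (i : Fin d)
    (J : ℕ) (h0 : ∀ m < J, ∀ x, p x i = (m : ℂ) → f x = 0) :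
    ∃ g : E → ℂ, HolP p g ∧ (∀ x, f x = (∏ m ∈ Finset.range J, (p x i - (m : ℂ))) * g x) ∧
      ∀ j, j ≠ i → ∀ c : ℂ, (∀ x, p x j = c → f x = 0) → ∀ x, p x j = c → g x = 0 := by
  have key : ∀ n ≤ J, ∃ g : E → ℂ, HolP p g ∧
      (∀ x, f x = (∏ m ∈ Finset.range n, (p x i - (m : ℂ))) * g x) ∧
      (∀ m, n ≤ m → m < J → ∀ x, p x i = (m : ℂ) → g x = 0) ∧
      ∀ j, j ≠ i → ∀ c : ℂ, (∀ x, p x j = c → f x = 0) → ∀ x, p x j = c → g x = 0 := by
    intro n
    induction n with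
    | zero => intro _; exact ⟨f, hf, by simp, fun m _ hm => h0 m hm, fun _ _ _ h => h⟩
    | succ n ih =>
      intro hn
      obtain ⟨g, hg, hfg, hg1, hg2⟩ := ih (by omega)
      obtain ⟨g', hg', hgg'⟩ := exists_div hp hg i (n : ℂ) (hg1 n le_rfl (by omega))
      refine ⟨g', hg', fun x => ?_, fun m hm hmJ => ?_, fun j hj c hc => ?_⟩
      · rw [Finset.prod_range_succ, hfg x, hgg' x]; ring
      · refine van_quot hp hg' hgg' (fun _ => ?_) (hg1 m (by omega) hmJ)
        have : m ≠ n := by omega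
        exact_mod_cast this
      · exact van_quot hp hg' hgg' (fun h => absurd h hj) (hg2 j hj c hc)
  obtain ⟨g, hg, h1, _, h2⟩ := key J le_rfl
  exact ⟨g, hg, h1, h2⟩

variable {hh : E → ℂ} {η τ : E → ℝ} {a b ρ : ℕ}

/-- division by all factors -/
theorem exists_div_all (hL : LD p hh η τ a b ρ) {k J B : ℕ} {A : Fin d → ℤ} {f : E → ℂ}
    (hf : HolP p f) (hfG : Gr p hh τ k A B f)
    (h0 : ∀ i, ∀ m < J, ∀ x, p x i = (m : ℂ) → f x = 0) (S : Finset (Fin d)) :
    ∃ g : E → ℂ, HolP p g ∧ (∀ x, g x = 0 → f x = 0) ∧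
      (∀ j ∉ S, ∀ m < J, ∀ x, p x j = (m : ℂ) → g x = 0) ∧
      Gr p hh τ k (fun l => A l + (if l ∈ S then -(J : ℤ) else 0) + (2 * a * S.card : ℕ))
        (B + 2 * a * S.card) g := by
  classical
  induction S using Finset.induction_on with
  | empty =>
    refine ⟨f, hf, fun _ h => h, fun j _ => h0 j, ?_⟩
    simpa using hfG
  | insert i S hi ih =>
    obtain ⟨g, hg, hgf, hg0, hgG⟩ := ih
    obtain ⟨g', hg', hgg', hvan⟩ := exists_div_coord hL.lh hg i J (hg0 i hi)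
    have hG' := growth_div hL hgG hg' i hgg'
    refine ⟨g', hg', fun x hx => hgf x (by rw [hgg' x, hx, mul_zero]), fun j hj m hm => ?_, ?_⟩
    · have hji : j ≠ i := by rintro rfl; exact hj (Finset.mem_insert_self _ _)
      have hjS : j ∉ S := fun h => hj (Finset.mem_insert_of_mem h)
      exact hvan j hji m (hg0 j hjS m hm)
    · rw [Finset.card_insert_of_notMem hi]
      have h1 : (fun l => A l + (if l ∈ insert i S then -(J : ℤ) else 0) +
          ((2 * a * (S.card + 1) : ℕ) : ℤ)) = fun l => A l + (if l ∈ S then -(J : ℤ) else 0) +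
          ((2 * a * S.card : ℕ) : ℤ) + (if l = i then -(J : ℤ) else 0) + ((2 * a : ℕ) : ℤ) := by
        funext l
        by_cases hl : l = i
        · subst hl; simp [hi]; ring
        · simp [hl]; ring
      have h2 : B + 2 * a * (S.card + 1) = B + 2 * a * S.card + 2 * a := by ring
      rw [h1, h2]
      exact hG'

end Crest.Agent.R276.SliD_217
end

-- ▼ part R276/SliE_217
section

/-!
# R276, leaf CNT-UP (slice lemma), part E (helper217)

The maximum principle: a holomorphic function which decays at infinity in the `η` norm vanishes if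
`-log η` has everywhere a null direction; the level theorem.
-/

set_option autoImplicit false
set_option linter.unusedSectionVars false

open Set Filter Topology Metric InnerProductSpace Laplacian

namespace Crest.Agent.R276.SliE_217

open Crest.Agent.R276.SliA_217 Crest.Agent.R276.SliB_217 Crest.Agent.R276.SliC_217
  Crest.Agent.R276.SliD_217 Crest.Agent.R276.Ahl_25 Crest.Agent.R276.MaxP_25

/-- `Δ log (1 + |z|²) = 4 / (1 + |z|²)²` -/
theorem lap_log_add (z : ℂ) :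
    (Δ (fun w : ℂ => Real.log (1 + ‖w‖ ^ 2))) z = 4 / (1 + ‖z‖ ^ 2) ^ 2 := by
  have hc : ContDiffAt ℝ 2 (fun w : ℂ => Real.log (1 + ‖w‖ ^ 2)) z := by
    refine ContDiffAt.log ?_ (by positivity)
    exact contDiffAt_const.add (contDiff_norm_sq ℝ).contDiffAt
  have key : ∀ v : ℂ, ‖v‖ = 1 → fderiv ℝ (fderiv ℝ (fun w : ℂ => Real.log (1 + ‖w‖ ^ 2))) z v v =
      2 / (1 + ‖z‖ ^ 2) - 4 * (z.re * v.re + z.im * v.im) ^ 2 / (1 + ‖z‖ ^ 2) ^ 2 := by
    intro v hv
    rw [← deriv2_line hc]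
    set a := 1 + ‖z‖ ^ 2 with ha
    have ha0 : 0 < a := by positivity
    set b := z.re * v.re + z.im * v.im with hb
    have hv2 : v.re ^ 2 + v.im ^ 2 = 1 := by
      have := Complex.normSq_eq_norm_sq v
      rw [hv, Complex.normSq_apply] at this
      linarith
    have e1 : (fun t : ℝ => Real.log (1 + ‖z + t • v‖ ^ 2)) =
        fun t => Real.log (a + 2 * b * t + t ^ 2) := by
      funext t
      congr 1
      have e2 : ‖z + t • v‖ ^ 2 = ‖z‖ ^ 2 + 2 * b * t + t ^ 2 := by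
        rw [← Complex.normSq_eq_norm_sq, ← Complex.normSq_eq_norm_sq, Complex.normSq_apply,
          Complex.normSq_apply, hb]
        simp only [Complex.add_re, Complex.add_im, Complex.real_smul, Complex.mul_re,
          Complex.mul_im, Complex.ofReal_re, Complex.ofReal_im, zero_mul, sub_zero, add_zero]
        linear_combination t ^ 2 * hv2
      rw [e2, ha]; ring
    rw [e1]
    have hpos : ∀ᶠ t in 𝓝 (0 : ℝ), 0 < a + 2 * b * t + t ^ 2 := by
      have : ContinuousAt (fun t : ℝ => a + 2 * b * t + t ^ 2) 0 := by fun_prop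
      refine this.eventually (lt_mem_nhds ?_)
      simpa using ha0
    have hq : ∀ t : ℝ, HasDerivAt (fun t : ℝ => a + 2 * b * t + t ^ 2) (2 * b + 2 * t) t := by
      intro t
      have := (((hasDerivAt_id t).const_mul (2 * b)).const_add a).add ((hasDerivAt_id t).pow 2)
      refine this.congr_deriv ?_
      simp
    have hd : deriv (fun t : ℝ => Real.log (a + 2 * b * t + t ^ 2)) =ᶠ[𝓝 0]
        fun t => (2 * b + 2 * t) / (a + 2 * b * t + t ^ 2) := by
      filter_upwards [hpos] with t ht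
      exact ((hq t).log ht.ne').deriv
    rw [hd.deriv_eq]
    have hn : HasDerivAt (fun t : ℝ => 2 * b + 2 * t) 2 0 := by
      have := ((hasDerivAt_id (0 : ℝ)).const_mul 2).const_add (2 * b)
      simpa using this
    have h' := hn.fun_div (hq 0) (by simpa using ha0.ne')
    rw [h'.deriv]
    simp only [mul_zero, add_zero, ne_eq, OfNat.ofNat_ne_zero, not_false_eq_true, zero_pow]
    field_simp
    ring
  rw [lap_eq, key 1 (by simp), key Complex.I (by simp)]
  have e7 : ‖z‖ ^ 2 = z.re ^ 2 + z.im ^ 2 := by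
    rw [← Complex.normSq_eq_norm_sq, Complex.normSq_apply]; ring
  have ha0 : (1 + (z.re ^ 2 + z.im ^ 2)) ≠ 0 := by positivity
  rw [e7]
  simp only [Complex.one_re, Complex.one_im, Complex.I_re, Complex.I_im]
  field_simp
  ring

section levs

variable {d : ℕ}

theorem contDiffAt_log_coord (l : Fin d) (z : Fin d → ℂ) :
    ContDiffAt ℝ 2 (fun y : Fin d → ℂ => Real.log (1 + ‖y l‖ ^ 2)) z := by
  have h1 : ContDiffAt ℝ 2 (fun w : ℂ => Real.log (1 + ‖w‖ ^ 2)) (z l) := by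
    refine ContDiffAt.log ?_ (by positivity)
    exact contDiffAt_const.add (contDiff_norm_sq ℝ).contDiffAt
  have h2 : ContDiffAt ℝ 2 (fun y : Fin d → ℂ => y l) z := (contDiff_apply ℝ ℂ l).contDiffAt
  exact h1.comp z h2

theorem lev_log_coord (l : Fin d) (z w : Fin d → ℂ) :
    lev (fun y : Fin d → ℂ => Real.log (1 + ‖y l‖ ^ 2)) z w =
      ‖w l‖ ^ 2 * (4 / (1 + ‖z l‖ ^ 2) ^ 2) := by
  have h1 : ContDiffAt ℝ 2 (fun y : Fin d → ℂ => Real.log (1 + ‖y l‖ ^ 2)) (z + (0 : ℂ) • w) :=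
    contDiffAt_log_coord l _
  have h2 := lap_cline h1
  simp only [zero_smul, add_zero] at h2
  rw [← h2]
  have h3 : ContDiffAt ℝ 2 (fun w : ℂ => Real.log (1 + ‖w‖ ^ 2)) ((fun t : ℂ => z l + t * w l) 0) := by
    refine ContDiffAt.log ?_ (by positivity)
    exact contDiffAt_const.add (contDiff_norm_sq ℝ).contDiffAt
  have h4 : AnalyticAt ℂ (fun t : ℂ => z l + t * w l) 0 := by fun_prop
  have h5 := lap_comp (f := fun w : ℂ => Real.log (1 + ‖w‖ ^ 2)) (h := fun t : ℂ => z l + t * w l)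
    (z := 0) h3 h4
  have h6 : deriv (fun t : ℂ => z l + t * w l) 0 = w l := by
    have : HasDerivAt (fun t : ℂ => z l + t * w l) (1 * w l) 0 :=
      ((hasDerivAt_id (0 : ℂ)).mul_const (w l)).const_add (z l)
    simpa using this.deriv
  rw [h6, lap_log_add] at h5
  simpa using h5

theorem contDiffAt_log_norm {F : (Fin d → ℂ) → ℂ} {z : Fin d → ℂ} (hF : AnalyticAt ℂ F z)
    (h0 : F z ≠ 0) : ContDiffAt ℝ 2 (fun y => Real.log ‖F y‖) z := by
  have h1 : ContDiffAt ℝ 2 F z := (hF.contDiffAt (n := 2)).restrict_scalars ℝ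
  exact (h1.norm ℝ h0).log (norm_ne_zero_iff.2 h0)

theorem lev_log_norm {F : (Fin d → ℂ) → ℂ} {z : Fin d → ℂ} (hF : AnalyticAt ℂ F z)
    (h0 : F z ≠ 0) (w : Fin d → ℂ) : lev (fun y => Real.log ‖F y‖) z w = 0 := by
  have h1 : ContDiffAt ℝ 2 (fun y => Real.log ‖F y‖) (z + (0 : ℂ) • w) := by
    simpa using contDiffAt_log_norm hF h0
  have h2 := lap_cline h1
  simp only [zero_smul, add_zero] at h2
  rw [← h2]
  have h3 : AnalyticAt ℂ (fun t : ℂ => F (z + t • w)) 0 := by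
    have h4 : AnalyticAt ℂ (fun t : ℂ => z + t • w) 0 := by fun_prop
    have h5 : AnalyticAt ℂ F ((fun t : ℂ => z + t • w) 0) := by simpa using hF
    exact AnalyticAt.comp (g := F) (f := fun t : ℂ => z + t • w) h5 h4
  have h6 := AnalyticAt.harmonicAt_log_norm h3 (by simpa using h0)
  exact h6.2.self_of_nhds

end levs

variable {d : ℕ} {E : Type*} [TopologicalSpace E] {p : E → (Fin d → ℂ)} {hh : E → ℂ}
  {η τ : E → ℝ} {a b ρ : ℕ}

theorem continuous_eta (hL : LD p hh η τ a b ρ) : Continuous η := by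
  rw [continuous_iff_continuousAt]
  intro x
  obtain ⟨e, hx, he⟩ := exists_ch hL.lh x
  have h1 : ContinuousAt (η ∘ e.symm) (p x) := (hL.eta_C2 x e he hx).continuousAt
  have h2 : ContinuousAt (fun y => (η ∘ e.symm) (p y)) x :=
    ContinuousAt.comp (g := η ∘ e.symm) h1 hL.lh.continuous.continuousAt
  refine h2.congr ?_
  filter_upwards [e.open_source.mem_nhds hx] with y hy
  simp [symm_p he hy]

theorem continuous_GG (hp : Continuous p) : Continuous (GG p) := by
  unfold GG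
  refine continuous_finsetProd _ fun l _ => ?_
  have : Continuous fun x => p x l := (continuous_apply l).comp hp
  fun_prop

theorem Hm_mul_max (hh : E → ℂ) (x : E) : ‖hh x‖ = Hm hh x * max 1 ‖hh x‖ := by
  unfold Hm
  rcases le_total 1 ‖hh x‖ with h | h
  · rw [min_eq_left h, max_eq_right h, one_mul]
  · rw [min_eq_right h, max_eq_left h, mul_one]

theorem PP_mono {A A' : Fin d → ℤ} (h : ∀ l, A l ≤ A' l) (x : E) : PP p A x ≤ PP p A' x := by
  unfold PP
  refine Finset.prod_le_prod (fun l _ => (zpow_pos (one_add_pos p x l) _).le) fun l _ => ?_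
  have : (1 : ℝ) ≤ 1 + ‖p x l‖ ^ 2 := by nlinarith [sq_nonneg ‖p x l‖]
  exact zpow_le_zpow_right₀ this (h l)

theorem PP_neg_le (x : E) (i : Fin d) : PP p (fun _ => -1) x * (1 + ‖p x i‖ ^ 2) ≤ 1 := by
  have h1 : PP p (fun _ => -1) x * (1 + ‖p x i‖ ^ 2) =
      PP p (fun l => -1 + if l = i then 1 else 0) x := by
    rw [PP_add p (fun _ => -1), PP_single]; simp
  rw [h1]
  have h2 : PP p (fun _ => (0 : ℤ)) x = 1 := by simp [PP]
  rw [← h2]
  apply PP_mono
  intro l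
  split_ifs <;> norm_num

/-- the maximum principle -/
theorem zero_of_decay (hL : LD p hh η τ a b ρ) (hρ : ρ < d) {k B : ℕ} {A : Fin d → ℤ}
    {g : E → ℂ} (hg : HolP p g) (hG : Gr p hh τ k A B g)
    (hA : ∀ l, A l + 1 + b * (B + 1) ≤ -1) : ∀ x, g x = 0 := by
  obtain ⟨C, hC⟩ := hG
  obtain ⟨Cη, hCη⟩ := hL.eta_le
  obtain ⟨Ch, hCh⟩ := hL.hgr
  by_contra hcon
  push Not at hcon
  obtain ⟨x1, hx1⟩ := hcon
  have hηc := continuous_eta hL
  have hgc := hg.continuous hL.lh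
  have hhc := hL.hol.continuous hL.lh
  set u : E → ℝ := fun x => ‖g x‖ ^ 2 * η x ^ k * ‖hh x‖ ^ (B + 1) * GG p x with hu
  have huc : Continuous u := by
    have := continuous_GG hL.lh.continuous
    simp only [hu]; fun_prop
  have hGGpos : ∀ x, 0 < GG p x := fun x => lt_of_lt_of_le one_pos (one_le_GG p x)
  have hupos : 0 < u x1 := by
    have h1 := hL.eta_pos x1
    have h2 : 0 < ‖hh x1‖ := norm_pos_iff.2 (hL.ne x1)
    have h3 : 0 < ‖g x1‖ := norm_pos_iff.2 hx1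
    have h4 := hGGpos x1
    simp only [hu]; positivity
  set Ch' : ℝ := max 1 |Ch| with hCh'
  set C' : ℝ := |Cη| ^ k * |C| * Ch' ^ (B + 1) with hC'
  have hC'0 : 0 ≤ C' := by rw [hC', hCh']; positivity
  -- decay of `u`
  have hdec : ∀ x, u x ≤ C' * PP p (fun _ => -1) x * Hm hh x := by
    intro x
    have hHx := Hm_pos hL.ne x
    have h1 : ‖g x‖ ^ 2 * η x ^ k ≤ |Cη| ^ k * (‖g x‖ ^ 2 * Real.exp (-τ x) ^ k) := by
      have h2 : η x ≤ |Cη| * Real.exp (-τ x) :=
        (hCη x).trans (by have := le_abs_self Cη; gcongr)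
      have h3 := (hL.eta_pos x).le
      calc ‖g x‖ ^ 2 * η x ^ k ≤ ‖g x‖ ^ 2 * (|Cη| * Real.exp (-τ x)) ^ k := by gcongr
        _ = _ := by rw [mul_pow]; ring
    have h4 : ‖g x‖ ^ 2 * Real.exp (-τ x) ^ k * Hm hh x ^ B ≤ |C| * PP p A x :=
      (hC x).trans (by
        have := le_abs_self C
        have := PP_pos p A x
        gcongr)
    have h5 : max 1 ‖hh x‖ ≤ Ch' * GG p x ^ b := by
      have h6 : 1 ≤ GG p x ^ b := one_le_pow₀ (one_le_GG p x)
      apply max_le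
      · have : (1 : ℝ) ≤ Ch' := le_max_left _ _
        nlinarith
      · calc ‖hh x‖ ≤ Ch * GG p x ^ b := hCh x
          _ ≤ Ch' * GG p x ^ b := by
            have : Ch ≤ Ch' := (le_abs_self Ch).trans (le_max_right _ _)
            gcongr
    have h7 : ‖hh x‖ ^ (B + 1) ≤ Hm hh x ^ (B + 1) * (Ch' * GG p x ^ b) ^ (B + 1) := by
      rw [Hm_mul_max hh x, mul_pow]
      have : 0 ≤ max 1 ‖hh x‖ := le_max_of_le_left zero_le_one
      gcongr
    have hGp := hGGpos x
    have hCh0 : 0 ≤ Ch' := le_max_of_le_left zero_le_one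
    calc u x = (‖g x‖ ^ 2 * η x ^ k) * ‖hh x‖ ^ (B + 1) * GG p x := rfl
      _ ≤ (|Cη| ^ k * (‖g x‖ ^ 2 * Real.exp (-τ x) ^ k)) *
          (Hm hh x ^ (B + 1) * (Ch' * GG p x ^ b) ^ (B + 1)) * GG p x := by gcongr
      _ = |Cη| ^ k * Ch' ^ (B + 1) * (‖g x‖ ^ 2 * Real.exp (-τ x) ^ k * Hm hh x ^ B) *
          (GG p x ^ (b * (B + 1) + 1)) * Hm hh x := by
          rw [mul_pow, pow_add (Hm hh x), pow_one, ← pow_mul, pow_add, pow_one]; ring
      _ ≤ |Cη| ^ k * Ch' ^ (B + 1) * (|C| * PP p A x) *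
          (GG p x ^ (b * (B + 1) + 1)) * Hm hh x := by gcongr
      _ = C' * (PP p A x * PP p (fun _ => ((b * (B + 1) + 1 : ℕ) : ℤ)) x) * Hm hh x := by
          rw [GG_pow, hC']; ring
      _ = C' * PP p (fun l => A l + ((b * (B + 1) + 1 : ℕ) : ℤ)) x * Hm hh x := by
          rw [← PP_add]
      _ ≤ C' * PP p (fun _ => -1) x * Hm hh x := by
          have : PP p (fun l => A l + ((b * (B + 1) + 1 : ℕ) : ℤ)) x ≤ PP p (fun _ => -1) x := by
            apply PP_mono
            intro l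
            have := hA l
            push_cast
            linarith
          gcongr
  -- the compact set
  have hC'pos : 0 < C' := by
    rcases hC'0.lt_or_eq with h | h
    · exact h
    · have := hdec x1
      rw [← h] at this
      simp at this
      linarith
  set δ := u x1 / C' with hδ
  have hδ0 : 0 < δ := div_pos hupos hC'pos
  have hsub : ∀ x, u x1 ≤ u x → x ∈ {x | (∀ i, ‖p x i‖ ≤ 1 / δ) ∧ δ ≤ ‖hh x‖} := by
    intro x hx
    have h1 := hx.trans (hdec x)
    have hHx := Hm_pos hL.ne x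
    have hP := PP_pos p (fun _ => -1) x
    have h2 : δ ≤ PP p (fun _ => -1) x * Hm hh x := by
      rw [hδ, div_le_iff₀ hC'pos]; linarith
    have hH1 : Hm hh x ≤ 1 := min_le_left _ _
    refine ⟨fun i => ?_, ?_⟩
    · have h3 := PP_neg_le (p := p) x i
      have h4 : δ * (1 + ‖p x i‖ ^ 2) ≤ 1 := by
        calc δ * (1 + ‖p x i‖ ^ 2) ≤ (PP p (fun _ => -1) x * Hm hh x) * (1 + ‖p x i‖ ^ 2) := by gcongr
          _ = (PP p (fun _ => -1) x * (1 + ‖p x i‖ ^ 2)) * Hm hh x := by ring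
          _ ≤ 1 * 1 := by gcongr
          _ = 1 := by norm_num
      rw [le_div_iff₀ hδ0]
      nlinarith [sq_nonneg (‖p x i‖ - 1), norm_nonneg (p x i)]
    · have h3 : PP p (fun _ => -1) x ≤ 1 := by
        by_cases hd : Nonempty (Fin d)
        · obtain ⟨i⟩ := hd
          have := PP_neg_le (p := p) x i
          nlinarith [sq_nonneg ‖p x i‖]
        · have : IsEmpty (Fin d) := not_nonempty_iff.1 hd
          simp [PP]
      calc δ ≤ PP p (fun _ => -1) x * Hm hh x := h2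
        _ ≤ 1 * Hm hh x := by gcongr
        _ ≤ ‖hh x‖ := by rw [one_mul]; exact min_le_right _ _
  obtain ⟨x0, hx0, hmax⟩ := (hL.cpt (1 / δ) δ hδ0).exists_isMaxOn ⟨x1, hsub x1 le_rfl⟩
    huc.continuousOn
  have hglob : ∀ x, u x ≤ u x0 := by
    intro x
    by_cases hx : u x1 ≤ u x
    · exact hmax (hsub x hx)
    · have := hmax (hsub x1 le_rfl)
      exact (not_le.1 hx).le.trans this
  have hu0 : 0 < u x0 := lt_of_lt_of_le hupos (hglob x1)
  have hg0 : g x0 ≠ 0 := by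
    intro h
    simp only [hu, h, norm_zero] at hu0
    simp at hu0
  -- local analysis at `x0`
  obtain ⟨e, hxe, he⟩ := exists_ch hL.lh x0
  have hpt := p_mem he hxe
  have hsx : e.symm (p x0) = x0 := symm_p he hxe
  have hGan : AnalyticAt ℂ (g ∘ e.symm) (p x0) :=
    R266.SCV.analyticOnNhd_of_differentiableOn e.open_target (hg e he) _ hpt
  have hHan : AnalyticAt ℂ (hh ∘ e.symm) (p x0) :=
    R266.SCV.analyticOnNhd_of_differentiableOn e.open_target (hL.hol e he) _ hpt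
  have hG0 : (g ∘ e.symm) (p x0) ≠ 0 := by simpa [hsx] using hg0
  have hH0 : (hh ∘ e.symm) (p x0) ≠ 0 := by simpa [hsx] using hL.ne x0
  set v1 : (Fin d → ℂ) → ℝ := fun z => Real.log ‖(g ∘ e.symm) z‖ with hv1
  set v2 : (Fin d → ℂ) → ℝ := fun z => Real.log (η (e.symm z)) with hv2
  set v3 : (Fin d → ℂ) → ℝ := fun z => Real.log ‖(hh ∘ e.symm) z‖ with hv3
  set v4 : (Fin d → ℂ) → ℝ := fun z => ∑ l, Real.log (1 + ‖z l‖ ^ 2) with hv4
  set v : (Fin d → ℂ) → ℝ := fun z => 2 * v1 z + (k : ℝ) * v2 z + ((B + 1 : ℕ) : ℝ) * v3 z + v4 z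
    with hv
  have hc1 : ContDiffAt ℝ 2 v1 (p x0) := contDiffAt_log_norm hGan hG0
  have hc2 : ContDiffAt ℝ 2 v2 (p x0) := by
    have h1 := hL.eta_C2 x0 e he hxe
    refine ContDiffAt.log h1 ?_
    simpa [hsx] using (hL.eta_pos x0).ne'
  have hc3 : ContDiffAt ℝ 2 v3 (p x0) := contDiffAt_log_norm hHan hH0
  have hc4 : ContDiffAt ℝ 2 v4 (p x0) := ContDiffAt.sum fun l _ => contDiffAt_log_coord l _
  have hloc : IsLocalMax v (p x0) := by
    have h1 : ∀ᶠ z in 𝓝 (p x0), (g ∘ e.symm) z ≠ 0 := hGan.continuousAt.eventually_ne hG0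
    have h2 : ∀ᶠ z in 𝓝 (p x0), z ∈ e.target := e.open_target.mem_nhds hpt
    have hlog : ∀ z, z ∈ e.target → (g ∘ e.symm) z ≠ 0 → v z = Real.log (u (e.symm z)) := by
      intro z hz hgz
      have h3 := hL.eta_pos (e.symm z)
      have h4 : 0 < ‖hh (e.symm z)‖ := norm_pos_iff.2 (hL.ne _)
      have h5 : 0 < ‖g (e.symm z)‖ := norm_pos_iff.2 hgz
      have h6 := hGGpos (e.symm z)
      have h7 : Real.log (GG p (e.symm z)) = v4 z := by
        unfold GG
        rw [Real.log_prod (fun l _ => (one_add_pos p (e.symm z) l).ne')]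
        simp only [hv4, p_symm he hz]
      simp only [hu]
      rw [Real.log_mul (by positivity) h6.ne', Real.log_mul (by positivity) (by positivity),
        Real.log_mul (by positivity) (by positivity), Real.log_pow, Real.log_pow, Real.log_pow, h7]
      simp only [hv, hv1, hv2, hv3, Function.comp_apply]
      push_cast; ring
    have h8 : v (p x0) = Real.log (u x0) := by
      rw [hlog _ hpt hG0, hsx]
    filter_upwards [h1, h2] with z hz1 hz2
    rw [h8, hlog z hz2 hz1]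
    apply Real.log_le_log _ (hglob _)
    have h3 := hL.eta_pos (e.symm z)
    have h4 : 0 < ‖hh (e.symm z)‖ := norm_pos_iff.2 (hL.ne _)
    have h5 : 0 < ‖g (e.symm z)‖ := norm_pos_iff.2 hz1
    have h6 := hGGpos (e.symm z)
    simp only [hu]; positivity
  obtain ⟨N, hN, hNw⟩ := hL.null x0 e he hxe
  have hNpos : 0 < Module.finrank ℂ N := by omega
  obtain ⟨w, hw0⟩ := (Module.finrank_pos_iff_exists_ne_zero (R := ℂ) (M := N)).1 hNpos
  have hw1 : (w : Fin d → ℂ) ≠ 0 := fun h => hw0 (Subtype.ext h)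
  have hcv : ContDiffAt ℝ 2 v (p x0) :=
    (((contDiffAt_const.mul hc1).add (contDiffAt_const.mul hc2)).add
      (contDiffAt_const.mul hc3)).add hc4
  have hle := lev_nonpos_of_isLocalMax hcv hloc (w : Fin d → ℂ)
  have hlev : lev v (p x0) w = 2 * lev v1 (p x0) w + (k : ℝ) * lev v2 (p x0) w +
      ((B + 1 : ℕ) : ℝ) * lev v3 (p x0) w + lev v4 (p x0) w := by
    rw [hv, lev_add (((contDiffAt_const.mul hc1).add (contDiffAt_const.mul hc2)).add
        (contDiffAt_const.mul hc3)) hc4,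
      lev_add ((contDiffAt_const.mul hc1).add (contDiffAt_const.mul hc2))
        (contDiffAt_const.mul hc3), lev_add (contDiffAt_const.mul hc1) (contDiffAt_const.mul hc2),
      lev_const_mul hc1, lev_const_mul hc2, lev_const_mul hc3]
  have hl1 : lev v1 (p x0) w = 0 := lev_log_norm hGan hG0 w
  have hl3 : lev v3 (p x0) w = 0 := lev_log_norm hHan hH0 w
  have hl2 : 0 ≤ lev v2 (p x0) w := hNw w w.2
  have hl4 : 0 < lev v4 (p x0) w := by
    have h1 : ∀ S : Finset (Fin d), lev (fun z : Fin d → ℂ => ∑ l ∈ S, Real.log (1 + ‖z l‖ ^ 2))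
        (p x0) w = ∑ l ∈ S, ‖(w : Fin d → ℂ) l‖ ^ 2 * (4 / (1 + ‖p x0 l‖ ^ 2) ^ 2) := by
      intro S
      classical
      induction S using Finset.induction_on with
      | empty =>
        simp only [Finset.sum_empty]
        have := lev_const_mul (u := fun _ : Fin d → ℂ => (0 : ℝ)) (z := p x0) contDiffAt_const 0
          (w : Fin d → ℂ)
        simpa using this
      | insert l S hl ih =>
        simp only [Finset.sum_insert hl]
        rw [lev_add (contDiffAt_log_coord l _) (ContDiffAt.sum fun l _ => contDiffAt_log_coord l _),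
          ih, lev_log_coord]
    rw [hv4, h1]
    obtain ⟨l, hl⟩ := Function.ne_iff.1 hw1
    apply Finset.sum_pos' (fun _ _ => by positivity)
    refine ⟨l, Finset.mem_univ l, ?_⟩
    have : 0 < ‖(w : Fin d → ℂ) l‖ := norm_pos_iff.2 hl
    positivity
  have h9 : 0 ≤ (k : ℝ) * lev v2 (p x0) w := mul_nonneg (Nat.cast_nonneg k) hl2
  rw [hlev, hl1, hl3] at hle
  linarith

/-- **level theorem**: if `ρ < d`, a holomorphic function of growth `A` (all coordinates) and
`B`, vanishing on the hyperplanes `p x i = m`, `i : Fin d`, `m < J`, is zero as soon as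
`A + 2ad + b (B + 2ad + 1) + 2 ≤ J`. -/
theorem level (hL : LD p hh η τ a b ρ) (hρ : ρ < d) {k B J : ℕ} {A : ℤ} {f : E → ℂ}
    (hf : HolP p f) (hG : Gr p hh τ k (fun _ => A) B f)
    (hJ : A + 2 * a * d + b * (B + 2 * a * d + 1) + 2 ≤ J)
    (h0 : ∀ i, ∀ m < J, ∀ x, p x i = (m : ℂ) → f x = 0) : ∀ x, f x = 0 := by
  obtain ⟨g, hg, hgf, -, hgG⟩ := exists_div_all hL hf hG h0 Finset.univ
  have h1 := zero_of_decay hL hρ hg hgG (by
    intro l
    simp only [Finset.mem_univ, if_true, Finset.card_univ, Fintype.card_fin]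
    push_cast
    linarith)
  exact fun x => hgf x (h1 x)

end Crest.Agent.R276.SliE_217
end

-- ▼ part R276/SliF_217
section

/-!
# R276, leaf CNT-UP (slice lemma), part F (helper217)

Coordinate slices `{p x i = c}`: charts, holomorphy, growth, level data restrict.
-/

set_option autoImplicit false
set_option linter.unusedSectionVars false

open Set Filter Topology Metric InnerProductSpace Laplacian

namespace Crest.Agent.R276.SliF_217

open Crest.Agent.R276.SliA_217 Crest.Agent.R276.SliB_217 Crest.Agent.R276.SliC_217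
  Crest.Agent.R276.SliD_217 Crest.Agent.R276.SliE_217 Crest.Agent.R276.Ahl_25
  Crest.Agent.R276.MaxP_25

variable {d : ℕ} {E : Type*} [TopologicalSpace E]

/-- insertion of the coordinate `c` at the place `i` -/
def ins (i : Fin (d + 1)) (c : ℂ) (z : Fin d → ℂ) : Fin (d + 1) → ℂ :=
  Fin.insertNth (α := fun _ => ℂ) i c z

@[simp] theorem ins_same (i : Fin (d + 1)) (c : ℂ) (z : Fin d → ℂ) : ins i c z i = c := by
  simp [ins]

@[simp] theorem ins_succAbove (i : Fin (d + 1)) (c : ℂ) (z : Fin d → ℂ) (l : Fin d) :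
    ins i c z (i.succAbove l) = z l := by
  simp [ins]

theorem ins_eq {i : Fin (d + 1)} {c : ℂ} {z : Fin d → ℂ} {y : Fin (d + 1) → ℂ} (h1 : y i = c)
    (h2 : ∀ l, y (i.succAbove l) = z l) : ins i c z = y := by
  funext j
  rcases Fin.eq_self_or_eq_succAbove i j with h | ⟨l, h⟩
  · rw [h, ins_same, h1]
  · rw [h, ins_succAbove, h2]

theorem ins_add_smul (i : Fin (d + 1)) (c : ℂ) (z w : Fin d → ℂ) (t : ℂ) :
    ins i c (z + t • w) = ins i c z + t • ins i 0 w := by
  apply ins_eq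
  · simp
  · intro l; simp

theorem continuous_ins (i : Fin (d + 1)) (c : ℂ) : Continuous (ins (d := d) i c) := by
  refine continuous_pi fun j => ?_
  rcases Fin.eq_self_or_eq_succAbove i j with h | ⟨l, h⟩
  · subst h; simpa using continuous_const
  · subst h; simpa using continuous_apply l

theorem differentiable_ins (i : Fin (d + 1)) (c : ℂ) : Differentiable ℂ (ins (d := d) i c) := by
  intro z
  rw [differentiableAt_pi]
  intro j
  rcases Fin.eq_self_or_eq_succAbove i j with h | ⟨l, h⟩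
  · subst h; simp
  · subst h; simpa using differentiableAt_apply l z

theorem contDiff_ins (i : Fin (d + 1)) (c : ℂ) {n : ℕ∞} : ContDiff ℝ n (ins (d := d) i c) := by
  rw [contDiff_pi]
  intro j
  rcases Fin.eq_self_or_eq_succAbove i j with h | ⟨l, h⟩
  · subst h; simpa using contDiff_const
  · subst h; simpa using contDiff_apply ℝ ℂ l

/-- the coordinate slice -/
abbrev Sl (p : E → (Fin (d + 1) → ℂ)) (i : Fin (d + 1)) (c : ℂ) : Type _ := {x : E // p x i = c}

/-- the remaining coordinates on the slice -/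
def pS (p : E → (Fin (d + 1) → ℂ)) (i : Fin (d + 1)) (c : ℂ) : Sl p i c → (Fin d → ℂ) :=
  fun x l => p x.1 (i.succAbove l)

variable {p : E → (Fin (d + 1) → ℂ)} {i : Fin (d + 1)} {c : ℂ}

theorem ins_pS (x : Sl p i c) : ins i c (pS p i c x) = p x.1 := ins_eq x.2 fun _ => rfl

theorem continuous_pS (hp : Continuous p) : Continuous (pS p i c) :=
  continuous_pi fun l => (continuous_apply (i.succAbove l)).comp (hp.comp continuous_subtype_val)

open Classical in
/-- the chart of the slice induced by a chart of `E` -/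
noncomputable def chS (hp : Continuous p) (e : OpenPartialHomeomorph E (Fin (d + 1) → ℂ))
    (he : (⇑e : E → (Fin (d + 1) → ℂ)) = p) (x0 : Sl p i c) :
    OpenPartialHomeomorph (Sl p i c) (Fin d → ℂ) where
  toFun := pS p i c
  invFun z := if h : p (e.symm (ins i c z)) i = c then ⟨e.symm (ins i c z), h⟩ else x0
  source := {x | x.1 ∈ e.source}
  target := {z | ins i c z ∈ e.target}
  map_source' := by
    intro x hx
    simp only [mem_ofPred_eq, ins_pS]
    exact p_mem he hx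
  map_target' := by
    intro z hz
    have h : p (e.symm (ins i c z)) i = c := by rw [p_symm he hz]; simp
    simp only [mem_ofPred_eq, dif_pos h]
    exact e.map_target hz
  left_inv' := by
    intro x hx
    have h1 : e.symm (ins i c (pS p i c x)) = x.1 := by rw [ins_pS]; exact symm_p he hx
    have h : p (e.symm (ins i c (pS p i c x))) i = c := by rw [h1]; exact x.2
    rw [dif_pos h]
    exact Subtype.ext h1
  right_inv' := by
    intro z hz
    have h : p (e.symm (ins i c z)) i = c := by rw [p_symm he hz]; simp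
    rw [dif_pos h]
    funext l
    simp only [pS]
    rw [p_symm he hz]; simp
  open_source := e.open_source.preimage continuous_subtype_val
  open_target := e.open_target.preimage (continuous_ins i c)
  continuousOn_toFun := (continuous_pS hp).continuousOn
  continuousOn_invFun := by
    rw [IsEmbedding.subtypeVal.continuousOn_iff]
    have h1 : ContinuousOn (fun z => e.symm (ins i c z)) {z | ins i c z ∈ e.target} :=
      e.continuousOn_symm.comp (continuous_ins i c).continuousOn fun z hz => hz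
    refine h1.congr fun z hz => ?_
    have h : p (e.symm (ins i c z)) i = c := by rw [p_symm he hz]; simp
    simp only [Function.comp_apply, dif_pos h]

theorem chS_coe (hp : Continuous p) (e : OpenPartialHomeomorph E (Fin (d + 1) → ℂ))
    (he : (⇑e : E → (Fin (d + 1) → ℂ)) = p) (x0 : Sl p i c) :
    (⇑(chS hp e he x0) : Sl p i c → (Fin d → ℂ)) = pS p i c := rfl

theorem chS_symm (hp : Continuous p) (e : OpenPartialHomeomorph E (Fin (d + 1) → ℂ))
    (he : (⇑e : E → (Fin (d + 1) → ℂ)) = p) (x0 : Sl p i c) {z : Fin d → ℂ}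
    (hz : ins i c z ∈ e.target) : ((chS hp e he x0).symm z).1 = e.symm (ins i c z) := by
  have h : p (e.symm (ins i c z)) i = c := by rw [p_symm he hz]; simp
  change (dite (p (e.symm (ins i c z)) i = c) _ _ : Sl p i c).1 = _
  rw [dif_pos h]

theorem isLocalHomeomorph_pS (hp : IsLocalHomeomorph p) : IsLocalHomeomorph (pS p i c) := by
  intro x
  obtain ⟨e, hx, he⟩ := exists_ch hp x.1
  exact ⟨chS hp.continuous e he x, hx, rfl⟩

/-- any chart of the slice is given by the charts of `E` -/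
theorem symm_germ (hp : IsLocalHomeomorph p) {e : OpenPartialHomeomorph E (Fin (d + 1) → ℂ)}
    (he : (⇑e : E → (Fin (d + 1) → ℂ)) = p) {e' : OpenPartialHomeomorph (Sl p i c) (Fin d → ℂ)}
    (he' : (⇑e' : Sl p i c → (Fin d → ℂ)) = pS p i c) {x : Sl p i c} (hx : x.1 ∈ e.source)
    (hx' : x ∈ e'.source) :
    ∀ᶠ z in 𝓝 (pS p i c x), (e'.symm z).1 = e.symm (ins i c z) := by
  have h1 := germ he' (chS_coe hp.continuous e he x) hx' (show x ∈ (chS hp.continuous e he x).source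
    from hx)
  have h2 : ∀ᶠ z in 𝓝 (pS p i c x), ins i c z ∈ e.target := by
    apply (continuous_ins i c).continuousAt.eventually_mem
    rw [ins_pS]
    exact e.open_target.mem_nhds (p_mem he hx)
  filter_upwards [h1, h2] with z hz1 hz2
  rw [hz1, chS_symm hp.continuous e he x hz2]

theorem HolP.slice (hp : IsLocalHomeomorph p) {f : E → ℂ} (hf : HolP p f) :
    HolP (pS p i c) (fun x : Sl p i c => f x.1) := by
  apply HolP.of_local
  intro x
  obtain ⟨e, hx, he⟩ := exists_ch hp x.1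
  refine ⟨chS hp.continuous e he x, hx, rfl, ?_⟩
  have h1 : DifferentiableAt ℂ (f ∘ e.symm) (ins i c (pS p i c x)) := by
    rw [ins_pS]; exact hf.diffAt he (p_mem he hx)
  have h2 := h1.comp (pS p i c x) (differentiable_ins i c (pS p i c x))
  refine h2.congr_of_eventuallyEq ?_
  have h3 : ∀ᶠ z in 𝓝 (pS p i c x), ins i c z ∈ e.target := by
    apply (continuous_ins i c).continuousAt.eventually_mem
    rw [ins_pS]
    exact e.open_target.mem_nhds (p_mem he hx)
  filter_upwards [h3] with z hz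
  simp only [Function.comp_apply]
  rw [chS_symm hp.continuous e he x hz]

theorem GG_slice (x : Sl p i c) : GG p x.1 = (1 + ‖c‖ ^ 2) * GG (pS p i c) x := by
  unfold GG
  rw [Fin.prod_univ_succAbove _ i, x.2]
  rfl

theorem PP_slice (A : ℤ) (x : Sl p i c) :
    PP p (fun _ => A) x.1 = (1 + ‖c‖ ^ 2) ^ A * PP (pS p i c) (fun _ => A) x := by
  unfold PP
  rw [Fin.prod_univ_succAbove _ i, x.2]
  rfl

theorem Gr.slice {hh : E → ℂ} {τ : E → ℝ} {k : ℕ} {A : ℤ} {B : ℕ} {f : E → ℂ}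
    (hf : Gr p hh τ k (fun _ => A) B f) :
    Gr (pS p i c) (fun x : Sl p i c => hh x.1) (fun x => τ x.1) k (fun _ => A) B
      (fun x => f x.1) := by
  obtain ⟨C, hC⟩ := hf
  refine ⟨C * (1 + ‖c‖ ^ 2) ^ A, fun x => ?_⟩
  have := hC x.1
  rw [PP_slice A x, ← mul_assoc] at this
  exact this

open Classical in
/-- the section of a disc in the slice -/
theorem Disc.slice {hh : E → ℂ} {τ : E → ℝ} {K : ℝ} {x : Sl p i c} {l : Fin d} {r : ℝ}
    {s : ℂ → E} {ℓ : ℂ → ℂ} (hD : Disc p hh τ K x.1 (i.succAbove l) r s ℓ) :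
    Disc (pS p i c) (fun x : Sl p i c => hh x.1) (fun x => τ x.1) K x l r
      (fun ζ => if h : p (s ζ) i = c then ⟨s ζ, h⟩ else x) ℓ := by
  have hin : ∀ ζ ∈ closedBall (0 : ℂ) r, p (s ζ) i = c := by
    intro ζ hζ
    rw [hD.ps ζ hζ]
    simp [x.2]
  have hval : ∀ ζ ∈ closedBall (0 : ℂ) r,
      ((if h : p (s ζ) i = c then ⟨s ζ, h⟩ else x : Sl p i c)).1 = s ζ := by
    intro ζ hζ
    rw [dif_pos (hin ζ hζ)]
  have h0 : (0 : ℂ) ∈ closedBall (0 : ℂ) r := mem_closedBall_self hD.r0.le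
  refine ⟨hD.r0, hD.r1, ?_, ?_, ?_, ?_, hD.ld, hD.l0, ?_⟩
  · rw [IsEmbedding.subtypeVal.continuousOn_iff]
    refine hD.cont.congr fun ζ hζ => ?_
    simp only [Function.comp_apply, hval ζ hζ]
  · apply Subtype.ext
    rw [hval 0 h0, hD.s0]
  · intro ζ hζ
    funext j
    simp only [pS]
    rw [hval ζ hζ, hD.ps ζ hζ]
    simp only [Pi.add_apply, Pi.smul_apply, smul_eq_mul]
    congr 2
    by_cases hj : j = l
    · subst hj; simp
    · rw [Pi.single_eq_of_ne hj, Pi.single_eq_of_ne]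
      exact fun h => hj (Fin.succAbove_right_injective h)
  · intro ζ hζ
    have := hD.Hs ζ hζ
    unfold Hm at this ⊢
    simp only [hval ζ hζ]
    exact this
  · intro ζ hζ
    have := hD.ls ζ hζ
    simp only [hval ζ hζ]
    exact this

/-- the linear part of `ins` -/
def insL (i : Fin (d + 1)) : (Fin d → ℂ) →ₗ[ℂ] (Fin (d + 1) → ℂ) where
  toFun := ins i 0
  map_add' x y := by
    apply ins_eq
    · simp
    · intro l; simp
  map_smul' t x := by
    apply ins_eq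
    · simp
    · intro l; simp

theorem insL_inj (i : Fin (d + 1)) : Function.Injective (insL (d := d) i) := by
  intro x y h
  funext l
  have := congrFun h (i.succAbove l)
  simpa [insL] using this

theorem finrank_comap_insL (i : Fin (d + 1)) (N : Submodule ℂ (Fin (d + 1) → ℂ)) :
    Module.finrank ℂ N ≤ Module.finrank ℂ (N.comap (insL i)) + 1 := by
  have h1 : Module.finrank ℂ (N.comap (insL i)) =
      Module.finrank ℂ (LinearMap.range (insL (d := d) i) ⊓ N : Submodule ℂ _) := by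
    rw [← Submodule.map_comap_eq]
    exact (Submodule.equivMapOfInjective (insL i) (insL_inj i) _).finrank_eq
  have h2 := Submodule.finrank_sup_add_finrank_inf_eq (LinearMap.range (insL (d := d) i)) N
  have h3 : Module.finrank ℂ (LinearMap.range (insL (d := d) i)) = d := by
    rw [LinearMap.finrank_range_of_inj (insL_inj i)]; simp
  have h4 : Module.finrank ℂ (LinearMap.range (insL (d := d) i) ⊔ N : Submodule ℂ _) ≤ d + 1 := by
    have := Submodule.finrank_le (LinearMap.range (insL (d := d) i) ⊔ N)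
    simpa using this
  omega

theorem cpt_slice (hp : Continuous p) {hh : E → ℂ}
    (hc : ∀ R δ : ℝ, 0 < δ → IsCompact {x | (∀ i, ‖p x i‖ ≤ R) ∧ δ ≤ ‖hh x‖}) (R δ : ℝ)
    (hδ : 0 < δ) : IsCompact {x : Sl p i c | (∀ l, ‖pS p i c x l‖ ≤ R) ∧ δ ≤ ‖hh x.1‖} := by
  have hcl : IsClosed {x : E | p x i = c} :=
    isClosed_eq ((continuous_apply i).comp hp) continuous_const
  have h1 : IsClosedEmbedding (Subtype.val : Sl p i c → E) := hcl.isClosedEmbedding_subtypeVal
  rcases le_or_gt ‖c‖ R with hR | hR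
  · have h2 := h1.isCompact_preimage (hc R δ hδ)
    convert h2 using 1
    ext x
    simp only [mem_ofPred_eq, mem_preimage]
    constructor
    · rintro ⟨h3, h4⟩
      refine ⟨fun j => ?_, h4⟩
      rcases Fin.eq_self_or_eq_succAbove i j with h | ⟨l, h⟩
      · rw [h, x.2]; exact hR
      · rw [h]; exact h3 l
    · rintro ⟨h3, h4⟩
      exact ⟨fun l => h3 _, h4⟩
  · have h2 := h1.isCompact_preimage (hc ‖c‖ δ hδ)
    have hclo : IsClosed {x : Sl p i c | ∀ l, ‖pS p i c x l‖ ≤ R} := by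
      rw [ofPred_forall]
      refine isClosed_iInter fun l => isClosed_le ?_ continuous_const
      exact ((continuous_apply l).comp (continuous_pS hp)).norm
    have h3 := h2.inter_left hclo
    convert h3 using 1
    ext x
    simp only [mem_ofPred_eq, mem_preimage, mem_inter_iff]
    constructor
    · rintro ⟨h4, h5⟩
      refine ⟨h4, fun j => ?_, h5⟩
      rcases Fin.eq_self_or_eq_succAbove i j with h | ⟨l, h⟩
      · rw [h, x.2]
      · rw [h]; exact (h4 l).trans hR.le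
    · rintro ⟨h4, -, h5⟩
      exact ⟨h4, h5⟩

/-- level data restrict to coordinate slices -/
theorem LD.slice {hh : E → ℂ} {η τ : E → ℝ} {a b ρ : ℕ} (hL : LD p hh η τ a b ρ)
    (i : Fin (d + 1)) (c : ℂ) :
    LD (pS p i c) (fun x : Sl p i c => hh x.1) (fun x => η x.1) (fun x => τ x.1) a b ρ := by
  have hc1 : (0 : ℝ) < 1 + ‖c‖ ^ 2 := by positivity
  have hgerm : ∀ (x : Sl p i c) (e' : OpenPartialHomeomorph (Sl p i c) (Fin d → ℂ)),
      (⇑e' : Sl p i c → (Fin d → ℂ)) = pS p i c → x ∈ e'.source →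
      ∃ e : OpenPartialHomeomorph E (Fin (d + 1) → ℂ), x.1 ∈ e.source ∧
        (⇑e : E → (Fin (d + 1) → ℂ)) = p ∧
        ∀ᶠ z in 𝓝 (pS p i c x), (e'.symm z).1 = e.symm (ins i c z) := by
    intro x e' he' hx'
    obtain ⟨e, hx, he⟩ := exists_ch hL.lh x.1
    exact ⟨e, hx, he, symm_germ hL.lh he he' hx hx'⟩
  refine
    { lh := isLocalHomeomorph_pS hL.lh
      hol := HolP.slice hL.lh hL.hol
      ne := fun x => hL.ne x.1
      hgr := ?_
      cpt := fun R δ hδ => cpt_slice hL.lh.continuous hL.cpt R δ hδ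
      disc := ?_
      eta_pos := fun x => hL.eta_pos x.1
      eta_le := ?_
      eta_C2 := ?_
      null := ?_ }
  · obtain ⟨C, hC⟩ := hL.hgr
    refine ⟨C * (1 + ‖c‖ ^ 2) ^ b, fun x => ?_⟩
    have := hC x.1
    rw [GG_slice x, mul_pow, ← mul_assoc] at this
    exact this
  · obtain ⟨c0, K, hc0, hK, hd⟩ := hL.disc
    refine ⟨c0 / (1 + ‖c‖ ^ 2) ^ a, K, by positivity, hK, fun x l => ?_⟩
    obtain ⟨r, s, ℓ, hD, hr⟩ := hd x.1 (i.succAbove l)
    refine ⟨r, _, ℓ, Disc.slice hD, ?_⟩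
    rw [GG_slice x, mul_pow] at hr
    have h1 : c0 / (1 + ‖c‖ ^ 2) ^ a * Hm (fun x : Sl p i c => hh x.1) x ^ a =
        c0 * Hm hh x.1 ^ a / (1 + ‖c‖ ^ 2) ^ a := by
      unfold Hm; ring
    rw [h1, div_le_iff₀ (by positivity)]
    calc c0 * Hm hh x.1 ^ a ≤ r * ((1 + ‖c‖ ^ 2) ^ a * GG (pS p i c) x ^ a) := hr
      _ = _ := by ring
  · obtain ⟨C, hC⟩ := hL.eta_le
    exact ⟨C, fun x => hC x.1⟩
  · intro x e' he' hx'
    obtain ⟨e, hx, he, hg⟩ := hgerm x e' he' hx'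
    have h1 : ContDiffAt ℝ 2 (η ∘ e.symm) (ins i c (pS p i c x)) := by
      rw [ins_pS]; exact hL.eta_C2 x.1 e he hx
    have h2 := h1.comp (pS p i c x) (contDiff_ins (n := 2) i c).contDiffAt
    refine h2.congr_of_eventuallyEq ?_
    filter_upwards [hg] with z hz
    simp only [Function.comp_apply, hz]
  · intro x e' he' hx'
    obtain ⟨e, hx, he, hg⟩ := hgerm x e' he' hx'
    obtain ⟨N, hN, hNw⟩ := hL.null x.1 e he hx
    refine ⟨N.comap (insL i), ?_, ?_⟩
    · have := finrank_comap_insL i N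
      omega
    · intro w hw
      have h1 := hNw (insL i w) hw
      have hsx : e.symm (p x.1) = x.1 := symm_p he hx
      have hc2 : ContDiffAt ℝ 2 (fun z => Real.log (η (e.symm z))) (p x.1) := by
        refine ContDiffAt.log (hL.eta_C2 x.1 e he hx) ?_
        simpa [hsx] using (hL.eta_pos x.1).ne'
      have hgg : (fun z => Real.log (η (e'.symm z).1)) =ᶠ[𝓝 (pS p i c x)]
          fun z => Real.log (η (e.symm (ins i c z))) := by
        filter_upwards [hg] with z hz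
        rw [hz]
      have hc3 : ContDiffAt ℝ 2 (fun z => Real.log (η (e'.symm z).1)) (pS p i c x) := by
        have h2 : ContDiffAt ℝ 2 (fun z => Real.log (η (e.symm z))) (ins i c (pS p i c x)) := by
          rw [ins_pS]; exact hc2
        exact (h2.comp (pS p i c x) (contDiff_ins (n := 2) i c).contDiffAt).congr_of_eventuallyEq hgg
      have h3 := lap_cline (u := fun z => Real.log (η (e'.symm z).1)) (z := pS p i c x) (v := w)
        (t := 0) (by simpa using hc3)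
      have h4 := lap_cline (u := fun z => Real.log (η (e.symm z))) (z := p x.1) (v := insL i w)
        (t := 0) (by simpa using hc2)
      simp only [zero_smul, add_zero] at h3 h4
      rw [← h3]
      rw [← h4] at h1
      have h5 : (fun t : ℂ => Real.log (η (e'.symm (pS p i c x + t • w)).1)) =ᶠ[𝓝 0]
          fun t : ℂ => Real.log (η (e.symm (p x.1 + t • insL i w))) := by
        have h6 : ContinuousAt (fun t : ℂ => pS p i c x + t • w) 0 := by fun_prop
        have h7 : Tendsto (fun t : ℂ => pS p i c x + t • w) (𝓝 0) (𝓝 (pS p i c x)) := by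
          simpa using h6.tendsto
        filter_upwards [h7.eventually hg] with t ht
        rw [ht, ins_add_smul, ins_pS]
        rfl
      rw [(laplacian_congr_nhds h5).self_of_nhds]
      exact h1

end Crest.Agent.R276.SliF_217
end

-- ▼ part R276/SliG_217

/-!
# R276, leaf CNT-UP (slice lemma), part G (helper217)

Dimension count: a space of holomorphic functions of growth `A, B` has dimension at most
`(d J)^(d - ρ) D` if its restrictions to the `ρ`-dimensional coordinate slices have dimension at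
most `D`.
-/

set_option autoImplicit false
set_option linter.unusedSectionVars false

open Set Filter Topology Metric Module

namespace Crest.Agent.R276.SliG_217

open Crest.Agent.R276.SliA_217 Crest.Agent.R276.SliC_217 Crest.Agent.R276.SliE_217
  Crest.Agent.R276.SliF_217

/-- `V` is finite dimensional of dimension at most `n` -/
def Bd {X : Type*} [AddCommGroup X] [Module ℂ X] (V : Submodule ℂ X) (n : ℕ) : Prop :=
  FiniteDimensional ℂ V ∧ finrank ℂ V ≤ n

section Bd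

variable {X Y : Type*} [AddCommGroup X] [Module ℂ X] [AddCommGroup Y] [Module ℂ Y]

theorem Bd.map {V : Submodule ℂ X} {n : ℕ} (h : Bd V n) (T : X →ₗ[ℂ] Y) : Bd (V.map T) n := by
  have := h.1
  exact ⟨inferInstance, (Submodule.finrank_map_le T V).trans h.2⟩

theorem Bd.mono {V W : Submodule ℂ X} {n : ℕ} (h : Bd W n) (hVW : V ≤ W) : Bd V n := by
  have := h.1
  exact ⟨Submodule.finiteDimensional_of_le hVW, (Submodule.finrank_mono hVW).trans h.2⟩

theorem Bd.le {V : Submodule ℂ X} {n m : ℕ} (h : Bd V n) (hnm : n ≤ m) : Bd V m :=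
  ⟨h.1, h.2.trans hnm⟩


theorem Bd.of_map_injective {V : Submodule ℂ X} {n : ℕ} {T : X →ₗ[ℂ] Y} (h : Bd (V.map T) n)
    (hT : ∀ f ∈ V, T f = 0 → f = 0) : Bd V n := by
  have := h.1
  have hinj : Function.Injective (T.submoduleMap V) := by
    rw [injective_iff_map_eq_zero]
    intro f hf
    have h1 : T f.1 = 0 := congrArg Subtype.val hf
    exact Subtype.ext (hT f.1 f.2 h1)
  exact ⟨FiniteDimensional.of_injective _ hinj,
    (LinearMap.finrank_le_finrank_of_injective hinj).trans h.2⟩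

theorem Bd.of_pi {ι : Type*} [Fintype ι] {Z : ι → Type*} [∀ j, AddCommGroup (Z j)]
    [∀ j, Module ℂ (Z j)] {V : Submodule ℂ X} {n : ℕ} (T : ∀ j, X →ₗ[ℂ] Z j)
    (h : ∀ j, Bd (V.map (T j)) n) (hT : ∀ f ∈ V, (∀ j, T j f = 0) → f = 0) :
    Bd V (Fintype.card ι * n) := by
  have hfd : ∀ j, FiniteDimensional ℂ (V.map (T j)) := fun j => (h j).1
  set Φ : V →ₗ[ℂ] (∀ j, V.map (T j)) := LinearMap.pi fun j => (T j).submoduleMap V with hΦ
  have hinj : Function.Injective Φ := by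
    rw [injective_iff_map_eq_zero]
    intro f hf
    refine Subtype.ext (hT f.1 f.2 fun j => ?_)
    have h1 := congrFun hf j
    exact congrArg Subtype.val h1
  refine ⟨FiniteDimensional.of_injective _ hinj, ?_⟩
  calc finrank ℂ V ≤ finrank ℂ (∀ j, V.map (T j)) := LinearMap.finrank_le_finrank_of_injective hinj
    _ = ∑ j, finrank ℂ (V.map (T j)) := finrank_pi_fintype ℂ
    _ ≤ ∑ _j : ι, n := Finset.sum_le_sum fun j _ => (h j).2
    _ = Fintype.card ι * n := by simp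

end Bd

/-- the coordinate slice `{x | ∀ i ∈ I, p x i = m i}` -/
def SS {d : ℕ} {E : Type*} (p : E → (Fin d → ℂ)) (I : Finset (Fin d)) (m : Fin d → ℕ) : Set E :=
  {x | ∀ i ∈ I, p x i = (m i : ℂ)}

/-- restriction of functions to a set -/
noncomputable def res {E : Type*} (S : Set E) : (E → ℂ) →ₗ[ℂ] (S → ℂ) :=
  LinearMap.funLeft ℂ ℂ (Subtype.val : S → E)

/-- restriction of functions to the slice -/
noncomputable def resS {d : ℕ} {E : Type*} (p : E → (Fin (d + 1) → ℂ)) (i : Fin (d + 1)) (c : ℂ) :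
    (E → ℂ) →ₗ[ℂ] (Sl p i c → ℂ) :=
  LinearMap.funLeft ℂ ℂ (Subtype.val : Sl p i c → E)

/-- restrictions to slices of slices -/
theorem bd_slice {d : ℕ} {E : Type*} {p : E → (Fin (d + 1) → ℂ)} {i : Fin (d + 1)}
    {c : ℕ} {V : Submodule ℂ (E → ℂ)} {D : ℕ} {I' : Finset (Fin d)} {m' : Fin d → ℕ}
    {I : Finset (Fin (d + 1))} {m : Fin (d + 1) → ℕ} (hI : ∀ j ∈ I, j = i ∨ ∃ l ∈ I', j = i.succAbove l)
    (hmi : m i = c) (hm : ∀ l, m (i.succAbove l) = m' l) (h : Bd (V.map (res (SS p I m))) D) :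
    Bd ((V.map (resS p i c)).map (res (SS (pS p i c) I' m'))) D := by
  have hσ : ∀ x : SS (pS p i (c : ℂ)) I' m', x.1.1 ∈ SS p I m := by
    intro x j hj
    rcases hI j hj with h1 | ⟨l, hl, h1⟩
    · rw [h1, hmi]; exact x.1.2
    · rw [h1, hm]; exact x.2 l hl
  have h2 := h.map (LinearMap.funLeft ℂ ℂ
    (fun x : SS (pS p i (c : ℂ)) I' m' => (⟨x.1.1, hσ x⟩ : SS p I m)))
  rw [← Submodule.map_comp] at h2 ⊢
  exact h2

/-- **counting theorem (upper bound)** -/
theorem up (n : ℕ) : ∀ {d : ℕ} {E : Type*} [TopologicalSpace E] {p : E → (Fin d → ℂ)} {hh : E → ℂ}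
    {η τ : E → ℝ} {a b ρ : ℕ}, LD p hh η τ a b ρ → d = ρ + n → ∀ {k B J D : ℕ} {A : ℤ},
    A + 2 * a * d + b * (B + 2 * a * d + 1) + 2 ≤ J → ∀ V : Submodule ℂ (E → ℂ),
    (∀ f ∈ V, HolP p f ∧ Gr p hh τ k (fun _ => A) B f) →
    (∀ I : Finset (Fin d), I.card = n → ∀ m : Fin d → ℕ, (∀ i ∈ I, m i < J) →
      Bd (V.map (res (SS p I m))) D) → Bd V ((d * J) ^ n * D) := by
  induction n with
  | zero =>
    intro d E _ p hh η τ a b ρ hL hd k B J D A hJ V hV hD
    have h1 := hD ∅ rfl (fun _ => 0) (by simp)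
    have h2 : Bd V D := by
      apply h1.of_map_injective
      intro f _ hf
      funext x
      have : x ∈ SS p ∅ (fun _ => 0) := by intro i hi; simp at hi
      exact congrFun hf ⟨x, this⟩
    exact h2.le (by simp)
  | succ n ih =>
    intro d E _ p hh η τ a b ρ hL hd k B J D A hJ V hV hD
    obtain ⟨d', rfl⟩ : ∃ d', d = d' + 1 := ⟨ρ + n, by omega⟩
    have hd' : d' = ρ + n := by omega
    have hJ' : A + 2 * a * d' + b * (B + 2 * a * d' + 1) + 2 ≤ (J : ℤ) := by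
      refine le_trans ?_ hJ
      push_cast
      have h1 : (0 : ℤ) ≤ (a : ℤ) := Int.natCast_nonneg a
      have h2 : (0 : ℤ) ≤ (b : ℤ) := Int.natCast_nonneg b
      have h3 : (0 : ℤ) ≤ (b : ℤ) * a := mul_nonneg h2 h1
      nlinarith
    have key : ∀ j : Fin (d' + 1) × Fin J,
        Bd (V.map (resS p j.1 ((j.2 : ℕ) : ℂ))) ((d' * J) ^ n * D) := by
      rintro ⟨i, c⟩
      refine ih (LD.slice hL i ((c : ℕ) : ℂ)) hd' (k := k) (B := B) (A := A) hJ' _ ?_ ?_
      · intro g hg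
        obtain ⟨f, hf, rfl⟩ := Submodule.mem_map.1 hg
        exact ⟨HolP.slice hL.lh (hV f hf).1, Gr.slice (hV f hf).2⟩
      · intro I' hI' m' hm'
        refine bd_slice (I := insert i (I'.map i.succAboveEmb)) (m := Fin.insertNth
          (α := fun _ => ℕ) i (c : ℕ) m') ?_ (by simp) (by simp) (hD _ ?_ _ ?_)
        · intro j hj
          rw [Finset.mem_insert, Finset.mem_map] at hj
          rcases hj with h | ⟨l, hl, h⟩
          · exact Or.inl h
          · exact Or.inr ⟨l, hl, h.symm⟩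
        · rw [Finset.card_insert_of_notMem, Finset.card_map, hI']
          rw [Finset.mem_map]
          rintro ⟨l, -, h⟩
          exact Fin.succAbove_ne i l h
        · intro j hj
          rw [Finset.mem_insert, Finset.mem_map] at hj
          rcases hj with h | ⟨l, hl, h⟩
          · rw [h]; simp
          · rw [← h]; simpa using hm' l hl
    have h1 := Bd.of_pi (V := V) (fun j : Fin (d' + 1) × Fin J => resS p j.1 ((j.2 : ℕ) : ℂ)) key (by
      intro f hf h0
      have h2 := level hL (by omega) (hV f hf).1 (hV f hf).2 hJ (by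
        intro i m hm x hx
        exact congrFun (h0 (i, ⟨m, hm⟩)) ⟨x, hx⟩)
      exact funext h2)
    refine h1.le ?_
    rw [Fintype.card_prod, Fintype.card_fin, Fintype.card_fin, pow_succ, ← mul_assoc]
    have h3 : (d' * J) ^ n ≤ ((d' + 1) * J) ^ n := Nat.pow_le_pow_left
      (Nat.mul_le_mul_right J (Nat.le_succ d')) n
    calc (d' + 1) * J * (d' * J) ^ n * D ≤ (d' + 1) * J * ((d' + 1) * J) ^ n * D := by gcongr
      _ = ((d' + 1) * J) ^ n * ((d' + 1) * J) * D := by ring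

section alg

open MvPolynomial



end alg

end Crest.Agent.R276.SliG_217
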