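import Mathlib
import Crest.Agent.R276.SkelDefs_220
import Crest.Agent.R276.CntB_857
import Crest.Agent.R276.BC4_986
import Crest.Agent.R276.Mod4_987
import Crest.Agent.R276.CntDefs_857
import Crest.Agent.R276.SliH_217
import Crest.Agent.R276.SliG_217
import Crest.Agent.R276.CntLow2_804
import Crest.Agent.R276.CntD_857
import Crest.Agent.R276.C4LocB_327
import Crest.Agent.R276.EndC2_723

-- ▼ part R276/C4GDefs_804
section

/-!
# R276, leaf C4-GLUE (helper804): the inputs of `SkelDefs_220.C4`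

`DLog` : two-sided bounds of the CY norm `D` on tower charts (the exponent may depend on the chart).
`CD`   : the counting data along one divisorial valuation ring `R` of `K` with `R ∩ T ≠ T`.
-/

set_option autoImplicit false

open Set Filter Topology MeasureTheory

noncomputable section

namespace Crest.Agent.R276.C4GDefs_804

open Crest.Agent.R271 Crest.Agent.R271.Rd692 Crest.Agent.R271.Ho51
open Crest.Agent.R271.Defs710 hiding glue
open Crest.Agent.R276.Mod1_987 Crest.Agent.R276.FKDefs_779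
open Crest.Agent.R276.BC_986 (DivModel)
open Crest.Agent.R276.CntDefs_857 Crest.Agent.R276.CntB_857
open Crest.Agent.R276.SkelDefs_220 hiding ModelOf

section dlog

variable {T L K : Type} [Field T] [Field L] [Field K] [Algebra ℂ T] [Algebra ℂ L] [Algebra ℂ K]
  [Algebra T L] [Algebra L K] [IsScalarTower ℂ T L] [IsScalarTower ℂ L K] {ρ a r : ℕ}
  {MT : Mdl T ρ} {ML : Mdl L (ρ + a)} {MK : Mdl K (ρ + a + r)}


end dlog

section cd

variable {T L K : Type} [Field T] [Field L] [Field K] [Algebra ℂ T] [Algebra ℂ L] [Algebra ℂ K]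
  [Algebra T L] [Algebra L K] {d : ℕ}

/-- the restriction of `R` to `T` -/
def RT (T : Type) {L K : Type} [Field T] [Field L] [Field K] [Algebra T L] [Algebra L K]
    (R : ValuationSubring K) : ValuationSubring T :=
  (R.comap (algebraMap L K)).comap (algebraMap T L)

/-- counting data for the weights `φ`, `ψ` of `M_T` along `R`, `R ∩ T ≠ T` -/
structure CD (MT : Mdl T (d + 1)) (μ : Measure MT.Pts)
    (φ ψ : MT.Pts → ℝ) (ν : ℕ) (R : ValuationSubring K) where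
  /-- the divisor of the multisection and the charts of `M_T` -/
  E : Type
  [top : TopologicalSpace E]
  [rdom : RDom d E]
  D : DChart MT.Pts E μ
  k : ℤ
  /-- bad or good divisor -/
  alt : (0 < ν ∧ Nonempty (Full D φ ψ k (ν - 1)) ∧ Gen D φ ψ k 1) ∨
    (Nonempty (Gro D φ ψ k) ∧ Gen D φ ψ k 0)
  /-- lower bound of `ψ` near ONE point of the divisor -/
  low : ∃ (y : E) (ε C : ℝ) (N : ℕ), 0 < ε ∧ ∀ q ∈ PS d ε,
    Real.exp (-D.psI ψ k y q) ≤ C * (1 + |Real.log ‖q 0‖|) ^ N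
  /-- a model of `R ∩ T` -/
  DT : DivModel (d + 1) T
  model : DT.ModelOf (RT T (L := L) R)
  /-- `t_T = t_L^e w`, `w` regular at `R` -/
  e : ℕ
  e_pos : 0 < e
  tL : L
  tL_mem : algebraMap L K tL ∈ R
  tL_inv : (algebraMap L K tL)⁻¹ ∉ R
  ram : ∃ w : K, w ∈ R ∧
    algebraMap L K (algebraMap T L (algebraMap DT.A T DT.t)) = algebraMap L K tL ^ e * w
  /-- `dz = g dw`, `g` of order `cJ` -/
  cJ : ℤ
  ordJ : ∀ b : Module.Basis (Fin (d + 1)) T (Ω[T⁄ℂ]),
    (∀ i, b i = KaehlerDifferential.D ℂ T (MT.z i : T)) → DT.HasOrd (DT.dw.toMatrix b).det cJ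
  /-- orders of regular functions and of the Jacobian near general points of the divisor -/
  val : ∀ (f : MT.B) (m : ℤ), DT.HasOrd (f : T) m → ∃ O : Set E, IsOpen O ∧ O.Nonempty ∧
    ∀ y ∈ O, ∃ ε c C : ℝ, 0 < ε ∧ 0 < c ∧ ε ≤ D.r y ∧ ∀ q ∈ PS d ε,
      c * ‖q 0‖ ^ (e * m) ≤ ‖D.σ y q f‖ ∧ ‖D.σ y q f‖ ≤ C * ‖q 0‖ ^ (e * m) ∧
      c * ‖q 0‖ ^ (e * (cJ + 1) - 1) ≤ ‖D.J y q‖

attribute [instance] CD.top CD.rdom

end cd

end Crest.Agent.R276.C4GDefs_804
end
end

-- ▼ part R276/CntJet_691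
section

/-!
# R276, leaf CNT-JET (helper691)

`c : PCov d E`.  Holomorphic functions `f` on `E` with `‖f y‖ ≤ C * (radf h cc κ (cp y))⁻¹ ^ D` are
determined on a coordinate slice `{y | cp y i = b i, i ∈ I}` by their values at
`≤ k * (K * (D + 1) + 1) ^ (d - |I|)` points, `K` depending only on `c` and `κ`.

Proof: `S_j(w) = ∑_{cp y = w} f(y)^j` (`j = 1..k`), times `h ^ (κ D j + 1)`, extended by `0` to
`{h = 0}`, is entire on every coordinate line, of polynomial growth of degree `≤ K (D + 1)`.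
-/

set_option autoImplicit false

noncomputable section

open Set Filter Topology Metric

namespace Crest.Agent.R276.CntJet_691

open Crest.Agent.R271.Ho51 Crest.Agent.R276.CntDefs_857

/-! ### one variable -/

/-- derivatives of high order of an entire function of polynomial growth vanish -/
lemma iteratedDeriv_eq_zero {u : ℂ → ℂ} (hu : Differentiable ℂ u) {A : ℝ} {M : ℕ}
    (hg : ∀ t, ‖u t‖ ≤ A * (1 + ‖t‖) ^ M) {n : ℕ} (hn : M < n) : iteratedDeriv n u 0 = 0 := by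
  have hA : 0 ≤ A := by
    have := hg 0
    simp only [norm_zero, add_zero, one_pow, mul_one] at this
    exact (norm_nonneg _).trans this
  have key : ∀ R : ℝ, 1 ≤ R → ‖iteratedDeriv n u 0‖ ≤ (n.factorial * A * 2 ^ M) * R⁻¹ := by
    intro R hR
    have hR0 : 0 < R := by linarith
    have h1 := Complex.norm_iteratedDeriv_le_of_forall_mem_sphere_norm_le (c := 0) (n := n) (C := A * (2 * R) ^ M) hR0
      (hu.diffContOnCl (s := ball (0 : ℂ) R)) (fun z hz => by
        refine (hg z).trans ?_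
        have hz' : ‖z‖ = R := by simpa using hz
        rw [hz']
        gcongr
        linarith)
    refine h1.trans ?_
    obtain ⟨m, rfl⟩ : ∃ m, n = M + 1 + m := ⟨n - (M + 1), by omega⟩
    have h2 : (1 : ℝ) ≤ R ^ m := one_le_pow₀ hR
    rw [mul_pow, div_le_iff₀ (by positivity)]
    have h3 : R ^ (M + 1 + m) = R ^ M * R * R ^ m := by ring
    rw [h3]
    have h4 : (((M + 1 + m).factorial : ℝ) * A * 2 ^ M) * R⁻¹ * (R ^ M * R * R ^ m) =
      ((M + 1 + m).factorial : ℝ) * (A * (2 ^ M * R ^ M)) * R ^ m := by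
      field_simp
    rw [h4]
    exact le_mul_of_one_le_right (by positivity) h2
  have h0 : Tendsto (fun R : ℝ => (n.factorial * A * 2 ^ M) * R⁻¹) atTop (𝓝 0) := by
    simpa using tendsto_inv_atTop_zero.const_mul (n.factorial * A * 2 ^ M)
  have h1 : ‖iteratedDeriv n u 0‖ ≤ 0 := by
    refine ge_of_tendsto h0 ?_
    filter_upwards [eventually_ge_atTop 1] with R hR using key R hR
  simpa using h1

/-- an entire function of polynomial growth of degree `≤ M` with more than `M` zeros vanishes -/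
lemma eq_zero_of_growth {u : ℂ → ℂ} (hu : Differentiable ℂ u) {A : ℝ} {M : ℕ}
    (hg : ∀ t, ‖u t‖ ≤ A * (1 + ‖t‖) ^ M) (G : Finset ℂ) (hG : M < G.card)
    (h0 : ∀ t ∈ G, u t = 0) (t : ℂ) : u t = 0 := by
  classical
  let P : Polynomial ℂ := ∑ n ∈ Finset.range (M + 1),
    Polynomial.C ((n.factorial : ℂ)⁻¹ * iteratedDeriv n u 0) * Polynomial.X ^ n
  have hP : ∀ z, u z = P.eval z := by
    intro z
    have h1 := Complex.taylorSeries_eq_of_entire' 0 z hu
    rw [← h1, tsum_eq_sum (s := Finset.range (M + 1))]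
    · simp [P, Polynomial.eval_finsetSum]
    · intro n hn
      rw [iteratedDeriv_eq_zero hu hg (by simpa using hn)]
      simp
  have hdeg : P.natDegree < G.card := by
    refine lt_of_le_of_lt ?_ hG
    refine Polynomial.natDegree_sum_le_of_forall_le _ _ fun n hn => ?_
    refine (Polynomial.natDegree_C_mul_X_pow_le _ _).trans ?_
    have := Finset.mem_range.1 hn
    omega
  have hP0 : P = 0 := Polynomial.eq_zero_of_natDegree_lt_card_of_eval_eq_zero' P G
    (fun t ht => by rw [← hP]; exact h0 t ht) hdeg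
  rw [hP, hP0, Polynomial.eval_zero]

/-- a family of complex numbers all of whose power sums of order `1..k` vanish is zero -/
lemma eq_zero_of_psum {k : ℕ} (a : Fin k → ℂ)
    (h : ∀ j : ℕ, 1 ≤ j → j ≤ k → ∑ i, a i ^ j = 0) (i : Fin k) : a i = 0 := by
  classical
  -- the polynomial `X * R` with `R` interpolating `1/v` at the non zero values
  let s : Finset ℂ := (Finset.univ.image a).erase 0
  have hs : s.card ≤ k := by
    refine (Finset.card_le_card (Finset.erase_subset _ _)).trans ?_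
    refine Finset.card_image_le.trans ?_
    simp
  let R : Polynomial ℂ := Lagrange.interpolate s id (fun v => v⁻¹)
  have hR : ∀ v ∈ s, R.eval v = v⁻¹ := fun v hv =>
    Lagrange.eval_interpolate_at_node (v := id) (r := fun v : ℂ => v⁻¹) (Set.injOn_id _) hv
  have hRd : R.natDegree < k ∨ s = ∅ := by
    by_cases hse : s = ∅
    · exact Or.inr hse
    · left
      have h1 : R.degree < s.card := Lagrange.degree_interpolate_lt _ (Set.injOn_id _)
      have hpos : 0 < s.card := Finset.card_pos.2 (Finset.nonempty_iff_ne_empty.2 hse)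
      by_cases hR0 : R = 0
      · rw [hR0]; simp; omega
      · rw [Polynomial.degree_eq_natDegree hR0] at h1
        have : R.natDegree < s.card := by exact_mod_cast h1
        omega
  rcases hRd with hRd | hse
  · have h1 : ∑ i, a i * R.eval (a i) = 0 := by
      have h2 : ∀ i, a i * R.eval (a i) = ∑ n ∈ Finset.range k, R.coeff n * a i ^ (n + 1) := by
        intro i
        rw [Polynomial.eval_eq_sum_range' hRd, Finset.mul_sum]
        refine Finset.sum_congr rfl fun n _ => by ring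
      simp only [h2]
      rw [Finset.sum_comm]
      refine Finset.sum_eq_zero fun n hn => ?_
      rw [← Finset.mul_sum, h (n + 1) (by omega) (by have := Finset.mem_range.1 hn; omega), mul_zero]
    have h3 : ∀ i, a i * R.eval (a i) = if a i = 0 then 0 else 1 := by
      intro i
      by_cases hi : a i = 0
      · simp [hi]
      · rw [if_neg hi, hR (a i) (by simp [s, hi])]
        field_simp
    simp only [h3] at h1
    rw [Finset.sum_ite] at h1
    simp only [Finset.sum_const_zero, zero_add, Finset.sum_const, nsmul_eq_mul, mul_one] at h1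
    have h4 : (Finset.univ.filter fun i => ¬ a i = 0).card = 0 := by exact_mod_cast h1
    rw [Finset.card_eq_zero, Finset.filter_eq_empty_iff] at h4
    have := h4 (Finset.mem_univ i)
    simpa using this
  · by_contra hi
    have : a i ∈ s := by simp [s, hi]
    rw [hse] at this
    simp at this

/-! ### polynomials in several variables -/

/-- polynomials have polynomial growth -/
lemma mv_growth {d : ℕ} (h : MvPolynomial (Fin d) ℂ) : ∃ B : ℝ, 1 ≤ B ∧
    ∀ w : Fin d → ℂ, ‖MvPolynomial.eval w h‖ ≤ B * (1 + ‖w‖) ^ h.totalDegree := by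
  refine ⟨1 + ∑ m ∈ h.support, ‖h.coeff m‖,
    le_add_of_nonneg_right (Finset.sum_nonneg fun _ _ => norm_nonneg _), fun w => ?_⟩
  rw [MvPolynomial.eval_eq]
  have h1 : ∀ m ∈ h.support, ‖h.coeff m * ∏ i ∈ m.support, w i ^ m i‖ ≤
      ‖h.coeff m‖ * (1 + ‖w‖) ^ h.totalDegree := by
    intro m hm
    rw [norm_mul]
    refine mul_le_mul_of_nonneg_left ?_ (norm_nonneg _)
    have h2 : ‖∏ i ∈ m.support, w i ^ m i‖ ≤ ∏ i ∈ m.support, (1 + ‖w‖) ^ m i := by
      rw [norm_prod]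
      refine Finset.prod_le_prod (fun _ _ => norm_nonneg _) fun i _ => ?_
      rw [norm_pow]
      have : ‖w i‖ ≤ ‖w‖ := norm_le_pi_norm w i
      gcongr
      linarith
    refine h2.trans ?_
    rw [Finset.prod_pow_eq_pow_sum]
    refine pow_le_pow_right₀ (by linarith [norm_nonneg w]) ?_
    exact MvPolynomial.le_totalDegree hm
  calc ‖∑ m ∈ h.support, h.coeff m * ∏ i ∈ m.support, w i ^ m i‖
      ≤ ∑ m ∈ h.support, ‖h.coeff m‖ * (1 + ‖w‖) ^ h.totalDegree :=
        norm_sum_le_of_le _ h1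
    _ = (∑ m ∈ h.support, ‖h.coeff m‖) * (1 + ‖w‖) ^ h.totalDegree := by
        rw [Finset.sum_mul]
    _ ≤ _ := by
        gcongr
        linarith

lemma norm_update_le {d : ℕ} (w : Fin d → ℂ) (i : Fin d) (t : ℂ) :
    1 + ‖Function.update w i t‖ ≤ (1 + ‖w‖) * (1 + ‖t‖) := by
  have h1 : ‖Function.update w i t‖ ≤ ‖w‖ + ‖t‖ := by
    rw [pi_norm_le_iff_of_nonneg (by positivity)]
    intro a
    by_cases ha : a = i
    · subst ha; simp
    · rw [Function.update_of_ne ha]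
      exact (norm_le_pi_norm w a).trans (by linarith [norm_nonneg t])
  have := mul_nonneg (norm_nonneg w) (norm_nonneg t)
  nlinarith

/-- the restriction of `h` to a coordinate line -/
def lin {d : ℕ} (h : MvPolynomial (Fin d) ℂ) (w : Fin d → ℂ) (i : Fin d) : Polynomial ℂ :=
  MvPolynomial.aeval (fun a => if a = i then Polynomial.X else Polynomial.C (w a)) h

lemma lin_eval {d : ℕ} (h : MvPolynomial (Fin d) ℂ) (w : Fin d → ℂ) (i : Fin d) (t : ℂ) :
    (lin h w i).eval t = MvPolynomial.eval (Function.update w i t) h := by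
  unfold lin
  rw [← Polynomial.coe_aeval_eq_eval, ← AlgHom.comp_apply, ← MvPolynomial.aeval_eq_eval]
  congr 1
  apply MvPolynomial.algHom_ext
  intro a
  simp only [AlgHom.comp_apply, MvPolynomial.aeval_X]
  by_cases ha : a = i
  · subst ha; simp
  · rw [if_neg ha, Function.update_of_ne ha]
    simp

lemma differentiable_update {d : ℕ} (w : Fin d → ℂ) (i : Fin d) :
    Differentiable ℂ (fun t : ℂ => Function.update w i t) := by
  rw [differentiable_pi]
  intro a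
  by_cases ha : a = i
  · subst ha; simp
  · simp [Function.update_of_ne ha]

/-- vanishing on a grid -/
lemma grid {d : ℕ} {g : (Fin d → ℂ) → ℂ} {M : ℕ}
    (hd : ∀ w i, Differentiable ℂ (fun t : ℂ => g (Function.update w i t)))
    (hg : ∀ w i, ∃ A : ℝ, ∀ t, ‖g (Function.update w i t)‖ ≤ A * (1 + ‖t‖) ^ M)
    (G : Finset ℂ) (hG : M < G.card) (I : Finset (Fin d)) (b : Fin d → ℂ)
    (h0 : ∀ w : Fin d → ℂ, (∀ i ∈ I, w i = b i) → (∀ i, i ∉ I → w i ∈ G) → g w = 0)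
    (w : Fin d → ℂ) (hw : ∀ i ∈ I, w i = b i) : g w = 0 := by
  classical
  have key : ∀ T : Finset (Fin d), ∀ w : Fin d → ℂ, (∀ i ∈ I, w i = b i) →
      (∀ i, i ∉ I → i ∉ T → w i ∈ G) → g w = 0 := by
    intro T
    induction T using Finset.induction_on with
    | empty =>
      intro w h1 h2
      exact h0 w h1 fun i hi => h2 i hi (by simp)
    | insert i T hi ih =>
      intro w h1 h2
      by_cases hiI : i ∈ I
      · refine ih w h1 fun a ha haT => h2 a ha ?_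
        rw [Finset.mem_insert, not_or]
        exact ⟨fun h => ha (h ▸ hiI), haT⟩
      · obtain ⟨A, hA⟩ := hg w i
        have h3 := eq_zero_of_growth (hd w i) hA G hG (fun t ht => by
          refine ih _ (fun a ha => ?_) (fun a ha haT => ?_)
          · have : a ≠ i := fun h => hiI (h ▸ ha)
            rw [Function.update_of_ne this]
            exact h1 a ha
          · by_cases hai : a = i
            · subst hai; simpa using ht
            · rw [Function.update_of_ne hai]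
              exact h2 a ha (by simp [hai, haT])) (w i)
        simpa using h3
  exact key Finset.univ w hw (fun i _ h => absurd (Finset.mem_univ i) h)

/-! ### the symmetric functions -/

section

variable {d : ℕ} {E : Type*} [TopologicalSpace E] [RDom d E]

/-- power sum over the fibre -/
def S (f : E → ℂ) (j : ℕ) (w : Fin d → ℂ) : ℂ := ∑ᶠ x ∈ (cp ⁻¹' {w} : Set E), f x ^ j

lemma fibre (c : PCov d E) {z : Fin d → ℂ} (hz : MvPolynomial.eval z c.h ≠ 0) :
    ∃ r : ℝ, 0 < r ∧ ∃ s : Fin c.k → OpenPartialHomeomorph E (Fin d → ℂ),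
      (∀ i, IsCh (s i) ∧ (s i).target = ball z r) ∧
      ∀ w ∈ ball z r, Function.Injective (fun i => (s i).symm w) ∧
        (cp ⁻¹' {w} : Set E) = range (fun i => (s i).symm w) := by
  have h1 : ∀ᶠ w in 𝓝 z, MvPolynomial.eval w c.h ≠ 0 :=
    (MvPolynomial.continuous_eval c.h).continuousAt.eventually_ne hz
  obtain ⟨r, hr, hr1⟩ := Metric.eventually_nhds_iff_ball.1 h1
  obtain ⟨s, hs1, hs2, hs3⟩ := c.ev z r hr hr1
  refine ⟨r, hr, s, hs1, fun w hw => ⟨?_, ?_⟩⟩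
  · intro i j hij
    by_contra hne
    have h2 : (s i).symm w ∈ (s i).source := (s i).map_target (by rw [(hs1 i).2]; exact hw)
    have h3 : (s j).symm w ∈ (s j).source := (s j).map_target (by rw [(hs1 j).2]; exact hw)
    have hij' : (s i).symm w = (s j).symm w := hij
    rw [hij'] at h2
    exact Set.disjoint_left.1 (hs2 i j hne) h2 h3
  · ext x
    simp only [mem_preimage, mem_singleton_iff, mem_range]
    constructor
    · rintro rfl
      have h4 : x ∈ (cp ⁻¹' ball z r : Set E) := hw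
      rw [hs3] at h4
      obtain ⟨i, hi⟩ := mem_iUnion.1 h4
      exact ⟨i, (hs1 i).1.symm_cp hi⟩
    · rintro ⟨i, rfl⟩
      exact (hs1 i).1.cp_symm (by rw [(hs1 i).2]; exact hw)

lemma S_eq {f : E → ℂ} {j k : ℕ} {w : Fin d → ℂ} {x : Fin k → E} (hx : Function.Injective x)
    (hw : (cp ⁻¹' {w} : Set E) = range x) : S f j w = ∑ i, f (x i) ^ j := by
  unfold S
  rw [hw, finsum_mem_range hx, finsum_eq_sum_of_fintype]

lemma S_zero (c : PCov d E) (f : E → ℂ) (j : ℕ) {w : Fin d → ℂ}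
    (hw : MvPolynomial.eval w c.h = 0) : S f j w = 0 := by
  unfold S
  have : (cp ⁻¹' {w} : Set E) = ∅ := by
    ext x
    simp only [mem_preimage, mem_singleton_iff, mem_empty_iff_false, iff_false]
    intro hx
    have := c.hne x
    rw [hx] at this
    exact this hw
  rw [this]
  simp

/-- the growth class -/
def Gw (c : PCov d E) (cc : ℝ) (κ D : ℕ) (f : E → ℂ) : Prop :=
  Hol f ∧ ∃ C : ℝ, ∀ y, ‖f y‖ ≤ C * (radf c.h cc κ (cp y))⁻¹ ^ D

/-- the coordinate slice -/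
def Sl (E : Type*) [TopologicalSpace E] [RDom d E] (I : Finset (Fin d)) (b : Fin d → ℂ) : Set E :=
  {y | ∀ i ∈ I, cp y i = b i}

/-- power sum times a power of `h` -/
def gg (c : PCov d E) (κ D : ℕ) (f : E → ℂ) (j : ℕ) (w : Fin d → ℂ) : ℂ :=
  S f j w * MvPolynomial.eval w c.h ^ (κ * D * j + 1)

lemma gg_zero (c : PCov d E) (κ D : ℕ) (f : E → ℂ) (j : ℕ) {w : Fin d → ℂ}
    (hw : MvPolynomial.eval w c.h = 0) : gg c κ D f j w = 0 := by
  unfold gg
  rw [S_zero c f j hw, zero_mul]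

lemma gg_bound (c : PCov d E) {cc : ℝ} (hcc : 0 < cc) {κ D : ℕ} {f : E → ℂ}
    (hf : Gw c cc κ D f) (j : ℕ) : ∃ A : ℝ, 0 ≤ A ∧ ∀ w : Fin d → ℂ,
      ‖gg c κ D f j w‖ ≤ A * (1 + ‖w‖) ^ (κ * D * j) *
        (max 1 ‖MvPolynomial.eval w c.h‖ ^ (κ * D * j) * ‖MvPolynomial.eval w c.h‖) := by
  obtain ⟨C, hC⟩ := hf.2
  refine ⟨c.k * (|C| ^ j * (cc⁻¹ ^ D) ^ j), by positivity, fun w => ?_⟩
  by_cases hw : MvPolynomial.eval w c.h = 0
  · rw [gg_zero c κ D f j hw, norm_zero]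
    positivity
  · obtain ⟨r, hr, s, hs, hfib⟩ := fibre c hw
    obtain ⟨h1, h2⟩ := hfib w (mem_ball_self hr)
    have hcp : ∀ i, cp ((s i).symm w) = w := fun i =>
      (hs i).1.cp_symm (by rw [(hs i).2]; exact mem_ball_self hr)
    set a : ℝ := ‖MvPolynomial.eval w c.h‖ with ha
    have ha0 : 0 < a := norm_pos_iff.2 hw
    set m : ℝ := min 1 a with hm
    have hm0 : 0 < m := lt_min one_pos ha0
    have hw1 : 0 < 1 + ‖w‖ := by positivity
    have hrad : (radf c.h cc κ w)⁻¹ = cc⁻¹ * ((1 + ‖w‖) / m) ^ κ := by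
      unfold radf
      rw [mul_inv, ← inv_pow, inv_div]
    have hS : ‖S f j w‖ ≤ c.k * (|C| * (cc⁻¹ * ((1 + ‖w‖) / m) ^ κ) ^ D) ^ j := by
      rw [S_eq h1 h2]
      refine (norm_sum_le _ _).trans ?_
      have : ∀ i ∈ (Finset.univ : Finset (Fin c.k)), ‖f ((s i).symm w) ^ j‖ ≤
          (|C| * (cc⁻¹ * ((1 + ‖w‖) / m) ^ κ) ^ D) ^ j := by
        intro i _
        rw [norm_pow]
        refine pow_le_pow_left₀ (norm_nonneg _) ?_ _
        refine (hC _).trans ?_
        rw [hcp i, hrad]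
        gcongr
        exact le_abs_self C
      refine (Finset.sum_le_sum this).trans ?_
      simp
    unfold gg
    rw [norm_mul, norm_pow]
    refine (mul_le_mul_of_nonneg_right hS (by positivity)).trans (le_of_eq ?_)
    have hmax : max 1 a = a / m := by
      rw [hm]
      rcases le_total 1 a with h | h
      · rw [min_eq_left h, max_eq_right h, div_one]
      · rw [min_eq_right h, max_eq_left h, div_self ha0.ne']
    rw [hmax]
    rw [mul_pow, mul_pow, ← pow_mul, mul_pow, ← pow_mul, ← pow_mul, div_pow, div_pow, pow_succ]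
    ring

lemma gg_line (c : PCov d E) {cc : ℝ} (hcc : 0 < cc) {κ D : ℕ} {f : E → ℂ}
    (hf : Gw c cc κ D f) (j : ℕ) (w : Fin d → ℂ) (i : Fin d) :
    Differentiable ℂ (fun t : ℂ => gg c κ D f j (Function.update w i t)) := by
  have hup : Differentiable ℂ (fun t : ℂ => Function.update w i t) := differentiable_update w i
  have hev : Differentiable ℂ
      (fun t : ℂ => MvPolynomial.eval (Function.update w i t) c.h) := by
    have h1 : (fun t : ℂ => MvPolynomial.eval (Function.update w i t) c.h) =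
        fun t => (lin c.h w i).eval t := by
      funext t; rw [lin_eval]
    rw [h1]
    exact Polynomial.differentiable _
  -- differentiability where `h ≠ 0`
  have hne : ∀ t : ℂ, MvPolynomial.eval (Function.update w i t) c.h ≠ 0 →
      DifferentiableAt ℂ (fun t : ℂ => gg c κ D f j (Function.update w i t)) t := by
    intro t ht
    obtain ⟨r, hr, s, hs, hfib⟩ := fibre c ht
    have h1 : ∀ᶠ t' in 𝓝 t, Function.update w i t' ∈ ball (Function.update w i t) r :=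
      hup.continuous.continuousAt.eventually_mem (ball_mem_nhds _ hr)
    have h2 : (fun t : ℂ => gg c κ D f j (Function.update w i t)) =ᶠ[𝓝 t]
        fun t => (∑ a, (f ∘ (s a).symm) (Function.update w i t) ^ j) *
          MvPolynomial.eval (Function.update w i t) c.h ^ (κ * D * j + 1) := by
      filter_upwards [h1] with t' ht'
      obtain ⟨h3, h4⟩ := hfib _ ht'
      show S f j _ * _ = _
      rw [S_eq h3 h4]
      rfl
    refine DifferentiableAt.congr_of_eventuallyEq ?_ h2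
    refine DifferentiableAt.mul ?_ ((hev t).pow _)
    refine DifferentiableAt.fun_sum fun a _ => ?_
    refine DifferentiableAt.pow ?_ _
    have h5 : DifferentiableAt ℂ (f ∘ (s a).symm) (Function.update w i t) := by
      refine (hf.1 (s a) (hs a).1).differentiableAt ?_
      rw [(hs a).2]
      exact ball_mem_nhds _ hr
    exact h5.comp t (hup t)
  intro t
  by_cases ht : MvPolynomial.eval (Function.update w i t) c.h ≠ 0
  · exact hne t ht
  push Not at ht
  by_cases hP : lin c.h w i = 0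
  · have h1 : (fun t : ℂ => gg c κ D f j (Function.update w i t)) = fun _ => 0 := by
      funext t'
      refine gg_zero c κ D f j ?_
      rw [← lin_eval, hP, Polynomial.eval_zero]
    rw [h1]
    exact differentiableAt_const _
  -- an isolated zero
  refine (Complex.analyticAt_of_differentiable_on_punctured_nhds_of_continuousAt ?_ ?_).differentiableAt
  · have hfin : (↑(lin c.h w i).roots.toFinset : Set ℂ).Finite := Finset.finite_toSet _
    have h1 : ∀ᶠ t' in 𝓝[≠] t, t' ∉ ((↑(lin c.h w i).roots.toFinset : Set ℂ) \ {t}) := by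
      have h2 : ((↑(lin c.h w i).roots.toFinset : Set ℂ) \ {t}).Finite := hfin.sdiff
      have h3 : ∀ᶠ t' in 𝓝 t, t' ∉ ((↑(lin c.h w i).roots.toFinset : Set ℂ) \ {t}) :=
        h2.isClosed.isOpen_compl.mem_nhds (by simp)
      exact nhdsWithin_le_nhds h3
    filter_upwards [h1, self_mem_nhdsWithin] with t' ht' hne'
    refine hne t' fun h0 => ht' ⟨?_, hne'⟩
    simp only [Finset.mem_coe, Multiset.mem_toFinset]
    rw [Polynomial.mem_roots hP, Polynomial.IsRoot.def, lin_eval, h0]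
  · obtain ⟨A, hA, hb⟩ := gg_bound c hcc hf j
    have h0 : gg c κ D f j (Function.update w i t) = 0 := gg_zero c κ D f j ht
    show Tendsto (fun t : ℂ => gg c κ D f j (Function.update w i t)) (𝓝 t)
      (𝓝 (gg c κ D f j (Function.update w i t)))
    rw [h0]
    have hcont : Continuous (fun t : ℂ => A * (1 + ‖Function.update w i t‖) ^ (κ * D * j) *
        (max 1 ‖MvPolynomial.eval (Function.update w i t) c.h‖ ^ (κ * D * j) *
          ‖MvPolynomial.eval (Function.update w i t) c.h‖)) := by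
      have e1 := hup.continuous
      have e2 := hev.continuous
      fun_prop
    have h3 := hcont.tendsto t
    rw [ht, norm_zero, mul_zero, mul_zero] at h3
    exact squeeze_zero_norm (fun t => hb _) h3

lemma gg_growth (c : PCov d E) {cc : ℝ} (hcc : 0 < cc) {κ D : ℕ} {f : E → ℂ}
    (hf : Gw c cc κ D f) {j : ℕ} {M : ℕ}
    (hM : κ * D * j + (κ * D * j + 1) * c.h.totalDegree ≤ M) (w : Fin d → ℂ) (i : Fin d) :
    ∃ A : ℝ, ∀ t : ℂ, ‖gg c κ D f j (Function.update w i t)‖ ≤ A * (1 + ‖t‖) ^ M := by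
  obtain ⟨A, hA, hb⟩ := gg_bound c hcc hf j
  obtain ⟨B, hB, hB1⟩ := mv_growth c.h
  set N := κ * D * j with hN
  set δ := c.h.totalDegree with hδ
  have hB0 : 0 ≤ B := by linarith
  refine ⟨A * B ^ (N + 1) * (1 + ‖w‖) ^ M, fun t => ?_⟩
  set v := Function.update w i t with hv
  have h1 : 1 ≤ 1 + ‖v‖ := by linarith [norm_nonneg v]
  have h2 : ‖MvPolynomial.eval v c.h‖ ≤ B * (1 + ‖v‖) ^ δ := hB1 v
  have h3 : max 1 ‖MvPolynomial.eval v c.h‖ ≤ B * (1 + ‖v‖) ^ δ := by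
    refine max_le ?_ h2
    exact one_le_mul_of_one_le_of_one_le hB (one_le_pow₀ h1)
  calc ‖gg c κ D f j v‖ ≤ A * (1 + ‖v‖) ^ N *
        (max 1 ‖MvPolynomial.eval v c.h‖ ^ N * ‖MvPolynomial.eval v c.h‖) := hb v
    _ ≤ A * (1 + ‖v‖) ^ N * ((B * (1 + ‖v‖) ^ δ) ^ N * (B * (1 + ‖v‖) ^ δ)) := by gcongr
    _ = A * B ^ (N + 1) * (1 + ‖v‖) ^ (N + (N + 1) * δ) := by ring
    _ ≤ A * B ^ (N + 1) * (1 + ‖v‖) ^ M := by gcongr
    _ ≤ A * B ^ (N + 1) * ((1 + ‖w‖) * (1 + ‖t‖)) ^ M := by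
        gcongr
        exact norm_update_le w i t
    _ = A * B ^ (N + 1) * (1 + ‖w‖) ^ M * (1 + ‖t‖) ^ M := by rw [mul_pow]; ring

/-- if the power sums vanish on a grid, `f` vanishes on the slice -/
lemma main (c : PCov d E) {cc : ℝ} (hcc : 0 < cc) {κ D : ℕ} {f : E → ℂ}
    (hf : Gw c cc κ D f) {M : ℕ} (hM : κ * D * c.k + (κ * D * c.k + 1) * c.h.totalDegree ≤ M)
    (G : Finset ℂ) (hG : M < G.card) (I : Finset (Fin d)) (b : Fin d → ℂ)
    (h0 : ∀ y : E, (∀ i ∈ I, cp y i = b i) → (∀ i, i ∉ I → cp y i ∈ G) → f y = 0) :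
    ∀ y ∈ Sl E I b, f y = 0 := by
  intro y hy
  have hy' : ∀ i ∈ I, cp y i = b i := hy
  have hne := c.hne y
  have hg : ∀ j : ℕ, 1 ≤ j → j ≤ c.k → gg c κ D f j (cp y) = 0 := by
    intro j hj1 hj
    refine grid (M := M) (fun w i => gg_line c hcc hf j w i) (fun w i => gg_growth c hcc hf ?_ w i)
      G hG I b ?_ (cp y) hy'
    · refine le_trans ?_ hM
      gcongr
    · intro w hw1 hw2
      by_cases hw : MvPolynomial.eval w c.h = 0
      · exact gg_zero c κ D f j hw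
      · unfold gg
        obtain ⟨r, hr, s, hs, hfib⟩ := fibre c hw
        obtain ⟨h1, h2⟩ := hfib w (mem_ball_self hr)
        rw [S_eq h1 h2, Finset.sum_eq_zero, zero_mul]
        intro a _
        have hcp : cp ((s a).symm w) = w :=
          (hs a).1.cp_symm (by rw [(hs a).2]; exact mem_ball_self hr)
        rw [h0 _ (by rw [hcp]; exact hw1) (by rw [hcp]; exact hw2)]
        exact zero_pow (by omega)
  obtain ⟨r, hr, s, hs, hfib⟩ := fibre c hne
  obtain ⟨h1, h2⟩ := hfib (cp y) (mem_ball_self hr)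
  have h3 : ∀ j : ℕ, 1 ≤ j → j ≤ c.k → ∑ i, f ((s i).symm (cp y)) ^ j = 0 := by
    intro j hj1 hj
    have h4 := hg j hj1 hj
    unfold gg at h4
    rw [S_eq h1 h2] at h4
    rcases mul_eq_zero.1 h4 with h5 | h5
    · exact h5
    · exact absurd h5 (pow_ne_zero _ hne)
  have h6 := eq_zero_of_psum (fun i => f ((s i).symm (cp y))) h3
  have h7 : y ∈ (cp ⁻¹' {cp y} : Set E) := by simp
  rw [h2] at h7
  obtain ⟨i, hi⟩ := h7
  rw [← hi]
  exact h6 i

/-- the fibres have at most `k` points -/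
lemma fibre_finite (c : PCov d E) (w : Fin d → ℂ) : ∃ F : Finset E, F.card ≤ c.k ∧
    ∀ y : E, cp y = w → y ∈ F := by
  classical
  by_cases hw : MvPolynomial.eval w c.h = 0
  · refine ⟨∅, by simp, fun y hy => ?_⟩
    have := c.hne y
    rw [hy] at this
    exact absurd hw this
  · obtain ⟨r, hr, s, hs, hfib⟩ := fibre c hw
    obtain ⟨h1, h2⟩ := hfib w (mem_ball_self hr)
    refine ⟨Finset.univ.image (fun i => (s i).symm w), ?_, fun y hy => ?_⟩
    · refine Finset.card_image_le.trans ?_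
      simp
    · have : y ∈ (cp ⁻¹' {w} : Set E) := hy
      rw [h2] at this
      obtain ⟨i, hi⟩ := this
      exact Finset.mem_image.2 ⟨i, Finset.mem_univ _, hi⟩

/-- **CNT-JET, points version.** -/
theorem exists_points (c : PCov d E) (κ : ℕ) : ∃ K : ℕ, ∀ cc : ℝ, 0 < cc → ∀ (D : ℕ)
    (I : Finset (Fin d)) (b : Fin d → ℂ), ∃ Q : Finset E,
      Q.card ≤ c.k * (K * (D + 1) + 1) ^ (d - I.card) ∧
      (∀ y ∈ Q, y ∈ Sl E I b) ∧
      ∀ f : E → ℂ, Gw c cc κ D f → (∀ y ∈ Q, f y = 0) → ∀ y ∈ Sl E I b, f y = 0 := by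
  classical
  refine ⟨κ * c.k * (1 + c.h.totalDegree) + c.h.totalDegree, fun cc hcc D I b => ?_⟩
  set K := κ * c.k * (1 + c.h.totalDegree) + c.h.totalDegree with hK
  have hM : κ * D * c.k + (κ * D * c.k + 1) * c.h.totalDegree ≤ K * (D + 1) := by
    rw [hK]
    have : (κ * c.k * (1 + c.h.totalDegree) + c.h.totalDegree) * (D + 1) =
      (κ * D * c.k + (κ * D * c.k + 1) * c.h.totalDegree) +
        (κ * c.k * (1 + c.h.totalDegree) + c.h.totalDegree * D) := by ring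
    omega
  let G : Finset ℂ := (Finset.range (K * (D + 1) + 1)).image (fun n : ℕ => (n : ℂ))
  have hGc : G.card = K * (D + 1) + 1 := by
    rw [Finset.card_image_of_injective _ Nat.cast_injective, Finset.card_range]
  let Gr : Finset (Fin d → ℂ) := Fintype.piFinset fun i => if i ∈ I then {b i} else G
  have hGr : Gr.card = (K * (D + 1) + 1) ^ (d - I.card) := by
    rw [Fintype.card_piFinset]
    have h1 : ∀ i, (if i ∈ I then ({b i} : Finset ℂ) else G).card =
        if i ∈ I then 1 else (K * (D + 1) + 1) := by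
      intro i
      by_cases hi : i ∈ I
      · simp [hi]
      · simp [hi, hGc]
    simp only [h1]
    rw [Finset.prod_ite]
    simp only [Finset.prod_const_one, one_mul, Finset.prod_const]
    congr 1
    have h2 : (Finset.univ.filter fun i => i ∉ I) = Iᶜ := by
      ext i; simp
    rw [h2, Finset.card_compl, Fintype.card_fin]
  choose F hF1 hF2 using fibre_finite c
  refine ⟨(Gr.biUnion F).filter (fun y => y ∈ Sl E I b), ?_, ?_, ?_⟩
  · refine (Finset.card_le_card (Finset.filter_subset _ _)).trans ?_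
    refine Finset.card_biUnion_le.trans ?_
    refine (Finset.sum_le_sum fun w _ => hF1 w).trans ?_
    rw [Finset.sum_const, hGr, smul_eq_mul, mul_comm]
  · intro y hy
    exact (Finset.mem_filter.1 hy).2
  · intro f hf hQ
    refine main c hcc hf hM G (by rw [hGc]; omega) I b fun y hy1 hy2 => ?_
    refine hQ y (Finset.mem_filter.2 ⟨Finset.mem_biUnion.2 ⟨cp y, ?_, hF2 (cp y) y rfl⟩, hy1⟩)
    rw [Fintype.mem_piFinset]
    intro i
    by_cases hi : i ∈ I
    · simp [hi, hy1 i hi]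
    · simp only [hi, if_false]
      exact hy2 i hi

/-- restriction to the slice -/
def rs (E : Type*) [TopologicalSpace E] [RDom d E] (I : Finset (Fin d)) (b : Fin d → ℂ) :
    (E → ℂ) →ₗ[ℂ] (Sl E I b → ℂ) :=
  LinearMap.funLeft ℂ ℂ (Subtype.val : Sl E I b → E)

@[simp] lemma rs_apply (I : Finset (Fin d)) (b : Fin d → ℂ) (f : E → ℂ) (y : Sl E I b) :
    rs E I b f y = f y := rfl

/-- **CNT-JET, dimension version.** -/
theorem slice_dim (c : PCov d E) (κ : ℕ) : ∃ K : ℕ, ∀ cc : ℝ, 0 < cc → ∀ (D : ℕ)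
    (I : Finset (Fin d)) (b : Fin d → ℂ) (V : Submodule ℂ (E → ℂ)), (∀ f ∈ V, Gw c cc κ D f) →
      Module.Finite ℂ (V.map (rs E I b)) ∧
      Module.finrank ℂ (V.map (rs E I b)) ≤ c.k * (K * (D + 1) + 1) ^ (d - I.card) := by
  classical
  obtain ⟨K, hK⟩ := exists_points c κ
  refine ⟨K, fun cc hcc D I b V hV => ?_⟩
  obtain ⟨Q, hQ1, hQ2, hQ3⟩ := hK cc hcc D I b
  let L : V.map (rs E I b) →ₗ[ℂ] (Q → ℂ) :=
    { toFun := fun g q => g.1 ⟨q.1, hQ2 q.1 q.2⟩
      map_add' := fun g g' => by funext q; simp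
      map_smul' := fun a g => by funext q; simp }
  have hL : Function.Injective L := by
    rw [injective_iff_map_eq_zero]
    rintro ⟨g, hg⟩ hg0
    obtain ⟨f, hfV, rfl⟩ := hg
    have h1 : ∀ y ∈ Q, f y = 0 := by
      intro y hy
      have := congrFun hg0 ⟨y, hy⟩
      exact this
    have h2 := hQ3 f (hV f hfV) h1
    apply Subtype.ext
    funext y
    exact h2 y.1 y.2
  have hfin : Module.Finite ℂ (V.map (rs E I b)) := Module.Finite.of_injective L hL
  refine ⟨hfin, ?_⟩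
  refine (LinearMap.finrank_le_finrank_of_injective hL).trans ?_
  rw [Module.finrank_fintype_fun_eq_card, Fintype.card_coe]
  exact hQ1

end

end Crest.Agent.R276.CntJet_691
end
end

-- ▼ part R276/SliI_217
section

/-!
# R276, leaf CNT-UP (slice lemma), part I (helper217)

The final upper bound for the spaces of leading coefficients, in the interface `CntDefs_857`.
-/

set_option autoImplicit false
set_option linter.unusedSectionVars false

open Set Filter Topology Metric Module MeasureTheory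

namespace Crest.Agent.R276.SliI_217

open Crest.Agent.R271.Ho51 Crest.Agent.R276.CntDefs_857
open Crest.Agent.R276.SliG_217 Crest.Agent.R276.SliH_217

variable {d : ℕ} {E : Type*} [TopologicalSpace E] [RDom d E]

theorem gw_iff {c : PCov d E} {cc : ℝ} {κ D' : ℕ} {f : E → ℂ} (hf : Hol f)
    (h : ∃ C : ℝ, ∀ y, ‖f y‖ ≤ C * (1 / radf c.h cc κ (cp y)) ^ D') :
    CntJet_691.Gw c cc κ D' f := by
  obtain ⟨C, hC⟩ := h
  refine ⟨hf, C, fun y => ?_⟩
  have := hC y
  rwa [one_div] at this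

/-- polynomial growth only: `dim ≤ C (D' + 1)^d` -/
theorem up_growth (c : PCov d E) (κ : ℕ) : ∃ C0 : ℕ, ∀ cc : ℝ, 0 < cc → ∀ (D' : ℕ)
    (V : Submodule ℂ (E → ℂ)),
    (∀ f ∈ V, Hol f ∧ ∃ C : ℝ, ∀ y, ‖f y‖ ≤ C * (1 / radf c.h cc κ (cp y)) ^ D') →
    Bd V (C0 * (D' + 1) ^ d) := by
  obtain ⟨K, hK⟩ := CntJet_691.slice_dim c κ
  refine ⟨c.k * (K + 1) ^ d, fun cc hcc D' V hV => ?_⟩
  obtain ⟨h1, h2⟩ := hK cc hcc D' ∅ 0 V (fun f hf => gw_iff (hV f hf).1 (hV f hf).2)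
  have h3 : Bd V (c.k * (K * (D' + 1) + 1) ^ (d - (∅ : Finset (Fin d)).card)) := by
    refine Bd.of_map_injective ⟨h1, h2⟩ fun f _ hf => ?_
    funext x
    have : x ∈ CntJet_691.Sl E (∅ : Finset (Fin d)) 0 := by intro i hi; simp at hi
    exact congrFun hf ⟨x, this⟩
  refine h3.le ?_
  simp only [Finset.card_empty, Nat.sub_zero]
  rw [mul_assoc, ← mul_pow]
  gcongr
  nlinarith

variable {M : Type*} [TopologicalSpace M] [RDom (d + 1) M] [MeasurableSpace M] {μ : Measure M}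

/-- **upper bound of COUNT** -/
theorem upCount (D : DChart M E μ) {φ ψ : M → ℝ} {k : ℤ} {ρ : ℕ} (F : Full D φ ψ k ρ)
    (hρ : ρ ≤ d) : ∃ C0 : ℕ, ∀ (k' B' D' : ℕ) (V : Submodule ℂ (E → ℂ)),
    (∀ f ∈ V, Hol f ∧ (∃ C : ℝ, ∀ y, ‖f y‖ ^ 2 * Real.exp (-F.τ y) ^ k' ≤ C * (1 / D.r y) ^ B') ∧
      ∃ C : ℝ, ∀ y, ‖f y‖ ≤ C * (1 / D.r y) ^ D') →
    Bd V (C0 * (B' + 1) ^ (d - ρ) * (D' + 1) ^ ρ) := by
  obtain ⟨C0, hC0⟩ := up_full D F hρ
  obtain ⟨K, hK⟩ := CntJet_691.slice_dim D.cov D.κ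
  refine ⟨C0 ^ (d - ρ) * (D.cov.k * (K + 1) ^ ρ), fun k' B' D' V hV => ?_⟩
  have h1 := hC0 k' B' (D.cov.k * (K * (D' + 1) + 1) ^ ρ) V
    (fun f hf => ⟨(hV f hf).1, (hV f hf).2.1⟩) (by
      intro I hI m
      obtain ⟨h2, h3⟩ := hK D.c D.hc0 D' I (fun i => (m i : ℂ)) V
        (fun f hf => gw_iff (hV f hf).1 (hV f hf).2.2)
      rw [hI, show d - (d - ρ) = ρ by omega] at h3
      exact ⟨h2, h3⟩)
  refine h1.le ?_
  calc (C0 * (B' + 1)) ^ (d - ρ) * (D.cov.k * (K * (D' + 1) + 1) ^ ρ)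
      ≤ (C0 * (B' + 1)) ^ (d - ρ) * (D.cov.k * ((K + 1) * (D' + 1)) ^ ρ) := by
        gcongr
        nlinarith
    _ = C0 ^ (d - ρ) * (D.cov.k * (K + 1) ^ ρ) * (B' + 1) ^ (d - ρ) * (D' + 1) ^ ρ := by
        rw [mul_pow, mul_pow]; ring

/-- the form used in the count: `dim ≤ C n^d t^ρ` -/
theorem upCount_nt (D : DChart M E μ) {φ ψ : M → ℝ} {k : ℤ} {ρ : ℕ} (F : Full D φ ψ k ρ)
    (hρ : ρ ≤ d) (A B : ℕ) : ∃ C1 : ℕ, ∀ (n t : ℕ), 1 ≤ n → 1 ≤ t → ∀ (k' B' D' : ℕ),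
    B' ≤ B * n → D' ≤ A * (n * t) → ∀ V : Submodule ℂ (E → ℂ),
    (∀ f ∈ V, Hol f ∧ (∃ C : ℝ, ∀ y, ‖f y‖ ^ 2 * Real.exp (-F.τ y) ^ k' ≤ C * (1 / D.r y) ^ B') ∧
      ∃ C : ℝ, ∀ y, ‖f y‖ ≤ C * (1 / D.r y) ^ D') →
    Bd V (C1 * n ^ d * t ^ ρ) := by
  obtain ⟨C0, hC0⟩ := upCount D F hρ
  refine ⟨C0 * (B + 1) ^ (d - ρ) * (A + 1) ^ ρ, fun n t hn ht k' B' D' hB hD V hV => ?_⟩
  refine (hC0 k' B' D' V hV).le ?_
  have hnt : 1 ≤ n * t := Nat.mul_pos hn ht
  have e1 : B' + 1 ≤ (B + 1) * n := by nlinarith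
  have e2 : D' + 1 ≤ (A + 1) * (n * t) := by nlinarith
  calc C0 * (B' + 1) ^ (d - ρ) * (D' + 1) ^ ρ
      ≤ C0 * ((B + 1) * n) ^ (d - ρ) * ((A + 1) * (n * t)) ^ ρ := by gcongr
    _ = C0 * (B + 1) ^ (d - ρ) * (A + 1) ^ ρ * (n ^ (d - ρ) * n ^ ρ) * t ^ ρ := by
        rw [mul_pow, mul_pow, mul_pow]; ring
    _ = C0 * (B + 1) ^ (d - ρ) * (A + 1) ^ ρ * n ^ d * t ^ ρ := by
        rw [← pow_add, Nat.sub_add_cancel hρ]

end Crest.Agent.R276.SliI_217
end

-- ▼ part R276/CntAsm_505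
section

/-!
# R276, leaf CNT-ASM (helper505): the counting step, linear algebra and numbers

A filtration of a space of sections by pole order along finitely many divisors: if the spaces of
leading coefficients are small compared with the space of sections, then there are many sections
without poles (and, more generally, vanishing to any prescribed order).
-/

set_option autoImplicit false

open Module

namespace Crest.Agent.R276.CntAsm_505

open Crest.Agent.R276.SliG_217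

section LinAlg

variable {X Y : Type*} [AddCommGroup X] [Module ℂ X] [AddCommGroup Y] [Module ℂ Y]

/-- the sections whose coefficients of index `< l` vanish -/
def Lt (T : ℤ → X →ₗ[ℂ] Y) (l : ℤ) : Submodule ℂ X := ⨅ l' : {l' : ℤ // l' < l}, LinearMap.ker (T l')

theorem mem_Lt {T : ℤ → X →ₗ[ℂ] Y} {l : ℤ} {x : X} : x ∈ Lt T l ↔ ∀ l' < l, T l' x = 0 := by
  simp [Lt, Submodule.mem_iInf]

theorem Lt_succ (T : ℤ → X →ₗ[ℂ] Y) (l : ℤ) : Lt T (l + 1) = Lt T l ⊓ LinearMap.ker (T l) := by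
  ext x
  rw [Submodule.mem_inf, mem_Lt, mem_Lt, LinearMap.mem_ker]
  constructor
  · intro h
    exact ⟨fun l' hl' => h l' (by omega), h l (by omega)⟩
  · rintro ⟨h1, h2⟩ l' hl'
    rcases lt_or_eq_of_le (Int.lt_add_one_iff.1 hl') with h | h
    · exact h1 l' h
    · rw [h]; exact h2


/-- one step -/
theorem finrank_step (W : Submodule ℂ X) [FiniteDimensional ℂ W] (T : X →ₗ[ℂ] Y) {b : ℕ}
    (h : Bd (W.map T) b) : finrank ℂ W ≤ finrank ℂ (W ⊓ LinearMap.ker T : Submodule ℂ X) + b := by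
  have h1 := LinearMap.finrank_range_add_finrank_ker (T.domRestrict W)
  have h2 : finrank ℂ (LinearMap.range (T.domRestrict W)) = finrank ℂ (W.map T) := by
    rw [LinearMap.range_domRestrict]
  have h3 : finrank ℂ (LinearMap.ker (T.domRestrict W)) =
      finrank ℂ (W ⊓ LinearMap.ker T : Submodule ℂ X) := by
    rw [LinearMap.ker_domRestrict]
    have h4 : Submodule.comap W.subtype (LinearMap.ker T) =
        Submodule.comap W.subtype (W ⊓ LinearMap.ker T) := by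
      ext x
      simp
    rw [h4]
    exact (Submodule.comapSubtypeEquivOfLe inf_le_left).finrank_eq
  have h4 := h.2
  omega

/-- one divisor, `m` steps -/
theorem finrank_steps (T : ℤ → X →ₗ[ℂ] Y) (l₀ : ℤ) (b : ℕ → ℕ) :
    ∀ (m : ℕ) (W : Submodule ℂ X) [FiniteDimensional ℂ W], (W ≤ Lt T l₀) →
    (∀ j < m, Bd ((W ⊓ Lt T (l₀ + j)).map (T (l₀ + j))) (b j)) →
    finrank ℂ W ≤ finrank ℂ (W ⊓ Lt T (l₀ + m) : Submodule ℂ X) + ∑ j ∈ Finset.range m, b j := by
  intro m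
  induction m with
  | zero =>
    intro W _ hW _
    have : W ⊓ Lt T (l₀ + ((0 : ℕ) : ℤ)) = W := by simpa using hW
    rw [this]; simp
  | succ m ih =>
    intro W _ hW hb
    have h1 := ih W hW (fun j hj => hb j (by omega))
    have : FiniteDimensional ℂ (W ⊓ Lt T (l₀ + m) : Submodule ℂ X) :=
      Submodule.finiteDimensional_of_le inf_le_left
    have h2 := finrank_step (W ⊓ Lt T (l₀ + m)) (T (l₀ + m)) (hb m (by omega))
    have h3 : (W ⊓ Lt T (l₀ + ((m + 1 : ℕ) : ℤ)) : Submodule ℂ X) =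
        W ⊓ Lt T (l₀ + m) ⊓ LinearMap.ker (T (l₀ + m)) := by
      rw [inf_assoc, ← Lt_succ]
      congr 2
      push_cast
      ring
    rw [h3, Finset.sum_range_succ]
    omega

/-- several divisors -/
theorem finrank_inf {ι : Type*} (A : ι → Submodule ℂ X) (c : ι → ℕ) (V : Submodule ℂ X)
    [FiniteDimensional ℂ V]
    (h : ∀ i, ∀ W : Submodule ℂ X, W ≤ V → finrank ℂ W ≤ finrank ℂ (W ⊓ A i : Submodule ℂ X) + c i)
    (s : Finset ι) :
    finrank ℂ V ≤ finrank ℂ (V ⊓ s.inf A : Submodule ℂ X) + ∑ i ∈ s, c i := by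
  classical
  induction s using Finset.induction_on with
  | empty => rw [Finset.inf_empty, inf_top_eq, Finset.sum_empty, add_zero]
  | insert i s hi ih =>
    have h1 := h i (V ⊓ s.inf A) inf_le_left
    rw [Finset.sum_insert hi, Finset.inf_insert]
    have h2 : (V ⊓ (A i ⊓ s.inf A) : Submodule ℂ X) = V ⊓ s.inf A ⊓ A i := by
      rw [inf_assoc, inf_comm (A i)]
    rw [h2]
    omega

/-- one divisor, real bounds: `V ≤ Lt T l₀`, the spaces of leading coefficients of index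
`l ∈ [l₀, l₀ + m)` have dimension `≤ β`; then for all `W ≤ V`
`dim W ≤ dim (W ⊓ Lt T (l₀ + m)) + m β` -/
theorem finrank_one (T : ℤ → X →ₗ[ℂ] Y) (l₀ : ℤ) (m : ℕ) {V : Submodule ℂ X}
    [FiniteDimensional ℂ V] (hV : V ≤ Lt T l₀) (β : ℝ)
    (hb : ∀ j < m, ∃ b : ℕ, (b : ℝ) ≤ β ∧ Bd ((V ⊓ Lt T (l₀ + j)).map (T (l₀ + j))) b) :
    ∃ c : ℕ, (c : ℝ) ≤ m * β ∧ ∀ W : Submodule ℂ X, W ≤ V →
      finrank ℂ W ≤ finrank ℂ (W ⊓ Lt T (l₀ + m) : Submodule ℂ X) + c := by
  classical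
  choose! b hbβ hbd using hb
  refine ⟨∑ j ∈ Finset.range m, b j, ?_, ?_⟩
  · push_cast
    calc ∑ j ∈ Finset.range m, (b j : ℝ) ≤ ∑ _j ∈ Finset.range m, β :=
          Finset.sum_le_sum fun j hj => hbβ j (Finset.mem_range.1 hj)
      _ = m * β := by rw [Finset.sum_const, Finset.card_range, nsmul_eq_mul]
  · intro W hW
    have : FiniteDimensional ℂ W := Submodule.finiteDimensional_of_le hW
    refine finrank_steps T l₀ b m W (hW.trans hV) fun j hj => ?_
    exact (hbd j hj).mono (Submodule.map_mono (inf_le_inf_right _ hW))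

end LinAlg

/-- a subspace of dimension `m` as a linearly independent family -/
theorem exists_family {X : Type*} [AddCommGroup X] [Module ℂ X] (W : Submodule ℂ X)
    [FiniteDimensional ℂ W] : ∃ f : Fin (finrank ℂ W) → X, LinearIndependent ℂ f ∧ ∀ j, f j ∈ W := by
  refine ⟨fun j => (finBasis ℂ W j : X), ?_, fun j => (finBasis ℂ W j).2⟩
  exact (finBasis ℂ W).linearIndependent.map' W.subtype (Submodule.ker_subtype W)

/-- **counting**: `X n t` = sections of `nK + ntL`, `T i n t l` = coefficient of index `l` along the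
divisor `i`. If there are `≥ c n^(d+1) t^ν` independent sections, the pole order along the bad
divisors is `< n` and the spaces of leading coefficients have dimension `≤ C n^d t^(ν-1)` (bad
divisors), resp. `≤ C' n^d` with `C'` depending on `t` (good divisors, no poles), then for `t` large
and `n ≥ N(t)` there are `≥ (c/2) n^(d+1) t^ν` independent sections all of whose coefficients of
index `< a` vanish, `a` arbitrary. -/
theorem count {ι : Type*} [Fintype ι] {d ν a : ℕ} {X : ℕ → ℕ → Type*}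
    [∀ n t, AddCommGroup (X n t)] [∀ n t, Module ℂ (X n t)] {Y : ι → Type*}
    [∀ i, AddCommGroup (Y i)] [∀ i, Module ℂ (Y i)] (T : ∀ i n t, ℤ → X n t →ₗ[ℂ] Y i)
    {c : ℝ} (hc : 0 < c) {N₀ : ℕ}
    (low : ∀ n ≥ N₀, ∀ t : ℕ, 1 ≤ t → ∃ (m : ℕ) (f : Fin m → X n t), LinearIndependent ℂ f ∧
      c * (n : ℝ) ^ (d + 1) * (t : ℝ) ^ ν ≤ m)
    (bad : Finset ι) (hν : bad.Nonempty → 0 < ν)
    (van_bad : ∀ i ∈ bad, ∀ n t, ∀ x : X n t, ∀ l : ℤ, l ≤ -n → T i n t l x = 0)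
    (van_good : ∀ i ∉ bad, ∀ n t, ∀ x : X n t, ∀ l : ℤ, l < 0 → T i n t l x = 0)
    {C : ℝ}
    (up_bad : ∀ i ∈ bad, ∀ t : ℕ, 1 ≤ t → ∃ N : ℕ, ∀ n ≥ N, ∀ l : ℤ, -n < l → l < a →
      ∃ b : ℕ, (b : ℝ) ≤ C * (n : ℝ) ^ d * (t : ℝ) ^ (ν - 1) ∧
        Bd ((Lt (T i n t) l).map (T i n t l)) b)
    (up_good : ∀ i ∉ bad, ∀ t : ℕ, 1 ≤ t → ∃ (C' : ℝ) (N : ℕ), ∀ n ≥ N, ∀ l : ℤ, 0 ≤ l → l < a →
      ∃ b : ℕ, (b : ℝ) ≤ C' * (n : ℝ) ^ d ∧ Bd ((Lt (T i n t) l).map (T i n t l)) b) :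
    ∃ t₀ : ℕ, ∀ t ≥ t₀, ∃ N : ℕ, ∀ n ≥ N, ∃ (m : ℕ) (f : Fin m → X n t),
      LinearIndependent ℂ f ∧ c / 2 * (n : ℝ) ^ (d + 1) * (t : ℝ) ^ ν ≤ m ∧
      ∀ j i, ∀ l < (a : ℤ), T i n t l (f j) = 0 := by
  classical
  obtain ⟨t₀, ht₀⟩ := exists_nat_ge (8 * (bad.card * |C|) / c)
  refine ⟨max t₀ 1, fun t ht => ?_⟩
  have ht1 : 1 ≤ t := le_trans (le_max_right _ _) ht
  have ht0 : (t₀ : ℝ) ≤ t := by exact_mod_cast le_trans (le_max_left _ _) ht
  have htp : (1 : ℝ) ≤ t := by exact_mod_cast ht1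
  -- choose the constants
  have hub : ∀ i, i ∈ bad → ∃ N : ℕ, ∀ n ≥ N, ∀ l : ℤ, -n < l → l < a →
      ∃ b : ℕ, (b : ℝ) ≤ C * (n : ℝ) ^ d * (t : ℝ) ^ (ν - 1) ∧
        Bd ((Lt (T i n t) l).map (T i n t l)) b := fun i hi => up_bad i hi t ht1
  have hug : ∀ i, i ∉ bad → ∃ (C' : ℝ) (N : ℕ), ∀ n ≥ N, ∀ l : ℤ, 0 ≤ l → l < a →
      ∃ b : ℕ, (b : ℝ) ≤ C' * (n : ℝ) ^ d ∧ Bd ((Lt (T i n t) l).map (T i n t l)) b :=
    fun i hi => up_good i hi t ht1
  choose! Nb hNb using hub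
  choose! C' Ng hNg using hug
  obtain ⟨N₁, hN₁⟩ := exists_nat_ge (4 * (∑ i, a * |C' i|) / c)
  refine ⟨max (max N₀ (max N₁ (max a 1))) (∑ i, (Nb i + Ng i)), fun n hn => ?_⟩
  have hnN0 : N₀ ≤ n := le_trans (le_trans (le_max_left _ _) (le_max_left _ _)) hn
  have hnN1 : N₁ ≤ n := le_trans (le_trans (le_max_left _ _) (le_trans (le_max_right _ _)
    (le_max_left _ _))) hn
  have hna : a ≤ n := le_trans (le_trans (le_max_left _ _) (le_trans (le_max_right _ _)
    (le_trans (le_max_right _ _) (le_max_left _ _)))) hn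
  have hn1 : 1 ≤ n := le_trans (le_trans (le_max_right _ _) (le_trans (le_max_right _ _)
    (le_trans (le_max_right _ _) (le_max_left _ _)))) hn
  have hnS : ∑ i, (Nb i + Ng i) ≤ n := le_trans (le_max_right _ _) hn
  have hnb : ∀ i, Nb i ≤ n := fun i => le_trans (le_trans (Nat.le_add_right _ (Ng i))
    (Finset.single_le_sum (f := fun i => Nb i + Ng i) (fun _ _ => Nat.zero_le _)
      (Finset.mem_univ i))) hnS
  have hng : ∀ i, Ng i ≤ n := fun i => le_trans (le_trans (Nat.le_add_left _ (Nb i))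
    (Finset.single_le_sum (f := fun i => Nb i + Ng i) (fun _ _ => Nat.zero_le _)
      (Finset.mem_univ i))) hnS
  have hnp : (1 : ℝ) ≤ n := by exact_mod_cast hn1
  obtain ⟨m, f, hf, hm⟩ := low n hnN0 t ht1
  set V : Submodule ℂ (X n t) := Submodule.span ℂ (Set.range f) with hVdef
  have hVfd : FiniteDimensional ℂ V := FiniteDimensional.span_of_finite ℂ (Set.finite_range f)
  have hVm : finrank ℂ V = m := by
    rw [hVdef, finrank_span_eq_card hf, Fintype.card_fin]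
  -- bounds for each divisor
  have key : ∀ i, ∃ e : ℕ, (e : ℝ) ≤ (if i ∈ bad then 2 * |C| * (n : ℝ) ^ (d + 1) *
      (t : ℝ) ^ (ν - 1) else a * |C' i| * (n : ℝ) ^ d) ∧ ∀ W : Submodule ℂ (X n t), W ≤ V →
      finrank ℂ W ≤ finrank ℂ (W ⊓ Lt (T i n t) a : Submodule ℂ (X n t)) + e := by
    intro i
    by_cases hi : i ∈ bad
    · have h1 := finrank_one (T i n t) (1 - n : ℤ) (n - 1 + a) (V := V) (by
        intro x _
        rw [mem_Lt]
        intro l' hl'
        exact van_bad i hi n t x l' (by omega)) (C * (n : ℝ) ^ d * (t : ℝ) ^ (ν - 1)) (by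
        intro j hj
        obtain ⟨b, hb1, hb2⟩ := hNb i hi n (hnb i) (1 - n + j) (by omega) (by omega)
        exact ⟨b, hb1, hb2.mono (Submodule.map_mono inf_le_right)⟩)
      obtain ⟨e, he1, he2⟩ := h1
      refine ⟨e, ?_, ?_⟩
      · rw [if_pos hi]
        refine he1.trans ?_
        have h2 : (((n - 1 + a : ℕ) : ℝ)) ≤ 2 * n := by
          have : n - 1 + a ≤ 2 * n := by omega
          exact_mod_cast this
        calc ((n - 1 + a : ℕ) : ℝ) * (C * (n : ℝ) ^ d * (t : ℝ) ^ (ν - 1))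
            ≤ ((n - 1 + a : ℕ) : ℝ) * (|C| * (n : ℝ) ^ d * (t : ℝ) ^ (ν - 1)) := by
              gcongr
              exact le_abs_self C
          _ ≤ (2 * n) * (|C| * (n : ℝ) ^ d * (t : ℝ) ^ (ν - 1)) := by gcongr
          _ = 2 * |C| * (n : ℝ) ^ (d + 1) * (t : ℝ) ^ (ν - 1) := by ring
      · intro W hW
        have h3 := he2 W hW
        have h4 : (1 - n + ((n - 1 + a : ℕ) : ℤ) : ℤ) = (a : ℤ) := by
          push_cast [Nat.cast_sub hn1]
          ring
        rwa [h4] at h3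
    · have h1 := finrank_one (T i n t) 0 a (V := V) (by
        intro x _
        rw [mem_Lt]
        intro l' hl'
        exact van_good i hi n t x l' hl') (C' i * (n : ℝ) ^ d) (by
        intro j hj
        obtain ⟨b, hb1, hb2⟩ := hNg i hi n (hng i) (0 + j) (by omega) (by omega)
        exact ⟨b, hb1, hb2.mono (Submodule.map_mono inf_le_right)⟩)
      obtain ⟨e, he1, he2⟩ := h1
      refine ⟨e, ?_, ?_⟩
      · rw [if_neg hi]
        refine he1.trans ?_
        calc (a : ℝ) * (C' i * (n : ℝ) ^ d) ≤ a * (|C' i| * (n : ℝ) ^ d) := by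
              gcongr
              exact le_abs_self _
          _ = a * |C' i| * (n : ℝ) ^ d := by ring
      · intro W hW
        have h3 := he2 W hW
        rwa [zero_add] at h3
  choose e he1 he2 using key
  have h1 := finrank_inf (fun i => Lt (T i n t) a) e V he2 Finset.univ
  set W : Submodule ℂ (X n t) := V ⊓ Finset.univ.inf fun i => Lt (T i n t) a with hW
  have hWfd : FiniteDimensional ℂ W := Submodule.finiteDimensional_of_le inf_le_left
  obtain ⟨g, hg1, hg2⟩ := exists_family W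
  refine ⟨finrank ℂ W, g, hg1, ?_, ?_⟩
  · have h2 : ((∑ i, e i : ℕ) : ℝ) ≤ c / 2 * (n : ℝ) ^ (d + 1) * (t : ℝ) ^ ν := by
      push_cast
      have h3 : ∀ i, (e i : ℝ) ≤ (if i ∈ bad then 2 * |C| * (n : ℝ) ^ (d + 1) *
          (t : ℝ) ^ (ν - 1) else 0) + a * |C' i| * (n : ℝ) ^ d := by
        intro i
        refine (he1 i).trans ?_
        have h4 : (0 : ℝ) ≤ a * |C' i| * (n : ℝ) ^ d := by positivity
        have h5 : (0 : ℝ) ≤ 2 * |C| * (n : ℝ) ^ (d + 1) * (t : ℝ) ^ (ν - 1) := by positivity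
        split_ifs <;> linarith
      have h4 : ∑ i, (e i : ℝ) ≤ bad.card * (2 * |C| * (n : ℝ) ^ (d + 1) * (t : ℝ) ^ (ν - 1)) +
          (∑ i, a * |C' i|) * (n : ℝ) ^ d := by
        refine (Finset.sum_le_sum fun i _ => h3 i).trans ?_
        rw [Finset.sum_add_distrib, Finset.sum_ite_mem, Finset.univ_inter, Finset.sum_const,
          nsmul_eq_mul, Finset.sum_mul]
      have h5 : bad.card * (2 * |C| * (n : ℝ) ^ (d + 1) * (t : ℝ) ^ (ν - 1)) ≤
          c / 4 * (n : ℝ) ^ (d + 1) * (t : ℝ) ^ ν := by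
        by_cases hb : bad.Nonempty
        · have hν' : (t : ℝ) ^ ν = t * (t : ℝ) ^ (ν - 1) := by
            rw [← pow_succ', Nat.sub_add_cancel (hν hb)]
          have h6 : 8 * (bad.card * |C|) ≤ c * t := by
            have := (div_le_iff₀ hc).1 (ht₀.trans ht0)
            linarith
          rw [hν']
          have h7 : (0 : ℝ) ≤ (n : ℝ) ^ (d + 1) * (t : ℝ) ^ (ν - 1) := by positivity
          nlinarith [mul_le_mul_of_nonneg_right h6 h7]
        · rw [Finset.not_nonempty_iff_eq_empty.1 hb, Finset.card_empty, Nat.cast_zero, zero_mul]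
          positivity
      have h6 : (∑ i, a * |C' i|) * (n : ℝ) ^ d ≤ c / 4 * (n : ℝ) ^ (d + 1) * (t : ℝ) ^ ν := by
        have h7 : 4 * (∑ i, a * |C' i|) ≤ c * n := by
          have := (div_le_iff₀ hc).1 (hN₁.trans (by exact_mod_cast hnN1 : (N₁ : ℝ) ≤ n))
          linarith
        have h8 : (1 : ℝ) ≤ (t : ℝ) ^ ν := one_le_pow₀ htp
        have h9 : (0 : ℝ) ≤ (n : ℝ) ^ d := by positivity
        calc (∑ i, a * |C' i|) * (n : ℝ) ^ d ≤ (c * n / 4) * (n : ℝ) ^ d := by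
              gcongr
              linarith
          _ = c / 4 * (n : ℝ) ^ (d + 1) * 1 := by ring
          _ ≤ c / 4 * (n : ℝ) ^ (d + 1) * (t : ℝ) ^ ν := by gcongr
      linarith
    have h3 : (m : ℝ) ≤ finrank ℂ W + (∑ i, e i : ℕ) := by
      have := h1
      rw [hVm] at this
      exact_mod_cast this
    linarith
  · intro j i l hl
    have h2 : g j ∈ Lt (T i n t) a := by
      have h3 : g j ∈ (Finset.univ.inf fun i => Lt (T i n t) a) := (hg2 j).2
      rw [Submodule.mem_finsetInf] at h3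
      exact h3 i (Finset.mem_univ i)
    exact mem_Lt.1 h2 l hl

end Crest.Agent.R276.CntAsm_505
end

-- ▼ part R276/CntLow3_804
section

/-!
# Row 276, COUNT-LOW in the interface `CntDefs_857` (helper804)

`low_of_good` : smooth psh weights `φ, ψ` and a `Good φ ψ ν` point give
`≥ c₁ N^m t^ν` linearly independent elements of `V_N(t)`.
-/

set_option autoImplicit false
set_option linter.unusedSectionVars false

noncomputable section

open Set Filter Topology Complex MeasureTheory Metric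

namespace Crest.Agent.R276.CntLow3_804

open Crest.Agent.R271.Ho51 Crest.Agent.R271.W792 Crest.Agent.R276.CntLowA_804
open Crest.Agent.R271 Crest.Agent.R276.CntLowB_804 Crest.Agent.R276.CntLowC_804
open Crest.Agent.R276.CntLowD_804 Crest.Agent.R276.CntLowE_804 Crest.Agent.R276.CntLow_804
open Crest.Agent.R276.CntDefs_857

variable {m ν : ℕ} {M : Type} [TopologicalSpace M] [T2Space M] [RDom m M]

/-- holomorphy in a chart from smoothness and `∂̄ = 0`, with the derivative -/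
lemma hasFDerivAt_chart {e : OpenPartialHomeomorph M (Fin m → ℂ)} (he : IsCh e) {f : M → ℂ}
    {z : Fin m → ℂ} (hz : z ∈ e.target)
    (hf : ContDiffAt ℝ (⊤ : ℕ∞) (f ∘ (ch (e.symm z)).symm) (cp (e.symm z)))
    (hdb : ∀ j, db j f (e.symm z) = 0) :
    DifferentiableAt ℂ (f ∘ e.symm) z ∧
      ∀ w, fderiv ℂ (f ∘ e.symm) z w = ∑ j, dz j f (e.symm z) * w j := by
  have hcp : cp (e.symm z) = z := he.cp_symm hz
  have hgerm : (f ∘ (ch (e.symm z)).symm) =ᶠ[𝓝 (cp (e.symm z))] (f ∘ e.symm) :=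
    comp_germ (isCh_ch _) he (mem_ch _) (e.map_target hz) f
  have h1 : ContDiffAt ℝ (⊤ : ℕ∞) (f ∘ e.symm) z := by
    have := hf.congr_of_eventuallyEq hgerm.symm
    rwa [hcp] at this
  have h2 : DifferentiableAt ℝ (f ∘ e.symm) z := h1.differentiableAt (by simp)
  have h3 : ∀ w, fderiv ℝ (f ∘ e.symm) z w = ∑ j, dz j f (e.symm z) * w j := by
    intro w
    rw [← D_symm he hz, D_wirtinger]
    refine Finset.sum_congr rfl fun j _ => ?_
    rw [hdb j]; ring
  have h4 : DifferentiableAt ℂ (f ∘ e.symm) z := by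
    refine R266.SCV.differentiableAt_complex_of_real h2 fun v => ?_
    rw [h3, h3, Finset.smul_sum]
    refine Finset.sum_congr rfl fun j _ => ?_
    simp only [Pi.smul_apply, smul_eq_mul]
    ring
  refine ⟨h4, fun w => ?_⟩
  rw [← R266.SCV.fderiv_real_eq h4, h3]

/-- a matrix with independent rows is surjective -/
lemma surj_of_rows {A : Fin ν → Fin m → ℂ} (hA : LinearIndependent ℂ A) (y : Fin ν → ℂ) :
    ∃ w : Fin m → ℂ, ∀ i, ∑ j, A i j * w j = y i := by
  have h1 : (Matrix.of A).rank = Fintype.card (Fin ν) := LinearIndependent.rank_matrix hA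
  have h2 : LinearMap.range (Matrix.of A).mulVecLin = ⊤ := by
    apply Submodule.eq_top_of_finrank_eq
    rw [← Matrix.rank, h1, Module.finrank_fintype_fun_eq_card]
  have h3 : y ∈ LinearMap.range (Matrix.of A).mulVecLin := by rw [h2]; trivial
  obtain ⟨w, hw⟩ := h3
  exact ⟨w, fun i => by rw [← hw]; rfl⟩

/-- the chart data of a good point -/
theorem exists_LD {φ ψ : M → ℝ} (G : Good φ ψ ν) :
    ∃ S : LD m ν M, Function.Surjective (fderiv ℂ S.β S.z0) ∧
      (∀ z ∈ ball S.z0 S.r, ∀ w, G.c * nsq w ≤ Levi φ (S.e.symm z) w) ∧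
      (∀ z ∈ ball S.z0 S.r, ∀ w, G.c * ∑ i, ‖fderiv ℂ S.β z w i‖ ^ 2 ≤
        Levi ψ (S.e.symm z) w) ∧
      closedBall S.z0 S.r ⊆ S.e.target := by
  set e := ch G.x₀ with he_def
  have he : IsCh e := isCh_ch G.x₀
  have h0 : cp G.x₀ ∈ e.target := he.cp_mem (mem_ch G.x₀)
  have hT : (e.symm ⁻¹' (interior G.U)) ∩ e.target ∈ 𝓝 (cp G.x₀) := by
    refine inter_mem ?_ (e.open_target.mem_nhds h0)
    have h1 : ContinuousAt e.symm (cp G.x₀) := e.symm.continuousAt (by simpa using h0)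
    apply h1.preimage_mem_nhds
    rw [he.symm_cp (mem_ch G.x₀)]
    exact interior_mem_nhds.2 G.hU
  obtain ⟨r, hr, hball⟩ := Metric.nhds_basis_closedBall.mem_iff.1 hT
  have hbU : ∀ z ∈ ball (cp G.x₀) r, e.symm z ∈ G.U ∧ z ∈ e.target := fun z hz =>
    ⟨interior_subset (hball (ball_subset_closedBall hz)).1,
      (hball (ball_subset_closedBall hz)).2⟩
  have hchart : ∀ i, ∀ z ∈ ball (cp G.x₀) r, DifferentiableAt ℂ (G.b i ∘ e.symm) z ∧
      ∀ w, fderiv ℂ (G.b i ∘ e.symm) z w = ∑ j, dz j (G.b i) (e.symm z) * w j := fun i z hz =>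
    hasFDerivAt_chart he (hbU z hz).2 (G.smb i _ (hbU z hz).1)
      (fun j => G.holb i j _ (hbU z hz).1)
  have hfd : ∀ z ∈ ball (cp G.x₀) r, ∀ w i,
      fderiv ℂ (fun z i => G.b i (e.symm z)) z w i = ∑ j, dz j (G.b i) (e.symm z) * w j := by
    intro z hz w i
    have h1 : ∀ i, DifferentiableAt ℂ (fun z => G.b i (e.symm z)) z := fun i => (hchart i z hz).1
    rw [fderiv_pi h1]
    exact (hchart i z hz).2 w
  refine ⟨{ e := e
            he := he
            z0 := cp G.x₀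
            r := r
            hr := hr
            hB := fun z hz => (hbU z hz).2
            β := fun z i => G.b i (e.symm z)
            hβ := ?_ }, ?_, ?_, ?_, ?_⟩
  · intro z hz
    apply DifferentiableAt.differentiableWithinAt
    exact differentiableAt_pi.2 fun i => (hchart i z hz).1
  · intro y
    obtain ⟨w, hw⟩ := surj_of_rows G.ind y
    refine ⟨w, ?_⟩
    funext i
    show fderiv ℂ (fun z i => G.b i (e.symm z)) (cp G.x₀) w i = y i
    rw [hfd _ (mem_ball_self hr)]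
    rw [he.symm_cp (mem_ch G.x₀)]
    exact hw i
  · intro z hz w
    exact G.posφ _ (hbU z hz).1 w
  · intro z hz w
    refine le_trans (le_of_eq ?_) (G.posψ _ (hbU z hz).1 w)
    congr 1
    refine Finset.sum_congr rfl fun i _ => ?_
    rw [hfd z hz w i]
  · exact fun z hz => (hball hz).2

variable [SecondCountableTopology M] [MeasurableSpace M] [BorelSpace M] {μ : Measure M}

/-- **COUNT-LOW** at a good point -/
theorem low_of_good (hμ : IsLeb μ) {ρ : M → ℝ} (hρ : Sm ρ)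
    (hcpt : ∀ c, IsCompact {x | ρ x ≤ c}) (hL : ∀ x w, nsq w ≤ Levi ρ x w)
    {φ : M → ℝ} (hφ : Sm φ) (hφ0 : ∀ x w, 0 ≤ Levi φ x w)
    {ψ : M → ℝ} (hψ : Sm ψ) (hψ0 : ∀ x w, 0 ≤ Levi ψ x w) (G : Good φ ψ ν) :
    ∃ c1 : ℝ, 0 < c1 ∧ ∃ N0 : ℕ, ∀ N : ℕ, N0 ≤ N → ∀ t : ℕ, 1 ≤ t →
      ∃ (k : ℕ) (f : Fin k → M → ℂ), LinearIndependent ℂ f ∧
        (∀ i, Ho51.Hol (f i) ∧ ∫⁻ x, ENNReal.ofReal (‖f i x‖ ^ 2 *
          Real.exp (-(((N : ℝ) - 1) * φ x + N * t * ψ x))) ∂μ < ⊤) ∧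
        c1 * (N : ℝ) ^ m * (t : ℝ) ^ ν ≤ (k : ℝ) := by
  obtain ⟨S, hs, hp, hq, hcl⟩ := exists_LD G
  -- lower bound of `φ`
  have hK : IsCompact (S.e.symm '' closedBall S.z0 S.r) :=
    isCompact_symm_image (isCompact_closedBall _ _) hcl
  obtain ⟨A, hA⟩ := (hK.image hφ.continuous).bddBelow
  have hA' : ∀ z ∈ ball S.z0 S.r, -(-A) ≤ φ (S.e.symm z) := fun z hz => by
    rw [neg_neg]
    exact hA ⟨_, ⟨z, ball_subset_closedBall hz, rfl⟩, rfl⟩
  obtain ⟨c1, hc1, N0, h⟩ := count_low (μ := μ) hμ hρ hcpt hL (φs := fun _ => φ) (fun _ => hφ)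
    (fun _ => antitone_const) (fun _ => hφ0) hψ hψ0 S hs G.hc (fun _ => hp) (fun _ => hA') hq
  refine ⟨c1, hc1, N0, fun N hN t ht => ?_⟩
  obtain ⟨ι, hι, f, hf, hf2, hcard⟩ := h N hN t (by exact_mod_cast ht)
  refine ⟨Fintype.card ι, fun i => f ((Fintype.equivFin ι).symm i), ?_, fun i => ⟨(hf2 _).1, ?_⟩,
    hcard⟩
  · exact hf.comp _ (Fintype.equivFin ι).symm.injective
  · refine lt_of_le_of_lt (le_of_eq ?_) (hf2 ((Fintype.equivFin ι).symm i)).2
    refine lintegral_congr fun x => ?_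
    rw [ciSup_const, ENNReal.ofReal_mul (by positivity)]

end Crest.Agent.R276.CntLow3_804
end
end

-- ▼ part R276/CntMain_857
section

/-!
# R276, leaf COUNT (helper857): the counting theorem

For `t ≥ t₀` and `n` large there are many `L²` sections of `nK + ntL` without poles (and vanishing
to any prescribed order) along a finite family of divisors.
-/

set_option autoImplicit false

noncomputable section

open Set Filter Topology MeasureTheory Metric

namespace Crest.Agent.R276.CntMain_857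

open Crest.Agent.R271.Ho51 Crest.Agent.R276.CntDefs_857 Crest.Agent.R276.SliA_217
  Crest.Agent.R276.SliG_217 Crest.Agent.R276.SliI_217 Crest.Agent.R276.CntAsm_505
  Crest.Agent.R276.CntA_857 Crest.Agent.R276.CntB_857 Crest.Agent.R276.CntC_857
  Crest.Agent.R276.CntD_857

variable {d : ℕ} {M : Type} [TopologicalSpace M] [RDom (d + 1) M] [MeasurableSpace M]
    [BorelSpace M] {μ : Measure M}

/-- the sections (zero for `n = 0` or `t = 0`) -/
def X (μ : Measure M) {φ ψ : M → ℝ} (hφ : Measurable φ) (hψ : Measurable ψ) (n t : ℕ) :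
    Submodule ℂ (M → ℂ) := by
  classical
  exact if 1 ≤ n ∧ 1 ≤ t then V μ hφ hψ n t else ⊥

theorem mem_X {φ ψ : M → ℝ} (hφ : Measurable φ) (hψ : Measurable ψ) {n t : ℕ} (hn : 1 ≤ n)
    (ht : 1 ≤ t) {F : M → ℂ} : F ∈ X μ hφ hψ n t ↔ F ∈ V μ hφ hψ n t := by
  unfold X
  rw [if_pos ⟨hn, ht⟩]

theorem X_le {φ ψ : M → ℝ} (hφ : Measurable φ) (hψ : Measurable ψ) (n t : ℕ) :
    X μ hφ hψ n t ≤ V μ hφ hψ n t := by
  unfold X
  split_ifs
  · exact le_refl _
  · exact bot_le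

theorem X_holS {φ ψ : M → ℝ} (hφ : Measurable φ) (hψ : Measurable ψ) (n t : ℕ) :
    X μ hφ hψ n t ≤ HolS M := fun _ hF => (X_le hφ hψ n t hF).1

theorem X_zero {φ ψ : M → ℝ} (hφ : Measurable φ) (hψ : Measurable ψ) {n t : ℕ}
    (h : ¬ (1 ≤ n ∧ 1 ≤ t)) (F : X μ hφ hψ n t) : F = 0 := by
  have h2 : X μ hφ hψ n t = ⊥ := by unfold X; rw [if_neg h]
  have h1 : F.1 ∈ (⊥ : Submodule ℂ (M → ℂ)) := h2 ▸ F.2
  rw [Submodule.mem_bot] at h1
  exact Subtype.ext h1

variable {ι : Type*} [Fintype ι] {E : ι → Type*} [∀ i, TopologicalSpace (E i)]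
  [∀ i, RDom d (E i)]

/-- the coefficient maps -/
def T {φ ψ : M → ℝ} (hφ : Measurable φ) (hψ : Measurable ψ) (D : ∀ i, DChart M (E i) μ)
    (k : ι → ℤ) (i : ι) (n t : ℕ) (l : ℤ) : X μ hφ hψ n t →ₗ[ℂ] (E i → ℂ) :=
  (coLin (D i) n t (k i) l).comp (Submodule.inclusion (X_holS hφ hψ n t))

omit [Fintype ι] in
theorem T_apply {φ ψ : M → ℝ} (hφ : Measurable φ) (hψ : Measurable ψ)
    (D : ∀ i, DChart M (E i) μ) (k : ι → ℤ) (i : ι) (n t : ℕ) (l : ℤ) (F : X μ hφ hψ n t) :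
    T hφ hψ D k i n t l F = co (D i) n t (k i) F.1 l := rfl

omit [MeasurableSpace M] [BorelSpace M] in
/-- the number of differentials -/
theorem nu_le {φ ψ : M → ℝ} {ν : ℕ} (G : Good φ ψ ν) : ν ≤ d + 1 := by
  have h1 := G.ind.fintype_card_le_finrank
  simpa using h1

/-- **the counting theorem** -/
theorem main [T2Space M] [SecondCountableTopology M] (hμ : IsLeb μ) {ρ : M → ℝ} (hρ : Sm ρ)
    (hcpt : ∀ c, IsCompact {x | ρ x ≤ c}) (hL : ∀ x w, nsq w ≤ Levi ρ x w)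
    {φ : M → ℝ} (hφ : Sm φ) (hφ0 : ∀ x w, 0 ≤ Levi φ x w)
    {ψ : M → ℝ} (hψ : Sm ψ) (hψ0 : ∀ x w, 0 ≤ Levi ψ x w) {ν : ℕ} (G : Good φ ψ ν)
    (D : ∀ i, DChart M (E i) μ) (k : ι → ℤ) (bad : Finset ι) (hν : bad.Nonempty → 0 < ν)
    (P : ∀ i ∈ bad, Nonempty (Full (D i) φ ψ (k i) (ν - 1)))
    (hG1 : ∀ i ∈ bad, Gen (D i) φ ψ (k i) 1)
    (Q : ∀ i ∉ bad, Nonempty (Gro (D i) φ ψ (k i)))
    (hG0 : ∀ i ∉ bad, Gen (D i) φ ψ (k i) 0) (a : ℕ) :
    ∃ c : ℝ, 0 < c ∧ ∃ t₀ : ℕ, ∀ t ≥ t₀, ∃ N : ℕ, ∀ n ≥ N, ∃ (m : ℕ) (f : Fin m → M → ℂ),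
      LinearIndependent ℂ f ∧ c * (n : ℝ) ^ (d + 1) * (t : ℝ) ^ ν ≤ m ∧
      ∀ j, f j ∈ V μ hφ.continuous.measurable hψ.continuous.measurable n t ∧
        ∀ i, ∀ l < (a : ℤ), co (D i) n t (k i) (f j) l = 0 := by
  have hφm := hφ.continuous.measurable
  have hψm := hψ.continuous.measurable
  obtain ⟨c, hc, N0, hlow⟩ := CntLow3_804.low_of_good (μ := μ) hμ hρ hcpt hL hφ hφ0 hψ hψ0 G
  have hνd : ν - 1 ≤ d := by have := nu_le G; omega
  refine ⟨c / 2, by positivity, ?_⟩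
  -- the bounds at the bad divisors
  have hbad : ∀ i ∈ bad, ∃ C1 : ℕ, ∀ n t : ℕ, 1 ≤ n → a ≤ n → 1 ≤ t → ∀ l : ℤ, -n < l → l < a →
      Bd ((Lt (T hφm hψm D k i n t) l).map (T hφm hψm D k i n t l))
        (C1 * n ^ d * t ^ (ν - 1)) := by
    intro i hi
    obtain ⟨Pi⟩ := P i hi
    obtain ⟨A, hA⟩ := pg (D i) hφm hψm Pi.gro
    obtain ⟨B, hB⟩ := gr (D i) hφm hψm Pi
    obtain ⟨C1, hC1⟩ := upCount_nt (D i) Pi hνd (4 * A) (3 * B)
    refine ⟨C1, fun n t hn han ht l hl1 hl2 => ?_⟩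
    have hln : l.natAbs ≤ n := by omega
    have hnt : n ≤ n * t := Nat.le_mul_of_pos_right n ht
    refine hC1 n t hn ht (n * t) (B * (n + l.natAbs + 1)) (A * (n * t + n + l.natAbs + 1)) ?_ ?_ _ ?_
    · calc B * (n + l.natAbs + 1) ≤ B * (3 * n) := Nat.mul_le_mul_left B (by omega)
        _ = 3 * B * n := by ring
    · calc A * (n * t + n + l.natAbs + 1) ≤ A * (4 * (n * t)) := Nat.mul_le_mul_left A (by omega)
        _ = 4 * A * (n * t) := by ring
    · rintro f ⟨F, hF, rfl⟩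
      rw [SetLike.mem_coe, mem_Lt] at hF
      have hFV : F.1 ∈ V μ hφm hψm n t := X_le hφm hψm n t F.2
      exact ⟨co_hol (D i) n t (k i) hFV.1 l, hB n t hn l F.1 hFV (fun l' hl' => hF l' hl'),
        hA n t hn l F.1 hFV⟩
  have hgood : ∀ i ∉ bad, ∃ C1 : ℕ, ∀ n t : ℕ, 1 ≤ n → a ≤ n → 1 ≤ t → ∀ l : ℤ, 0 ≤ l → l < a →
      Bd ((Lt (T hφm hψm D k i n t) l).map (T hφm hψm D k i n t l))
        (C1 * (n * t) ^ d) := by
    intro i hi
    obtain ⟨Qi⟩ := Q i hi
    obtain ⟨A, hA⟩ := pg (D i) hφm hψm Qi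
    obtain ⟨C0, hC0⟩ := up_growth (D i).cov (D i).κ
    refine ⟨C0 * (4 * A + 1) ^ d, fun n t hn han ht l hl1 hl2 => ?_⟩
    have hln : l.natAbs ≤ n := by omega
    have hnt : n ≤ n * t := Nat.le_mul_of_pos_right n ht
    refine (hC0 (D i).c (D i).hc0 (A * (n * t + n + l.natAbs + 1)) _ ?_).le ?_
    · rintro f ⟨F, hF, rfl⟩
      have hFV : F.1 ∈ V μ hφm hψm n t := X_le hφm hψm n t F.2
      exact ⟨co_hol (D i) n t (k i) hFV.1 l, hA n t hn l F.1 hFV⟩
    · have h1 : A * (n * t + n + l.natAbs + 1) + 1 ≤ (4 * A + 1) * (n * t) := by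
        have h2 : A * (n * t + n + l.natAbs + 1) ≤ A * (4 * (n * t)) :=
          Nat.mul_le_mul_left A (by omega)
        have h3 : (4 * A + 1) * (n * t) = A * (4 * (n * t)) + n * t := by ring
        omega
      calc C0 * (A * (n * t + n + l.natAbs + 1) + 1) ^ d ≤ C0 * ((4 * A + 1) * (n * t)) ^ d := by
            gcongr
        _ = C0 * (4 * A + 1) ^ d * (n * t) ^ d := by rw [mul_pow]; ring
  choose! Cb hCb using hbad
  choose! Cg hCg using hgood
  obtain ⟨t₀, ht₀⟩ := count (d := d) (ν := ν) (a := a) (T hφm hψm D k) hc (N₀ := max N0 1)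
    (fun n hn t ht => by
      obtain ⟨m, f, hf, hf2, hm⟩ := hlow n (le_trans (le_max_left _ _) hn) t ht
      have hn1 : 1 ≤ n := le_trans (le_max_right _ _) hn
      have hX : ∀ j, f j ∈ X μ hφm hψm n t := fun j =>
        (mem_X hφm hψm hn1 ht).2 ⟨(hf2 j).1, (hf2 j).2⟩
      refine ⟨m, fun j => ⟨f j, hX j⟩, ?_, hm⟩
      have h1 : (X μ hφm hψm n t).subtype ∘ (fun j => (⟨f j, hX j⟩ : X μ hφm hψm n t)) = f := rfl
      rw [← h1] at hf
      exact LinearIndependent.of_comp _ hf)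
    bad hν
    (fun i hi n t F l hl => by
      by_cases h : 1 ≤ n ∧ 1 ≤ t
      · rw [T_apply]
        exact co_van (D i) hφm hψm (hG1 i hi) h.1 (X_le hφm hψm n t F.2) (by
          push_cast
          omega)
      · rw [X_zero hφm hψm h F, map_zero])
    (fun i hi n t F l hl => by
      by_cases h : 1 ≤ n ∧ 1 ≤ t
      · rw [T_apply]
        exact co_van (D i) hφm hψm (hG0 i hi) h.1 (X_le hφm hψm n t F.2) (by
          push_cast
          omega)
      · rw [X_zero hφm hψm h F, map_zero])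
    (C := ((∑ i, Cb i : ℕ) : ℝ))
    (fun i hi t ht => ⟨max a 1, fun n hn l hl1 hl2 => ⟨Cb i * n ^ d * t ^ (ν - 1), by
        have h1 : Cb i ≤ ∑ i, Cb i := Finset.single_le_sum (fun _ _ => Nat.zero_le _)
          (Finset.mem_univ i)
        have h2 : Cb i * n ^ d * t ^ (ν - 1) ≤ (∑ i, Cb i) * n ^ d * t ^ (ν - 1) := by gcongr
        exact_mod_cast h2,
      hCb i hi n t (le_trans (le_max_right _ _) hn) (le_trans (le_max_left _ _) hn) ht l hl1 hl2⟩⟩)
    (fun i hi t ht => ⟨(Cg i : ℝ) * (t : ℝ) ^ d, max a 1, fun n hn l hl1 hl2 =>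
      ⟨Cg i * (n * t) ^ d, by
        push_cast
        rw [mul_pow]
        apply le_of_eq; ring,
      hCg i hi n t (le_trans (le_max_right _ _) hn) (le_trans (le_max_left _ _) hn) ht l hl1 hl2⟩⟩)
  refine ⟨max t₀ 1, fun t ht => ?_⟩
  obtain ⟨N, hN⟩ := ht₀ t (le_trans (le_max_left _ _) ht)
  refine ⟨max N 1, fun n hn => ?_⟩
  obtain ⟨m, f, hf, hm, hf2⟩ := hN n (le_trans (le_max_left _ _) hn)
  refine ⟨m, fun j => (f j).1, ?_, hm, fun j => ⟨X_le hφm hψm n t (f j).2, fun i l hl => ?_⟩⟩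
  · exact hf.map' (X μ hφm hψm n t).subtype (Submodule.ker_subtype _)
  · exact hf2 j i l hl

end Crest.Agent.R276.CntMain_857
end
end

-- ▼ part R276/C4T_804

/-!
# R276, leaf C4-GLUE (helper804): the counting theorem gives `SkelDefs_220.C4` on one tower

* `CDT`  : counting data along one divisorial valuation ring `R` with `R ∩ T ≠ T` (327's route);
* `ExMem`: `L²` sections are algebraic; `BdInt`: the bound at `R` with `T ⊆ R`;
* `c4T`  : (C4) for `ρ = d + 1`;  `c4T0`: (C4) if `T ⊆ R` for all divisorial `R` (e.g. `ρ = 0`).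
-/

set_option autoImplicit false

open Set Filter Topology MeasureTheory

noncomputable section

namespace Crest.Agent.R276.C4T_804

open Crest.Agent.R271 Crest.Agent.R271.Rd692 Crest.Agent.R271.Ho51
open Crest.Agent.R271.Defs710 hiding glue
open Crest.Agent.R276.Mod1_987 Crest.Agent.R276.FKDefs_779
open Crest.Agent.R276.CntDefs_857 Crest.Agent.R276.CntA_857 Crest.Agent.R276.CntB_857
open Crest.Agent.R276.SkelDefs_220 hiding ModelOf
open Crest.Agent.R276.C4Loc_327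
open Crest.Agent.R276.C4GDefs_804 (RT)

/-- (C2) the `L²` sections are regular functions -/
def ExMem : Prop :=
  ∀ (T : Type) [Field T] [Algebra ℂ T] (d : ℕ) (MT : Mdl T (d + 1)) (μ : Measure MT.Pts), IsLeb μ →
    ∀ (φ ψ : MT.Pts → ℝ) (hφ : Continuous φ) (hψ : Continuous ψ),
    PGr MT (fun y => Real.exp (φ y)) → PGr MT (fun y => Real.exp (ψ y)) →
    ∀ k t : ℕ, 1 ≤ k → ∀ F : MT.Pts → ℂ, F ∈ V μ hφ.measurable hψ.measurable k t →
      ∃ b : MT.B, ∀ y : MT.Pts, y b = F y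

/-- (C4) the bound at the `R` with `T ⊆ R` -/
def BdInt : Prop :=
  ∀ (T L K : Type) [Field T] [Field L] [Field K] [Algebra ℂ T] [Algebra ℂ L] [Algebra ℂ K]
    [Algebra T L] [Algebra L K] [IsScalarTower ℂ T L] [IsScalarTower ℂ L K] (ρ a r : ℕ)
    (MT : Mdl T ρ) (ML : Mdl L (ρ + a)) (MK : Mdl K (ρ + a + r)) (H₁ : Rel MT ML)
    (H₂ : Rel ML MK) (R : ValuationSubring K), IsDiv ℂ (ρ + a + r) R →
    (∀ x : T, algebraMap L K (algebraMap T L x) ∈ R) → ∀ G : MT.Pts → ℝ, Continuous G →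
    (∀ x, 0 ≤ G x) → ∀ κ : ℝ, 0 ≤ κ → BdL H₁ H₂ R fun Y η =>
      G (H₁.f (Y.cL.s η)) * ‖Y.jN η‖ ^ 2 *
        (1 + ∑ i, ‖tc ML (eL ρ a) (Y.cL.s η) i‖ ^ 2) ^ κ

section gen

variable {T L K : Type} [Field T] [Field L] [Field K] [Algebra ℂ T] [Algebra ℂ L] [Algebra ℂ K]
  [Algebra T L] [Algebra L K] [IsScalarTower ℂ T L] [IsScalarTower ℂ L K] {ρ a r : ℕ}
  {MT : Mdl T ρ} {ML : Mdl L (ρ + a)} {MK : Mdl K (ρ + a + r)}
  {H₁ : Rel MT ML} {H₂ : Rel ML MK} {R : ValuationSubring K}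

theorem bdL_congr {v w : (Y : TChart H₁ H₂ R) → Cn (ρ + a) → ℝ} (h : BdL H₁ H₂ R v)
    (hvw : ∀ Y η, w Y η = v Y η) : BdL H₁ H₂ R w := by
  have : w = v := by
    funext Y η
    exact hvw Y η
  rw [this]
  exact h

theorem bdL_const_mul {v : (Y : TChart H₁ H₂ R) → Cn (ρ + a) → ℝ} (h : BdL H₁ H₂ R v) {c : ℝ}
    (hc : 0 ≤ c) : BdL H₁ H₂ R fun Y η => c * v Y η := by
  obtain ⟨F, FL, hF, hFL, h⟩ := h
  refine ⟨F, FL, hF, hFL, fun Y h1 h2 h3 δ' hδ' => ?_⟩
  obtain ⟨C, k, hb⟩ := h Y h1 h2 h3 δ' hδ'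
  refine ⟨c * C, k, fun ζ hζ => ?_⟩
  rw [mul_assoc]
  exact mul_le_mul_of_nonneg_left (hb ζ hζ) hc

/-- the metric: `|σ|^{2/n} D^{tp} = c |F|^{2/n} e^{-t p ψ}` for `σ = b u^{n t p'}`, `p = M₀ p'` -/
theorem sig_eq {n t M0 p' : ℕ} (hn : 0 < n) {f U Dz ψ c : ℝ} (hf : 0 ≤ f) (hU : 0 ≤ U)
    (hu : U ^ 2 * Dz ^ M0 = c * Real.exp (-(M0 * ψ))) :
    (f * U ^ (n * t * p')) ^ (2 / (n : ℝ)) * Dz ^ ((t * (M0 * p') : ℕ) : ℝ) =
      c ^ (t * p') * (f ^ (2 / (n : ℝ)) * Real.exp (-(t * ((M0 * p' : ℕ) * ψ)))) := by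
  have hn' : (n : ℝ) ≠ 0 := by positivity
  have h1 : (U ^ (n * t * p')) ^ (2 / (n : ℝ)) = (U ^ 2) ^ (t * p') := by
    rw [← Real.rpow_natCast U (n * t * p'), ← Real.rpow_mul hU, ← pow_mul,
      ← Real.rpow_natCast U (2 * (t * p'))]
    congr 1
    push_cast
    field_simp
  have h2 : Dz ^ ((t * (M0 * p') : ℕ) : ℝ) = (Dz ^ M0) ^ (t * p') := by
    rw [Real.rpow_natCast, ← pow_mul]
    congr 1
    ring
  rw [Real.mul_rpow hf (by positivity), h1, h2]
  calc f ^ (2 / (n : ℝ)) * (U ^ 2) ^ (t * p') * (Dz ^ M0) ^ (t * p') =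
      f ^ (2 / (n : ℝ)) * (U ^ 2 * Dz ^ M0) ^ (t * p') := by rw [mul_pow]; ring
    _ = f ^ (2 / (n : ℝ)) * (c ^ (t * p') * Real.exp (-(M0 * ψ)) ^ (t * p')) := by
        rw [hu, mul_pow]
    _ = _ := by
        rw [← Real.exp_nat_mul]
        have : ((t * p' : ℕ) : ℝ) * -(M0 * ψ) = -(t * ((M0 * p' : ℕ) * ψ)) := by
          push_cast; ring
        rw [this]
        ring

/-- the section: `b` regular on `M_T`, `u` a unit of `M_L` -/
def sg (H₁ : Rel MT ML) (b : MT.B) (u : ML.B) (m : ℕ) : ML.B := H₁.incl b * u ^ m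

theorem sg_apply (b : MT.B) (u : ML.B) (m : ℕ) (z : ML.Pts) :
    z (sg H₁ b u m) = H₁.f z b * z u ^ m := by
  unfold sg
  rw [map_mul, map_pow]
  rfl

theorem incl_inj : Function.Injective H₁.incl := by
  intro x y h
  have h1 : ((H₁.incl x : ML.B) : L) = H₁.incl y := by rw [h]
  exact Subtype.ext ((algebraMap T L).injective h1)

theorem sg_ne {b : MT.B} (hb : b ≠ 0) {u : ML.B} (hu : u ≠ 0) (m : ℕ) : sg H₁ b u m ≠ 0 := by
  refine mul_ne_zero (fun h => hb (incl_inj (H₁ := H₁) ?_)) (pow_ne_zero _ hu)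
  rw [h, map_zero]

theorem norm_sg {n t M0 p' : ℕ} (hn : 0 < n) {D : ML.Pts → ℝ} {b : MT.B}
    {u : ML.B} {ψ : MT.Pts → ℝ} {c : ℝ}
    (hu : ∀ z : ML.Pts, ‖z u‖ ^ 2 * D z ^ M0 = c * Real.exp (-(M0 * ψ (H₁.f z)))) (z : ML.Pts) :
    ‖z (sg H₁ b u (n * t * p'))‖ ^ (2 / (n : ℝ)) * D z ^ ((t * (M0 * p') : ℕ) : ℝ) =
      c ^ (t * p') * (‖H₁.f z b‖ ^ (2 / (n : ℝ)) *
        Real.exp (-(t * ((M0 * p' : ℕ) * ψ (H₁.f z))))) := by
  rw [sg_apply, norm_mul, norm_pow]
  exact sig_eq hn (norm_nonneg _) (norm_nonneg _) (hu z)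

/-- constancy on the fibres -/
theorem const_fib {n t M0 p' : ℕ} (hn : 0 < n) {D : ML.Pts → ℝ} {b : MT.B}
    {u : ML.B} {ψ : MT.Pts → ℝ} {c : ℝ}
    (hu : ∀ z : ML.Pts, ‖z u‖ ^ 2 * D z ^ M0 = c * Real.exp (-(M0 * ψ (H₁.f z)))) :
    ∀ᵐ c' : Cn ρ, ∀ y : MT.Pts, MT.pz y = c' → ∃ c₀ : ℝ, ∀ z : ML.Pts, H₁.f z = y →
        ‖z (sg H₁ b u (n * t * p'))‖ ^ (2 / (n : ℝ)) * D z ^ ((t * (M0 * p') : ℕ) : ℝ) = c₀ := by
  refine Eventually.of_forall fun c' y _ => ⟨c ^ (t * p') * (‖y b‖ ^ (2 / (n : ℝ)) *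
        Real.exp (-(t * ((M0 * p' : ℕ) * ψ y)))), fun z hz => ?_⟩
  rw [norm_sg hn hu z, hz]

/-- **(C4) if `T ⊆ R` for all `R`** (for example if `ρ = 0`) -/
theorem c4T0 (hB : BdInt) {D : ML.Pts → ℝ} {ψ : MT.Pts → ℝ} (hψ : Continuous ψ) {M0 : ℕ}
    (hM : 0 < M0) {u : ML.B} {c : ℝ} (hc : 0 < c)
    (hu : ∀ z : ML.Pts, ‖z u‖ ^ 2 * D z ^ M0 = c * Real.exp (-(M0 * ψ (H₁.f z))))
    (S : Set (ValuationSubring K)) (hS : ∀ R ∈ S, IsDiv ℂ (ρ + a + r) R)
    (hT : ∀ R ∈ S, ∀ x : T, algebraMap L K (algebraMap T L x) ∈ R) (t₀ : ℕ) :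
    ∃ t : ℕ, t₀ ≤ t ∧ ∃ (k : ℕ) (σ : ML.B) (κ : ℝ), 0 < k ∧ σ ≠ 0 ∧ 0 < κ ∧
      (∀ R ∈ S, BdL H₁ H₂ R fun Y η =>
        ‖Y.cL.s η σ‖ ^ (2 / (k : ℝ)) * ‖Y.jN η‖ ^ 2 * D (Y.cL.s η) ^ (t : ℝ) *
          (1 + ∑ i, ‖tc ML (eL ρ a) (Y.cL.s η) i‖ ^ 2) ^ κ) ∧
      ∀ᵐ c : Cn ρ, ∀ y : MT.Pts, MT.pz y = c → ∃ c₀ : ℝ, ∀ z : ML.Pts, H₁.f z = y →
        ‖z σ‖ ^ (2 / (k : ℝ)) * D z ^ (t : ℝ) = c₀ := by
  have hu0 : u ≠ 0 := by
    intro h0
    obtain ⟨z⟩ : Nonempty ML.Pts := inferInstance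
    have h1 := hu z
    rw [h0, map_zero, norm_zero] at h1
    have h2 : 0 < c * Real.exp (-(M0 * ψ (H₁.f z))) := by positivity
    rw [← h1] at h2
    simp at h2
  refine ⟨t₀ * (M0 * 1), ?_, 1, sg H₁ 1 u (1 * t₀ * 1), 1, one_pos, sg_ne one_ne_zero hu0 _,
    one_pos, fun R hR => ?_, const_fib one_pos hu⟩
  · calc t₀ = t₀ * 1 := (mul_one _).symm
      _ ≤ t₀ * (M0 * 1) := Nat.mul_le_mul_left _ (by omega)
  · set G : MT.Pts → ℝ := fun y => c ^ (t₀ * 1) * (‖y (1 : MT.B)‖ ^ (2 / ((1 : ℕ) : ℝ)) *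
        Real.exp (-(t₀ * ((M0 * 1 : ℕ) * ψ y)))) with hG
    have hGc : Continuous G := by
      simp only [hG, map_one]
      fun_prop
    refine bdL_congr (hB T L K ρ a r MT ML MK H₁ H₂ R (hS R hR) (hT R hR) G hGc
      (fun y => by positivity) 1 zero_le_one) fun Y η => ?_
    have h1 := norm_sg (b := (1 : MT.B)) (t := t₀) (p' := 1) one_pos hu (Y.cL.s η)
    simp only [hG]
    rw [← h1]
    ring

end gen

section main

variable {T L K : Type} [Field T] [Field L] [Field K] [Algebra ℂ T] [Algebra ℂ L] [Algebra ℂ K]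
  [Algebra T L] [Algebra L K] [IsScalarTower ℂ T L] [IsScalarTower ℂ L K] {d a r : ℕ}
  {MT : Mdl T (d + 1)} {ML : Mdl L (d + 1 + a)} {MK : Mdl K (d + 1 + a + r)}

/-- counting data for the weights `φ`, `ψ` of `M_T` along `R`, `R ∩ T ≠ T` -/
structure CDT (μ : Measure MT.Pts) (φ ψ : MT.Pts → ℝ) (ν : ℕ) (H₁ : Rel MT ML) (H₂ : Rel ML MK)
    (R : ValuationSubring K) where
  /-- the divisor of the multisection -/
  E : Type
  [top : TopologicalSpace E]
  [rdom : RDom d E]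
  D : DChart MT.Pts E μ
  k : ℤ
  /-- bad or good divisor -/
  alt : (0 < ν ∧ Nonempty (Full D φ ψ k (ν - 1)) ∧ Gen D φ ψ k 1) ∨
    (Nonempty (Gro D φ ψ k) ∧ Gen D φ ψ k 0)
  low : Low D ψ k
  A : ℕ
  grow : Grow D A
  trans : Trans H₁ H₂ R D

attribute [instance] CDT.top CDT.rdom

variable {H₁ : Rel MT ML} {H₂ : Rel ML MK}

/-- **(C4) from the counting data** -/
theorem c4T (hE : ExMem) (hB : BdInt) {D : ML.Pts → ℝ} {φ ψ : MT.Pts → ℝ} (hφ : Sm φ)
    (hψ : Sm ψ) (hφ0 : ∀ x w, 0 ≤ Levi φ x w) (hψ0 : ∀ x w, 0 ≤ Levi ψ x w)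
    (hφg : PGr MT (fun y => Real.exp (φ y))) (hψg : PGr MT (fun y => Real.exp (ψ y)))
    {M0 : ℕ} (hM : 0 < M0) {u : ML.B} {c : ℝ} (hc : 0 < c)
    (hu : ∀ z : ML.Pts, ‖z u‖ ^ 2 * D z ^ M0 = c * Real.exp (-(M0 * ψ (H₁.f z))))
    (hdat : ∀ S : Set (ValuationSubring K), S.Finite →
      (∀ R ∈ S, IsDiv ℂ (d + 1 + a + r) R) →
      (∀ R ∈ S, ∃ x : T, algebraMap L K (algebraMap T L x) ∉ R) →
      ∃ (p : ℕ) (ν : ℕ) (μ : Measure MT.Pts), 0 < p ∧ IsLeb μ ∧
        Nonempty (Good φ (fun y => ((M0 * p : ℕ) : ℝ) * ψ y) ν) ∧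
        ∀ R ∈ S, Nonempty (CDT μ φ (fun y => ((M0 * p : ℕ) : ℝ) * ψ y) ν H₁ H₂ R)) :
    C4 H₁ H₂ D := by
  classical
  intro S hSf hSd t₀
  set S' : Set (ValuationSubring K) :=
    {R | R ∈ S ∧ ∃ x : T, algebraMap L K (algebraMap T L x) ∉ R} with hS'
  have hS'f : S'.Finite := hSf.subset fun R hR => hR.1
  obtain ⟨p, ν, μ, hp, hμ, ⟨G⟩, hCD⟩ := hdat S' hS'f (fun R hR => hSd R hR.1) fun R hR => hR.2
  have : Fintype S' := hS'f.fintype
  set ψp : MT.Pts → ℝ := fun y => ((M0 * p : ℕ) : ℝ) * ψ y with hψp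
  have hψps : Sm ψp := (Sm.const _).mulR hψ
  have hψp0 : ∀ x w, 0 ≤ Levi ψp x w := by
    intro x w
    rw [hψp, CntLow_804.Levi_const_mul hψ]
    exact mul_nonneg (Nat.cast_nonneg _) (hψ0 x w)
  have hψpg : PGr MT (fun y => Real.exp (ψp y)) := by
    have h1 := EndC_723.pgr_rpow (fun y => (Real.exp_pos (ψ y)).le) hψg
      (Nat.cast_nonneg (M0 * p) : (0 : ℝ) ≤ ((M0 * p : ℕ) : ℝ))
    have h2 : (fun y => Real.exp (ψp y)) =
        fun y => Real.exp (ψ y) ^ (((M0 * p : ℕ) : ℝ)) := by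
      funext y
      rw [← Real.exp_mul, mul_comm]
    rw [h2]
    exact h1
  have Q : ∀ i : S', CDT μ φ ψp ν H₁ H₂ i.1 := fun i => (hCD i.1 i.2).some
  obtain ⟨ρ, hρ, hcpt, hL⟩ := MT.exists_rho
  let bad : Finset S' := Finset.univ.filter fun i =>
    0 < ν ∧ Nonempty (Full (Q i).D φ ψp (Q i).k (ν - 1)) ∧ Gen (Q i).D φ ψp (Q i).k 1
  have hbad : ∀ i, i ∈ bad ↔ (0 < ν ∧ Nonempty (Full (Q i).D φ ψp (Q i).k (ν - 1)) ∧
      Gen (Q i).D φ ψp (Q i).k 1) := fun i => by simp [bad]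
  have hgood : ∀ i ∉ bad, Nonempty (Gro (Q i).D φ ψp (Q i).k) ∧ Gen (Q i).D φ ψp (Q i).k 0 := by
    intro i hi
    rcases (Q i).alt with h | h
    · exact absurd ((hbad i).2 h) hi
    · exact h
  obtain ⟨c₀, hc₀, t₁, hmain⟩ := CntMain_857.main (E := fun i : S' => (Q i).E) hμ hρ hcpt hL hφ
    hφ0 hψps hψp0 G (fun i => (Q i).D) (fun i => (Q i).k) bad
    (fun ⟨i, hi⟩ => ((hbad i).1 hi).1) (fun i hi => ((hbad i).1 hi).2.1)
    (fun i hi => ((hbad i).1 hi).2.2) (fun i hi => (hgood i hi).1)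
    (fun i hi => (hgood i hi).2) 1
  set t : ℕ := max (max t₀ t₁) 1 with ht
  obtain ⟨N, hN⟩ := hmain t ((le_max_right _ _).trans (le_max_left _ _))
  set n : ℕ := max N 1 with hn
  have hn1 : 1 ≤ n := le_max_right _ _
  have ht1 : 1 ≤ t := le_max_right _ _
  obtain ⟨m, f, hf, hm, hfV⟩ := hN n (le_max_left _ _)
  have hm0 : 0 < m := by
    have h1 : (0 : ℝ) < m := by
      refine lt_of_lt_of_le ?_ hm
      have h2 : (0 : ℝ) < n := by exact_mod_cast hn1
      have h3 : (0 : ℝ) < t := by exact_mod_cast ht1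
      positivity
    exact_mod_cast h1
  set F : MT.Pts → ℂ := f ⟨0, hm0⟩ with hF
  have hF0 : F ≠ 0 := hf.ne_zero ⟨0, hm0⟩
  obtain ⟨hFV, hFco⟩ := hfV ⟨0, hm0⟩
  have hFhol : Hol F := hFV.1
  obtain ⟨b, hb⟩ := hE T d MT μ hμ φ ψp hφ.continuous hψps.continuous hφg hψpg n t hn1 F hFV
  have hb0 : b ≠ 0 := by
    rintro rfl
    apply hF0
    funext y
    rw [← hb y, map_zero]
    rfl
  have hu0 : u ≠ 0 := by
    intro h0
    obtain ⟨z⟩ : Nonempty ML.Pts := inferInstance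
    have h1 := hu z
    rw [h0, map_zero, norm_zero] at h1
    have h2 : 0 < c * Real.exp (-(M0 * ψ (H₁.f z))) := by positivity
    rw [← h1] at h2
    simp at h2
  -- the exponent `κ`
  set A : ℕ := ∑ i : S', (Q i).A with hA
  set κ : ℝ := ((n : ℝ) * A + 1)⁻¹ with hκ
  have hκ0 : 0 < κ := by positivity
  have hAκ : ∀ i : S', (n : ℝ) * (Q i).A * κ ≤ 1 := by
    intro i
    have h1 : (Q i).A ≤ A := Finset.single_le_sum (f := fun i : S' => (Q i).A)
      (fun _ _ => Nat.zero_le _) (Finset.mem_univ i)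
    have h2 : ((Q i).A : ℝ) ≤ A := by exact_mod_cast h1
    rw [hκ, ← div_eq_mul_inv, div_le_one (by positivity)]
    have h3 : (n : ℝ) * (Q i).A ≤ n * A := mul_le_mul_of_nonneg_left h2 (Nat.cast_nonneg _)
    linarith
  refine ⟨t * (M0 * p), ?_, n, sg H₁ b u (n * t * p), κ, hn1, sg_ne hb0 hu0 _, hκ0,
    fun R hR => ?_, const_fib hn1 hu⟩
  · calc t₀ ≤ t := (le_max_left _ _).trans (le_max_left _ _)
      _ = t * 1 := (mul_one _).symm
      _ ≤ t * (M0 * p) := Nat.mul_le_mul_left _ (Nat.mul_pos hM hp)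
  · have hc' : 0 ≤ c ^ (t * p) := by positivity
    by_cases hRT : ∃ x : T, algebraMap L K (algebraMap T L x) ∉ R
    · have hi : R ∈ S' := ⟨hR, hRT⟩
      have h1 := bdL_of_cdt (Q ⟨R, hi⟩).trans hn1 hFhol
        (fun l hl => hFco ⟨R, hi⟩ l (by simpa using hl)) hψps.continuous (Q ⟨R, hi⟩).low
        (Q ⟨R, hi⟩).grow hκ0.le (hAκ ⟨R, hi⟩) (t := t)
      refine bdL_congr (bdL_const_mul h1 hc') fun Y η => ?_
      have h2 := norm_sg (b := b) (t := t) (p' := p) hn1 hu (Y.cL.s η)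
      rw [hb] at h2
      calc _ = ‖Y.cL.s η (sg H₁ b u (n * t * p))‖ ^ (2 / (n : ℝ)) *
            D (Y.cL.s η) ^ ((t * (M0 * p) : ℕ) : ℝ) * ‖Y.jN η‖ ^ 2 *
            (1 + ∑ i, ‖tc ML (eL (d + 1) a) (Y.cL.s η) i‖ ^ 2) ^ κ := by ring
        _ = _ := by rw [h2]; ring
    · push Not at hRT
      have hG : Continuous fun y : MT.Pts => c ^ (t * p) * (‖F y‖ ^ (2 / (n : ℝ)) *
          Real.exp (-(t * ψp y))) := by
        refine continuous_const.mul (((Hol_cont hFhol).norm.rpow_const fun _ =>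
          Or.inr (by positivity)).mul ?_)
        exact Real.continuous_exp.comp (continuous_const.mul hψps.continuous).neg
      refine bdL_congr (hB T L K (d + 1) a r MT ML MK H₁ H₂ R (hSd R hR) hRT _ hG
        (fun y => by positivity) κ hκ0.le) fun Y η => ?_
      have h2 := norm_sg (b := b) (t := t) (p' := p) hn1 hu (Y.cL.s η)
      rw [hb] at h2
      calc _ = ‖Y.cL.s η (sg H₁ b u (n * t * p))‖ ^ (2 / (n : ℝ)) *
            D (Y.cL.s η) ^ ((t * (M0 * p) : ℕ) : ℝ) * ‖Y.jN η‖ ^ 2 *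
            (1 + ∑ i, ‖tc ML (eL (d + 1) a) (Y.cL.s η) i‖ ^ 2) ^ κ := by ring
        _ = _ := by rw [h2]

end main

end Crest.Agent.R276.C4T_804
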