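import Crest.Agent.R276.Top8b_815

/-!
# Row 276, leaf A2-COV, part 1 (helper425): fibre powers, root covers, open subsets, fibres of an `FSp`

* `FPow F s`, `pow F s : FSp m (s * r) S (FPow F s)` : the `s`-fold fibre product;
* `Root δ N`, `root F δ N : FSp m d S (Root δ N)` : the root cover `η ^ N = δ y ≠ 0`;
* `sub F U : FSp m d S U` : an open subset;
* `Fib F u` : the fibre, with its structure `RDom d`.
-/

set_option autoImplicit false

noncomputable section

open Set Filter Topology MeasureTheory
open Crest.Agent.R271.Ho51 Crest.Agent.R276.Ipc735 Crest.Agent.R276.Top8_815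
open scoped ENNReal

namespace Crest.Agent.R276.Cov_425

/-- criterion for local homeomorphisms -/
lemma lh_mk {A B : Type*} [TopologicalSpace A] [TopologicalSpace B] {f : A → B}
    (hf : Continuous f)
    (h : ∀ x₀, ∃ (U : Set A) (T : Set B) (g : B → A), IsOpen U ∧ IsOpen T ∧ x₀ ∈ U ∧
      MapsTo f U T ∧ MapsTo g T U ∧ ContinuousOn g T ∧ (∀ x ∈ U, g (f x) = x) ∧
      ∀ z ∈ T, f (g z) = z) : IsLocalHomeomorph f := by
  refine IsLocalHomeomorph.mk f fun x₀ => ?_
  obtain ⟨U, T, g, hU, hT, hx, h1, h2, h3, h4, h5⟩ := h x₀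
  exact ⟨{ toFun := f
           invFun := g
           source := U
           target := T
           map_source' := fun x hx => h1 hx
           map_target' := fun z hz => h2 hz
           left_inv' := fun x hx => h4 x hx
           right_inv' := fun z hz => h5 z hz
           open_source := hU
           open_target := hT
           continuousOn_toFun := hf.continuousOn
           continuousOn_invFun := h3 }, hx, fun _ _ => rfl⟩

lemma contOn_sub {A B : Type*} [TopologicalSpace A] [TopologicalSpace B] {P : B → Prop}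
    {g : A → {b : B // P b}} {T : Set A} (h : ContinuousOn (fun a => (g a).1) T) :
    ContinuousOn g T :=
  (Topology.IsInducing.mk rfl : Topology.IsInducing
    (Subtype.val : {b : B // P b} → B)).continuousOn_iff.2 h

variable {m d r : ℕ} {S Y : Type*} [TopologicalSpace S] [RDom m S] [TopologicalSpace Y]

/-! ### the fibre power -/

/-- the `s`-fold fibre product of `Y` over `S` -/
abbrev FPow (F : FSp m r S Y) (s : ℕ) : Type _ := {p : S × (Fin s → Y) // ∀ i, F.q (p.2 i) = p.1}

/-- the `i`-th block of coordinates -/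
def blk {s r : ℕ} (τ : Fin (s * r) → ℂ) (i : Fin s) : Fin r → ℂ := fun j => τ (finProdFinEquiv (i, j))

/-- the coordinates with given blocks -/
def unblk {s r : ℕ} (x : Fin s → Fin r → ℂ) : Fin (s * r) → ℂ := fun k =>
  x (finProdFinEquiv.symm k).1 (finProdFinEquiv.symm k).2

@[simp] lemma blk_unblk {s r : ℕ} (x : Fin s → Fin r → ℂ) (i : Fin s) : blk (unblk x) i = x i := by
  funext j
  simp [blk, unblk]

@[simp] lemma unblk_blk {s r : ℕ} (τ : Fin (s * r) → ℂ) : unblk (blk τ) = τ := by
  funext k
  simp only [blk, unblk, Prod.mk.eta, Equiv.apply_symm_apply]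

lemma continuous_blk {s r : ℕ} (i : Fin s) : Continuous fun τ : Fin (s * r) → ℂ => blk τ i :=
  continuous_pi fun _ => continuous_apply _

lemma continuous_unblk {s r : ℕ} : Continuous (unblk : (Fin s → Fin r → ℂ) → Fin (s * r) → ℂ) :=
  continuous_pi fun _ => (continuous_apply _).comp (continuous_apply _)

lemma continuous_q (F : FSp m r S Y) : Continuous F.q := F.lh.continuous.fst

lemma continuous_t (F : FSp m r S Y) : Continuous F.t := F.lh.continuous.snd

/-- the `s`-fold fibre product, with the product coordinates -/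
def pow (F : FSp m r S Y) (s : ℕ) : FSp m (s * r) S (FPow F s) where
  q := fun p => p.1.1
  t := fun p => unblk fun i => F.t (p.1.2 i)
  lh := by
    have hc : Continuous fun p : FPow F s => (p.1.1, unblk fun i => F.t (p.1.2 i)) := by
      refine (continuous_fst.comp continuous_subtype_val).prodMk (continuous_unblk.comp ?_)
      exact continuous_pi fun i => (continuous_t F).comp
        ((continuous_apply i).comp (continuous_snd.comp continuous_subtype_val))
    refine lh_mk hc fun p₀ => ?_
    choose e he hef using fun i => F.lh (p₀.1.2 i)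
    have hap : ∀ i y, e i y = (F.q y, F.t y) := fun i y => (congrFun (hef i) y).symm
    classical
    refine ⟨{p | ∀ i, p.1.2 i ∈ (e i).source}, {z | ∀ i, (z.1, blk z.2 i) ∈ (e i).target},
      fun z => if h : ∀ i, (z.1, blk z.2 i) ∈ (e i).target then
        ⟨(z.1, fun i => (e i).symm (z.1, blk z.2 i)), fun i => by
          have h1 := (e i).right_inv (h i)
          rw [hap] at h1
          exact (Prod.ext_iff.1 h1).1⟩ else p₀, ?_, ?_, ?_, ?_, ?_, ?_, ?_, ?_⟩
    · have h1 : {p : FPow F s | ∀ i, p.1.2 i ∈ (e i).source}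
          = ⋂ i, {p : FPow F s | p.1.2 i ∈ (e i).source} := by
        ext p; simp
      rw [h1]
      exact isOpen_iInter_of_finite fun i => (e i).open_source.preimage
        ((continuous_apply i).comp (continuous_snd.comp continuous_subtype_val))
    · have h1 : {z : S × (Fin (s * r) → ℂ) | ∀ i, (z.1, blk z.2 i) ∈ (e i).target}
          = ⋂ i, {z | (z.1, blk z.2 i) ∈ (e i).target} := by
        ext p; simp
      rw [h1]
      exact isOpen_iInter_of_finite fun i => (e i).open_target.preimage
        (continuous_fst.prodMk ((continuous_blk i).comp continuous_snd))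
    · exact fun i => he i
    · intro p hp i
      have h1 := (e i).map_source (hp i)
      rw [hap, p.2 i] at h1
      simpa using h1
    · intro z hz i
      simp only [mem_ofPred_eq] at hz
      beta_reduce
      rw [dif_pos hz]
      exact (e i).map_target (hz i)
    · refine contOn_sub ?_
      refine ContinuousOn.congr (f := fun z => (z.1, fun i => (e i).symm (z.1, blk z.2 i))) ?_ ?_
      · refine continuousOn_fst.prodMk (continuousOn_pi.2 fun i => ?_)
        refine (e i).continuousOn_symm.comp
          (continuous_fst.prodMk ((continuous_blk i).comp continuous_snd)).continuousOn ?_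
        exact fun z hz => hz i
      · intro z hz
        simp only [mem_ofPred_eq] at hz
        simp only [dif_pos hz]
    · intro p hp
      have hz : ∀ i, (p.1.1, blk (unblk fun i => F.t (p.1.2 i)) i) ∈ (e i).target := by
        intro i
        have h1 := (e i).map_source (hp i)
        rw [hap, p.2 i] at h1
        simpa using h1
      simp only
      rw [dif_pos hz]
      apply Subtype.ext
      refine Prod.ext rfl (funext fun i => ?_)
      have h2 := (e i).left_inv (hp i)
      rw [hap, p.2 i] at h2
      simpa using h2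
    · intro z hz
      simp only [mem_ofPred_eq] at hz
      simp only
      rw [dif_pos hz]
      refine Prod.ext rfl ?_
      have h3 : (fun i => F.t ((e i).symm (z.1, blk z.2 i))) = blk z.2 := by
        funext i
        have h1 := (e i).right_inv (hz i)
        rw [hap] at h1
        exact (Prod.ext_iff.1 h1).2
      simp only
      rw [h3, unblk_blk]

@[simp] lemma pow_q (F : FSp m r S Y) (s : ℕ) (p : FPow F s) : (pow F s).q p = p.1.1 := rfl

@[simp] lemma pow_t (F : FSp m r S Y) (s : ℕ) (p : FPow F s) :
    (pow F s).t p = unblk fun i => F.t (p.1.2 i) := rfl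

/-! ### the root cover -/

/-- the root cover `η ^ N = δ y ≠ 0` -/
abbrev Root (δ : Y → ℂ) (N : ℕ) : Type _ := {p : Y × ℂ // p.2 ^ N = δ p.1 ∧ δ p.1 ≠ 0}

lemma root_proj_lh {δ : Y → ℂ} (hδ : Continuous δ) {N : ℕ} (hN : N ≠ 0) :
    IsLocalHomeomorph (fun p : Root δ N => p.1.1) := by
  refine lh_mk (continuous_fst.comp continuous_subtype_val) fun p₀ => ?_
  have hη : p₀.1.2 ≠ 0 := by
    intro h
    have := p₀.2.1
    rw [h, zero_pow hN] at this
    exact p₀.2.2 this.symm
  have hd : HasStrictDerivAt (fun x : ℂ => x ^ N) ((N : ℂ) * p₀.1.2 ^ (N - 1)) p₀.1.2 :=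
    hasStrictDerivAt_pow N p₀.1.2
  have hd0 : (N : ℂ) * p₀.1.2 ^ (N - 1) ≠ 0 :=
    mul_ne_zero (Nat.cast_ne_zero.2 hN) (pow_ne_zero _ hη)
  set e := (hd.hasStrictFDerivAt_equiv hd0).toOpenPartialHomeomorph _ with he
  have hea : ∀ x, e x = x ^ N := fun x => by
    rw [he, HasStrictFDerivAt.toOpenPartialHomeomorph_coe]
  have hem : p₀.1.2 ∈ e.source := HasStrictFDerivAt.mem_toOpenPartialHomeomorph_source _
  classical
  refine ⟨{p | p.1.2 ∈ e.source}, {y | δ y ∈ e.target ∧ δ y ≠ 0},
    fun y => if h : δ y ∈ e.target ∧ δ y ≠ 0 then ⟨(y, e.symm (δ y)), by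
      have h1 := e.right_inv h.1
      rw [hea] at h1
      exact ⟨h1, h.2⟩⟩ else p₀, ?_, ?_, hem, ?_, ?_, ?_, ?_, ?_⟩
  · exact e.open_source.preimage (continuous_snd.comp continuous_subtype_val)
  · exact (e.open_target.preimage hδ).inter (isOpen_ne.preimage hδ)
  · intro p hp
    have h1 := e.map_source hp
    rw [hea, p.2.1] at h1
    exact ⟨h1, p.2.2⟩
  · intro y hy
    simp only [mem_ofPred_eq] at hy
    simp only [mem_ofPred_eq]
    rw [dif_pos hy]
    exact e.map_target hy.1
  · refine contOn_sub ?_
    refine ContinuousOn.congr (f := fun y => (y, e.symm (δ y))) ?_ ?_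
    · exact continuousOn_id.prodMk (e.continuousOn_symm.comp hδ.continuousOn fun y hy => hy.1)
    · intro y hy
      simp only [mem_ofPred_eq] at hy
      simp only [dif_pos hy]
  · intro p hp
    have hy : δ p.1.1 ∈ e.target ∧ δ p.1.1 ≠ 0 := by
      have h1 := e.map_source hp
      rw [hea, p.2.1] at h1
      exact ⟨h1, p.2.2⟩
    simp only
    rw [dif_pos hy]
    apply Subtype.ext
    refine Prod.ext rfl ?_
    have h2 := e.left_inv hp
    rw [hea, p.2.1] at h2
    exact h2
  · intro y hy
    simp only [mem_ofPred_eq] at hy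
    simp only
    rw [dif_pos hy]

/-- the root cover of a space over `S` -/
def root (F : FSp m d S Y) {δ : Y → ℂ} (hδ : Continuous δ) {N : ℕ} (hN : N ≠ 0) :
    FSp m d S (Root δ N) where
  q := fun p => F.q p.1.1
  t := fun p => F.t p.1.1
  lh := F.lh.comp (root_proj_lh hδ hN)

@[simp] lemma root_q (F : FSp m d S Y) {δ : Y → ℂ} (hδ : Continuous δ) {N : ℕ} (hN : N ≠ 0)
    (p : Root δ N) : (root F hδ hN).q p = F.q p.1.1 := rfl

@[simp] lemma root_t (F : FSp m d S Y) {δ : Y → ℂ} (hδ : Continuous δ) {N : ℕ} (hN : N ≠ 0)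
    (p : Root δ N) : (root F hδ hN).t p = F.t p.1.1 := rfl

/-! ### open subsets -/

/-- an open subset of `Y` -/
def sub (F : FSp m d S Y) {U : Set Y} (hU : IsOpen U) : FSp m d S U where
  q := fun y => F.q y.1
  t := fun y => F.t y.1
  lh := F.lh.comp hU.isOpenEmbedding_subtypeVal.isLocalHomeomorph

@[simp] lemma sub_q (F : FSp m d S Y) {U : Set Y} (hU : IsOpen U) (y : U) :
    (sub F hU).q y = F.q y.1 := rfl

@[simp] lemma sub_t (F : FSp m d S Y) {U : Set Y} (hU : IsOpen U) (y : U) :
    (sub F hU).t y = F.t y.1 := rfl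

/-! ### the fibres -/

/-- the fibre over `u` -/
abbrev Fib (F : FSp m d S Y) (u : S) : Type _ := {y : Y // F.q y = u}

lemma fib_lh (F : FSp m d S Y) (u : S) : IsLocalHomeomorph (fun y : Fib F u => F.t y.1) := by
  refine lh_mk ((continuous_t F).comp continuous_subtype_val) fun y₀ => ?_
  obtain ⟨e, he, hef⟩ := F.lh y₀.1
  have hap : ∀ y, e y = (F.q y, F.t y) := fun y => (congrFun hef y).symm
  classical
  refine ⟨{y | y.1 ∈ e.source}, {τ | (u, τ) ∈ e.target},
    fun τ => if h : (u, τ) ∈ e.target then ⟨e.symm (u, τ), by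
      have h1 := e.right_inv h
      rw [hap] at h1
      exact (Prod.ext_iff.1 h1).1⟩ else y₀, ?_, ?_, he, ?_, ?_, ?_, ?_, ?_⟩
  · exact e.open_source.preimage continuous_subtype_val
  · exact e.open_target.preimage (continuous_const.prodMk continuous_id)
  · intro y hy
    have h1 := e.map_source hy
    rw [hap, y.2] at h1
    exact h1
  · intro τ hτ
    simp only [mem_ofPred_eq] at hτ
    simp only [mem_ofPred_eq]
    rw [dif_pos hτ]
    exact e.map_target hτ
  · refine contOn_sub ?_
    refine ContinuousOn.congr (f := fun τ => e.symm (u, τ)) ?_ ?_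
    · exact e.continuousOn_symm.comp (continuous_const.prodMk continuous_id).continuousOn
        fun τ hτ => hτ
    · intro τ hτ
      simp only [mem_ofPred_eq] at hτ
      simp only [dif_pos hτ]
  · intro y hy
    have hτ : (u, F.t y.1) ∈ e.target := by
      have h1 := e.map_source hy
      rw [hap, y.2] at h1
      exact h1
    simp only
    rw [dif_pos hτ]
    apply Subtype.ext
    have h2 := e.left_inv hy
    rw [hap, y.2] at h2
    exact h2
  · intro τ hτ
    simp only [mem_ofPred_eq] at hτ
    simp only
    rw [dif_pos hτ]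
    have h1 := e.right_inv hτ
    rw [hap] at h1
    exact (Prod.ext_iff.1 h1).2

instance (F : FSp m d S Y) (u : S) : RDom d (Fib F u) where
  p := fun y => F.t y.1
  hp := fib_lh F u


end Crest.Agent.R276.Cov_425
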