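import Mathlib

-- ▼ part R276/Cyl_593
section

/-!
# R276, IPC leaf CYL (helper593): the cylinder identities (step (5) of post 755)

Flat frame on the half cylinder `s > s0`, real coordinates `(s, t)`; `H` = Hodge metric (positive
definite matrix), `φ` = section (vector), `Θ_i = -(1/2) H⁻¹ ∂_i H`.
* harmonicity of the metric: `H_ss + H_tt = H_s H⁻¹ H_s + H_t H⁻¹ H_t`;
* `D*D φ = 0`: `∂_s (H φ_s) + ∂_t (H φ_t) = 0`.
`A = |φ|²`, `E = |Dφ|²`, `F_i = Re ⟨D_i φ, φ⟩`, `G_i = -⟨Θ_i φ, φ⟩`, `Y = |Θ φ|²`,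
`X = Re ⟨D φ, Θ φ⟩` satisfy `∂_i A = 2 F_i + 2 G_i`, `div F = E`, `div G = 2 Y - 2 X`; integration over
the circle gives exactly the hypotheses of the growth lemma (`IpcOde_817.flux_tendsto_zero`).
-/

set_option autoImplicit false

open Set Filter Topology MeasureTheory
open scoped ComplexOrder Matrix

noncomputable section

namespace Crest.Agent.R276.Cyl_593

variable {κ : Type*} [Fintype κ]

/-- the sesquilinear form of a matrix -/
def S (M : Matrix κ κ ℂ) (u v : κ → ℂ) : ℂ := star u ⬝ᵥ (M *ᵥ v)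

lemma S_eq (M : Matrix κ κ ℂ) (u v : κ → ℂ) :
    S M u v = ∑ i, ∑ j, star (u i) * M i j * v j := by
  simp only [S, dotProduct, Matrix.mulVec, Pi.star_apply, Finset.mul_sum, mul_assoc]

lemma S_add_left (M : Matrix κ κ ℂ) (u u' v : κ → ℂ) : S M (u + u') v = S M u v + S M u' v := by
  simp [S, star_add, add_dotProduct]

lemma S_add_right (M : Matrix κ κ ℂ) (u v v' : κ → ℂ) : S M u (v + v') = S M u v + S M u v' := by
  simp [S, Matrix.mulVec_add, dotProduct_add]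

lemma S_add_mat (M M' : Matrix κ κ ℂ) (u v : κ → ℂ) : S (M + M') u v = S M u v + S M' u v := by
  simp [S, Matrix.add_mulVec, dotProduct_add]

lemma S_smul_right (M : Matrix κ κ ℂ) (c : ℂ) (u v : κ → ℂ) : S M u (c • v) = c * S M u v := by
  simp [S, Matrix.mulVec_smul, dotProduct_smul]

lemma S_smul_left (M : Matrix κ κ ℂ) (c : ℂ) (u v : κ → ℂ) :
    S M (c • u) v = star c * S M u v := by
  simp [S, star_smul, smul_dotProduct]

lemma S_mul (M P : Matrix κ κ ℂ) (u v : κ → ℂ) : S (M * P) u v = S M u (P *ᵥ v) := by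
  simp [S, Matrix.mulVec_mulVec]

lemma S_conjTranspose (M : Matrix κ κ ℂ) (u v : κ → ℂ) : S Mᴴ u v = star (S M v u) := by
  rw [S_eq, S_eq, star_sum, Finset.sum_comm]
  refine Finset.sum_congr rfl fun i _ => ?_
  rw [star_sum]
  refine Finset.sum_congr rfl fun j _ => ?_
  simp only [Matrix.conjTranspose_apply, star_mul', star_star]
  ring

lemma S_mulVec_left (M P : Matrix κ κ ℂ) (u v : κ → ℂ) : S M (P *ᵥ u) v = S (Pᴴ * M) u v := by
  rw [S, S, Matrix.star_mulVec, ← Matrix.dotProduct_mulVec, Matrix.mulVec_mulVec]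

lemma re_S_comm {M : Matrix κ κ ℂ} (hM : M.IsHermitian) (u v : κ → ℂ) :
    (S M u v).re = (S M v u).re := by
  conv_lhs => rw [← hM.eq, S_conjTranspose]
  simp

/-- the quadratic form -/
lemma re_S_nonneg {M : Matrix κ κ ℂ} (hM : M.PosSemidef) (u : κ → ℂ) : 0 ≤ (S M u u).re := by
  have := hM.dotProduct_mulVec_nonneg u
  exact (Complex.le_def.1 this).1

lemma re_S_pos {M : Matrix κ κ ℂ} (hM : M.PosDef) {u : κ → ℂ} (hu : u ≠ 0) :
    0 < (S M u u).re := by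
  have := hM.dotProduct_mulVec_pos hu
  exact (Complex.lt_def.1 this).1

/-- Cauchy-Schwarz -/
lemma re_S_sq_le {M : Matrix κ κ ℂ} (hM : M.PosSemidef) (u v : κ → ℂ) :
    (S M u v).re ^ 2 ≤ (S M u u).re * (S M v v).re := by
  have key : ∀ x : ℝ, 0 ≤ (S M v v).re * (x * x) + (2 * (S M u v).re) * x + (S M u u).re := by
    intro x
    have h := re_S_nonneg hM (u + (x : ℂ) • v)
    have h2 : (S M (u + (x : ℂ) • v) (u + (x : ℂ) • v)).re
        = (S M v v).re * (x * x) + (2 * (S M u v).re) * x + (S M u u).re := by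
      rw [S_add_left, S_add_right, S_add_right, S_smul_right, S_smul_left, S_smul_left,
        S_smul_right]
      have hc : (S M v u).re = (S M u v).re := re_S_comm hM.isHermitian v u
      simp [hc]
      ring
    rw [h2] at h
    exact h
  have := discrim_le_zero key
  unfold discrim at this
  nlinarith

/-- entrywise derivative of a matrix valued function -/
def MD (H : ℝ → Matrix κ κ ℂ) (H' : Matrix κ κ ℂ) (x : ℝ) : Prop :=
  ∀ i j, HasDerivAt (fun y => H y i j) (H' i j) x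

/-- entrywise derivative of a vector valued function -/
def VD (u : ℝ → κ → ℂ) (u' : κ → ℂ) (x : ℝ) : Prop :=
  ∀ i, HasDerivAt (fun y => u y i) (u' i) x

lemma S_hasDerivAt {H : ℝ → Matrix κ κ ℂ} {u v : ℝ → κ → ℂ} {H' : Matrix κ κ ℂ} {u' v' : κ → ℂ}
    {x : ℝ} (hH : MD H H' x) (hu : VD u u' x) (hv : VD v v' x) :
    HasDerivAt (fun y => S (H y) (u y) (v y))
      (S (H x) u' (v x) + S H' (u x) (v x) + S (H x) (u x) v') x := by
  have h1 : ∀ i j, HasDerivAt (fun y => star (u y i) * H y i j * v y j)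
      (star (u' i) * H x i j * v x j + star (u x i) * H' i j * v x j
        + star (u x i) * H x i j * v' j) x := by
    intro i j
    have h := ((hu i).star.mul (hH i j)).mul (hv j)
    refine h.congr_deriv ?_
    simp only [Pi.mul_apply]
    ring
  have h2 := HasDerivAt.fun_sum (u := Finset.univ) (fun i _ =>
    HasDerivAt.fun_sum (u := Finset.univ) (fun j _ => h1 i j))
  have h3 : (fun y => S (H y) (u y) (v y))
      = fun y => ∑ i, ∑ j, star (u y i) * H y i j * v y j := by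
    funext y
    exact S_eq _ _ _
  rw [h3]
  refine h2.congr_deriv ?_
  simp only [S_eq, Finset.sum_add_distrib]

lemma re_hasDerivAt {f : ℝ → ℂ} {f' : ℂ} {x : ℝ} (h : HasDerivAt f f' x) :
    HasDerivAt (fun y => (f y).re) f'.re x := by
  exact (Complex.reCLM.hasFDerivAt.comp_hasDerivAt x h)

lemma re_S_hasDerivAt {H : ℝ → Matrix κ κ ℂ} {u v : ℝ → κ → ℂ} {H' : Matrix κ κ ℂ}
    {u' v' : κ → ℂ} {x : ℝ} (hH : MD H H' x) (hu : VD u u' x) (hv : VD v v' x) :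
    HasDerivAt (fun y => (S (H y) (u y) (v y)).re)
      ((S (H x) u' (v x)).re + (S H' (u x) (v x)).re + (S (H x) (u x) v').re) x := by
  have := re_hasDerivAt (S_hasDerivAt hH hu hv)
  simpa using this

omit [Fintype κ] in
/-- the derivative of a Hermitian matrix valued function is Hermitian -/
lemma MD.isHermitian {H : ℝ → Matrix κ κ ℂ} {H' : Matrix κ κ ℂ} {x : ℝ} (hH : MD H H' x)
    (h : ∀ᶠ y in 𝓝 x, (H y).IsHermitian) : H'.IsHermitian := by
  ext i j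
  rw [Matrix.conjTranspose_apply]
  have h1 : HasDerivAt (fun y => star (H y j i)) (star (H' j i)) x := (hH j i).star
  have h2 : (fun y => star (H y j i)) =ᶠ[𝓝 x] fun y => H y i j := by
    filter_upwards [h] with y hy
    exact hy.apply i j
  exact (h1.congr_of_eventuallyEq h2.symm).unique (hH i j)


section circle



end circle

section data

variable [DecidableEq κ]

lemma inv_mul_cancel' {H : Matrix κ κ ℂ} (hH : H.PosDef) (P : Matrix κ κ ℂ) :
    H * (H⁻¹ * P) = P := by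
  rw [← Matrix.mul_assoc, Matrix.mul_nonsing_inv _ ((Matrix.isUnit_iff_isUnit_det _).1 hH.isUnit),
    Matrix.one_mul]

/-- `S (P H⁻¹ P) u u = |H⁻¹ P u|²` -/
lemma S_conj_inv {H P : Matrix κ κ ℂ} (hH : H.PosDef) (hP : P.IsHermitian) (u : κ → ℂ) :
    S (P * H⁻¹ * P) u u = S H ((H⁻¹ * P) *ᵥ u) ((H⁻¹ * P) *ᵥ u) := by
  have h1 : (H⁻¹ * P)ᴴ * H * (H⁻¹ * P) = P * H⁻¹ * P := by
    rw [Matrix.conjTranspose_mul, hP.eq, (hH.inv).isHermitian.eq]
    have : P * H⁻¹ * H = P := by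
      rw [Matrix.mul_assoc, Matrix.nonsing_inv_mul _ ((Matrix.isUnit_iff_isUnit_det _).1 hH.isUnit),
        Matrix.mul_one]
    rw [this, Matrix.mul_assoc]
  rw [S_mulVec_left, ← S_mul, h1]

/-- `S P v u = S H v (H⁻¹ P u)` -/
lemma S_inv_right {H P : Matrix κ κ ℂ} (hH : H.PosDef) (u v : κ → ℂ) :
    S P v u = S H v ((H⁻¹ * P) *ᵥ u) := by
  rw [← S_mul, inv_mul_cancel' hH]

lemma re_S_sq_le' {H P : Matrix κ κ ℂ} (hH : H.PosDef) (hP : P.IsHermitian) (u v : κ → ℂ) :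
    (S P v u).re ^ 2 ≤ (S H v v).re * (S (P * H⁻¹ * P) u u).re := by
  rw [S_inv_right hH, S_conj_inv hH hP]
  exact re_S_sq_le hH.posSemidef _ _

lemma re_S_conj_nonneg {H P : Matrix κ κ ℂ} (hH : H.PosDef) (hP : P.IsHermitian) (u : κ → ℂ) :
    0 ≤ (S (P * H⁻¹ * P) u u).re := by
  rw [S_conj_inv hH hP]
  exact re_S_nonneg hH.posSemidef _

/-- flat frame data on the half cylinder `s > s0` (real coordinates `(s, t)`, `t` the angle) -/
structure CylData (κ : Type*) [Fintype κ] [DecidableEq κ] (s0 : ℝ) where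
  H : ℝ → ℝ → Matrix κ κ ℂ
  Hs : ℝ → ℝ → Matrix κ κ ℂ
  Ht : ℝ → ℝ → Matrix κ κ ℂ
  Hss : ℝ → ℝ → Matrix κ κ ℂ
  Htt : ℝ → ℝ → Matrix κ κ ℂ
  φ : ℝ → ℝ → κ → ℂ
  φs : ℝ → ℝ → κ → ℂ
  φt : ℝ → ℝ → κ → ℂ
  φss : ℝ → ℝ → κ → ℂ
  φtt : ℝ → ℝ → κ → ℂ
  /-- the monodromy -/
  T : Matrix κ κ ℂ
  pos : ∀ s, s0 < s → ∀ t, (H s t).PosDef
  dH_s : ∀ s, s0 < s → ∀ t, MD (fun x => H x t) (Hs s t) s
  dH_t : ∀ s, s0 < s → ∀ t, MD (fun x => H s x) (Ht s t) t
  dHs_s : ∀ s, s0 < s → ∀ t, MD (fun x => Hs x t) (Hss s t) s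
  dHt_t : ∀ s, s0 < s → ∀ t, MD (fun x => Ht s x) (Htt s t) t
  dφ_s : ∀ s, s0 < s → ∀ t, VD (fun x => φ x t) (φs s t) s
  dφ_t : ∀ s, s0 < s → ∀ t, VD (fun x => φ s x) (φt s t) t
  dφs_s : ∀ s, s0 < s → ∀ t, VD (fun x => φs x t) (φss s t) s
  dφt_t : ∀ s, s0 < s → ∀ t, VD (fun x => φt s x) (φtt s t) t
  cH : ∀ i j, ContinuousOn (fun p : ℝ × ℝ => H p.1 p.2 i j) {p | s0 < p.1}
  cHs : ∀ i j, ContinuousOn (fun p : ℝ × ℝ => Hs p.1 p.2 i j) {p | s0 < p.1}
  cHt : ∀ i j, ContinuousOn (fun p : ℝ × ℝ => Ht p.1 p.2 i j) {p | s0 < p.1}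
  cHss : ∀ i j, ContinuousOn (fun p : ℝ × ℝ => Hss p.1 p.2 i j) {p | s0 < p.1}
  cHtt : ∀ i j, ContinuousOn (fun p : ℝ × ℝ => Htt p.1 p.2 i j) {p | s0 < p.1}
  cφ : ∀ i, ContinuousOn (fun p : ℝ × ℝ => φ p.1 p.2 i) {p | s0 < p.1}
  cφs : ∀ i, ContinuousOn (fun p : ℝ × ℝ => φs p.1 p.2 i) {p | s0 < p.1}
  cφt : ∀ i, ContinuousOn (fun p : ℝ × ℝ => φt p.1 p.2 i) {p | s0 < p.1}
  cφss : ∀ i, ContinuousOn (fun p : ℝ × ℝ => φss p.1 p.2 i) {p | s0 < p.1}
  cφtt : ∀ i, ContinuousOn (fun p : ℝ × ℝ => φtt p.1 p.2 i) {p | s0 < p.1}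
  /-- the metric is harmonic -/
  harm : ∀ s, s0 < s → ∀ t, Hss s t + Htt s t
    = Hs s t * (H s t)⁻¹ * Hs s t + Ht s t * (H s t)⁻¹ * Ht s t
  /-- `D*D φ = 0` -/
  eqn : ∀ s, s0 < s → ∀ t, Hs s t *ᵥ φs s t + H s t *ᵥ φss s t
    + (Ht s t *ᵥ φt s t + H s t *ᵥ φtt s t) = 0
  perφ : ∀ s, s0 < s → ∀ t, φ s (t + 2 * Real.pi) = T *ᵥ φ s t
  perH : ∀ s, s0 < s → ∀ t, Tᴴ * H s (t + 2 * Real.pi) * T = H s t

namespace CylData

variable {s0 : ℝ} (D : CylData κ s0)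

def A (s t : ℝ) : ℝ := (S (D.H s t) (D.φ s t) (D.φ s t)).re
def Es (s t : ℝ) : ℝ := (S (D.H s t) (D.φs s t) (D.φs s t)).re
def Et (s t : ℝ) : ℝ := (S (D.H s t) (D.φt s t) (D.φt s t)).re
def E (s t : ℝ) : ℝ := D.Es s t + D.Et s t
def Y (s t : ℝ) : ℝ := 1 / 4 * (S (D.Hss s t + D.Htt s t) (D.φ s t) (D.φ s t)).re
def Ys (s t : ℝ) : ℝ := 1 / 4 * (S (D.Hs s t * (D.H s t)⁻¹ * D.Hs s t) (D.φ s t) (D.φ s t)).re
def Yt (s t : ℝ) : ℝ := 1 / 4 * (S (D.Ht s t * (D.H s t)⁻¹ * D.Ht s t) (D.φ s t) (D.φ s t)).re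
def Xs (s t : ℝ) : ℝ := -(1 / 2) * (S (D.Hs s t) (D.φ s t) (D.φs s t)).re
def Xt (s t : ℝ) : ℝ := -(1 / 2) * (S (D.Ht s t) (D.φ s t) (D.φt s t)).re
def X (s t : ℝ) : ℝ := D.Xs s t + D.Xt s t

variable {D} {s : ℝ} (hs : s0 < s) (t : ℝ)
include hs

lemma hermHs : (D.Hs s t).IsHermitian :=
  (D.dH_s s hs t).isHermitian (by
    filter_upwards [Ioi_mem_nhds hs] with y hy
    exact (D.pos y hy t).isHermitian)

lemma hermHt : (D.Ht s t).IsHermitian :=
  (D.dH_t s hs t).isHermitian (Eventually.of_forall fun y => (D.pos s hs y).isHermitian)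

lemma Y_eq : D.Y s t = D.Ys s t + D.Yt s t := by
  rw [Y, Ys, Yt, D.harm s hs t, S_add_mat]
  simp
  ring

lemma A_nonneg : 0 ≤ D.A s t := re_S_nonneg (D.pos s hs t).posSemidef _
lemma Es_nonneg : 0 ≤ D.Es s t := re_S_nonneg (D.pos s hs t).posSemidef _
lemma Et_nonneg : 0 ≤ D.Et s t := re_S_nonneg (D.pos s hs t).posSemidef _
lemma E_nonneg : 0 ≤ D.E s t := add_nonneg (Es_nonneg hs t) (Et_nonneg hs t)
lemma Ys_nonneg : 0 ≤ D.Ys s t :=
  mul_nonneg (by norm_num) (re_S_conj_nonneg (D.pos s hs t) (hermHs hs t) _)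
lemma Yt_nonneg : 0 ≤ D.Yt s t :=
  mul_nonneg (by norm_num) (re_S_conj_nonneg (D.pos s hs t) (hermHt hs t) _)
lemma Y_nonneg : 0 ≤ D.Y s t := by
  rw [Y_eq hs t]
  exact add_nonneg (Ys_nonneg hs t) (Yt_nonneg hs t)















lemma Xs_sq : D.Xs s t ^ 2 ≤ D.Es s t * D.Ys s t := by
  have h := re_S_sq_le' (D.pos s hs t) (hermHs (D := D) hs t) (D.φ s t) (D.φs s t)
  rw [re_S_comm (hermHs (D := D) hs t)] at h
  simp only [Xs, Es, Ys]
  nlinarith

lemma Xt_sq : D.Xt s t ^ 2 ≤ D.Et s t * D.Yt s t := by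
  have h := re_S_sq_le' (D.pos s hs t) (hermHt (D := D) hs t) (D.φ s t) (D.φt s t)
  rw [re_S_comm (hermHt (D := D) hs t)] at h
  simp only [Xt, Et, Yt]
  nlinarith

omit hs in
lemma two_cs {x x' e e' y y' : ℝ} (he : 0 ≤ e) (he' : 0 ≤ e') (hy : 0 ≤ y) (hy' : 0 ≤ y')
    (h : x ^ 2 ≤ e * y) (h' : x' ^ 2 ≤ e' * y') : (x + x') ^ 2 ≤ (e + e') * (y + y') := by
  have h1 : 2 * (x * x') ≤ e * y' + e' * y := by
    have h2 : (x * x') ^ 2 ≤ (e * y') * (e' * y) := by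
      calc (x * x') ^ 2 = x ^ 2 * x' ^ 2 := by ring
        _ ≤ (e * y) * (e' * y') := mul_le_mul h h' (sq_nonneg _) (mul_nonneg he hy)
        _ = _ := by ring
    have h3 : 0 ≤ e * y' + e' * y := add_nonneg (mul_nonneg he hy') (mul_nonneg he' hy)
    have h4 : (2 * (x * x')) ^ 2 ≤ (e * y' + e' * y) ^ 2 := by
      nlinarith [sq_nonneg (e * y' - e' * y)]
    exact (abs_le_of_sq_le_sq' h4 h3).2
  nlinarith

lemma X_sq : D.X s t ^ 2 ≤ D.E s t * D.Y s t := by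
  rw [X, E, Y_eq hs t]
  exact two_cs (Es_nonneg hs t) (Et_nonneg hs t) (Ys_nonneg hs t) (Yt_nonneg hs t)
    (Xs_sq hs t) (Xt_sq hs t)




/-! ### periodicity -/







/-! ### the circle integrals -/

omit hs

variable (D) in
/-- `p = ∮ |Θ φ|²` -/
def ip (s : ℝ) : ℝ := ∫ t in (0 : ℝ)..2 * Real.pi, D.Y s t




include hs










/-- the bound on `Y` from the operator bounds on `Θ_i = -(1/2) H⁻¹ H_i` -/
lemma Y_le {c : ℝ} (h1 : ∀ v, (S (D.H s t) ((-(1 / 2 : ℂ) • ((D.H s t)⁻¹ * D.Hs s t)) *ᵥ v)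
      ((-(1 / 2 : ℂ) • ((D.H s t)⁻¹ * D.Hs s t)) *ᵥ v)).re ≤ c * (S (D.H s t) v v).re)
    (h2 : ∀ v, (S (D.H s t) ((-(1 / 2 : ℂ) • ((D.H s t)⁻¹ * D.Ht s t)) *ᵥ v)
      ((-(1 / 2 : ℂ) • ((D.H s t)⁻¹ * D.Ht s t)) *ᵥ v)).re ≤ c * (S (D.H s t) v v).re) :
    D.Y s t ≤ 2 * c * D.A s t := by
  have key : ∀ P : Matrix κ κ ℂ, P.IsHermitian → ∀ v,
      (S (D.H s t) ((-(1 / 2 : ℂ) • ((D.H s t)⁻¹ * P)) *ᵥ v)
        ((-(1 / 2 : ℂ) • ((D.H s t)⁻¹ * P)) *ᵥ v)).re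
        = 1 / 4 * (S (P * (D.H s t)⁻¹ * P) v v).re := by
    intro P hP v
    rw [S_conj_inv (D.pos s hs t) hP, Matrix.smul_mulVec, S_smul_left, S_smul_right,
      ← mul_assoc]
    have : star (-(1 / 2 : ℂ)) * -(1 / 2 : ℂ) = ((1 / 4 : ℝ) : ℂ) := by
      rw [Complex.star_def, map_neg, map_div₀, map_one, Complex.conj_ofNat]
      push_cast
      ring
    rw [this, Complex.re_ofReal_mul]
  have k1 := h1 (D.φ s t)
  have k2 := h2 (D.φ s t)
  rw [key _ (hermHs hs t)] at k1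
  rw [key _ (hermHt hs t)] at k2
  rw [Y_eq hs t, Ys, Yt, A]
  linarith

end CylData


end data

end Crest.Agent.R276.Cyl_593
end
end

-- ▼ part R276/CylP_593

/-!
# R276, IPC leaf CYL, plane version (helper593)

Local identities for a section `φ` with `D*D φ = 0` of a harmonic bundle in a flat frame on an open
set `U` of `ℂ` (any coordinate), in the shape consumed by IPC-GL5 (post 1034):
`dA = 2F + 2G`, `div F = E`, `div G = 2Y - 2X`, Cauchy-Schwarz inequalities; harmonicity of the metric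
from the grading operator (`H_x = 2i H E_y`, `H_y = -2i H E_x`); flat sections: `log |u|²` subharmonic.
-/

set_option autoImplicit false

open Set Filter Topology
open scoped ComplexOrder Matrix ContDiff

noncomputable section

namespace Crest.Agent.R276.CylP_593

open Crest.Agent.R276.Cyl_593

variable {κ : Type*} [Fintype κ]

/-- entrywise directional derivative of a matrix valued function -/
def dM (H : ℂ → Matrix κ κ ℂ) (z v : ℂ) : Matrix κ κ ℂ :=
  Matrix.of fun i j => fderiv ℝ (fun y => H y i j) z v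

/-- entrywise directional derivative of a vector valued function -/
def dV (φ : ℂ → κ → ℂ) (z v : ℂ) : κ → ℂ := fun i => fderiv ℝ (fun y => φ y i) z v

/-- second derivative in the direction `v` -/
def d2M (H : ℂ → Matrix κ κ ℂ) (z v : ℂ) : Matrix κ κ ℂ := dM (fun y => dM H y v) z v

/-- second derivative in the direction `v` -/
def d2V (φ : ℂ → κ → ℂ) (z v : ℂ) : κ → ℂ := dV (fun y => dV φ y v) z v

/-- `MC n H U`: all entries are `C^n` on `U` -/
def MC (n : WithTop ℕ∞) (H : ℂ → Matrix κ κ ℂ) (U : Set ℂ) : Prop :=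
  ∀ i j, ContDiffOn ℝ n (fun y => H y i j) U

def VC (n : WithTop ℕ∞) (φ : ℂ → κ → ℂ) (U : Set ℂ) : Prop :=
  ∀ i, ContDiffOn ℝ n (fun y => φ y i) U

lemma hasDerivAt_line {F : Type*} [NormedAddCommGroup F] [NormedSpace ℝ F] {g : ℂ → F} {z v : ℂ}
    (hg : DifferentiableAt ℝ g z) : HasDerivAt (fun x : ℝ => g (z + x * v)) (fderiv ℝ g z v) 0 := by
  have h1 : HasDerivAt (fun x : ℝ => z + x * v) v 0 := by
    simpa using ((Complex.ofRealCLM.hasDerivAt (x := (0 : ℝ))).mul_const v).const_add z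
  have h2 : HasFDerivAt g (fderiv ℝ g z) ((fun x : ℝ => z + x * v) 0) := by
    simpa using hg.hasFDerivAt
  exact h2.comp_hasDerivAt 0 h1

omit [Fintype κ] in
lemma MD_line {n : WithTop ℕ∞} {H : ℂ → Matrix κ κ ℂ} {U : Set ℂ} (hU : IsOpen U)
    (hn : 1 ≤ n) (hH : MC n H U) {z : ℂ} (hz : z ∈ U) (v : ℂ) :
    ∀ i j, HasDerivAt (fun x : ℝ => H (z + x * v) i j) (dM H z v i j) 0 := fun i j =>
  hasDerivAt_line (((hH i j).contDiffAt (hU.mem_nhds hz)).differentiableAt (by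
    intro h; rw [h] at hn; exact absurd hn (by simp)))

omit [Fintype κ] in
lemma VD_line {n : WithTop ℕ∞} {φ : ℂ → κ → ℂ} {U : Set ℂ} (hU : IsOpen U)
    (hn : 1 ≤ n) (hφ : VC n φ U) {z : ℂ} (hz : z ∈ U) (v : ℂ) :
    ∀ i, HasDerivAt (fun x : ℝ => φ (z + x * v) i) (dV φ z v i) 0 := fun i =>
  hasDerivAt_line (((hφ i).contDiffAt (hU.mem_nhds hz)).differentiableAt (by
    intro h; rw [h] at hn; exact absurd hn (by simp)))

/-- regularity of the scalars -/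
lemma contDiffOn_S {n : WithTop ℕ∞} {U : Set ℂ} {H : ℂ → Matrix κ κ ℂ} {u v : ℂ → κ → ℂ}
    (hH : MC n H U) (hu : VC n u U) (hv : VC n v U) :
    ContDiffOn ℝ n (fun z => (S (H z) (u z) (v z)).re) U := by
  have h3 : (fun p => (S (H p) (u p) (v p)).re)
      = fun p => (∑ i, ∑ j, star (u p i) * H p i j * v p j).re := by
    funext y
    rw [S_eq]
  rw [h3]
  refine Complex.reCLM.contDiff.comp_contDiffOn ?_
  refine ContDiffOn.sum fun i _ => ContDiffOn.sum fun j _ => ?_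
  exact ((Complex.conjCLE.contDiff.comp_contDiffOn (hu i)).mul (hH i j)).mul (hv j)

omit [Fintype κ] in
lemma MC.dM {n : WithTop ℕ∞} {H : ℂ → Matrix κ κ ℂ} {U : Set ℂ} (hU : IsOpen U)
    (hH : MC (n + 1) H U) (v : ℂ) : MC n (fun z => dM H z v) U := fun i j =>
  ((hH i j).fderiv_of_isOpen hU le_rfl).clm_apply contDiffOn_const

omit [Fintype κ] in
lemma VC.dV {n : WithTop ℕ∞} {φ : ℂ → κ → ℂ} {U : Set ℂ} (hU : IsOpen U)
    (hφ : VC (n + 1) φ U) (v : ℂ) : VC n (fun z => dV φ z v) U := fun i =>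
  ((hφ i).fderiv_of_isOpen hU le_rfl).clm_apply contDiffOn_const

/-- product rule for the scalars, directional form -/
lemma fderiv_S {n : WithTop ℕ∞} {U : Set ℂ} (hU : IsOpen U) (hn : 1 ≤ n) {H : ℂ → Matrix κ κ ℂ}
    {u w : ℂ → κ → ℂ} (hH : MC n H U) (hu : VC n u U) (hw : VC n w U) {z : ℂ} (hz : z ∈ U)
    (v : ℂ) : fderiv ℝ (fun z => (S (H z) (u z) (w z)).re) z v
      = (S (H z) (dV u z v) (w z)).re + (S (dM H z v) (u z) (w z)).re
        + (S (H z) (u z) (dV w z v)).re := by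
  have h0 : n ≠ 0 := by
    intro h; rw [h] at hn; exact absurd hn (by simp)
  have h1 := hasDerivAt_line (v := v) (((contDiffOn_S hH hu hw).contDiffAt
    (hU.mem_nhds hz)).differentiableAt h0)
  have h2 := re_S_hasDerivAt (H := fun x : ℝ => H (z + x * v)) (u := fun x : ℝ => u (z + x * v))
    (v := fun x : ℝ => w (z + x * v)) (MD_line hU hn hH hz v) (VD_line hU hn hu hz v)
    (VD_line hU hn hw hz v)
  have h3 := h1.unique h2
  simpa using h3

section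

variable [DecidableEq κ]

/-- the pointwise data: a harmonic metric and a section with `D*D φ = 0` in a flat frame -/
structure PlaneData (H : ℂ → Matrix κ κ ℂ) (φ : ℂ → κ → ℂ) (U : Set ℂ) : Prop where
  op : IsOpen U
  cH : MC 2 H U
  cφ : VC 2 φ U
  pos : ∀ z ∈ U, (H z).PosDef
  harm : ∀ z ∈ U, d2M H z 1 + d2M H z Complex.I
    = dM H z 1 * (H z)⁻¹ * dM H z 1 + dM H z Complex.I * (H z)⁻¹ * dM H z Complex.I
  eqn : ∀ z ∈ U, dM H z 1 *ᵥ dV φ z 1 + H z *ᵥ d2V φ z 1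
    + (dM H z Complex.I *ᵥ dV φ z Complex.I + H z *ᵥ d2V φ z Complex.I) = 0

end

variable (H : ℂ → Matrix κ κ ℂ) (φ : ℂ → κ → ℂ)

def pA (z : ℂ) : ℝ := (S (H z) (φ z) (φ z)).re
def pf (v z : ℂ) : ℝ := (S (H z) (φ z) (dV φ z v)).re
def pg (v z : ℂ) : ℝ := 1 / 2 * (S (dM H z v) (φ z) (φ z)).re
def pe (v z : ℂ) : ℝ := (S (H z) (dV φ z v) (dV φ z v)).re
def px (v z : ℂ) : ℝ := -(1 / 2) * (S (dM H z v) (φ z) (dV φ z v)).re
def pF (z : ℂ) : ℂ →L[ℝ] ℝ := pf H φ 1 z • Complex.reCLM + pf H φ Complex.I z • Complex.imCLM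
def pG (z : ℂ) : ℂ →L[ℝ] ℝ := pg H φ 1 z • Complex.reCLM + pg H φ Complex.I z • Complex.imCLM
def pE (z : ℂ) : ℝ := pe H φ 1 z + pe H φ Complex.I z
def pX (z : ℂ) : ℝ := px H φ 1 z + px H φ Complex.I z
def pY (z : ℂ) : ℝ := 1 / 4 * (S (d2M H z 1 + d2M H z Complex.I) (φ z) (φ z)).re

/-- `div` of a one-form on the plane -/
def div (F : ℂ → ℂ →L[ℝ] ℝ) (z : ℂ) : ℝ := (fderiv ℝ F z 1) 1 + (fderiv ℝ F z Complex.I) Complex.I

lemma div_eq {f g : ℂ → ℝ} {z : ℂ} (hf : DifferentiableAt ℝ f z) (hg : DifferentiableAt ℝ g z) :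
    div (fun z => f z • Complex.reCLM + g z • Complex.imCLM) z
      = fderiv ℝ f z 1 + fderiv ℝ g z Complex.I := by
  have h : HasFDerivAt (fun z => f z • Complex.reCLM + g z • Complex.imCLM)
      ((fderiv ℝ f z).smulRight Complex.reCLM + (fderiv ℝ g z).smulRight Complex.imCLM) z :=
    (hf.hasFDerivAt.smul_const Complex.reCLM).add (hg.hasFDerivAt.smul_const Complex.imCLM)
  rw [div, h.fderiv]
  simp

lemma lin_apply (f g : ℝ) (v : ℂ) :
    (f • Complex.reCLM + g • Complex.imCLM : ℂ →L[ℝ] ℝ) v = f * v.re + g * v.im := by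
  simp

/-- two continuous real linear maps on `ℂ` agreeing at `1` and `I` are equal -/
lemma clm_ext {F : Type*} [NormedAddCommGroup F] [NormedSpace ℝ F] {L M : ℂ →L[ℝ] F}
    (h1 : L 1 = M 1) (hI : L Complex.I = M Complex.I) : L = M := by
  refine ContinuousLinearMap.ext fun x => ?_
  have hx : x = x.re • (1 : ℂ) + x.im • Complex.I := by
    simp
  rw [hx, map_add, map_add, map_smul, map_smul, map_smul, map_smul, h1, hI]

section main

variable [DecidableEq κ] {H : ℂ → Matrix κ κ ℂ} {φ : ℂ → κ → ℂ} {U : Set ℂ}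

namespace PlaneData

variable (D : PlaneData H φ U)
include D

lemma cH1 : MC 1 H U := fun i j => (D.cH i j).of_le (by norm_num)
lemma cφ1 : VC 1 φ U := fun i => (D.cφ i).of_le (by norm_num)
lemma cdH (v : ℂ) : MC 1 (fun z => dM H z v) U := MC.dM D.op (by simpa [one_add_one_eq_two] using D.cH) v
lemma cdφ (v : ℂ) : VC 1 (fun z => dV φ z v) U := VC.dV D.op (by simpa [one_add_one_eq_two] using D.cφ) v

lemma herm {z : ℂ} (hz : z ∈ U) (v : ℂ) : (dM H z v).IsHermitian := by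
  have h1 := MD_line D.op le_rfl D.cH1 hz v
  refine MD.isHermitian (H := fun x : ℝ => H (z + x * v)) (x := 0) h1 ?_
  have h2 : Tendsto (fun x : ℝ => z + x * v) (𝓝 0) (𝓝 z) := by
    have : Continuous (fun x : ℝ => z + x * v) := by fun_prop
    simpa using this.tendsto 0
  filter_upwards [h2 (D.op.mem_nhds hz)] with x hx
  exact (D.pos _ hx).isHermitian

/-- `pA` is `C²` -/
lemma contDiffOn_A : ContDiffOn ℝ 2 (pA H φ) U := contDiffOn_S D.cH D.cφ D.cφ
lemma contDiffOn_f (v : ℂ) : ContDiffOn ℝ 1 (pf H φ v) U := contDiffOn_S D.cH1 D.cφ1 (D.cdφ v)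
lemma contDiffOn_g (v : ℂ) : ContDiffOn ℝ 1 (pg H φ v) U :=
  contDiffOn_const.mul (contDiffOn_S (D.cdH v) D.cφ1 D.cφ1)
lemma contDiffOn_F : ContDiffOn ℝ 1 (pF H φ) U :=
  ((D.contDiffOn_f 1).smul contDiffOn_const).add ((D.contDiffOn_f Complex.I).smul contDiffOn_const)
lemma contDiffOn_G : ContDiffOn ℝ 1 (pG H φ) U :=
  ((D.contDiffOn_g 1).smul contDiffOn_const).add ((D.contDiffOn_g Complex.I).smul contDiffOn_const)

lemma contDiffOn_X : ContDiffOn ℝ 1 (pX H φ) U :=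
  (contDiffOn_const.mul (contDiffOn_S (D.cdH _) D.cφ1 (D.cdφ _))).add
    (contDiffOn_const.mul (contDiffOn_S (D.cdH _) D.cφ1 (D.cdφ _)))

lemma continuousOn_Y : ContinuousOn (pY H φ) U := by
  have h0 : ∀ v, MC 0 (fun z => d2M H z v) U := fun v => MC.dM D.op (by simpa using D.cdH v) v
  have h1 : MC 0 (fun z => d2M H z 1 + d2M H z Complex.I) U := fun i j =>
    (h0 1 i j).add (h0 Complex.I i j)
  have h2 : VC 0 φ U := fun i => (D.cφ i).of_le (by norm_num)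
  exact (contDiffOn_const.mul (contDiffOn_S h1 h2 h2)).continuousOn

lemma A_nonneg {z : ℂ} (hz : z ∈ U) : 0 ≤ pA H φ z := re_S_nonneg (D.pos z hz).posSemidef _
lemma e_nonneg {z : ℂ} (hz : z ∈ U) (v : ℂ) : 0 ≤ pe H φ v z :=
  re_S_nonneg (D.pos z hz).posSemidef _
lemma E_nonneg {z : ℂ} (hz : z ∈ U) : 0 ≤ pE H φ z := add_nonneg (D.e_nonneg hz _) (D.e_nonneg hz _)

omit D in
variable (H φ) in
/-- `|Θ_v φ|²` -/
def py (v z : ℂ) : ℝ := 1 / 4 * (S (dM H z v * (H z)⁻¹ * dM H z v) (φ z) (φ z)).re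

lemma y_nonneg {z : ℂ} (hz : z ∈ U) (v : ℂ) : 0 ≤ py H φ v z :=
  mul_nonneg (by norm_num) (re_S_conj_nonneg (D.pos z hz) (D.herm hz v) _)

lemma Y_eq {z : ℂ} (hz : z ∈ U) : pY H φ z = py H φ 1 z + py H φ Complex.I z := by
  rw [pY, py, py, D.harm z hz, S_add_mat, Complex.add_re]
  ring

lemma Y_nonneg {z : ℂ} (hz : z ∈ U) : 0 ≤ pY H φ z := by
  rw [D.Y_eq hz]
  exact add_nonneg (D.y_nonneg hz _) (D.y_nonneg hz _)

/-- `dA = 2 F + 2 G` -/
lemma fderiv_A {z : ℂ} (hz : z ∈ U) : fderiv ℝ (pA H φ) z = (2 : ℝ) • pF H φ z + (2 : ℝ) • pG H φ z := by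
  have key : ∀ v : ℂ, fderiv ℝ (pA H φ) z v = 2 * pf H φ v z + 2 * pg H φ v z := by
    intro v
    have h := fderiv_S D.op le_rfl D.cH1 D.cφ1 D.cφ1 hz v
    have h2 : fderiv ℝ (pA H φ) z v = fderiv ℝ (fun z => (S (H z) (φ z) (φ z)).re) z v := rfl
    rw [h2, h, re_S_comm (D.pos z hz).isHermitian (dV φ z v) (φ z), pf, pg]
    ring
  refine clm_ext ?_ ?_
  · rw [key 1]
    simp [pF, pG]
  · rw [key Complex.I]
    simp [pF, pG]

lemma diff_f {z : ℂ} (hz : z ∈ U) (v : ℂ) : DifferentiableAt ℝ (pf H φ v) z :=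
  ((D.contDiffOn_f v).contDiffAt (D.op.mem_nhds hz)).differentiableAt one_ne_zero
lemma diff_g {z : ℂ} (hz : z ∈ U) (v : ℂ) : DifferentiableAt ℝ (pg H φ v) z :=
  ((D.contDiffOn_g v).contDiffAt (D.op.mem_nhds hz)).differentiableAt one_ne_zero

lemma fderiv_f {z : ℂ} (hz : z ∈ U) (v : ℂ) : fderiv ℝ (pf H φ v) z v
    = pe H φ v z + (S (dM H z v) (φ z) (dV φ z v)).re + (S (H z) (φ z) (d2V φ z v)).re :=
  fderiv_S D.op le_rfl D.cH1 D.cφ1 (D.cdφ v) hz v

lemma fderiv_g {z : ℂ} (hz : z ∈ U) (v : ℂ) : fderiv ℝ (pg H φ v) z v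
    = (S (dM H z v) (φ z) (dV φ z v)).re + 1 / 2 * (S (d2M H z v) (φ z) (φ z)).re := by
  have h := fderiv_S D.op le_rfl (D.cdH v) D.cφ1 D.cφ1 hz v
  have hd : DifferentiableAt ℝ (fun z => (S (dM H z v) (φ z) (φ z)).re) z :=
    ((contDiffOn_S (D.cdH v) D.cφ1 D.cφ1).contDiffAt (D.op.mem_nhds hz)).differentiableAt
      one_ne_zero
  have h2 : fderiv ℝ (pg H φ v) z v
      = 1 / 2 * fderiv ℝ (fun z => (S (dM H z v) (φ z) (φ z)).re) z v := by
    have : pg H φ v = fun z => 1 / 2 * (S (dM H z v) (φ z) (φ z)).re := rfl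
    rw [this, fderiv_const_mul hd]
    simp
  rw [h2, h, re_S_comm (D.herm hz v) (dV φ z v) (φ z), d2M]
  ring

/-- `div F = E` -/
lemma div_F {z : ℂ} (hz : z ∈ U) : div (pF H φ) z = pE H φ z := by
  have h0 : div (pF H φ) z = fderiv ℝ (pf H φ 1) z 1 + fderiv ℝ (pf H φ Complex.I) z Complex.I :=
    div_eq (D.diff_f hz _) (D.diff_f hz _)
  rw [h0, D.fderiv_f hz, D.fderiv_f hz, pE]
  have h := congrArg (fun v => (star (φ z) ⬝ᵥ v).re) (D.eqn z hz)
  simp only [dotProduct_add, dotProduct_zero, Complex.add_re, Complex.zero_re] at h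
  simp only [S]
  linarith

/-- `div G = 2 Y - 2 X` -/
lemma div_G {z : ℂ} (hz : z ∈ U) : div (pG H φ) z = 2 * pY H φ z - 2 * pX H φ z := by
  have h0 : div (pG H φ) z = fderiv ℝ (pg H φ 1) z 1 + fderiv ℝ (pg H φ Complex.I) z Complex.I :=
    div_eq (D.diff_g hz _) (D.diff_g hz _)
  rw [h0, D.fderiv_g hz, D.fderiv_g hz, pX, px, px, pY, S_add_mat, Complex.add_re]
  ring

lemma f_sq {z : ℂ} (hz : z ∈ U) (v : ℂ) : pf H φ v z ^ 2 ≤ pA H φ z * pe H φ v z :=
  re_S_sq_le (D.pos z hz).posSemidef _ _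

lemma g_sq {z : ℂ} (hz : z ∈ U) (v : ℂ) : pg H φ v z ^ 2 ≤ pA H φ z * py H φ v z := by
  have h := re_S_sq_le' (D.pos z hz) (D.herm hz v) (φ z) (φ z)
  simp only [pg, pA, py]
  nlinarith

lemma x_sq {z : ℂ} (hz : z ∈ U) (v : ℂ) : px H φ v z ^ 2 ≤ pe H φ v z * py H φ v z := by
  have h := re_S_sq_le' (D.pos z hz) (D.herm hz v) (φ z) (dV φ z v)
  rw [re_S_comm (D.herm hz v)] at h
  simp only [px, pe, py]
  nlinarith

lemma X_sq {z : ℂ} (hz : z ∈ U) : pX H φ z ^ 2 ≤ pE H φ z * pY H φ z := by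
  rw [pX, pE, D.Y_eq hz]
  exact CylData.two_cs (D.e_nonneg hz _) (D.e_nonneg hz _) (D.y_nonneg hz _) (D.y_nonneg hz _)
    (D.x_sq hz _) (D.x_sq hz _)


omit D [Fintype κ] [DecidableEq κ] in
lemma lin_sq_le {f g a e e' : ℝ} (hf : f ^ 2 ≤ a * e) (hg : g ^ 2 ≤ a * e') (v : ℂ) :
    (f * v.re + g * v.im) ^ 2 ≤ (e + e') * ‖v‖ ^ 2 * a := by
  have h1 : (f * v.re + g * v.im) ^ 2 ≤ (f ^ 2 + g ^ 2) * (v.re ^ 2 + v.im ^ 2) := by
    nlinarith [sq_nonneg (f * v.im - g * v.re)]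
  have h2 : ‖v‖ ^ 2 = v.re ^ 2 + v.im ^ 2 := by
    rw [Complex.sq_norm, Complex.normSq_apply]; ring
  rw [h2]
  nlinarith [mul_le_mul_of_nonneg_right (add_le_add hf hg)
    (add_nonneg (sq_nonneg v.re) (sq_nonneg v.im))]

/-- `|F|² ≤ E A` -/
lemma F_sq {z : ℂ} (hz : z ∈ U) (v : ℂ) :
    (pF H φ z v) ^ 2 ≤ pE H φ z * ‖v‖ ^ 2 * pA H φ z := by
  rw [pF, lin_apply]
  exact lin_sq_le (D.f_sq hz _) (D.f_sq hz _) v

/-- `|G|² ≤ Y A` -/
lemma G_sq {z : ℂ} (hz : z ∈ U) (v : ℂ) :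
    (pG H φ z v) ^ 2 ≤ pY H φ z * ‖v‖ ^ 2 * pA H φ z := by
  rw [pG, lin_apply, D.Y_eq hz]
  exact lin_sq_le (D.g_sq hz _) (D.g_sq hz _) v

end PlaneData

/-! ### product rules for matrix valued functions -/

omit [DecidableEq κ] in
lemma dM_mul {A B : ℂ → Matrix κ κ ℂ} (hU : IsOpen U) (hA : MC 1 A U) (hB : MC 1 B U) {z : ℂ}
    (hz : z ∈ U) (v : ℂ) : dM (fun y => A y * B y) z v = dM A z v * B z + A z * dM B z v := by
  ext i j
  have h1 := MD_line hU le_rfl hA hz v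
  have h2 := MD_line hU le_rfl hB hz v
  have hc : ContDiffOn ℝ 1 (fun y => (A y * B y) i j) U := by
    simp only [Matrix.mul_apply]
    exact ContDiffOn.sum fun k _ => (hA i k).mul (hB k j)
  have h3 := hasDerivAt_line (v := v) ((hc.contDiffAt (hU.mem_nhds hz)).differentiableAt one_ne_zero)
  have h4 : HasDerivAt (fun x : ℝ => (A (z + x * v) * B (z + x * v)) i j)
      (∑ k, (dM A z v i k * B (z + (0 : ℝ) * v) k j
        + A (z + (0 : ℝ) * v) i k * dM B z v k j)) 0 := by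
    simp only [Matrix.mul_apply]
    exact HasDerivAt.fun_sum fun k _ => (h1 i k).mul (h2 k j)
  have h5 := h3.unique h4
  simp only [dM, Matrix.of_apply, Matrix.add_apply, Matrix.mul_apply] at h5 ⊢
  rw [h5]
  simp [Finset.sum_add_distrib]

omit [DecidableEq κ] in
lemma dV_mulVec {A : ℂ → Matrix κ κ ℂ} {u : ℂ → κ → ℂ} (hU : IsOpen U) (hA : MC 1 A U)
    (hu : VC 1 u U) {z : ℂ} (hz : z ∈ U) (v : ℂ) :
    dV (fun y => A y *ᵥ u y) z v = dM A z v *ᵥ u z + A z *ᵥ dV u z v := by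
  ext i
  have h1 := MD_line hU le_rfl hA hz v
  have h2 := VD_line hU le_rfl hu hz v
  have hc : ContDiffOn ℝ 1 (fun y => (A y *ᵥ u y) i) U := by
    simp only [Matrix.mulVec, dotProduct]
    exact ContDiffOn.sum fun k _ => (hA i k).mul (hu k)
  have h3 := hasDerivAt_line (v := v) ((hc.contDiffAt (hU.mem_nhds hz)).differentiableAt one_ne_zero)
  have h4 : HasDerivAt (fun x : ℝ => (A (z + x * v) *ᵥ u (z + x * v)) i)
      (∑ k, (dM A z v i k * u (z + (0 : ℝ) * v) k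
        + A (z + (0 : ℝ) * v) i k * dV u z v k)) 0 := by
    simp only [Matrix.mulVec, dotProduct]
    exact HasDerivAt.fun_sum fun k _ => (h1 i k).mul (h2 k)
  have h5 := h3.unique h4
  simp only [dV, Pi.add_apply, Matrix.mulVec, dotProduct] at h5 ⊢
  rw [h5]
  simp [Finset.sum_add_distrib]

omit [Fintype κ] [DecidableEq κ] in
lemma dM_congr {A B : ℂ → Matrix κ κ ℂ} (hU : IsOpen U) (h : ∀ z ∈ U, A z = B z) {z : ℂ}
    (hz : z ∈ U) (v : ℂ) : dM A z v = dM B z v := by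
  ext i j
  simp only [dM, Matrix.of_apply]
  have : (fun y => A y i j) =ᶠ[𝓝 z] fun y => B y i j := by
    filter_upwards [hU.mem_nhds hz] with y hy
    rw [h y hy]
  rw [this.fderiv_eq]

omit [Fintype κ] [DecidableEq κ] in
lemma dM_smul {A : ℂ → Matrix κ κ ℂ} (hU : IsOpen U) (hA : MC 1 A U) (c : ℂ) {z : ℂ}
    (hz : z ∈ U) (v : ℂ) : dM (fun y => c • A y) z v = c • dM A z v := by
  ext i j
  simp only [dM, Matrix.of_apply, Matrix.smul_apply, smul_eq_mul]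
  have hd := ((hA i j).contDiffAt (hU.mem_nhds hz)).differentiableAt one_ne_zero
  rw [fderiv_const_mul hd]
  rfl

omit [Fintype κ] [DecidableEq κ] in
/-- symmetry of the second derivatives -/
lemma dM_symm {E : ℂ → Matrix κ κ ℂ} (hU : IsOpen U) (hE : MC 2 E U) {z : ℂ} (hz : z ∈ U)
    (v w : ℂ) : dM (fun y => dM E y v) z w = dM (fun y => dM E y w) z v := by
  ext i j
  simp only [dM, Matrix.of_apply]
  have h2 : ContDiffAt ℝ 2 (fun y => E y i j) z := (hE i j).contDiffAt (hU.mem_nhds hz)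
  have hs : IsSymmSndFDerivAt ℝ (fun y => E y i j) z := h2.isSymmSndFDerivAt (by simp)
  have hd : DifferentiableAt ℝ (fderiv ℝ (fun y => E y i j)) z :=
    (h2.fderiv_right (m := 1) (by norm_num)).differentiableAt one_ne_zero
  have key : ∀ a b : ℂ, fderiv ℝ (fun y => fderiv ℝ (fun y => E y i j) y a) z b
      = fderiv ℝ (fderiv ℝ (fun y => E y i j)) z b a := by
    intro a b
    have := (hd.hasFDerivAt.clm_apply (hasFDerivAt_const a z)).fderiv
    rw [this]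
    simp
  rw [key, key]
  exact hs w v

/-- **the metric of a graded bundle is harmonic**: `H_x = 2i H E_y`, `H_y = -2i H E_x`
(`E` = grading operator, `[E, ∂E] = -∂E`, `H = S (-1)^E`) -/
lemma harm_of_grading {E : ℂ → Matrix κ κ ℂ} (hU : IsOpen U) (hH : MC 1 H U) (hE : MC 2 E U)
    (hdet : ∀ z ∈ U, IsUnit (H z).det)
    (h1 : ∀ z ∈ U, dM H z 1 = (2 * Complex.I) • (H z * dM E z Complex.I))
    (h2 : ∀ z ∈ U, dM H z Complex.I = (-(2 * Complex.I)) • (H z * dM E z 1)) {z : ℂ}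
    (hz : z ∈ U) : d2M H z 1 + d2M H z Complex.I
      = dM H z 1 * (H z)⁻¹ * dM H z 1 + dM H z Complex.I * (H z)⁻¹ * dM H z Complex.I := by
  have cE : ∀ v, MC 1 (fun y => dM E y v) U := fun v =>
    MC.dM hU (by simpa [one_add_one_eq_two] using hE) v
  have cp : ∀ v, MC 1 (fun y => H y * dM E y v) U := fun v i j => by
    simp only [Matrix.mul_apply]
    exact ContDiffOn.sum fun k _ => (hH i k).mul (cE v k j)
  have e1 : d2M H z 1 = (2 * Complex.I) • (dM H z 1 * dM E z Complex.I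
      + H z * dM (fun y => dM E y Complex.I) z 1) := by
    rw [d2M, dM_congr hU h1 hz 1, dM_smul hU (cp _) _ hz, dM_mul hU hH (cE _) hz]
  have e2 : d2M H z Complex.I = (-(2 * Complex.I)) • (dM H z Complex.I * dM E z 1
      + H z * dM (fun y => dM E y 1) z Complex.I) := by
    rw [d2M, dM_congr hU h2 hz Complex.I, dM_smul hU (cp _) _ hz, dM_mul hU hH (cE _) hz]
  have e3 : dM (fun y => dM E y Complex.I) z 1 = dM (fun y => dM E y 1) z Complex.I :=
    dM_symm hU hE hz _ _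
  have e4 : dM H z 1 * (H z)⁻¹ * dM H z 1 = (2 * Complex.I) • (dM H z 1 * dM E z Complex.I) := by
    conv_lhs => rhs; rw [h1 z hz]
    rw [Matrix.mul_smul, Matrix.mul_assoc, ← Matrix.mul_assoc (H z)⁻¹,
      Matrix.nonsing_inv_mul _ (hdet z hz), Matrix.one_mul]
  have e5 : dM H z Complex.I * (H z)⁻¹ * dM H z Complex.I
      = (-(2 * Complex.I)) • (dM H z Complex.I * dM E z 1) := by
    conv_lhs => rhs; rw [h2 z hz]
    rw [Matrix.mul_smul, Matrix.mul_assoc, ← Matrix.mul_assoc (H z)⁻¹,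
      Matrix.nonsing_inv_mul _ (hdet z hz), Matrix.one_mul]
  rw [e1, e2, e3, e4, e5]
  module

omit [DecidableEq κ] in
/-- the equation `D*D φ = 0` in divergence form -/
lemma eqn_of_div (hU : IsOpen U) (hH : MC 1 H U) (hφ : VC 2 φ U) {z : ℂ} (hz : z ∈ U)
    (h : dV (fun y => H y *ᵥ dV φ y 1) z 1
      + dV (fun y => H y *ᵥ dV φ y Complex.I) z Complex.I = 0) :
    dM H z 1 *ᵥ dV φ z 1 + H z *ᵥ d2V φ z 1
    + (dM H z Complex.I *ᵥ dV φ z Complex.I + H z *ᵥ d2V φ z Complex.I) = 0 := by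
  have cφ : ∀ v, VC 1 (fun y => dV φ y v) U := fun v =>
    VC.dV hU (by simpa [one_add_one_eq_two] using hφ) v
  rw [dV_mulVec hU hH (cφ _) hz, dV_mulVec hU hH (cφ _) hz] at h
  exact h

/-! ### flat sections -/

omit [Fintype κ] [DecidableEq κ] in
lemma dV_const (u : κ → ℂ) (z v : ℂ) : dV (fun _ => u) z v = 0 := by
  ext i
  simp [dV]

omit [Fintype κ] [DecidableEq κ] in
lemma d2V_const (u : κ → ℂ) (z v : ℂ) : d2V (fun _ => u) z v = 0 := by
  ext i
  simp [d2V, dV]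

/-- a harmonic metric together with a constant (= flat) section is `PlaneData` -/
lemma PlaneData.of_flat (hU : IsOpen U) (cH : MC 2 H U) (pos : ∀ z ∈ U, (H z).PosDef)
    (harm : ∀ z ∈ U, d2M H z 1 + d2M H z Complex.I
      = dM H z 1 * (H z)⁻¹ * dM H z 1 + dM H z Complex.I * (H z)⁻¹ * dM H z Complex.I)
    (u : κ → ℂ) : PlaneData H (fun _ => u) U where
  op := hU
  cH := cH
  cφ := fun i => contDiffOn_const
  pos := pos
  harm := harm
  eqn := fun z _ => by simp [dV_const, d2V_const]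

omit [Fintype κ] [DecidableEq κ] in
/-- the Laplacian is the divergence of the differential -/
lemma laplacian_eq_div (f : ℂ → ℝ) (z : ℂ) :
    Laplacian.laplacian f z = div (fderiv ℝ f) z := by
  rw [InnerProductSpace.laplacian_eq_iteratedFDeriv_complexPlane]
  simp [div, iteratedFDeriv_two_apply]

section flat

variable {u : κ → ℂ} (hu : u ≠ 0) (D : PlaneData H (fun _ => u) U)
include D hu

lemma flat_A_pos {z : ℂ} (hz : z ∈ U) : 0 < pA H (fun _ => u) z := re_S_pos (D.pos z hz) hu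

omit hu in
lemma flat_fderiv_A {z : ℂ} (hz : z ∈ U) :
    fderiv ℝ (pA H (fun _ => u)) z = (2 : ℝ) • pG H (fun _ => u) z := by
  have h := D.fderiv_A hz
  have h2 : pF H (fun _ => u) z = 0 := by
    simp [pF, pf, dV_const, S]
  rw [h2] at h
  simpa using h

/-- `|d log |u|²|` is bounded by `2 |Θ|` -/
lemma flat_fderiv_log_le {z : ℂ} (hz : z ∈ U) {c : ℝ} (hc : 0 ≤ c)
    (hY : pY H (fun _ => u) z ≤ c ^ 2 * pA H (fun _ => u) z) (v : ℂ) :
    |fderiv ℝ (fun z => Real.log (pA H (fun _ => u) z)) z v| ≤ 2 * c * ‖v‖ := by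
  have hA := flat_A_pos hu D hz
  have hd : DifferentiableAt ℝ (pA H (fun _ => u)) z :=
    (D.contDiffOn_A.contDiffAt (D.op.mem_nhds hz)).differentiableAt two_ne_zero
  have h1 : fderiv ℝ (fun z => Real.log (pA H (fun _ => u) z)) z v
      = 2 * (pG H (fun _ => u) z v) / pA H (fun _ => u) z := by
    rw [(hd.hasFDerivAt.log hA.ne').fderiv, flat_fderiv_A D hz]
    simp
    field_simp
  have h2 := D.G_sq hz v
  rw [h1, abs_div, abs_of_pos hA, div_le_iff₀ hA]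
  have h3 : (pG H (fun _ => u) z v) ^ 2 ≤ (c * ‖v‖ * pA H (fun _ => u) z) ^ 2 := by
    refine h2.trans ?_
    have : pY H (fun _ => u) z * ‖v‖ ^ 2 * pA H (fun _ => u) z
        ≤ (c ^ 2 * pA H (fun _ => u) z) * ‖v‖ ^ 2 * pA H (fun _ => u) z :=
      mul_le_mul_of_nonneg_right (mul_le_mul_of_nonneg_right hY (sq_nonneg _)) hA.le
    refine this.trans (le_of_eq ?_)
    ring
  have h4 : |pG H (fun _ => u) z v| ≤ c * ‖v‖ * pA H (fun _ => u) z :=
    abs_le_of_sq_le_sq h3 (by positivity)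
  rw [abs_mul, abs_of_pos (by norm_num : (0 : ℝ) < 2)]
  nlinarith

/-- `log |u|²` is subharmonic for flat `u` (divergence form) -/
lemma flat_div_log_nonneg {z : ℂ} (hz : z ∈ U) :
    0 ≤ div (fderiv ℝ (fun z => Real.log (pA H (fun _ => u) z))) z := by
  set A := pA H (fun _ => u) with hAdef
  set g := fun v => pg H (fun _ => u) v with hgdef
  have hA : 0 < A z := flat_A_pos hu D hz
  have hdA : ∀ y ∈ U, DifferentiableAt ℝ A y := fun y hy =>
    (D.contDiffOn_A.contDiffAt (D.op.mem_nhds hy)).differentiableAt two_ne_zero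
  have h1 : ∀ y ∈ U, fderiv ℝ (fun z => Real.log (A z)) y
      = (2 * g 1 y / A y) • Complex.reCLM + (2 * g Complex.I y / A y) • Complex.imCLM := by
    intro y hy
    have hAy := flat_A_pos hu D hy
    rw [((hdA y hy).hasFDerivAt.log hAy.ne').fderiv, flat_fderiv_A D hy, pG]
    refine clm_ext ?_ ?_
    · simp
      ring
    · simp
      ring
  have h2 : fderiv ℝ (fun z => Real.log (A z)) =ᶠ[𝓝 z] fun y =>
      (2 * g 1 y / A y) • Complex.reCLM + (2 * g Complex.I y / A y) • Complex.imCLM := by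
    filter_upwards [D.op.mem_nhds hz] with y hy
    exact h1 y hy
  have hdq : ∀ v, HasFDerivAt (fun y => 2 * g v y / A y)
      ((A z)⁻¹ • ((2 : ℝ) • fderiv ℝ (g v) z) - (2 * g v z / (A z) ^ 2) • fderiv ℝ A z) z := by
    intro v
    have h3 : HasFDerivAt (fun y => 2 * g v y) ((2 : ℝ) • fderiv ℝ (g v) z) z :=
      (D.diff_g hz v).hasFDerivAt.const_mul 2
    have h4 := h3.mul ((hasDerivAt_inv hA.ne').comp_hasFDerivAt z (hdA z hz).hasFDerivAt)
    have h5 : (fun y => 2 * g v y / A y) = (fun y => 2 * g v y) * (Inv.inv ∘ A) := by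
      funext y
      simp [div_eq_mul_inv]
    rw [h5]
    refine h4.congr_fderiv ?_
    refine ContinuousLinearMap.ext fun w => ?_
    simp
    field_simp
    ring
  have h3 : div (fderiv ℝ (fun z => Real.log (A z))) z
      = fderiv ℝ (fun y => 2 * g 1 y / A y) z 1
        + fderiv ℝ (fun y => 2 * g Complex.I y / A y) z Complex.I := by
    rw [← div_eq (hdq 1).differentiableAt (hdq Complex.I).differentiableAt, div, div,
      h2.fderiv_eq]
  rw [h3, (hdq 1).fderiv, (hdq Complex.I).fderiv]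
  have h4 : fderiv ℝ (g 1) z 1 + fderiv ℝ (g Complex.I) z Complex.I = 2 * pY H (fun _ => u) z := by
    have h5 := D.div_G hz
    have h6 : div (pG H (fun _ => u)) z = fderiv ℝ (g 1) z 1 + fderiv ℝ (g Complex.I) z Complex.I :=
      div_eq (D.diff_g hz _) (D.diff_g hz _)
    have h7 : pX H (fun _ => u) z = 0 := by
      simp [pX, px, dV_const, S]
    rw [← h6, h5, h7]
    ring
  have h5 : fderiv ℝ A z 1 = 2 * g 1 z := by
    rw [flat_fderiv_A D hz]
    simp [pG, hgdef]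
  have h6 : fderiv ℝ A z Complex.I = 2 * g Complex.I z := by
    rw [flat_fderiv_A D hz]
    simp [pG, hgdef]
  have h7 : g 1 z ^ 2 + g Complex.I z ^ 2 ≤ A z * pY H (fun _ => u) z := by
    rw [D.Y_eq hz, mul_add]
    exact add_le_add (D.g_sq hz _) (D.g_sq hz _)
  have h8 : ((A z)⁻¹ • ((2 : ℝ) • fderiv ℝ (g 1) z) - (2 * g 1 z / (A z) ^ 2) • fderiv ℝ A z) 1
      + ((A z)⁻¹ • ((2 : ℝ) • fderiv ℝ (g Complex.I) z)
        - (2 * g Complex.I z / (A z) ^ 2) • fderiv ℝ A z) Complex.I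
      = (4 * (A z * pY H (fun _ => u) z) - 4 * (g 1 z ^ 2 + g Complex.I z ^ 2)) / (A z) ^ 2 := by
    simp only [sub_apply, smul_apply, smul_eq_mul, h5, h6]
    have h9 : fderiv ℝ (g Complex.I) z Complex.I
        = 2 * pY H (fun _ => u) z - fderiv ℝ (g 1) z 1 := by linarith
    rw [h9]
    field_simp
    ring
  rw [h8]
  refine div_nonneg ?_ (sq_nonneg _)
  linarith

/-- `log |u|²` is subharmonic for flat `u` -/
lemma flat_laplacian_log_nonneg {z : ℂ} (hz : z ∈ U) :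
    0 ≤ Laplacian.laplacian (fun z => Real.log (pA H (fun _ => u) z)) z := by
  rw [laplacian_eq_div]
  exact flat_div_log_nonneg hu D hz

end flat

end main

end Crest.Agent.R276.CylP_593
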