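import Mathlib

-- ▼ part R276/Top1_816
section

/-!
# R276, leaf (TOP1): near-diagonal cocycles with values in a (non-abelian, discrete) group

A *near-diagonal cocycle* (`NDC`) on a topological space `X` with values in a group `G` is a
function `c : X → X → G` such that every point has a neighbourhood `U` with
`c x y * c y w = c x w` for all `x y w ∈ U`.  (No continuity: `G` is thought of as discrete.)
These are local systems with fibre `G` "with a frame chosen at every point".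

* `Cob c c'`            : the two cocycles differ by a change of frames `A : X → G`;
* `Triv c`              : `c` is trivial, i.e. `c x y = A x * (A y)⁻¹` near the diagonal;
* `NDC.triv_of_simplyConnected` : triviality on simply connected, locally path connected spaces;
* `NDC.homotopy`        : the homotopy theorem on `X × T`;
* `NDC.homotopy_Icc`, `NDC.homotopy_real` : `T = [0,1]`, `T = ℝ`;
* `NDC.cob_of_homotopic`: pull-backs by homotopic maps are cohomologous;
* `NDC.triv_of_contractible`, `NDC.triv_of_starConvex`, `NDC.triv_of_convex`;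
* `Triv.eq_mul_const`   : uniqueness of trivialisations on preconnected spaces.
-/

set_option autoImplicit false

open Topology Filter Set

namespace Crest.Agent.R276.Top1_816

variable {X Y Z : Type*} [TopologicalSpace X] [TopologicalSpace Y] [TopologicalSpace Z]
variable {G : Type*} [Group G]

/-- near-diagonal cocycle -/
def NDC (c : X → X → G) : Prop :=
  ∀ z : X, ∃ U ∈ 𝓝 z, ∀ x ∈ U, ∀ y ∈ U, ∀ w ∈ U, c x y * c y w = c x w

/-- `c = A c' A⁻¹` near the diagonal, for one `A`. -/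
def CobBy (A : X → G) (c c' : X → X → G) : Prop :=
  ∀ z : X, ∃ U ∈ 𝓝 z, ∀ x ∈ U, ∀ y ∈ U, c x y = A x * c' x y * (A y)⁻¹

/-- cohomologous cocycles -/
def Cob (c c' : X → X → G) : Prop := ∃ A : X → G, CobBy A c c'

/-- `A` trivialises `c` -/
def TrivBy (A : X → G) (c : X → X → G) : Prop :=
  ∀ z : X, ∃ U ∈ 𝓝 z, ∀ x ∈ U, ∀ y ∈ U, c x y = A x * (A y)⁻¹

/-- trivial cocycles -/
def Triv (c : X → X → G) : Prop := ∃ A : X → G, TrivBy A c

theorem NDC.open_nhds {c : X → X → G} (hc : NDC c) (z : X) :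
    ∃ U : Set X, IsOpen U ∧ z ∈ U ∧ ∀ x ∈ U, ∀ y ∈ U, ∀ w ∈ U, c x y * c y w = c x w := by
  obtain ⟨U, hU, h⟩ := hc z
  obtain ⟨V, hVU, hV, hzV⟩ := mem_nhds_iff.1 hU
  exact ⟨V, hV, hzV, fun x hx y hy w hw => h x (hVU hx) y (hVU hy) w (hVU hw)⟩

theorem NDC.self {c : X → X → G} (hc : NDC c) (x : X) : c x x = 1 := by
  obtain ⟨U, hU, h⟩ := hc x
  have hx := mem_of_mem_nhds hU
  have := h x hx x hx x hx
  simpa using this

theorem NDC.inv {c : X → X → G} (hc : NDC c) (z : X) :
    ∃ U ∈ 𝓝 z, ∀ x ∈ U, ∀ y ∈ U, c y x = (c x y)⁻¹ := by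
  obtain ⟨U, hU, h⟩ := hc z
  refine ⟨U, hU, fun x hx y hy => ?_⟩
  have := h x hx y hy x hx
  rw [hc.self] at this
  exact eq_inv_of_mul_eq_one_right this

/-- eventual form -/
theorem NDC.eventually {c : X → X → G} (hc : NDC c) (z : X) :
    ∀ᶠ p : X × X × X in 𝓝 z ×ˢ 𝓝 z ×ˢ 𝓝 z, c p.1 p.2.1 * c p.2.1 p.2.2 = c p.1 p.2.2 := by
  obtain ⟨U, hU, h⟩ := hc z
  have : U ×ˢ U ×ˢ U ∈ 𝓝 z ×ˢ 𝓝 z ×ˢ 𝓝 z := prod_mem_prod hU (prod_mem_prod hU hU)
  filter_upwards [this] with p hp
  exact h _ hp.1 _ hp.2.1 _ hp.2.2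


/-- pull-back under a continuous map -/
theorem NDC.comp {c : X → X → G} (hc : NDC c) {f : Y → X} (hf : Continuous f) :
    NDC (fun y y' => c (f y) (f y')) := by
  intro z
  obtain ⟨U, hU, h⟩ := hc (f z)
  exact ⟨f ⁻¹' U, hf.continuousAt hU, fun x hx y hy w hw => h _ hx _ hy _ hw⟩

/-- push-forward under a group homomorphism -/
theorem NDC.map {c : X → X → G} (hc : NDC c) {G' : Type*} [Group G'] (φ : G →* G') :
    NDC (fun x y => φ (c x y)) := by
  intro z
  obtain ⟨U, hU, h⟩ := hc z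
  exact ⟨U, hU, fun x hx y hy w hw => by rw [← map_mul, h x hx y hy w hw]⟩

theorem NDC.one : NDC (fun _ _ : X => (1 : G)) := fun _ => ⟨univ, univ_mem, by simp⟩


theorem CobBy.refl (c : X → X → G) : CobBy (fun _ => 1) c c :=
  fun _ => ⟨univ, univ_mem, by simp⟩

theorem CobBy.symm {A : X → G} {c c' : X → X → G} (h : CobBy A c c') :
    CobBy (fun x => (A x)⁻¹) c' c := by
  intro z
  obtain ⟨U, hU, h⟩ := h z
  refine ⟨U, hU, fun x hx y hy => ?_⟩
  rw [h x hx y hy]
  group

theorem CobBy.trans {A B : X → G} {c c' c'' : X → X → G} (h : CobBy A c c')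
    (h' : CobBy B c' c'') : CobBy (fun x => A x * B x) c c'' := by
  intro z
  obtain ⟨U, hU, h⟩ := h z
  obtain ⟨V, hV, h'⟩ := h' z
  refine ⟨U ∩ V, inter_mem hU hV, fun x hx y hy => ?_⟩
  rw [h x hx.1 y hy.1, h' x hx.2 y hy.2]
  group

theorem CobBy.comp {A : X → G} {c c' : X → X → G} (h : CobBy A c c') {f : Y → X}
    (hf : Continuous f) :
    CobBy (fun y => A (f y)) (fun y y' => c (f y) (f y')) (fun y y' => c' (f y) (f y')) := by
  intro z
  obtain ⟨U, hU, h⟩ := h (f z)
  exact ⟨f ⁻¹' U, hf.continuousAt hU, fun x hx y hy => h _ hx _ hy⟩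

theorem CobBy.ndc {A : X → G} {c c' : X → X → G} (h : CobBy A c c') (hc' : NDC c') : NDC c := by
  intro z
  obtain ⟨U, hU, h⟩ := h z
  obtain ⟨V, hV, h'⟩ := hc' z
  refine ⟨U ∩ V, inter_mem hU hV, fun x hx y hy w hw => ?_⟩
  rw [h x hx.1 y hy.1, h y hy.1 w hw.1, h x hx.1 w hw.1, ← h' x hx.2 y hy.2 w hw.2]
  group

theorem Cob.refl (c : X → X → G) : Cob c c := ⟨_, CobBy.refl c⟩
theorem Cob.symm {c c' : X → X → G} (h : Cob c c') : Cob c' c := ⟨_, h.choose_spec.symm⟩
theorem Cob.trans {c c' c'' : X → X → G} (h : Cob c c') (h' : Cob c' c'') : Cob c c'' :=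
  ⟨_, h.choose_spec.trans h'.choose_spec⟩
theorem Cob.comp {c c' : X → X → G} (h : Cob c c') {f : Y → X} (hf : Continuous f) :
    Cob (fun y y' => c (f y) (f y')) (fun y y' => c' (f y) (f y')) :=
  ⟨_, h.choose_spec.comp hf⟩

theorem trivBy_iff_cobBy {A : X → G} {c : X → X → G} :
    TrivBy A c ↔ CobBy A c (fun _ _ => 1) := by
  simp [TrivBy, CobBy]

theorem triv_iff_cob {c : X → X → G} : Triv c ↔ Cob c (fun _ _ => 1) := by
  simp [Triv, Cob, trivBy_iff_cobBy]

theorem TrivBy.comp {A : X → G} {c : X → X → G} (h : TrivBy A c) {f : Y → X}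
    (hf : Continuous f) : TrivBy (fun y => A (f y)) (fun y y' => c (f y) (f y')) := by
  rw [trivBy_iff_cobBy] at *
  exact h.comp hf

theorem Triv.comp {c : X → X → G} (h : Triv c) {f : Y → X} (hf : Continuous f) :
    Triv (fun y y' => c (f y) (f y')) := ⟨_, h.choose_spec.comp hf⟩

theorem TrivBy.mul_const {A : X → G} {c : X → X → G} (h : TrivBy A c) (g : G) :
    TrivBy (fun x => A x * g) c := by
  intro z
  obtain ⟨U, hU, h⟩ := h z
  refine ⟨U, hU, fun x hx y hy => ?_⟩
  rw [h x hx y hy]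
  group

/-- normalisation at a base point -/
theorem Triv.normalise {c : X → X → G} (h : Triv c) (x₀ : X) :
    ∃ A : X → G, A x₀ = 1 ∧ TrivBy A c := by
  obtain ⟨A, hA⟩ := h
  exact ⟨fun x => A x * (A x₀)⁻¹, by simp, hA.mul_const _⟩

/-- The ratio of two trivialisations is locally constant. -/
theorem TrivBy.isLocallyConstant {A B : X → G} {c : X → X → G} (hA : TrivBy A c)
    (hB : TrivBy B c) : IsLocallyConstant (fun x => (A x)⁻¹ * B x) := by
  rw [IsLocallyConstant.iff_eventually_eq]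
  intro z
  obtain ⟨U, hU, h⟩ := hA z
  obtain ⟨V, hV, h'⟩ := hB z
  filter_upwards [hU, hV] with x hxU hxV
  have h1 := h x hxU z (mem_of_mem_nhds hU)
  have h2 := h' x hxV z (mem_of_mem_nhds hV)
  rw [h1] at h2
  have : B x = A x * (A z)⁻¹ * B z := by rw [h2]; group
  rw [this]
  group

/-- uniqueness of trivialisations on preconnected spaces -/
theorem TrivBy.eq_mul_const [PreconnectedSpace X] {A B : X → G} {c : X → X → G}
    (hA : TrivBy A c) (hB : TrivBy B c) (x₀ x : X) :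
    B x = A x * ((A x₀)⁻¹ * B x₀) := by
  have := (hA.isLocallyConstant hB).apply_eq_of_preconnectedSpace x x₀
  rw [← this]
  group


/-- A cocycle on a set on which the cocycle identity holds globally. -/
theorem trivBy_of_forall {c : X → X → G} (h : ∀ x y w, c x y * c y w = c x w) (x₀ : X) :
    TrivBy (fun x => c x x₀) c := by
  intro z
  refine ⟨univ, univ_mem, fun x _ y _ => ?_⟩
  simp only
  rw [← h x y x₀]
  group

/-! ### The associated covering space -/

/-- The total space `X × G` of the local system. -/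
structure Cov (c : X → X → G) where
  /-- base point -/
  pt : X
  /-- coordinate in the frame at `pt` -/
  val : G

/-- the topology of the total space: `(x, c x z * g)` is close to `(z, g)` for `x` close to `z` -/
instance Cov.top (c : X → X → G) : TopologicalSpace (Cov c) where
  IsOpen W := ∀ p ∈ W, ∀ᶠ x in 𝓝 (Cov.pt p), (⟨x, c x p.pt * p.val⟩ : Cov c) ∈ W
  isOpen_univ := fun _ _ => Eventually.of_forall fun _ => trivial
  isOpen_inter := fun _ _ hs ht p hp => (hs p hp.1).and (ht p hp.2)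
  isOpen_sUnion := fun _ hS p ⟨W, hW, hp⟩ =>
    (hS W hW p hp).mono fun _ hx => ⟨W, hW, hx⟩

theorem Cov.isOpen_iff {c : X → X → G} (W : Set (Cov c)) :
    IsOpen W ↔ ∀ p ∈ W, ∀ᶠ x in 𝓝 (Cov.pt p), (⟨x, c x p.pt * p.val⟩ : Cov c) ∈ W := Iff.rfl

theorem Cov.continuous_pt {c : X → X → G} : Continuous (Cov.pt : Cov c → X) := by
  refine ⟨fun U hU => ?_⟩
  rw [Cov.isOpen_iff]
  intro p hp
  exact hU.mem_nhds hp

theorem Cov.isOpen_sheet {c : X → X → G} {U : Set X} (hU : IsOpen U)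
    (h : ∀ x ∈ U, ∀ y ∈ U, ∀ w ∈ U, c x y * c y w = c x w) {z : X} (hz : z ∈ U)
    (g : G) : IsOpen {p : Cov c | p.pt ∈ U ∧ c z p.pt * p.val = g} := by
  rw [Cov.isOpen_iff]
  rintro ⟨y, g'⟩ ⟨hyU, hyS⟩
  filter_upwards [hU.mem_nhds hyU] with x hxU
  refine ⟨hxU, ?_⟩
  simp only at hyS ⊢
  rw [← mul_assoc, h z hz x hxU y hyU]
  exact hyS

theorem Cov.continuous_sheet {c : X → X → G} {U : Set X}
    (h : ∀ x ∈ U, ∀ y ∈ U, ∀ w ∈ U, c x y * c y w = c x w) {z : X} (hz : z ∈ U)
    (g : G) : Continuous (fun x : U => (⟨x.1, c x.1 z * g⟩ : Cov c)) := by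
  refine ⟨fun W hW => ?_⟩
  rw [isOpen_iff_mem_nhds]
  intro x₀ hx₀
  have h1 := (Cov.isOpen_iff W).1 hW _ hx₀
  have h2 : ∀ᶠ x : U in 𝓝 x₀, (⟨x.1, c x.1 x₀.1 * (c x₀.1 z * g)⟩ : Cov c) ∈ W :=
    continuous_subtype_val.continuousAt.eventually h1
  filter_upwards [h2] with x hx
  rw [← mul_assoc, h x.1 x.2 x₀.1 x₀.2 z hz] at hx
  exact hx

theorem Cov.isCoveringMap {c : X → X → G} (hc : NDC c) :
    IsCoveringMap (Cov.pt : Cov c → X) := by
  let : TopologicalSpace G := ⊥
  have : DiscreteTopology G := ⟨rfl⟩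
  intro z
  refine IsEvenlyCovered.to_isEvenlyCovered_preimage (I := G) ?_
  obtain ⟨U, hU, hz, h⟩ := hc.open_nhds z
  have hone : ∀ x ∈ U, ∀ y ∈ U, c x y * c y x = 1 := fun x hx y hy => by
    rw [h x hx y hy x hx, hc.self]
  refine ⟨inferInstance, U, hz, hU, hU.preimage Cov.continuous_pt, ?_⟩
  refine ⟨{ toFun := fun e => (⟨e.1.pt, e.2⟩, c z e.1.pt * e.1.val)
            invFun := fun q => ⟨⟨q.1.1, c q.1.1 z * q.2⟩, q.1.2⟩
            left_inv := ?_
            right_inv := ?_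
            continuous_toFun := ?_
            continuous_invFun := ?_ }, fun x => rfl⟩
  · rintro ⟨⟨x, g⟩, hx⟩
    have hx : x ∈ U := hx
    simp only [Subtype.mk.injEq, Cov.mk.injEq, true_and]
    rw [← mul_assoc, hone x hx z hz, one_mul]
  · rintro ⟨⟨x, hx⟩, g⟩
    simp only [Prod.mk.injEq, true_and]
    rw [← mul_assoc, hone z hz x hx, one_mul]
  · refine Continuous.prodMk ?_ ?_
    · exact Continuous.subtype_mk (Cov.continuous_pt.comp continuous_subtype_val) _
    · rw [continuous_discrete_rng]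
      intro g
      have := (Cov.isOpen_sheet hU h hz g).preimage
        (continuous_subtype_val : Continuous (Subtype.val : (Cov.pt ⁻¹' U : Set (Cov c)) → Cov c))
      convert this using 1
      ext e
      simp only [mem_preimage, mem_singleton_iff, mem_ofPred_eq]
      exact ⟨fun h => ⟨e.2, h⟩, fun h => h.2⟩
  · refine Continuous.subtype_mk ?_ _
    rw [continuous_prod_of_discrete_right]
    intro g
    exact Cov.continuous_sheet h hz g

/-- Triviality on simply connected, locally path connected spaces. -/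
theorem NDC.triv_of_simplyConnected [SimplyConnectedSpace X] [LocallyPathConnectedSpace X]
    {c : X → X → G} (hc : NDC c) : Triv c := by
  obtain ⟨x₀⟩ : Nonempty X := inferInstance
  obtain ⟨F, ⟨-, hF⟩, -⟩ := (Cov.isCoveringMap hc).existsUnique_continuousMap_lifts
    (ContinuousMap.id X) x₀ ⟨x₀, 1⟩ rfl
  have hF' : ∀ x, (F x).pt = x := fun x => congrFun hF x
  refine ⟨fun x => (F x).val, fun z => ?_⟩
  obtain ⟨U, hU, hz, h⟩ := hc.open_nhds z
  have hW := Cov.isOpen_sheet hU h hz (F z).val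
  have h1 : F ⁻¹' {p : Cov c | p.pt ∈ U ∧ c z p.pt * p.val = (F z).val} ∈ 𝓝 z := by
    refine (hW.preimage F.continuous).mem_nhds ⟨by rw [hF']; exact hz, ?_⟩
    rw [hF', hc.self, one_mul]
  refine ⟨_, h1, fun x hx y hy => ?_⟩
  obtain ⟨hx1, hx2⟩ := hx
  obtain ⟨hy1, hy2⟩ := hy
  rw [hF'] at hx1 hx2 hy1 hy2
  simp only
  have h3 : (F x).val = c x z * (F z).val := by
    rw [← hx2, ← mul_assoc, h x hx1 z hz x hx1, hc.self, one_mul]
  have h4 : (F y).val = c y z * (F z).val := by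
    rw [← hy2, ← mul_assoc, h y hy1 z hz y hy1, hc.self, one_mul]
  have h5 : c y z = (c z y)⁻¹ := by
    apply eq_inv_of_mul_eq_one_left
    rw [h y hy1 z hz y hy1, hc.self]
  rw [h3, h4, ← h x hx1 z hz y hy1, h5]
  group

theorem NDC.triv_real {c : ℝ → ℝ → G} (hc : NDC c) : Triv c := hc.triv_of_simplyConnected

/-! ### The homotopy theorem -/

/-- HOMOTOPY THEOREM.  `T` is a connected, locally connected space on which every near-diagonal
`G`-cocycle is trivial (e.g. `ℝ`, `[0,1]`, a simply connected locally path connected space). -/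
theorem NDC.homotopy {T : Type*} [TopologicalSpace T] [PreconnectedSpace T]
    [LocallyConnectedSpace T] (hT : ∀ c : T → T → G, NDC c → Triv c) {c : X × T → X × T → G}
    (hc : NDC c) (t₀ : T) :
    ∃ A : X × T → G, (∀ x, A (x, t₀) = 1) ∧
      CobBy A c (fun p q => c (p.1, t₀) (q.1, t₀)) := by
  -- the trivialisations along the slices
  have h1 : ∀ x : X, ∃ a : T → G, a t₀ = 1 ∧ TrivBy a (fun t t' => c (x, t) (x, t')) := by
    intro x
    have : NDC (fun t t' => c (x, t) (x, t')) :=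
      hc.comp (f := fun t : T => (x, t)) (by fun_prop)
    exact (hT _ this).normalise t₀
  choose a ha₀ ha using h1
  refine ⟨fun p => a p.1 p.2, fun x => ha₀ x, ?_⟩
  -- local boxes
  have box : ∀ z : X × T, ∃ U ∈ 𝓝 z.1, ∃ J : Set T, IsOpen J ∧ z.2 ∈ J ∧
      (∀ p ∈ U ×ˢ J, ∀ q ∈ U ×ˢ J, ∀ r ∈ U ×ˢ J, c p q * c q r = c p r) ∧
      (∀ x ∈ U, ∀ t ∈ J, ∀ t' ∈ J, a x t = c (x, t) (x, t') * a x t') := by
    rintro ⟨x₀, s₀⟩
    obtain ⟨W, hW, hcW⟩ := hc (x₀, s₀)
    rw [nhds_prod_eq] at hW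
    obtain ⟨U, hU, J₁, hJ₁, hUJ⟩ := mem_prod_iff.1 hW
    obtain ⟨J, ⟨hJo, hsJ, hJc⟩, hJJ⟩ :=
      (locallyConnectedSpace_iff_hasBasis_isOpen_isConnected.1 inferInstance s₀).mem_iff.1 hJ₁
    have hsub : U ×ˢ J ⊆ W := (prod_mono_right hJJ).trans hUJ
    refine ⟨U, hU, J, hJo, hsJ, fun p hp q hq r hr => hcW p (hsub hp) q (hsub hq) r (hsub hr),
      fun x hx t ht t' ht' => ?_⟩
    -- both sides trivialise the cocycle on `J`
    have : PreconnectedSpace J := isPreconnected_iff_preconnectedSpace.1 hJc.isPreconnected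
    have hA : TrivBy (fun s : J => a x s.1) (fun s s' : J => c (x, s.1) (x, s'.1)) :=
      (ha x).comp (f := fun s : J => s.1) continuous_subtype_val
    have hB : TrivBy (fun s : J => c (x, s.1) (x, t')) (fun s s' : J => c (x, s.1) (x, s'.1)) := by
      refine trivBy_of_forall (c := fun s s' : J => c (x, s.1) (x, s'.1)) (fun s s' s'' => ?_)
        ⟨t', ht'⟩
      exact hcW _ (hsub ⟨hx, s.2⟩) _ (hsub ⟨hx, s'.2⟩) _ (hsub ⟨hx, s''.2⟩)
    have := hB.eq_mul_const hA ⟨t', ht'⟩ ⟨t, ht⟩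
    simp only at this
    rw [this, hc.self]
    group
  -- the clopen argument
  have key : ∀ x₀ : X, ∀ t : T, ∃ U ∈ 𝓝 x₀, ∀ x ∈ U, ∀ y ∈ U,
      c (x, t) (y, t) = a x t * c (x, t₀) (y, t₀) * (a y t)⁻¹ := by
    intro x₀
    have hstep : ∀ s₀ : T, ∃ J : Set T, IsOpen J ∧ s₀ ∈ J ∧ ∀ t ∈ J, ∀ t' ∈ J,
        (∃ U ∈ 𝓝 x₀, ∀ x ∈ U, ∀ y ∈ U,
          c (x, t) (y, t) = a x t * c (x, t₀) (y, t₀) * (a y t)⁻¹) →
        (∃ U ∈ 𝓝 x₀, ∀ x ∈ U, ∀ y ∈ U,
          c (x, t') (y, t') = a x t' * c (x, t₀) (y, t₀) * (a y t')⁻¹) := by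
      intro s₀
      obtain ⟨U, hU, J, hJo, hsJ, hcc, haa⟩ := box (x₀, s₀)
      refine ⟨J, hJo, hsJ, fun t ht t' ht' => ?_⟩
      rintro ⟨V, hV, hVV⟩
      refine ⟨U ∩ V, inter_mem hU hV, fun x hx y hy => ?_⟩
      have e1 : c (x, t') (x, t) * c (x, t) (y, t) = c (x, t') (y, t) :=
        hcc _ ⟨hx.1, ht'⟩ _ ⟨hx.1, ht⟩ _ ⟨hy.1, ht⟩
      have e2 : c (x, t') (y, t) * c (y, t) (y, t') = c (x, t') (y, t') :=
        hcc _ ⟨hx.1, ht'⟩ _ ⟨hy.1, ht⟩ _ ⟨hy.1, ht'⟩
      have e3 := haa x hx.1 t' ht' t ht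
      have e4 := haa y hy.1 t ht t' ht'
      rw [← e2, ← e1, hVV x hx.2 y hy.2, e3, e4]
      group
    have hopen : IsOpen {t : T | ∃ U ∈ 𝓝 x₀, ∀ x ∈ U, ∀ y ∈ U,
        c (x, t) (y, t) = a x t * c (x, t₀) (y, t₀) * (a y t)⁻¹} := by
      rw [isOpen_iff_mem_nhds]
      intro s hs
      obtain ⟨J, hJo, hsJ, hJ⟩ := hstep s
      exact mem_of_superset (hJo.mem_nhds hsJ) fun t ht => hJ s hsJ t ht hs
    have hclosed : IsClosed {t : T | ∃ U ∈ 𝓝 x₀, ∀ x ∈ U, ∀ y ∈ U,
        c (x, t) (y, t) = a x t * c (x, t₀) (y, t₀) * (a y t)⁻¹} := by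
      rw [← isOpen_compl_iff, isOpen_iff_mem_nhds]
      intro s hs
      obtain ⟨J, hJo, hsJ, hJ⟩ := hstep s
      exact mem_of_superset (hJo.mem_nhds hsJ) fun t ht h => hs (hJ t ht s hsJ h)
    have hne : ({t : T | ∃ U ∈ 𝓝 x₀, ∀ x ∈ U, ∀ y ∈ U,
        c (x, t) (y, t) = a x t * c (x, t₀) (y, t₀) * (a y t)⁻¹}).Nonempty :=
      ⟨t₀, univ, univ_mem, fun x _ y _ => by simp [ha₀]⟩
    have := IsClopen.eq_univ ⟨hclosed, hopen⟩ hne
    intro t
    have ht : t ∈ (univ : Set T) := trivial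
    rw [← this] at ht
    exact ht
  rintro ⟨x₀, s₀⟩
  obtain ⟨U, hU, J, hJo, hsJ, hcc, haa⟩ := box (x₀, s₀)
  obtain ⟨V, hV, hVV⟩ := key x₀ s₀
  replace hsJ : s₀ ∈ J := hsJ
  refine ⟨(U ∩ V) ×ˢ J, prod_mem_nhds (inter_mem hU hV) (hJo.mem_nhds hsJ), ?_⟩
  rintro ⟨x, t⟩ ⟨hx, ht⟩ ⟨y, t'⟩ ⟨hy, ht'⟩
  have e1 : c (x, t) (x, s₀) * c (x, s₀) (y, s₀) = c (x, t) (y, s₀) :=
    hcc (x, t) ⟨hx.1, ht⟩ (x, s₀) ⟨hx.1, hsJ⟩ (y, s₀) ⟨hy.1, hsJ⟩
  have e2 : c (x, t) (y, s₀) * c (y, s₀) (y, t') = c (x, t) (y, t') :=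
    hcc (x, t) ⟨hx.1, ht⟩ (y, s₀) ⟨hy.1, hsJ⟩ (y, t') ⟨hy.1, ht'⟩
  have e3 := haa x hx.1 t ht s₀ hsJ
  have e4 := haa y hy.1 s₀ hsJ t' ht'
  simp only
  rw [← e2, ← e1, hVV x hx.2 y hy.2, e3, e4]
  group

/-- the homotopy theorem for `T = ℝ` -/
theorem NDC.homotopy_real {c : X × ℝ → X × ℝ → G} (hc : NDC c) (t₀ : ℝ) :
    ∃ A : X × ℝ → G, (∀ x, A (x, t₀) = 1) ∧
      CobBy A c (fun p q => c (p.1, t₀) (q.1, t₀)) :=
  hc.homotopy (fun _ h => h.triv_real) t₀

/-- the homotopy theorem for `T = [0,1]` -/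
theorem NDC.homotopy_unitInterval {c : X × unitInterval → X × unitInterval → G} (hc : NDC c) :
    ∃ A : X × unitInterval → G, (∀ x, A (x, 0) = 1) ∧
      CobBy A c (fun p q => c (p.1, 0) (q.1, 0)) := by
  -- pull back along the clamp `ℝ → [0,1]`
  let π : X × ℝ → X × unitInterval := fun p => (p.1, projIcc 0 1 zero_le_one p.2)
  have hπ : Continuous π := by
    refine continuous_fst.prodMk ?_
    exact continuous_projIcc.comp continuous_snd
  obtain ⟨A, hA0, hA⟩ := (hc.comp hπ).homotopy_real 0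
  refine ⟨fun p => A (p.1, p.2.1), fun x => hA0 x, ?_⟩
  have h2 := hA.comp (f := fun p : X × unitInterval => (p.1, (p.2 : ℝ))) (by fun_prop)
  have e0 : projIcc (0 : ℝ) 1 zero_le_one 0 = 0 := projIcc_left _
  have e1 : ∀ p : X × unitInterval, π (p.1, (p.2 : ℝ)) = p := by
    rintro ⟨x, t⟩
    simp [π]
  intro z
  obtain ⟨U, hU, h⟩ := h2 z
  refine ⟨U, hU, fun x hx y hy => ?_⟩
  have := h x hx y hy
  simp only [e1] at this
  simp only [π, e0] at this
  exact this



/-! ### Star-shaped and convex sets -/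

section Star

variable {E : Type*} [AddCommGroup E] [Module ℝ E] [TopologicalSpace E] [ContinuousAdd E]
  [ContinuousSMul ℝ E]

/-- cocycles on a star-shaped subset are trivial (`S` arbitrary, as a subtype) -/
theorem NDC.triv_of_starConvex {S : Set E} {p : E} (hp : p ∈ S) (hS : StarConvex ℝ p S)
    {c : S → S → G} (hc : NDC c) : Triv c := by
  -- the contraction
  let H : S × unitInterval → S := fun q =>
    ⟨(1 - (q.2 : ℝ)) • p + (q.2 : ℝ) • (q.1 : E), hS q.1.2 (by linarith [q.2.2.2]) q.2.2.1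
      (by ring)⟩
  have hH : Continuous H := by
    refine Continuous.subtype_mk ?_ _
    fun_prop
  obtain ⟨A, hA0, hA⟩ := (hc.comp hH).homotopy_unitInterval
  have h2 := hA.comp (f := fun x : S => (x, (1 : unitInterval))) (by fun_prop)
  have e1 : ∀ x : S, H (x, 1) = x := fun x => Subtype.ext (by simp [H])
  have e0 : ∀ x : S, H (x, 0) = ⟨p, hp⟩ := fun x => Subtype.ext (by simp [H])
  simp only [e1, e0, hc.self] at h2
  rw [triv_iff_cob]
  exact ⟨_, h2⟩

/-- cocycles on a convex subset are trivial -/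
theorem NDC.triv_of_convex {S : Set E} (hS : Convex ℝ S)
    {c : S → S → G} (hc : NDC c) : Triv c := by
  rcases S.eq_empty_or_nonempty with h | ⟨p, hp⟩
  · subst h
    exact ⟨fun _ => 1, fun z => z.2.elim⟩
  · exact hc.triv_of_starConvex hp (hS.starConvex hp)

end Star

/-! ### Subset versions -/

/-- near-diagonal cocycle on a subset -/
def NDCOn (c : X → X → G) (S : Set X) : Prop :=
  ∀ z ∈ S, ∃ U ∈ 𝓝[S] z, ∀ x ∈ U, ∀ y ∈ U, ∀ w ∈ U, c x y * c y w = c x w

/-- `A` trivialises `c` on `S` -/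
def TrivByOn (A : X → G) (c : X → X → G) (S : Set X) : Prop :=
  ∀ z ∈ S, ∃ U ∈ 𝓝[S] z, ∀ x ∈ U, ∀ y ∈ U, c x y = A x * (A y)⁻¹

theorem NDC.ndcOn {c : X → X → G} (hc : NDC c) (S : Set X) : NDCOn c S := fun z _ => by
  obtain ⟨U, hU, h⟩ := hc z
  exact ⟨U, mem_nhdsWithin_of_mem_nhds hU, h⟩

theorem NDCOn.mono {c : X → X → G} {S S' : Set X} (hc : NDCOn c S) (h : S' ⊆ S) : NDCOn c S' :=
  fun z hz => by
    obtain ⟨U, hU, hUc⟩ := hc z (h hz)
    exact ⟨U, nhdsWithin_mono z h hU, hUc⟩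

theorem NDCOn.subtype {c : X → X → G} {S : Set X} (hc : NDCOn c S) :
    NDC (fun x y : S => c x y) := by
  rintro ⟨z, hz⟩
  obtain ⟨U, hU, h⟩ := hc z hz
  exact ⟨Subtype.val ⁻¹' U, preimage_coe_mem_nhds_subtype.2 hU,
    fun x hx y hy w hw => h _ hx _ hy _ hw⟩


theorem TrivByOn.subtype {A : X → G} {c : X → X → G} {S : Set X} (hc : TrivByOn A c S) :
    TrivBy (fun x : S => A x) (fun x y : S => c x y) := by
  rintro ⟨z, hz⟩
  obtain ⟨U, hU, h⟩ := hc z hz
  exact ⟨Subtype.val ⁻¹' U, preimage_coe_mem_nhds_subtype.2 hU, fun x hx y hy => h _ hx _ hy⟩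

theorem trivByOn_iff_subtype {A : X → G} {c : X → X → G} {S : Set X} :
    TrivByOn A c S ↔ TrivBy (fun x : S => A x) (fun x y : S => c x y) := by
  refine ⟨TrivByOn.subtype, fun h z hz => ?_⟩
  obtain ⟨U, hU, hUc⟩ := h ⟨z, hz⟩
  refine ⟨Subtype.val '' U, ?_, ?_⟩
  · rw [nhdsWithin_eq_map_subtype_coe hz]
    exact image_mem_map hU
  · rintro _ ⟨x, hx, rfl⟩ _ ⟨y, hy, rfl⟩
    exact hUc x hx y hy

theorem exists_trivByOn_iff {c : X → X → G} {S : Set X} :
    (∃ A, TrivByOn A c S) ↔ Triv (fun x y : S => c x y) := by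
  constructor
  · rintro ⟨A, hA⟩
    exact ⟨_, hA.subtype⟩
  · rintro ⟨A, hA⟩
    classical
    refine ⟨fun x => if hx : x ∈ S then A ⟨x, hx⟩ else 1, trivByOn_iff_subtype.2 ?_⟩
    convert hA using 2 with x
    simp





theorem NDCOn.exists_trivByOn_convex {E : Type*} [AddCommGroup E] [Module ℝ E]
    [TopologicalSpace E] [ContinuousAdd E] [ContinuousSMul ℝ E] {S : Set E}
    (hS : Convex ℝ S) {c : E → E → G} (hc : NDCOn c S) :
    ∃ A : E → G, TrivByOn A c S :=
  exists_trivByOn_iff.2 (hc.subtype.triv_of_convex hS)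

end Crest.Agent.R276.Top1_816
end

-- ▼ part R276/Top2_937

/-!
# R276, leaf TOP2 (helper937), part 1: de Rham = Čech for 1-forms with values in a local system,
finite covers by convex open sets

`CC E V` : a family of convex open sets `W i` of a real normed space with constant transition maps
`g i j` (a cocycle on non-empty triple intersections).
`Form C` : smooth closed 1-forms `η i` on `W i`, `η i = g i j ∘ η j` on `W i ∩ W j`.
`Form.exists_prim` : local primitives `ψ i` and constants `c i j` with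
`ψ i = g i j (ψ j) + c i j` on `W i ∩ W j`.
`Form.exact_iff` : `η` is exact iff `c` is a coboundary.
`exists_form` : every Čech cocycle is realised by a smooth closed form.
`exists_bound` : the Čech cochain can be chosen bounded by the `L¹` norm on compact subsets;
`exact_of_tendsto` : an `L¹_loc` limit of exact forms is exact.
-/

set_option autoImplicit false
set_option linter.unusedSectionVars false

open Set Filter Topology MeasureTheory
open scoped ContDiff

namespace Crest.Agent.R276.Top2_937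

noncomputable section

/-- a family of convex open sets with constant transition maps -/
structure CC (E V : Type*) [NormedAddCommGroup E] [NormedSpace ℝ E] [NormedAddCommGroup V]
    [NormedSpace ℝ V] where
  ι : Type
  W : ι → Set E
  g : ι → ι → V →L[ℝ] V
  isOpen : ∀ i, IsOpen (W i)
  convex : ∀ i, Convex ℝ (W i)
  g_mul : ∀ i j l, (W i ∩ W j ∩ W l).Nonempty → (g i j).comp (g j l) = g i l
  g_self : ∀ i, (W i).Nonempty → g i i = ContinuousLinearMap.id ℝ V

variable {E V : Type*} [NormedAddCommGroup E] [NormedSpace ℝ E] [NormedAddCommGroup V]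
  [NormedSpace ℝ V]

/-- smooth closed 1-form with values in the local system -/
structure Form (C : CC E V) where
  η : C.ι → E → E →L[ℝ] V
  smooth : ∀ i, ContDiffOn ℝ ∞ (η i) (C.W i)
  closed : ∀ i, ∀ x ∈ C.W i, ∀ u v, fderiv ℝ (η i) x u v = fderiv ℝ (η i) x v u
  compat : ∀ i j, ∀ x ∈ C.W i ∩ C.W j, η i x = (C.g i j).comp (η j x)

/-- local primitives of a form, with their Čech cochain -/
structure Prim {C : CC E V} (F : Form C) where
  ψ : C.ι → E → V
  c : C.ι → C.ι → V
  der : ∀ i, ∀ x ∈ C.W i, HasFDerivAt (ψ i) (F.η i x) x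
  rel : ∀ i j, ∀ x ∈ C.W i ∩ C.W j, ψ i x = C.g i j (ψ j x) + c i j

/-- a smooth global section of the local system with derivative `η` -/
def Form.Exact {C : CC E V} (F : Form C) : Prop :=
  ∃ φ : C.ι → E → V, (∀ i, ∀ x ∈ C.W i, HasFDerivAt (φ i) (F.η i x) x) ∧
    ∀ i j, ∀ x ∈ C.W i ∩ C.W j, φ i x = C.g i j (φ j x)

/-- the Čech cochain `c` is a coboundary -/
def IsCob (C : CC E V) (c : C.ι → C.ι → V) : Prop :=
  ∃ v : C.ι → V, ∀ i j, (C.W i ∩ C.W j).Nonempty → c i j = C.g i j (v j) - v i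

theorem contDiffOn_of_hasFDerivAt {W : Set E} (hW : IsOpen W) {f : E → V} {f' : E → E →L[ℝ] V}
    (hf : ∀ x ∈ W, HasFDerivAt f (f' x) x) (hf' : ContDiffOn ℝ ∞ f' W) : ContDiffOn ℝ ∞ f W := by
  rw [contDiffOn_infty_iff_fderiv_of_isOpen hW]
  refine ⟨fun x hx => (hf x hx).differentiableAt.differentiableWithinAt, ?_⟩
  exact hf'.congr fun x hx => (hf x hx).fderiv

/-- a function with zero derivative on a convex open set is constant there -/
theorem const_of_deriv_zero {W : Set E} (hW : IsOpen W) (hc : Convex ℝ W) {f : E → V}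
    (hf : ∀ x ∈ W, HasFDerivAt f (0 : E →L[ℝ] V) x) {x y : E} (hx : x ∈ W) (hy : y ∈ W) :
    f x = f y := by
  refine hW.is_const_of_fderiv_eq_zero hc.isPreconnected
    (fun z hz => (hf z hz).differentiableAt.differentiableWithinAt) (fun z hz => ?_) hx hy
  rw [(hf z hz).fderiv]; rfl

theorem Form.exists_cochain {C : CC E V} (F : Form C) (ψ : C.ι → E → V)
    (hψ : ∀ i, ∀ x ∈ C.W i, HasFDerivAt (ψ i) (F.η i x) x) :
    ∃ P : Prim F, P.ψ = ψ := by
  classical
  have h1 : ∀ i j, ∃ c : V, ∀ x ∈ C.W i ∩ C.W j, ψ i x = C.g i j (ψ j x) + c := by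
    intro i j
    rcases (C.W i ∩ C.W j).eq_empty_or_nonempty with h0 | ⟨y, hy⟩
    · exact ⟨0, fun x hx => by rw [h0] at hx; exact hx.elim⟩
    · refine ⟨ψ i y - C.g i j (ψ j y), fun x hx => ?_⟩
      have h2 : ψ i x - C.g i j (ψ j x) = ψ i y - C.g i j (ψ j y) := by
        refine const_of_deriv_zero (f := fun z => ψ i z - C.g i j (ψ j z))
          ((C.isOpen i).inter (C.isOpen j)) ((C.convex i).inter (C.convex j)) ?_ hx hy
        intro z hz
        have h3 := (hψ i z hz.1).sub ((C.g i j).hasFDerivAt.comp z (hψ j z hz.2))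
        rw [F.compat i j z hz, sub_self] at h3
        exact h3
      rw [← h2]; abel
  choose c hc using h1
  exact ⟨⟨ψ, c, hψ, hc⟩, rfl⟩

theorem Form.exists_prim {C : CC E V} [CompleteSpace V] (F : Form C) : Nonempty (Prim F) := by
  have h1 : ∀ i, ∃ f : E → V, ∀ x ∈ C.W i, HasFDerivAt f (F.η i x) x := fun i =>
    (C.convex i).exists_forall_hasFDerivAt_of_fderiv_symmetric (C.isOpen i)
      ((F.smooth i).differentiableOn (by simp)) (F.closed i)
  choose ψ hψ using h1
  obtain ⟨P, -⟩ := F.exists_cochain ψ hψ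
  exact ⟨P⟩

theorem Prim.smooth {C : CC E V} {F : Form C} (P : Prim F) (i : C.ι) :
    ContDiffOn ℝ ∞ (P.ψ i) (C.W i) :=
  contDiffOn_of_hasFDerivAt (C.isOpen i) (P.der i) (F.smooth i)

/-- `η` is exact iff the Čech cochain of (any) local primitives is a coboundary -/
theorem Prim.exact_iff {C : CC E V} {F : Form C} (P : Prim F) : F.Exact ↔ IsCob C P.c := by
  classical
  constructor
  · rintro ⟨φ, h1, h2⟩
    have h3 : ∀ i, ∃ v : V, ∀ x ∈ C.W i, φ i x = P.ψ i x + v := by
      intro i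
      rcases (C.W i).eq_empty_or_nonempty with h0 | ⟨y, hy⟩
      · exact ⟨0, fun x hx => by rw [h0] at hx; exact hx.elim⟩
      · refine ⟨φ i y - P.ψ i y, fun x hx => ?_⟩
        have h4 : φ i x - P.ψ i x = φ i y - P.ψ i y := by
          refine const_of_deriv_zero (f := fun z => φ i z - P.ψ i z) (C.isOpen i) (C.convex i) ?_
            hx hy
          intro z hz
          have h5 := (h1 i z hz).sub (P.der i z hz)
          rwa [sub_self] at h5
        rw [← h4]; abel
    choose v hv using h3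
    refine ⟨v, fun i j hij => ?_⟩
    obtain ⟨x, hx⟩ := hij
    have h4 := h2 i j x hx
    rw [hv i x hx.1, hv j x hx.2, map_add, P.rel i j x hx] at h4
    have h5 : P.c i j + v i = C.g i j (v j) := by
      have h6 : C.g i j (P.ψ j x) + (P.c i j + v i) = C.g i j (P.ψ j x) + C.g i j (v j) := by
        rw [← h4]; abel
      exact add_left_cancel h6
    rw [← h5]; abel
  · rintro ⟨v, hv⟩
    refine ⟨fun i x => P.ψ i x + v i, fun i x hx => (P.der i x hx).add_const _, ?_⟩
    intro i j x hx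
    show P.ψ i x + v i = C.g i j (P.ψ j x + v j)
    rw [map_add, P.rel i j x hx, hv i j ⟨x, hx⟩]
    abel

/-- the cocycle relation -/
theorem Prim.cocycle {C : CC E V} {F : Form C} (P : Prim F) (i j l : C.ι)
    (h : (C.W i ∩ C.W j ∩ C.W l).Nonempty) : P.c i j + C.g i j (P.c j l) = P.c i l := by
  obtain ⟨x, ⟨hi, hj⟩, hl⟩ := h
  have h1 := P.rel i j x ⟨hi, hj⟩
  have h2 := P.rel j l x ⟨hj, hl⟩
  have h3 := P.rel i l x ⟨hi, hl⟩
  rw [h2, map_add] at h1
  have h4 : C.g i j (C.g j l (P.ψ l x)) = C.g i l (P.ψ l x) := by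
    rw [← C.g_mul i j l ⟨x, ⟨hi, hj⟩, hl⟩]; rfl
  rw [h4] at h1
  rw [h1] at h3
  have h5 : C.g i l (P.ψ l x) + (P.c i j + C.g i j (P.c j l)) = C.g i l (P.ψ l x) + P.c i l := by
    rw [← h3]; abel
  exact add_left_cancel h5

/-! ### realisation of cocycles -/

/-- derivative of a family of smooth local functions with constant Čech cochain -/
def Form.ofPrim (C : CC E V) (ψ : C.ι → E → V) (c : C.ι → C.ι → V)
    (hs : ∀ i, ContDiffOn ℝ ∞ (ψ i) (C.W i))
    (hr : ∀ i j, ∀ x ∈ C.W i ∩ C.W j, ψ i x = C.g i j (ψ j x) + c i j) : Form C where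
  η i x := fderiv ℝ (ψ i) x
  smooth i := (contDiffOn_infty_iff_fderiv_of_isOpen (C.isOpen i)).1 (hs i) |>.2
  closed i x hx u v := by
    have h1 : ContDiffAt ℝ ∞ (ψ i) x := (hs i).contDiffAt ((C.isOpen i).mem_nhds hx)
    have h2 : IsSymmSndFDerivAt ℝ (ψ i) x := h1.isSymmSndFDerivAt (by
      rw [minSmoothness_of_isRCLikeNormedField]; exact WithTop.coe_le_coe.2 (le_top : (2 : ℕ∞) ≤ ⊤))
    exact h2.eq u v
  compat i j x hx := by
    have h1 : HasFDerivAt (ψ j) (fderiv ℝ (ψ j) x) x :=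
      ((hs j).contDiffAt ((C.isOpen j).mem_nhds hx.2)).differentiableAt (by simp) |>.hasFDerivAt
    have h2 : HasFDerivAt (fun y => C.g i j (ψ j y) + c i j)
        ((C.g i j).comp (fderiv ℝ (ψ j) x)) x := ((C.g i j).hasFDerivAt.comp x h1).add_const _
    have h3 : ψ i =ᶠ[𝓝 x] fun y => C.g i j (ψ j y) + c i j := by
      filter_upwards [((C.isOpen i).inter (C.isOpen j)).mem_nhds hx] with y hy
      exact hr i j y hy
    exact (h2.congr_of_eventuallyEq h3).fderiv

/-- the primitives of `Form.ofPrim` -/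
def Prim.ofPrim (C : CC E V) (ψ : C.ι → E → V) (c : C.ι → C.ι → V)
    (hs : ∀ i, ContDiffOn ℝ ∞ (ψ i) (C.W i))
    (hr : ∀ i j, ∀ x ∈ C.W i ∩ C.W j, ψ i x = C.g i j (ψ j x) + c i j) :
    Prim (Form.ofPrim C ψ c hs hr) where
  ψ := ψ
  c := c
  der i x hx :=
    (((hs i).contDiffAt ((C.isOpen i).mem_nhds hx)).differentiableAt (by simp)).hasFDerivAt
  rel := hr

/-- a smooth partition of unity on the union of finitely many open sets: `ρ i` vanishes exactly
outside `W i` -/
theorem exists_partition [FiniteDimensional ℝ E] {ι : Type} [Fintype ι] {W : ι → Set E}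
    (hW : ∀ i, IsOpen (W i)) : ∃ ρ : ι → E → ℝ,
      (∀ i, ContDiffOn ℝ ∞ (ρ i) (⋃ j, W j)) ∧ (∀ i x, ρ i x ≠ 0 → x ∈ W i) ∧
      (∀ i x, 0 ≤ ρ i x) ∧ ∀ x ∈ ⋃ j, W j, ∑ i, ρ i x = 1 := by
  have h1 : ∀ i, ∃ f : E → ℝ, Function.support f = W i ∧ ContDiff ℝ ∞ f ∧
      Set.range f ⊆ Set.Icc 0 1 := fun i => (hW i).exists_contDiff_support_eq
  choose f hf1 hf2 hf3 using h1
  have h0 : ∀ i x, 0 ≤ f i x := fun i x => (hf3 i ⟨x, rfl⟩).1
  have hpos : ∀ x ∈ ⋃ j, W j, 0 < ∑ i, f i x := by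
    intro x hx
    obtain ⟨i, hi⟩ := mem_iUnion.1 hx
    refine Finset.sum_pos' (fun j _ => h0 j x) ⟨i, Finset.mem_univ _, ?_⟩
    have h2 : f i x ≠ 0 := by rw [← hf1 i] at hi; exact hi
    exact lt_of_le_of_ne (h0 i x) h2.symm
  refine ⟨fun i x => f i x / ∑ j, f j x, fun i => ?_, fun i x hx => ?_, fun i x => ?_,
    fun x hx => ?_⟩
  · refine (hf2 i).contDiffOn.div (ContDiff.sum fun j _ => hf2 j).contDiffOn ?_
    intro x hx
    exact (hpos x hx).ne'
  · have h2 : f i x ≠ 0 := fun h => hx (by simp [h])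
    rw [← hf1 i]; exact h2
  · exact div_nonneg (h0 i x) (Finset.sum_nonneg fun j _ => h0 j x)
  · simp only
    rw [← Finset.sum_div, div_self (hpos x hx).ne']

/-- every Čech cocycle is realised by a smooth closed form -/
theorem exists_form [FiniteDimensional ℝ E] (C : CC E V) [Finite C.ι] (c : C.ι → C.ι → V)
    (hc : ∀ i j l, (C.W i ∩ C.W j ∩ C.W l).Nonempty → c i j + C.g i j (c j l) = c i l) :
    ∃ (F : Form C) (P : Prim F), P.c = c := by
  classical
  have := Fintype.ofFinite C.ι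
  obtain ⟨ρ, h1, h2, -, h3⟩ := exists_partition C.isOpen
  have hs : ∀ i, ContDiffOn ℝ ∞ (fun x => ∑ u, ρ u x • c i u) (C.W i) := by
    intro i
    refine ContDiffOn.sum fun u _ => ?_
    exact ((h1 u).mono (subset_iUnion C.W i)).smul contDiffOn_const
  have hr : ∀ i j, ∀ x ∈ C.W i ∩ C.W j,
      (∑ u, ρ u x • c i u) = C.g i j (∑ u, ρ u x • c j u) + c i j := by
    intro i j x hx
    have h4 : c i j = ∑ u, ρ u x • c i j := by
      rw [← Finset.sum_smul, h3 x (mem_iUnion.2 ⟨i, hx.1⟩), one_smul]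
    rw [map_sum]
    conv_rhs => rw [h4]
    rw [← Finset.sum_add_distrib]
    refine Finset.sum_congr rfl fun u _ => ?_
    by_cases h5 : ρ u x = 0
    · simp [h5]
    · rw [← hc i j u ⟨x, hx, h2 u x h5⟩, (C.g i j).map_smul, smul_add, add_comm]
  exact ⟨Form.ofPrim C _ c hs hr, Prim.ofPrim C _ c hs hr, rfl⟩

/-! ### continuity of the Čech cochain with respect to `L¹_loc` -/

section bound

variable [FiniteDimensional ℝ E] [MeasurableSpace E] [BorelSpace E] (μ : Measure E)
  [μ.IsAddHaarMeasure]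

/-- the tube around the segment from `p` to `q` -/
def tube (p q : E) (r : ℝ) : Set E :=
  (fun a : ℝ × E => p + a.1 • (q - p) + a.2) '' (Icc 0 1 ×ˢ Metric.closedBall 0 r)

theorem isCompact_tube (p q : E) (r : ℝ) : IsCompact (tube p q r) := by
  have := FiniteDimensional.proper_real E
  refine (isCompact_Icc.prod (isCompact_closedBall 0 r)).image ?_
  fun_prop

theorem tube_subset {W : Set E} (hW : Convex ℝ W) {p q : E} {r : ℝ}
    (hp : Metric.closedBall p r ⊆ W) (hq : Metric.closedBall q r ⊆ W) : tube p q r ⊆ W := by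
  rintro _ ⟨⟨t, z⟩, ⟨ht, hz⟩, rfl⟩
  simp only [Metric.mem_closedBall, dist_zero_right] at hz
  have h1 : p + z ∈ W := hp (by simpa [Metric.mem_closedBall, dist_eq_norm] using hz)
  have h2 : q + z ∈ W := hq (by simpa [Metric.mem_closedBall, dist_eq_norm] using hz)
  have h3 := hW h1 h2 (sub_nonneg.2 ht.2) ht.1 (by ring)
  convert h3 using 1
  simp only [smul_add, smul_sub, sub_smul, one_smul]
  abel

theorem avg_bound [CompleteSpace V] {W : Set E} (hW : Convex ℝ W) {p q : E} {r : ℝ}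
    (hp : Metric.closedBall p r ⊆ W) (hq : Metric.closedBall q r ⊆ W) {ψ : E → V}
    {η : E → E →L[ℝ] V} (hη : ContinuousOn η W) (hψ : ∀ x ∈ W, HasFDerivAt ψ (η x) x) :
    ∫⁻ z in Metric.closedBall 0 r, ‖ψ (q + z) - ψ (p + z)‖ₑ ∂μ ≤
      ‖q - p‖ₑ * ∫⁻ x in tube p q r, ‖η x‖ₑ ∂μ := by
  have := FiniteDimensional.proper_real E
  set B : Set E := Metric.closedBall 0 r with hB
  have hBm : MeasurableSet B := Metric.isClosed_closedBall.measurableSet
  have hpt : ∀ z ∈ B, ∀ t ∈ Icc (0 : ℝ) 1, p + t • (q - p) + z ∈ W := fun z hz t ht =>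
    tube_subset hW hp hq ⟨(t, z), ⟨ht, hz⟩, rfl⟩
  -- pointwise estimate
  have h1 : ∀ z ∈ B, ‖ψ (q + z) - ψ (p + z)‖ₑ ≤
      ∫⁻ t in Ioc (0 : ℝ) 1, ‖q - p‖ₑ * ‖η (p + t • (q - p) + z)‖ₑ := by
    intro z hz
    have hcont : ContinuousOn (fun t : ℝ => η (p + t • (q - p) + z) (q - p)) (Icc 0 1) := by
      have h2 : ContinuousOn (fun t : ℝ => η (p + t • (q - p) + z)) (Icc 0 1) :=
        hη.comp (by fun_prop) fun t ht => hpt z hz t ht
      exact h2.clm_apply continuousOn_const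
    have h2 : ∀ t ∈ uIcc (0 : ℝ) 1, HasDerivAt (fun t : ℝ => ψ (p + t • (q - p) + z))
        (η (p + t • (q - p) + z) (q - p)) t := by
      intro t ht
      rw [uIcc_of_le zero_le_one] at ht
      have h3 : HasDerivAt (fun t : ℝ => p + t • (q - p) + z) (q - p) t := by
        simpa using (((hasDerivAt_id t).smul_const (q - p)).const_add p).add_const z
      exact (hψ _ (hpt z hz t ht)).comp_hasDerivAt t h3
    have h3 := intervalIntegral.integral_eq_sub_of_hasDerivAt h2
      (by rw [← uIcc_of_le (zero_le_one' ℝ)] at hcont; exact hcont.intervalIntegrable)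
    have h4 : ψ (q + z) - ψ (p + z) = ∫ t in (0 : ℝ)..1, η (p + t • (q - p) + z) (q - p) := by
      rw [h3]; simp
    rw [h4, intervalIntegral.integral_of_le zero_le_one]
    refine (enorm_integral_le_lintegral_enorm _).trans ?_
    refine lintegral_mono fun t => ?_
    rw [mul_comm]
    exact ContinuousLinearMap.le_opENorm _ _
  calc ∫⁻ z in B, ‖ψ (q + z) - ψ (p + z)‖ₑ ∂μ
      ≤ ∫⁻ z in B, (∫⁻ t in Ioc (0 : ℝ) 1, ‖q - p‖ₑ * ‖η (p + t • (q - p) + z)‖ₑ) ∂μ :=
        setLIntegral_mono' hBm h1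
    _ = ∫⁻ t in Ioc (0 : ℝ) 1, ∫⁻ z in B, ‖q - p‖ₑ * ‖η (p + t • (q - p) + z)‖ₑ ∂μ := by
        refine lintegral_lintegral_swap ?_
        have h2 : ContinuousOn (fun a : E × ℝ => η (p + a.2 • (q - p) + a.1)) (B ×ˢ Icc 0 1) :=
          hη.comp (by fun_prop) fun a ha => hpt a.1 ha.1 a.2 ha.2
        have h3 : ContinuousOn (fun a : E × ℝ => ‖q - p‖ₑ * ‖η (p + a.2 • (q - p) + a.1)‖ₑ)
            (B ×ˢ Ioc 0 1) := by
          have h4 := (h2.mono (Set.prod_mono_right Ioc_subset_Icc_self)).enorm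
          exact (ENNReal.continuous_const_mul (by simp)).comp_continuousOn h4
        have h4 := h3.aemeasurable (μ := μ.prod volume) (hBm.prod measurableSet_Ioc)
        rw [Measure.prod_restrict]
        exact h4
    _ ≤ ∫⁻ t in Ioc (0 : ℝ) 1, ‖q - p‖ₑ * ∫⁻ x in tube p q r, ‖η x‖ₑ ∂μ := by
        refine setLIntegral_mono' measurableSet_Ioc fun t ht => ?_
        rw [lintegral_const_mul' _ _ (by simp)]
        refine mul_le_mul' le_rfl ?_
        have h2 : ∫⁻ z in B, ‖η (p + t • (q - p) + z)‖ₑ ∂μ =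
            ∫⁻ x in (fun z => (p + t • (q - p)) + z) '' B, ‖η x‖ₑ ∂μ :=
          (measurePreserving_add_left μ (p + t • (q - p))).setLIntegral_comp_emb
            (MeasurableEquiv.addLeft (p + t • (q - p))).measurableEmbedding (fun x => ‖η x‖ₑ) B
        rw [h2]
        refine lintegral_mono_set ?_
        rintro _ ⟨z, hz, rfl⟩
        exact ⟨(t, z), ⟨Ioc_subset_Icc_self ht, hz⟩, rfl⟩
    _ = ‖q - p‖ₑ * ∫⁻ x in tube p q r, ‖η x‖ₑ ∂μ := by
        simp

omit [FiniteDimensional ℝ E] [MeasurableSpace E] [BorelSpace E] in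
theorem eventually_closedBall_subset {W : Set E} (hW : IsOpen W) {x : E} (hx : x ∈ W) :
    ∀ᶠ r in 𝓝[>] (0 : ℝ), Metric.closedBall x r ⊆ W := by
  obtain ⟨r0, h0, h1⟩ := Metric.nhds_basis_closedBall.mem_iff.1 (hW.mem_nhds hx)
  filter_upwards [Ioo_mem_nhdsGT h0] with r hr
  exact (Metric.closedBall_subset_closedBall hr.2.le).trans h1

/-- shift of the primitives by constants -/
def Prim.shift {C : CC E V} {F : Form C} (P : Prim F) (m : C.ι → V) : Prim F where
  ψ i x := P.ψ i x - m i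
  c i j := P.c i j - m i + C.g i j (m j)
  der i x hx := (P.der i x hx).sub_const _
  rel i j x hx := by
    rw [map_sub, P.rel i j x hx]
    abel

/-- the Čech cochain can be chosen bounded by the `L¹` norms on fixed compact subsets -/
theorem exists_bound [CompleteSpace V] (C : CC E V) [Fintype C.ι] :
    ∃ (K : C.ι → Set E) (M : ENNReal), (∀ i, IsCompact (K i)) ∧ (∀ i, K i ⊆ C.W i) ∧ M ≠ ⊤ ∧
      ∀ F : Form C, ∃ P : Prim F, ∀ i j, (C.W i ∩ C.W j).Nonempty →
        ‖P.c i j‖ₑ ≤ M * ∑ i, ∫⁻ x in K i, ‖F.η i x‖ₑ ∂μ := by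
  classical
  have hp : ∀ i, ∃ p : E, (C.W i).Nonempty → p ∈ C.W i := fun i => by
    by_cases h : (C.W i).Nonempty
    · obtain ⟨p, hp⟩ := h; exact ⟨p, fun _ => hp⟩
    · exact ⟨0, fun h' => (h h').elim⟩
  have hq : ∀ i j, ∃ p : E, (C.W i ∩ C.W j).Nonempty → p ∈ C.W i ∩ C.W j := fun i j => by
    by_cases h : (C.W i ∩ C.W j).Nonempty
    · obtain ⟨p, hp⟩ := h; exact ⟨p, fun _ => hp⟩
    · exact ⟨0, fun h' => (h h').elim⟩
  choose p hp using hp
  choose q hq using hq
  have hr : ∀ᶠ r in 𝓝[>] (0 : ℝ), (∀ i, (C.W i).Nonempty → Metric.closedBall (p i) r ⊆ C.W i) ∧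
      ∀ i j, (C.W i ∩ C.W j).Nonempty → Metric.closedBall (q i j) r ⊆ C.W i ∩ C.W j := by
    refine Filter.Eventually.and ?_ ?_
    · refine Filter.eventually_all.2 fun i => ?_
      by_cases h : (C.W i).Nonempty
      · filter_upwards [eventually_closedBall_subset (C.isOpen i) (hp i h)] with r hr _ using hr
      · exact Filter.Eventually.of_forall fun r h' => (h h').elim
    · refine Filter.eventually_all.2 fun i => Filter.eventually_all.2 fun j => ?_
      by_cases h : (C.W i ∩ C.W j).Nonempty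
      · filter_upwards [eventually_closedBall_subset ((C.isOpen i).inter (C.isOpen j))
          (hq i j h)] with r hr _ using hr
      · exact Filter.Eventually.of_forall fun r h' => (h h').elim
  obtain ⟨r, ⟨hr1, hr2⟩, hr0⟩ := (hr.and self_mem_nhdsWithin).exists
  replace hr0 : 0 < r := hr0
  let T : C.ι → C.ι → Set E := fun i j =>
    if (C.W i ∩ C.W j).Nonempty then tube (p i) (q i j) r ∪ tube (p i) (q j i) r else ∅
  have hTc : ∀ i j, IsCompact (T i j) := fun i j => by
    simp only [T]; split_ifs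
    · exact (isCompact_tube _ _ _).union (isCompact_tube _ _ _)
    · exact isCompact_empty
  have hTs : ∀ i j, T i j ⊆ C.W i := fun i j => by
    simp only [T]; split_ifs with h
    · have h1 : (C.W i).Nonempty := h.mono inter_subset_left
      have h2 : (C.W j ∩ C.W i).Nonempty := by rwa [inter_comm]
      exact union_subset (tube_subset (C.convex i) (hr1 i h1) ((hr2 i j h).trans inter_subset_left))
        (tube_subset (C.convex i) (hr1 i h1) ((hr2 j i h2).trans inter_subset_right))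
    · exact empty_subset _
  set B : Set E := Metric.closedBall 0 r with hB
  have := FiniteDimensional.proper_real E
  have hBm : MeasurableSet B := Metric.isClosed_closedBall.measurableSet
  have hB0 : μ B ≠ 0 := (Metric.measure_closedBall_pos μ 0 hr0).ne'
  have hB1 : μ B ≠ ⊤ := (isCompact_closedBall (0 : E) r).measure_ne_top
  refine ⟨fun i => ⋃ j, T i j, (μ B)⁻¹ * ∑ i, ∑ j, (‖q i j - p i‖ₑ + ‖C.g i j‖ₑ * ‖q i j - p j‖ₑ),
    fun i => isCompact_iUnion (hTc i), fun i => iUnion_subset (hTs i), ?_, ?_⟩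
  · refine ENNReal.mul_ne_top (ENNReal.inv_ne_top.2 hB0) ?_
    refine ENNReal.sum_ne_top.2 fun i _ => ENNReal.sum_ne_top.2 fun j _ => ?_
    refine ENNReal.add_ne_top.2 ⟨by simp, ENNReal.mul_ne_top (by simp) (by simp)⟩
  · intro F
    obtain ⟨P⟩ := F.exists_prim
    let m : C.ι → V := fun i => (μ.real B)⁻¹ • ∫ z in B, P.ψ i (p i + z) ∂μ
    refine ⟨P.shift m, fun i j hij => ?_⟩
    set I : ENNReal := ∑ i, ∫⁻ x in ⋃ j, T i j, ‖F.η i x‖ₑ ∂μ with hI
    have hi : (C.W i).Nonempty := hij.mono inter_subset_left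
    have hj : (C.W j).Nonempty := hij.mono inter_subset_right
    have hji : (C.W j ∩ C.W i).Nonempty := by rwa [inter_comm]
    -- points
    have e1 : ∀ z ∈ B, p i + z ∈ C.W i := fun z hz =>
      hr1 i hi (by simpa [B, Metric.mem_closedBall, dist_eq_norm] using hz)
    have e2 : ∀ z ∈ B, p j + z ∈ C.W j := fun z hz =>
      hr1 j hj (by simpa [B, Metric.mem_closedBall, dist_eq_norm] using hz)
    have e3 : ∀ z ∈ B, q i j + z ∈ C.W i ∩ C.W j := fun z hz =>
      hr2 i j hij (by simpa [B, Metric.mem_closedBall, dist_eq_norm] using hz)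
    have c1 : ContinuousOn (fun z => P.ψ i (p i + z)) B :=
      (P.smooth i).continuousOn.comp (by fun_prop) e1
    have c2 : ContinuousOn (fun z => P.ψ j (p j + z)) B :=
      (P.smooth j).continuousOn.comp (by fun_prop) e2
    have i1 : IntegrableOn (fun z => P.ψ i (p i + z)) B μ :=
      c1.integrableOn_compact (isCompact_closedBall 0 r)
    have i2 : IntegrableOn (fun z => C.g i j (P.ψ j (p j + z))) B μ :=
      ((C.g i j).continuous.comp_continuousOn c2).integrableOn_compact (isCompact_closedBall 0 r)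
    have hmB : μ.real B ≠ 0 := by
      rw [Measure.real]; exact ENNReal.toReal_ne_zero.2 ⟨hB0, hB1⟩
    have k1 : μ.real B • (P.shift m).c i j =
        ∫ z in B, ((P.ψ i (q i j + z) - P.ψ i (p i + z)) -
          C.g i j (P.ψ j (q i j + z) - P.ψ j (p j + z))) ∂μ := by
      have h1 : ∫ z in B, ((P.ψ i (q i j + z) - P.ψ i (p i + z)) -
          C.g i j (P.ψ j (q i j + z) - P.ψ j (p j + z))) ∂μ =
          ∫ z in B, (P.c i j - P.ψ i (p i + z) + C.g i j (P.ψ j (p j + z))) ∂μ := by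
        refine setIntegral_congr_fun hBm fun z hz => ?_
        show P.ψ i (q i j + z) - P.ψ i (p i + z) - C.g i j (P.ψ j (q i j + z) - P.ψ j (p j + z)) =
          P.c i j - P.ψ i (p i + z) + C.g i j (P.ψ j (p j + z))
        rw [P.rel i j _ (e3 z hz), map_sub]
        abel
      have i0 : IntegrableOn (fun _ : E => P.c i j) B μ :=
        integrableOn_const hB1
      have i3 : IntegrableOn (fun z => P.c i j - P.ψ i (p i + z)) B μ := i0.sub i1
      rw [h1, integral_add i3 i2, integral_sub i0 i1, setIntegral_const,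
        ContinuousLinearMap.integral_comp_comm _
          (c2.integrableOn_compact (isCompact_closedBall 0 r))]
      simp only [Prim.shift, m, smul_add, smul_sub, map_smul]
      rw [smul_inv_smul₀ hmB, smul_inv_smul₀ hmB]
    have k2 : μ B * ‖(P.shift m).c i j‖ₑ ≤
        (‖q i j - p i‖ₑ + ‖C.g i j‖ₑ * ‖q i j - p j‖ₑ) * I := by
      have h1 : μ B * ‖(P.shift m).c i j‖ₑ = ‖μ.real B • (P.shift m).c i j‖ₑ := by
        rw [enorm_smul, Measure.real, Real.enorm_of_nonneg ENNReal.toReal_nonneg,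
          ENNReal.ofReal_toReal hB1]
      rw [h1, k1]
      refine (enorm_integral_le_lintegral_enorm _).trans ?_
      have h2 : ∀ z, ‖(P.ψ i (q i j + z) - P.ψ i (p i + z)) -
          C.g i j (P.ψ j (q i j + z) - P.ψ j (p j + z))‖ₑ ≤
          ‖P.ψ i (q i j + z) - P.ψ i (p i + z)‖ₑ +
            ‖C.g i j‖ₑ * ‖P.ψ j (q i j + z) - P.ψ j (p j + z)‖ₑ := fun z => by
        refine (enorm_sub_le).trans ?_
        gcongr
        exact ContinuousLinearMap.le_opENorm _ _
      refine (lintegral_mono h2).trans ?_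
      have c3 : ContinuousOn (fun z => P.ψ i (q i j + z)) B :=
        (P.smooth i).continuousOn.comp (by fun_prop) fun z hz => (e3 z hz).1
      have c4 : ContinuousOn (fun z => ‖P.ψ i (q i j + z) - P.ψ i (p i + z)‖ₑ) B :=
        (c3.sub c1).enorm
      rw [lintegral_add_left' (c4.aemeasurable hBm), lintegral_const_mul' _ _ (by simp), add_mul,
        mul_assoc]
      have d1 := avg_bound μ (C.convex i) (hr1 i hi) ((hr2 i j hij).trans inter_subset_left)
        (F.smooth i).continuousOn (P.der i)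
      have d2 := avg_bound μ (C.convex j) (hr1 j hj) ((hr2 i j hij).trans inter_subset_right)
        (F.smooth j).continuousOn (P.der j)
      have s1 : ∫⁻ x in tube (p i) (q i j) r, ‖F.η i x‖ₑ ∂μ ≤ I := by
        have h3 : tube (p i) (q i j) r ⊆ ⋃ j, T i j := by
          refine subset_iUnion_of_subset j ?_
          simp only [T]; rw [if_pos hij]; exact subset_union_left
        exact (lintegral_mono_set h3).trans
          (Finset.single_le_sum (f := fun i => ∫⁻ x in ⋃ j, T i j, ‖F.η i x‖ₑ ∂μ)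
            (fun _ _ => zero_le) (Finset.mem_univ i))
      have s2 : ∫⁻ x in tube (p j) (q i j) r, ‖F.η j x‖ₑ ∂μ ≤ I := by
        have h3 : tube (p j) (q i j) r ⊆ ⋃ l, T j l := by
          refine subset_iUnion_of_subset i ?_
          simp only [T]; rw [if_pos hji]; exact subset_union_right
        exact (lintegral_mono_set h3).trans
          (Finset.single_le_sum (f := fun i => ∫⁻ x in ⋃ j, T i j, ‖F.η i x‖ₑ ∂μ)
            (fun _ _ => zero_le) (Finset.mem_univ j))
      exact add_le_add (d1.trans (mul_le_mul' le_rfl s1))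
        (mul_le_mul' le_rfl (d2.trans (mul_le_mul' le_rfl s2)))
    have k3 : ‖(P.shift m).c i j‖ₑ ≤ (μ B)⁻¹ *
        ((‖q i j - p i‖ₑ + ‖C.g i j‖ₑ * ‖q i j - p j‖ₑ) * I) := by
      rw [← ENNReal.div_eq_inv_mul, ENNReal.le_div_iff_mul_le (Or.inl hB0) (Or.inl hB1), mul_comm]
      exact k2
    refine k3.trans ?_
    rw [mul_assoc]
    refine mul_le_mul' le_rfl (mul_le_mul' ?_ le_rfl)
    refine le_trans ?_ (Finset.single_le_sum (f := fun i => ∑ j,
      (‖q i j - p i‖ₑ + ‖C.g i j‖ₑ * ‖q i j - p j‖ₑ)) (fun _ _ => zero_le) (Finset.mem_univ i))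
    exact Finset.single_le_sum (f := fun j => (‖q i j - p i‖ₑ + ‖C.g i j‖ₑ * ‖q i j - p j‖ₑ))
      (fun _ _ => zero_le) (Finset.mem_univ j)

/-- difference of two forms -/
def Form.sub {C : CC E V} (F G : Form C) : Form C where
  η i x := F.η i x - G.η i x
  smooth i := (F.smooth i).sub (G.smooth i)
  closed i x hx u v := by
    have h1 : DifferentiableAt ℝ (F.η i) x :=
      ((F.smooth i).contDiffAt ((C.isOpen i).mem_nhds hx)).differentiableAt (by simp)
    have h2 : DifferentiableAt ℝ (G.η i) x :=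
      ((G.smooth i).contDiffAt ((C.isOpen i).mem_nhds hx)).differentiableAt (by simp)
    rw [fderiv_fun_sub h1 h2]
    simp only [sub_apply]
    rw [F.closed i x hx u v, G.closed i x hx u v]
  compat i j x hx := by
    rw [F.compat i j x hx, G.compat i j x hx, ContinuousLinearMap.comp_sub]

/-- difference of primitives -/
def Prim.sub {C : CC E V} {F G : Form C} (P : Prim F) (Q : Prim G) : Prim (F.sub G) where
  ψ i x := P.ψ i x - Q.ψ i x
  c i j := P.c i j - Q.c i j
  der i x hx := (P.der i x hx).sub (Q.der i x hx)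
  rel i j x hx := by
    rw [P.rel i j x hx, Q.rel i j x hx, map_sub]; abel

/-- coboundary operator -/
def cob (C : CC E V) : (C.ι → V) →ₗ[ℝ] (C.ι → C.ι → V) where
  toFun v i j := C.g i j (v j) - v i
  map_add' v w := by
    funext i j
    simp only [Pi.add_apply, map_add]; abel
  map_smul' a v := by
    funext i j
    simp only [Pi.smul_apply, map_smul, RingHom.id_apply, smul_sub]

/-- the cochains which are coboundaries on non-empty intersections form a closed subspace -/
theorem isClosed_isCob [FiniteDimensional ℝ V] (C : CC E V) [Finite C.ι] :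
    IsClosed {c : C.ι → C.ι → V | IsCob C c} := by
  classical
  have := Fintype.ofFinite C.ι
  let r : (C.ι → C.ι → V) →ₗ[ℝ] (C.ι → C.ι → V) :=
    { toFun := fun c i j => if (C.W i ∩ C.W j).Nonempty then c i j else 0
      map_add' := fun c d => by
        funext i j; simp only [Pi.add_apply]; split_ifs <;> simp
      map_smul' := fun a c => by
        funext i j; simp only [Pi.smul_apply, RingHom.id_apply]; split_ifs <;> simp }
  have h1 : {c : C.ι → C.ι → V | IsCob C c} =
      ((LinearMap.range (r ∘ₗ cob C)).comap r : Submodule ℝ (C.ι → C.ι → V)) := by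
    ext c
    simp only [Set.mem_ofPred_eq, SetLike.mem_coe, Submodule.mem_comap, LinearMap.mem_range,
      LinearMap.comp_apply]
    constructor
    · rintro ⟨v, hv⟩
      refine ⟨v, ?_⟩
      funext i j
      show (if _ then _ else _) = (if _ then _ else _)
      split_ifs with h
      · exact (hv i j h).symm
      · rfl
    · rintro ⟨v, hv⟩
      refine ⟨v, fun i j h => ?_⟩
      have h2 := congrFun (congrFun hv i) j
      change (if _ then _ else _) = (if _ then _ else _) at h2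
      rw [if_pos h, if_pos h] at h2
      exact h2.symm
  rw [h1]
  exact Submodule.closed_of_finiteDimensional _

/-- an `L¹_loc` limit of exact forms is exact -/
theorem exact_of_forall_approx [FiniteDimensional ℝ V] (C : CC E V) [Fintype C.ι] (F : Form C)
    (h : ∀ K : C.ι → Set E, (∀ i, IsCompact (K i)) → (∀ i, K i ⊆ C.W i) → ∀ ε : ENNReal, 0 < ε →
      ∃ G : Form C, G.Exact ∧ ∑ i, ∫⁻ x in K i, ‖F.η i x - G.η i x‖ₑ ∂μ ≤ ε) : F.Exact := by
  classical
  have : CompleteSpace V := FiniteDimensional.complete ℝ V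
  obtain ⟨K, M, hK1, hK2, hM, hK⟩ := exists_bound μ C
  obtain ⟨P⟩ := F.exists_prim
  rw [P.exact_iff]
  let r : (C.ι → C.ι → V) → (C.ι → C.ι → V) :=
    fun c i j => if (C.W i ∩ C.W j).Nonempty then c i j else 0
  have hr : ∀ c, IsCob C (r c) ↔ IsCob C c := fun c => by
    constructor
    · rintro ⟨v, hv⟩
      refine ⟨v, fun i j hij => ?_⟩
      have := hv i j hij
      simp only [r] at this
      rwa [if_pos hij] at this
    · rintro ⟨v, hv⟩
      refine ⟨v, fun i j hij => ?_⟩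
      simp only [r]
      rw [if_pos hij]; exact hv i j hij
  rw [← hr]
  refine (isClosed_isCob C).closure_subset ?_
  rw [EMetric.mem_closure_iff]
  intro ε hε
  -- choose a small `δ`
  obtain ⟨δ, hδ0, hδ⟩ : ∃ δ : ENNReal, 0 < δ ∧ M * δ < ε := by
    by_cases hε1 : ε = ⊤
    · exact ⟨1, one_pos, by rw [hε1, mul_one]; exact hM.lt_top⟩
    · refine ⟨ε / (2 * (M + 1)), ?_, ?_⟩
      · exact ENNReal.div_pos hε.ne' (ENNReal.mul_ne_top (by simp) (ENNReal.add_ne_top.2 ⟨hM, by simp⟩))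
      · have h1 : M * (ε / (2 * (M + 1))) ≤ ε / 2 := by
          have hM1 : M + 1 ≠ 0 := by simp
          have hM2 : M + 1 ≠ ⊤ := ENNReal.add_ne_top.2 ⟨hM, by simp⟩
          calc M * (ε / (2 * (M + 1))) ≤ (M + 1) * (ε / (2 * (M + 1))) :=
                mul_le_mul' le_self_add le_rfl
            _ = ε / 2 := by
                rw [div_eq_mul_inv, ENNReal.mul_inv (Or.inl (by simp)) (Or.inl (by simp)),
                  mul_left_comm, mul_comm (2 : ENNReal)⁻¹, ← mul_assoc (M + 1),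
                  ENNReal.mul_inv_cancel hM1 hM2, one_mul, div_eq_mul_inv]
        exact h1.trans_lt (ENNReal.half_lt_self hε.ne' hε1)
  obtain ⟨G, hG, hFG⟩ := h K hK1 hK2 δ hδ0
  obtain ⟨Q, hQ⟩ := hK (F.sub G)
  obtain ⟨R⟩ := G.exists_prim
  -- `P - Q` is a primitive of `G`
  have h2 : IsCob C (fun i j => P.c i j - Q.c i j) := by
    have h3 : IsCob C R.c := R.exact_iff.1 hG
    -- `P - R` is a primitive of `F - G`, as is `Q`
    obtain ⟨v, hv⟩ := h3
    have h4 : IsCob C (fun i j => (P.sub R).c i j - Q.c i j) := by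
      have h5 : ∀ i, ∃ w : V, ∀ x ∈ C.W i, (P.sub R).ψ i x = Q.ψ i x + w := by
        intro i
        rcases (C.W i).eq_empty_or_nonempty with h0 | ⟨y, hy⟩
        · exact ⟨0, fun x hx => by rw [h0] at hx; exact hx.elim⟩
        · refine ⟨(P.sub R).ψ i y - Q.ψ i y, fun x hx => ?_⟩
          have h4 : (P.sub R).ψ i x - Q.ψ i x = (P.sub R).ψ i y - Q.ψ i y := by
            refine const_of_deriv_zero (f := fun z => (P.sub R).ψ i z - Q.ψ i z) (C.isOpen i)
              (C.convex i) ?_ hx hy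
            intro z hz
            have h5 := ((P.sub R).der i z hz).sub (Q.der i z hz)
            rwa [sub_self] at h5
          rw [← h4]; abel
      choose w hw using h5
      refine ⟨fun i => - w i, fun i j hij => ?_⟩
      obtain ⟨x, hx⟩ := hij
      have h6 := (P.sub R).rel i j x hx
      rw [hw i x hx.1, hw j x hx.2, Q.rel i j x hx, map_add] at h6
      have h7 : Q.c i j + w i = C.g i j (w j) + (P.sub R).c i j := by
        have h8 : C.g i j (Q.ψ j x) + (Q.c i j + w i) =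
            C.g i j (Q.ψ j x) + (C.g i j (w j) + (P.sub R).c i j) := by
          rw [← add_assoc, ← add_assoc]; exact h6
        exact add_left_cancel h8
      have h8 : (P.sub R).c i j - Q.c i j = w i - C.g i j (w j) := by
        rw [sub_eq_sub_iff_add_eq_add, add_comm, ← h7]; abel
      show (P.sub R).c i j - Q.c i j = C.g i j (- w j) - (- w i)
      rw [h8, map_neg]; abel
    obtain ⟨w, hw⟩ := h4
    refine ⟨fun i => w i + v i, fun i j hij => ?_⟩
    have h9 := hw i j hij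
    have h10 := hv i j hij
    change P.c i j - R.c i j - Q.c i j = _ at h9
    have h11 : P.c i j - Q.c i j = (P.c i j - R.c i j - Q.c i j) + R.c i j := by abel
    show P.c i j - Q.c i j = C.g i j (w j + v j) - (w i + v i)
    rw [h11, h9, h10, map_add]; abel
  refine ⟨r (fun i j => P.c i j - Q.c i j), (hr _).2 h2, ?_⟩
  have h3 : edist (r P.c) (r fun i j => P.c i j - Q.c i j) ≤ M * δ := by
    rw [edist_pi_le_iff]; intro i
    rw [edist_pi_le_iff]; intro j
    simp only [r]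
    by_cases hij : (C.W i ∩ C.W j).Nonempty
    · rw [if_pos hij, if_pos hij, edist_eq_enorm_sub, sub_sub_cancel]
      exact (hQ i j hij).trans (mul_le_mul' le_rfl hFG)
    · rw [if_neg hij, if_neg hij, edist_self]; exact zero_le
  exact h3.trans_lt hδ

end bound

end

end Crest.Agent.R276.Top2_937
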