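import Mathlib
import Crest.Agent.R276.DR_175
import Crest.Agent.R276.Top1_175
import Crest.Agent.R276.Top2_937_Mg
import Crest.Agent.R276.Psi_563

-- ▼ part R276/DR2_175
section

/-!
# Row 276, IPC (helper175): forms and cocycles on open subsets of the plane, part 2

* `exists_rep` (R1) : every smooth closed form represents a cocycle (`u x y` = integral from `x` to `y`).
-/

set_option autoImplicit false
set_option linter.unusedSectionVars false

noncomputable section

open Set Filter Topology MeasureTheory Matrix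
open Crest.Agent.R276.Ipc735

namespace Crest.Agent.R276.DR_175

variable {N : ℕ}

/-- choice of radii bounded below locally -/
lemma exists_rad {O : Set ℂ} (good : ℂ → ℝ → Prop)
    (mono : ∀ x r r', r' ≤ r → good x r → good x r')
    (h : ∀ z ∈ O, ∃ ε > 0, ∀ x ∈ Metric.ball z ε, good x ε) :
    ∃ r : ℂ → ℝ, ∀ z ∈ O, ∃ ε > 0, ∀ x ∈ Metric.ball z ε, ε ≤ r x ∧ good x (r x) := by
  classical
  let S : ℂ → Set ℝ := fun x => {r | 0 < r ∧ r ≤ 1 ∧ good x r}
  have hb : ∀ x, BddAbove (S x) := fun x => ⟨1, fun r hr => hr.2.1⟩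
  have h1 : ∀ x, ∃ r, (S x).Nonempty → r ∈ S x ∧ sSup (S x) / 2 ≤ r := by
    intro x
    by_cases hne : (S x).Nonempty
    · have hpos : 0 < sSup (S x) := by
        obtain ⟨r, hr⟩ := hne
        exact lt_of_lt_of_le hr.1 (le_csSup (hb x) hr)
      obtain ⟨r, hr, hlt⟩ := exists_lt_of_lt_csSup hne (half_lt_self hpos)
      exact ⟨r, fun _ => ⟨hr, hlt.le⟩⟩
    · exact ⟨0, fun h => absurd h hne⟩
  choose r hr using h1
  refine ⟨r, fun z hz => ?_⟩
  obtain ⟨ε, hε, hgood⟩ := h z hz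
  refine ⟨min ε 1 / 2, by positivity, fun x hx => ?_⟩
  have hx' : x ∈ Metric.ball z ε := by
    refine Metric.ball_subset_ball ?_ hx
    have : min ε 1 ≤ ε := min_le_left _ _
    have h0 : 0 < min ε 1 := by positivity
    linarith
  have hmem : min ε 1 ∈ S x :=
    ⟨by positivity, min_le_right _ _, mono x ε _ (min_le_left _ _) (hgood x hx')⟩
  obtain ⟨h2, h3⟩ := hr x ⟨_, hmem⟩
  refine ⟨le_trans ?_ h3, h2.2.2⟩
  have := le_csSup (hb x) hmem
  linarith

section prim

variable {O : Set ℂ} {P : ℂ → ℂ → GL (Fin N) ℤ} {a b : ℂ → Fin N → ℂ}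

/-- a ball on which `P` is a genuine cocycle -/
def GoodBall (O : Set ℂ) (P : ℂ → ℂ → GL (Fin N) ℤ) (x : ℂ) (r : ℝ) : Prop :=
  Metric.ball x r ⊆ O ∧ ∀ s ∈ Metric.ball x r, ∀ y ∈ Metric.ball x r, ∀ t ∈ Metric.ball x r,
    P s y * P y t = P s t

lemma GoodBall.mono {x : ℂ} {r r' : ℝ} (h : r' ≤ r) (hg : GoodBall O P x r) :
    GoodBall O P x r' := by
  have hs := Metric.ball_subset_ball (x := x) h
  exact ⟨hs.trans hg.1, fun s hs' y hy t ht => hg.2 s (hs hs') y (hs hy) t (hs ht)⟩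

lemma goodBall_near (hO : IsOpen O) (hP : NDCOn O P) :
    ∀ z ∈ O, ∃ ε > 0, ∀ x ∈ Metric.ball z ε, GoodBall O P x ε := by
  intro z hz
  obtain ⟨U, hU, h⟩ := hP z hz
  obtain ⟨ε, hε, hball⟩ := Metric.mem_nhds_iff.mp (Filter.inter_mem hU (hO.mem_nhds hz))
  refine ⟨ε / 2, half_pos hε, fun x hx => ?_⟩
  have hs : Metric.ball x (ε / 2) ⊆ Metric.ball z ε := by
    intro y hy
    rw [Metric.mem_ball] at *
    calc dist y z ≤ dist y x + dist x z := dist_triangle _ _ _
      _ < ε / 2 + ε / 2 := add_lt_add hy hx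
      _ = ε := by ring
  exact ⟨fun y hy => (hball (hs hy)).2, fun s hs' y hy t ht =>
    h s (hball (hs hs')).1 y (hball (hs hy)).1 t (hball (hs ht)).1⟩

/-- the value at `y` of the form, in the frame at `x` -/
def frm (P : ℂ → ℂ → GL (Fin N) ℤ) (a b : ℂ → Fin N → ℂ) (x y : ℂ) : ℂ →L[ℝ] (Fin N → ℂ) :=
  wir (lV P a x y) (lV P b x y)

lemma GoodBall.lV_near {x : ℂ} {r : ℝ} (hg : GoodBall O P x r) {y : ℂ} (hy : y ∈ Metric.ball x r)
    (φ : ℂ → Fin N → ℂ) : lV P φ x =ᶠ[𝓝 y] fun t => act (P x y) (lV P φ y t) := by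
  filter_upwards [Metric.isOpen_ball.mem_nhds hy] with t ht
  have hx : x ∈ Metric.ball x r := by
    rw [Metric.mem_ball] at hy
    exact Metric.mem_ball_self (lt_of_le_of_lt dist_nonneg hy)
  rw [lV_eq, lV_eq, ← hg.2 x hx y hy t ht, act_mul_apply]

lemma GoodBall.contDiffAt {x : ℂ} {r : ℝ} (hg : GoodBall O P x r) {φ : ℂ → Fin N → ℂ}
    (hφ : SmOn O P φ) {y : ℂ} (hy : y ∈ Metric.ball x r) :
    ContDiffAt ℝ (⊤ : ℕ∞) (lV P φ x) y := by
  have h1 : ContDiffAt ℝ (⊤ : ℕ∞) (fun t => act (P x y) (lV P φ y t)) y :=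
    ((act (P x y)).restrictScalars ℝ).contDiff.contDiffAt.comp y (hφ y (hg.1 hy))
  exact h1.congr_of_eventuallyEq (hg.lV_near hy φ)

lemma contDiffAt_wir {p q : ℂ → Fin N → ℂ} {y : ℂ} (hp : ContDiffAt ℝ (⊤ : ℕ∞) p y)
    (hq : ContDiffAt ℝ (⊤ : ℕ∞) q y) :
    ContDiffAt ℝ (⊤ : ℕ∞) (fun t => wir (p t) (q t)) y := by
  have h0 : ContDiff ℝ (⊤ : ℕ∞) (fun pq : (Fin N → ℂ) × (Fin N → ℂ) =>
      (wir pq.1 pq.2 : ℂ →L[ℝ] (Fin N → ℂ))) := by
    rw [contDiff_clm_apply_iff]
    intro v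
    have h1 : (fun pq : (Fin N → ℂ) × (Fin N → ℂ) => (wir pq.1 pq.2 : ℂ →L[ℝ] (Fin N → ℂ)) v) =
        fun pq => v • pq.1 + (starRingEnd ℂ) v • pq.2 := by
      funext pq; rw [wir_apply]
    rw [h1]
    exact (contDiff_fst.const_smul v).add (contDiff_snd.const_smul _)
  exact h0.contDiffAt.comp y (hp.prodMk hq)

/-- existence of a primitive on a good ball -/
lemma GoodBall.exists_prim {x : ℂ} {r : ℝ} (hg : GoodBall O P x r) (ha : SmOn O P a)
    (hb : SmOn O P b) (hab : ClOn O P a b) :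
    ∃ F : ℂ → Fin N → ℂ, F x = 0 ∧ ∀ y ∈ Metric.ball x r, HasFDerivAt F (frm P a b x y) y := by
  have hd : ∀ y ∈ Metric.ball x r, DifferentiableAt ℝ (frm P a b x) y := fun y hy =>
    near_diff (contDiffAt_wir (hg.contDiffAt ha hy) (hg.contDiffAt hb hy))
  have hsymm : ∀ y ∈ Metric.ball x r, ∀ u v, fderiv ℝ (frm P a b x) y u v =
      fderiv ℝ (frm P a b x) y v u := by
    intro y hy
    have hda := near_diff (hg.contDiffAt ha hy)
    have hdb := near_diff (hg.contDiffAt hb hy)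
    have key : ∀ u v, fderiv ℝ (frm P a b x) y u v =
        v • fderiv ℝ (lV P a x) y u + (starRingEnd ℂ) v • fderiv ℝ (lV P b x) y u := by
      intro u v
      have h1 := ((hd y hy).hasFDerivAt.clm_apply (hasFDerivAt_const v y)).fderiv
      have h2 : fderiv ℝ (fun t => frm P a b x t v) y u = fderiv ℝ (frm P a b x) y u v := by
        have h1' : fderiv ℝ (fun t => frm P a b x t v) y =
          ((frm P a b x y).comp (0 : ℂ →L[ℝ] ℂ) + (fderiv ℝ (frm P a b x) y).flip v) := h1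
        rw [h1']; simp
      rw [← h2]
      have h3 : (fun t => frm P a b x t v) = fun t => v • lV P a x t +
          (starRingEnd ℂ) v • lV P b x t := by
        funext t; rw [frm, wir_apply]
      rw [h3]
      have h4 : HasFDerivAt (fun t => v • lV P a x t + (starRingEnd ℂ) v • lV P b x t)
          (v • fderiv ℝ (lV P a x) y + (starRingEnd ℂ) v • fderiv ℝ (lV P b x) y) y := by
        have h41 : HasFDerivAt (fun t => v • lV P a x t) (v • fderiv ℝ (lV P a x) y) y :=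
          hda.hasFDerivAt.const_smul v
        have h42 : HasFDerivAt (fun t => (starRingEnd ℂ) v • lV P b x t)
            ((starRingEnd ℂ) v • fderiv ℝ (lV P b x) y) y :=
          hdb.hasFDerivAt.const_smul ((starRingEnd ℂ) v)
        exact h41.add h42
      rw [h4.fderiv]
      rfl
    have hcl : wb (lV P a x) y = wz (lV P b x) y := by
      rw [wb_congr (hg.lV_near hy a), wz_congr (hg.lV_near hy b),
        wb_clm _ (near_diff (ha y (hg.1 hy))), wz_clm _ (near_diff (hb y (hg.1 hy))),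
        hab y (hg.1 hy)]
    intro u v
    rw [key, key, fderiv_eq_wir, fderiv_eq_wir, fderiv_eq_wir, fderiv_eq_wir, hcl]
    module
  obtain ⟨F, hF⟩ := (convex_ball x r).exists_forall_hasFDerivAt_of_fderiv_symmetric
    Metric.isOpen_ball (fun y hy => (hd y hy).differentiableWithinAt) hsymm
  exact ⟨fun y => F y - F x, by simp, fun y hy => (hF y hy).sub_const _⟩

/-- **(R1)** every smooth closed form represents a cocycle; moreover one may take `f = 0`. -/
theorem exists_rep (hO : IsOpen O) (hP : NDCOn O P) (ha : SmOn O P a) (hb : SmOn O P b)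
    (hab : ClOn O P a b) : ∃ u, CocOn O P u ∧ RepBy O P u (fun _ => 0) a b := by
  classical
  obtain ⟨r, hr⟩ := exists_rad (O := O) (GoodBall O P) (fun x r r' h hg => hg.mono h)
    (goodBall_near hO hP)
  have h1 : ∀ x, ∃ F : ℂ → Fin N → ℂ, GoodBall O P x (r x) →
      (F x = 0 ∧ ∀ y ∈ Metric.ball x (r x), HasFDerivAt F (frm P a b x y) y) := by
    intro x
    by_cases hg : GoodBall O P x (r x)
    · obtain ⟨F, hF⟩ := hg.exists_prim ha hb hab
      exact ⟨F, fun _ => hF⟩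
    · exact ⟨0, fun h => absurd h hg⟩
  choose F hF using h1
  refine ⟨F, ?_, ?_⟩
  · intro z hz
    obtain ⟨ε, hε, h2⟩ := hr z hz
    refine ⟨Metric.ball z (ε / 2), Metric.ball_mem_nhds z (half_pos hε), ?_⟩
    have hsub : ∀ x ∈ Metric.ball z (ε / 2), x ∈ Metric.ball z ε := fun x hx =>
      Metric.ball_subset_ball (by linarith) hx
    have hin : ∀ x ∈ Metric.ball z (ε / 2), ∀ y ∈ Metric.ball z (ε / 2),
        y ∈ Metric.ball x (r x) := by
      intro x hx y hy
      have h3 := (h2 x (hsub x hx)).1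
      rw [Metric.mem_ball] at *
      calc dist y x ≤ dist y z + dist z x := dist_triangle _ _ _
        _ < ε / 2 + ε / 2 := add_lt_add hy (by rwa [dist_comm])
        _ ≤ r x := by linarith
    intro x hx y hy t ht
    have gx := (h2 x (hsub x hx)).2
    have gy := (h2 y (hsub y hy)).2
    obtain ⟨fx, dx⟩ := hF x gx
    obtain ⟨fy, dy⟩ := hF y gy
    -- the difference is constant
    have hc : F x t - act (P x y) (F y t) = F x y - act (P x y) (F y y) := by
      refine ((Metric.isOpen_ball (x := x) (ε := r x)).inter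
        (Metric.isOpen_ball (x := y) (ε := r y))).is_const_of_fderiv_eq_zero (𝕜 := ℝ)
        (f := fun s => F x s - act (P x y) (F y s))
        ((convex_ball x (r x)).inter (convex_ball y (r y))).isPreconnected ?_ ?_
        ⟨hin x hx t ht, hin y hy t ht⟩ ⟨hin x hx y hy, hin y hy y hy⟩
      · intro s hs
        exact ((dx s hs.1).sub
          (((act (P x y)).restrictScalars ℝ).hasFDerivAt.comp s
            (dy s hs.2))).differentiableAt.differentiableWithinAt
      · intro s hs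
        have h5 := (dx s hs.1).sub
          (((act (P x y)).restrictScalars ℝ).hasFDerivAt.comp s (dy s hs.2))
        have h6 : HasFDerivAt (fun s => F x s - act (P x y) (F y s)) (frm P a b x s -
          ((act (P x y)).restrictScalars ℝ).comp (frm P a b y s)) s := h5
        show fderiv ℝ (fun s => F x s - act (P x y) (F y s)) s = 0
        rw [h6.fderiv]
        ext v : 1
        have hPs : P x y * P y s = P x s :=
          gx.2 x (Metric.mem_ball_self (lt_of_lt_of_le hε (h2 x (hsub x hx)).1)) y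
            (hin x hx y hy) s hs.1
        have e1 : ∀ φ : ℂ → Fin N → ℂ, lV P φ x s = act (P x y) (lV P φ y s) := by
          intro φ
          rw [lV_eq, lV_eq, ← hPs, act_mul_apply]
        show frm P a b x s v - act (P x y) (frm P a b y s v) = 0
        rw [frm, frm, wir_apply, wir_apply, e1 a, e1 b, map_add, map_smul, map_smul, sub_self]
    rw [fy, map_zero, sub_zero] at hc
    rw [← hc]; abel
  · intro z hz
    obtain ⟨ε, hε, h2⟩ := hr z hz
    have hz1 := h2 z (Metric.mem_ball_self hε)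
    have gz := hz1.2
    have hzb : z ∈ Metric.ball z (r z) := Metric.mem_ball_self (lt_of_lt_of_le hε hz1.1)
    obtain ⟨fz, dz⟩ := hF z gz
    have e0 : aff P F (fun _ => 0) z = F z := by
      funext y
      unfold aff
      rw [map_zero, zero_add]
    rw [e0]
    have hder := dz z hzb
    refine ⟨?_, ?_, ?_⟩
    · have h3 : ContDiffOn ℝ (⊤ : ℕ∞) (F z) (Metric.ball z (r z)) := by
        have h4 : ContDiffOn ℝ (⊤ : ℕ∞) (frm P a b z) (Metric.ball z (r z)) := fun y hy =>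
          (contDiffAt_wir (gz.contDiffAt ha hy) (gz.contDiffAt hb hy)).contDiffWithinAt
        rw [contDiffOn_infty_iff_fderiv_of_isOpen Metric.isOpen_ball]
        exact ⟨fun y hy => (dz y hy).differentiableAt.differentiableWithinAt,
          h4.congr fun y hy => (dz y hy).fderiv⟩
      exact h3.contDiffAt (Metric.isOpen_ball.mem_nhds hzb)
    · rw [wz_of_hasFDerivAt hder, lV_self hP hz]
    · rw [wb_of_hasFDerivAt hder, lV_self hP hz]

end prim

end Crest.Agent.R276.DR_175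
end
end

-- ▼ part R276/ASH1_175
section

/-!
# First cohomology with local coefficients, by affine near-diagonal cocycles (row 276, IPC)

`P : X → X → G` a near-diagonal cocycle, `ρ : Representation R G V`.
* `IsCoc ρ P u` : `u x y + ρ (P x y) (u y w) = u x w` near the diagonal.
* `IsCob ρ P u` : `u x y = v x - ρ (P x y) (v y)` near the diagonal, for some function `v`.
* `H1 ρ P` : cocycles modulo coboundaries.
The pair `(u, P)` is a near-diagonal cocycle with values in the affine group `V ⋊ G`, so the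
homotopy theorem of `Top1_175` computes `H1` of a product with a contractible space.
-/

set_option autoImplicit false

open Set Topology unitInterval Filter
open Crest.Agent.R276.Top1_175

namespace Crest.Agent.R276.ASH1_175

variable {X Y : Type*} [TopologicalSpace X] [TopologicalSpace Y] {G : Type*} [Group G]
  {R : Type*} [CommRing R] {V : Type*} [AddCommGroup V] [Module R V]
  (ρ : Representation R G V)

/-- the affine group `V ⋊ G` -/
@[ext] structure Aff (ρ : Representation R G V) where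
  v : V
  g : G

instance : Group (Aff ρ) where
  mul a b := ⟨a.v + ρ a.g b.v, a.g * b.g⟩
  one := ⟨0, 1⟩
  inv a := ⟨-(ρ a.g⁻¹ a.v), a.g⁻¹⟩
  mul_assoc a b c := by
    apply Aff.ext
    · show (a.v + ρ a.g b.v) + ρ (a.g * b.g) c.v = a.v + ρ a.g (b.v + ρ b.g c.v)
      rw [map_mul, Module.End.mul_apply, map_add, add_assoc]
    · exact mul_assoc a.g b.g c.g
  one_mul a := by
    apply Aff.ext
    · show (0 : V) + ρ 1 a.v = a.v
      simp
    · exact one_mul a.g
  mul_one a := by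
    apply Aff.ext
    · show a.v + ρ a.g 0 = a.v
      simp
    · exact mul_one a.g
  inv_mul_cancel a := by
    apply Aff.ext
    · show -(ρ a.g⁻¹ a.v) + ρ a.g⁻¹ a.v = 0
      simp
    · exact inv_mul_cancel a.g

@[simp] theorem Aff.mul_v (a b : Aff ρ) : (a * b).v = a.v + ρ a.g b.v := rfl
@[simp] theorem Aff.mul_g (a b : Aff ρ) : (a * b).g = a.g * b.g := rfl
@[simp] theorem Aff.one_v : (1 : Aff ρ).v = 0 := rfl
@[simp] theorem Aff.one_g : (1 : Aff ρ).g = 1 := rfl
@[simp] theorem Aff.inv_v (a : Aff ρ) : (a⁻¹).v = -(ρ a.g⁻¹ a.v) := rfl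
@[simp] theorem Aff.inv_g (a : Aff ρ) : (a⁻¹).g = a.g⁻¹ := rfl


/-- twisted near-diagonal 1-cocycles -/
def IsCoc (P : X → X → G) (u : X → X → V) : Prop :=
  ∀ z, ∃ U ∈ 𝓝 z, ∀ x ∈ U, ∀ y ∈ U, ∀ w ∈ U, u x y + ρ (P x y) (u y w) = u x w

/-- coboundary of a function -/
def cob (P : X → X → G) (v : X → V) : X → X → V := fun x y => v x - ρ (P x y) (v y)

/-- two functions agree near the diagonal -/
def NEq {W : Type*} (u u' : X → X → W) : Prop :=
  ∀ z, ∃ U ∈ 𝓝 z, ∀ x ∈ U, ∀ y ∈ U, u x y = u' x y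

/-- coboundaries -/
def IsCob (P : X → X → G) (u : X → X → V) : Prop := ∃ v, NEq u (cob ρ P v)

theorem NEq.refl {W : Type*} (u : X → X → W) : NEq u u :=
  fun _ => ⟨univ, univ_mem, fun _ _ _ _ => rfl⟩

theorem NEq.symm {W : Type*} {u u' : X → X → W} (h : NEq u u') : NEq u' u := by
  intro z
  obtain ⟨U, hU, hc⟩ := h z
  exact ⟨U, hU, fun x hx y hy => (hc x hx y hy).symm⟩

theorem NEq.trans {W : Type*} {u u' u'' : X → X → W} (h : NEq u u') (h' : NEq u' u'') :
    NEq u u'' := by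
  intro z
  obtain ⟨U, hU, hc⟩ := h z
  obtain ⟨U', hU', hc'⟩ := h' z
  exact ⟨U ∩ U', inter_mem hU hU', fun x hx y hy =>
    (hc x hx.1 y hy.1).trans (hc' x hx.2 y hy.2)⟩

theorem NEq.add {W : Type*} [Add W] {u u' v v' : X → X → W} (h : NEq u u') (h' : NEq v v') :
    NEq (fun x y => u x y + v x y) (fun x y => u' x y + v' x y) := by
  intro z
  obtain ⟨U, hU, hc⟩ := h z
  obtain ⟨U', hU', hc'⟩ := h' z
  exact ⟨U ∩ U', inter_mem hU hU', fun x hx y hy => by
    beta_reduce; rw [hc x hx.1 y hy.1, hc' x hx.2 y hy.2]⟩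

theorem NEq.sub {W : Type*} [Sub W] {u u' v v' : X → X → W} (h : NEq u u') (h' : NEq v v') :
    NEq (fun x y => u x y - v x y) (fun x y => u' x y - v' x y) := by
  intro z
  obtain ⟨U, hU, hc⟩ := h z
  obtain ⟨U', hU', hc'⟩ := h' z
  exact ⟨U ∩ U', inter_mem hU hU', fun x hx y hy => by
    beta_reduce; rw [hc x hx.1 y hy.1, hc' x hx.2 y hy.2]⟩

theorem NEq.comp {W : Type*} {u u' : X → X → W} (h : NEq u u') {f : Y → X} (hf : Continuous f) :
    NEq (fun a b => u (f a) (f b)) (fun a b => u' (f a) (f b)) := by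
  intro z
  obtain ⟨U, hU, hc⟩ := h (f z)
  exact ⟨f ⁻¹' U, hf.continuousAt.preimage_mem_nhds hU, fun x hx y hy => hc _ hx _ hy⟩

variable {ρ}

theorem IsCoc.self {P : X → X → G} (hP : IsNDC P) {u : X → X → V} (hu : IsCoc ρ P u) (x : X) :
    u x x = 0 := by
  obtain ⟨U, hU, hc⟩ := hu x
  have hx := mem_of_mem_nhds hU
  have := hc x hx x hx x hx
  rw [hP.self, map_one] at this
  simpa using this

theorem IsCoc.comp {P : X → X → G} {u : X → X → V} (h : IsCoc ρ P u) {f : Y → X}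
    (hf : Continuous f) : IsCoc ρ (fun a b => P (f a) (f b)) (fun a b => u (f a) (f b)) := by
  intro z
  obtain ⟨U, hU, hc⟩ := h (f z)
  exact ⟨f ⁻¹' U, hf.continuousAt.preimage_mem_nhds hU, fun x hx y hy w hw => hc _ hx _ hy _ hw⟩

theorem IsCoc.add {P : X → X → G} {u v : X → X → V} (hu : IsCoc ρ P u) (hv : IsCoc ρ P v) :
    IsCoc ρ P (fun x y => u x y + v x y) := by
  intro z
  obtain ⟨U, hU, hc⟩ := hu z
  obtain ⟨U', hU', hc'⟩ := hv z
  refine ⟨U ∩ U', inter_mem hU hU', fun x hx y hy w hw => ?_⟩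
  beta_reduce
  rw [← hc x hx.1 y hy.1 w hw.1, ← hc' x hx.2 y hy.2 w hw.2, map_add]
  abel

theorem IsCoc.smul {P : X → X → G} {u : X → X → V} (hu : IsCoc ρ P u) (r : R) :
    IsCoc ρ P (fun x y => r • u x y) := by
  intro z
  obtain ⟨U, hU, hc⟩ := hu z
  refine ⟨U, hU, fun x hx y hy w hw => ?_⟩
  beta_reduce
  rw [← hc x hx y hy w hw, map_smul, smul_add]

theorem isCoc_zero (P : X → X → G) : IsCoc ρ P (fun _ _ => 0) :=
  fun _ => ⟨univ, univ_mem, fun _ _ _ _ _ _ => by simp⟩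

theorem IsCoc.congr {P Q : X → X → G} {u u' : X → X → V} (hu : IsCoc ρ P u) (h : NEq u u')
    (hPQ : NEq P Q) : IsCoc ρ Q u' := by
  intro z
  obtain ⟨U, hU, hc⟩ := hu z
  obtain ⟨U', hU', hc'⟩ := h z
  obtain ⟨U'', hU'', hc''⟩ := hPQ z
  refine ⟨U ∩ U' ∩ U'', inter_mem (inter_mem hU hU') hU'', fun x hx y hy w hw => ?_⟩
  rw [← hc' x hx.1.2 y hy.1.2, ← hc' y hy.1.2 w hw.1.2, ← hc' x hx.1.2 w hw.1.2,
    ← hc'' x hx.2 y hy.2]
  exact hc x hx.1.1 y hy.1.1 w hw.1.1



theorem IsCob.add {P : X → X → G} {u v : X → X → V} (hu : IsCob ρ P u) (hv : IsCob ρ P v) :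
    IsCob ρ P (fun x y => u x y + v x y) := by
  obtain ⟨a, ha⟩ := hu
  obtain ⟨b, hb⟩ := hv
  refine ⟨fun x => a x + b x, (ha.add hb).trans ?_⟩
  intro z
  exact ⟨univ, univ_mem, fun x _ y _ => by simp only [cob, map_add]; abel⟩

theorem IsCob.smul {P : X → X → G} {u : X → X → V} (hu : IsCob ρ P u) (r : R) :
    IsCob ρ P (fun x y => r • u x y) := by
  obtain ⟨a, ha⟩ := hu
  refine ⟨fun x => r • a x, ?_⟩
  intro z
  obtain ⟨U, hU, hc⟩ := ha z
  refine ⟨U, hU, fun x hx y hy => ?_⟩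
  beta_reduce
  rw [hc x hx y hy]
  simp only [cob, map_smul, smul_sub]

theorem isCob_zero (P : X → X → G) : IsCob ρ P (fun _ _ => 0) :=
  ⟨fun _ => 0, fun _ => ⟨univ, univ_mem, fun _ _ _ _ => by simp [cob]⟩⟩

theorem IsCob.comp {P : X → X → G} {u : X → X → V} (h : IsCob ρ P u) {f : Y → X}
    (hf : Continuous f) : IsCob ρ (fun a b => P (f a) (f b)) (fun a b => u (f a) (f b)) := by
  obtain ⟨v, hv⟩ := h
  exact ⟨fun a => v (f a), hv.comp hf⟩

theorem IsCob.congr {P Q : X → X → G} {u u' : X → X → V} (hu : IsCob ρ P u) (h : NEq u u')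
    (hPQ : NEq P Q) : IsCob ρ Q u' := by
  obtain ⟨v, hv⟩ := hu
  refine ⟨v, (h.symm.trans hv).trans ?_⟩
  intro z
  obtain ⟨U, hU, hc⟩ := hPQ z
  exact ⟨U, hU, fun x hx y hy => by simp only [cob]; rw [hc x hx y hy]⟩



/-- the affine cocycle -/
def aff (ρ : Representation R G V) (P : X → X → G) (u : X → X → V) : X → X → Aff ρ :=
  fun x y => ⟨u x y, P x y⟩





/-! ### Products with contractible spaces -/

section contr
variable {B : Type*} [TopologicalSpace B]



end contr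

/-! ### The module `H1` -/

section H1
variable (ρ)

/-- submodule of cocycles -/
def cocSub (P : X → X → G) : Submodule R (X → X → V) where
  carrier := {u | IsCoc ρ P u}
  add_mem' hu hv := hu.add hv
  zero_mem' := isCoc_zero P
  smul_mem' r _ hu := hu.smul r

/-- submodule of coboundaries -/
def cobSub (P : X → X → G) : Submodule R (X → X → V) where
  carrier := {u | IsCob ρ P u}
  add_mem' hu hv := hu.add hv
  zero_mem' := isCob_zero P
  smul_mem' r _ hu := hu.smul r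

/-- first cohomology with coefficients in the local system `(P, ρ)` -/
def H1 (P : X → X → G) : Type _ := cocSub ρ P ⧸ (cobSub ρ P).submoduleOf (cocSub ρ P)

instance (P : X → X → G) : AddCommGroup (H1 ρ P) :=
  inferInstanceAs (AddCommGroup (cocSub ρ P ⧸ (cobSub ρ P).submoduleOf (cocSub ρ P)))

instance (P : X → X → G) : Module R (H1 ρ P) :=
  inferInstanceAs (Module R (cocSub ρ P ⧸ (cobSub ρ P).submoduleOf (cocSub ρ P)))

/-- the class of a cocycle -/
def H1.mk (P : X → X → G) : cocSub ρ P →ₗ[R] H1 ρ P :=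
  ((cobSub ρ P).submoduleOf (cocSub ρ P)).mkQ




/-- pull back of cocycles -/
def pullCoc (P : X → X → G) (Q : Y → Y → G) {f : Y → X} (hf : Continuous f)
    (hQ : ∀ a b, Q a b = P (f a) (f b)) : cocSub ρ P →ₗ[R] cocSub ρ Q where
  toFun u := ⟨fun a b => (u : X → X → V) (f a) (f b),
    (IsCoc.comp u.2 hf).congr (NEq.refl _)
      (fun _ => ⟨univ, univ_mem, fun a _ b _ => (hQ a b).symm⟩)⟩
  map_add' _ _ := rfl
  map_smul' _ _ := rfl

/-- pull back on `H1` -/
def pull (P : X → X → G) (Q : Y → Y → G) {f : Y → X} (hf : Continuous f)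
    (hQ : ∀ a b, Q a b = P (f a) (f b)) : H1 ρ P →ₗ[R] H1 ρ Q :=
  Submodule.mapQ ((cobSub ρ P).submoduleOf (cocSub ρ P)) ((cobSub ρ Q).submoduleOf (cocSub ρ Q))
    (pullCoc ρ P Q hf hQ) (fun u hu => by
    have : IsCob ρ P (u : X → X → V) := hu
    exact (this.comp hf).congr (NEq.refl _)
      (fun _ => ⟨univ, univ_mem, fun a _ b _ => (hQ a b).symm⟩))

@[simp] theorem pull_mk (P : X → X → G) (Q : Y → Y → G) {f : Y → X} (hf : Continuous f)
    (hQ : ∀ a b, Q a b = P (f a) (f b)) (u : cocSub ρ P) :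
    pull ρ P Q hf hQ (H1.mk ρ P u) = H1.mk ρ Q (pullCoc ρ P Q hf hQ u) := rfl


variable {B : Type*} [TopologicalSpace B]




end H1

end Crest.Agent.R276.ASH1_175
end

-- ▼ part R276/DR3_175
section

/-!
# Row 276, IPC (helper175): forms and cocycles on open subsets of the plane, part 3

* `cobOn_of_convex` : cocycles on convex open sets are coboundaries.
* `exists_section` (R4) : every cocycle on `ℂ \ A` has a smooth section of its affine bundle, hence is
  represented by a smooth closed form.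
-/

set_option autoImplicit false
set_option linter.unusedSectionVars false

noncomputable section

open Set Filter Topology MeasureTheory Matrix
open Crest.Agent.R276.Ipc735

namespace Crest.Agent.R276.DR_175

variable {N : ℕ}

/-- the standard representation -/
def stdR (N : ℕ) : Representation ℂ (GL (Fin N) ℤ) (Fin N → ℂ) where
  toFun g := Matrix.mulVecLin (cm g)
  map_one' := by
    apply LinearMap.ext
    intro v
    show cm 1 *ᵥ v = v
    rw [cm_one, Matrix.one_mulVec]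
  map_mul' g h := by
    apply LinearMap.ext
    intro v
    show cm (g * h) *ᵥ v = cm g *ᵥ (cm h *ᵥ v)
    rw [cm_mul, Matrix.mulVec_mulVec]


section convex

variable {O : Set ℂ} {P : ℂ → ℂ → GL (Fin N) ℤ} {u : ℂ → ℂ → Fin N → ℂ}

/-- cocycles are coboundaries on convex open sets -/
theorem cobOn_of_convex {W : Set ℂ} (hW : IsOpen W) (hc : Convex ℝ W) (hP : NDCOn W P)
    (hu : CocOn W P u) : CobOn W P u := by
  let c : ℂ → ℂ → ASH1_175.Aff (stdR N) := ASH1_175.aff (stdR N) P u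
  have h1 : Top1_816.NDCOn c W := by
    intro z hz
    obtain ⟨U, hU, h⟩ := hP z hz
    obtain ⟨U', hU', h'⟩ := hu z hz
    refine ⟨U ∩ U', mem_nhdsWithin_of_mem_nhds (Filter.inter_mem hU hU'),
      fun x hx y hy t ht => ?_⟩
    apply ASH1_175.Aff.ext
    · exact h' x hx.2 y hy.2 t ht.2
    · exact h x hx.1 y hy.1 t ht.1
  obtain ⟨T, hT⟩ := Top1_816.NDCOn.exists_trivByOn_convex hc h1
  refine ⟨fun x => (T x).v, fun z hz => ?_⟩
  obtain ⟨U, hU, h⟩ := hT z hz
  rw [hW.nhdsWithin_eq hz] at hU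
  refine ⟨U, hU, fun x hx y hy => ?_⟩
  have h2 : c x y * T y = T x := by rw [h x hx y hy]; group
  have h3 : u x y + act (P x y) (T y).v = (T x).v := congrArg ASH1_175.Aff.v h2
  show u x y = (T x).v - act (P x y) (T y).v
  rw [← h3]; abel

/-- a flat section of the affine bundle is locally constant, seen from any centre -/
lemma flat_near {W : Set ℂ} {g : ℂ → Fin N → ℂ}
    (hg : ∀ z ∈ W, ∃ U ∈ 𝓝 z, ∀ x ∈ U, ∀ y ∈ U, u x y = g x - act (P x y) (g y)) {z : ℂ}
    {B : Set ℂ} (hB : ∀ x ∈ B, ∀ y ∈ B, ∀ t ∈ B, P x y * P y t = P x t)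
    (hB' : ∀ x ∈ B, ∀ y ∈ B, ∀ t ∈ B, u x y + act (P x y) (u y t) = u x t) (hBo : IsOpen B)
    (hz : z ∈ B) {y : ℂ} (hyB : y ∈ B) (hyW : y ∈ W) :
    aff P u g z =ᶠ[𝓝 y] fun _ => aff P u g z y := by
  obtain ⟨U, hU, h⟩ := hg y hyW
  filter_upwards [hU, hBo.mem_nhds hyB] with t ht htB
  have e1 := h y (mem_of_mem_nhds hU) t ht
  unfold aff
  rw [← hB z hz y hyB t htB, act_mul_apply, ← hB' z hz y hyB t htB, e1, map_sub]
  abel

end convex

/-! ### the finite convex cover of `ℂ \ A` -/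

/-- the four open half planes determined by `a` -/
def hpl (a : ℂ) (i : Fin 4) : Set ℂ :=
  match i with
  | 0 => {x | a.re < x.re}
  | 1 => {x | x.re < a.re}
  | 2 => {x | a.im < x.im}
  | 3 => {x | x.im < a.im}

lemma hpl_open (a : ℂ) (i : Fin 4) : IsOpen (hpl a i) := by
  fin_cases i
  · exact isOpen_lt continuous_const Complex.continuous_re
  · exact isOpen_lt Complex.continuous_re continuous_const
  · exact isOpen_lt continuous_const Complex.continuous_im
  · exact isOpen_lt Complex.continuous_im continuous_const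

lemma hpl_convex (a : ℂ) (i : Fin 4) : Convex ℝ (hpl a i) := by
  have hre : IsLinearMap ℝ Complex.re := ⟨fun _ _ => rfl, fun r x => by simp⟩
  have him : IsLinearMap ℝ Complex.im := ⟨fun _ _ => rfl, fun r x => by simp⟩
  fin_cases i
  · exact convex_halfSpace_gt hre _
  · exact convex_halfSpace_lt hre _
  · exact convex_halfSpace_gt him _
  · exact convex_halfSpace_lt him _

lemma hpl_not_mem (a : ℂ) (i : Fin 4) : a ∉ hpl a i := by
  fin_cases i <;> simp [hpl]

lemma exists_hpl {a x : ℂ} (h : x ≠ a) : ∃ i, x ∈ hpl a i := by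
  by_contra hcon
  push Not at hcon
  have h0 := hcon 0
  have h1 := hcon 1
  have h2 := hcon 2
  have h3 := hcon 3
  simp only [hpl, mem_ofPred_eq, not_lt] at h0 h1 h2 h3
  exact h (Complex.ext (le_antisymm h0 h1) (le_antisymm h2 h3))

/-- the pieces of the convex cover -/
def cvx (A : Finset ℂ) (i : A → Fin 4) : Set ℂ := ⋂ a : A, hpl a (i a)

lemma cvx_open (A : Finset ℂ) (i : A → Fin 4) : IsOpen (cvx A i) :=
  isOpen_iInter_of_finite fun _ => hpl_open _ _

lemma cvx_convex (A : Finset ℂ) (i : A → Fin 4) : Convex ℝ (cvx A i) :=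
  convex_iInter fun _ => hpl_convex _ _

lemma cvx_sub (A : Finset ℂ) (i : A → Fin 4) : cvx A i ⊆ (A : Set ℂ)ᶜ := by
  intro x hx hxA
  have hxA' : x ∈ A := by simpa using hxA
  have := mem_iInter.mp hx ⟨x, hxA'⟩
  exact hpl_not_mem _ _ this

lemma cvx_cover (A : Finset ℂ) : ⋃ i, cvx A i = (A : Set ℂ)ᶜ := by
  apply Subset.antisymm (iUnion_subset (cvx_sub A))
  intro x hx
  have h1 : ∀ a : A, ∃ i, x ∈ hpl (a : ℂ) i := fun a => exists_hpl (fun h => hx (by
    rw [h]; exact a.2))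
  choose i hi using h1
  exact mem_iUnion.mpr ⟨i, mem_iInter.mpr hi⟩

section R4

variable {A : Finset ℂ} {P : ℂ → ℂ → GL (Fin N) ℤ} {u : ℂ → ℂ → Fin N → ℂ}

/-- **(R4)** every affine bundle over `ℂ \ A` has a smooth section -/
theorem exists_section (hP : NDCOn ((A : Set ℂ)ᶜ) P) (hu : CocOn ((A : Set ℂ)ᶜ) P u) :
    ∃ f : ℂ → Fin N → ℂ, ∀ z ∈ ((A : Set ℂ)ᶜ), ContDiffAt ℝ (⊤ : ℕ∞) (aff P u f z) z := by
  classical
  have hO : IsOpen ((A : Set ℂ)ᶜ) := A.finite_toSet.isClosed.isOpen_compl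
  have h1 : ∀ i : A → Fin 4, CobOn (cvx A i) P u := fun i =>
    cobOn_of_convex (cvx_open A i) (cvx_convex A i) (NDCOn.mono hP (cvx_sub A i))
      (CocOn.mono hu (cvx_sub A i))
  choose g hg using h1
  obtain ⟨ρ, hρ1, hρ2, -, hρ4⟩ := Top2_937.exists_partition (cvx_open A)
  rw [cvx_cover] at hρ1 hρ4
  refine ⟨fun x => ∑ i, (ρ i x : ℂ) • g i x, fun z hz => ?_⟩
  -- a small ball around `z`
  obtain ⟨U, hU, hUP⟩ := hP z hz
  obtain ⟨U', hU', hUu⟩ := hu z hz
  obtain ⟨ε, hε, hball⟩ := Metric.mem_nhds_iff.mp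
    (Filter.inter_mem (Filter.inter_mem hU hU') (hO.mem_nhds hz))
  set B := Metric.ball z ε with hBdef
  have hzB : z ∈ B := Metric.mem_ball_self hε
  have hBo : IsOpen B := Metric.isOpen_ball
  have hBP : ∀ x ∈ B, ∀ y ∈ B, ∀ t ∈ B, P x y * P y t = P x t := fun x hx y hy t ht =>
    hUP x (hball hx).1.1 y (hball hy).1.1 t (hball ht).1.1
  have hBu : ∀ x ∈ B, ∀ y ∈ B, ∀ t ∈ B, u x y + act (P x y) (u y t) = u x t :=
    fun x hx y hy t ht => hUu x (hball hx).1.2 y (hball hy).1.2 t (hball ht).1.2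
  have hBO : B ⊆ (A : Set ℂ)ᶜ := fun x hx => (hball hx).2
  -- the value on each piece
  have h2 : ∀ i, ∃ c : Fin N → ℂ, ∀ y ∈ B ∩ cvx A i, aff P u (g i) z y = c := by
    intro i
    rcases (B ∩ cvx A i).eq_empty_or_nonempty with h0 | ⟨y0, hy0⟩
    · exact ⟨0, fun y hy => by rw [h0] at hy; exact hy.elim⟩
    · refine ⟨aff P u (g i) z y0, fun y hy => ?_⟩
      refine (hBo.inter (cvx_open A i)).is_const_of_fderiv_eq_zero (𝕜 := ℝ)
        (f := fun y => aff P u (g i) z y)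
        ((convex_ball z ε).inter (cvx_convex A i)).isPreconnected ?_ ?_ hy hy0
      · intro t ht
        have h3 := flat_near (hg i) hBP hBu hBo hzB ht.1 ht.2
        exact ((differentiableAt_const _).congr_of_eventuallyEq h3).differentiableWithinAt
      · intro t ht
        have h3 := flat_near (hg i) hBP hBu hBo hzB ht.1 ht.2
        show fderiv ℝ (aff P u (g i) z) t = 0
        rw [h3.fderiv_eq]
        simp
  choose c hc using h2
  have h3 : aff P u (fun x => ∑ i, (ρ i x : ℂ) • g i x) z =ᶠ[𝓝 z]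
      fun y => ∑ i, (ρ i y : ℂ) • c i := by
    filter_upwards [hBo.mem_nhds hzB] with y hy
    unfold aff
    have h4 : u z y = ∑ i, (ρ i y : ℂ) • u z y := by
      rw [← Finset.sum_smul]
      have : (∑ i, (ρ i y : ℂ)) = 1 := by
        rw [← Complex.ofReal_sum, hρ4 y (hBO hy), Complex.ofReal_one]
      rw [this, one_smul]
    rw [h4, map_sum, ← Finset.sum_add_distrib]
    refine Finset.sum_congr rfl fun i _ => ?_
    rw [map_smul, ← smul_add]
    by_cases h5 : ρ i y = 0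
    · rw [h5]; simp
    · have h6 := hc i y ⟨hy, hρ2 i y h5⟩
      unfold aff at h6
      rw [h6]
  refine ContDiffAt.congr_of_eventuallyEq ?_ h3
  refine ContDiffAt.sum fun i _ => ?_
  have h7 : ContDiffAt ℝ (⊤ : ℕ∞) (ρ i) z := (hρ1 i).contDiffAt (hO.mem_nhds hz)
  have h8 : ContDiffAt ℝ (⊤ : ℕ∞) (fun y => (ρ i y : ℂ)) z :=
    Complex.ofRealCLM.contDiff.contDiffAt.comp z h7
  exact h8.smul contDiffAt_const

/-- **(R4)** every cocycle is represented by a smooth closed form -/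
theorem exists_form (hP : NDCOn ((A : Set ℂ)ᶜ) P) (hu : CocOn ((A : Set ℂ)ᶜ) P u) :
    ∃ a b, Rep ((A : Set ℂ)ᶜ) P u a b := by
  obtain ⟨f, hf⟩ := exists_section hP hu
  exact ⟨_, _, f, fun z hz => ⟨hf z hz, rfl, rfl⟩⟩

end R4

end Crest.Agent.R276.DR_175
end
private theorem rz_f77f7d57c1 : type_of% @_root_.Crest.Agent.R276.DR_175.hpl.eq_1 := @_root_.Crest.Agent.R276.DR_175.hpl.eq_1 -- L89
end

-- ▼ part R276/DR4_175

/-!
# Row 276, IPC (helper175): forms and cocycles on open subsets of the plane, part 4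

* `exists_cut` (R5) : a form which is exact near the punctures and near infinity differs from an exact
  form by a form with compact support in `ℂ \ A`.
-/

set_option autoImplicit false
set_option linter.unusedSectionVars false

noncomputable section

open Set Filter Topology MeasureTheory Matrix
open Crest.Agent.R276.Ipc735 Crest.Agent.R276.Psi_563

namespace Crest.Agent.R276.DR_175

variable {N : ℕ} {P : ℂ → ℂ → GL (Fin N) ℤ}

lemma lV_congr {f g : ℂ → Fin N → ℂ} {z : ℂ} (h : f =ᶠ[𝓝 z] g) : lV P f z =ᶠ[𝓝 z] lV P g z := by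
  filter_upwards [h] with y hy
  rw [lV_eq, lV_eq, hy]

lemma e1_congr {f g : ℂ → Fin N → ℂ} {z : ℂ} (h : f =ᶠ[𝓝 z] g) : e1 P f z = e1 P g z :=
  wz_congr (lV_congr h)

lemma e2_congr {f g : ℂ → Fin N → ℂ} {z : ℂ} (h : f =ᶠ[𝓝 z] g) : e2 P f z = e2 P g z :=
  wb_congr (lV_congr h)

lemma sm_congr {f g : ℂ → Fin N → ℂ} {z : ℂ} (h : f =ᶠ[𝓝 z] g)
    (hg : ContDiffAt ℝ (⊤ : ℕ∞) (lV P g z) z) : ContDiffAt ℝ (⊤ : ℕ∞) (lV P f z) z :=
  hg.congr_of_eventuallyEq (lV_congr h)

lemma sm_zero {z : ℂ} : ContDiffAt ℝ (⊤ : ℕ∞) (lV P (fun _ => 0) z) z := by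
  have : lV P (fun _ => 0) z = fun _ => 0 := by
    funext y; rw [lV_eq, map_zero]
  rw [this]; exact contDiffAt_const

lemma sm_smul {f : ℂ → Fin N → ℂ} {χ : ℂ → ℝ} {z : ℂ} (hχ : ContDiffAt ℝ (⊤ : ℕ∞) χ z)
    (hf : ContDiffAt ℝ (⊤ : ℕ∞) (lV P f z) z) :
    ContDiffAt ℝ (⊤ : ℕ∞) (lV P (fun y => (χ y : ℂ) • f y) z) z := by
  have h1 : lV P (fun y => (χ y : ℂ) • f y) z = fun y => (χ y : ℂ) • lV P f z y := by
    funext y; rw [lV_eq, lV_eq, map_smul]
  rw [h1]
  exact (Complex.ofRealCLM.contDiff.contDiffAt.comp z hχ).smul hf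

lemma sm_sum {ι : Type*} {s : Finset ι} {f : ι → ℂ → Fin N → ℂ} {z : ℂ}
    (hf : ∀ i ∈ s, ContDiffAt ℝ (⊤ : ℕ∞) (lV P (f i) z) z) :
    ContDiffAt ℝ (⊤ : ℕ∞) (lV P (fun y => ∑ i ∈ s, f i y) z) z := by
  have h1 : lV P (fun y => ∑ i ∈ s, f i y) z = fun y => ∑ i ∈ s, lV P (f i) z y := by
    funext y; rw [lV_eq, map_sum]; rfl
  rw [h1]
  exact ContDiffAt.sum hf

lemma sm_add {f g : ℂ → Fin N → ℂ} {z : ℂ} (hf : ContDiffAt ℝ (⊤ : ℕ∞) (lV P f z) z)
    (hg : ContDiffAt ℝ (⊤ : ℕ∞) (lV P g z) z) :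
    ContDiffAt ℝ (⊤ : ℕ∞) (lV P (fun y => f y + g y) z) z := by
  have h1 : lV P (fun y => f y + g y) z = fun y => lV P f z y + lV P g z y := by
    funext y; rw [lV_eq, map_add]; rfl
  rw [h1]
  exact hf.add hg

/-- cut-off of a local section -/
lemma sm_cut {f : ℂ → Fin N → ℂ} {χ : ℂ → ℝ} {z : ℂ} (hχ : ContDiffAt ℝ (⊤ : ℕ∞) χ z)
    (hf : z ∈ tsupport χ → ContDiffAt ℝ (⊤ : ℕ∞) (lV P f z) z) :
    ContDiffAt ℝ (⊤ : ℕ∞) (lV P (fun y => (χ y : ℂ) • f y) z) z := by
  by_cases h : z ∈ tsupport χ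
  · exact sm_smul hχ (hf h)
  · refine sm_congr (g := fun _ => 0) ?_ sm_zero
    have h1 := notMem_tsupport_iff_eventuallyEq.mp h
    filter_upwards [h1] with y hy
    rw [hy]; simp

/-- exactness on an open set minus the punctures -/
def ExactNear (A : Finset ℂ) (P : ℂ → ℂ → GL (Fin N) ℤ) (U : Set ℂ) (a b : ℂ → Fin N → ℂ) : Prop :=
  ∃ φ : ℂ → Fin N → ℂ, ∀ z ∈ U, z ∉ A → ContDiffAt ℝ (⊤ : ℕ∞) (lV P φ z) z ∧
    e1 P φ z = a z ∧ e2 P φ z = b z

lemma exactNear_iff {A : Finset ℂ} {w : ℕ} (V : PVHS A N w) (U : Set ℂ) (a b : ℂ → Fin N → ℂ) :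
    V.ExactOn U a b ↔ ExactNear A V.P U a b := Iff.rfl

lemma exactNear_iff_rep {A : Finset ℂ} {U : Set ℂ} {a b : ℂ → Fin N → ℂ} :
    ExactNear A P U a b ↔ Rep (U ∩ (A : Set ℂ)ᶜ) P (fun _ _ => 0) a b := by
  rw [rep_zero_iff]
  unfold ExactNear
  refine exists_congr fun φ => ⟨fun h z hz => h z hz.1 (by simpa using hz.2),
    fun h z hz hzA => h z ⟨hz, by simpa using hzA⟩⟩

/-- **(R5)** -/
theorem exists_cut {A : Finset ℂ} {a b : ℂ → Fin N → ℂ}
    (h1 : ∀ p ∈ A, ∃ U ∈ 𝓝 p, ExactNear A P U a b)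
    (h2 : ∃ R : ℝ, ExactNear A P {z | R < ‖z‖} a b) :
    ∃ g : ℂ → Fin N → ℂ, SmOn ((A : Set ℂ)ᶜ) P g ∧ ∃ K : Set ℂ, IsCompact K ∧ K ⊆ (A : Set ℂ)ᶜ ∧
      ∀ z ∉ K, z ∉ A → a z = e1 P g z ∧ b z = e2 P g z := by
  classical
  set n := A.card with hn
  let e := A.equivFin
  let pt : Fin n → ℂ := fun i => (e.symm i : ℂ)
  have hpt : Function.Injective pt := fun i j h => e.symm.injective (Subtype.ext h)
  have hptA : ∀ i, pt i ∈ A := fun i => (e.symm i).2
  have hptS : ∀ p ∈ A, ∃ i, pt i = p := fun p hp => ⟨e ⟨p, hp⟩, by simp [pt]⟩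
  have h1' : ∀ i, ∃ U ∈ 𝓝 (pt i), ExactNear A P U a b := fun i => h1 _ (hptA i)
  choose U hU hex using h1'
  choose φ hφ using hex
  obtain ⟨R, φi, hφi⟩ := h2
  -- a common radius
  have hr : ∃ r : ℝ, 0 < r ∧ ∀ i, Metric.ball (pt i) r ⊆ U i := by
    have : ∀ i, ∃ r : ℝ, 0 < r ∧ Metric.ball (pt i) r ⊆ U i := fun i =>
      Metric.mem_nhds_iff.mp (hU i)
    choose r hr0 hr using this
    by_cases hne : Nonempty (Fin n)
    · obtain ⟨i0, hi0⟩ := Finite.exists_min r
      exact ⟨r i0, hr0 i0, fun i => (Metric.ball_subset_ball (hi0 i)).trans (hr i)⟩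
    · exact ⟨1, one_pos, fun i => (hne ⟨i⟩).elim⟩
  obtain ⟨r, hr0, hrU⟩ := hr
  obtain ⟨B, hBa, hBs⟩ := exists_bumps pt hpt hr0
  -- a large radius
  have hR : ∃ R1 : ℝ, 0 < R1 ∧ R < R1 ∧ ∀ i, ‖pt i‖ + r ≤ R1 := by
    have hlt : R < max 1 (R + 1) := lt_of_lt_of_le (by linarith) (le_max_right _ _)
    by_cases hne : Nonempty (Fin n)
    · obtain ⟨i0, hi0⟩ := Finite.exists_max (fun i => ‖pt i‖)
      refine ⟨max (max 1 (R + 1)) (‖pt i0‖ + r), ?_, ?_, fun i => ?_⟩
      · exact lt_of_lt_of_le one_pos ((le_max_left _ _).trans (le_max_left _ _))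
      · exact lt_of_lt_of_le hlt (le_max_left _ _)
      · exact le_trans (by have := hi0 i; linarith) (le_max_right _ _)
    · exact ⟨max 1 (R + 1), lt_of_lt_of_le one_pos (le_max_left _ _), hlt,
        fun i => (hne ⟨i⟩).elim⟩
  obtain ⟨R1, hR10, hRR1, hR1⟩ := hR
  let β : ContDiffBump (0 : ℂ) := ⟨R1, R1 + 1, hR10, by linarith⟩
  have hβ1 : ∀ x, ‖x‖ ≤ R1 → β x = 1 := fun x hx =>
    β.one_of_mem_closedBall (by simpa [mem_closedBall_zero_iff] using hx)
  have hβ0 : ∀ x, R1 + 1 ≤ ‖x‖ → β x = 0 := fun x hx =>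
    β.zero_of_le_dist (by simpa [dist_zero_right] using hx)
  have hsup : ∀ i x, x ∈ tsupport (B.χ i) → x ∈ Metric.ball (pt i) r := fun i x hx => hBs i hx
  have hsupn : ∀ i x, x ∈ Metric.ball (pt i) r → ‖x‖ < R1 := by
    intro i x hx
    have hd : ‖x - pt i‖ < r := by rwa [Metric.mem_ball, dist_eq_norm] at hx
    calc ‖x‖ = ‖(x - pt i) + pt i‖ := by rw [sub_add_cancel]
      _ ≤ ‖x - pt i‖ + ‖pt i‖ := norm_add_le _ _
      _ < r + ‖pt i‖ := by linarith
      _ ≤ R1 := by have := hR1 i; linarith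
  have hχ0 : ∀ i x, x ∉ Metric.ball (pt i) r → B.χ i x = 0 := by
    intro i x hx
    by_contra hne
    exact hx (hsup i x (subset_tsupport _ hne))
  let g : ℂ → Fin N → ℂ := fun y => (∑ i, (B.χ i y : ℂ) • φ i y) + ((1 - β y : ℝ) : ℂ) • φi y
  have hχsm : ∀ i z, ContDiffAt ℝ (⊤ : ℕ∞) (B.χ i) z := fun i z => (B.smooth i).contDiffAt
  have hβsm : ∀ z, ContDiffAt ℝ (⊤ : ℕ∞) (fun y => 1 - β y) z := fun z =>
    contDiffAt_const.sub (β.contDiff (n := (⊤ : ℕ∞))).contDiffAt
  refine ⟨g, ?_, Metric.closedBall 0 (R1 + 1) \ ⋃ i, Metric.ball (pt i) B.ρ, ?_, ?_, ?_⟩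
  · intro z hz
    have hzA : z ∉ A := by simpa using hz
    refine sm_add (sm_sum fun i _ => sm_cut (hχsm i z) fun hzi => ?_) (sm_cut (hβsm z) fun hzi => ?_)
    · exact (hφ i z (hrU i (hsup i z hzi)) hzA).1
    · refine (hφi z ?_ hzA).1
      -- `z` is in the closed support of `1 - β`, so `‖z‖ ≥ R1`
      by_contra hlt
      have hlt' : ‖z‖ ≤ R := not_lt.mp hlt
      apply (notMem_tsupport_iff_eventuallyEq.mpr ?_) hzi
      have h4 : ∀ᶠ y in 𝓝 z, ‖y‖ < R1 := continuous_norm.continuousAt.eventually_lt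
        continuousAt_const (lt_of_le_of_lt hlt' hRR1)
      filter_upwards [h4] with y hy
      rw [hβ1 y hy.le]; simp
  · exact (isCompact_closedBall _ _).diff (isOpen_iUnion fun i => Metric.isOpen_ball)
  · rintro z ⟨-, hz⟩ hzA
    obtain ⟨i, hi⟩ := hptS z (by simpa using hzA)
    exact hz (mem_iUnion.mpr ⟨i, by rw [← hi]; exact Metric.mem_ball_self B.ρ_pos⟩)
  · intro z hzK hzA
    have hcase : (R1 + 1 < ‖z‖) ∨ ∃ i, z ∈ Metric.ball (pt i) B.ρ := by
      by_contra hcon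
      push Not at hcon
      exact hzK ⟨by simpa using hcon.1, fun hm => by
        obtain ⟨i, hi⟩ := mem_iUnion.mp hm
        exact hcon.2 i hi⟩
    rcases hcase with hz | ⟨i, hz⟩
    · have hg : g =ᶠ[𝓝 z] φi := by
        have h4 : ∀ᶠ y in 𝓝 z, R1 + 1 < ‖y‖ := continuousAt_const.eventually_lt
          continuous_norm.continuousAt hz
        filter_upwards [h4] with y hy
        have h5 : ∀ i, B.χ i y = 0 := fun i => hχ0 i y fun hm => by
          have := hsupn i y hm; linarith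
        simp [g, h5, hβ0 y hy.le]
      have hz2 : z ∈ {z : ℂ | R < ‖z‖} := by
        show R < ‖z‖
        linarith
      obtain ⟨-, h6, h7⟩ := hφi z hz2 hzA
      exact ⟨by rw [e1_congr hg, h6], by rw [e2_congr hg, h7]⟩
    · have hin : ∀ y ∈ Metric.ball (pt i) B.ρ, y ∈ tsupport (B.χ i) := by
        intro y hy
        have : B.χ i y = 1 := B.one i y (by rw [hBa]; exact hy)
        exact subset_tsupport _ (by rw [Function.mem_support, this]; exact one_ne_zero)
      have hg : g =ᶠ[𝓝 z] φ i := by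
        filter_upwards [Metric.isOpen_ball.mem_nhds hz] with y hy
        have h5 : ∀ j, j ≠ i → B.χ j y = 0 := by
          intro j hj
          by_contra hne
          exact (Set.disjoint_left.mp (B.disj i j (Ne.symm hj)) (hin y hy)) (subset_tsupport _ hne)
        have h6 : B.χ i y = 1 := B.one i y (by rw [hBa]; exact hy)
        have h7 : β y = 1 := hβ1 y (hsupn i y (hsup i y (hin y hy))).le
        have h8 : (∑ j, (B.χ j y : ℂ) • φ j y) = φ i y := by
          rw [Finset.sum_eq_single i]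
          · rw [h6]; simp
          · intro j _ hj
            rw [h5 j hj]; simp
          · intro h; exact absurd (Finset.mem_univ i) h
        simp only [g]
        rw [h8, h7]; simp
      obtain ⟨-, h6, h7⟩ := hφ i z (hrU i (hsup i z (hin z hz))) hzA
      exact ⟨by rw [e1_congr hg, h6], by rw [e2_congr hg, h7]⟩

end Crest.Agent.R276.DR_175
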