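import Mathlib
import Crest.Agent.R276.IpcDefs_735
import Crest.Agent.R276.Desc_327
import Crest.Agent.R276.DescC_327

-- ▼ part R276/DescD_327
section

/-!
# R276, leaf DESC (helper327), part 4: the single valued function `E` on the fibre product

`V : VHS m X N w`, `f : X → T` with connected fibres along which `V` is isotrivial (`V.E` flat), `ω` a nowhere
zero section with `P x y ω y ∈ ℂ ω x` for `x`, `y` close to each other in the same fibre. `k` is a uniform exponent.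
`EE x z = c ^ k` where `g ω z = c • ω x` for the transport `g` along some chain from `z` to `x` in the fibre.
-/

set_option autoImplicit false
set_option linter.unusedSectionVars false

open Set Filter Topology Matrix
open Crest.Agent.R271.Ho51 Crest.Agent.R276.Ipc735 Crest.Agent.R276.Desc_327
open Crest.Agent.R276.DescB_327 Crest.Agent.R276.DescC_327

namespace Crest.Agent.R276.DescD_327

/-! ### integral matrices -/

theorem cm_mul {N : ℕ} (g h : GL (Fin N) ℤ) : cm (g * h) = cm g * cm h := by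
  unfold cm
  have : ((g * h : GL (Fin N) ℤ) : Matrix (Fin N) (Fin N) ℤ) =
      (g : Matrix (Fin N) (Fin N) ℤ) * (h : Matrix (Fin N) (Fin N) ℤ) := rfl
  rw [this]
  exact Matrix.map_mul (f := Int.castRingHom ℂ)

theorem cm_one {N : ℕ} : cm (1 : GL (Fin N) ℤ) = 1 := by
  unfold cm
  have : ((1 : GL (Fin N) ℤ) : Matrix (Fin N) (Fin N) ℤ) = 1 := rfl
  rw [this]
  exact Matrix.map_one (fun a : ℤ => (a : ℂ)) (by simp) (by simp)


theorem cm_inv_mul {N : ℕ} (g : GL (Fin N) ℤ) : cm g⁻¹ * cm g = 1 := by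
  rw [← cm_mul, inv_mul_cancel, cm_one]

theorem cm_mulVec_ne {N : ℕ} (g : GL (Fin N) ℤ) {v : Fin N → ℂ} (hv : v ≠ 0) : cm g *ᵥ v ≠ 0 := by
  intro h
  apply hv
  have := congrArg (fun u => cm g⁻¹ *ᵥ u) h
  simpa [mulVec_mulVec, cm_inv_mul] using this

/-! ### the relation along chains -/

/-- `g` transports the structure at `y` to the structure at `x` -/
structure Tr {X : Type*} {N : ℕ} (H : X → Matrix (Fin N) (Fin N) ℂ) (ω : X → Fin N → ℂ)
    (x y : X) (g : GL (Fin N) ℤ) : Prop where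
  isom : (cm g)ᴴ * H x * cm g = H y
  line : ∃ c : ℂ, cm g *ᵥ ω y = c • ω x

namespace Tr

variable {X : Type*} {N : ℕ} {H : X → Matrix (Fin N) (Fin N) ℂ} {ω : X → Fin N → ℂ}

theorem refl (x : X) : Tr H ω x x 1 :=
  ⟨by rw [cm_one]; simp, ⟨1, by rw [cm_one]; simp⟩⟩

theorem trans {x y z : X} {g g' : GL (Fin N) ℤ} (h : Tr H ω x y g) (h' : Tr H ω y z g') :
    Tr H ω x z (g * g') := by
  obtain ⟨h1, c, h2⟩ := h
  obtain ⟨h1', c', h2'⟩ := h'
  refine ⟨?_, c' * c, ?_⟩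
  · rw [cm_mul, conjTranspose_mul, ← h1', ← h1]
    simp only [Matrix.mul_assoc]
  · rw [cm_mul, ← mulVec_mulVec, h2', mulVec_smul, h2, smul_smul]

end Tr

/-- the data -/
structure Dat {X T : Type*} [TopologicalSpace X] [TopologicalSpace T] {N : ℕ}
    (P : X → X → GL (Fin N) ℤ) (H : X → Matrix (Fin N) (Fin N) ℂ) (ω : X → Fin N → ℂ)
    (f : X → T) : Prop where
  ndc : NDC P
  pos : ∀ x, Pos (H x)
  ne : ∀ x, ω x ≠ 0
  fib : ∀ z, ∃ U ∈ 𝓝 z, ∀ x ∈ U, ∀ y ∈ U, f x = f y → Tr H ω x y (P x y)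
  conn : ∀ x, IsPreconnected (f ⁻¹' {f x})

namespace Dat

variable {X T : Type*} [TopologicalSpace X] [TopologicalSpace T] {N : ℕ}
    {P : X → X → GL (Fin N) ℤ} {H : X → Matrix (Fin N) (Fin N) ℂ} {ω : X → Fin N → ℂ}
    {f : X → T}

/-- the good open sets -/
def 𝒱 (P : X → X → GL (Fin N) ℤ) (H : X → Matrix (Fin N) (Fin N) ℂ) (ω : X → Fin N → ℂ)
    (f : X → T) : Set (Set X) :=
  {V | IsOpen V ∧ (∀ a ∈ V, ∀ b ∈ V, ∀ c ∈ V, P a b * P b c = P a c) ∧
    ∀ x ∈ V, ∀ y ∈ V, f x = f y → Tr H ω x y (P x y)}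

variable (D : Dat P H ω f)

include D

theorem sys : Sys P (𝒱 P H ω f) := by
  refine ⟨fun V hV => hV.1, fun x => ?_, fun V hV => hV.2.1⟩
  obtain ⟨U, hU, hU'⟩ := D.ndc x
  obtain ⟨U2, hU2, hU2'⟩ := D.fib x
  obtain ⟨W, hWU, hW, hx⟩ := mem_nhds_iff.1 (inter_mem hU hU2)
  refine ⟨W, ⟨hW, fun a ha b hb c hc => ?_, fun a ha b hb h => hU2' a (hWU ha).2 b (hWU hb).2 h⟩, hx⟩
  exact hU' a (hWU ha).1 b (hWU hb).1 c (hWU hc).1

theorem tr {x z : X} {g : GL (Fin N) ℤ} (h : Ch P f (𝒱 P H ω f) x z g) : Tr H ω x z g :=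
  h.induct Tr.refl (fun _ _ _ _ _ h h' => h.trans h') (fun V hV x hx y hy hf => hV.2.2 x hx y hy hf)

theorem exists_chain {x z : X} (hxz : f x = f z) : ∃ g, Ch P f (𝒱 P H ω f) x z g :=
  Ch.exists_chain D.sys (D.conn x) hxz

/-- two transports differ by a root of unity -/
theorem pow_eq {k : ℕ} (hk : ∀ (A : Matrix (Fin N) (Fin N) ℤ)
    (h : Matrix (Fin N) (Fin N) ℂ), Pos h →
    (A.map (fun a : ℤ => (a : ℂ)))ᴴ * h * (A.map (fun a : ℤ => (a : ℂ))) = h →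
    ∀ (v : Fin N → ℂ) (μ : ℂ), v ≠ 0 → (A.map (fun a : ℤ => (a : ℂ))) *ᵥ v = μ • v → μ ^ k = 1)
    {x z : X} {g g' : GL (Fin N) ℤ} (h : Ch P f (𝒱 P H ω f) x z g)
    (h' : Ch P f (𝒱 P H ω f) x z g') {c c' : ℂ} (hc : cm g *ᵥ ω z = c • ω x)
    (hc' : cm g' *ᵥ ω z = c' • ω x) : c ^ k = c' ^ k := by
  have h1 : Ch P f (𝒱 P H ω f) x x (g * g'⁻¹) := h.trans (h'.symm D.sys)
  have h2 := (D.tr h1).isom
  have hc0 : c' ≠ 0 := by
    rintro rfl
    rw [zero_smul] at hc'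
    exact cm_mulVec_ne g' (D.ne z) hc'
  have h3 : cm g'⁻¹ *ᵥ ω x = c'⁻¹ • ω z := by
    have := congrArg (fun u => cm g'⁻¹ *ᵥ u) hc'
    simp only [mulVec_mulVec, cm_inv_mul, one_mulVec, mulVec_smul] at this
    rw [this, smul_smul, inv_mul_cancel₀ hc0, one_smul]
  have h4 : cm (g * g'⁻¹) *ᵥ ω x = (c'⁻¹ * c) • ω x := by
    rw [cm_mul, ← mulVec_mulVec, h3, mulVec_smul, hc, smul_smul]
  have h5 := hk _ (H x) (D.pos x) h2 (ω x) (c'⁻¹ * c) (D.ne x) h4
  rw [mul_pow, inv_pow] at h5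
  field_simp at h5
  rw [h5]

open Classical in
/-- the function `E` on the fibre product -/
noncomputable def EE (_ : Dat P H ω f) (k : ℕ) (x z : X) : ℂ :=
  if h : ∃ c : ℂ, ∃ g, Ch P f (𝒱 P H ω f) x z g ∧ cm g *ᵥ ω z = c • ω x then h.choose ^ k else 1

/-- uniform exponent (property) -/
def UE (N k : ℕ) : Prop := ∀ (A : Matrix (Fin N) (Fin N) ℤ)
    (h : Matrix (Fin N) (Fin N) ℂ), Pos h →
    (A.map (fun a : ℤ => (a : ℂ)))ᴴ * h * (A.map (fun a : ℤ => (a : ℂ))) = h →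
    ∀ (v : Fin N → ℂ) (μ : ℂ), v ≠ 0 → (A.map (fun a : ℤ => (a : ℂ))) *ᵥ v = μ • v → μ ^ k = 1

variable {k : ℕ} (hk : UE N k)

include hk

theorem EE_eq {x z : X} {g : GL (Fin N) ℤ} (h : Ch P f (𝒱 P H ω f) x z g) {c : ℂ}
    (hc : cm g *ᵥ ω z = c • ω x) : D.EE k x z = c ^ k := by
  have hex : ∃ c : ℂ, ∃ g, Ch P f (𝒱 P H ω f) x z g ∧ cm g *ᵥ ω z = c • ω x := ⟨c, g, h, hc⟩
  unfold EE
  rw [dif_pos hex]
  obtain ⟨g', hg', hc'⟩ := hex.choose_spec
  exact D.pow_eq hk hg' h hc' hc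

theorem EE_exists {x z : X} (hxz : f x = f z) : ∃ g, Ch P f (𝒱 P H ω f) x z g ∧ ∃ c : ℂ,
    c ≠ 0 ∧ cm g *ᵥ ω z = c • ω x ∧ D.EE k x z = c ^ k := by
  obtain ⟨g, hg⟩ := D.exists_chain hxz
  obtain ⟨c, hc⟩ := (D.tr hg).line
  refine ⟨g, hg, c, ?_, hc, D.EE_eq hk hg hc⟩
  rintro rfl
  rw [zero_smul] at hc
  exact cm_mulVec_ne g (D.ne z) hc

theorem EE_ne {x z : X} (hxz : f x = f z) : D.EE k x z ≠ 0 := by
  obtain ⟨g, _, c, hc0, _, hE⟩ := D.EE_exists hk hxz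
  rw [hE]
  exact pow_ne_zero _ hc0



/-- norm of `E` -/
theorem EE_norm {x z : X} (hxz : f x = f z) :
    ‖D.EE k x z‖ ^ 2 * qf (H x) (ω x) ^ k = qf (H z) (ω z) ^ k := by
  obtain ⟨g, hg, c, _, hc, hE⟩ := D.EE_exists hk hxz
  have h1 := qf_isom (D.tr hg).isom (ω z)
  rw [hc, qf_smul] at h1
  rw [hE, ← h1, norm_pow, mul_pow, ← pow_mul, ← pow_mul, mul_comm k 2]

/-- **local formula**: near `(x, z)` the transport is along `P x' x * g * P z z'` for one fixed `g` -/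
theorem EE_local (hop : IsOpenMap f) (hfc : Continuous f) {x z : X} (hxz : f x = f z) :
    ∃ g, (∃ c : ℂ, c ≠ 0 ∧ cm g *ᵥ ω z = c • ω x ∧ D.EE k x z = c ^ k) ∧
      ∃ A ∈ 𝓝 x, ∃ B ∈ 𝓝 z, ∀ x' ∈ A, ∀ z' ∈ B, f x' = f z' →
      ∃ c : ℂ, c ≠ 0 ∧ cm g *ᵥ lV P ω z z' = c • lV P ω x x' ∧ D.EE k x' z' = c ^ k := by
  obtain ⟨g, hg, c, hc0, hc, hE⟩ := D.EE_exists hk hxz
  obtain ⟨A, hA, B, hB, hAB⟩ := hg.openness D.sys hop hfc
  obtain ⟨V, hV, hxV⟩ := D.sys.cov x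
  refine ⟨g, ⟨c, hc0, hc, hE⟩, A ∩ V, inter_mem hA ((D.sys.op V hV).mem_nhds hxV), B, hB, ?_⟩
  rintro x' ⟨hx'A, hx'V⟩ z' hz' hxz'
  have h1 := hAB x' hx'A z' hz' hxz'
  obtain ⟨c', hc'⟩ := (D.tr h1).line
  refine ⟨c', ?_, ?_, D.EE_eq hk h1 hc'⟩
  · rintro rfl
    rw [zero_smul] at hc'
    exact cm_mulVec_ne _ (D.ne z') hc'
  · have h2 : P x x' = (P x' x)⁻¹ := D.sys.inv hV hx'V hxV
    have h3 := congrArg (fun u => cm (P x x') *ᵥ u) hc'
    simp only [mulVec_smul, mulVec_mulVec] at h3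
    rw [← cm_mul, h2, ← mul_assoc, ← mul_assoc, inv_mul_cancel, one_mul, ← h2] at h3
    unfold lV
    rw [mulVec_mulVec, ← cm_mul, h3]

end Dat

end Crest.Agent.R276.DescD_327
end

-- ▼ part R276/DescE_327

/-!
# R276, leaf DESC (helper327), part 5: the function `u` and the weight `psiT`

`S : T → Finset X` a finite slice (all points of `{y = c}` over `τ`, `d` of them). `uu z = ∏_{s ∈ S (f z)} EE z s` is
holomorphic, nowhere zero and `‖uu z‖² = exp (k d (psi z - psiT (f z)))`.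
-/

set_option autoImplicit false
set_option linter.unusedSectionVars false

noncomputable section

open Set Filter Topology Matrix
open Crest.Agent.R271.Ho51 Crest.Agent.R276.Ipc735 Crest.Agent.R276.Desc_327
open Crest.Agent.R276.DescB_327 Crest.Agent.R276.DescC_327 Crest.Agent.R276.DescD_327

namespace Crest.Agent.R276.DescE_327

/-! ### algebra of `HolAt` -/

section holat

variable {m : ℕ} {X : Type*} [TopologicalSpace X] [RDom m X] {x : X}

theorem HolAt.mul {f g : X → ℂ} (hf : HolAt f x) (hg : HolAt g x) :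
    HolAt (fun y => f y * g y) x := AnalyticAt.mul hf hg

theorem HolAt.div {f g : X → ℂ} (hf : HolAt f x) (hg : HolAt g x) (h : g x ≠ 0) :
    HolAt (fun y => f y / g y) x := by
  refine AnalyticAt.div (f := f ∘ (ch x).symm) (g := g ∘ (ch x).symm) hf hg ?_
  show g ((ch x).symm (cp x)) ≠ 0
  rwa [symm_cp]

theorem HolAt.pow {f : X → ℂ} (hf : HolAt f x) (n : ℕ) : HolAt (fun y => f y ^ n) x :=
  AnalyticAt.pow hf n

theorem HolAt.prod {ι : Type*} (s : Finset ι) {f : ι → X → ℂ} (h : ∀ i ∈ s, HolAt (f i) x) :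
    HolAt (fun y => ∏ i ∈ s, f i y) x := by
  have h1 : (fun y => ∏ i ∈ s, f i y) ∘ (ch x).symm =
      fun z => ∏ i ∈ s, (f i ∘ (ch x).symm) z := rfl
  unfold HolAt at h ⊢
  rw [h1]
  exact Finset.analyticAt_fun_prod s h

theorem HolAt.const (c : ℂ) : HolAt (fun _ : X => c) x := by
  unfold HolAt
  exact analyticAt_const

theorem HolAt.comp_pi {N : ℕ} {f : X → Fin N → ℂ} (hf : HolAt f x) (i : Fin N) :
    HolAt (fun y => f y i) x := by
  unfold HolAt at hf ⊢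
  exact (analyticAt_pi_iff.1 hf) i

theorem HolAt.mulVec {N : ℕ} {f : X → Fin N → ℂ} (hf : HolAt f x)
    (A : Matrix (Fin N) (Fin N) ℂ) : HolAt (fun y => A *ᵥ f y) x := by
  unfold HolAt at hf ⊢
  rw [analyticAt_pi_iff] at hf ⊢
  intro i
  have h1 : (fun z => ((fun y => A *ᵥ f y) ∘ (ch x).symm) z i) =
      fun z => ∑ j, A i j * (f ∘ (ch x).symm) z j := rfl
  rw [h1]
  exact Finset.analyticAt_fun_sum _ fun j _ => analyticAt_const.mul (hf j)

theorem HolAt.congr {G : Type*} [NormedAddCommGroup G] [NormedSpace ℂ G] {f g : X → G}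
    (hf : HolAt f x) (h : f =ᶠ[𝓝 x] g) : HolAt g x := by
  unfold HolAt at hf ⊢
  refine AnalyticAt.congr hf ?_
  have h2 : cp x ∈ (ch x).target := (isCh_ch x).cp_mem (mem_ch x)
  have h3 : Tendsto (ch x).symm (𝓝 (cp x)) (𝓝 x) := by
    have := (ch x).symm.continuousAt (x := cp x) (by simpa using h2)
    rwa [ContinuousAt, symm_cp] at this
  exact h3.eventually h

theorem SmAt.congr {G : Type*} [NormedAddCommGroup G] [NormedSpace ℝ G] {f g : X → G}
    (hf : SmAt f x) (h : f =ᶠ[𝓝 x] g) : SmAt g x := by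
  unfold SmAt at hf ⊢
  refine ContDiffAt.congr_of_eventuallyEq hf ?_
  have h2 : cp x ∈ (ch x).target := (isCh_ch x).cp_mem (mem_ch x)
  have h3 : Tendsto (ch x).symm (𝓝 (cp x)) (𝓝 x) := by
    have := (ch x).symm.continuousAt (x := cp x) (by simpa using h2)
    rwa [ContinuousAt, symm_cp] at this
  exact (h3.eventually h).mono fun z hz => hz.symm

end holat

/-! ### slices -/

/-- a finite slice: `S τ` is the set of the points over `τ` with the coordinates outside `ι` equal to `c` -/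
structure Slice {m r : ℕ} {X T : Type*} [TopologicalSpace X] [RDom m X]
    (ι : Fin r → Fin m) (f : X → T) (c : Fin m → ℂ) (d : ℕ) (S : T → Finset X) : Prop where
  mem : ∀ τ x, x ∈ S τ ↔ f x = τ ∧ ∀ j, (∀ i, ι i ≠ j) → cp x j = c j
  card : ∀ τ, (S τ).card = d

namespace Slice

variable {m r : ℕ} {X T : Type*} [TopologicalSpace X] [RDom m X] [TopologicalSpace T] [RDom r T]
  {ι : Fin r → Fin m} {f : X → T} {c : Fin m → ℂ} {d : ℕ} {S : T → Finset X}

/-- the sheets of a slice near a point -/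
theorem sheets [T2Space X] (hf : Prj ι f) (hS : Slice ι f c d S) (τ₀ : T) :
    ∀ᶠ τ in 𝓝 τ₀, InjOn (fun s : X => lsec ι s τ) (S τ₀ : Set X) ∧
      S τ = open Classical in (S τ₀).image (fun s => lsec ι s τ) := by
  classical
  obtain ⟨U, hU, hUd⟩ := (S τ₀ : Set X).toFinite.t2_separation
  have h1 : ∀ s ∈ S τ₀, ∀ᶠ τ in 𝓝 τ₀, lsec ι s τ ∈ U s ∧ f (lsec ι s τ) = τ ∧
      cp (lsec ι s τ) = upd ι (cp s) (cp τ) := by
    intro s hs
    have hfs : f s = τ₀ := ((hS.mem τ₀ s).1 hs).1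
    rw [← hfs]
    exact ((hf.tendsto_lsec s).eventually ((hU s).2.mem_nhds (hU s).1)).and
      ((hf.f_lsec s).and (hf.cp_lsec s))
  have h2 : ∀ᶠ τ in 𝓝 τ₀, ∀ s ∈ S τ₀, lsec ι s τ ∈ U s ∧ f (lsec ι s τ) = τ ∧
      cp (lsec ι s τ) = upd ι (cp s) (cp τ) :=
    (Filter.eventually_all_finset (S τ₀)).2 h1
  filter_upwards [h2] with τ hτ
  have hinj : InjOn (fun s : X => lsec ι s τ) (S τ₀ : Set X) := by
    intro s hs s' hs' h
    by_contra hne
    have hd := hUd hs hs' hne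
    exact Set.disjoint_left.1 hd (hτ s hs).1 (by
      have h' : lsec ι s τ = lsec ι s' τ := h
      rw [h']
      exact (hτ s' hs').1)
  refine ⟨hinj, ?_⟩
  symm
  apply Finset.eq_of_subset_of_card_le
  · intro x hx
    obtain ⟨s, hs, rfl⟩ := Finset.mem_image.1 hx
    rw [hS.mem]
    refine ⟨(hτ s hs).2.1, fun j hj => ?_⟩
    rw [(hτ s hs).2.2, upd_of_notMem _ _ hj]
    exact ((hS.mem τ₀ s).1 hs).2 j hj
  · rw [Finset.card_image_of_injOn hinj, hS.card, hS.card]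

theorem prod_eq [T2Space X] (hf : Prj ι f) (hS : Slice ι f c d S) (τ₀ : T) {A : Type*}
    [CommMonoid A] : ∀ᶠ τ in 𝓝 τ₀, ∀ g : X → A, ∏ s ∈ S τ, g s = ∏ s ∈ S τ₀, g (lsec ι s τ) := by
  classical
  filter_upwards [hS.sheets hf τ₀] with τ hτ g
  rw [hτ.2, Finset.prod_image hτ.1]


end Slice

/-! ### the function `u` -/

section uu

variable {m r : ℕ} {X T : Type*} [TopologicalSpace X] [RDom m X] [TopologicalSpace T] [RDom r T]
  {ι : Fin r → Fin m} {f : X → T} {c : Fin m → ℂ} {d : ℕ} {S : T → Finset X}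
  {N : ℕ} {P : X → X → GL (Fin N) ℤ} {H : X → Matrix (Fin N) (Fin N) ℂ} {ω : X → Fin N → ℂ}

/-- the function `u` -/
def uu (D : Dat P H ω f) (k : ℕ) (S : T → Finset X) (z : X) : ℂ := ∏ s ∈ S (f z), D.EE k z s

/-- `psi = - log |ω|²` -/
def psi (H : X → Matrix (Fin N) (Fin N) ℂ) (ω : X → Fin N → ℂ) (x : X) : ℝ :=
  - Real.log (qf (H x) (ω x))

/-- the average of `psi` over the slice -/
def psiT (H : X → Matrix (Fin N) (Fin N) ℂ) (ω : X → Fin N → ℂ) (S : T → Finset X) (d : ℕ)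
    (τ : T) : ℝ := (1 / (d : ℝ)) * ∑ s ∈ S τ, psi H ω s

variable (D : Dat P H ω f) {k : ℕ} (hk : Dat.UE N k)

include hk

/-- `EE` is holomorphic along local sections -/
theorem EE_hol (hf : Prj ι f) (hω : ∀ z, HolAt (lV P ω z) z) {z s : X} (hzs : f z = f s) :
    HolAt (fun z' => D.EE k z' (lsec ι s (f z'))) z := by
  obtain ⟨g, ⟨c₀, hc₀, hcg, hE⟩, A, hA, B, hB, hAB⟩ := D.EE_local hk hf.isOpenMap hf.cont hzs
  -- a nonzero component of `ω z`
  obtain ⟨i, hi⟩ : ∃ i, ω z i ≠ 0 := by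
    by_contra hcon
    push Not at hcon
    exact D.ne z (funext hcon)
  have hPz : P z z = 1 := D.sys.self z
  have hlz : lV P ω z z = ω z := by
    unfold lV
    rw [hPz, cm_one, one_mulVec]
  have h1 : HolAt (fun z' => (cm g *ᵥ lV P ω s (lsec ι s (f z'))) i) z := by
    refine HolAt.comp_pi (f := fun z' => cm g *ᵥ lV P ω s (lsec ι s (f z'))) ?_ i
    refine HolAt.mulVec (f := fun z' => lV P ω s (lsec ι s (f z'))) ?_ (cm g)
    refine hf.holAt_comp (g := fun τ => lV P ω s (lsec ι s τ)) ?_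
    rw [hzs]
    exact hf.holAt_lsec (hω s)
  have h2 : HolAt (fun z' => lV P ω z z' i) z := HolAt.comp_pi (f := fun z' => lV P ω z z') (hω z) i
  have h3 : HolAt (fun z' => ((cm g *ᵥ lV P ω s (lsec ι s (f z'))) i / lV P ω z z' i) ^ k) z :=
    HolAt.pow (HolAt.div h1 h2 (by rw [hlz]; exact hi)) k
  refine HolAt.congr h3 ?_
  have h4 : ∀ᶠ z' in 𝓝 z, lsec ι s (f z') ∈ B := by
    have h5 : Tendsto (fun z' => lsec ι s (f z')) (𝓝 z) (𝓝 s) := by
      refine (hf.tendsto_lsec s).comp ?_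
      rw [← hzs]
      exact hf.cont.continuousAt
    exact h5.eventually hB
  have h5 : ∀ᶠ z' in 𝓝 z, f (lsec ι s (f z')) = f z' := by
    have h6 : Tendsto f (𝓝 z) (𝓝 (f s)) := by
      rw [← hzs]
      exact hf.cont.continuousAt
    exact h6.eventually (hf.f_lsec s)
  have h6 : ∀ᶠ z' in 𝓝 z, lV P ω z z' i ≠ 0 := by
    have h7 : ContinuousAt (fun z' => lV P ω z z' i) z := HolAt.continuousAt h2
    refine h7.eventually_ne ?_
    rw [hlz]
    exact hi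
  filter_upwards [hA, h4, h5, h6] with z' hzA hzB hfz hne
  obtain ⟨c', _, hc', hE'⟩ := hAB z' hzA _ hzB hfz.symm
  rw [hE', hc']
  simp only [Pi.smul_apply, smul_eq_mul]
  rw [mul_div_assoc, div_self hne, mul_one]

/-- **`u` is holomorphic** -/
theorem uu_hol [T2Space X] (hf : Prj ι f) (hω : ∀ z, HolAt (lV P ω z) z)
    (hS : Slice ι f c d S) (z : X) : HolAt (uu D k S) z := by
  have h1 : HolAt (fun z' => ∏ s ∈ S (f z), D.EE k z' (lsec ι s (f z'))) z := by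
    refine HolAt.prod _ fun s hs => EE_hol D hk hf hω ?_
    exact (((hS.mem (f z) s).1 hs).1).symm
  refine HolAt.congr h1 ?_
  have h2 := (hf.cont.continuousAt (x := z)).eventually (hS.prod_eq hf (f z) (A := ℂ))
  filter_upwards [h2] with z' hz'
  exact (hz' (fun s => D.EE k z' s)).symm

theorem uu_ne (hS : Slice ι f c d S) (z : X) : uu D k S z ≠ 0 := by
  refine Finset.prod_ne_zero_iff.2 fun s hs => ?_
  exact D.EE_ne hk ((hS.mem (f z) s).1 hs).1.symm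


theorem norm_EE {x z : X} (hxz : f x = f z) :
    Real.log (‖D.EE k x z‖ ^ 2) = k * (psi H ω x - psi H ω z) := by
  have h1 := D.EE_norm hk hxz
  have hx := D.pos x _ (D.ne x)
  have hz := D.pos z _ (D.ne z)
  have h2 : ‖D.EE k x z‖ ^ 2 = qf (H z) (ω z) ^ k / qf (H x) (ω x) ^ k := by
    rw [eq_div_iff (pow_ne_zero _ hx.ne'), h1]
  rw [h2, Real.log_div (pow_ne_zero _ hz.ne') (pow_ne_zero _ hx.ne'), Real.log_pow, Real.log_pow]
  unfold psi
  ring

/-- **the norm of `u`** -/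
theorem log_uu (hS : Slice ι f c d S) (hd : 0 < d) (z : X) :
    Real.log (‖uu D k S z‖ ^ 2) = k * d * (psi H ω z - psiT H ω S d (f z)) := by
  have h1 : ‖uu D k S z‖ ^ 2 = ∏ s ∈ S (f z), ‖D.EE k z s‖ ^ 2 := by
    unfold uu
    rw [norm_prod, Finset.prod_pow]
  rw [h1, Real.log_prod]
  · have h2 : ∑ s ∈ S (f z), Real.log (‖D.EE k z s‖ ^ 2) =
        ∑ s ∈ S (f z), (k : ℝ) * (psi H ω z - psi H ω s) :=
      Finset.sum_congr rfl fun s hs => norm_EE D hk ((hS.mem (f z) s).1 hs).1.symm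
    rw [h2, ← Finset.mul_sum, Finset.sum_sub_distrib, Finset.sum_const, hS.card, nsmul_eq_mul]
    unfold psiT
    have : (d : ℝ) ≠ 0 := by exact_mod_cast hd.ne'
    field_simp
  · intro s hs
    exact pow_ne_zero _ (norm_ne_zero_iff.2 (D.EE_ne hk ((hS.mem (f z) s).1 hs).1.symm))


end uu

/-! ### smoothness of `psiT` -/

section psi

variable {m r : ℕ} {X T : Type*} [TopologicalSpace X] [RDom m X] [TopologicalSpace T] [RDom r T]
  {ι : Fin r → Fin m} {f : X → T} {c : Fin m → ℂ} {d : ℕ} {S : T → Finset X}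
  {N : ℕ} {H : X → Matrix (Fin N) (Fin N) ℂ} {ω : X → Fin N → ℂ}



end psi

end Crest.Agent.R276.DescE_327
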