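import Mathlib
import Crest.Agent.R276.FKDefs_779

-- ▼ part R276/DivVal1_858
section

/-! # Row 276, helper858: divisorial valuations, part 1.
`A` a domain in which `t` is prime, `C` its integral closure in a field `K` (assumed Noetherian),
`R` a valuation subring of `K` containing `A` with `m_R ∩ A = (t)`. Then `R` is the localisation of
`C` at the prime `m_R ∩ C`. -/

set_option autoImplicit false

namespace Crest.Agent.R276.DivVal_858

open IsLocalRing

section Loc

variable {A K C : Type*} [CommRing A] [IsDomain A] [IsNoetherianRing A] [Field K] [Algebra A K]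
  [FaithfulSMul A K] [CommRing C] [IsDomain C] [Algebra A C] [Algebra C K] [IsScalarTower A C K]
  [IsIntegralClosure C A K] [IsNoetherianRing C] [IsIntegrallyClosed C] [IsFractionRing C K]

/-- A nonzero prime ideal `P` of `C` inside the contraction of `m_R` contracts to `(t)`. -/
theorem mem_of_prime_ne_bot {A C : Type*} [CommRing A] [IsDomain A] [IsNoetherianRing A]
    [CommRing C] [IsDomain C] [Algebra A C] [Algebra.IsIntegral A C]
    (t : A) (ht : Prime t) (P : Ideal C) [P.IsPrime] (hP : P ≠ ⊥)
    (hsub : ∀ a : A, algebraMap A C a ∈ P → t ∣ a) : algebraMap A C t ∈ P := by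
  -- P ∩ A ≠ 0
  have h1 : P.comap (algebraMap A C) ≠ ⊥ := by
    intro h
    exact hP (Ideal.eq_bot_of_comap_eq_bot h)
  obtain ⟨a, haP, ha0⟩ := Submodule.exists_mem_ne_zero_of_ne_bot h1
  rw [Ideal.mem_comap] at haP
  obtain ⟨n, b, hb, rfl⟩ := WfDvdMonoid.max_power_factor ha0 ht.irreducible
  have hb' : algebraMap A C b ∉ P := fun h => hb (hsub b h)
  rw [map_mul, map_pow] at haP
  rcases (inferInstance : P.IsPrime).mem_or_mem haP with h | h
  · exact (inferInstance : P.IsPrime).mem_of_pow_mem _ h
  · exact absurd h hb'

theorem isLocalization_atPrime (R : ValuationSubring K) [Algebra C R] [IsScalarTower C R K]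
    (t : A) (ht : Prime t)
    (htR : ∀ a : A, algebraMap C R (algebraMap A C a) ∈ maximalIdeal R ↔ t ∣ a) :
    IsLocalization.AtPrime R ((maximalIdeal R).comap (algebraMap C R)) := by
  set q : Ideal C := (maximalIdeal R).comap (algebraMap C R) with hq
  have hint : Algebra.IsIntegral A C := IsIntegralClosure.isIntegral_algebra A K
  have hCK : Function.Injective (algebraMap C K) := FaithfulSMul.algebraMap_injective C K
  have hCR : Function.Injective (algebraMap C R) := by
    rw [IsScalarTower.algebraMap_eq C R K, RingHom.coe_comp] at hCK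
    exact hCK.of_comp
  have hle : q.primeCompl ≤ nonZeroDivisors C := Ideal.primeCompl_le_nonZeroDivisors q
  -- the local ring D
  let D := Localization.subalgebra.ofField K q.primeCompl hle
  have hD : IsLocalization.AtPrime D q := Localization.subalgebra.isLocalization_ofField K q.primeCompl hle
  have : IsLocalRing D := IsLocalization.AtPrime.isLocalRing D q
  have : IsNoetherianRing D := IsLocalization.isNoetherianRing q.primeCompl D inferInstance
  have : IsIntegrallyClosed D := isIntegrallyClosed_of_isLocalization D q.primeCompl hle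
  have hval : ValuationRing D := by
    have htf := (tfae_of_isNoetherianRing_of_isLocalRing_of_isDomain D).out 1 3
    refine htf.mpr ⟨inferInstance, fun P hP hPp => ?_⟩
    have hPc : (P.under C).IsPrime := Ideal.IsPrime.comap _
    have h2 : P.under C ≤ q := by
      have := IsLocalization.AtPrime.under_maximalIdeal D q
      rw [← this]
      exact Ideal.comap_mono (le_maximalIdeal hPp.ne_top)
    have h3 : P.under C ≠ ⊥ := by
      intro h
      apply hP
      have := IsLocalization.map_under q.primeCompl D P
      rw [h, Ideal.map_bot] at this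
      exact this.symm
    have h4 : algebraMap A C t ∈ P.under C := by
      refine mem_of_prime_ne_bot t ht _ h3 (fun a ha => ?_)
      exact (htR a).mp (h2 ha)
    have h5 : (P.under C).comap (algebraMap A C) = q.comap (algebraMap A C) := by
      apply le_antisymm (Ideal.comap_mono h2)
      intro a ha
      have ha' : t ∣ a := (htR a).mp ha
      obtain ⟨b, rfl⟩ := ha'
      rw [Ideal.mem_comap, map_mul]
      exact Ideal.mul_mem_right _ _ h4
    have h6 : P.under C = q := by
      by_contra hne
      have hlt : P.under C < q := lt_of_le_of_ne h2 hne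
      have hlt' := Ideal.IsIntegral.comap_lt_comap (R := A) hlt
      exact (ne_of_lt hlt') h5
    have h7 := IsLocalization.map_under q.primeCompl D P
    rw [h6] at h7
    rw [← h7, IsLocalization.AtPrime.map_eq_maximalIdeal q D]
  have : IsFractionRing D K := Localization.subalgebra.isFractionRing_ofField K q.primeCompl hle
  have hmemD : ∀ x : K, x ∈ D → ∃ c s : C, s ∉ q ∧ x * algebraMap C K s = algebraMap C K c := by
    intro x hx
    obtain ⟨⟨c, s⟩, hcs⟩ := IsLocalization.surj (M := q.primeCompl) (⟨x, hx⟩ : D)
    refine ⟨c, s, s.2, ?_⟩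
    have := congrArg (fun y : D => (y : K)) hcs
    simpa using this
  rw [IsLocalization.AtPrime, isLocalization_iff]
  refine ⟨?_, ?_, ?_⟩
  · rintro ⟨s, hs⟩
    by_contra h
    exact hs ((mem_maximalIdeal _).mpr h)
  · intro x
    have key : ∃ c s : C, s ∉ q ∧ (x : K) * algebraMap C K s = algebraMap C K c := by
      rcases (ValuationRing.iff_isInteger_or_isInteger D K).mp hval (x : K) with h | h
      · obtain ⟨y, hy⟩ := h
        apply hmemD
        rw [← hy]
        exact y.2
      · obtain ⟨y, hy⟩ := h
        have hy' : ((x : K))⁻¹ ∈ D := by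
          rw [← hy]; exact y.2
        obtain ⟨c, s, hs, hcs⟩ := hmemD _ hy'
        by_cases hx0 : (x : K) = 0
        · exact ⟨0, 1, fun h => (inferInstance : q.IsPrime).ne_top ((Ideal.eq_top_iff_one _).mpr h), by
            simp [hx0]⟩
        have hxc : (x : K) * algebraMap C K c = algebraMap C K s := by
          rw [← hcs]; field_simp
        have hcq : c ∉ q := by
          intro hc
          apply hs
          rw [hq, Ideal.mem_comap] at hc ⊢
          have : algebraMap C R s = x * algebraMap C R c := by
            apply Subtype.ext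
            have e1 : ((algebraMap C R s : R) : K) = algebraMap C K s :=
              (IsScalarTower.algebraMap_apply C R K s).symm
            have e2 : ((algebraMap C R c : R) : K) = algebraMap C K c :=
              (IsScalarTower.algebraMap_apply C R K c).symm
            rw [e1]
            change _ = (x : K) * ((algebraMap C R c : R) : K)
            rw [e2, hxc]
          rw [this]
          exact Ideal.mul_mem_left _ _ hc
        exact ⟨s, c, hcq, hxc⟩
    obtain ⟨c, s, hs, hcs⟩ := key
    refine ⟨⟨c, ⟨s, hs⟩⟩, ?_⟩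
    apply Subtype.ext
    have e1 : ((algebraMap C R s : R) : K) = algebraMap C K s :=
      (IsScalarTower.algebraMap_apply C R K s).symm
    have e2 : ((algebraMap C R c : R) : K) = algebraMap C K c :=
      (IsScalarTower.algebraMap_apply C R K c).symm
    change (x : K) * ((algebraMap C R s : R) : K) = ((algebraMap C R c : R) : K)
    rw [e1, e2, hcs]
  · intro a b hab
    exact ⟨1, by simp [hCR hab]⟩

end Loc

end Crest.Agent.R276.DivVal_858
end

-- ▼ part R276/DivVal2_858
section

/-! # Row 276, helper858: divisorial valuations, part 2: étaleness over a DVR. -/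

set_option autoImplicit false

namespace Crest.Agent.R276.DivVal_858

open IsLocalRing TensorProduct

section DVR

variable {O K : Type*} [CommRing O] [IsDomain O] [IsDiscreteValuationRing O] [Field K] [Algebra O K]
  [FaithfulSMul O K] (F : Type*) [Field F] [Algebra O F] [IsFractionRing O F] [Algebra F K]
  [IsScalarTower O F K] [FiniteDimensional F K] [Algebra.IsSeparable F K]

include F in
/-- A valuation ring `R` of `K` dominating the DVR `O`, unramified over `O` in the naive sense, is
formally étale over `O`. -/
theorem formallyEtale_of_dvr (R : ValuationSubring K) [Algebra O R] [IsScalarTower O R K]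
    [IsLocalHom (algebraMap O R)]
    (hmap : (maximalIdeal O).map (algebraMap O R) = maximalIdeal R)
    [Algebra.IsSeparable (ResidueField O) (ResidueField R)] :
    Algebra.FormallyEtale O R := by
  obtain ⟨t, ht⟩ := IsDiscreteValuationRing.exists_prime O
  -- the integral closure
  let B := integralClosure O K
  have hBR : ∀ b : B, (b : K) ∈ R := by
    rintro ⟨b, hb⟩
    have hb' : IsIntegral R b := hb.tower_top
    obtain ⟨y, hy⟩ := IsIntegrallyClosed.isIntegral_iff.mp hb'
    have hy' : (y : K) = b := hy
    change b ∈ R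
    exact hy' ▸ y.2
  let : Algebra B R := (RingHom.codRestrict (algebraMap B K) R.toSubring hBR).toAlgebra
  have : IsScalarTower B R K := IsScalarTower.of_algebraMap_eq (fun b => rfl)
  have : IsScalarTower O B R := IsScalarTower.of_algebraMap_eq (fun o => by
    apply Subtype.ext
    have h1 : ((algebraMap O R o : R) : K) = algebraMap O K o :=
      (IsScalarTower.algebraMap_apply O R K o).symm
    rw [h1]
    rfl)
  have : IsIntegralClosure B O K := inferInstance
  have : Module.Finite O B := IsIntegralClosure.finite O F K B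
  have : IsNoetherianRing B := IsIntegralClosure.isNoetherianRing O F K B
  have : IsFractionRing B K := IsIntegralClosure.isFractionRing_of_finite_extension O F K B
  have : IsIntegrallyClosed B := integralClosure.isIntegrallyClosedOfFiniteExtension F
  have hloc : IsLocalization.AtPrime R ((maximalIdeal R).comap (algebraMap B R)) := by
    refine isLocalization_atPrime (A := O) R t ht (fun a => ?_)
    rw [← IsScalarTower.algebraMap_apply O B R]
    have h1 : algebraMap O R a ∈ maximalIdeal R ↔ a ∈ maximalIdeal O := by
      rw [mem_maximalIdeal, mem_maximalIdeal, mem_nonunits_iff, mem_nonunits_iff,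
        isUnit_map_iff]
    rw [h1, ht.irreducible.maximalIdeal_eq, Ideal.mem_span_singleton]
  have : Algebra.FinitePresentation O B := Algebra.FinitePresentation.of_finiteType.mp inferInstance
  have : Module.Flat O R := by
    have : FaithfulSMul O R := by
      rw [faithfulSMul_iff_algebraMap_injective]
      have h1 : Function.Injective (algebraMap O K) := FaithfulSMul.algebraMap_injective O K
      rw [IsScalarTower.algebraMap_eq O R K, RingHom.coe_comp] at h1
      exact h1.of_comp
    rw [Module.Flat.flat_iff_torsion_eq_bot_of_isBezout, ← Submodule.isTorsionFree_iff_torsion_eq_bot]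
    infer_instance
  have : Algebra.EssFiniteType O R := by
    have : Algebra.EssFiniteType B R := Algebra.EssFiniteType.of_isLocalization R
      ((maximalIdeal R).comap (algebraMap B R)).primeCompl
    exact Algebra.EssFiniteType.comp O B R
  have : Algebra.FormallyUnramified O R := Algebra.FormallyUnramified.of_map_maximalIdeal hmap
  have : Algebra.FormallyEtale (ResidueField O) (ResidueField O ⊗[O] R) :=
    Algebra.FormallyEtale.of_formallyUnramified_of_field _ _
  have : Algebra.FormallySmooth O R :=
    Algebra.FormallySmooth.of_formallySmooth_residueField_tensor (R := O) (S := R) (P := B)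
      ((maximalIdeal R).comap (algebraMap B R)).primeCompl
  exact Algebra.FormallyEtale.iff_formallyUnramified_and_formallySmooth.mpr ⟨inferInstance, inferInstance⟩

end DVR

end Crest.Agent.R276.DivVal_858
end

-- ▼ part R276/DivVal3_858
section

/-! # Row 276, helper858: divisorial valuations, part 3: from a normal domain `A` with prime `t`. -/

set_option autoImplicit false

namespace Crest.Agent.R276.DivVal_858

open IsLocalRing TensorProduct

section Normal

variable (k : Type*) [Field k] [CharZero k]
variable {A K : Type*} [CommRing A] [IsDomain A] [IsNoetherianRing A] [IsIntegrallyClosed A]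
  [Algebra k A] [Field K] [Algebra A K]
  [FaithfulSMul A K] (F : Type*) [Field F] [Algebra A F] [IsFractionRing A F] [Algebra F K]
  [IsScalarTower A F K] [FiniteDimensional F K]

include k F in
theorem formallyEtale_of_prime (R : ValuationSubring K) [Algebra A R] [IsScalarTower A R K]
    (t : A) (ht : Prime t) (htR : ∀ a : A, algebraMap A R a ∈ maximalIdeal R ↔ t ∣ a)
    (hgen : maximalIdeal R = Ideal.span {algebraMap A R t})
    (halg : ∀ x : R, ∃ P : Polynomial A, (∃ i, ¬ t ∣ P.coeff i) ∧
      Polynomial.aeval x P ∈ maximalIdeal R) :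
    Algebra.FormallyEtale A R := by
  have hp : (Ideal.span {t}).IsPrime := (Ideal.span_singleton_prime ht.ne_zero).mpr ht
  let O := Localization.AtPrime (Ideal.span {t})
  have hunit : ∀ y : (Ideal.span {t}).primeCompl, IsUnit (algebraMap A R y) := by
    rintro ⟨y, hy⟩
    by_contra h
    apply hy
    rw [SetLike.mem_coe, Ideal.mem_span_singleton, ← htR]
    exact (mem_maximalIdeal _).mpr h
  let φ : O →+* R := IsLocalization.lift (M := (Ideal.span {t}).primeCompl) hunit
  let : Algebra O R := φ.toAlgebra
  have : IsScalarTower A O R := IsScalarTower.of_algebraMap_eq (fun a => by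
    change _ = φ (algebraMap A O a)
    rw [IsLocalization.lift_eq])
  let : Algebra O K := ((algebraMap R K).comp φ).toAlgebra
  have : IsScalarTower O R K := IsScalarTower.of_algebraMap_eq (fun a => rfl)
  have : IsScalarTower A O K := IsScalarTower.of_algebraMap_eq (fun a => by
    rw [IsScalarTower.algebraMap_apply A R K, IsScalarTower.algebraMap_apply A O R,
      ← IsScalarTower.algebraMap_apply O R K])
  -- the algebra structure on F
  have hunitF : ∀ y : (Ideal.span {t}).primeCompl, IsUnit (algebraMap A F y) := by
    rintro ⟨y, hy⟩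
    have hy0 : y ≠ 0 := by
      rintro rfl
      exact hy (Ideal.zero_mem _)
    exact IsUnit.mk0 _ (by simpa using hy0)
  let ψ : O →+* F := IsLocalization.lift (M := (Ideal.span {t}).primeCompl) hunitF
  let : Algebra O F := ψ.toAlgebra
  have : IsScalarTower A O F := IsScalarTower.of_algebraMap_eq (fun a => by
    change _ = ψ (algebraMap A O a)
    rw [IsLocalization.lift_eq])
  have : IsFractionRing O F :=
    IsFractionRing.isFractionRing_of_isDomain_of_isLocalization (Ideal.span {t}).primeCompl O F
  have : IsScalarTower O F K := by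
    have h : algebraMap O K = (algebraMap F K).comp (algebraMap O F) := by
      apply IsLocalization.ringHom_ext (Ideal.span {t}).primeCompl
      rw [RingHom.comp_assoc, ← IsScalarTower.algebraMap_eq A O F,
        ← IsScalarTower.algebraMap_eq A O K, ← IsScalarTower.algebraMap_eq A F K]
    exact IsScalarTower.of_algebraMap_eq' h
  have : IsDomain O := IsLocalization.isDomain_of_le_nonZeroDivisors O
    (Ideal.primeCompl_le_nonZeroDivisors (Ideal.span {t}))
  have hmaxO : maximalIdeal O = Ideal.span {algebraMap A O t} := by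
    rw [← IsLocalization.AtPrime.map_eq_maximalIdeal (Ideal.span {t}) O, Ideal.map_span,
      Set.image_singleton]
  have : IsNoetherianRing O := IsLocalization.isNoetherianRing (Ideal.span {t}).primeCompl O
    inferInstance
  have htO : algebraMap A O t ≠ 0 := by
    intro h
    have h2 : Function.Injective (algebraMap A O) :=
      IsLocalization.injective O (Ideal.primeCompl_le_nonZeroDivisors (Ideal.span {t}))
    exact ht.ne_zero (h2 (by rw [h, map_zero]))
  have hnf : ¬ IsField O := by
    intro h
    rw [IsLocalRing.isField_iff_maximalIdeal_eq, hmaxO, Ideal.span_singleton_eq_bot] at h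
    exact htO h
  have : IsDiscreteValuationRing O := by
    have htf := (IsDiscreteValuationRing.TFAE O hnf).out 0 4
    exact htf.mpr ⟨⟨algebraMap A O t, hmaxO⟩⟩
  have : FaithfulSMul O K := by
    rw [faithfulSMul_iff_algebraMap_injective, IsScalarTower.algebraMap_eq O F K,
      RingHom.coe_comp]
    exact (FaithfulSMul.algebraMap_injective F K).comp (IsFractionRing.injective O F)
  have htR' : algebraMap A R t ∈ maximalIdeal R := (htR t).mpr dvd_rfl
  have : IsLocalHom (algebraMap O R) := by
    refine ⟨fun a ha => ?_⟩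
    by_contra hna
    have h1 : a ∈ maximalIdeal O := (mem_maximalIdeal _).mpr hna
    rw [hmaxO, Ideal.mem_span_singleton] at h1
    obtain ⟨b, rfl⟩ := h1
    rw [map_mul, ← IsScalarTower.algebraMap_apply A O R] at ha
    exact (mem_maximalIdeal _).mp htR' (isUnit_of_mul_isUnit_left ha)
  have hmap : (maximalIdeal O).map (algebraMap O R) = maximalIdeal R := by
    rw [hmaxO, Ideal.map_span, Set.image_singleton, ← IsScalarTower.algebraMap_apply A O R, hgen]
  have : CharZero (ResidueField O) := by
    let : Algebra k (ResidueField O) :=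
      ((algebraMap A (ResidueField O)).comp (algebraMap k A)).toAlgebra
    exact charZero_of_injective_algebraMap (algebraMap k (ResidueField O)).injective
  have : Algebra.IsAlgebraic (ResidueField O) (ResidueField R) := by
    have : IsScalarTower A (ResidueField O) (ResidueField R) := by
      refine IsScalarTower.of_algebraMap_eq (fun a => ?_)
      rw [IsScalarTower.algebraMap_apply A O (ResidueField O),
        IsScalarTower.algebraMap_apply A R (ResidueField R),
        IsScalarTower.algebraMap_apply A O R]
      rfl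
    refine ⟨fun y => ?_⟩
    obtain ⟨x, rfl⟩ := IsLocalRing.residue_surjective y
    obtain ⟨P, ⟨i, hi⟩, hP⟩ := halg x
    refine ⟨P.map (algebraMap A (ResidueField O)), ?_, ?_⟩
    · intro h0
      have h1 : algebraMap A (ResidueField O) (P.coeff i) = 0 := by
        rw [← Polynomial.coeff_map, h0, Polynomial.coeff_zero]
      rw [IsScalarTower.algebraMap_apply A O (ResidueField O)] at h1
      have h2 : algebraMap A O (P.coeff i) ∈ maximalIdeal O :=
        (IsLocalRing.residue_eq_zero_iff _).mp h1
      have h3 : algebraMap O R (algebraMap A O (P.coeff i)) ∈ maximalIdeal R := by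
        rw [mem_maximalIdeal, mem_nonunits_iff, isUnit_map_iff]
        exact (mem_maximalIdeal _).mp h2
      rw [← IsScalarTower.algebraMap_apply A O R, htR] at h3
      exact hi h3
    · rw [Polynomial.aeval_map_algebraMap]
      have h1 : residue R (Polynomial.aeval x P) = 0 := (IsLocalRing.residue_eq_zero_iff _).mpr hP
      have h2 : Polynomial.aeval (residue R x) P = residue R (Polynomial.aeval x P) := by
        have := Polynomial.aeval_algebraMap_apply (ResidueField R) x P
        exact this
      rw [h2, h1]
  have : CharZero F := by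
    let : Algebra k F := ((algebraMap A F).comp (algebraMap k A)).toAlgebra
    exact charZero_of_injective_algebraMap (algebraMap k F).injective
  have : Algebra.FormallyEtale O R := formallyEtale_of_dvr F R hmap
  have : Algebra.FormallyEtale A O := Algebra.FormallyEtale.of_isLocalization (Ideal.span {t}).primeCompl
  exact Algebra.FormallyEtale.comp A O R

end Normal

end Crest.Agent.R276.DivVal_858
end

-- ▼ part R276/DivVal4_858
section

/-! # Row 276, helper858: divisorial valuations, part 4: the étale model. -/

set_option autoImplicit false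

namespace Crest.Agent.R276.DivVal_858

open IsLocalRing TensorProduct

section Model

variable (k : Type*) [Field k] [CharZero k]
variable {A K : Type*} [CommRing A] [IsDomain A] [IsNoetherianRing A] [IsIntegrallyClosed A]
  [Algebra k A] [Field K] [Algebra A K]
  [FaithfulSMul A K] (F : Type*) [Field F] [Algebra A F] [IsFractionRing A F] [Algebra F K]
  [IsScalarTower A F K] [FiniteDimensional F K]

include k F in
/-- The étale model of a divisorial valuation ring `R` over a normal Noetherian domain `A` in which
`m_R ∩ A = (t)`, `m_R = t R`, with algebraic residue extension. -/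
theorem exists_etale_subalgebra (R : ValuationSubring K) [Algebra A R] [IsScalarTower A R K]
    (t : A) (ht : Prime t) (htR : ∀ a : A, algebraMap A R a ∈ maximalIdeal R ↔ t ∣ a)
    (hgen : maximalIdeal R = Ideal.span {algebraMap A R t})
    (halg : ∀ x : R, ∃ P : Polynomial A, (∃ i, ¬ t ∣ P.coeff i) ∧
      Polynomial.aeval x P ∈ maximalIdeal R) :
    ∃ B : Subalgebra A K, (∀ x ∈ B, x ∈ R) ∧ Algebra.Etale A B ∧ IsFractionRing B K ∧
      Prime (algebraMap A B t) ∧
      (∀ x : K, x ∈ R ↔ ∃ a b : B, ¬ algebraMap A B t ∣ b ∧ x * (b : K) = a) ∧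
      (∀ b : B, (∃ y ∈ maximalIdeal R, (y : K) = b) ↔ algebraMap A B t ∣ b) := by
  classical
  have hFE : Algebra.FormallyEtale A R := formallyEtale_of_prime k F R t ht htR hgen halg
  have hF0 : CharZero F := by
    let : Algebra k F := ((algebraMap A F).comp (algebraMap k A)).toAlgebra
    exact charZero_of_injective_algebraMap (algebraMap k F).injective
  let C := integralClosure A K
  have hCR : ∀ b : C, (b : K) ∈ R := by
    rintro ⟨b, hb⟩
    have hb' : IsIntegral R b := hb.tower_top
    obtain ⟨y, hy⟩ := IsIntegrallyClosed.isIntegral_iff.mp hb'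
    have hy' : (y : K) = b := hy
    change b ∈ R
    exact hy' ▸ y.2
  let : Algebra C R := (RingHom.codRestrict (algebraMap C K) R.toSubring hCR).toAlgebra
  have : IsScalarTower C R K := IsScalarTower.of_algebraMap_eq (fun b => rfl)
  have : IsScalarTower A C R := IsScalarTower.of_algebraMap_eq (fun o => by
    apply Subtype.ext
    have h1 : ((algebraMap A R o : R) : K) = algebraMap A K o :=
      (IsScalarTower.algebraMap_apply A R K o).symm
    rw [h1]
    rfl)
  have : IsIntegralClosure C A K := inferInstance
  have : Module.Finite A C := IsIntegralClosure.finite A F K C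
  have : IsNoetherianRing C := IsIntegralClosure.isNoetherianRing A F K C
  have : IsFractionRing C K := IsIntegralClosure.isFractionRing_of_finite_extension A F K C
  have : IsIntegrallyClosed C := integralClosure.isIntegrallyClosedOfFiniteExtension F
  set q : Ideal C := (maximalIdeal R).comap (algebraMap C R) with hq
  have hqp : q.IsPrime := Ideal.IsPrime.comap _
  have hloc : IsLocalization.AtPrime R q := by
    refine isLocalization_atPrime (A := A) R t ht (fun a => ?_)
    rw [← IsScalarTower.algebraMap_apply A C R]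
    exact htR a
  have : Algebra.FinitePresentation A C := Algebra.FinitePresentation.of_finiteType.mp inferInstance
  -- étale at q
  have hEt : Algebra.IsEtaleAt A q := by
    let e : R ≃ₐ[C] Localization.AtPrime q := IsLocalization.algEquiv q.primeCompl R _
    exact Algebra.FormallyEtale.of_equiv (e.restrictScalars A)
  obtain ⟨g, hgq, hg⟩ := Algebra.exists_etale_of_isEtaleAt (R := A) q
  -- (t) = q near q
  have htq : algebraMap A C t ∈ q := by
    rw [hq, Ideal.mem_comap, ← IsScalarTower.algebraMap_apply A C R]
    exact (htR t).mpr dvd_rfl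
  have hs : ∃ s : C, s ∉ q ∧ ∀ c ∈ q, algebraMap A C t ∣ s * c := by
    have hfg : q.FG := (isNoetherianRing_iff_ideal_fg C).mp inferInstance q
    obtain ⟨T, hT⟩ := hfg
    have h1 : ∀ c ∈ q, ∃ s : C, s ∉ q ∧ algebraMap A C t ∣ s * c := by
      intro c hc
      have hc' : algebraMap C R c ∈ maximalIdeal R := hc
      rw [hgen, Ideal.mem_span_singleton] at hc'
      obtain ⟨x, hx⟩ := hc'
      obtain ⟨⟨a, s⟩, has⟩ := IsLocalization.surj (M := q.primeCompl) x
      refine ⟨s, s.2, a, ?_⟩
      have hinj : Function.Injective (algebraMap C R) :=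
        IsLocalization.injective R (Ideal.primeCompl_le_nonZeroDivisors q)
      apply hinj
      rw [map_mul, hx, map_mul, ← IsScalarTower.algebraMap_apply A C R, ← has]
      ring
    choose! s hs1 hs2 using h1
    refine ⟨∏ c ∈ T, s c, ?_, ?_⟩
    · intro h
      obtain ⟨c, hcT, hc⟩ := (Ideal.IsPrime.prod_mem_iff (hp := hqp)).mp h
      exact hs1 c (hT ▸ Ideal.subset_span hcT) hc
    · intro c hc
      rw [← hT] at hc
      induction hc using Submodule.span_induction with
      | mem x hx =>
        have hxq : x ∈ q := hT ▸ Ideal.subset_span hx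
        obtain ⟨d, hd⟩ := hs2 x hxq
        rw [← Finset.mul_prod_erase T s hx]
        exact ⟨d * ∏ c ∈ T.erase x, s c, by rw [mul_right_comm, hd]; ring⟩
      | zero => simp
      | add x y _ _ hx hy => rw [mul_add]; exact dvd_add hx hy
      | smul a x _ hx => rw [smul_eq_mul, mul_left_comm]; exact Dvd.dvd.mul_left hx a
  obtain ⟨s, hsq, hs⟩ := hs
  set h : C := g * s with hh
  have hhq : h ∉ q := hqp.mul_notMem hgq hsq
  have hle : Submonoid.powers h ≤ nonZeroDivisors C := by
    refine powers_le_nonZeroDivisors_of_noZeroDivisors ?_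
    rintro h0
    exact hhq (h0 ▸ q.zero_mem)
  let B0 : Subalgebra C K := Localization.subalgebra.ofField K (Submonoid.powers h) hle
  have hB0 : IsLocalization (Submonoid.powers h) B0 :=
    Localization.subalgebra.isLocalization_ofField K (Submonoid.powers h) hle
  have hB0' : IsLocalization.Away h B0 := hB0
  let B : Subalgebra A K := B0.restrictScalars A
  have hEtB : Algebra.Etale A B := by
    have h1 : Algebra.Etale A (Localization.Away h) := by
      rw [← Algebra.basicOpen_subset_etaleLocus_iff_etale] at hg ⊢
      exact Set.Subset.trans (PrimeSpectrum.basicOpen_mul_le_left g s) hg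
    let e : Localization.Away h ≃ₐ[C] B0 := IsLocalization.algEquiv (Submonoid.powers h) _ _
    exact Algebra.Etale.of_equiv (e.restrictScalars A)
  have hmemB : ∀ x : K, x ∈ B ↔ ∃ (n : ℕ) (c : C), x * (h : K) ^ n = c := by
    intro x
    constructor
    · intro hx
      obtain ⟨⟨c, ⟨_, n, rfl⟩⟩, hcs⟩ := IsLocalization.surj (M := Submonoid.powers h) (⟨x, hx⟩ : B0)
      refine ⟨n, c, ?_⟩
      have := congrArg (fun y : B0 => (y : K)) hcs
      simpa using this
    · rintro ⟨n, c, hx⟩
      have h2 : ((IsLocalization.mk' B0 c (⟨h ^ n, n, rfl⟩ : Submonoid.powers h) : B0) : K) = x := by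
        have h3 := IsLocalization.mk'_spec B0 c (⟨h ^ n, n, rfl⟩ : Submonoid.powers h)
        have h4 := congrArg (fun y : B0 => (y : K)) h3
        have h5 : ((IsLocalization.mk' B0 c (⟨h ^ n, n, rfl⟩ : Submonoid.powers h) : B0) : K) *
          (h : K) ^ n = c := by simpa using h4
        have h6 : (h : K) ^ n ≠ 0 := by
          apply pow_ne_zero
          intro h0
          have : h = 0 := Subtype.ext (by simpa using h0)
          exact hhq (this ▸ q.zero_mem)
        exact mul_right_cancel₀ h6 (h5.trans hx.symm)
      rw [← h2]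
      exact SetLike.coe_mem _
  have hC_coe : ∀ c : C, ((algebraMap C R c : R) : K) = (c : K) := fun c => rfl
  have hhR : IsUnit (algebraMap C R h) := by
    by_contra h0
    exact hhq h0
  obtain ⟨u, hu⟩ := hhR
  have huK : ((u : R) : K) = (h : K) := by rw [hu]; rfl
  have huinv : (h : K) * ((u⁻¹ : Rˣ) : R) = 1 := by
    rw [← huK]
    exact congrArg (fun y : R => (y : K)) (u.mul_inv)
  have hBR : ∀ x ∈ B, x ∈ R := by
    intro x hx
    obtain ⟨n, c, hxc⟩ := (hmemB x).mp hx
    have h1 : x = (c : K) * (((u⁻¹ : Rˣ) : R) : K) ^ n := by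
      rw [← hxc, mul_assoc, ← mul_pow, huinv, one_pow, mul_one]
    rw [h1]
    exact R.mul_mem _ _ (hCR c) (R.toSubring.pow_mem (SetLike.coe_mem _) n)
  have hCB : ∀ c : C, (c : K) ∈ B := fun c => (hmemB _).mpr ⟨0, c, by simp⟩
  have htB : ((algebraMap A B t : B) : K) = algebraMap A K t := rfl
  have htRK : ((algebraMap A R t : R) : K) = algebraMap A K t :=
    (IsScalarTower.algebraMap_apply A R K t).symm
  have hdvd : ∀ b : B, (∃ y ∈ maximalIdeal R, (y : K) = b) ↔ algebraMap A B t ∣ b := by
    intro b
    constructor
    · rintro ⟨y, hy, hyb⟩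
      obtain ⟨n, c, hbc⟩ := (hmemB b).mp b.2
      have hcq : c ∈ q := by
        have h1 : algebraMap C R c = y * algebraMap C R h ^ n := by
          apply Subtype.ext
          have : ((y * algebraMap C R h ^ n : R) : K) = (y : K) * (h : K) ^ n := by
            push_cast; rfl
          rw [this, hyb, hbc]
          rfl
        rw [hq, Ideal.mem_comap, h1]
        exact Ideal.mul_mem_right _ _ hy
      obtain ⟨d, hd⟩ := hs c hcq
      have hdK : (s : K) * (c : K) = algebraMap A K t * (d : K) := by
        have := congrArg (fun y : C => (y : K)) hd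
        simpa using this
      have hh0 : (h : K) ≠ 0 := by
        rintro h0
        rw [h0, zero_mul] at huinv
        exact zero_ne_one huinv
      have hz : (g : K) * (d : K) * ((h : K) ^ (n + 1))⁻¹ ∈ B := by
        rw [hmemB]
        refine ⟨n + 1, g * d, ?_⟩
        rw [mul_assoc, inv_mul_cancel₀ (pow_ne_zero _ hh0), mul_one]
        rfl
      refine ⟨⟨_, hz⟩, ?_⟩
      apply Subtype.ext
      change (b : K) = algebraMap A K t * ((g : K) * (d : K) * ((h : K) ^ (n + 1))⁻¹)
      have h2 : (h : K) = (g : K) * (s : K) := rfl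
      have h3 : (b : K) * (h : K) ^ (n + 1) = algebraMap A K t * ((g : K) * (d : K)) := by
        calc (b : K) * (h : K) ^ (n + 1) = ((b : K) * (h : K) ^ n) * (h : K) := by ring
          _ = (g : K) * ((s : K) * (c : K)) := by rw [hbc, h2]; ring
          _ = algebraMap A K t * ((g : K) * (d : K)) := by rw [hdK]; ring
      rw [← mul_assoc, eq_mul_inv_iff_mul_eq₀ (pow_ne_zero _ hh0), h3]
    · rintro ⟨d, rfl⟩
      refine ⟨algebraMap A R t * ⟨(d : K), hBR _ d.2⟩, ?_, ?_⟩
      · exact Ideal.mul_mem_right _ _ ((htR t).mpr dvd_rfl)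
      · change ((algebraMap A R t : R) : K) * (d : K) = algebraMap A K t * (d : K)
        rw [htRK]
  have hFB : IsFractionRing B K :=
    (inferInstance : IsFractionRing B0 K)
  refine ⟨B, hBR, hEtB, hFB, ?_, ?_, hdvd⟩
  · refine ⟨?_, ?_, ?_⟩
    · intro h0
      have h1 : algebraMap A K t = 0 := by rw [← htB, h0]; rfl
      exact ht.ne_zero ((FaithfulSMul.algebraMap_injective A K) (by rw [h1, map_zero]))
    · intro h0
      obtain ⟨y, hy, hyt⟩ := (hdvd 1).mpr (h0.dvd)
      have : y = 1 := Subtype.ext (by rw [hyt]; rfl)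
      rw [this] at hy
      exact (Ideal.ne_top_iff_one _).mp (maximalIdeal.isMaximal R).ne_top hy
    · intro a b hab
      obtain ⟨y, hy, hyab⟩ := (hdvd _).mpr hab
      have h1 : y = (⟨(a : K), hBR _ a.2⟩ : R) * ⟨(b : K), hBR _ b.2⟩ := by
        apply Subtype.ext
        rw [hyab]
        rfl
      rw [h1] at hy
      rcases (maximalIdeal.isMaximal R).isPrime.mem_or_mem hy with h2 | h2
      · exact Or.inl ((hdvd a).mp ⟨_, h2, rfl⟩)
      · exact Or.inr ((hdvd b).mp ⟨_, h2, rfl⟩)
  · intro x
    constructor
    · intro hx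
      obtain ⟨⟨c, s'⟩, hcs⟩ := IsLocalization.surj (M := q.primeCompl) (⟨x, hx⟩ : R)
      refine ⟨⟨(c : K), hCB c⟩, ⟨((s' : C) : K), hCB s'⟩, ?_, ?_⟩
      · intro h0
        obtain ⟨y, hy, hys⟩ := (hdvd _).mpr h0
        apply s'.2
        change algebraMap C R (s' : C) ∈ maximalIdeal R
        have : algebraMap C R (s' : C) = y := Subtype.ext hys.symm
        rw [this]
        exact hy
      · have := congrArg (fun y : R => (y : K)) hcs
        exact this
    · rintro ⟨a, b, hb, hab⟩
      have hbu : IsUnit (⟨(b : K), hBR _ b.2⟩ : R) := by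
        by_contra h0
        exact hb ((hdvd b).mp ⟨_, (mem_maximalIdeal _).mpr h0, rfl⟩)
      obtain ⟨v, hv⟩ := hbu
      have hvK : (b : K) * (((v⁻¹ : Rˣ) : R) : K) = 1 := by
        have h1 : (b : K) = ((v : R) : K) := by rw [hv]
        rw [h1]
        exact congrArg (fun y : R => (y : K)) (v.mul_inv)
      have : x = (a : K) * (((v⁻¹ : Rˣ) : R) : K) := by
        rw [← hab, mul_assoc, hvK, mul_one]
      rw [this]
      exact R.mul_mem _ _ (hBR _ a.2) (SetLike.coe_mem _)

end Model

end Crest.Agent.R276.DivVal_858
end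

-- ▼ part R276/DivVal5_858
section

/-! # Row 276, helper858: divisorial valuations, part 5: polynomials in a uniformiser and
residually independent elements. -/

set_option autoImplicit false

namespace Crest.Agent.R276.DivVal_858

open IsLocalRing MvPolynomial

section Poly

variable {k K : Type*} [Field k] [Field K] [Algebra k K] {m : ℕ}

/-- valuation of a polynomial in `(t, x)` with `x` residually independent and `v t < 1`. -/
theorem valuation_aeval_le (R : ValuationSubring K) (x : Fin m → K) (t : K)
    (halg : ∀ c : k, algebraMap k K c ∈ R) (hx : ∀ i, x i ∈ R) (ht : R.valuation t < 1)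
    (P : MvPolynomial (Fin (m + 1)) k) :
    R.valuation (aeval (Fin.cons t x : Fin (m + 1) → K) P) ≤ 1 := by
  rw [ValuationSubring.valuation_le_one_iff]
  have hmem : ∀ i, (Fin.cons t x : Fin (m + 1) → K) i ∈ R := by
    intro i
    refine Fin.cases ?_ (fun j => ?_) i
    · rw [Fin.cons_zero, ← ValuationSubring.valuation_le_one_iff]
      exact ht.le
    · rw [Fin.cons_succ]
      exact hx j
  induction P using MvPolynomial.induction_on with
  | C a => rw [aeval_C]; exact halg a
  | add p q hp hq => rw [map_add]; exact R.add_mem _ _ hp hq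
  | mul_X p i hp => rw [map_mul, aeval_X]; exact R.mul_mem _ _ hp (hmem i)


theorem X_dvd_iff (P : MvPolynomial (Fin (m + 1)) k) :
    (X 0 : MvPolynomial (Fin (m + 1)) k) ∣ P ↔ (finSuccEquiv k m P).coeff 0 = 0 := by
  rw [← Polynomial.X_dvd_iff, ← finSuccEquiv_X_zero (R := k) (n := m)]
  exact (map_dvd_iff (finSuccEquiv k m)).symm

theorem finSuccEquiv_rename (p : MvPolynomial (Fin m) k) :
    finSuccEquiv k m (rename Fin.succ p) = Polynomial.C p := by
  induction p using MvPolynomial.induction_on with
  | C a => simp [finSuccEquiv_apply]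
  | add p q hp hq => rw [map_add, map_add, hp, hq, Polynomial.C_add]
  | mul_X p i hp => rw [map_mul, map_mul, hp, rename_X, finSuccEquiv_X_succ, Polynomial.C_mul]

/-- the valuation is exactly `1` when `X 0` does not divide the polynomial. -/
theorem valuation_aeval_eq_one (R : ValuationSubring K) (x : Fin m → K) (t : K)
    (halg : ∀ c : k, algebraMap k K c ∈ R) (hx : ∀ i, x i ∈ R) (ht : R.valuation t < 1)
    (hres : ∀ P : MvPolynomial (Fin m) k, P ≠ 0 → R.valuation (aeval x P) = 1)
    (P : MvPolynomial (Fin (m + 1)) k) (hP : ¬ X 0 ∣ P) :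
    R.valuation (aeval (Fin.cons t x : Fin (m + 1) → K) P) = 1 := by
  rw [X_dvd_iff] at hP
  -- write P = p0 + X0 * Q
  set p0 := (finSuccEquiv k m P).coeff 0 with hp0
  have h1 : (X 0 : MvPolynomial (Fin (m + 1)) k) ∣ P - rename Fin.succ p0 := by
    rw [X_dvd_iff, map_sub, Polynomial.coeff_sub, finSuccEquiv_rename, Polynomial.coeff_C_zero,
      ← hp0, sub_self]
  obtain ⟨Q, hQ⟩ := h1
  have h2 : P = rename Fin.succ p0 + X 0 * Q := by rw [← hQ]; ring
  have h3 : aeval (Fin.cons t x : Fin (m + 1) → K) (rename Fin.succ p0) = aeval x p0 := by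
    rw [aeval_rename]
    congr 1
  rw [h2, map_add, map_mul, aeval_X, Fin.cons_zero, h3]
  have h4 : R.valuation (aeval x p0) = 1 := hres p0 hP
  have h5 : R.valuation (t * aeval (Fin.cons t x : Fin (m + 1) → K) Q) < 1 := by
    rw [map_mul]
    calc R.valuation t * R.valuation (aeval (Fin.cons t x : Fin (m + 1) → K) Q)
        ≤ R.valuation t * 1 := by
          gcongr
          exact valuation_aeval_le R x t halg hx ht Q
      _ = R.valuation t := mul_one _
      _ < 1 := ht
  rw [Valuation.map_add_eq_of_lt_left _ (by rw [h4]; exact h5), h4]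

theorem valuation_aeval_lt_one_iff (R : ValuationSubring K) (x : Fin m → K) (t : K)
    (halg : ∀ c : k, algebraMap k K c ∈ R) (hx : ∀ i, x i ∈ R) (ht : R.valuation t < 1)
    (hres : ∀ P : MvPolynomial (Fin m) k, P ≠ 0 → R.valuation (aeval x P) = 1)
    (P : MvPolynomial (Fin (m + 1)) k) :
    R.valuation (aeval (Fin.cons t x : Fin (m + 1) → K) P) < 1 ↔ X 0 ∣ P := by
  constructor
  · intro h
    by_contra h2
    exact (ne_of_lt h) (valuation_aeval_eq_one R x t halg hx ht hres P h2)
  · rintro ⟨Q, rfl⟩
    rw [map_mul, aeval_X, Fin.cons_zero, map_mul]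
    calc R.valuation t * R.valuation (aeval (Fin.cons t x : Fin (m + 1) → K) Q)
        ≤ R.valuation t * 1 := by
          gcongr
          exact valuation_aeval_le R x t halg hx ht Q
      _ = R.valuation t := mul_one _
      _ < 1 := ht

theorem prime_X0 : Prime (X 0 : MvPolynomial (Fin (m + 1)) k) := by
  have h : Prime (Polynomial.X : Polynomial (MvPolynomial (Fin m) k)) := Polynomial.prime_X
  rw [← finSuccEquiv_X_zero (R := k) (n := m)] at h
  exact (MulEquiv.prime_iff (finSuccEquiv k m).toMulEquiv).mp h

/-- `(t, x)` is algebraically independent. -/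
theorem aeval_cons_injective (R : ValuationSubring K) (x : Fin m → K) (t : K)
    (halg : ∀ c : k, algebraMap k K c ∈ R) (hx : ∀ i, x i ∈ R) (ht : R.valuation t < 1)
    (ht0 : t ≠ 0)
    (hres : ∀ P : MvPolynomial (Fin m) k, P ≠ 0 → R.valuation (aeval x P) = 1) :
    Function.Injective (aeval (Fin.cons t x : Fin (m + 1) → K) :
      MvPolynomial (Fin (m + 1)) k →ₐ[k] K) := by
  rw [injective_iff_map_eq_zero]
  intro P hP
  by_contra hP0
  obtain ⟨e, Q, hQ, rfl⟩ := WfDvdMonoid.max_power_factor hP0 (prime_X0 (k := k)).irreducible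
  rw [map_mul, map_pow, aeval_X, Fin.cons_zero] at hP
  rcases mul_eq_zero.mp hP with h | h
  · exact pow_ne_zero e ht0 h
  · have := valuation_aeval_eq_one R x t halg hx ht hres Q hQ
    rw [h, map_zero] at this
    exact zero_ne_one this

end Poly

end Crest.Agent.R276.DivVal_858
end

-- ▼ part R276/DivVal6_858
section

/-! # Row 276, helper858: divisorial valuations, part 6: main theorem. -/

set_option autoImplicit false

namespace Crest.Agent.R276.DivVal_858

open IsLocalRing MvPolynomial Crest.Agent.R276.FKDefs_779

section Main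

variable {k K : Type*} [Field k] [Field K] [Algebra k K]

/-- A field extension algebraic over `k` has no non-trivial valuation rings containing `k`. -/
theorem pos_of_isDiv {n : ℕ} (hn : Algebra.trdeg k K = n)
    (R : ValuationSubring K) (hR : IsDiv k n R) : 0 < n := by
  rcases Nat.eq_zero_or_pos n with h | h
  · exfalso
    subst h
    have h1 : Algebra.IsAlgebraic k K := by
      have : Algebra.trdeg k K = 0 := by simpa using hn
      exact _root_.trdeg_eq_zero_iff.mp this
    apply hR.ne_top
    rw [eq_top_iff]
    intro x _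
    let : Algebra k R := ((algebraMap k K).codRestrict R.toSubring hR.alg).toAlgebra
    have : IsScalarTower k R K := IsScalarTower.of_algebraMap_eq (fun _ => rfl)
    have h2 : IsIntegral k x := (h1.isAlgebraic x).isIntegral
    obtain ⟨y, hy⟩ := IsIntegrallyClosed.isIntegral_iff.mp (h2.tower_top (A := R))
    rw [← hy]
    exact y.2
  · exact h

/-- The data attached to a choice of `t ∈ m_R` and residually independent `x`. -/
structure Adapted (k : Type*) {K : Type*} [Field k] [Field K] [Algebra k K] {m : ℕ}
    (R : ValuationSubring K) (x : Fin m → K) (t : K) : Prop where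
  alg : ∀ c : k, algebraMap k K c ∈ R
  mem : ∀ i, x i ∈ R
  lt : R.valuation t < 1
  ne : t ≠ 0
  res : ∀ P : MvPolynomial (Fin m) k, P ≠ 0 → R.valuation (aeval x P) = 1

variable {m : ℕ} {R : ValuationSubring K} {x : Fin m → K} {t : K}

namespace Adapted

variable (h : Adapted k R x t)
include h

theorem algInd : AlgebraicIndependent k (Fin.cons t x : Fin (m + 1) → K) :=
  aeval_cons_injective R x t h.alg h.mem h.lt h.ne h.res

theorem basis (hn : Algebra.trdeg k K = (m + 1 : ℕ)) :
    IsTranscendenceBasis k (Fin.cons t x : Fin (m + 1) → K) := by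
  apply h.algInd.isTranscendenceBasis_of_lift_trdeg_le_of_finite
  rw [hn]
  simp

theorem aeval_mem (P : MvPolynomial (Fin (m + 1)) k) :
    aeval (Fin.cons t x : Fin (m + 1) → K) P ∈ R := by
  rw [← ValuationSubring.valuation_le_one_iff]
  exact valuation_aeval_le R x t h.alg h.mem h.lt P

end Adapted

/-- `K` is finite over `Frac k[t, x]`, every element of `K` is algebraic over `k[t,x]`. -/
theorem exists_poly_coeff_not_dvd (h : Adapted k R x t) (hn : Algebra.trdeg k K = (m + 1 : ℕ))
    (y : K) : ∃ P : Polynomial (MvPolynomial (Fin (m + 1)) k), (∃ i, ¬ X 0 ∣ P.coeff i) ∧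
      Polynomial.eval₂ (aeval (Fin.cons t x : Fin (m + 1) → K) :
        MvPolynomial (Fin (m + 1)) k →ₐ[k] K).toRingHom y P = 0 := by
  set A := MvPolynomial (Fin (m + 1)) k
  set φ : A →ₐ[k] K := aeval (Fin.cons t x : Fin (m + 1) → K) with hφ
  have hinj : Function.Injective φ := h.algInd
  have hb := h.basis hn
  have halg : Algebra.IsAlgebraic (Algebra.adjoin k (Set.range (Fin.cons t x : Fin (m + 1) → K))) K :=
    hb.isAlgebraic
  obtain ⟨p, hp0, hp⟩ := halg.isAlgebraic y
  -- lift the coefficients
  have hr : φ.range = Algebra.adjoin k (Set.range (Fin.cons t x : Fin (m + 1) → K)) := by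
    rw [hφ, ← Algebra.adjoin_range_eq_range_aeval]
  have hlift : ∃ q : Polynomial A, q.map φ.toRingHom = p.map (algebraMap _ K) := by
    have : p.map (algebraMap _ K) ∈ Polynomial.lifts φ.toRingHom := by
      rw [Polynomial.lifts_iff_coeff_lifts]
      intro i
      rw [Polynomial.coeff_map]
      have : (algebraMap (Algebra.adjoin k (Set.range (Fin.cons t x : Fin (m + 1) → K))) K)
        (p.coeff i) ∈ φ.range := by
        rw [hr]
        exact (p.coeff i).2
      obtain ⟨a, ha⟩ := this
      exact ⟨a, ha⟩
    obtain ⟨q, hq⟩ := this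
    exact ⟨q, hq⟩
  obtain ⟨q, hq⟩ := hlift
  have hq0 : q ≠ 0 := by
    rintro rfl
    rw [Polynomial.map_zero] at hq
    apply hp0
    have hinj2 : Function.Injective (algebraMap
      (Algebra.adjoin k (Set.range (Fin.cons t x : Fin (m + 1) → K))) K) :=
      Subtype.val_injective
    exact (Polynomial.map_eq_zero_iff hinj2).mp hq.symm
  have hqy : Polynomial.eval₂ φ.toRingHom y q = 0 := by
    rw [← Polynomial.eval_map, hq, Polynomial.eval_map]
    exact hp
  have hC : Prime (Polynomial.C (X 0 : A)) := Polynomial.prime_C_iff.mpr prime_X0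
  obtain ⟨e, q', hq', rfl⟩ := WfDvdMonoid.max_power_factor hq0 hC.irreducible
  refine ⟨q', ?_, ?_⟩
  · by_contra hne
    push Not at hne
    exact hq' ((Polynomial.C_dvd_iff_dvd_coeff _ _).mpr hne)
  · rw [Polynomial.eval₂_mul, Polynomial.eval₂_pow, Polynomial.eval₂_C] at hqy
    rcases mul_eq_zero.mp hqy with h1 | h1
    · exfalso
      have h2 : φ (X 0) = t := by rw [hφ, aeval_X, Fin.cons_zero]
      have h3 : (φ.toRingHom (X 0)) = t := h2
      rw [h3] at h1
      exact pow_ne_zero e h.ne h1
    · exact h1

end Main

end Crest.Agent.R276.DivVal_858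
end

-- ▼ part R276/DivVal7_858
section

/-! # Row 276, helper858: divisorial valuations, part 7: main theorem. -/

set_option autoImplicit false

namespace Crest.Agent.R276.DivVal_858

open IsLocalRing MvPolynomial Crest.Agent.R276.FKDefs_779

section Main

variable {k K : Type*} [Field k] [CharZero k] [Field K] [Algebra k K]
variable {m : ℕ} {R : ValuationSubring K} {x : Fin m → K} {t : K}

attribute [local instance] FractionRing.liftAlgebra

omit [CharZero k] in
theorem finite_aux [Algebra.EssFiniteType k K] (h : Adapted k R x t)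
    (hn : Algebra.trdeg k K = (m + 1 : ℕ)) [Algebra (MvPolynomial (Fin (m + 1)) k) K]
    [IsScalarTower k (MvPolynomial (Fin (m + 1)) k) K]
    [FaithfulSMul (MvPolynomial (Fin (m + 1)) k) K]
    (hφ : ∀ P : MvPolynomial (Fin (m + 1)) k, algebraMap _ K P =
      aeval (Fin.cons t x : Fin (m + 1) → K) P) :
    FiniteDimensional (FractionRing (MvPolynomial (Fin (m + 1)) k)) K := by
  have halg : Algebra.IsAlgebraic (MvPolynomial (Fin (m + 1)) k) K := by
    refine ⟨fun y => ?_⟩
    obtain ⟨P, ⟨i, hi⟩, hP⟩ := exists_poly_coeff_not_dvd h hn y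
    refine ⟨P, ?_, ?_⟩
    · rintro rfl
      exact hi (by simp)
    · rw [Polynomial.aeval_def]
      have : algebraMap (MvPolynomial (Fin (m + 1)) k) K =
        (aeval (Fin.cons t x : Fin (m + 1) → K) :
        MvPolynomial (Fin (m + 1)) k →ₐ[k] K).toRingHom := RingHom.ext hφ
      rw [this]
      exact hP
  have : Algebra.EssFiniteType (FractionRing (MvPolynomial (Fin (m + 1)) k)) K :=
    Algebra.EssFiniteType.of_comp k _ K
  have : Algebra.IsAlgebraic (FractionRing (MvPolynomial (Fin (m + 1)) k)) K :=
    Algebra.IsAlgebraic.extendScalars (R := MvPolynomial (Fin (m + 1)) k)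
      (IsFractionRing.injective _ _)
  exact Algebra.finite_of_essFiniteType_of_isAlgebraic

/-- the valuation ring of an adapted system is a discrete valuation ring. -/
theorem Adapted.dvr [Algebra.EssFiniteType k K] (h : Adapted k R x t)
    (hn : Algebra.trdeg k K = (m + 1 : ℕ)) : IsDiscreteValuationRing R := by
  let A := MvPolynomial (Fin (m + 1)) k
  let φ : A →ₐ[k] K := aeval (Fin.cons t x : Fin (m + 1) → K)
  have hinj : Function.Injective φ := h.algInd
  let : Algebra A K := φ.toRingHom.toAlgebra
  have : IsScalarTower k A K := IsScalarTower.of_algebraMap_eq (fun c => (φ.commutes c).symm)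
  have : FaithfulSMul A K := (faithfulSMul_iff_algebraMap_injective A K).mpr hinj
  have hfin : FiniteDimensional (FractionRing A) K := finite_aux h hn (fun P => rfl)
  have hF0 : CharZero (FractionRing A) := by
    let : Algebra k (FractionRing A) :=
      ((algebraMap A (FractionRing A)).comp (algebraMap k A)).toAlgebra
    exact charZero_of_injective_algebraMap (algebraMap k (FractionRing A)).injective
  let : Algebra A R := (φ.toRingHom.codRestrict R.toSubring h.aeval_mem).toAlgebra
  have : IsScalarTower A R K := IsScalarTower.of_algebraMap_eq (fun _ => rfl)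
  let C := integralClosure A K
  have hCR : ∀ b : C, (b : K) ∈ R := by
    rintro ⟨b, hb⟩
    have hb' : IsIntegral R b := hb.tower_top
    obtain ⟨y, hy⟩ := IsIntegrallyClosed.isIntegral_iff.mp hb'
    have hy' : (y : K) = b := hy
    change b ∈ R
    exact hy' ▸ y.2
  let : Algebra C R := (RingHom.codRestrict (algebraMap C K) R.toSubring hCR).toAlgebra
  have : IsScalarTower C R K := IsScalarTower.of_algebraMap_eq (fun b => rfl)
  have : IsScalarTower A C R := IsScalarTower.of_algebraMap_eq (fun o => by
    apply Subtype.ext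
    rfl)
  have : IsIntegralClosure C A K := inferInstance
  have : IsNoetherianRing C := IsIntegralClosure.isNoetherianRing A (FractionRing A) K C
  have : IsFractionRing C K :=
    IsIntegralClosure.isFractionRing_of_finite_extension A (FractionRing A) K C
  have : IsIntegrallyClosed C :=
    integralClosure.isIntegrallyClosedOfFiniteExtension (FractionRing A)
  have hmem : ∀ y : R, y ∈ maximalIdeal R ↔ R.valuation (y : K) < 1 :=
    fun y => ValuationSubring.valuation_lt_one_iff R y
  have hloc : IsLocalization.AtPrime R ((maximalIdeal R).comap (algebraMap C R)) := by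
    refine isLocalization_atPrime (A := A) R (X 0) prime_X0 (fun a => ?_)
    rw [← IsScalarTower.algebraMap_apply A C R, hmem]
    exact valuation_aeval_lt_one_iff R x t h.alg h.mem h.lt h.res a
  have hN : IsNoetherianRing R := IsLocalization.isNoetherianRing
    ((maximalIdeal R).comap (algebraMap C R)).primeCompl R inferInstance
  have hnf : ¬ IsField R := by
    intro hf
    rw [IsLocalRing.isField_iff_maximalIdeal_eq] at hf
    have htR : t ∈ R := by
      rw [← ValuationSubring.valuation_le_one_iff]; exact h.lt.le
    have : (⟨t, htR⟩ : R) ∈ maximalIdeal R := (hmem _).mpr h.lt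
    rw [hf, Ideal.mem_bot] at this
    exact h.ne (congrArg (fun y : R => (y : K)) this)
  have htf := (IsDiscreteValuationRing.TFAE R hnf).out 0 1
  exact htf.mpr inferInstance

omit [CharZero k] in
/-- an adapted system exists as soon as `R` is divisorial. -/
theorem exists_adapted (R : ValuationSubring K) (hR : IsDiv k (m + 1) R) :
    ∃ (x : Fin m → K) (t : K), Adapted k R x t := by
  obtain ⟨x, hx, hres⟩ := hR.res
  have : ∃ y : K, y ∉ R := by
    by_contra hne
    push Not at hne
    exact hR.ne_top (eq_top_iff.mpr fun y _ => hne y)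
  obtain ⟨y, hy⟩ := this
  have hy1 : 1 < R.valuation y := by
    rw [← not_le, ValuationSubring.valuation_le_one_iff]
    exact hy
  have hy0 : y ≠ 0 := by
    rintro rfl
    exact hy R.zero_mem
  refine ⟨x, y⁻¹, hR.alg, hx, ?_, inv_ne_zero hy0, hres⟩
  rw [map_inv₀]
  exact inv_lt_one_of_one_lt₀ hy1

/-- The étale model for an adapted system whose `t` is a uniformiser. -/
theorem Adapted.exists_model [Algebra.EssFiniteType k K] (h : Adapted k R x t)
    (hn : Algebra.trdeg k K = (m + 1 : ℕ)) (hmax : ∀ y : K, R.valuation y < 1 →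
      R.valuation y ≤ R.valuation t) :
    ∃ (B : Subalgebra k K) (hz : EtChart k K B (Fin.cons t x : Fin (m + 1) → K)),
      (∀ y ∈ B, y ∈ R) ∧ Prime (⟨(Fin.cons t x : Fin (m + 1) → K) 0, hz.mem 0⟩ : B) ∧
      (∀ y : K, y ∈ R ↔ ∃ a b : B,
        ¬ (⟨(Fin.cons t x : Fin (m + 1) → K) 0, hz.mem 0⟩ : B) ∣ b ∧ y * (b : K) = a) ∧
      (∀ a : B, R.valuation (a : K) < 1 ↔
        (⟨(Fin.cons t x : Fin (m + 1) → K) 0, hz.mem 0⟩ : B) ∣ a) := by
  let A := MvPolynomial (Fin (m + 1)) k
  let φ : A →ₐ[k] K := aeval (Fin.cons t x : Fin (m + 1) → K)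
  have hinj : Function.Injective φ := h.algInd
  let : Algebra A K := φ.toRingHom.toAlgebra
  have : IsScalarTower k A K := IsScalarTower.of_algebraMap_eq (fun c => (φ.commutes c).symm)
  have : FaithfulSMul A K := (faithfulSMul_iff_algebraMap_injective A K).mpr hinj
  have hfin : FiniteDimensional (FractionRing A) K := finite_aux h hn (fun P => rfl)
  let : Algebra A R := (φ.toRingHom.codRestrict R.toSubring h.aeval_mem).toAlgebra
  have : IsScalarTower A R K := IsScalarTower.of_algebraMap_eq (fun _ => rfl)
  have hmem : ∀ y : R, y ∈ maximalIdeal R ↔ R.valuation (y : K) < 1 :=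
    fun y => ValuationSubring.valuation_lt_one_iff R y
  have htR : ∀ a : A, algebraMap A R a ∈ maximalIdeal R ↔ X 0 ∣ a := by
    intro a
    rw [hmem]
    exact valuation_aeval_lt_one_iff R x t h.alg h.mem h.lt h.res a
  have hφ0 : φ (X 0) = t := by
    change aeval (Fin.cons t x : Fin (m + 1) → K) (X 0) = t
    rw [aeval_X, Fin.cons_zero]
  have hgen : maximalIdeal R = Ideal.span {algebraMap A R (X 0)} := by
    apply le_antisymm
    · intro y hy
      rw [Ideal.mem_span_singleton]
      have h1 : R.valuation (y : K) ≤ R.valuation t := hmax _ ((hmem y).mp hy)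
      have h2 : (y : K) / t ∈ R := by
        rw [← ValuationSubring.valuation_le_one_iff, map_div₀]
        exact div_le_one_of_le₀ h1 zero_le
      refine ⟨⟨(y : K) / t, h2⟩, ?_⟩
      apply Subtype.ext
      change (y : K) = φ (X 0) * ((y : K) / t)
      rw [hφ0, mul_div_cancel₀ _ h.ne]
    · rw [Ideal.span_singleton_le_iff_mem]
      exact (htR _).mpr dvd_rfl
  have halg : ∀ y : R, ∃ P : Polynomial A, (∃ i, ¬ X 0 ∣ P.coeff i) ∧
      Polynomial.aeval y P ∈ maximalIdeal R := by
    intro y
    obtain ⟨P, hP, hPy⟩ := exists_poly_coeff_not_dvd h hn (y : K)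
    refine ⟨P, hP, ?_⟩
    have : Polynomial.aeval y P = 0 := by
      apply Subtype.ext
      have h1 : Polynomial.aeval (y : K) P = ((Polynomial.aeval y P : R) : K) :=
        Polynomial.aeval_algebraMap_apply K y P
      rw [← h1]
      exact hPy
    rw [this]
    exact Ideal.zero_mem _
  obtain ⟨B, hBR, hEt, hFr, hPr, hR1, hR2⟩ := exists_etale_subalgebra k (FractionRing A) R (X 0)
    prime_X0 htR hgen halg
  let B' : Subalgebra k K := B.restrictScalars k
  have hmemB : ∀ P : A, φ P ∈ B' := fun P => (algebraMap A B P).2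
  have hzmem : ∀ i, (Fin.cons t x : Fin (m + 1) → K) i ∈ B' := by
    intro i
    have := hmemB (X i)
    change aeval (Fin.cons t x : Fin (m + 1) → K) (X i) ∈ B' at this
    rwa [aeval_X] at this
  have hFG : B'.FG := by
    have h1 : Algebra.FiniteType A B := inferInstance
    have h2 : Algebra.FiniteType k A := inferInstance
    have h3 : Algebra.FiniteType k B := Algebra.FiniteType.trans h2 h1
    have h4 : Algebra.FiniteType k B' := h3
    exact (Subalgebra.fg_iff_finiteType B').mpr h4
  have hfrac : ∀ a : K, ∃ b ∈ B', ∃ s ∈ B', s ≠ 0 ∧ a = b * s⁻¹ := by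
    intro a
    obtain ⟨b, s, hs, hbs⟩ := IsFractionRing.div_surjective (A := B) a
    refine ⟨(b : K), b.2, (s : K), s.2, ?_, ?_⟩
    · intro h0
      exact (mem_nonZeroDivisors_iff_ne_zero.mp hs) (Subtype.ext h0)
    · rw [← hbs, div_eq_mul_inv]
      rfl
  have hetale : RingHom.Etale ((MvPolynomial.aeval (fun i => (⟨(Fin.cons t x : Fin (m + 1) → K) i,
      hzmem i⟩ : B')) : MvPolynomial (Fin (m + 1)) k →ₐ[k] B') :
      MvPolynomial (Fin (m + 1)) k →+* B') := by
    have h1 : ((MvPolynomial.aeval (fun i => (⟨(Fin.cons t x : Fin (m + 1) → K) i,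
      hzmem i⟩ : B')) : MvPolynomial (Fin (m + 1)) k →ₐ[k] B') :
      MvPolynomial (Fin (m + 1)) k →+* B') = algebraMap A B := by
      apply MvPolynomial.ringHom_ext
      · intro c
        apply Subtype.ext
        have h2 : ((algebraMap A B (C c) : B) : K) = algebraMap k K c := by
          change φ (C c) = _
          exact φ.commutes c
        refine Eq.trans ?_ h2.symm
        change (((MvPolynomial.aeval (fun i => (⟨(Fin.cons t x : Fin (m + 1) → K) i,
          hzmem i⟩ : B')) : MvPolynomial (Fin (m + 1)) k →ₐ[k] B') (C c) : B') : K) = _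
        rw [MvPolynomial.algHom_C]
        rfl
      · intro i
        apply Subtype.ext
        have h2 : ((algebraMap A B (X i) : B) : K) = (Fin.cons t x : Fin (m + 1) → K) i := by
          change φ (X i) = _
          change aeval (Fin.cons t x : Fin (m + 1) → K) (X i) = _
          rw [aeval_X]
        refine Eq.trans ?_ h2.symm
        change (((MvPolynomial.aeval (fun i => (⟨(Fin.cons t x : Fin (m + 1) → K) i,
          hzmem i⟩ : B')) : MvPolynomial (Fin (m + 1)) k →ₐ[k] B') (X i) : B') : K) = _
        rw [aeval_X]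
    have h5 : (algebraMap A B).Etale := RingHom.etale_algebraMap.mpr hEt
    rw [h1]
    exact h5
  have hz : EtChart k K B' (Fin.cons t x : Fin (m + 1) → K) := ⟨hFG, hfrac, hzmem, hetale⟩
  have hX0 : (algebraMap A B (X 0) : B) = (⟨(Fin.cons t x : Fin (m + 1) → K) 0, hz.mem 0⟩ : B') := by
    apply Subtype.ext
    change φ (X 0) = t
    exact hφ0
  refine ⟨B', hz, hBR, ?_, ?_, ?_⟩
  · rw [← hX0]; exact hPr
  · rw [← hX0]; exact hR1
  · intro a
    rw [← hX0]
    refine Iff.trans ?_ (hR2 a)
    constructor
    · intro ha
      have haR : (a : K) ∈ R := hBR _ a.2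
      exact ⟨⟨(a : K), haR⟩, (hmem _).mpr ha, rfl⟩
    · rintro ⟨y, hy, hya⟩
      have hya' : (y : K) = (a : K) := hya
      rw [← hya']
      exact (hmem _).mp hy

end Main

end Crest.Agent.R276.DivVal_858
end

-- ▼ part R276/DivVal8_858

/-! # Row 276, helper858: divisorial valuations, part 8: the final statements. -/

set_option autoImplicit false

namespace Crest.Agent.R276.DivVal_858

open IsLocalRing MvPolynomial Crest.Agent.R276.FKDefs_779

section Main

variable {k K : Type*} [Field k] [CharZero k] [Field K] [Algebra k K]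

/-- `t` is a uniformiser of `R` (multiplicative valuation: largest value `< 1`). -/
structure IsUnif (R : ValuationSubring K) (t : K) : Prop where
  lt : R.valuation t < 1
  ne : t ≠ 0
  max : ∀ y : K, R.valuation y < 1 → R.valuation y ≤ R.valuation t

omit [CharZero k] in
/-- uniformisers exist in a DVR. -/
theorem exists_isUnif (R : ValuationSubring K) [IsDiscreteValuationRing R] :
    ∃ t : K, IsUnif R t := by
  obtain ⟨ϖ, hϖ⟩ := IsDiscreteValuationRing.exists_irreducible R
  have hm := (IsDiscreteValuationRing.irreducible_iff_uniformizer ϖ).mp hϖ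
  have hmem : ∀ y : R, y ∈ maximalIdeal R ↔ R.valuation (y : K) < 1 :=
    fun y => ValuationSubring.valuation_lt_one_iff R y
  refine ⟨(ϖ : K), ?_, ?_, ?_⟩
  · rw [← hmem, hm]
    exact Ideal.mem_span_singleton_self ϖ
  · intro h
    exact hϖ.ne_zero (Subtype.ext h)
  · intro y hy
    have hyR : y ∈ R := by
      rw [← ValuationSubring.valuation_le_one_iff]; exact hy.le
    have h1 : (⟨y, hyR⟩ : R) ∈ maximalIdeal R := (hmem _).mpr hy
    rw [hm, Ideal.mem_span_singleton] at h1
    obtain ⟨c, hc⟩ := h1
    have h2 : y = (ϖ : K) * (c : K) := congrArg (fun z : R => (z : K)) hc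
    rw [h2, map_mul]
    have h3 : R.valuation (c : K) ≤ 1 := R.valuation_le_one c
    exact mul_le_of_le_one_right' h3

variable [Algebra.EssFiniteType k K] {n : ℕ} (hn : Algebra.trdeg k K = n)
include hn

/-- **a divisorial valuation ring is a discrete valuation ring** -/
theorem dvr_of_isDiv {R : ValuationSubring K} (hR : IsDiv k n R) : IsDiscreteValuationRing R := by
  obtain ⟨m, rfl⟩ : ∃ m, n = m + 1 := ⟨n - 1, by have := pos_of_isDiv hn R hR; omega⟩
  obtain ⟨x, t, h⟩ := exists_adapted R hR
  exact h.dvr hn

omit hn in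
/-- The étale chart `(B, (t, x))` of `K/k` attached to a uniformiser `t` and to ANY `x : Fin m → K`
with algebraically independent residues (`m + 1 = trdeg`): `B ⊆ R`, `t` is prime in `B`,
`R = B_(t)`. -/
theorem exists_chart_of_unif {m : ℕ} (hn : Algebra.trdeg k K = (m + 1 : ℕ))
    (R : ValuationSubring K) (hk : ∀ c : k, algebraMap k K c ∈ R) (x : Fin m → K)
    (hx : ∀ i, x i ∈ R) (hres : ∀ P : MvPolynomial (Fin m) k, P ≠ 0 →
      R.valuation (aeval x P) = 1) (t : K) (ht : IsUnif R t) :
    ∃ (B : Subalgebra k K) (hz : EtChart k K B (Fin.cons t x : Fin (m + 1) → K)),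
      (∀ y ∈ B, y ∈ R) ∧ Prime (⟨(Fin.cons t x : Fin (m + 1) → K) 0, hz.mem 0⟩ : B) ∧
      (∀ y : K, y ∈ R ↔ ∃ a b : B,
        ¬ (⟨(Fin.cons t x : Fin (m + 1) → K) 0, hz.mem 0⟩ : B) ∣ b ∧ y * (b : K) = a) ∧
      (∀ a : B, R.valuation (a : K) < 1 ↔
        (⟨(Fin.cons t x : Fin (m + 1) → K) 0, hz.mem 0⟩ : B) ∣ a) :=
  Adapted.exists_model ⟨hk, hx, ht.lt, ht.ne, hres⟩ hn ht.max

/-- **THE CHART OF A DIVISORIAL VALUATION.** -/
theorem exists_chart_of_isDiv {R : ValuationSubring K} (hR : IsDiv k n R) :
    ∃ (B : Subalgebra k K) (z : Fin n → K) (i₀ : Fin n) (hz : EtChart k K B z),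
      IsUnif R (z i₀) ∧ (∀ i, z i ∈ R) ∧
      (∀ P : MvPolynomial {i : Fin n // i ≠ i₀} k, P ≠ 0 →
        R.valuation (aeval (fun i => z i.1) P) = 1) ∧
      (∀ y ∈ B, y ∈ R) ∧ Prime (⟨z i₀, hz.mem i₀⟩ : B) ∧
      (∀ y : K, y ∈ R ↔ ∃ a b : B, ¬ (⟨z i₀, hz.mem i₀⟩ : B) ∣ b ∧ y * (b : K) = a) ∧
      (∀ a : B, R.valuation (a : K) < 1 ↔ (⟨z i₀, hz.mem i₀⟩ : B) ∣ a) := by
  have hdvr := dvr_of_isDiv hn hR
  obtain ⟨m, rfl⟩ : ∃ m, n = m + 1 := ⟨n - 1, by have := pos_of_isDiv hn R hR; omega⟩
  obtain ⟨x, hx, hres⟩ := hR.res
  obtain ⟨t, ht⟩ := exists_isUnif R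
  obtain ⟨B, hz, h1, h2, h3, h4⟩ := exists_chart_of_unif hn R hR.alg x hx hres t ht
  refine ⟨B, Fin.cons t x, 0, hz, ht, ?_, ?_, h1, h2, h3, h4⟩
  · intro i
    exact h1 _ (hz.mem i)
  · intro P hP
    -- transport along `Fin m ≃ {i // i ≠ 0}`
    let f : {i : Fin (m + 1) // i ≠ 0} → Fin m := fun i => i.1.pred i.2
    have hf : Function.Injective f := by
      rintro ⟨i, hi⟩ ⟨j, hj⟩ hij
      exact Subtype.ext (Fin.pred_inj.mp hij)
    have h5 : (fun i : {i : Fin (m + 1) // i ≠ 0} => (Fin.cons t x : Fin (m + 1) → K) i.1) =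
        x ∘ f := by
      funext i
      obtain ⟨j, hj⟩ : ∃ j : Fin m, i.1 = j.succ := ⟨i.1.pred i.2, (Fin.succ_pred _ _).symm⟩
      have : f i = j := by
        change i.1.pred i.2 = j
        rw [Fin.pred_eq_iff_eq_succ]
        exact hj
      rw [Function.comp_apply, this, hj, Fin.cons_succ]
    have h6 : aeval (fun i : {i : Fin (m + 1) // i ≠ 0} => (Fin.cons t x : Fin (m + 1) → K) i.1) P
        = aeval x (rename f P) := by
      rw [aeval_rename, h5]
    rw [h6]
    apply hres
    intro h0
    exact hP ((rename_injective f hf) (by rw [h0, map_zero]))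

end Main

end Crest.Agent.R276.DivVal_858
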