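import Crest.Agent.R271.H2_51
import Crest.Agent.R276.BC4_986
import Crest.Agent.R276.AB2_590
import Crest.Agent.R276.FKDefs_779
import Crest.Agent.R271.Rd8_692

-- ▼ part R276/Jet_870
section

/-!
# Row 276, LEMMA JET (helper870)

If continuous functions `g j` on a Riemann domain have algebraically independent restrictions to the
slice `{t_i = c_i}` (`t_i` = some of the coordinates), then the `g j` and the `t_i` together are
algebraically independent.  No analyticity is needed.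
-/

set_option autoImplicit false
set_option linter.unusedSectionVars false

open Set Filter Topology MvPolynomial

namespace Crest.Agent.R276.Jet_870

/-- one slice -/
theorem step {X : Type*} [TopologicalSpace X] {κ : Type*} (A : Set X) (f : κ → X → ℂ) (t : X → ℂ)
    (c : ℂ) (hf : ∀ j, ContinuousOn (f j) A) (ht : ContinuousOn t A)
    (hdens : ∀ x ∈ A, t x = c → x ∈ closure (A ∩ {y | t y ≠ c}))
    (h : ∀ Q : MvPolynomial κ ℂ, Q ≠ 0 → ∃ x ∈ A, t x = c ∧ eval (fun j => f j x) Q ≠ 0)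
    (P : Polynomial (MvPolynomial κ ℂ)) (hP : P ≠ 0) :
    ∃ x ∈ A, (P.map (eval fun j => f j x)).eval (t x) ≠ 0 := by
  by_contra hcon
  push Not at hcon
  obtain ⟨P1, hP1, hndvd⟩ := Polynomial.exists_eq_pow_rootMultiplicity_mul_and_not_dvd P hP
    (C c : MvPolynomial κ ℂ)
  set k := P.rootMultiplicity (C c : MvPolynomial κ ℂ) with hk
  have hQ : P1.eval (C c : MvPolynomial κ ℂ) ≠ 0 := fun h0 =>
    hndvd (Polynomial.dvd_iff_isRoot.2 h0)
  obtain ⟨x, hxA, hxc, hx⟩ := h _ hQ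
  -- the function `P1(f, t)` vanishes off `t = c`
  have h1 : ∀ y ∈ A, t y ≠ c → (P1.map (eval fun j => f j y)).eval (t y) = 0 := by
    intro y hy hyc
    have h2 := hcon y hy
    rw [hP1] at h2
    simp only [Polynomial.map_mul, Polynomial.map_pow, Polynomial.map_sub, Polynomial.map_X,
      Polynomial.map_C, eval_C, Polynomial.eval_mul, Polynomial.eval_pow, Polynomial.eval_sub,
      Polynomial.eval_X, Polynomial.eval_C] at h2
    rcases mul_eq_zero.1 h2 with h3 | h3
    · exact absurd (eq_zero_of_pow_eq_zero h3) (sub_ne_zero.2 hyc)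
    · exact h3
  have hcont : ContinuousOn (fun y => (P1.map (eval fun j => f j y)).eval (t y)) A := by
    have h4 : ∀ Q : MvPolynomial κ ℂ, ContinuousOn (fun y => eval (fun j => f j y) Q) A := by
      intro Q
      induction Q using MvPolynomial.induction_on with
      | C a => simpa using continuousOn_const
      | add p q hp hq =>
        simp only [map_add]
        exact hp.add hq
      | mul_X p i hp =>
        simp only [map_mul, eval_X]
        exact hp.mul (hf i)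
    have h5 : (fun y => (P1.map (eval fun j => f j y)).eval (t y)) =
        fun y => ∑ i ∈ Finset.range (P1.natDegree + 1), eval (fun j => f j y) (P1.coeff i) * t y ^ i := by
      funext y
      rw [Polynomial.eval_map, Polynomial.eval₂_eq_sum_range]
    rw [h5]
    exact continuousOn_finsetSum _ fun i _ => (h4 _).mul (ht.pow i)
  have h6 : (P1.map (eval fun j => f j x)).eval (t x) = 0 := by
    have h7 : x ∈ closure (A ∩ {y | t y ≠ c}) := hdens x hxA hxc
    have h8 : Tendsto (fun y => (P1.map (eval fun j => f j y)).eval (t y))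
        (𝓝[A ∩ {y | t y ≠ c}] x) (𝓝 ((P1.map (eval fun j => f j x)).eval (t x))) :=
      (hcont x hxA).mono_left (nhdsWithin_mono x inter_subset_left)
    have : NeBot (𝓝[A ∩ {y | t y ≠ c}] x) := mem_closure_iff_nhdsWithin_neBot.1 h7
    refine tendsto_nhds_unique h8 ((tendsto_const_nhds (x := (0 : ℂ))).congr' ?_)
    filter_upwards [self_mem_nhdsWithin] with y hy
    exact (h1 y hy.1 hy.2).symm
  apply hx
  rw [hxc] at h6
  rw [← h6, Polynomial.eval_map, ← Polynomial.eval₂_id]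
  rw [Polynomial.hom_eval₂]
  simp

open Crest.Agent.R271.Ho51

variable {n : ℕ} {M : Type*} [TopologicalSpace M] [RDom n M]

/-- moving in one coordinate direction inside a Riemann domain -/
lemma move (x : M) (i : Fin n) (U : Set M) (hU : U ∈ 𝓝 x) :
    ∃ y ∈ U, (∀ j, j ≠ i → cp y j = cp x j) ∧ cp y i ≠ cp x i := by
  have hsrc : (ch x).symm (cp x) = x := (isCh_ch x).symm_cp (mem_ch x)
  have htgt : cp x ∈ (ch x).target := (isCh_ch x).cp_mem (mem_ch x)
  have h1 : Tendsto (fun τ : ℂ => (ch x).symm (cp x + Pi.single i τ)) (𝓝 0) (𝓝 x) := by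
    have h2 : ContinuousAt (ch x).symm (cp x) := (ch x).symm.continuousAt (by simpa using htgt)
    have h3 : Tendsto (fun τ : ℂ => cp x + Pi.single i τ) (𝓝 0) (𝓝 (cp x)) := by
      have : Continuous (fun τ : ℂ => cp x + Pi.single i τ) :=
        continuous_const.add (continuous_single (A := fun _ : Fin n => ℂ) i)
      simpa using this.tendsto 0
    rw [ContinuousAt, hsrc] at h2
    exact h2.comp h3
  have h4 : ∀ᶠ τ : ℂ in 𝓝 0, cp x + Pi.single i τ ∈ (ch x).target := by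
    have : Continuous (fun τ : ℂ => cp x + Pi.single i τ) :=
      continuous_const.add (continuous_single (A := fun _ : Fin n => ℂ) i)
    exact this.continuousAt.eventually_mem ((ch x).open_target.mem_nhds (by simpa using htgt))
  have h5 := (h1.eventually_mem hU).and h4
  obtain ⟨τ, ⟨hτU, hτt⟩, hτ0⟩ : ∃ τ : ℂ, ((ch x).symm (cp x + Pi.single i τ) ∈ U ∧
      cp x + Pi.single i τ ∈ (ch x).target) ∧ τ ≠ 0 := by
    have h6 : ∀ᶠ τ : ℂ in 𝓝[≠] 0, ((ch x).symm (cp x + Pi.single i τ) ∈ U ∧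
      cp x + Pi.single i τ ∈ (ch x).target) := h5.filter_mono nhdsWithin_le_nhds
    exact (h6.and self_mem_nhdsWithin).exists
  refine ⟨(ch x).symm (cp x + Pi.single i τ), hτU, fun j hj => ?_, ?_⟩
  · rw [(isCh_ch x).cp_symm hτt]
    simp [Pi.single_eq_of_ne hj]
  · rw [(isCh_ch x).cp_symm hτt]
    simpa using hτ0

/-- **LEMMA JET**, inductive form: slices given by a list of distinct coordinates -/
theorem jet_aux (Ω : Set M) (hΩ : IsOpen Ω) (c : Fin n → ℂ) :
    ∀ (s s' : Finset (Fin n)) (_ : Disjoint s s') {κ : Type} (g : κ → M → ℂ)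
      (_ : ∀ j, ContinuousOn (g j) Ω)
      (_ : ∀ Q : MvPolynomial κ ℂ, Q ≠ 0 → ∃ x ∈ Ω, (∀ i ∈ s ∪ s', cp x i = c i) ∧
        eval (fun j => g j x) Q ≠ 0)
      (P : MvPolynomial (κ ⊕ s) ℂ), P ≠ 0 →
      ∃ x ∈ Ω, (∀ i ∈ s', cp x i = c i) ∧
        eval (Sum.elim (fun j => g j x) (fun i : s => cp x i)) P ≠ 0 := by
  intro s
  induction s using Finset.induction_on with
  | empty =>
    intro s' _ κ g hg h P hP
    let e : κ ⊕ (∅ : Finset (Fin n)) ≃ κ := Equiv.sumEmpty _ _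
    have hinj := (rename_injective (R := ℂ) e e.injective)
    obtain ⟨x, hx, hs, hne⟩ := h (rename e P) (fun h0 => hP (hinj (by rw [h0, map_zero])))
    refine ⟨x, hx, fun i hi => hs i (by simp [hi]), ?_⟩
    rw [eval_rename] at hne
    convert hne using 2
    congr 1
    funext j
    rcases j with j | j
    · rfl
    · exact absurd j.2 (Finset.notMem_empty _)
  | insert a s ha ih =>
    intro s' hdis κ g hg h P hP
    rw [Finset.disjoint_insert_left] at hdis
    -- first the coordinates in `s`, on the slice `a ∪ s'`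
    have h1 := ih (insert a s') (by
      rw [Finset.disjoint_insert_right]; exact ⟨ha, hdis.2⟩) g hg (fun Q hQ => by
        obtain ⟨x, hx, hs, hne⟩ := h Q hQ
        exact ⟨x, hx, fun i hi => hs i (by
          simp only [Finset.mem_union, Finset.mem_insert] at hi ⊢; tauto), hne⟩)
    -- then the coordinate `a`
    let f : κ ⊕ s → M → ℂ := fun j x => Sum.elim (fun j => g j x) (fun i : s => cp x i) j
    let A : Set M := {x | x ∈ Ω ∧ ∀ i ∈ s', cp x i = c i}
    have hcp : ∀ i : Fin n, Continuous fun x : M => cp x i := fun i =>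
      (continuous_apply i).comp cp_cont
    let e : κ ⊕ ↥(insert a s) ≃ Option (κ ⊕ s) :=
      { toFun := fun j => match j with
          | Sum.inl j => some (Sum.inl j)
          | Sum.inr i => if hi : (i : Fin n) = a then none else
              some (Sum.inr ⟨i, (Finset.mem_insert.1 i.2).resolve_left hi⟩)
        invFun := fun j => match j with
          | none => Sum.inr ⟨a, Finset.mem_insert_self a s⟩
          | some (Sum.inl j) => Sum.inl j
          | some (Sum.inr i) => Sum.inr ⟨i, Finset.mem_insert_of_mem i.2⟩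
        left_inv := by
          rintro (j | i)
          · rfl
          · by_cases hi : (i : Fin n) = a
            · simp only [hi, dite_true]
              congr 1
              exact Subtype.ext hi.symm
            · simp only [hi, dite_false]
        right_inv := by
          rintro (_ | j | i)
          · simp
          · rfl
          · have : (i : Fin n) ≠ a := fun h => ha (h ▸ i.2)
            simp [this] }
    let P' : Polynomial (MvPolynomial (κ ⊕ s) ℂ) := optionEquivLeft ℂ (κ ⊕ s) (rename e P)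
    have hP' : P' ≠ 0 := by
      intro h0
      apply hP
      have h2 : rename e P = 0 := (optionEquivLeft ℂ (κ ⊕ s)).injective (by rw [map_zero]; exact h0)
      exact rename_injective (R := ℂ) e e.injective (by rw [h2, map_zero])
    obtain ⟨x, hxA, hx⟩ := step A f (fun x => cp x a) (c a) (by
        rintro (j | i)
        · exact (hg j).mono fun x hx => hx.1
        · exact (hcp i).continuousOn) (hcp a).continuousOn (by
        intro x hx hxa
        rw [mem_closure_iff_nhds]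
        intro U hU
        obtain ⟨y, hy, hyj, hya⟩ := move x a (U ∩ Ω) (inter_mem hU (hΩ.mem_nhds hx.1))
        refine ⟨y, hy.1, ⟨hy.2, fun i hi => ?_⟩, ?_⟩
        · rw [hyj i (fun h => hdis.1 (h ▸ hi))]
          exact hx.2 i hi
        · show cp y a ≠ c a
          rw [← hxa]; exact hya) (by
        intro Q hQ
        obtain ⟨x, hx, hs, hne⟩ := h1 Q hQ
        exact ⟨x, ⟨hx, fun i hi => hs i (by simp [hi])⟩, hs a (by simp), hne⟩) P' hP'
    refine ⟨x, hxA.1, hxA.2, ?_⟩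
    have h3 : (P'.map (eval fun j => f j x)).eval (cp x a) =
        eval (Sum.elim (fun j => g j x) (fun i : ↥(insert a s) => cp x i)) P := by
      have h4 : ∀ R : MvPolynomial (Option (κ ⊕ s)) ℂ,
          ((optionEquivLeft ℂ (κ ⊕ s) R).map (eval fun j => f j x)).eval (cp x a) =
          eval (fun o : Option (κ ⊕ s) => o.elim (cp x a) (fun j => f j x)) R := by
        intro R
        induction R using MvPolynomial.induction_on with
        | C b =>
          simp [optionEquivLeft_C]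
        | add p q hp hq =>
          rw [map_add, Polynomial.map_add, Polynomial.eval_add, hp, hq, map_add]
        | mul_X p i hp =>
          rw [map_mul, Polynomial.map_mul, Polynomial.eval_mul, hp, map_mul, eval_X]
          congr 1
          rcases i with _ | i
          · simp
          · simp
      show ((optionEquivLeft ℂ (κ ⊕ s) (rename e P)).map (eval fun j => f j x)).eval (cp x a) = _
      rw [h4, eval_rename]
      congr 2
      funext j
      rcases j with j | i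
      · rfl
      · by_cases hi : (i : Fin n) = a
        · simp [e, hi]
        · simp [e, hi, f]
    rw [h3] at hx
    exact hx

/-- **LEMMA JET** -/
theorem jet {κ : Type} (Ω : Set M) (hΩ : IsOpen Ω) (c : Fin n → ℂ) (s : Finset (Fin n))
    (g : κ → M → ℂ) (hg : ∀ j, ContinuousOn (g j) Ω)
    (h : ∀ Q : MvPolynomial κ ℂ, Q ≠ 0 → ∃ x ∈ Ω, (∀ i ∈ s, cp x i = c i) ∧
      eval (fun j => g j x) Q ≠ 0)
    (P : MvPolynomial (κ ⊕ s) ℂ) (hP : P ≠ 0) :
    ∃ x ∈ Ω, eval (Sum.elim (fun j => g j x) (fun i : s => cp x i)) P ≠ 0 := by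
  obtain ⟨x, hx, -, hne⟩ := jet_aux Ω hΩ c s ∅ (by simp) g hg (fun Q hQ => by
    obtain ⟨x, hx, hs, hne⟩ := h Q hQ
    exact ⟨x, hx, fun i hi => hs i (by simpa using hi), hne⟩) P hP
  exact ⟨x, hx, hne⟩


/-- the same with one denominator `F0` -/
theorem jet_algInd_ratio {B : Type*} [CommRing B] [IsDomain B] [Algebra ℂ B] {K : Type*} [Field K]
    [Algebra ℂ K] [Algebra B K] [IsScalarTower ℂ B K] (hBK : Function.Injective (algebraMap B K))
    (ev : M → B →ₐ[ℂ] ℂ)
    (hev : ∀ b, Continuous fun x => ev x b) (z : Fin n → B) (hz : ∀ x i, ev x (z i) = cp x i)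
    {κ : Type} (c : Fin n → ℂ) (s : Finset (Fin n)) (F0 : B) (b : κ → B)
    (h : ∀ Q : MvPolynomial κ ℂ, Q ≠ 0 → ∃ x, (∀ i ∈ s, cp x i = c i) ∧ ev x F0 ≠ 0 ∧
      eval (fun j => ev x (b j) / ev x F0) Q ≠ 0) :
    AlgebraicIndependent ℂ (Sum.elim (fun j => algebraMap B K (b j) / algebraMap B K F0)
      (fun i : s => algebraMap B K (z i))) := by
  classical
  obtain ⟨x0, -, hx0, -⟩ := h 1 one_ne_zero
  have hF0 : F0 ≠ 0 := fun h0 => hx0 (by rw [h0, map_zero])
  have hF0K : algebraMap B K F0 ≠ 0 := fun h0 => hF0 (hBK (by rw [h0, map_zero]))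
  rw [algebraicIndependent_iff]
  intro P hP0
  by_contra hP
  obtain ⟨x, hxΩ, hx⟩ := jet (M := M) {x | ev x F0 ≠ 0}
    (isOpen_ne_fun (hev F0) continuous_const) c s (fun j x => ev x (b j) / ev x F0)
    (fun j => (hev (b j)).continuousOn.div (hev F0).continuousOn fun x hx => hx) (fun Q hQ => by
      obtain ⟨x, hx, hx0, hne⟩ := h Q hQ
      exact ⟨x, hx0, hx, hne⟩) P hP
  apply hx
  -- extend the evaluation to `B[1/F0]`
  let L := Localization.Away F0
  have hu : IsUnit (ev x F0) := isUnit_iff_ne_zero.2 hxΩ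
  have huK : IsUnit (algebraMap B K F0) := isUnit_iff_ne_zero.2 hF0K
  let evL : L →+* ℂ := IsLocalization.Away.lift (x := F0) (g := (ev x : B →+* ℂ)) hu
  let iK : L →+* K := IsLocalization.Away.lift (x := F0) (g := algebraMap B K) huK
  have hevL : ∀ a : B, evL (algebraMap B L a) = ev x a := fun a =>
    IsLocalization.Away.lift_eq (x := F0) (g := (ev x : B →+* ℂ)) hu a
  have hiK : ∀ a : B, iK (algebraMap B L a) = algebraMap B K a := fun a =>
    IsLocalization.Away.lift_eq (x := F0) (g := algebraMap B K) huK a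
  let f : κ ⊕ s → L := Sum.elim (fun j => IsLocalization.mk' L (b j)
    (⟨F0, Submonoid.mem_powers F0⟩ : Submonoid.powers F0)) (fun i : s => algebraMap B L (z i))
  have hspec : ∀ a : B, IsLocalization.mk' L a (⟨F0, Submonoid.mem_powers F0⟩ : Submonoid.powers F0) *
      algebraMap B L F0 = algebraMap B L a := fun a => IsLocalization.mk'_spec L a _
  have hfK : ∀ j, iK (f j) = Sum.elim (fun j => algebraMap B K (b j) / algebraMap B K F0)
      (fun i : s => algebraMap B K (z i)) j := by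
    rintro (j | i)
    · show iK (IsLocalization.mk' L (b j) _) = algebraMap B K (b j) / algebraMap B K F0
      rw [eq_div_iff hF0K, ← hiK F0, ← map_mul, hspec, hiK]
    · exact hiK _
  have hfe : ∀ j, evL (f j) = Sum.elim (fun j => ev x (b j) / ev x F0)
      (fun i : s => cp x i) j := by
    rintro (j | i)
    · show evL (IsLocalization.mk' L (b j) _) = ev x (b j) / ev x F0
      rw [eq_div_iff hxΩ, ← hevL F0, ← map_mul, hspec, hevL]
    · exact (hevL _).trans (hz x i)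
  have hinj : Function.Injective iK := by
    rw [injective_iff_map_eq_zero]
    intro y hy
    obtain ⟨a, m, rfl⟩ := IsLocalization.exists_mk'_eq (Submonoid.powers F0) y
    have h1 : iK (IsLocalization.mk' L a m * algebraMap B L m) = 0 := by rw [map_mul, hy, zero_mul]
    rw [IsLocalization.mk'_spec, hiK] at h1
    have h2 : a = 0 := hBK (by rw [h1, map_zero])
    rw [h2, IsLocalization.mk'_zero]
  have hP1 : iK (MvPolynomial.eval₂ (algebraMap ℂ L) f P) = 0 := by
    rw [MvPolynomial.hom_eval₂]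
    rw [aeval_def] at hP0
    rw [← hP0]
    congr 1
    · ext a
      show iK (algebraMap ℂ L a) = algebraMap ℂ K a
      rw [IsScalarTower.algebraMap_apply ℂ B L, hiK, ← IsScalarTower.algebraMap_apply]
    · funext j
      exact hfK j
  have hP2 : MvPolynomial.eval₂ (algebraMap ℂ L) f P = 0 := hinj (by rw [hP1, map_zero])
  have hP3 : evL (MvPolynomial.eval₂ (algebraMap ℂ L) f P) = 0 := by rw [hP2, map_zero]
  rw [MvPolynomial.hom_eval₂] at hP3
  rw [← hP3]
  have h4 : evL.comp (algebraMap ℂ L) = RingHom.id ℂ := by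
    ext a
    show evL (algebraMap ℂ L a) = a
    rw [IsScalarTower.algebraMap_apply ℂ B L, hevL]
    simp
  rw [h4]
  show eval _ P = eval _ P
  congr 2
  funext j
  rw [hfe]

end Crest.Agent.R276.Jet_870
end

-- ▼ part R276/EndA_723

/-!
# Row 276, D-END (helper723), part A: from one psh weight and extension from a fibre to `d + e + ρ`

Everything happens on `M = Hom(A,ℂ)` for an affine étale chart `(A,z)` of `K/ℂ`.

* `tn s y = 1 + ∑_{i ∈ s} |y(z_i)|²`, `zn y = 1 + ∑ |y(z_i)|²`;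
* `Growth B` : polynomial growth of the weight `B ≥ 0`;
* `Bdd B s κ R` : `B · tn^κ` is bounded in the frame of `K_X` near general points of the divisor `R`;
* `alg_of_fin` : `∫ |F|² / (B^l tn^κ₁) < ∞` implies `F ∈ A`;
* `reg_of_fin` : and `F (dz)^{l+1}` is regular at `R` if `κ₁ ≤ l κ`;
* `sections` : the endgame.
-/

set_option autoImplicit false

open scoped Topology BigOperators ENNReal
open Set Metric MeasureTheory

noncomputable section

namespace Crest.Agent.R276.End_723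

open Crest.Agent.R271.Defs710 Crest.Agent.R271.Bd741 Crest.Agent.R276.FKDefs_779
open Crest.Agent.R276.BC_986 Crest.Agent.R276.AB2_590

variable {K : Type} [Field K] [Algebra ℂ K] {n : ℕ}
variable {A : Subalgebra ℂ K} {z : Fin n → K} (hA : EtChart ℂ K A z)

/-- `1 + ∑_{i ∈ s} |z_i|²` -/
def tn (s : Finset (Fin n)) (y : A →ₐ[ℂ] ℂ) : ℝ := 1 + ∑ i ∈ s, ‖y (zA hA i)‖ ^ 2

/-- `1 + ∑ |z_i|²` -/
def zn (y : A →ₐ[ℂ] ℂ) : ℝ := 1 + ∑ i, ‖y (zA hA i)‖ ^ 2

lemma one_le_tn (s : Finset (Fin n)) (y : A →ₐ[ℂ] ℂ) : 1 ≤ tn hA s y := by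
  unfold tn
  have : 0 ≤ ∑ i ∈ s, ‖y (zA hA i)‖ ^ 2 := Finset.sum_nonneg fun i _ => by positivity
  linarith

lemma tn_le_zn (s : Finset (Fin n)) (y : A →ₐ[ℂ] ℂ) : tn hA s y ≤ zn hA y := by
  unfold tn zn
  have := Finset.sum_le_sum_of_subset_of_nonneg (Finset.subset_univ s)
    (f := fun i => ‖y (zA hA i)‖ ^ 2) (fun i _ _ => by positivity)
  linarith

lemma one_le_zn (y : A →ₐ[ℂ] ℂ) : 1 ≤ zn hA y := (one_le_tn hA ∅ y).trans (tn_le_zn hA ∅ y)

lemma sq_le_tn {s : Finset (Fin n)} {i : Fin n} (hi : i ∈ s) (y : A →ₐ[ℂ] ℂ) :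
    ‖y (zA hA i)‖ ^ 2 ≤ tn hA s y := by
  unfold tn
  have h : ‖y (zA hA i)‖ ^ 2 ≤ ∑ i ∈ s, ‖y (zA hA i)‖ ^ 2 :=
    Finset.single_le_sum (f := fun i => ‖y (zA hA i)‖ ^ 2) (fun i _ => by positivity) hi
  linarith

/-- polynomial growth of a weight -/
structure Growth (B : (A →ₐ[ℂ] ℂ) → ℝ) : Prop where
  nonneg : ∀ y, 0 ≤ B y
  growth : ∃ (u v : A) (N M : ℕ) (C : ℝ), u ≠ 0 ∧ v ≠ 0 ∧
    ∀ y : A →ₐ[ℂ] ℂ, y v ≠ 0 → B y * ‖y u‖ ^ (2 * N) ≤ C * zn hA y ^ M

/-- `B · tn^κ` is bounded, in the frame of `K_X`, near general points of the divisor `R` -/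
def Bdd (B : (A →ₐ[ℂ] ℂ) → ℝ) (s : Finset (Fin n)) (κ : ℝ) (R : ValuationSubring K) : Prop :=
  ∃ D : DivModel n K, D.ModelOf R ∧ ∀ F : Finset K, (∀ f ∈ F, f ≠ 0) →
    ∃ X : BChart D A, (∀ f ∈ F, ∃ (a : ℤ) (G : Cn n → ℂ), Good D X f a G) ∧ ∃ C : ℝ,
      ∀ ζ ∈ X.V, B (X.s ζ) * tn hA s (X.s ζ) ^ κ * ‖(fderiv ℂ (X.ψ (zA hA)) ζ).det‖ ^ 2 ≤ C

/-- the `L²` condition `∫ |F|² / (B^l tn^κ) < ∞` -/
def Fin2 (B : (A →ₐ[ℂ] ℂ) → ℝ) (s : Finset (Fin n)) (l k : ℕ) (F : (A →ₐ[ℂ] ℂ) → ℂ) : Prop :=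
  lintM (zA hA) (fun y => ENNReal.ofReal (‖F y‖ ^ 2) *
    (ENNReal.ofReal (B y ^ l * tn hA s y ^ k))⁻¹) < ∞

lemma le_inv_ofReal {p x : ℝ} (hp : 0 ≤ p) (h : p * x ≤ 1) :
    ENNReal.ofReal p ≤ (ENNReal.ofReal x)⁻¹ := by
  rw [ENNReal.le_inv_iff_mul_le, ← ENNReal.ofReal_mul hp]
  calc ENNReal.ofReal (p * x) ≤ ENNReal.ofReal 1 := ENNReal.ofReal_le_ofReal h
    _ = 1 := ENNReal.ofReal_one

/-- ALGEBRAICITY -/
theorem alg_of_fin {B : (A →ₐ[ℂ] ℂ) → ℝ} (hB : Growth hA B) {s : Finset (Fin n)} {l k : ℕ}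
    {F : (A →ₐ[ℂ] ℂ) → ℂ} (hF : HolB (zA hA) F) (hfin : Fin2 hA B s l k F) :
    ∃ f : A, ∀ y : A →ₐ[ℂ] ℂ, F y = y f := by
  obtain ⟨u, v, N, M, C, hu, hv, hgr⟩ := hB.growth
  have hft := hA.finiteType
  set C' : ℝ := max C 1 with hC'
  have hC'0 : 0 < C' := lt_of_lt_of_le one_pos (le_max_right _ _)
  refine mem_of_weight (z := zA hA) hA.etale hF hu hv (N * l) (M * l + k)
    (c := (C' ^ l)⁻¹) (by positivity) (fun y hy => ?_) hfin
  have hz := one_le_zn hA y
  have hz0 : 0 < zn hA y := by linarith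
  change ENNReal.ofReal ((C' ^ l)⁻¹ * ‖y u‖ ^ (2 * (N * l)) / zn hA y ^ (M * l + k)) ≤ _
  refine le_inv_ofReal (by positivity) ?_
  have h1 : B y * ‖y u‖ ^ (2 * N) ≤ C' * zn hA y ^ M :=
    (hgr y hy).trans (by gcongr; exact le_max_left _ _)
  have h2 : B y ^ l * ‖y u‖ ^ (2 * (N * l)) ≤ C' ^ l * zn hA y ^ (M * l) := by
    have h3 := pow_le_pow_left₀ (mul_nonneg (hB.nonneg y) (by positivity)) h1 l
    rw [mul_pow, mul_pow, ← pow_mul, ← pow_mul] at h3
    rwa [mul_assoc] at h3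
  have h4 : tn hA s y ^ k ≤ zn hA y ^ k :=
    pow_le_pow_left₀ (by linarith [one_le_tn hA s y]) (tn_le_zn hA s y) k
  have ht0 : 0 ≤ tn hA s y ^ k := by
    have := one_le_tn hA s y
    positivity
  rw [pow_add]
  have h5 : (C' ^ l)⁻¹ * ‖y u‖ ^ (2 * (N * l)) / (zn hA y ^ (M * l) * zn hA y ^ k) *
      (B y ^ l * tn hA s y ^ k) =
      (B y ^ l * ‖y u‖ ^ (2 * (N * l))) * tn hA s y ^ k /
        ((C' ^ l * zn hA y ^ (M * l)) * zn hA y ^ k) := by
    field_simp
  rw [h5, div_le_one (by positivity)]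
  exact mul_le_mul h2 h4 ht0 (by positivity)

/-- REGULARITY -/
theorem reg_of_fin {B : (A →ₐ[ℂ] ℂ) → ℝ} (hB0 : ∀ y, 0 ≤ B y) {s : Finset (Fin n)} {κ : ℝ}
    {R : ValuationSubring K} (hR : Bdd hA B s κ R) {b : Module.Basis (Fin n) K (Ω[K⁄ℂ])}
    (hb : ∀ i, b i = KaehlerDifferential.D ℂ K (z i)) {l k : ℕ} (hk : (k : ℝ) ≤ l * κ)
    (g : A) (hfin : Fin2 hA B s l k (fun y => y g)) : RegAt ℂ R b (l + 1) (g : K) := by
  obtain ⟨D, hD, hX⟩ := hR
  refine regAt_of_lintM hA hb hD g (l + 1)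
    (fun y => (ENNReal.ofReal (B y ^ l * tn hA s y ^ k))⁻¹) (fun F hF => ?_) hfin
  obtain ⟨X, hX1, C, hC⟩ := hX F hF
  set C' : ℝ := max C 1 with hC'
  have hC'0 : 0 < C' := lt_of_lt_of_le one_pos (le_max_right _ _)
  refine ⟨X, hX1, (C' ^ l)⁻¹, by positivity, fun ζ hζ => ?_⟩
  have e1 : ((l + 1 : ℕ) : ℤ) - 1 = (l : ℤ) := by push_cast; ring
  rw [e1, zpow_natCast]
  refine le_inv_ofReal (by positivity) ?_
  have h1 := (hC ζ hζ).trans (le_max_left C 1)
  rw [← hC'] at h1
  set t := tn hA s (X.s ζ) with ht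
  set J := ‖(fderiv ℂ (X.ψ (zA hA)) ζ).det‖ with hJ
  have ht1 : 1 ≤ t := one_le_tn hA s _
  have ht0 : 0 < t := by linarith
  have h2 : t ^ k ≤ (t ^ κ) ^ l := by
    rw [← Real.rpow_natCast t k, ← Real.rpow_natCast (t ^ κ) l, ← Real.rpow_mul ht0.le]
    exact Real.rpow_le_rpow_of_exponent_le ht1 (by rw [mul_comm]; exact hk)
  have h3 : (B (X.s ζ) * t ^ κ * J ^ 2) ^ l ≤ C' ^ l :=
    pow_le_pow_left₀ (by have := hB0 (X.s ζ); positivity) h1 l
  have h4 : B (X.s ζ) ^ l * t ^ k * (J ^ l) ^ 2 ≤ C' ^ l := by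
    refine le_trans ?_ h3
    rw [mul_pow, mul_pow, ← pow_mul, ← pow_mul, mul_comm 2 l]
    have := hB0 (X.s ζ)
    gcongr
  have h5 : (C' ^ l)⁻¹ * (J ^ l) ^ 2 * (B (X.s ζ) ^ l * t ^ k) =
      (C' ^ l)⁻¹ * (B (X.s ζ) ^ l * t ^ k * (J ^ l) ^ 2) := by ring
  rw [h5, inv_mul_le_iff₀ (by positivity), mul_one]
  exact h4

/-- multiplication by a coordinate of `s` -/
lemma fin2_mul {B : (A →ₐ[ℂ] ℂ) → ℝ} {s : Finset (Fin n)} {l k : ℕ}
    {i : Fin n} (hi : i ∈ s) (g : A) (hfin : Fin2 hA B s l k (fun y => y g)) :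
    Fin2 hA B s l (k + 1) (fun y => y (g * zA hA i)) := by
  refine lt_of_le_of_lt ?_ hfin
  refine Crest.Agent.R271.Rd692.lintM_mono _ fun y => ?_
  have ht := one_le_tn hA s y
  have ht0 : 0 < tn hA s y := by linarith
  have hb := sq_le_tn hA hi y
  change ENNReal.ofReal (‖y (g * zA hA i)‖ ^ 2) * _ ≤ ENNReal.ofReal (‖y g‖ ^ 2) * _
  rw [map_mul, norm_mul, mul_pow, pow_succ (tn hA s y) k, ← mul_assoc, ENNReal.ofReal_mul (by positivity),
    ENNReal.ofReal_mul' (q := tn hA s y) ht0.le,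
    ENNReal.mul_inv (Or.inr ENNReal.ofReal_ne_top) (Or.inr (by simpa using ht0))]
  set a := ENNReal.ofReal (‖y g‖ ^ 2)
  set w := (ENNReal.ofReal (B y ^ l * tn hA s y ^ k))⁻¹
  have h1 : ENNReal.ofReal (‖y (zA hA i)‖ ^ 2) * (ENNReal.ofReal (tn hA s y))⁻¹ ≤ 1 := by
    calc _ ≤ ENNReal.ofReal (tn hA s y) * (ENNReal.ofReal (tn hA s y))⁻¹ := by gcongr
      _ = 1 := ENNReal.mul_inv_cancel (by simpa using ht0) ENNReal.ofReal_ne_top
  calc a * ENNReal.ofReal (‖y (zA hA i)‖ ^ 2) * (w * (ENNReal.ofReal (tn hA s y))⁻¹)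
      = a * w * (ENNReal.ofReal (‖y (zA hA i)‖ ^ 2) * (ENNReal.ofReal (tn hA s y))⁻¹) := by ring
    _ ≤ a * w * 1 := by gcongr
    _ = a * w := mul_one _


section powers

open MvPolynomial

/-- substituting powers of the variables is injective -/
lemma bind_pow_ne {I : Type*} (k : I → ℕ) (hk : ∀ i, 0 < k i) (P : MvPolynomial I ℂ) (hP : P ≠ 0) :
    bind₁ (fun i => (X i : MvPolynomial I ℂ) ^ k i) P ≠ 0 := by
  classical
  obtain ⟨m0, hm0⟩ := ne_zero_iff.1 hP
  let ψ : (I →₀ ℕ) → (I →₀ ℕ) := fun m =>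
    Finsupp.onFinset m.support (fun i => k i * m i) (fun i hi => by
      rw [Finsupp.mem_support_iff]; intro h0; rw [h0, mul_zero] at hi; exact hi rfl)
  have hψ : ∀ m i, ψ m i = k i * m i := fun m i => rfl
  have hinj : Function.Injective ψ := by
    intro m m' h
    ext i
    have h1 := DFunLike.congr_fun h i
    rw [hψ, hψ] at h1
    exact Nat.eq_of_mul_eq_mul_left (hk i) h1
  have hmon : ∀ m (c : ℂ), bind₁ (fun i => (X i : MvPolynomial I ℂ) ^ k i) (monomial m c) =
      monomial (ψ m) c := by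
    intro m c
    rw [bind₁_monomial, monomial_eq, Finsupp.prod]
    congr 1
    have hsup : (ψ m).support = m.support := by
      ext i
      rw [Finsupp.mem_support_iff, Finsupp.mem_support_iff, hψ]
      have := hk i
      constructor
      · rintro h h0; exact h (by rw [h0, mul_zero])
      · intro h; positivity
    rw [hsup]
    exact Finset.prod_congr rfl fun i _ => by rw [hψ, pow_mul]
  have hcoeff : coeff (ψ m0) (bind₁ (fun i => (X i : MvPolynomial I ℂ) ^ k i) P) = coeff m0 P := by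
    conv_lhs => rw [P.as_sum, map_sum, coeff_sum]
    simp only [hmon, coeff_monomial, hinj.eq_iff]
    rw [Finset.sum_ite_eq' P.support m0 (fun m => coeff m P)]
    rw [if_pos (mem_support_iff.2 hm0)]
  intro h0
  rw [h0, coeff_zero] at hcoeff
  exact hm0 hcoeff.symm

end powers

section main

open MvPolynomial

/-- **D-END, part A.**  `Ξ` = the points of one fibre of `(z_i)_{i ∈ s}`, `τ`, `w` functions on the
fibre whose products (suitable powers) extend with `L²` estimates. -/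
theorem exists_sections {s : Finset (Fin n)} {B : (A →ₐ[ℂ] ℂ) → ℝ} (hB : Growth hA B)
    {b : Module.Basis (Fin n) K (Ω[K⁄ℂ])} (hb : ∀ i, b i = KaehlerDifferential.D ℂ K (z i))
    {Ξ : Type*} (e : Ξ → (A →ₐ[ℂ] ℂ)) (c : Fin n → ℂ) (hc : ∀ x, ∀ i ∈ s, e x (zA hA i) = c i)
    {d q : ℕ} (τ : Fin (d + 1) → Ξ → ℂ) (w : Fin (q + 1) → Ξ → ℂ) {N₁ e₀ : ℕ} (hN₁ : 0 < N₁)
    (he₀ : 0 < e₀)
    (hind : ∀ P : MvPolynomial (Fin d ⊕ Fin q) ℂ, P ≠ 0 → ∃ x, τ 0 x ≠ 0 ∧ w 0 x ≠ 0 ∧
      eval (Sum.elim (fun i => τ i.succ x / τ 0 x) (fun j => w j.succ x / w 0 x)) P ≠ 0)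
    (k : ℕ)
    (hext : ∀ a : ℕ, 0 < a → ∀ (i : Fin (d + 1)) (j : Fin (q + 1)),
      ∃ F : (A →ₐ[ℂ] ℂ) → ℂ, HolB (zA hA) F ∧
        (∀ x, F (e x) = τ i x ^ (a * e₀) * w j x ^ (a * N₁)) ∧
        Fin2 hA B s (a * N₁ * e₀ - 1) k F)
    (S : Set (ValuationSubring K)) (hSf : S.Finite) (hS : ∀ R ∈ S, ∃ κ : ℝ, 0 < κ ∧ Bdd hA B s κ R)
    {D : ℕ} (hD : D = (d + q) + s.card) :
    ∃ m : ℕ, 0 < m ∧ ∃ f : Fin (D + 1) → K,
      (∀ i, f i ≠ 0 ∧ f i ∈ A ∧ ∀ R ∈ S, RegAt ℂ R b m (f i)) ∧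
      AlgebraicIndependent ℂ (fun i : Fin D => f i.succ / f 0) := by
  classical
  -- the common `κ`
  obtain ⟨κ, hκ, hS'⟩ : ∃ κ : ℝ, 0 < κ ∧ ∀ R ∈ S, Bdd hA B s κ R := by
    choose! κ hκ hκ' using hS
    rcases S.eq_empty_or_nonempty with rfl | hne
    · exact ⟨1, one_pos, by simp⟩
    · have hne' : hSf.toFinset.Nonempty := by simpa using hne
      refine ⟨hSf.toFinset.inf' hne' κ, ?_, fun R hR => ?_⟩
      · rw [Finset.lt_inf'_iff]
        intro R hR
        exact hκ R (by simpa using hR)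
      · obtain ⟨D', hD', hX⟩ := hκ' R hR
        refine ⟨D', hD', fun F hF => ?_⟩
        obtain ⟨Y, hY, C, hC⟩ := hX F hF
        refine ⟨Y, hY, C, fun ζ hζ => le_trans ?_ (hC ζ hζ)⟩
        have h1 : tn hA s (Y.s ζ) ^ (hSf.toFinset.inf' hne' κ) ≤ tn hA s (Y.s ζ) ^ κ R :=
          Real.rpow_le_rpow_of_exponent_le (one_le_tn hA s _)
            (Finset.inf'_le _ (by simpa using hR))
        have := hB.nonneg (Y.s ζ)
        gcongr
  -- the choice of `a`
  obtain ⟨a, ha, hak⟩ : ∃ a : ℕ, 0 < a ∧ ((k : ℝ) + 1) ≤ (a * N₁ * e₀ - 1 : ℕ) * κ := by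
    obtain ⟨a, ha⟩ := exists_nat_ge (((k : ℝ) + 1) / κ)
    refine ⟨a + 1, Nat.succ_pos a, ?_⟩
    have h1 : a ≤ (a + 1) * N₁ * e₀ - 1 := by
      have : (a + 1) * 1 * 1 ≤ (a + 1) * N₁ * e₀ := by gcongr <;> omega
      omega
    have h2 : (a : ℝ) ≤ ((a + 1) * N₁ * e₀ - 1 : ℕ) := by exact_mod_cast h1
    rw [div_le_iff₀ hκ] at ha
    exact ha.trans (by gcongr)
  set l : ℕ := a * N₁ * e₀ - 1 with hl
  have hl1 : l + 1 = a * N₁ * e₀ := by
    have : 0 < a * N₁ * e₀ := by positivity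
    omega
  -- the extensions
  choose F hF1 hF2 hF3 using hext a ha
  choose f hf using fun i j => alg_of_fin hA hB (hF1 i j) (hF3 i j)
  have hval : ∀ i j x, e x (f i j) = τ i x ^ (a * e₀) * w j x ^ (a * N₁) := fun i j x => by
    rw [← hf, hF2]
  have hfin : ∀ i j, Fin2 hA B s l k (fun y => y (f i j)) := fun i j => by
    have h1 := hF3 i j
    have h2 : F i j = fun y => y (f i j) := funext (hf i j)
    rwa [h2] at h1
  have hk0 : (k : ℝ) ≤ l * κ := by linarith
  have hk1 : ((k + 1 : ℕ) : ℝ) ≤ l * κ := by push_cast; exact hak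
  -- the Riemann domain
  have hch : ∀ y : A →ₐ[ℂ] ℂ, Nonempty (Chart (zA hA) y) :=
    fun y => Crest.Agent.R271.Rd692.nonempty_chart (zA hA) hA.etale y
  let _ := Crest.Agent.R271.Rd692.rdom hch
  have hfrac := hA.isFractionRing
  -- independence
  set κ' : Fin d ⊕ Fin q → ℕ := Sum.elim (fun _ : Fin d => a * e₀) (fun _ : Fin q => a * N₁) with hκ'
  have hκ'0 : ∀ i, 0 < κ' i := by
    rintro (i | j)
    · exact Nat.mul_pos ha he₀
    · exact Nat.mul_pos ha hN₁
  have hIND := Crest.Agent.R276.Jet_870.jet_algInd_ratio (n := n) (M := A →ₐ[ℂ] ℂ) (B := A) (K := K)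
    (IsFractionRing.injective A K) (fun y => y)
    (fun g => Crest.Agent.R271.Rd692.continuous_ev g) (zA hA) (fun x i => rfl) c s (f 0 0)
    (Sum.elim (fun i : Fin d => f i.succ 0) (fun j : Fin q => f 0 j.succ)) (by
      intro Q hQ
      obtain ⟨x, hx1, hx2, hx3⟩ := hind _ (bind_pow_ne κ' hκ'0 Q hQ)
      refine ⟨e x, fun i hi => hc x i hi, ?_, ?_⟩
      · rw [hval]; exact mul_ne_zero (pow_ne_zero _ hx1) (pow_ne_zero _ hx2)
      · have h1 : (fun j => (e x) (Sum.elim (fun i : Fin d => f i.succ 0)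
            (fun j : Fin q => f 0 j.succ) j) / (e x) (f 0 0)) =
            fun j => eval (Sum.elim (fun i => τ i.succ x / τ 0 x) (fun j => w j.succ x / w 0 x))
              ((X j : MvPolynomial (Fin d ⊕ Fin q) ℂ) ^ κ' j) := by
          funext j
          rcases j with i | j
          · simp only [Sum.elim_inl, hval, map_pow, eval_X, hκ']
            rw [div_pow, mul_div_mul_right _ _ (pow_ne_zero _ hx2)]
          · simp only [Sum.elim_inr, hval, map_pow, eval_X, hκ']
            rw [div_pow, mul_div_mul_left _ _ (pow_ne_zero _ hx1)]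
        rw [h1]
        have h2 := eval₂Hom_bind₁ (RingHom.id ℂ)
          (Sum.elim (fun i => τ i.succ x / τ 0 x) (fun j => w j.succ x / w 0 x))
          (fun i => (X i : MvPolynomial (Fin d ⊕ Fin q) ℂ) ^ κ' i) Q
        change eval₂Hom (RingHom.id ℂ) _ Q ≠ 0
        change eval₂Hom (RingHom.id ℂ) _ _ ≠ 0 at hx3
        rw [h2] at hx3
        exact hx3)
  -- the sections
  let g : ((Fin d ⊕ Fin q) ⊕ s) → A := Sum.elim
    (Sum.elim (fun i : Fin d => f i.succ 0) (fun j : Fin q => f 0 j.succ))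
    (fun i => f 0 0 * zA hA i)
  have hf00 : ((f 0 0 : A) : K) ≠ 0 := by
    obtain ⟨x, hx1, hx2, -⟩ := hind 1 one_ne_zero
    intro h0
    have h1 : f 0 0 = 0 := Subtype.ext h0
    have h2 := hval 0 0 x
    rw [h1, map_zero] at h2
    exact mul_ne_zero (pow_ne_zero _ hx1) (pow_ne_zero _ hx2) h2.symm
  have hratio : (fun i => ((g i : A) : K) / (f 0 0 : K)) = Sum.elim
      (fun j => algebraMap A K (Sum.elim (fun i : Fin d => f i.succ 0)
        (fun j : Fin q => f 0 j.succ) j) / algebraMap A K (f 0 0))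
      (fun i : s => algebraMap A K (zA hA i)) := by
    funext i
    rcases i with i | i
    · rfl
    · simp only [g, Sum.elim_inr]
      change ((f 0 0 : K) * (zA hA i : K)) / (f 0 0 : K) = (zA hA i : K)
      rw [mul_div_cancel_left₀ _ hf00]
  rw [← hratio] at hIND
  have hreg : ∀ i j, ∀ R ∈ S, RegAt ℂ R b (l + 1) (f i j : K) := fun i j R hR =>
    reg_of_fin hA hB.nonneg (hS' R hR) hb hk0 (f i j) (hfin i j)
  have hregg : ∀ i, ∀ R ∈ S, RegAt ℂ R b (l + 1) (g i : K) := by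
    rintro ((i | j) | i) R hR
    · exact hreg _ _ R hR
    · exact hreg _ _ R hR
    · exact reg_of_fin hA hB.nonneg (hS' R hR) hb hk1 (f 0 0 * zA hA i)
        (fin2_mul hA i.2 (f 0 0) (hfin 0 0))
  have hg0 : ∀ i, (g i : K) ≠ 0 := by
    intro i h0
    have := hIND.ne_zero i
    simp only [h0, zero_div] at this
    exact this rfl
  -- back to `Fin`
  have hcard : Fintype.card ((Fin d ⊕ Fin q) ⊕ s) = D := by
    simp [hD]
  let ε : Fin D ≃ ((Fin d ⊕ Fin q) ⊕ s) := (Fintype.equivFinOfCardEq hcard).symm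
  refine ⟨l + 1, Nat.succ_pos l, Fin.cons (f 0 0 : K) (fun i => (g (ε i) : K)), ?_, ?_⟩
  · intro i
    refine Fin.cases ?_ (fun i => ?_) i
    · exact ⟨hf00, (f 0 0).2, hreg 0 0⟩
    · exact ⟨hg0 _, (g (ε i)).2, hregg _⟩
  · exact (hIND.comp ε ε.injective)

end main

end Crest.Agent.R276.End_723
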