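import Crest.Agent.R276.SMax_137
import Crest.Agent.R271.H7a_51

/-!
# R276, leaf ALG-NL (helper137), part 3: fibres, `ℂⁿ` as a Riemann domain, `log (1 + |z|²)`

* `lintegral_cp_le` : `∫ f(p x) dμ ≤ N ∫ f` if the fibres of `p` have at most `N` points;
* `flat` : the identity Riemann domain; `Lv_coord` : Levi matrix of `φ ∘ p`;
* `det_Lg` : `det Lv (log (1+|z|²)) = (1+|z|²)^(-n-1)`, `lintegral_det_Lg`.
-/

set_option autoImplicit false
set_option linter.unusedSectionVars false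

noncomputable section

open Set Filter Topology MeasureTheory ComplexConjugate
open scoped Matrix ENNReal

namespace Crest.Agent.R276.NL_137

open Crest.Agent.R271.Ho51

section fibre

variable {n : ℕ} {M : Type*} [TopologicalSpace M] [RDom n M] [MeasurableSpace M] [BorelSpace M]
  {μ : Measure M}

lemma sum_indicator_le {X : Type*} {N : ℕ} {A : ℕ → Set M} (hA : Pairwise (Function.onFun Disjoint A))
    {c : M → X} (hN : ∀ z : X, (c ⁻¹' {z}).encard ≤ N) (z : X) :
    ∑' k, (c '' A k).indicator (fun _ => (1 : ℝ≥0∞)) z ≤ N := by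
  classical
  rw [ENNReal.tsum_eq_iSup_sum]
  refine iSup_le fun s => ?_
  set t := s.filter (fun k => z ∈ c '' A k) with ht
  have h1 : ∑ k ∈ s, (c '' A k).indicator (fun _ => (1 : ℝ≥0∞)) z = (t.card : ℝ≥0∞) := by
    rw [ht, Finset.card_filter]
    push_cast
    refine Finset.sum_congr rfl fun k _ => ?_
    by_cases hk : z ∈ c '' A k <;> simp [hk]
  rw [h1]
  have h2 : ∀ k : t, ∃ x ∈ A k.1, c x = z := fun k => by
    have := (Finset.mem_filter.1 k.2).2
    exact this
  choose x hx hxz using h2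
  have hinj : Function.Injective x := by
    intro k l hkl
    by_contra hne
    have hne' : k.1 ≠ l.1 := fun h => hne (Subtype.ext h)
    exact (Set.disjoint_left.1 (hA hne')) (hx k) (hkl ▸ hx l)
  have h3 : (Set.range x).encard ≤ N :=
    (Set.encard_le_encard (by rintro _ ⟨k, rfl⟩; exact hxz k)).trans (hN z)
  have h4 : (Set.range x).encard = (t.card : ℕ∞) := by
    rw [← Set.image_univ, hinj.encard_image, Set.encard_univ]
    simp
  rw [h4] at h3
  exact_mod_cast h3

theorem lintegral_cp_le [SecondCountableTopology M] (hμ : IsLeb μ) {N : ℕ}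
    (hN : ∀ z : Fin n → ℂ, ((cp : M → (Fin n → ℂ)) ⁻¹' {z}).encard ≤ N)
    {f : (Fin n → ℂ) → ℝ≥0∞} (hf : Measurable f) :
    ∫⁻ x : M, f (cp x) ∂μ ≤ N * ∫⁻ z, f z := by
  classical
  rcases isEmpty_or_nonempty M with hM | hM
  · have : μ = 0 := Measure.eq_zero_of_isEmpty μ
    rw [this]; simp
  obtain ⟨S, hSc, hSu⟩ := TopologicalSpace.countable_cover_nhds
    (f := fun x : M => (ch x).source) (fun x => (ch x).open_source.mem_nhds (mem_ch x))
  have hSne : S.Nonempty := by
    by_contra hcon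
    rw [Set.not_nonempty_iff_eq_empty] at hcon
    rw [hcon] at hSu
    simp at hSu
    exact (Set.univ_nonempty (α := M)).ne_empty hSu.symm
  obtain ⟨xs, hxs⟩ := hSc.exists_eq_range hSne
  let A : ℕ → Set M := disjointed (fun k => (ch (xs k)).source)
  have hAm : ∀ k, MeasurableSet (A k) := fun k =>
    MeasurableSet.disjointed (fun i => (ch (xs i)).open_source.measurableSet) k
  have hAd : Pairwise (Function.onFun Disjoint A) := disjoint_disjointed _
  have hAu : ⋃ k, A k = univ := by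
    show ⋃ k, disjointed _ k = univ
    rw [iUnion_disjointed]
    rw [hxs] at hSu
    simpa using hSu
  have hAs : ∀ k, A k ⊆ (ch (xs k)).source := fun k => disjointed_subset _ k
  have hfm : Measurable fun x : M => f (cp x) := hf.comp cp_cont.measurable
  have hB : ∀ k, cp '' A k = (ch (xs k)).target ∩ (ch (xs k)).symm ⁻¹' A k := fun k => by
    rw [← (isCh_ch (xs k)).image_eq, (ch (xs k)).image_eq_target_inter_inv_preimage (hAs k)]
  have hBm : ∀ k, MeasurableSet (cp '' A k) := fun k => by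
    rw [hB k]
    have h1 : Measurable (fun z : (ch (xs k)).target => (ch (xs k)).symm z.1) :=
      (continuousOn_iff_continuous_domRestrict.1 (ch (xs k)).symm.continuousOn).measurable
    have h2 := ((ch (xs k)).open_target.measurableSet).subtype_image (h1 (hAm k))
    convert h2 using 1
    ext z
    constructor
    · rintro ⟨h3, h4⟩
      exact ⟨⟨z, h3⟩, h4, rfl⟩
    · rintro ⟨⟨y, hy⟩, h4, rfl⟩
      exact ⟨hy, h4⟩
  have h1 : ∀ k, ∫⁻ x in A k, f (cp x) ∂μ = ∫⁻ z, (cp '' A k).indicator (fun _ => 1) z * f z := by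
    intro k
    set e := ch (xs k) with he
    have hch : IsCh e := isCh_ch (xs k)
    have e1 : ∫⁻ x in A k, f (cp x) ∂μ =
        ∫⁻ x in e.source, (A k).indicator (fun x => f (cp x)) x ∂μ := by
      rw [lintegral_indicator (hAm k), Measure.restrict_restrict (hAm k),
        inter_eq_left.2 (hAs k)]
    rw [e1, lintegral_chart hμ hch (hfm.indicator (hAm k)).aemeasurable,
      ← lintegral_indicator e.open_target.measurableSet]
    refine lintegral_congr fun z => ?_
    by_cases hz : z ∈ cp '' A k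
    · have hz' := hz
      rw [hB k] at hz'
      have hz2 : e.symm z ∈ A k := hz'.2
      rw [indicator_of_mem hz'.1, indicator_of_mem hz2, indicator_of_mem hz, one_mul,
        hch.cp_symm hz'.1]
    · rw [indicator_of_notMem hz, zero_mul]
      by_cases hz1 : z ∈ e.target
      · rw [indicator_of_mem hz1, indicator_of_notMem]
        intro hz2
        exact hz (by rw [hB k]; exact ⟨hz1, hz2⟩)
      · rw [indicator_of_notMem hz1]
  calc ∫⁻ x : M, f (cp x) ∂μ = ∫⁻ x in ⋃ k, A k, f (cp x) ∂μ := by rw [hAu, Measure.restrict_univ]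
    _ = ∑' k, ∫⁻ x in A k, f (cp x) ∂μ := lintegral_iUnion hAm hAd _
    _ = ∑' k, ∫⁻ z, (cp '' A k).indicator (fun _ => 1) z * f z := by simp only [h1]
    _ = ∫⁻ z, ∑' k, (cp '' A k).indicator (fun _ => 1) z * f z := by
      rw [lintegral_tsum]
      intro k
      exact ((measurable_const.indicator (hBm k)).mul hf).aemeasurable
    _ ≤ ∫⁻ z, N * f z := by
      refine lintegral_mono fun z => ?_
      show ∑' k, (cp '' A k).indicator (fun _ => 1) z * f z ≤ N * f z
      rw [ENNReal.tsum_mul_right]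
      exact mul_le_mul_left (sum_indicator_le hAd hN z) _
    _ = N * ∫⁻ z, f z := by rw [lintegral_const_mul _ hf]

end fibre

/-! ### `ℂⁿ` as a Riemann domain -/

section flat

variable {n : ℕ}

/-- the identity Riemann domain -/
@[reducible] def flat (n : ℕ) : RDom n (Fin n → ℂ) where
  p := id
  hp := (Homeomorph.refl _).isLocalHomeomorph

attribute [local instance] flat


lemma isLeb_flat : IsLeb (volume : Measure (Fin n → ℂ)) := by
  intro e he
  have h1 : ∀ z, e z = z := fun z => by rw [he.apply]; rfl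
  have h2 : e.source = e.target := by
    ext z
    constructor
    · intro hz
      have := e.map_source hz
      rwa [h1] at this
    · intro hz
      have h3 := e.map_target hz
      have h4 := e.right_inv hz
      rw [h1] at h4
      rwa [h4] at h3
  have h3 : ∀ z ∈ e.target, e.symm z = z := fun z hz => by
    have := e.right_inv hz
    rwa [h1] at this
  have h4 : (volume.restrict e.target).map e.symm = (volume.restrict e.target).map id := by
    apply Measure.map_congr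
    filter_upwards [ae_restrict_mem e.open_target.measurableSet] with z hz
    exact h3 z hz
  rw [h4, Measure.map_id, h2]

lemma Sm_flat {G : Type*} [NormedAddCommGroup G] [NormedSpace ℝ G] {g : (Fin n → ℂ) → G}
    (hg : ContDiff ℝ (⊤ : ℕ∞) g) : Sm g := Sm.of_coord (M := Fin n → ℂ) hg

lemma Sm_flat_iff {G : Type*} [NormedAddCommGroup G] [NormedSpace ℝ G] {g : (Fin n → ℂ) → G} :
    Sm g ↔ ContDiff ℝ (⊤ : ℕ∞) g := by
  refine ⟨fun h => ?_, Sm_flat⟩
  rw [contDiff_iff_contDiffAt]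
  intro z
  have h1 := h z
  refine h1.congr_of_eventuallyEq ?_
  have h2 := eventually_eq_comp (M := Fin n → ℂ) (isCh_ch z) (mem_ch z) g
  exact h2

lemma D_flat {G : Type*} [NormedAddCommGroup G] [NormedSpace ℝ G] (g : (Fin n → ℂ) → G)
    (z : Fin n → ℂ) : D g z = fderiv ℝ g z := D_of_coord (M := Fin n → ℂ) (g := g) z

variable {M : Type*} [TopologicalSpace M] [RDom n M] [T2Space M]

lemma D_coord {G : Type*} [NormedAddCommGroup G] [NormedSpace ℝ G] (g : (Fin n → ℂ) → G)
    (x : M) : D (fun y : M => g (cp y)) x = D g (cp x) := by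
  rw [D_flat, D_of_coord]

lemma dz_coord (g : (Fin n → ℂ) → ℂ) (j : Fin n) (x : M) :
    dz j (fun y : M => g (cp y)) x = dz j g (cp x) := by
  rw [dz, dz, D_coord]

lemma db_coord (g : (Fin n → ℂ) → ℂ) (j : Fin n) (x : M) :
    db j (fun y : M => g (cp y)) x = db j g (cp x) := by
  rw [db, db, D_coord]

lemma Lv_coord (φ : (Fin n → ℂ) → ℝ) (x : M) (j k : Fin n) :
    Lv (fun y : M => φ (cp y)) x j k = Lv φ (cp x) j k := by
  unfold Lv
  have h1 : db k (fun y : M => ((φ (cp y) : ℝ) : ℂ)) =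
      fun y : M => db k (fun z => (φ z : ℂ)) (cp y) := by
    funext y
    exact db_coord (fun z => (φ z : ℂ)) k y
  rw [h1, dz_coord]

lemma LvM_coord (φ : (Fin n → ℂ) → ℝ) (x : M) :
    LvM (fun y : M => φ (cp y)) x = LvM φ (cp x) := by
  ext j k; exact Lv_coord φ x j k

lemma Levi_coord (φ : (Fin n → ℂ) → ℝ) (x : M) (w : Fin n → ℂ) :
    Levi (fun y : M => φ (cp y)) x w = Levi φ (cp x) w := by
  unfold Levi
  simp only [Lv_coord]

/-! ### `log (1 + |z|²)` -/

/-- `log (1 + |z|²)` -/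
def Lg (z : Fin n → ℂ) : ℝ := Real.log (1 + nsq z)

lemma rho_pos (z : Fin n → ℂ) : 0 < 1 + nsq z := by linarith [nsq_nonneg z]

lemma nsq_contDiff : ContDiff ℝ (⊤ : ℕ∞) (nsq : (Fin n → ℂ) → ℝ) := by
  unfold nsq
  refine ContDiff.sum fun j _ => ?_
  exact (contDiff_apply ℝ ℂ j).norm_sq ℝ

lemma Lg_contDiff : ContDiff ℝ (⊤ : ℕ∞) (Lg : (Fin n → ℂ) → ℝ) :=
  (contDiff_const.add nsq_contDiff).log fun z => (rho_pos z).ne'

lemma Sm_Lg : Sm (Lg : (Fin n → ℂ) → ℝ) := Sm_flat Lg_contDiff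

lemma Lg_nonneg (z : Fin n → ℂ) : 0 ≤ Lg z := Real.log_nonneg (by linarith [nsq_nonneg z])

/-- the coordinate functions -/
def cf (j : Fin n) (z : Fin n → ℂ) : ℂ := z j

lemma Sm_cf (j : Fin n) : Sm (cf j) := Sm_flat (contDiff_apply ℝ ℂ j)

lemma D_cf (j : Fin n) (z v : Fin n → ℂ) : D (cf j) z v = v j := by
  rw [D_flat]
  have h1 : HasFDerivAt (cf j) (ContinuousLinearMap.proj (R := ℝ) (φ := fun _ : Fin n => ℂ) j) z :=
    (ContinuousLinearMap.proj (R := ℝ) (φ := fun _ : Fin n => ℂ) j).hasFDerivAt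
  rw [h1.fderiv]
  rfl

lemma dz_cf (j k : Fin n) (z : Fin n → ℂ) : dz k (cf j) z = if k = j then 1 else 0 := by
  rw [dz_eq, D_cf, D_cf]
  by_cases h : k = j
  · subst h; simp; ring
  · have h' : j ≠ k := fun h2 => h h2.symm
    simp [h, h']

lemma db_cf (j k : Fin n) (z : Fin n → ℂ) : db k (cf j) z = 0 := by
  rw [db_eq, D_cf, D_cf]
  by_cases h : k = j
  · subst h; simp
  · have h' : j ≠ k := fun h2 => h h2.symm
    simp [h']

/-- `1 + |z|²` -/
def rho (z : Fin n → ℂ) : ℝ := 1 + nsq z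

lemma Sm_rho : Sm (rho : (Fin n → ℂ) → ℝ) := Sm_flat (contDiff_const.add nsq_contDiff)

lemma rho_eq : (fun z : Fin n → ℂ => ((rho z : ℝ) : ℂ)) =
    fun z => 1 + ∑ j, conj (cf j z) * cf j z := by
  funext z
  simp only [rho, nsq, cf]
  push_cast
  congr 1
  exact Finset.sum_congr rfl fun j _ => (Complex.conj_mul' (z j)).symm

lemma db_rho (k : Fin n) (z : Fin n → ℂ) : db k (fun z => ((rho z : ℝ) : ℂ)) z = z k := by
  rw [rho_eq, db_add (Sm.const 1) (Sm.sum fun j _ => (Sm_cf j).conj.mul (Sm_cf j)), db_const,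
    db_sum _ fun j _ => (Sm_cf j).conj.mul (Sm_cf j)]
  have h1 : ∀ j, db k (fun z => conj (cf j z) * cf j z) z = if k = j then z j else 0 := by
    intro j
    rw [db_mul (Sm_cf j).conj (Sm_cf j), db_conj (Sm_cf j), dz_cf, db_cf, mul_zero, add_zero]
    by_cases h : k = j
    · simp [h, cf]
    · simp [h]
  simp only [h1, zero_add]
  simp

lemma dz_rho (k : Fin n) (z : Fin n → ℂ) : dz k (fun z => ((rho z : ℝ) : ℂ)) z = conj (z k) := by
  rw [← db_rho k z, db_ofReal Sm_rho, Complex.conj_conj]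

lemma Lv_Lg (z : Fin n → ℂ) (j k : Fin n) : Lv Lg z j k =
    ((rho z : ℝ) : ℂ)⁻¹ * (if j = k then 1 else 0) -
      ((rho z : ℝ) : ℂ)⁻¹ ^ 2 * (conj (z j) * z k) := by
  have hr : ∀ z : Fin n → ℂ, 0 < rho z := rho_pos
  have hinv : Sm (fun z : Fin n → ℂ => (rho z)⁻¹) := by
    refine Sm_flat ?_
    exact (contDiff_const.add nsq_contDiff).inv fun z => (hr z).ne'
  have h1 : db k (fun z => ((Lg z : ℝ) : ℂ)) = fun z => (((rho z)⁻¹ : ℝ) : ℂ) * cf k z := by
    funext y
    have h2 := db_comp_real (f := rho) (g := Real.log) (g' := (rho y)⁻¹) Sm_rho Sm_Lg y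
      (Real.hasDerivAt_log (hr y).ne') k
    rw [db_rho] at h2
    exact h2
  unfold Lv
  rw [h1, dz_mul hinv.ofReal (Sm_cf k), dz_cf]
  have h3 := dz_comp_real (f := rho) (g := fun t => t⁻¹) (g' := -(rho z ^ 2)⁻¹) Sm_rho hinv z
    (hasDerivAt_inv (hr z).ne') j
  rw [dz_rho] at h3
  rw [h3]
  simp only [cf]
  push_cast
  rw [inv_pow]
  ring

lemma Levi_Lg (z w : Fin n → ℂ) :
    Levi Lg z w = (rho z)⁻¹ * nsq w - (rho z)⁻¹ ^ 2 * ‖∑ j, conj (z j) * w j‖ ^ 2 := by
  have h1 : ((Levi Lg z w : ℝ) : ℂ) = (((rho z)⁻¹ * nsq w -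
      (rho z)⁻¹ ^ 2 * ‖∑ j, conj (z j) * w j‖ ^ 2 : ℝ) : ℂ) := by
    rw [Levi_eq Sm_Lg]
    simp only [Lv_Lg]
    push_cast
    rw [← Complex.mul_conj' (∑ j, conj (z j) * w j), map_sum, Finset.sum_mul_sum]
    simp only [nsq]
    push_cast
    rw [Finset.mul_sum, Finset.mul_sum, ← Finset.sum_sub_distrib]
    refine Finset.sum_congr rfl fun j _ => ?_
    rw [Finset.mul_sum]
    have h2 : ((rho z : ℝ) : ℂ)⁻¹ * (‖w j‖ : ℂ) ^ 2 =
        ∑ k, ((rho z : ℝ) : ℂ)⁻¹ * (if j = k then 1 else 0) * w j * conj (w k) := by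
      simp only [mul_ite, mul_one, mul_zero, ite_mul, zero_mul, Finset.sum_ite_eq, Finset.mem_univ,
        if_true]
      rw [← Complex.mul_conj']; ring
    rw [h2, ← Finset.sum_sub_distrib]
    refine Finset.sum_congr rfl fun k _ => ?_
    rw [map_mul, Complex.conj_conj]
    ring
  exact_mod_cast h1

lemma Levi_Lg_nonneg (z w : Fin n → ℂ) : 0 ≤ Levi Lg z w := by
  rw [Levi_Lg]
  have h1 := norm_sum_mul_sq_le (fun j => conj (z j)) w
  rw [nsq_conj] at h1
  have h2 : 0 < rho z := rho_pos z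
  have h3 : nsq z ≤ rho z := by unfold rho; linarith
  have h4 : (rho z)⁻¹ ^ 2 * ‖∑ j, conj (z j) * w j‖ ^ 2 ≤ (rho z)⁻¹ * nsq w := by
    calc (rho z)⁻¹ ^ 2 * ‖∑ j, conj (z j) * w j‖ ^ 2 ≤ (rho z)⁻¹ ^ 2 * (nsq z * nsq w) := by gcongr
      _ ≤ (rho z)⁻¹ ^ 2 * (rho z * nsq w) := by
        have := nsq_nonneg w
        gcongr
      _ = (rho z)⁻¹ * nsq w := by field_simp
  linarith

lemma det_Lg (z : Fin n → ℂ) : (LvM Lg z).det = (((rho z)⁻¹ ^ (n + 1) : ℝ) : ℂ) := by
  have hr : (rho z : ℂ) ≠ 0 := by exact_mod_cast (rho_pos z).ne'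
  have h1 : LvM Lg z = ((rho z : ℝ) : ℂ)⁻¹ • (1 +
      Matrix.replicateCol Unit (fun j => -(((rho z : ℝ) : ℂ)⁻¹ * conj (z j))) *
        Matrix.replicateRow Unit z) := by
    ext j k
    simp only [LvM, Matrix.of_apply, Lv_Lg, Matrix.smul_apply, Matrix.add_apply, Matrix.mul_apply,
      Matrix.replicateCol_apply, Matrix.replicateRow_apply, Finset.univ_unique, Finset.sum_const,
      Finset.card_singleton, one_smul, smul_eq_mul, Matrix.one_apply]
    ring
  rw [h1, Matrix.det_smul, Matrix.det_one_add_replicateCol_mul_replicateRow, Fintype.card_fin]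
  have h2 : (z ⬝ᵥ fun j => -(((rho z : ℝ) : ℂ)⁻¹ * conj (z j))) =
      -(((rho z : ℝ) : ℂ)⁻¹ * (nsq z : ℂ)) := by
    simp only [dotProduct, nsq]
    push_cast
    rw [Finset.mul_sum, ← Finset.sum_neg_distrib]
    refine Finset.sum_congr rfl fun j _ => ?_
    rw [← Complex.mul_conj']; ring
  rw [h2]
  have h3 : (nsq z : ℂ) = (rho z : ℂ) - 1 := by simp [rho]
  rw [h3]
  push_cast
  have h4 : (1 : ℂ) + -((rho z : ℂ)⁻¹ * ((rho z : ℂ) - 1)) = (rho z : ℂ)⁻¹ := by
    field_simp; ring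
  rw [h4, ← pow_succ]

lemma integrable_rho : Integrable (fun z : Fin n → ℂ => (rho z)⁻¹ ^ (n + 1)) := by
  have h1 := integrable_rpow_neg_one_add_norm_sq (E := Fin n → ℂ) (r := 2 * (n + 1 : ℝ))
    (μ := volume) (by
      rw [Module.finrank_pi_fintype]
      simp [Complex.finrank_real_complex]; linarith)
  refine h1.mono' ?_ ?_
  · exact ((Sm_rho.continuous.inv₀ fun z => (rho_pos z).ne').pow _).aestronglyMeasurable
  · refine Eventually.of_forall fun z => ?_
    have h2 : 0 < 1 + ‖z‖ ^ 2 := by positivity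
    have h3 : 1 + ‖z‖ ^ 2 ≤ rho z := by unfold rho; linarith [norm_sq_le_nsq z]
    rw [Real.norm_of_nonneg (by have := rho_pos z; unfold rho; positivity)]
    have h4 : (1 + ‖z‖ ^ 2) ^ (-(2 * (n + 1 : ℝ)) / 2) = (1 + ‖z‖ ^ 2)⁻¹ ^ (n + 1) := by
      rw [inv_pow, ← Real.rpow_natCast (1 + ‖z‖ ^ 2) (n + 1), ← Real.rpow_neg h2.le]
      congr 1; push_cast; ring
    rw [h4]
    have h5 : 0 ≤ (rho z)⁻¹ := (inv_pos.2 (rho_pos z)).le
    have h6 : (rho z)⁻¹ ≤ (1 + ‖z‖ ^ 2)⁻¹ := inv_anti₀ h2 h3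
    exact pow_le_pow_left₀ h5 h6 _

end flat

end Crest.Agent.R276.NL_137
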