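import Mathlib
import Crest.Agent.R275.FLa_606
import Crest.Agent.R276.LPsh_29
import Crest.Agent.R276.MassA_137
import Crest.Agent.R276.BC4_986
import Crest.Agent.R276.EndA_723
import Crest.Agent.R276.BR4_590
import Crest.Agent.R276.SkelDefs_220
import Crest.Agent.R276.EndC2_723

-- ▼ part R276/Lgb1_986
section

/-!
# Row 276 (helper986), LOGB part 1: removable singularities of subharmonic functions of
logarithmic growth `o(log 1/|t|)` (maximum principle on the punctured disc)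
-/

set_option autoImplicit false

open MeasureTheory Set Metric Filter Topology

noncomputable section

namespace Crest.Agent.R276.Lgb_986

open Crest.Agent.R275.FL606

/-- the harmonic comparison function -/
lemma avg_cmp {t₂ : ℂ} {κ : ℝ} (c₀ ε η : ℝ) (hne : ∀ w : ℂ, ‖w‖ ≤ 1 → t₂ + w * κ ≠ 0) :
    CircleIntegrable (fun w : ℂ => c₀ - (ε * Real.log ‖t₂ + w * κ‖ +
      η * (2 * (starRingEnd ℂ t₂) * κ * w).re)) 0 1 ∧
    Real.circleAverage (fun w : ℂ => c₀ - (ε * Real.log ‖t₂ + w * κ‖ +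
      η * (2 * (starRingEnd ℂ t₂) * κ * w).re)) 0 1 = c₀ - ε * Real.log ‖t₂‖ := by
  have h : InnerProductSpace.HarmonicOnNhd (fun w : ℂ => c₀ - (ε * Real.log ‖t₂ + w * κ‖ +
      η * (2 * (starRingEnd ℂ t₂) * κ * w).re)) (closedBall (0 : ℂ) |(1 : ℝ)|) := by
    intro w hw
    rw [abs_one, mem_closedBall, dist_zero_right] at hw
    have h1 : InnerProductSpace.HarmonicAt (fun w : ℂ => Real.log ‖t₂ + w * κ‖) w := by
      refine AnalyticAt.harmonicAt_log_norm (f := fun w : ℂ => t₂ + w * κ) ?_ (hne w hw)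
      fun_prop
    have h2 : InnerProductSpace.HarmonicAt
        (fun w : ℂ => (2 * (starRingEnd ℂ t₂) * κ * w).re) w := by
      refine AnalyticAt.harmonicAt_re (f := fun w : ℂ => 2 * (starRingEnd ℂ t₂) * κ * w) ?_
      fun_prop
    have h3 := (InnerProductSpace.harmonicAt_const (x := w) c₀).sub
      ((h1.const_smul (c := ε)).add (h2.const_smul (c := η)))
    exact h3
  refine ⟨(h.continuousOn.mono sphere_subset_closedBall).circleIntegrable', ?_⟩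
  rw [InnerProductSpace.HarmonicOnNhd.circleAverage_eq h]
  simp

/-- **maximum principle on the punctured disc** -/
theorem punct_max {u : ℂ → ℝ} {r ρ M : ℝ} (hρr : ρ < r)
    (husc : ∀ t : ℂ, 0 < ‖t‖ → ‖t‖ < r → ∀ c, u t < c → ∀ᶠ y in 𝓝 t, u y < c)
    {c₁ : ℝ} (hbdd : ∀ t : ℂ, 0 < ‖t‖ → ‖t‖ < r → c₁ ≤ u t)
    (hsm : SM 0 u {t | 0 < ‖t‖ ∧ ‖t‖ < r})
    (hgr : ∀ ε : ℝ, 0 < ε → ∃ C : ℝ, ∀ t : ℂ, 0 < ‖t‖ → ‖t‖ < r →
      u t ≤ C - ε * Real.log ‖t‖)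
    (hM : ∀ t : ℂ, ‖t‖ = ρ → u t ≤ M) {t : ℂ} (h0 : 0 < ‖t‖) (h1 : ‖t‖ ≤ ρ) : u t ≤ M := by
  by_contra hlt
  push Not at hlt
  have hρ : 0 < ρ := h0.trans_le h1
  set L : ℝ := Real.log ρ - Real.log ‖t‖ with hL
  have hL0 : 0 ≤ L := by
    rw [hL]; have := Real.log_le_log h0 h1; linarith
  set ε : ℝ := (u t - M) / (4 * (1 + L)) with hε
  set η : ℝ := (u t - M) / (4 * (1 + ρ ^ 2)) with hη
  have hd : 0 < u t - M := by linarith
  have hε0 : 0 < ε := by positivity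
  have hη0 : 0 < η := by positivity
  have hεL : ε * L < (u t - M) / 4 + (u t - M) / 8 := by
    have h2 : ε * L = (u t - M) / 4 * (L / (1 + L)) := by rw [hε]; field_simp
    have h3 : L / (1 + L) ≤ 1 := by rw [div_le_one (by positivity)]; linarith
    rw [h2]
    nlinarith
  have hηρ : η * ρ ^ 2 ≤ (u t - M) / 4 := by
    have h2 : η * ρ ^ 2 = (u t - M) / 4 * (ρ ^ 2 / (1 + ρ ^ 2)) := by rw [hη]; field_simp
    have h3 : ρ ^ 2 / (1 + ρ ^ 2) ≤ 1 := by rw [div_le_one (by positivity)]; linarith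
    rw [h2]
    nlinarith
  set v : ℂ → ℝ := fun y => u y + ε * Real.log ‖y‖ + η * ‖y‖ ^ 2 with hv
  -- on the outer circle
  have hout : ∀ y : ℂ, ‖y‖ = ρ → v y < v t := by
    intro y hy
    simp only [hv, hy]
    have h2 := hM y hy
    have h3 : 0 ≤ η * ‖t‖ ^ 2 := by positivity
    have h4 : ε * Real.log ρ = ε * L + ε * Real.log ‖t‖ := by rw [hL]; ring
    linarith
  -- near zero
  obtain ⟨C, hC⟩ := hgr (ε / 2) (by positivity)
  obtain ⟨σ, hσ0, hσt, hσ⟩ : ∃ σ : ℝ, 0 < σ ∧ σ < ‖t‖ ∧ ∀ y : ℂ, 0 < ‖y‖ → ‖y‖ ≤ σ → v y < v t := by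
    set X : ℝ := (v t - 1 - C - η * ρ ^ 2) * (2 / ε) with hX
    refine ⟨min (‖t‖ / 2) (Real.exp X), by positivity,
      (min_le_left _ _).trans_lt (by linarith), fun y hy0 hy => ?_⟩
    have h2 : ‖y‖ ≤ ρ := by
      have := (hy.trans (min_le_left _ _)); linarith
    have h3 := hC y hy0 (h2.trans_lt hρr)
    have h4 : Real.log ‖y‖ ≤ X := by
      rw [Real.log_le_iff_le_exp hy0]; exact hy.trans (min_le_right _ _)
    have h5 : ε / 2 * Real.log ‖y‖ ≤ v t - 1 - C - η * ρ ^ 2 := by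
      calc ε / 2 * Real.log ‖y‖ ≤ ε / 2 * X := by gcongr
        _ = _ := by rw [hX]; field_simp
    have h6 : η * ‖y‖ ^ 2 ≤ η * ρ ^ 2 := by gcongr
    have h7 : v y = u y + ε * Real.log ‖y‖ + η * ‖y‖ ^ 2 := rfl
    rw [h7]
    linarith
  -- the maximum on the annulus
  set S : Set ℂ := {y | σ ≤ ‖y‖ ∧ ‖y‖ ≤ ρ} with hS
  have hSc : IsCompact S := by
    have : S = closedBall (0 : ℂ) ρ ∩ {y | σ ≤ ‖y‖} := by
      ext y; simp [hS, and_comm]
    rw [this]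
    exact (isCompact_closedBall _ _).inter_right (isClosed_le continuous_const continuous_norm)
  have htS : t ∈ S := ⟨hσt.le, h1⟩
  have hvu : UpperSemicontinuousOn v S := by
    intro y hy c hc
    have hy0 : 0 < ‖y‖ := hσ0.trans_le hy.1
    have hyr : ‖y‖ < r := hy.2.trans_lt hρr
    set d : ℝ := (c - v y) / 2 with hd'
    have hd0 : 0 < d := by rw [hd']; have : v y < c := hc; linarith
    have h2 : ∀ᶠ z in 𝓝 y, u z < u y + d := husc y hy0 hyr _ (by linarith)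
    have h3 : ContinuousAt (fun z : ℂ => ε * Real.log ‖z‖ + η * ‖z‖ ^ 2) y := by
      have : ContinuousAt (fun z : ℂ => Real.log ‖z‖) y :=
        (Real.continuousAt_log hy0.ne').comp continuous_norm.continuousAt
      fun_prop
    have h4 : ∀ᶠ z in 𝓝 y, ε * Real.log ‖z‖ + η * ‖z‖ ^ 2 <
        ε * Real.log ‖y‖ + η * ‖y‖ ^ 2 + d := h3.eventually_lt_const (by linarith)
    refine mem_nhdsWithin_of_mem_nhds ?_
    filter_upwards [h2, h4] with z h5 h6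
    have h7 : v z = u z + ε * Real.log ‖z‖ + η * ‖z‖ ^ 2 := rfl
    have h8 : v y = u y + ε * Real.log ‖y‖ + η * ‖y‖ ^ 2 := rfl
    show v z < c
    linarith
  obtain ⟨t₂, ht₂, hmax⟩ := hvu.exists_isMaxOn ⟨t, htS⟩ hSc
  have hge : v t ≤ v t₂ := hmax htS
  have ht₂0 : 0 < ‖t₂‖ := hσ0.trans_le ht₂.1
  have ha : σ < ‖t₂‖ := by
    by_contra hcon
    push Not at hcon
    exact absurd hge (not_le.2 (hσ t₂ ht₂0 hcon))
  have hb : ‖t₂‖ < ρ := by
    rcases ht₂.2.eq_or_lt with h | h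
    · exact absurd hge (not_le.2 (hout t₂ h))
    · exact h
  -- a small disc
  set κ : ℝ := min ((‖t₂‖ - σ) / 2) ((ρ - ‖t₂‖) / 2) with hκ
  have hκ0 : 0 < κ := lt_min (by linarith) (by linarith)
  have hnκ : ‖((κ : ℝ) : ℂ)‖ = κ := by rw [Complex.norm_real, Real.norm_of_nonneg hκ0.le]
  have hmem : ∀ w : ℂ, ‖w‖ ≤ 1 → t₂ + w * κ ∈ S := by
    intro w hw
    have h2 : ‖w * (κ : ℂ)‖ ≤ κ := by
      rw [norm_mul, hnκ]; exact mul_le_of_le_one_left hκ0.le hw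
    have h3 : ‖t₂ + w * κ‖ ≤ ‖t₂‖ + ‖w * (κ : ℂ)‖ := norm_add_le _ _
    have h4 : ‖t₂‖ - ‖w * (κ : ℂ)‖ ≤ ‖t₂ + w * κ‖ := by
      have := norm_sub_norm_le t₂ (-(w * (κ : ℂ)))
      rwa [norm_neg, sub_neg_eq_add] at this
    have h5 : κ ≤ (‖t₂‖ - σ) / 2 := min_le_left _ _
    have h6 : κ ≤ (ρ - ‖t₂‖) / 2 := min_le_right _ _
    exact ⟨by linarith, by linarith⟩
  have hSr : ∀ y ∈ S, 0 < ‖y‖ ∧ ‖y‖ < r := fun y hy => ⟨hσ0.trans_le hy.1, hy.2.trans_lt hρr⟩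
  have hne : ∀ w : ℂ, ‖w‖ ≤ 1 → t₂ + w * κ ≠ 0 := fun w hw =>
    norm_pos_iff.1 (hSr _ (hmem w hw)).1
  obtain ⟨hGi, hGa⟩ := avg_cmp (t₂ := t₂) (κ := κ) (v t₂ - η * (‖t₂‖ ^ 2 + κ ^ 2)) ε η hne
  set G : ℂ → ℝ := fun w : ℂ => (v t₂ - η * (‖t₂‖ ^ 2 + κ ^ 2)) - (ε * Real.log ‖t₂ + w * κ‖ +
      η * (2 * (starRingEnd ℂ t₂) * κ * w).re) with hG
  have hle : ∀ w : ℂ, ‖w‖ = 1 → u (t₂ + w * κ) ≤ G w := by
    intro w hw
    have h2 : v (t₂ + w * κ) ≤ v t₂ := hmax (hmem w hw.le)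
    have h3 : ‖t₂ + w * κ‖ ^ 2 = ‖t₂‖ ^ 2 + κ ^ 2 + (2 * (starRingEnd ℂ t₂) * κ * w).re := by
      have h4 : ‖w * (κ : ℂ)‖ ^ 2 = κ ^ 2 := by rw [norm_mul, hnκ, hw, one_mul]
      have h5 : ‖t₂ + w * κ‖ ^ 2 = ‖t₂‖ ^ 2 + ‖w * (κ : ℂ)‖ ^ 2 +
          2 * (t₂ * (starRingEnd ℂ) (w * κ)).re := by
        rw [← Complex.normSq_eq_norm_sq, ← Complex.normSq_eq_norm_sq, ← Complex.normSq_eq_norm_sq,
          Complex.normSq_add]
      rw [h5, h4]
      have h6 : (2 * (starRingEnd ℂ t₂) * κ * w).re = 2 * (t₂ * (starRingEnd ℂ) (w * κ)).re := by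
        simp only [Complex.mul_re, Complex.mul_im, Complex.conj_re, Complex.conj_im,
          Complex.ofReal_re, Complex.ofReal_im, Complex.re_ofNat, Complex.im_ofNat, map_mul]
        ring
      rw [h6]
    have h7 : v (t₂ + w * κ) = u (t₂ + w * κ) + ε * Real.log ‖t₂ + w * κ‖ +
      η * ‖t₂ + w * κ‖ ^ 2 := rfl
    rw [h7, h3] at h2
    simp only [hG]
    nlinarith
  -- integrability
  have hGc : ContinuousOn G (sphere (0 : ℂ) 1) := by
    have h2 : ContinuousOn (fun w : ℂ => Real.log ‖t₂ + w * κ‖) (sphere (0 : ℂ) 1) := by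
      intro w hw
      have hw' : ‖w‖ ≤ 1 := by
        rw [mem_sphere, dist_zero_right] at hw; exact hw.le
      have h3 : ContinuousAt (fun w : ℂ => ‖t₂ + w * κ‖) w := by fun_prop
      exact (h3.log (norm_ne_zero_iff.2 (hne w hw'))).continuousWithinAt
    simp only [hG]
    fun_prop
  obtain ⟨K, hK⟩ := (isCompact_sphere (0 : ℂ) 1).exists_bound_of_continuousOn hGc
  have hui : CircleIntegrable (fun w : ℂ => u (t₂ + w • (κ : ℂ))) 0 1 := by
    have hcm : ∀ θ : ℝ, ‖circleMap (0 : ℂ) 1 θ‖ = 1 := fun θ => by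
      rw [norm_circleMap_zero, abs_one]
    have hmeas : Measurable fun θ : ℝ => u (t₂ + circleMap 0 1 θ • (κ : ℂ)) := by
      apply UpperSemicontinuous.measurable
      intro θ c hc
      have h2 : ContinuousAt (fun θ : ℝ => t₂ + circleMap 0 1 θ • (κ : ℂ)) θ := by fun_prop
      have h3 := hSr _ (hmem (circleMap 0 1 θ) (hcm θ).le)
      exact h2.eventually (husc _ h3.1 h3.2 c hc)
    unfold CircleIntegrable
    rw [intervalIntegrable_iff]
    refine Integrable.mono' (g := fun _ => max |c₁| K) ?_ hmeas.aestronglyMeasurable ?_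
    · exact (integrable_const_iff.2 (Or.inr ⟨by
        rw [Measure.restrict_apply_univ]
        exact measure_Ioc_lt_top⟩))
    · refine Eventually.of_forall fun θ => ?_
      have h3 := hSr _ (hmem (circleMap 0 1 θ) (hcm θ).le)
      have h4 := hbdd _ h3.1 h3.2
      have h5 := hle _ (hcm θ)
      have h6 := hK (circleMap 0 1 θ) (by rw [mem_sphere, dist_zero_right]; exact hcm θ)
      rw [Real.norm_eq_abs] at h6 ⊢
      have h7 : G (circleMap 0 1 θ) ≤ K := (le_abs_self _).trans h6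
      show |u (t₂ + circleMap 0 1 θ * (κ : ℂ))| ≤ max |c₁| K
      rw [abs_le]
      have h8 := neg_abs_le c₁
      have h9 := le_max_left |c₁| K
      have h10 := le_max_right |c₁| K
      constructor
      · linarith
      · linarith
  have hsm2 := hsm t₂ (κ : ℂ) (fun w hw => hSr _ (hmem w hw))
  have h3 : Real.circleAverage (fun w : ℂ => u (t₂ + w • (κ : ℂ))) 0 1 ≤
      Real.circleAverage G 0 1 := by
    refine Real.circleAverage_mono hui hGi fun w hw => ?_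
    rw [abs_one, mem_sphere, dist_zero_right] at hw
    exact hle w hw
  rw [hGa] at h3
  have h4 : v t₂ = u t₂ + ε * Real.log ‖t₂‖ + η * ‖t₂‖ ^ 2 := rfl
  have h5 : 0 < η * κ ^ 2 := by positivity
  have h6 : u t₂ ≤ v t₂ - η * (‖t₂‖ ^ 2 + κ ^ 2) - ε * Real.log ‖t₂‖ := by
    have := hsm2.trans (add_le_add h3 le_rfl)
    simpa using this
  rw [h4] at h6
  nlinarith

end Crest.Agent.R276.Lgb_986
end
end

-- ▼ part R276/Lgb2_986
section

/-!
# Row 276 (helper986), LOGB part 2: a plurisubharmonic weight of growth `o(log 1/|ζ_{i₀}|)` on a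
boundary chart is bounded near the centre of the chart.

* `pbound` : psh functions on `{‖ζ‖ < r, ζ_{i₀} ≠ 0}`;
* `lpsh_bound` : the same for `LPsh` weights on the Riemann domain `{‖ζ‖ < r, ζ_{i₀} ≠ 0}`;
* `bchart_bound` : for `b` with `LPsh b` on `M = Hom(B,ℂ)`, `X : BChart D B`, `h` holomorphic without
  zeros on `X.V`, `a : ℝ`: if for all `ε > 0`, `b(s ζ) ‖h ζ‖ ‖ζ_{i₀}‖^a ≤ C_ε ‖ζ_{i₀}‖^{-ε}` on `X.V`
  then `b(s ζ) ‖h ζ‖ ‖ζ_{i₀}‖^a ≤ C` on `(X.shrink ρ).V`, all `ρ < r`.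
-/

set_option autoImplicit false
set_option linter.unusedSectionVars false
set_option linter.style.haveILetI false

open MeasureTheory Set Metric Filter Topology

noncomputable section

namespace Crest.Agent.R276.Lgb_986

open Crest.Agent.R275.FL606 Crest.Agent.R271.Ho51 Crest.Agent.R273.Reg_844
  Crest.Agent.R276.PshA_29 Crest.Agent.R276.PshB_29 Crest.Agent.R276.SubL_29
  Crest.Agent.R276.EngU_29
open TopologicalSpace (Opens)

variable {n : ℕ}

/-- the polydisc minus the divisor -/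
def W (i₀ : Fin n) (r : ℝ) : Set (Fin n → ℂ) := ball 0 r ∩ {z | z i₀ ≠ 0}

lemma isOpen_W (i₀ : Fin n) (r : ℝ) : IsOpen (W i₀ r) :=
  isOpen_ball.inter (isOpen_ne_fun (continuous_apply _) continuous_const)

lemma update_mem_W {i₀ : Fin n} {r ρ : ℝ} {z : Fin n → ℂ} (hz : ‖z‖ < ρ) (hρr : ρ < r) {t : ℂ}
    (ht : 0 < ‖t‖) (ht' : ‖t‖ < r) : Function.update z i₀ t ∈ W i₀ r := by
  have hr : 0 < r := ht.trans ht'
  refine ⟨?_, ?_⟩
  · rw [mem_ball, dist_zero_right, pi_norm_lt_iff hr]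
    intro j
    by_cases hj : j = i₀
    · subst hj; rwa [Function.update_self]
    · rw [Function.update_of_ne hj]
      exact (norm_le_pi_norm z j).trans_lt (hz.trans hρr)
  · show Function.update z i₀ t i₀ ≠ 0
    rw [Function.update_self]
    exact norm_pos_iff.1 ht

/-- **psh functions of growth `o(log 1/|ζ_{i₀}|)` are bounded** -/
theorem pbound {i₀ : Fin n} {u : (Fin n → ℂ) → ℝ} {r ρ : ℝ} (hρr : ρ < r)
    (husc : ∀ z ∈ W i₀ r, ∀ c, u z < c → ∀ᶠ y in 𝓝 z, u y < c)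
    {c₁ : ℝ} (hbdd : ∀ z ∈ W i₀ r, c₁ ≤ u z) (hsm : SM 0 u (W i₀ r))
    (hgr : ∀ ε : ℝ, 0 < ε → ∃ C : ℝ, ∀ z ∈ W i₀ r, u z ≤ C - ε * Real.log ‖z i₀‖) :
    ∃ M : ℝ, ∀ z ∈ W i₀ ρ, u z ≤ M := by
  rcases le_or_gt ρ 0 with hρ | hρ
  · refine ⟨0, fun z hz => ?_⟩
    have h1 := hz.1
    rw [mem_ball, dist_zero_right] at h1
    exact absurd (h1.trans_le hρ) (not_lt.2 (norm_nonneg z))
  set T : Set (Fin n → ℂ) := closedBall 0 ρ ∩ {z | ‖z i₀‖ = ρ} with hT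
  have hTc : IsCompact T :=
    (isCompact_closedBall _ _).inter_right (isClosed_eq (continuous_apply i₀).norm continuous_const)
  have hTW : T ⊆ W i₀ r := by
    intro z hz
    refine ⟨(closedBall_subset_ball hρr) hz.1, ?_⟩
    show z i₀ ≠ 0
    rw [← norm_pos_iff, hz.2]
    exact hρ
  have hTn : T.Nonempty := by
    refine ⟨fun _ => (ρ : ℂ), ?_, ?_⟩
    · rw [mem_closedBall, dist_zero_right, pi_norm_le_iff_of_nonneg hρ.le]
      intro i
      rw [Complex.norm_real, Real.norm_of_nonneg hρ.le]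
    · show ‖(ρ : ℂ)‖ = ρ
      rw [Complex.norm_real, Real.norm_of_nonneg hρ.le]
  have hTu : UpperSemicontinuousOn u T := fun z hz c hc =>
    mem_nhdsWithin_of_mem_nhds (husc z (hTW hz) c hc)
  obtain ⟨z₀, -, hz₀⟩ := hTu.exists_isMaxOn hTn hTc
  refine ⟨u z₀, fun z hz => ?_⟩
  have hz1 : ‖z‖ < ρ := by
    have := hz.1; rwa [mem_ball, dist_zero_right] at this
  have hmem : ∀ t : ℂ, 0 < ‖t‖ → ‖t‖ < r → Function.update z i₀ t ∈ W i₀ r :=
    fun t ht ht' => update_mem_W hz1 hρr ht ht'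
  have hcont : Continuous fun t : ℂ => Function.update z i₀ t := by fun_prop
  have key := punct_max (u := fun t => u (Function.update z i₀ t)) (r := r) (ρ := ρ) (M := u z₀)
    (c₁ := c₁) hρr ?_ ?_ ?_ ?_ ?_ (t := z i₀) (norm_pos_iff.2 hz.2)
    ((norm_le_pi_norm z i₀).trans hz1.le)
  · simpa using key
  · intro t ht ht' c hc
    exact hcont.continuousAt.eventually (husc _ (hmem t ht ht') c hc)
  · intro t ht ht'
    exact hbdd _ (hmem t ht ht')
  · intro t v hd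
    have h1 : ∀ w : ℂ, Function.update z i₀ (t + w • v) =
        Function.update z i₀ t + w • (Pi.single i₀ v : Fin n → ℂ) := by
      intro w
      funext j
      by_cases hj : j = i₀
      · subst hj; simp
      · simp [Function.update_of_ne hj, Pi.single_eq_of_ne hj]
    have h2 := hsm (Function.update z i₀ t) (Pi.single i₀ v) (fun w hw => by
      rw [← h1]
      have := hd w hw
      exact hmem _ this.1 this.2)
    simp only [← h1, zero_mul, add_zero] at h2 ⊢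
    exact h2
  · intro ε hε
    obtain ⟨C, hC⟩ := hgr ε hε
    refine ⟨C, fun t ht ht' => ?_⟩
    have := hC _ (hmem t ht ht')
    rwa [Function.update_self] at this
  · intro t ht
    refine hz₀ ⟨?_, ?_⟩
    · rw [mem_closedBall, dist_zero_right, pi_norm_le_iff_of_nonneg hρ.le]
      intro j
      by_cases hj : j = i₀
      · subst hj; rw [Function.update_self]; exact ht.le
      · rw [Function.update_of_ne hj]
        exact (norm_le_pi_norm z j).trans hz1.le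
    · show ‖Function.update z i₀ t i₀‖ = ρ
      rw [Function.update_self]; exact ht

/-! ### `LPsh` -/

attribute [local instance] Crest.Agent.R276.NL_137.flat

/-- `W i₀ r` as an open subset of `ℂⁿ` -/
def WO (i₀ : Fin n) (r : ℝ) : Opens (Fin n → ℂ) := ⟨W i₀ r, isOpen_W i₀ r⟩

/-- holomorphic functions on an open subset of `ℂⁿ` -/
lemma hol_of_analytic (U : Opens (Fin n → ℂ)) {F : (Fin n → ℂ) → ℂ}
    (hF : ∀ z ∈ U, AnalyticAt ℂ F z) : @Hol n U _ (rdO U) (fun z : U => F z.1) := by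
  letI := rdO U
  intro e he
  have h1 : ∀ z ∈ e.target, (e.symm z).1 = z := fun z hz => he.cp_symm hz
  have h2 : e.target ⊆ (U : Set (Fin n → ℂ)) := by
    intro z hz
    rw [← h1 z hz]
    exact (e.symm z).2
  have h3 : DifferentiableOn ℂ F e.target := fun z hz =>
    (hF z (h2 hz)).differentiableAt.differentiableWithinAt
  refine h3.congr fun z hz => ?_
  show F (e.symm z).1 = F z
  rw [h1 z hz]

/-- the tautological chart of an open subset -/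
lemma isCh_coe (U : Opens (Fin n → ℂ)) (h : Nonempty U) :
    letI := rdO U
    IsCh (U.openPartialHomeomorphSubtypeCoe h) := rfl

/-- **psh weights of growth `o(log)` are bounded** -/
theorem lpsh_bound {i₀ : Fin n} {r ρ : ℝ} (hρr : ρ < r) {b : WO i₀ r → ℝ}
    (h : @LPsh n (WO i₀ r) _ (rdO (WO i₀ r)) b)
    (hgr : ∀ ε : ℝ, 0 < ε → ∃ C : ℝ, ∀ z : WO i₀ r, b z ≤ C * ‖z.1 i₀‖ ^ (-ε)) :
    ∃ C : ℝ, ∀ z : WO i₀ r, ‖z.1‖ < ρ → b z ≤ C := by
  letI := rdO (WO i₀ r)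
  by_cases hne : Nonempty (WO i₀ r)
  swap
  · exact ⟨0, fun z => absurd ⟨z⟩ hne⟩
  have hP : PSH (fun z : WO i₀ r => Real.log (b z + 1)) := h.psh 1 one_pos
  set e := (WO i₀ r).openPartialHomeomorphSubtypeCoe hne with he
  have hch : IsCh e := isCh_coe _ hne
  have htar : e.target = W i₀ r := by
    exact (WO i₀ r).openPartialHomeomorphSubtypeCoe_target hne
  have hsymm : ∀ z (hz : z ∈ W i₀ r), e.symm z = ⟨z, hz⟩ := by
    intro z hz
    apply Subtype.ext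
    exact hch.cp_symm (by rw [htar]; exact hz)
  set u : (Fin n → ℂ) → ℝ := (fun z : WO i₀ r => Real.log (b z + 1)) ∘ e.symm with hu
  have hu1 : ∀ z (hz : z ∈ W i₀ r), u z = Real.log (b ⟨z, hz⟩ + 1) := by
    intro z hz
    rw [hu, Function.comp_apply, hsymm z hz]
  have hr : ∀ z ∈ W i₀ r, 0 < ‖z i₀‖ ∧ ‖z i₀‖ < r := by
    intro z hz
    have h1 := hz.1
    rw [mem_ball, dist_zero_right] at h1
    exact ⟨norm_pos_iff.2 hz.2, (norm_le_pi_norm z i₀).trans_lt h1⟩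
  suffices hmain : ∃ M : ℝ, ∀ z ∈ W i₀ ρ, u z ≤ M by
    obtain ⟨M, hM⟩ := hmain
    refine ⟨Real.exp M, fun z hz => ?_⟩
    have h1 := hM z.1 ⟨by rwa [mem_ball, dist_zero_right], z.2.2⟩
    have h0 := h.nonneg z
    rw [hu1 z.1 z.2, Real.log_le_iff_le_exp (by positivity)] at h1
    linarith
  refine pbound (u := u) (i₀ := i₀) (r := r) (ρ := ρ) (c₁ := 0) hρr ?_ ?_ ?_ ?_
  · intro z hz c hc
    have h1 : ContinuousAt e.symm z := e.symm.continuousAt (by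
      rw [e.symm_source, htar]; exact hz)
    exact h1.eventually (hP.usc (e.symm z) c hc)
  · intro z hz
    rw [hu1 z hz]
    exact Real.log_nonneg (by linarith [h.nonneg ⟨z, hz⟩])
  · rw [← htar]; exact hP.sm e hch
  · intro ε hε
    obtain ⟨C, hC⟩ := hgr ε hε
    set C' : ℝ := max C 0 + r ^ ε with hC'
    refine ⟨Real.log C', fun z hz => ?_⟩
    obtain ⟨h1, h2⟩ := hr z hz
    have hr0 : 0 < r := h1.trans h2
    have h3 := hC ⟨z, hz⟩
    have h0 := h.nonneg ⟨z, hz⟩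
    have h4 : 0 < C' := by
      have : 0 < r ^ ε := Real.rpow_pos_of_pos hr0 _
      have := le_max_right C 0
      positivity
    have h5 : 0 < ‖z i₀‖ ^ (-ε) := Real.rpow_pos_of_pos h1 _
    have h6 : 1 ≤ r ^ ε * ‖z i₀‖ ^ (-ε) := by
      rw [Real.rpow_neg h1.le, ← div_eq_mul_inv, one_le_div (Real.rpow_pos_of_pos h1 _)]
      exact Real.rpow_le_rpow h1.le h2.le hε.le
    have h7 : b ⟨z, hz⟩ + 1 ≤ C' * ‖z i₀‖ ^ (-ε) := by
      rw [hC', add_mul]
      have : C * ‖z i₀‖ ^ (-ε) ≤ max C 0 * ‖z i₀‖ ^ (-ε) :=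
        mul_le_mul_of_nonneg_right (le_max_left _ _) h5.le
      have h8 : b ⟨z, hz⟩ ≤ C * ‖z i₀‖ ^ (-ε) := h3
      linarith
    rw [hu1 z hz]
    calc Real.log (b ⟨z, hz⟩ + 1) ≤ Real.log (C' * ‖z i₀‖ ^ (-ε)) :=
          Real.log_le_log (by positivity) h7
      _ = Real.log C' - ε * Real.log ‖z i₀‖ := by
          rw [Real.log_mul h4.ne' h5.ne', Real.log_rpow h1]; ring

/-! ### boundary charts -/

section bchart

open Crest.Agent.R271.Defs710 Crest.Agent.R276.BC_986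
open Crest.Agent.R271.Rd692 (Pt pr)

variable {i₀ : Fin n} {r : ℝ} {B : Type} [CommRing B] [Algebra ℂ B] [RDom n (B →ₐ[ℂ] ℂ)]
  [T2Space (B →ₐ[ℂ] ℂ)]

/-- pull back of a weight to a chart, times `‖h‖ ‖ζ_{i₀}‖^a` -/
theorem lpsh_chart {z : Fin n → B} (hcp : ∀ (y : B →ₐ[ℂ] ℂ) j, (cp y : Fin n → ℂ) j = y (z j))
    {s : (Fin n → ℂ) → (B →ₐ[ℂ] ℂ)} (hs : ContinuousOn s (W i₀ r))
    (hsa : ∀ j, AnalyticOnNhd ℂ (fun ζ => s ζ (z j)) (W i₀ r))
    {b : (B →ₐ[ℂ] ℂ) → ℝ} (hb : LPsh b)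
    {h : (Fin n → ℂ) → ℂ} (hh : AnalyticOnNhd ℂ h (W i₀ r)) (a : ℝ) :
    @LPsh n (WO i₀ r) _ (rdO (WO i₀ r))
      (fun ζ : WO i₀ r => b (s ζ.1) * ‖h ζ.1‖ ^ 2 * ‖ζ.1 i₀‖ ^ a) := by
  letI := rdO (WO i₀ r)
  have h1 : HolMap (fun ζ : WO i₀ r => s ζ.1) := by
    refine ⟨continuousOn_iff_continuous_domRestrict.1 hs, fun j => ?_⟩
    have := hol_of_analytic (WO i₀ r) (F := fun ζ => s ζ (z j)) (fun ζ hζ => hsa j ζ hζ)
    simpa only [hcp] using this
  have h2 : LPsh (fun ζ : WO i₀ r => b (s ζ.1)) := LPsh.comp_hol h1 hb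
  have h3 : LPsh (fun ζ : WO i₀ r => ‖h ζ.1‖ ^ 2) :=
    LPsh.of_hol (hol_of_analytic (WO i₀ r) (F := h) (fun ζ hζ => hh ζ hζ))
  have h4 : LPsh (fun ζ : WO i₀ r => ‖ζ.1 i₀‖ ^ a) := by
    have ha : ∀ ζ : Fin n → ℂ, AnalyticAt ℂ (fun ζ : Fin n → ℂ => ζ i₀) ζ := fun ζ =>
      (ContinuousLinearMap.proj (R := ℂ) (φ := fun _ : Fin n => ℂ) i₀).analyticAt ζ
    rcases le_total 0 a with h0 | h0
    · exact LPsh.of_hol_rpow (hol_of_analytic (WO i₀ r) (F := fun ζ => ζ i₀) (fun ζ _ => ha ζ)) h0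
    · have h5 : LPsh (fun ζ : WO i₀ r => ‖(ζ.1 i₀)⁻¹‖ ^ (-a)) :=
        LPsh.of_hol_rpow (hol_of_analytic (WO i₀ r) (F := fun ζ => (ζ i₀)⁻¹)
          (fun ζ hζ => (ha ζ).inv hζ.2)) (by linarith)
      have h6 : (fun ζ : WO i₀ r => ‖(ζ.1 i₀)⁻¹‖ ^ (-a)) = fun ζ : WO i₀ r => ‖ζ.1 i₀‖ ^ a := by
        funext ζ
        rw [norm_inv, Real.inv_rpow (norm_nonneg _), Real.rpow_neg (norm_nonneg _), inv_inv]
      rwa [h6] at h5
  exact (h2.mul h3).mul h4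

/-- **LOGB ⇒ bounded**, general form -/
theorem chart_bound {ρ : ℝ} (hρr : ρ < r) {z : Fin n → B}
    (hcp : ∀ (y : B →ₐ[ℂ] ℂ) j, (cp y : Fin n → ℂ) j = y (z j))
    {s : (Fin n → ℂ) → (B →ₐ[ℂ] ℂ)} (hs : ContinuousOn s (W i₀ r))
    (hsa : ∀ j, AnalyticOnNhd ℂ (fun ζ => s ζ (z j)) (W i₀ r))
    {b : (B →ₐ[ℂ] ℂ) → ℝ} (hb : LPsh b)
    {h : (Fin n → ℂ) → ℂ} (hh : AnalyticOnNhd ℂ h (W i₀ r)) (a : ℝ)
    (hgr : ∀ ε : ℝ, 0 < ε → ∃ C : ℝ, ∀ ζ ∈ W i₀ r,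
      b (s ζ) * ‖h ζ‖ ^ 2 * ‖ζ i₀‖ ^ a ≤ C * ‖ζ i₀‖ ^ (-ε)) :
    ∃ C : ℝ, ∀ ζ ∈ W i₀ ρ, b (s ζ) * ‖h ζ‖ ^ 2 * ‖ζ i₀‖ ^ a ≤ C := by
  obtain ⟨C, hC⟩ := lpsh_bound hρr (lpsh_chart hcp hs hsa hb hh a) (fun ε hε => by
    obtain ⟨C, hC⟩ := hgr ε hε
    exact ⟨C, fun ζ => hC ζ.1 ζ.2⟩)
  refine ⟨C, fun ζ hζ => ?_⟩
  have h1 := hζ.1
  rw [mem_ball, dist_zero_right] at h1
  exact hC ⟨ζ, ⟨by rw [mem_ball, dist_zero_right]; exact h1.trans hρr, hζ.2⟩⟩ h1

end bchart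

end Crest.Agent.R276.Lgb_986
end
end

-- ▼ part R276/Lgb3_986
section

/-!
# Row 276 (helper986), LOGB part 3: applications

* `BLog` : growth `C (1 + |log x|)^N`; `blog_le` : it is `≤ C_ε x^{-ε}`;
* `BChart.bound` : 986's boundary charts;
* `ach_bound` : 590's analytic boundary charts `ACh`;
* `bdd_of_log` : 723's `Bdd` from an `LPsh` weight of logarithmic growth in the frame of `K_X`.
-/

set_option autoImplicit false
set_option linter.unusedSectionVars false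
set_option linter.style.haveILetI false

open MeasureTheory Set Metric Filter Topology

noncomputable section

namespace Crest.Agent.R276.Lgb_986

open Crest.Agent.R271.Ho51 Crest.Agent.R276.EngU_29
open Crest.Agent.R271.Defs710 Crest.Agent.R271.Bd741 Crest.Agent.R276.BC_986
open Crest.Agent.R276.FKDefs_779
open Crest.Agent.R271.Rd692 (Pt pr rdom)

/-- powers of the logarithm are `o(x^{-ε})` -/
lemma blog_le (r : ℝ) (N : ℕ) {ε : ℝ} (hε : 0 < ε) :
    ∃ C : ℝ, 0 ≤ C ∧ ∀ x : ℝ, 0 < x → x < r → (1 + |Real.log x|) ^ N ≤ C * x ^ (-ε) := by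
  rcases Nat.eq_zero_or_pos N with rfl | hN
  · refine ⟨max r 0 ^ ε, by positivity, fun x hx hxr => ?_⟩
    have hr : 0 < r := hx.trans hxr
    rw [pow_zero, max_eq_left hr.le, Real.rpow_neg hx.le, ← div_eq_mul_inv,
      one_le_div (Real.rpow_pos_of_pos hx _)]
    exact Real.rpow_le_rpow hx.le hxr.le hε.le
  set d : ℝ := ε / N with hd
  have hN0 : (0 : ℝ) < N := by exact_mod_cast hN
  have hd0 : 0 < d := by positivity
  set r' : ℝ := max r 1 with hr'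
  have hr1 : 1 ≤ r' := le_max_right _ _
  set A : ℝ := (1 + Real.log r' + 1 / d) * r' ^ d with hA
  have hlog : 0 ≤ Real.log r' := Real.log_nonneg hr1
  have hA0 : 0 ≤ A := by positivity
  refine ⟨A ^ N, by positivity, fun x hx hxr => ?_⟩
  have hxd : 0 < x ^ (-d) := Real.rpow_pos_of_pos hx _
  have hxr' : x ≤ r' := hxr.le.trans (le_max_left _ _)
  have h1 : 1 ≤ r' ^ d * x ^ (-d) := by
    rw [Real.rpow_neg hx.le, ← div_eq_mul_inv, one_le_div (Real.rpow_pos_of_pos hx _)]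
    exact Real.rpow_le_rpow hx.le hxr' hd0.le
  have h2 : |Real.log x| ≤ Real.log r' + 1 / d * x ^ (-d) := by
    have h4 : 0 < 1 / d := by positivity
    rcases le_total 0 (Real.log x) with h | h
    · rw [abs_of_nonneg h]
      have := Real.log_le_log hx hxr'
      have : 0 ≤ 1 / d * x ^ (-d) := by positivity
      linarith
    · rw [abs_of_nonpos h]
      have h5 := Real.add_one_le_exp (-d * Real.log x)
      have h6 : Real.exp (-d * Real.log x) = x ^ (-d) := by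
        rw [Real.rpow_def_of_pos hx, mul_comm]
      rw [h6] at h5
      have h7 : -Real.log x ≤ 1 / d * x ^ (-d) := by
        rw [one_div, inv_mul_eq_div, le_div_iff₀ hd0]
        nlinarith
      linarith
  have h3 : 1 + |Real.log x| ≤ A * x ^ (-d) := by
    have h4 : 0 < 1 / d := by positivity
    have h5 : (1 + Real.log r') ≤ (1 + Real.log r') * (r' ^ d * x ^ (-d)) :=
      le_mul_of_one_le_right (by positivity) h1
    have h6 : 1 / d * x ^ (-d) ≤ 1 / d * (r' ^ d * x ^ (-d)) := by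
      have h7 : 1 ≤ r' ^ d := Real.one_le_rpow hr1 hd0.le
      have h8 : x ^ (-d) ≤ r' ^ d * x ^ (-d) := le_mul_of_one_le_left hxd.le h7
      gcongr
    calc 1 + |Real.log x| ≤ (1 + Real.log r') + 1 / d * x ^ (-d) := by linarith
      _ ≤ (1 + Real.log r') * (r' ^ d * x ^ (-d)) + 1 / d * (r' ^ d * x ^ (-d)) := by linarith
      _ = A * x ^ (-d) := by rw [hA]; ring
  calc (1 + |Real.log x|) ^ N ≤ (A * x ^ (-d)) ^ N :=
        pow_le_pow_left₀ (by positivity) h3 N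
    _ = A ^ N * x ^ (-ε) := by
        rw [mul_pow, ← Real.rpow_natCast (x ^ (-d)) N, ← Real.rpow_mul hx.le]
        congr 2
        rw [hd]; field_simp

section general

variable {n : ℕ} {i₀ : Fin n} {r : ℝ} {B : Type} [CommRing B] [Algebra ℂ B]
  [RDom n (B →ₐ[ℂ] ℂ)] [T2Space (B →ₐ[ℂ] ℂ)]

/-- **LOGB ⇒ bounded** with logarithmic growth -/
theorem chart_bound_log {ρ : ℝ} (hρr : ρ < r) {z : Fin n → B}
    (hcp : ∀ (y : B →ₐ[ℂ] ℂ) j, (cp y : Fin n → ℂ) j = y (z j))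
    {s : (Fin n → ℂ) → (B →ₐ[ℂ] ℂ)} (hs : ContinuousOn s (W i₀ r))
    (hsa : ∀ j, AnalyticOnNhd ℂ (fun ζ => s ζ (z j)) (W i₀ r))
    {b : (B →ₐ[ℂ] ℂ) → ℝ} (hb : LPsh b)
    {h : (Fin n → ℂ) → ℂ} (hh : AnalyticOnNhd ℂ h (W i₀ r)) (a : ℝ) {N : ℕ} {C : ℝ}
    (hgr : ∀ ζ ∈ W i₀ r,
      b (s ζ) * ‖h ζ‖ ^ 2 * ‖ζ i₀‖ ^ a ≤ C * (1 + |Real.log ‖ζ i₀‖|) ^ N) :
    ∃ C : ℝ, ∀ ζ ∈ W i₀ ρ, b (s ζ) * ‖h ζ‖ ^ 2 * ‖ζ i₀‖ ^ a ≤ C := by
  refine chart_bound hρr hcp hs hsa hb hh a fun ε hε => ?_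
  obtain ⟨C', hC'0, hC'⟩ := blog_le r N hε
  refine ⟨max C 0 * C', fun ζ hζ => ?_⟩
  have h1 : 0 < ‖ζ i₀‖ := norm_pos_iff.2 hζ.2
  have h2 : ‖ζ i₀‖ < r := by
    have := hζ.1
    rw [mem_ball, dist_zero_right] at this
    exact (norm_le_pi_norm ζ i₀).trans_lt this
  have h3 := hC' _ h1 h2
  have h0 : 0 ≤ (1 + |Real.log ‖ζ i₀‖|) ^ N := by positivity
  calc _ ≤ C * (1 + |Real.log ‖ζ i₀‖|) ^ N := hgr ζ hζ
    _ ≤ max C 0 * (1 + |Real.log ‖ζ i₀‖|) ^ N :=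
        mul_le_mul_of_nonneg_right (le_max_left _ _) h0
    _ ≤ max C 0 * (C' * ‖ζ i₀‖ ^ (-ε)) := mul_le_mul_of_nonneg_left h3 (le_max_right _ _)
    _ = _ := by ring

end general

/-! ### 986's charts -/

section bc

variable {n : ℕ} {K : Type} [Field K] [Algebra ℂ K] {D : DivModel n K} {B : Type} [CommRing B] [Algebra ℂ B]
  [Algebra B K] (X : BChart D B) [RDom n (B →ₐ[ℂ] ℂ)] [T2Space (B →ₐ[ℂ] ℂ)]



end bc

/-! ### 590's charts -/

section ach

open Crest.Agent.R276.BR_590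

variable {n : ℕ} {i₀ : Fin n} {B : Type} [CommRing B] [Algebra ℂ B] (X : ACh n i₀ B)
  [RDom n (B →ₐ[ℂ] ℂ)] [T2Space (B →ₐ[ℂ] ℂ)]



end ach

/-! ### 723's `Bdd` -/

section bdd

open Crest.Agent.R276.End_723

variable {K : Type} [Field K] [Algebra ℂ K] {n : ℕ} {A : Subalgebra ℂ K} {z : Fin n → K}
  (hA : EtChart ℂ K A z)




end bdd

end Crest.Agent.R276.Lgb_986
end
end

-- ▼ part R276/LogExt_986
section

/-!
# Row 276 (helper986): `SkelDefs_220.LogExt`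
-/

set_option autoImplicit false
set_option linter.unusedSectionVars false

open MeasureTheory Set Metric Filter Topology

noncomputable section

namespace Crest.Agent.R276.Lgb_986

open Crest.Agent.R271.Ho51 Crest.Agent.R276.EngU_29
open Crest.Agent.R271.Defs710 Crest.Agent.R271.Rd692
open Crest.Agent.R276.Mod1_987 Crest.Agent.R276.SkelDefs_220

lemma mem_PD {n : ℕ} {δ : ℝ} {i₀ : Fin n} {ζ : Cn n} : ζ ∈ PD δ (some i₀) ↔ ζ ∈ W i₀ δ := by
  constructor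
  · rintro ⟨h1, h2⟩
    exact ⟨by rwa [mem_ball, dist_zero_right], h2 i₀ rfl⟩
  · rintro ⟨h1, h2⟩
    refine ⟨by rwa [mem_ball, dist_zero_right] at h1, fun i hi => ?_⟩
    obtain rfl := Option.some.inj hi
    exact h2

variable {K : Type} [Field K] [Algebra ℂ K] {n : ℕ} {M : Mdl K n} {δ : ℝ}

lemma ac_continuousOn {i₀ : Option (Fin n)} (X : AC M δ i₀) : ContinuousOn (X.s : Cn n → Pt M.B) (PD δ i₀) := by
  rw [continuousOn_iff_ev]
  intro b ζ hζ
  exact (X.anal b ζ hζ).continuousAt.continuousWithinAt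

lemma ac_analyticAt_J {i₀ : Option (Fin n)} (X : AC M δ i₀) {ζ : Cn n} (hζ : ζ ∈ PD δ i₀) :
    AnalyticAt ℂ X.J ζ := by
  refine Crest.Agent.R276.BR_590.analyticAt_det_fderiv (Ξ := fun ζ => M.pz (X.s ζ)) ?_
  exact analyticAt_pi_iff.2 fun i => X.anal (M.z i) ζ hζ

/-- an `LPsh` weight which is log-bounded on a chart, after multiplication by `‖h‖²`, `h`
holomorphic on the chart minus the divisor, is bounded on smaller polydiscs -/
theorem ac_bound {i₀ : Fin n} (X : AC M δ (some i₀)) {b : M.Pts → ℝ} (hb : LPsh b)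
    {h : Cn n → ℂ} (hh : AnalyticOnNhd ℂ h (PD δ (some i₀)))
    (hgr : LogB δ (some i₀) (fun ζ => b (X.s ζ) * ‖h ζ‖ ^ 2)) :
    ∀ δ' < δ, ∃ C : ℝ, ∀ ζ ∈ PD δ' (some i₀), b (X.s ζ) * ‖h ζ‖ ^ 2 ≤ C := by
  intro δ' hδ'
  set r : ℝ := (δ' + δ) / 2 with hr
  have h1 : δ' < r := by rw [hr]; linarith
  have h2 : r < δ := by rw [hr]; linarith
  have hsub : W i₀ r ⊆ PD δ (some i₀) := fun ζ hζ =>
    mem_PD.2 ⟨ball_subset_ball h2.le hζ.1, hζ.2⟩
  obtain ⟨C, k, hC⟩ := hgr r h2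
  obtain ⟨C', hC'⟩ := chart_bound_log (i₀ := i₀) (r := r) (ρ := δ') h1 (z := M.z)
    (fun y j => rfl) (s := X.s) ((ac_continuousOn X).mono hsub)
    (fun j => (X.anal (M.z j)).mono hsub) hb (h := h) (hh.mono hsub) 0 (N := k) (C := C)
    (fun ζ hζ => by
      rw [Real.rpow_zero, mul_one]
      exact hC ζ (mem_PD.2 hζ))
  refine ⟨C', fun ζ hζ => ?_⟩
  have := hC' ζ (mem_PD.1 hζ)
  rwa [Real.rpow_zero, mul_one] at this


end Crest.Agent.R276.Lgb_986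
end
end

-- ▼ part R276/EndC3_723

/-!
# Row 276, EndC (helper723), part 3: the product weight on `M_K → M_T`: growth and frame bound
-/

set_option autoImplicit false
set_option linter.unusedSectionVars false

noncomputable section

open Set Filter Topology MeasureTheory
open scoped ENNReal

namespace Crest.Agent.R276.EndC_723

open Crest.Agent.R271 Crest.Agent.R271.Defs710 Crest.Agent.R271.Ho51 Crest.Agent.R271.Rd692
open Crest.Agent.R276.FKDefs_779 Crest.Agent.R276.BC_986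
open Crest.Agent.R276.Mod1_987 Crest.Agent.R276.EngU_29 Crest.Agent.R276.SkelDefs_220
open Crest.Agent.R276.BR_590 (cat bs fb bs_cat fb_cat cat_bs_fb)
open Crest.Agent.R276.End_723 (etChart zA_etChart tn zn Growth sb)
open Crest.Agent.R276.TowA_849
open Crest.Agent.R271.Alg255 (az)

/-! ### the two notions of models of a valuation ring -/

lemma modelOf_of {K : Type} [Field K] [Algebra ℂ K] {n : ℕ} {D : DivModel n K}
    {R : ValuationSubring K} (h : SkelDefs_220.ModelOf D R) : D.ModelOf R := by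
  have hmem : ∀ a : D.A, algebraMap D.A K a ∈ R := fun a =>
    (h _).2 ⟨a, 1, fun h1 => D.prime.not_isUnit (isUnit_of_dvd_one h1), by simp⟩
  refine ⟨fun a ha => ?_, ?_⟩
  · have ha0 : algebraMap D.A K a ≠ 0 := by
      intro h0
      have : a = 0 := by
        apply IsFractionRing.injective D.A K
        rw [h0, map_zero]
      exact ha (this ▸ dvd_zero _)
    have h1 : (algebraMap D.A K a)⁻¹ ∈ R := (h _).2 ⟨1, a, ha, by
      rw [inv_mul_cancel₀ ha0, map_one]⟩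
    apply le_antisymm ((R.valuation_le_one_iff _).2 (hmem a))
    have h2 := (R.valuation_le_one_iff _).2 h1
    rw [map_inv₀] at h2
    have h3 : R.valuation (algebraMap D.A K a) ≠ 0 := by simpa using ha0
    rwa [inv_le_one₀ (zero_lt_iff.2 h3)] at h2
  · refine lt_of_le_of_ne ((R.valuation_le_one_iff _).2 (hmem D.t)) fun h1 => ?_
    have h2 : R.valuation ((algebraMap D.A K D.t)⁻¹) ≤ 1 := by rw [map_inv₀, h1, inv_one]
    obtain ⟨u, v, hv, h3⟩ := (h _).1 ((R.valuation_le_one_iff _).1 h2)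
    rw [inv_mul_eq_iff_eq_mul₀ D.tK_ne] at h3
    apply hv
    refine ⟨u, ?_⟩
    apply IsFractionRing.injective D.A K
    rw [h3, map_mul]

/-! ### renumbering -/

section reindex

variable {K : Type} [Field K] [Algebra ℂ K]

/-- the identity -/
def toM {N N' : ℕ} (e : Fin N ≃ Fin N') (M : Mdl K N) (y : (M.reindex e).Pts) : M.Pts := y

lemma lpsh_reindex {N N' : ℕ} (e : Fin N ≃ Fin N') (M : Mdl K N) {b : M.Pts → ℝ} (hb : LPsh b) :
    LPsh (M := (M.reindex e).Pts) (fun y => b (toM e M y)) := by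
  have h := hb.comp_hol (holMap_comp M (M.reindex e) (AlgHom.id ℂ M.B))
  exact h

lemma tn_reindex {N N' : ℕ} (e : Fin N ≃ Fin N') (M : Mdl K N) (s : Finset (Fin N))
    (y : (M.reindex e).Pts) :
    tn (etChart (M.reindex e)) (s.map e.toEmbedding) y = tn (etChart M) s (toM e M y) := by
  unfold tn
  rw [Finset.sum_map]
  congr 1
  refine Finset.sum_congr rfl fun i _ => ?_
  change ‖y (M.z (e.symm (e i)))‖ ^ 2 = ‖y (M.z i)‖ ^ 2
  rw [Equiv.symm_apply_apply]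

lemma zn_reindex {N N' : ℕ} (e : Fin N ≃ Fin N') (M : Mdl K N) (y : (M.reindex e).Pts) :
    zn (etChart (M.reindex e)) y = zm M (toM e M y) := by
  unfold zn zm
  congr 1
  exact Equiv.sum_comp e.symm (fun i => ‖y (M.z i)‖ ^ 2)

theorem growth_reindex {N N' : ℕ} (e : Fin N ≃ Fin N') (M : Mdl K N) {b : M.Pts → ℝ}
    (h0 : ∀ y, 0 ≤ b y) (hb : PGr M b) :
    Growth (etChart (M.reindex e)) (fun y => b (toM e M y)) := by
  refine ⟨fun y => h0 _, ?_⟩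
  rw [pgr_iff] at hb
  obtain ⟨C, j, k, hC, h⟩ := hb
  obtain ⟨c, l, hc, hl⟩ := poly_growth M M.h
  have hu : (az M.z M.h : M.B) ≠ 0 := M.h_unit.ne_zero
  refine ⟨(az M.z M.h : M.B), 1, j, k + l * j, C * c ^ j, hu, one_ne_zero, fun y _ => ?_⟩
  rw [zn_reindex e M y]
  change b (toM e M y) * ‖(toM e M y) (az M.z M.h)‖ ^ (2 * j) ≤ _
  rw [M.apply_az']
  set y' : M.Pts := toM e M y with hy'
  have h3 := one_le_zm y'
  calc b y' * ‖MvPolynomial.eval (M.pz y') M.h‖ ^ (2 * j)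
      = (b y' * ‖MvPolynomial.eval (M.pz y') M.h‖ ^ j) *
        ‖MvPolynomial.eval (M.pz y') M.h‖ ^ j := by ring
    _ ≤ (C * zm M y' ^ k) * (c * zm M y' ^ l) ^ j :=
        mul_le_mul (h y') (pow_le_pow_left₀ (norm_nonneg _) (hl y') j) (by positivity)
          (by positivity)
    _ = _ := by rw [mul_pow, ← pow_mul]; ring

theorem bdd_reindex {N N' : ℕ} (h : N = N') (M : Mdl K N) (b : M.Pts → ℝ) (s : Finset (Fin N))
    (κ : ℝ) (V : ValuationSubring K) (hb : End_723.Bdd (etChart M) b s κ V) :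
    End_723.Bdd (etChart (M.reindex (finCongr h))) (fun y => b (toM (finCongr h) M y))
      (s.map (finCongr h).toEmbedding) κ V := by
  subst h
  obtain ⟨D, hD, hF⟩ := hb
  refine ⟨D, hD, fun F hF0 => ?_⟩
  obtain ⟨X, hX, C, hC⟩ := hF F hF0
  refine ⟨X, hX, C, fun ζ hζ => ?_⟩
  have h1 := hC ζ hζ
  have h2 := tn_reindex (finCongr rfl) M s (X.s ζ)
  change b (X.s ζ) * tn (etChart (M.reindex (finCongr rfl)))
    (s.map (finCongr rfl).toEmbedding) (X.s ζ) ^ κ * _ ≤ C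
  rw [h2]
  exact h1

end reindex

/-! ### the frame bound -/

section tower

variable {T L K : Type} [Field T] [Field L] [Field K] [Algebra ℂ T] [Algebra ℂ L] [Algebra ℂ K]
  [Algebra T L] [Algebra L K] [IsScalarTower ℂ T L] [IsScalarTower ℂ L K] {ρ a r : ℕ}
  {MT : Mdl T ρ} {ML : Mdl L (ρ + a)} {MK : Mdl K (ρ + a + r)} {H₁ : Rel MT ML} {H₂ : Rel ML MK}
  {R : ValuationSubring K}

/-- the indices of the coordinates `t` -/
def sT (ρ a r : ℕ) : Finset (Fin (ρ + a + r)) :=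
  Finset.univ.map ((Fin.castAddEmb a).trans (Fin.castAddEmb r))

lemma tn_sT (y : MK.Pts) : tn (etChart MK) (sT ρ a r) y = Tn H₂ y := by
  unfold tn Tn sT
  rw [Finset.sum_map]
  congr 1
  refine Finset.sum_congr rfl fun i _ => ?_
  have h1 : tc ML (eL ρ a) (H₂.f y) i = bs (MK.pz y) (Fin.castAdd a i) := by
    rw [rel_pz H₂]
    unfold tc eL
    rw [finSumFinEquiv_apply_left]
  rw [h1]
  rfl

lemma sT_map : (sT ρ a r).map (eA ρ a r).toEmbedding = sb ρ (a + r) := by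
  unfold sT sb
  rw [Finset.map_map]
  congr 1

lemma lpsh_Tn {κ : ℝ} (hκ : 0 ≤ κ) : LPsh (fun y : MK.Pts => Tn H₂ y ^ κ) := by
  refine LPsh.rpow ?_ hκ
  refine (LPsh.const (c := 1) zero_le_one).add ?_
  exact LPsh.sum_hol Finset.univ fun i _ =>
    MK.hol51_ev (H₂.incl (ML.z (eL ρ a (Sum.inl i))))

/-- **the frame bound** -/
theorem bdd_of_logB (hTC : TCh H₁ H₂) (hdiv : IsDiv ℂ (ρ + a + r) R) {b : MK.Pts → ℝ} (hb : LPsh b)
    {κ : ℝ} (hκ : 0 ≤ κ) (F : Finset K) (FL : Finset L) (hF : ∀ f ∈ F, f ≠ 0)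
    (hFL : ∀ f ∈ FL, f ≠ 0)
    (h : ∀ Y : TChart H₁ H₂ R, Y.Dict → Y.Good F → Y.GoodL FL → LogB Y.δ (some Y.i₀) fun ζ =>
      b (Y.cK.s ζ) * Tn H₂ (Y.cK.s ζ) ^ κ * ‖Y.cK.J ζ‖ ^ 2) :
    End_723.Bdd (etChart MK) b (sT ρ a r) κ R := by
  classical
  obtain ⟨D, hD, hX⟩ := hTC R hdiv
  refine ⟨D, modelOf_of hD, fun F' hF' => ?_⟩
  obtain ⟨X, hX1, Y, hYD, hYF, hYFL, C, hXY⟩ := hX (F ∪ F') FL (fun f hf => by
    rcases Finset.mem_union.1 hf with h1 | h1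
    · exact hF f h1
    · exact hF' f h1) hFL
  refine ⟨X, fun f hf => hX1 f (Finset.mem_union_right _ hf), ?_⟩
  have h1 := h Y hYD (fun f hf => hYF f (Finset.mem_union_left _ hf)) hYFL
  have hb' : LPsh (fun y : MK.Pts => b y * Tn H₂ y ^ κ) := hb.mul (lpsh_Tn hκ)
  obtain ⟨C', hC'⟩ := Lgb_986.ac_bound Y.cK hb' (h := Y.cK.J)
    (fun ζ hζ => Lgb_986.ac_analyticAt_J Y.cK hζ) h1 (Y.δ / 2) (by linarith [Y.δ_pos])
  refine ⟨C ^ 2 * C', fun ζ hζ => ?_⟩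
  obtain ⟨η, hη, hs, hJ⟩ := hXY ζ hζ
  rw [tn_sT (H₂ := H₂), hs, zA_etChart]
  have h2 := hC' η hη
  have h3 : ‖(fderiv ℂ (X.ψ MK.z) ζ).det‖ ^ 2 ≤ (C * ‖Y.cK.J η‖) ^ 2 :=
    pow_le_pow_left₀ (norm_nonneg _) hJ 2
  have h4 : 0 ≤ b (Y.cK.s η) * Tn H₂ (Y.cK.s η) ^ κ := hb'.nonneg _
  calc b (Y.cK.s η) * Tn H₂ (Y.cK.s η) ^ κ * ‖(fderiv ℂ (X.ψ MK.z) ζ).det‖ ^ 2
      ≤ b (Y.cK.s η) * Tn H₂ (Y.cK.s η) ^ κ * (C * ‖Y.cK.J η‖) ^ 2 := by gcongr
    _ = C ^ 2 * (b (Y.cK.s η) * Tn H₂ (Y.cK.s η) ^ κ * ‖Y.cK.J η‖ ^ 2) := by ring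
    _ ≤ C ^ 2 * C' := by gcongr

end tower

end Crest.Agent.R276.EndC_723
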