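import Mathlib
import Crest.Agent.R276.IpcDefs_735
import Crest.Agent.R276.EndC_659
import Crest.Agent.R276.IpcLoc_735
import Crest.Agent.R276.IpcReg_309
import Crest.Agent.R276.Top2b_937
import Crest.Agent.R276.IpcBasic_735

-- ▼ part R276/EndP1_659
section

/-!
# R276 (helper659): tools for the ends of a punctured plane

* `primitive` : smooth closed one-forms `a dx + b dx̄` on a convex open set have smooth primitives;
* `lcv` : change of variables `x = e (-s + i t)` for lintegrals.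
-/

set_option autoImplicit false

open Set Filter Topology MeasureTheory
open scoped ContDiff ComplexConjugate

namespace Crest.Agent.R276.EndP_659

open Crest.Agent.R276.Ipc735

section prim

variable {F : Type*} [NormedAddCommGroup F] [NormedSpace ℂ F]

/-- the real linear map `v ↦ v a + v̄ b` -/
noncomputable def om (a b : F) : ℂ →L[ℝ] F :=
  ContinuousLinearMap.smulRightL ℝ ℂ F Complex.reCLM (a + b) +
    ContinuousLinearMap.smulRightL ℝ ℂ F Complex.imCLM (Complex.I • (a - b))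

theorem om_apply (a b : F) (v : ℂ) :
    om a b v = v.re • (a + b) + v.im • (Complex.I • (a - b)) := rfl

theorem om_one (a b : F) : om a b 1 = a + b := by simp [om_apply]

theorem om_I (a b : F) : om a b Complex.I = Complex.I • (a - b) := by simp [om_apply]

theorem om_eq (a b : F) (v : ℂ) : om a b v = v • a + (conj v) • b := by
  rw [om_apply]
  have h1 : v.re • (a + b) = (v.re : ℂ) • (a + b) := rfl
  have h2 : v.im • (Complex.I • (a - b)) = (v.im : ℂ) • (Complex.I • (a - b)) := rfl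
  have h3 : conj v = (v.re : ℂ) - v.im * Complex.I := by apply Complex.ext <;> simp
  rw [h1, h2, h3]
  nth_rewrite 3 [← Complex.re_add_im v]
  module

theorem contDiffOn_om {a b : ℂ → F} {U : Set ℂ} {n : WithTop ℕ∞} (ha : ContDiffOn ℝ n a U)
    (hb : ContDiffOn ℝ n b U) : ContDiffOn ℝ n (fun z => om (a z) (b z)) U := by
  unfold om
  exact ((ContinuousLinearMap.smulRightL ℝ ℂ F Complex.reCLM).contDiff.comp_contDiffOn
      (ha.add hb)).add
    ((ContinuousLinearMap.smulRightL ℝ ℂ F Complex.imCLM).contDiff.comp_contDiffOn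
      ((ha.sub hb).const_smul Complex.I))

theorem fderiv_om {a b : ℂ → F} {z : ℂ} (ha : DifferentiableAt ℝ a z) (hb : DifferentiableAt ℝ b z)
    (u v : ℂ) : fderiv ℝ (fun z => om (a z) (b z)) z u v =
      v.re • (fderiv ℝ a z u + fderiv ℝ b z u) +
        v.im • (Complex.I • (fderiv ℝ a z u - fderiv ℝ b z u)) := by
  have h1 := (ContinuousLinearMap.smulRightL ℝ ℂ F Complex.reCLM).hasFDerivAt.comp z
    (ha.hasFDerivAt.add hb.hasFDerivAt)
  have h2 := (ContinuousLinearMap.smulRightL ℝ ℂ F Complex.imCLM).hasFDerivAt.comp z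
    ((ha.hasFDerivAt.sub hb.hasFDerivAt).const_smul Complex.I)
  have h3 := (h1.add h2).fderiv
  have h4 : fderiv ℝ (fun z => om (a z) (b z)) z = _ := h3
  rw [h4]
  rfl

theorem wz_of {f : ℂ → F} {a b : F} {z : ℂ} (h : HasFDerivAt f (om a b) z) : wz f z = a := by
  unfold wz
  rw [h.fderiv, om_one, om_I, smul_smul, Complex.I_mul_I]
  module

theorem wb_of {f : ℂ → F} {a b : F} {z : ℂ} (h : HasFDerivAt f (om a b) z) : wb f z = b := by
  unfold wb
  rw [h.fderiv, om_one, om_I, smul_smul, Complex.I_mul_I]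
  module


variable [CompleteSpace F]

/-- **Poincaré lemma** for pairs on a convex open set -/
theorem primitive {U : Set ℂ} (hU : IsOpen U) (hc : Convex ℝ U) {a b : ℂ → F}
    (ha : ContDiffOn ℝ ∞ a U) (hb : ContDiffOn ℝ ∞ b U) (hcl : ∀ z ∈ U, wb a z = wz b z) :
    ∃ f : ℂ → F, ContDiffOn ℝ ∞ f U ∧ ∀ z ∈ U, HasFDerivAt f (om (a z) (b z)) z := by
  have hda : ∀ z ∈ U, DifferentiableAt ℝ a z := fun z hz =>
    (ha.contDiffAt (hU.mem_nhds hz)).differentiableAt (by simp)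
  have hdb : ∀ z ∈ U, DifferentiableAt ℝ b z := fun z hz =>
    (hb.contDiffAt (hU.mem_nhds hz)).differentiableAt (by simp)
  have hω : ContDiffOn ℝ ∞ (fun z => om (a z) (b z)) U := contDiffOn_om ha hb
  obtain ⟨f, hf⟩ := hc.exists_forall_hasFDerivAt_of_fderiv_symmetric hU
    (hω.differentiableOn (by simp)) (fun z hz u v => by
      rw [fderiv_om (hda z hz) (hdb z hz), fderiv_om (hda z hz) (hdb z hz)]
      have hu : u = u.re • (1 : ℂ) + u.im • Complex.I := by simp
      have hv : v = v.re • (1 : ℂ) + v.im • Complex.I := by simp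
      have e1 : fderiv ℝ a z u = u.re • fderiv ℝ a z 1 + u.im • fderiv ℝ a z Complex.I := by
        conv_lhs => rw [hu]
        rw [map_add, map_smul, map_smul]
      have e2 : fderiv ℝ b z u = u.re • fderiv ℝ b z 1 + u.im • fderiv ℝ b z Complex.I := by
        conv_lhs => rw [hu]
        rw [map_add, map_smul, map_smul]
      have e3 : fderiv ℝ a z v = v.re • fderiv ℝ a z 1 + v.im • fderiv ℝ a z Complex.I := by
        conv_lhs => rw [hv]
        rw [map_add, map_smul, map_smul]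
      have e4 : fderiv ℝ b z v = v.re • fderiv ℝ b z 1 + v.im • fderiv ℝ b z Complex.I := by
        conv_lhs => rw [hv]
        rw [map_add, map_smul, map_smul]
      have h1 := hcl z hz
      unfold wb wz at h1
      have h2 : fderiv ℝ a z 1 + Complex.I • fderiv ℝ a z Complex.I =
          fderiv ℝ b z 1 - Complex.I • fderiv ℝ b z Complex.I :=
        smul_right_injective F (by norm_num : (1 / 2 : ℂ) ≠ 0) h1
      have h3 : Complex.I • (fderiv ℝ a z 1 - fderiv ℝ b z 1) =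
          fderiv ℝ a z Complex.I + fderiv ℝ b z Complex.I := by
        have h4 : fderiv ℝ a z 1 - fderiv ℝ b z 1 = (-Complex.I) • (fderiv ℝ a z Complex.I +
            fderiv ℝ b z Complex.I) := by
          have h5 : fderiv ℝ a z 1 = fderiv ℝ b z 1 - Complex.I • fderiv ℝ b z Complex.I -
              Complex.I • fderiv ℝ a z Complex.I := by rw [← h2]; abel
          rw [h5]; module
        rw [h4, smul_smul, mul_neg, Complex.I_mul_I, neg_neg, one_smul]
      rw [e1, e2, e3, e4]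
      have r : ∀ (c : ℝ) (x : F), c • x = (c : ℂ) • x := fun _ _ => rfl
      simp only [r]
      have h6 : Complex.I • fderiv ℝ a z 1 = Complex.I • fderiv ℝ b z 1 +
          fderiv ℝ a z Complex.I + fderiv ℝ b z Complex.I := by
        rw [add_assoc, ← h3]; module
      have lhs : (v.re : ℂ) • ((u.re : ℂ) • fderiv ℝ a z 1 + (u.im : ℂ) • fderiv ℝ a z Complex.I +
          ((u.re : ℂ) • fderiv ℝ b z 1 + (u.im : ℂ) • fderiv ℝ b z Complex.I)) +
          (v.im : ℂ) • (Complex.I • ((u.re : ℂ) • fderiv ℝ a z 1 + (u.im : ℂ) •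
            fderiv ℝ a z Complex.I - ((u.re : ℂ) • fderiv ℝ b z 1 + (u.im : ℂ) •
            fderiv ℝ b z Complex.I))) -
          ((u.re : ℂ) • ((v.re : ℂ) • fderiv ℝ a z 1 + (v.im : ℂ) • fderiv ℝ a z Complex.I +
          ((v.re : ℂ) • fderiv ℝ b z 1 + (v.im : ℂ) • fderiv ℝ b z Complex.I)) +
          (u.im : ℂ) • (Complex.I • ((v.re : ℂ) • fderiv ℝ a z 1 + (v.im : ℂ) •
            fderiv ℝ a z Complex.I - ((v.re : ℂ) • fderiv ℝ b z 1 + (v.im : ℂ) •
            fderiv ℝ b z Complex.I)))) =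
          ((v.im : ℂ) * u.re - u.im * v.re) • (Complex.I • (fderiv ℝ a z 1 - fderiv ℝ b z 1) -
            (fderiv ℝ a z Complex.I + fderiv ℝ b z Complex.I)) := by
        module
      rw [← sub_eq_zero, lhs, h3, sub_self, smul_zero])
  refine ⟨f, ?_, hf⟩
  rw [contDiffOn_infty_iff_fderiv_of_isOpen hU]
  refine ⟨fun z hz => (hf z hz).differentiableAt.differentiableWithinAt, ?_⟩
  exact hω.congr fun z hz => (hf z hz).fderiv

end prim

/-! ### change of variables -/

section cv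

/-- one period of the half plane -/
def St (s1 : ℝ) : Set ℂ := {u | u.re < -s1 ∧ 0 < u.im ∧ u.im ≤ 2 * Real.pi}






theorem hasFDerivAt_mul {e : ℂ → ℂ} {u : ℂ} (he : DifferentiableAt ℂ e u) :
    HasFDerivAt e (ContinuousLinearMap.mul ℝ ℂ (deriv e u)) u := by
  have h := he.hasDerivAt.hasFDerivAt.restrictScalars ℝ
  refine h.congr_fderiv ?_
  refine ContinuousLinearMap.ext fun v => ?_
  simp [mul_comm]

theorem det_mul (c : ℂ) : (ContinuousLinearMap.mul ℝ ℂ c).det = ‖c‖ ^ 2 := by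
  have h1 : (ContinuousLinearMap.mul ℝ ℂ c).det = LinearMap.det (Algebra.lmul ℝ ℂ c) := rfl
  rw [h1, ← Algebra.norm_apply, Algebra.norm_complex_apply, Complex.normSq_eq_norm_sq]


end cv

end Crest.Agent.R276.EndP_659
end

-- ▼ part R276/EndL2_659
section

set_option autoImplicit false
set_option linter.unusedSectionVars false

open Set Filter Topology MeasureTheory Matrix
open scoped ContDiff

namespace Crest.Agent.R276.EndL2_659

section linear

variable {N : Type*} [Fintype N] [DecidableEq N]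

/-- the sesquilinear form of the matrix `M`, antilinear in the first variable -/
def Sf (M : Matrix N N ℂ) (u v : N → ℂ) : ℂ := star u ⬝ᵥ (M *ᵥ v)

theorem Sf_add_right (M : Matrix N N ℂ) (u v v' : N → ℂ) :
    Sf M u (v + v') = Sf M u v + Sf M u v' := by
  simp [Sf, Matrix.mulVec_add, dotProduct_add]

theorem Sf_sub_right (M : Matrix N N ℂ) (u v v' : N → ℂ) :
    Sf M u (v - v') = Sf M u v - Sf M u v' := by
  simp [Sf, Matrix.mulVec_sub, dotProduct_sub]

theorem Sf_smul_right (M : Matrix N N ℂ) (u v : N → ℂ) (c : ℂ) :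
    Sf M u (c • v) = c * Sf M u v := by
  simp [Sf, Matrix.mulVec_smul, dotProduct_smul]

/-- `T` preserves `Sf M` -/
theorem Sf_map {M T : Matrix N N ℂ} (hT : Tᴴ * M * T = M) (u v : N → ℂ) :
    Sf M (T *ᵥ u) (T *ᵥ v) = Sf M u v := by
  rw [Sf, Matrix.star_mulVec, ← dotProduct_mulVec, Matrix.mulVec_mulVec, Matrix.mulVec_mulVec, hT]
  rfl

/-- the functional `Sf M u` as a linear map -/
def SfL (M : Matrix N N ℂ) (u : N → ℂ) : (N → ℂ) →ₗ[ℂ] ℂ where
  toFun v := Sf M u v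
  map_add' := Sf_add_right M u
  map_smul' c v := by simp [Sf_smul_right]

theorem continuous_Sf (M : Matrix N N ℂ) (u : N → ℂ) : Continuous (fun v => Sf M u v) :=
  (SfL M u).continuous_of_finiteDimensional

/-- every linear functional is `Sf M u` -/
theorem exists_rep {M : Matrix N N ℂ} (hM : IsUnit M.det) (f : (N → ℂ) →ₗ[ℂ] ℂ) :
    ∃ u, ∀ v, Sf M u v = f v := by
  set g : N → ℂ := fun i => f (Pi.single i 1) with hg
  refine ⟨star (g ᵥ* M⁻¹), fun v => ?_⟩
  rw [Sf, star_star, dotProduct_mulVec, Matrix.vecMul_vecMul, Matrix.nonsing_inv_mul _ hM,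
    Matrix.vecMul_one]
  have hv : v = ∑ i, v i • (Pi.single i 1 : N → ℂ) := by
    ext j
    simp [Finset.sum_apply, Pi.single_apply]
  conv_rhs => rw [hv, map_sum]
  simp only [map_smul, smul_eq_mul, dotProduct, hg]
  exact Finset.sum_congr rfl fun i _ => mul_comm _ _

/-- `(ker (T - 1))^⊥ ⊆ im (T - 1)` -/
theorem mem_range {M T : Matrix N N ℂ} (hM : IsUnit M.det) (hT : Tᴴ * M * T = M) {c : N → ℂ}
    (h : ∀ u, T *ᵥ u = u → Sf M u c = 0) : ∃ v, c = T *ᵥ v - v := by
  classical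
  set L : (N → ℂ) →ₗ[ℂ] (N → ℂ) := T.mulVecLin - LinearMap.id with hL
  have hLv : ∀ v, L v = T *ᵥ v - v := fun v => by simp [hL]
  by_contra hcon
  push Not at hcon
  have hc : c ∉ LinearMap.range L := by
    rintro ⟨v, hv⟩
    exact hcon v (by rw [← hv, hLv])
  obtain ⟨f, hf1, hf2⟩ := Submodule.exists_le_ker_of_notMem hc
  obtain ⟨u, hu⟩ := exists_rep hM f
  have hTd : IsUnit T.det := by
    have h1 := congrArg Matrix.det hT
    rw [Matrix.det_mul, Matrix.det_mul] at h1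
    by_contra h2
    have h3 : T.det = 0 := by simpa using h2
    rw [h3, mul_zero] at h1
    rw [← h1] at hM
    exact not_isUnit_zero hM
  -- `S (u, (T-1) v) = 0`
  have h1 : ∀ v, Sf M u (T *ᵥ v) = Sf M u v := by
    intro v
    have h2 : f (L v) = 0 := by
      have : L v ∈ LinearMap.range L := ⟨v, rfl⟩
      exact LinearMap.mem_ker.1 (hf2 this)
    rw [← hu, hLv, Sf_sub_right, sub_eq_zero] at h2
    exact h2
  -- `T u = u`
  have h3 : T *ᵥ u = u := by
    have h4 : ∀ v, Sf M (T *ᵥ u) v = Sf M u v := by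
      intro v
      obtain ⟨v', rfl⟩ : ∃ v', T *ᵥ v' = v := ⟨T⁻¹ *ᵥ v, by
        rw [Matrix.mulVec_mulVec, Matrix.mul_nonsing_inv _ hTd, Matrix.one_mulVec]⟩
      rw [Sf_map hT, h1]
    have h5 : ∀ v, star (T *ᵥ u - u) ⬝ᵥ (M *ᵥ v) = 0 := by
      intro v
      have := h4 v
      rw [Sf, Sf] at this
      rw [star_sub, sub_dotProduct, this, sub_self]
    have h6 : star (T *ᵥ u - u) = 0 := by
      ext i
      have h7 := h5 (M⁻¹ *ᵥ Pi.single i 1)
      rw [Matrix.mulVec_mulVec, Matrix.mul_nonsing_inv _ hM, Matrix.one_mulVec,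
        dotProduct_single_one] at h7
      exact h7
    have h8 := congrArg star h6
    rw [star_star, star_zero, sub_eq_zero] at h8
    exact h8
  have h9 := h u h3
  rw [hu] at h9
  exact hf1 h9

end linear

/-- small values of a function with finite integral on a half line -/
theorem exists_small {s1 : ℝ} {F : ℝ → ENNReal} (hF : ∫⁻ s in Ioi s1, F s < ⊤) {ε : ENNReal}
    (hε : 0 < ε) : ∃ s, s1 < s ∧ F s < ε := by
  by_contra hcon
  push Not at hcon
  have h1 : ∫⁻ s in Ioi s1, ε ≤ ∫⁻ s in Ioi s1, F s :=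
    setLIntegral_mono' measurableSet_Ioi fun s hs => hcon s hs
  rw [setLIntegral_const, Real.volume_Ioi, ENNReal.mul_top hε.ne'] at h1
  exact absurd (lt_of_le_of_lt h1 hF) (lt_irrefl _)

section ends

variable {N : Type*} [Fintype N] [DecidableEq N]

/-- **step (3) on an end**: closed `L²` forms have parabolic periods -/
theorem end3 {s0 s1 : ℝ} (hs : s0 ≤ s1) {M T : Matrix N N ℂ} (hM : IsUnit M.det)
    (hT : Tᴴ * M * T = M) {q : ℂ → (N → ℂ) → ℝ}
    (hq : ∀ w : ℂ, w.re < -s1 → ∀ u v, ‖Sf M u v‖ ^ 2 ≤ q w u * q w v)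
    (hq0 : ∀ w : ℂ, w.re < -s1 → ∀ u, 0 ≤ q w u)
    (hb : ∀ u, T *ᵥ u = u → ∃ B, ∀ w : ℂ, w.re < -s1 → q w u ≤ B)
    {φ : ℂ → N → ℂ} (hφ : ContDiffOn ℝ 1 φ {w : ℂ | w.re < -s0}) {c : N → ℂ}
    (hc : ∀ w : ℂ, w.re < -s0 → φ (w + 2 * Real.pi * Complex.I) = T *ᵥ φ w + c)
    (hL2 : ∫⁻ s in Ioi s1, ∫⁻ t in Ioc (0:ℝ) (2 * Real.pi),
      ENNReal.ofReal (q (-(s:ℂ) + t * Complex.I) (fderiv ℝ φ (-(s:ℂ) + t * Complex.I) Complex.I))
        < ⊤) :
    ∃ v, c = T *ᵥ v - v := by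
  refine mem_range hM hT fun u hu => ?_
  obtain ⟨B, hB⟩ := hb u hu
  have hopen : IsOpen {w : ℂ | w.re < -s0} := isOpen_lt Complex.continuous_re continuous_const
  -- the estimate for each `δ`
  have key : ∀ δ : ℝ, 0 < δ → ‖Sf M u c‖ ≤ δ * (Real.pi * |B| + 1) := by
    intro δ hδ
    obtain ⟨s, hs1, hsF⟩ := exists_small hL2 (ε := ENNReal.ofReal (δ ^ 2)) (by simpa using by positivity)
    have hre : ∀ t : ℝ, (-(s:ℂ) + t * Complex.I).re = -s := by intro t; simp
    have hlt : ∀ t : ℝ, (-(s:ℂ) + t * Complex.I).re < -s1 := by intro t; rw [hre]; linarith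
    have hlt0 : ∀ t : ℝ, (-(s:ℂ) + t * Complex.I).re < -s0 := by intro t; rw [hre]; linarith
    set γ : ℝ → ℂ := fun t => -(s:ℂ) + t * Complex.I with hγ
    have hγd : ∀ t, HasDerivAt γ Complex.I t := by
      intro t
      have h1 : HasDerivAt (fun t : ℝ => (t : ℂ) * Complex.I) Complex.I t := by
        simpa using (Complex.ofRealCLM.hasDerivAt (x := t)).mul_const Complex.I
      exact h1.const_add _
    set ψ : ℝ → N → ℂ := fun t => fderiv ℝ φ (γ t) Complex.I with hψ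
    have hφd : ∀ t, HasDerivAt (fun t => φ (γ t)) (ψ t) t := by
      intro t
      have h1 : HasFDerivAt φ (fderiv ℝ φ (γ t)) (γ t) :=
        ((hφ.contDiffAt (hopen.mem_nhds (hlt0 t))).differentiableAt (by norm_num)).hasFDerivAt
      exact h1.comp_hasDerivAt t (hγd t)
    have hψc : Continuous ψ := by
      have h1 : ContinuousOn (fun w => fderiv ℝ φ w Complex.I) {w : ℂ | w.re < -s0} := by
        have h2 := hφ.continuousOn_fderiv_of_isOpen hopen le_rfl
        exact h2.clm_apply continuousOn_const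
      have h3 : Continuous γ := by
        rw [hγ]; fun_prop
      exact h1.comp_continuous h3 hlt0
    -- integrate
    have hint : ∫ t in (0:ℝ)..(2 * Real.pi), Sf M u (ψ t) = Sf M u c := by
      have h1 : ∀ t ∈ uIcc (0:ℝ) (2 * Real.pi), HasDerivAt (fun t => Sf M u (φ (γ t)))
          (Sf M u (ψ t)) t := by
        intro t _
        have h2 : HasFDerivAt (fun v => Sf M u v)
            ((LinearMap.toContinuousLinearMap (SfL M u)).restrictScalars ℝ) (φ (γ t)) :=
          ((LinearMap.toContinuousLinearMap (SfL M u)).restrictScalars ℝ).hasFDerivAt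
        exact h2.comp_hasDerivAt t (hφd t)
      have h3 : IntervalIntegrable (fun t => Sf M u (ψ t)) volume 0 (2 * Real.pi) :=
        ((continuous_Sf M u).comp hψc).intervalIntegrable _ _
      rw [intervalIntegral.integral_eq_sub_of_hasDerivAt h1 h3]
      have h4 : γ (2 * Real.pi) = γ 0 + 2 * Real.pi * Complex.I := by
        simp [hγ]
      rw [h4, hc _ (hlt0 0), Sf_add_right]
      have h5 : Sf M u (T *ᵥ φ (γ 0)) = Sf M u (φ (γ 0)) := by
        conv_lhs => rw [← hu]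
        exact Sf_map hT _ _
      rw [h5]; ring
    -- pointwise bound
    have hpt : ∀ t, ‖Sf M u (ψ t)‖ ≤ (δ * |B| + q (γ t) (ψ t) / δ) / 2 := by
      intro t
      have h1 := hq (γ t) (hlt t) u (ψ t)
      have h2 := hB (γ t) (hlt t)
      have h3 := hq0 (γ t) (hlt t) (ψ t)
      have h4 : ‖Sf M u (ψ t)‖ ^ 2 ≤ |B| * q (γ t) (ψ t) :=
        h1.trans (mul_le_mul_of_nonneg_right (h2.trans (le_abs_self B)) h3)
      have h5 : |B| * q (γ t) (ψ t) ≤ ((δ * |B| + q (γ t) (ψ t) / δ) / 2) ^ 2 := by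
        have h6 : ((δ * |B| + q (γ t) (ψ t) / δ) / 2) ^ 2 - |B| * q (γ t) (ψ t)
            = ((δ * |B| - q (γ t) (ψ t) / δ) / 2) ^ 2 := by
          field_simp; ring
        nlinarith [sq_nonneg ((δ * |B| - q (γ t) (ψ t) / δ) / 2)]
      have h7 : 0 ≤ (δ * |B| + q (γ t) (ψ t) / δ) / 2 := by positivity
      exact abs_le_of_sq_le_sq' (by linarith) h7 |>.2
    have h8 : ENNReal.ofReal ‖Sf M u c‖ ≤ ∫⁻ t in Ioc (0:ℝ) (2 * Real.pi),
        ENNReal.ofReal ((δ * |B| + q (γ t) (ψ t) / δ) / 2) := by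
      rw [← hint]
      calc ENNReal.ofReal ‖∫ t in (0:ℝ)..(2 * Real.pi), Sf M u (ψ t)‖
          = ‖∫ t in (0:ℝ)..(2 * Real.pi), Sf M u (ψ t)‖ₑ := by rw [ofReal_norm]
        _ ≤ ∫⁻ t in Ioc (0:ℝ) (2 * Real.pi), ‖Sf M u (ψ t)‖ₑ := by
            rw [intervalIntegral.integral_of_le (by positivity)]
            exact enorm_integral_le_lintegral_enorm _
        _ ≤ _ := by
            refine lintegral_mono fun t => ?_
            rw [← ofReal_norm]
            exact ENNReal.ofReal_le_ofReal (hpt t)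
    have h9 : ∫⁻ t in Ioc (0:ℝ) (2 * Real.pi),
        ENNReal.ofReal ((δ * |B| + q (γ t) (ψ t) / δ) / 2)
        ≤ ENNReal.ofReal (δ * (Real.pi * |B| + 1)) := by
      have h10 : ∀ t, ENNReal.ofReal ((δ * |B| + q (γ t) (ψ t) / δ) / 2)
          = ENNReal.ofReal (δ * |B| / 2) + ENNReal.ofReal (1 / (2 * δ)) *
            ENNReal.ofReal (q (γ t) (ψ t)) := by
        intro t
        have h3 := hq0 (γ t) (hlt t) (ψ t)
        rw [← ENNReal.ofReal_mul (by positivity), ← ENNReal.ofReal_add (by positivity) (by positivity)]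
        congr 1
        field_simp
      simp_rw [h10]
      rw [lintegral_add_left measurable_const, lintegral_const_mul' _ _ ENNReal.ofReal_ne_top,
        setLIntegral_const, Real.volume_Ioc, sub_zero]
      calc ENNReal.ofReal (δ * |B| / 2) * ENNReal.ofReal (2 * Real.pi)
            + ENNReal.ofReal (1 / (2 * δ)) * ∫⁻ t in Ioc (0:ℝ) (2 * Real.pi),
              ENNReal.ofReal (q (γ t) (ψ t))
          ≤ ENNReal.ofReal (δ * |B| / 2) * ENNReal.ofReal (2 * Real.pi)
            + ENNReal.ofReal (1 / (2 * δ)) * ENNReal.ofReal (δ ^ 2) := by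
            gcongr
        _ = ENNReal.ofReal (δ * |B| / 2 * (2 * Real.pi) + 1 / (2 * δ) * δ ^ 2) := by
            rw [← ENNReal.ofReal_mul (by positivity), ← ENNReal.ofReal_mul (by positivity),
              ← ENNReal.ofReal_add (by positivity) (by positivity)]
        _ ≤ ENNReal.ofReal (δ * (Real.pi * |B| + 1)) := by
            refine ENNReal.ofReal_le_ofReal ?_
            have : 1 / (2 * δ) * δ ^ 2 = δ / 2 := by field_simp
            rw [this]
            nlinarith [Real.pi_pos, abs_nonneg B]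
    exact (ENNReal.ofReal_le_ofReal_iff (by positivity)).1 (h8.trans h9)
  have h0 : ‖Sf M u c‖ ≤ 0 := by
    refine le_of_forall_pos_le_add fun ε hε => ?_
    have h1 := key (ε / (Real.pi * |B| + 1)) (by positivity)
    rw [div_mul_cancel₀ _ (by positivity)] at h1
    linarith
  exact norm_le_zero_iff.1 h0

end ends

/-! ### cut-offs -/




end Crest.Agent.R276.EndL2_659
end

-- ▼ part R276/EndF_659
section

/-!
# R276, task IPC-234 (helper659): steps (2), (3), (4) and the Ahlfors bound on the normal form `EndNF`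

`n : EndNF N w s0`, `n.H u = hodge w n.S (n.E u)` the Hodge metric at `u`, `Re u < -s0`.
* `gg_le` : `|θ|² ≤ cst / (-s0 - Re u)²`;
* `nq_per` : `|T v|_{u + 2 π i} = |v|_u`;
* `bounded_flat` (2), `par` (3), `cutoff` (4).
-/

set_option autoImplicit false
set_option linter.unusedSectionVars false

open Set Filter Topology Matrix Finset MeasureTheory
open scoped ContDiff ComplexConjugate ComplexOrder

namespace Crest.Agent.R276.EndF_659

open Crest.Agent.R276.VCalc_442 Crest.Agent.R276.EndTh_659 Crest.Agent.R276.Ipc735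

section cs

variable {ι : Type*} [Fintype ι] [DecidableEq ι]

/-- Cauchy-Schwarz for a positive definite matrix -/
theorem nq_cs {K : Matrix ι ι ℂ} (hK : K.PosDef) (u v : ι → ℂ) :
    ‖star u ⬝ᵥ (K *ᵥ v)‖ ^ 2 ≤ nq K u * nq K v := by
  obtain ⟨B, -, hB⟩ := exists_sqrt hK
  have h1 : star u ⬝ᵥ (K *ᵥ v) = star (B *ᵥ u) ⬝ᵥ (B *ᵥ v) := by
    rw [hB, Matrix.star_mulVec, ← Matrix.mulVec_mulVec, Matrix.dotProduct_mulVec]
  rw [h1, nq_eq hB, nq_eq hB]
  have h2 : ‖star (B *ᵥ u) ⬝ᵥ (B *ᵥ v)‖ ≤ ∑ i, ‖(B *ᵥ u) i‖ * ‖(B *ᵥ v) i‖ := by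
    rw [dotProduct]
    refine (norm_sum_le _ _).trans (Finset.sum_le_sum fun i _ => ?_)
    rw [norm_mul, Pi.star_apply, norm_star]
  exact (pow_le_pow_left₀ (norm_nonneg _) h2 2).trans (Finset.sum_mul_sq_le_sq_mul_sq _ _ _)

variable {X : Type*} [NormedAddCommGroup X] [NormedSpace ℂ X]
variable {w : ℕ} {U : Set X} {S : Matrix ι ι ℂ} {P : ℕ → X → Matrix ι ι ℂ} {x : X}

/-- the flat form is bounded by the Hodge norms -/
theorem nq_cs_flat (h : VCalc_442.VHS w U S P) (hx : x ∈ U) (u v : ι → ℂ) :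
    ‖star u ⬝ᵥ (S *ᵥ v)‖ ^ 2 ≤ nq (VCalc_442.hm w S P x) u * nq (VCalc_442.hm w S P x) v := by
  have hC := h.C_mul_C hx
  have hK := h.hmPos hx
  have e1 : S = hm w S P x * sgOp w P x := by
    rw [hm, mul_assoc, hC, mul_one]
  have e2 : (sgOp w P x)ᴴ * (hm w S P x * sgOp w P x) = hm w S P x := by
    rw [← e1, h.adjC hx]
    rfl
  have e3 : nq (hm w S P x) (sgOp w P x *ᵥ v) = nq (hm w S P x) v := by
    conv_rhs => rw [nq, ← e2]
    rw [nq, Matrix.star_mulVec, ← Matrix.dotProduct_mulVec, Matrix.mulVec_mulVec,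
      Matrix.mulVec_mulVec, mul_assoc]
  have h1 := nq_cs hK u (sgOp w P x *ᵥ v)
  rw [Matrix.mulVec_mulVec, ← e1, e3] at h1
  exact h1

end cs

variable {N w : ℕ} {s0 : ℝ}

/-- the projectors of the normal form -/
noncomputable def Pn (n : EndNF N w s0) (p : ℕ) (u : ℂ) : Matrix (Fin N) (Fin N) ℂ := hq w (n.E u) p

/-- the Hodge metric -/
noncomputable def H (n : EndNF N w s0) (u : ℂ) : Matrix (Fin N) (Fin N) ℂ := hodge w n.S (n.E u)

theorem vhs (n : EndNF N w s0) : VCalc_442.VHS w {u : ℂ | u.re < -s0} n.S (Pn n) := n.toVCalc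

theorem hm_eq (n : EndNF N w s0) (u : ℂ) : VCalc_442.hm w n.S (Pn n) u = H n u := by
  unfold VCalc_442.hm H hodge Pn
  rw [sgOp_hq]


theorem H_posDef (n : EndNF N w s0) {u : ℂ} (hu : u.re < -s0) : (H n u).PosDef := by
  rw [← hm_eq]
  exact (vhs n).hmPos hu

theorem H_conj (n : EndNF N w s0) {u : ℂ} (hu : u.re < -s0) :
    (cm n.T)ᴴ * H n (u + 2 * Real.pi * Complex.I) * cm n.T = H n u := by
  have hT' : cm n.T⁻¹ * cm n.T = 1 := cm_inv_mul_cm _
  have hT : cm n.T * cm n.T⁻¹ = 1 := cm_mul_cm_inv _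
  unfold H hodge
  rw [n.per u hu]
  have h2 : weil w (cm n.T * n.E u * cm n.T⁻¹) = cm n.T * weil w (n.E u) * cm n.T⁻¹ :=
    weil_conj hT hT' w
  rw [h2]
  calc (cm n.T)ᴴ * (n.S * (cm n.T * weil w (n.E u) * cm n.T⁻¹)) * cm n.T
      = ((cm n.T)ᴴ * n.S * cm n.T) * weil w (n.E u) * (cm n.T⁻¹ * cm n.T) := by noncomm_ring
    _ = n.S * weil w (n.E u) := by rw [n.TS, hT', mul_one]

/-- `|T v|_{u + 2 π i} = |v|_u` -/
theorem nq_per (n : EndNF N w s0) {u : ℂ} (hu : u.re < -s0) (v : Fin N → ℂ) :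
    nq (H n (u + 2 * Real.pi * Complex.I)) (cm n.T *ᵥ v) = nq (H n u) v := by
  rw [← H_conj n hu, nq, nq, Matrix.star_mulVec, ← Matrix.dotProduct_mulVec, Matrix.mulVec_mulVec,
    Matrix.mulVec_mulVec, mul_assoc]

/-- the density of the Higgs field -/
noncomputable def g (n : EndNF N w s0) (u : ℂ) : ℝ := gg w (Pn n) 1 u


/-- **step (2)**: an invariant flat section is bounded near the end -/
theorem bounded_flat (n : EndNF N w s0) {s1 : ℝ} (h01 : s0 < s1) (h1 : 0 < s1) {v : Fin N → ℂ}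
    (hv : cm n.T *ᵥ v = v) : ∃ B, ∀ u : ℂ, u.re ≤ -s1 → nq (H n u) v ≤ B := by
  have h2 := EndC_659.bounded_flat h01 h1 (vhs n) v (fun z hz => by
    rw [hm_eq, hm_eq]
    conv_lhs => rw [← hv]
    exact nq_per n hz v)
  obtain ⟨B, hB⟩ := h2
  exact ⟨B, fun u hu => by rw [← hm_eq]; exact hB u hu⟩


/-- **step (3)**: the period of a closed `L²` form is in the image of `T - 1` -/
theorem par (n : EndNF N w s0) {s1 : ℝ} (h01 : s0 < s1) (h1 : 0 < s1) {φ : ℂ → Fin N → ℂ}
    (hφ : ContDiffOn ℝ 1 φ {u : ℂ | u.re < -s0}) {c : Fin N → ℂ}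
    (hc : ∀ u : ℂ, u.re < -s0 → φ (u + 2 * Real.pi * Complex.I) = cm n.T *ᵥ φ u + c)
    (hL2 : ∫⁻ s in Ioi s1, ∫⁻ t in Ioc (0:ℝ) (2 * Real.pi), ENNReal.ofReal
      (nq (H n (-(s:ℂ) + t * Complex.I)) (fderiv ℝ φ (-(s:ℂ) + t * Complex.I) Complex.I)) < ⊤) :
    ∃ v, c = cm n.T *ᵥ v - v := by
  have hmem : ∀ u : ℂ, u.re < -s1 → u ∈ {u : ℂ | u.re < -s0} := by
    intro u hu
    show u.re < -s0
    linarith
  refine EndL2_659.end3 (s0 := s0) (s1 := s1) h01.le (M := n.S) (T := cm n.T)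
    (q := fun u v => nq (H n u) v) ?_ n.TS ?_ ?_ ?_ hφ hc hL2
  · have h2 := (vhs n).S_unit (x := ((-s1 - 1 : ℝ) : ℂ)) (hmem _ (by simp))
    exact (Matrix.isUnit_iff_isUnit_det _).1 h2
  · intro u hu a b
    have h2 := nq_cs_flat (vhs n) (hmem u hu) a b
    rw [hm_eq] at h2
    exact h2
  · intro u hu a
    exact nq_nonneg (H_posDef n (hmem u hu)) a
  · intro v hv
    obtain ⟨B, hB⟩ := bounded_flat n h01 h1 hv
    exact ⟨B, fun u hu => hB u hu.le⟩


end Crest.Agent.R276.EndF_659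
end

-- ▼ part R276/IpcRegS_309
section

/-!
# R276 (S0419), IPC, leaf REGSEC (helper309): regularity of harmonic one-forms in the frames of
`IpcDefs_735`

* `Good V z r` : the ball `B(z, r)` misses the punctures and `P` is a cocycle on it;
* `L2S V a` : the section `a` is locally square integrable;
* `WCl V a b` : the one-form `a dx + b dx̄` is weakly closed;
* `regsec` : if `a dx + b dx̄` and `C a dx - C b dx̄` are weakly closed (`C` = Weil operator) then the
  form is a.e. equal to a smooth form `a' dx + b' dx̄`, which is closed together with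
  `C a' dx - C b' dx̄`.
-/

set_option autoImplicit false
set_option linter.unusedSectionVars false

open MeasureTheory Set Filter Topology Matrix
open scoped ContDiff

noncomputable section

namespace Crest.Agent.R276.IpcRegS_309

open Crest.Agent.R276.Ipc735 Crest.Agent.R276.IpcReg_309

variable {A : Finset ℂ} {N w : ℕ}

/-! ### frames -/

theorem cm_mul (g h : GL (Fin N) ℤ) : cm (g * h) = cm g * cm h := by
  unfold cm
  rw [Units.val_mul, Matrix.map_mul_intCast]

theorem cm_one : cm (1 : GL (Fin N) ℤ) = 1 := by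
  unfold cm
  rw [Units.val_one]
  ext i j
  by_cases h : i = j
  · subst h; simp
  · simp [h]

/-- good balls: no punctures, `P` is a cocycle -/
structure Good (V : PVHS A N w) (z : ℂ) (r : ℝ) : Prop where
  pos : 0 < r
  sub : ∀ y ∈ Metric.ball z r, y ∉ A
  coc : ∀ x ∈ Metric.ball z r, ∀ y ∈ Metric.ball z r, ∀ t ∈ Metric.ball z r,
    V.P x y * V.P y t = V.P x t

theorem Good.mono {V : PVHS A N w} {z : ℂ} {r r' : ℝ} (h : Good V z r) (h0 : 0 < r')
    (h1 : r' ≤ r) : Good V z r' :=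
  ⟨h0, fun y hy => h.sub y (Metric.ball_subset_ball h1 hy), fun x hx y hy t ht =>
    h.coc x (Metric.ball_subset_ball h1 hx) y (Metric.ball_subset_ball h1 hy) t
      (Metric.ball_subset_ball h1 ht)⟩

theorem exists_good (V : PVHS A N w) {z : ℂ} (hz : z ∉ A) : ∃ r, Good V z r := by
  obtain ⟨U, hU, hc⟩ := V.ndc z (by simpa using hz)
  have h1 : ((A : Set ℂ)ᶜ) ∈ 𝓝 z := A.finite_toSet.isClosed.isOpen_compl.mem_nhds (by simpa using hz)
  obtain ⟨r, hr, hrU⟩ := Metric.mem_nhds_iff.1 (inter_mem hU h1)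
  exact ⟨r, hr, fun y hy => by simpa using (hrU hy).2, fun x hx y hy t ht =>
    hc x (hrU hx).1 y (hrU hy).1 t (hrU ht).1⟩

theorem Good.self {V : PVHS A N w} {z : ℂ} {r : ℝ} (h : Good V z r) {x : ℂ}
    (hx : x ∈ Metric.ball z r) : V.P x x = 1 := by
  have h1 := h.coc x hx x hx x hx
  exact mul_eq_left.1 h1

theorem Good.lV_tr {V : PVHS A N w} {z : ℂ} {r : ℝ} (h : Good V z r) (φ : ℂ → Fin N → ℂ) {x y t : ℂ}
    (hx : x ∈ Metric.ball z r) (hy : y ∈ Metric.ball z r) (ht : t ∈ Metric.ball z r) :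
    lV V.P φ x t = cm (V.P x y) *ᵥ lV V.P φ y t := by
  unfold Ipc735.lV
  rw [Matrix.mulVec_mulVec, ← cm_mul, h.coc x hx y hy t ht]


theorem cm_mul_inv (g : GL (Fin N) ℤ) : cm g * cm g⁻¹ = 1 := by
  rw [← cm_mul, mul_inv_cancel, cm_one]

theorem cm_inv_mul (g : GL (Fin N) ℤ) : cm g⁻¹ * cm g = 1 := by
  rw [← cm_mul, inv_mul_cancel, cm_one]

/-! ### the Weil operator -/

theorem aeval_conj {g g' E : Matrix (Fin N) (Fin N) ℂ} (h : g * g' = 1) (h' : g' * g = 1)
    (p : Polynomial ℂ) : Polynomial.aeval (g * E * g') p = g * Polynomial.aeval E p * g' := by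
  have hpow : ∀ k : ℕ, (g * E * g') ^ k = g * E ^ k * g' := by
    intro k
    induction k with
    | zero => simp [h]
    | succ k ih =>
      rw [pow_succ, ih, pow_succ]
      calc g * E ^ k * g' * (g * E * g') = g * E ^ k * (g' * g) * E * g' := by
            simp only [mul_assoc]
        _ = g * (E ^ k * E) * g' := by rw [h', mul_one]; simp only [mul_assoc]
  rw [Polynomial.aeval_eq_sum_range, Polynomial.aeval_eq_sum_range, Finset.mul_sum,
    Finset.sum_mul]
  refine Finset.sum_congr rfl fun k _ => ?_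
  rw [hpow, mul_smul_comm, smul_mul_assoc]

/-- the Weil polynomial -/
def wpol (w : ℕ) : Polynomial ℂ :=
  ∑ p ∈ Finset.range (w + 1), (-1 : ℂ) ^ p • Lagrange.basis (Finset.range (w + 1))
    (fun q : ℕ => (q : ℂ)) p

theorem weil_eq (w : ℕ) (E : Matrix (Fin N) (Fin N) ℂ) :
    weil w E = Polynomial.aeval E (wpol w) := by
  unfold weil wpol hpr
  rw [map_sum]
  exact Finset.sum_congr rfl fun p _ => (map_smul _ _ _).symm

theorem weil_conj {g g' E : Matrix (Fin N) (Fin N) ℂ} (h : g * g' = 1) (h' : g' * g = 1) :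
    weil w (g * E * g') = g * weil w E * g' := by
  rw [weil_eq, weil_eq, aeval_conj h h']




/-! ### smoothness of the grading operator -/

theorem aeval_smooth {U : Set ℂ} {M : ℂ → Matrix (Fin N) (Fin N) ℂ}
    (hM : ∀ i k, ContDiffOn ℝ ∞ (fun y => M y i k) U) (p : Polynomial ℂ) (i k : Fin N) :
    ContDiffOn ℝ ∞ (fun y => Polynomial.aeval (M y) p i k) U := by
  have hpow : ∀ n : ℕ, ∀ i k, ContDiffOn ℝ ∞ (fun y => (M y ^ n) i k) U := by
    intro n
    induction n with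
    | zero => intro i k; simp only [pow_zero]; exact contDiffOn_const
    | succ n ih =>
      intro i k
      simp only [pow_succ, Matrix.mul_apply]
      exact ContDiffOn.sum fun j _ => (ih i j).mul (hM j k)
  simp only [Polynomial.aeval_eq_sum_range, Matrix.sum_apply, Matrix.smul_apply]
  refine ContDiffOn.sum fun n _ => ?_
  simp only [smul_eq_mul]
  exact contDiffOn_const.mul (hpow n i k)

theorem Good.lM_tr {V : PVHS A N w} {z : ℂ} {r : ℝ} (h : Good V z r)
    (B : ℂ → Matrix (Fin N) (Fin N) ℂ) {x y t : ℂ}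
    (hx : x ∈ Metric.ball z r) (hy : y ∈ Metric.ball z r) (ht : t ∈ Metric.ball z r) :
    lM V.P B x t = cm (V.P x y) * lM V.P B y t * cm (V.P x y)⁻¹ := by
  unfold Ipc735.lM
  rw [← h.coc x hx y hy t ht, _root_.mul_inv_rev, cm_mul, cm_mul]
  simp only [mul_assoc]

theorem Good.smE {V : PVHS A N w} {z : ℂ} {r : ℝ} (h : Good V z r) (i k : Fin N) :
    ContDiffOn ℝ ∞ (fun y => lM V.P V.E z y i k) (Metric.ball z r) := by
  intro y hy
  have hz : z ∈ Metric.ball z r := Metric.mem_ball_self h.pos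
  have h1 : (fun t => lM V.P V.E z t i k) =ᶠ[𝓝 y]
      fun t => (cm (V.P z y) * lM V.P V.E y t * cm (V.P z y)⁻¹) i k := by
    filter_upwards [Metric.isOpen_ball.mem_nhds hy] with t ht
    rw [h.lM_tr V.E hz hy ht]
  have h2 : ContDiffAt ℝ ∞ (fun t => (cm (V.P z y) * lM V.P V.E y t * cm (V.P z y)⁻¹) i k) y := by
    simp only [Matrix.mul_apply, Finset.sum_mul]
    exact ContDiffAt.sum fun a _ => ContDiffAt.sum fun b _ =>
      (contDiffAt_const.mul (V.smE y (h.sub y hy) b a)).mul contDiffAt_const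
  exact (h2.congr_of_eventuallyEq h1).contDiffWithinAt

/-- the Weil operator in the frame at `z` -/
def wl (V : PVHS A N w) (z y : ℂ) : Matrix (Fin N) (Fin N) ℂ := weil w (lM V.P V.E z y)

theorem wl_eq (V : PVHS A N w) (z y : ℂ) :
    wl V z y = cm (V.P z y) * weil w (V.E y) * cm (V.P z y)⁻¹ :=
  weil_conj (cm_mul_inv _) (cm_inv_mul _)



theorem Good.smW {V : PVHS A N w} {z : ℂ} {r : ℝ} (h : Good V z r) (i k : Fin N) :
    ContDiffOn ℝ ∞ (fun y => wl V z y i k) (Metric.ball z r) := by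
  unfold wl
  simp only [weil_eq]
  exact aeval_smooth h.smE _ i k







theorem Cut.mono {U U' : Set ℂ} (h : U ⊆ U') {φ : ℂ → ℂ} (hφ : Cut U φ) : Cut U' φ :=
  ⟨hφ.sm, hφ.cs, hφ.sub.trans h⟩

theorem L2l.mono {U U' : Set ℂ} (h : U ⊆ U') {u : ℂ → ℂ} (hu : L2l U' u) : L2l U u :=
  fun K hK hc => hu K (hK.trans h) hc







/-- glueing local smooth representatives of a section -/
theorem glue (V : PVHS A N w) {a : ℂ → Fin N → ℂ} {r : ℂ → ℝ} {a' : ℂ → Fin N → ℂ → ℂ}
    (hg : ∀ z ∉ A, Good V z (r z))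
    (hs : ∀ z ∉ A, ∀ i, ContDiffOn ℝ ∞ (a' z i) (Metric.ball z (r z)))
    (he : ∀ z ∉ A, ∀ i, ∀ᵐ y, y ∈ Metric.ball z (r z) → lV V.P a z y i = a' z i y) :
    (∀ z ∉ A, ∀ y ∈ Metric.ball z (r z), ∀ i, lV V.P (fun t j => a' t j t) z y i = a' z i y) ∧
      ∀ᵐ y, y ∉ A → a y = fun j => a' y j y := by
  have key : ∀ z ∉ A, ∀ y ∈ Metric.ball z (r z), ∀ i,
      lV V.P (fun t j => a' t j t) z y i = a' z i y := by
    intro z hz y hy i
    have hyA : y ∉ A := (hg z hz).sub y hy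
    set U : Set ℂ := Metric.ball z (r z) ∩ Metric.ball y (r y) with hU
    have hUo : IsOpen U := Metric.isOpen_ball.inter Metric.isOpen_ball
    have hyU : y ∈ U := ⟨hy, Metric.mem_ball_self (hg y hyA).pos⟩
    have h1 : ∀ᵐ t, t ∈ U → a' z i t = ∑ j, cm (V.P z y) i j * a' y j t := by
      filter_upwards [he z hz i, ae_all_iff.2 (fun j => he y hyA j)] with t ht1 ht2 htU
      rw [← ht1 htU.1, (hg z hz).lV_tr a (Metric.mem_ball_self (hg z hz).pos) hy htU.1]
      show ∑ j, cm (V.P z y) i j * lV V.P a y t j = _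
      exact Finset.sum_congr rfl fun j _ => by rw [← ht2 j htU.2]
    have h2 : ContinuousOn (fun t => a' z i t) U :=
      (hs z hz i).continuousOn.mono inter_subset_left
    have h3 : ContinuousOn (fun t => ∑ j, cm (V.P z y) i j * a' y j t) U :=
      continuousOn_finsetSum _ fun j _ => continuousOn_const.mul
        ((hs y hyA j).continuousOn.mono inter_subset_right)
    have h4 := Measure.eqOn_open_of_ae_eq (μ := volume) ((ae_restrict_iff' hUo.measurableSet).2 h1)
      hUo h2 h3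
    exact (h4 hyU).symm
  refine ⟨key, ?_⟩
  rw [ae_iff]
  refine measure_null_of_locally_null _ fun z hz => ?_
  have hzA : z ∉ A := fun h => hz fun h' => absurd h h'
  refine ⟨{y | ¬ (y ∈ Metric.ball z (r z) → a y = fun j => a' y j y)}, ?_, ?_⟩
  · filter_upwards [mem_nhdsWithin_of_mem_nhds
      (Metric.isOpen_ball.mem_nhds (Metric.mem_ball_self (hg z hzA).pos)),
      self_mem_nhdsWithin] with y hy hy2
    intro h
    exact hy2 fun _ => h hy
  · rw [← ae_iff]
    filter_upwards [ae_all_iff.2 (fun j => he z hzA j)] with y hy hyb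
    have h1 : lV V.P a z y = lV V.P (fun t j => a' t j t) z y := by
      funext i
      rw [key z hzA y hyb i, hy i hyb]
    have h2 : cm (V.P z y)⁻¹ *ᵥ lV V.P a z y = cm (V.P z y)⁻¹ *ᵥ lV V.P (fun t j => a' t j t) z y := by
      rw [h1]
    unfold Ipc735.lV at h2
    rwa [Matrix.mulVec_mulVec, Matrix.mulVec_mulVec, cm_inv_mul, Matrix.one_mulVec,
      Matrix.one_mulVec] at h2


end Crest.Agent.R276.IpcRegS_309
end
end

-- ▼ part R276/IpcEx_309
section

/-!
# R276 (S0419), IPC, leaf REGSEC (E) (helper309): limits of exact forms are exact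

* `famA V` : finite cover of `ℂ ∖ A` by convex open sets with trivialisations of `V.P`;
* `nsq_lower` : the Hodge norm dominates the norm in a flat frame on compact sets;
* `exact_of_approx` : a smooth closed form which is an `L²_loc` limit of exact forms is exact.
-/

set_option autoImplicit false
set_option linter.unusedSectionVars false

open MeasureTheory Set Filter Topology Matrix
open scoped ContDiff

noncomputable section

namespace Crest.Agent.R276.IpcEx_309

open Crest.Agent.R276.Ipc735 Crest.Agent.R276.IpcRegS_309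
open Crest.Agent.R276.Top2_937 (Fam Tri exists_tri tl act act_inv_act act_act_inv act_tl frm frm_act
  fderiv_eq_frm wz_lV sm_iff lV_eventually tl_eventually SmOn ClOn ExOn Form CC)

variable {A : Finset ℂ} {N w : ℕ}

/-! ### the cover -/

/-- the four open half planes at `p` -/
def hp4 (p : ℂ) (k : Fin 4) : Set ℂ :=
  if k = 0 then {z | p.re < z.re} else if k = 1 then {z | z.re < p.re}
  else if k = 2 then {z | p.im < z.im} else {z | z.im < p.im}

theorem hp4_open (p : ℂ) (k : Fin 4) : IsOpen (hp4 p k) := by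
  unfold hp4
  split_ifs
  · exact isOpen_lt continuous_const Complex.continuous_re
  · exact isOpen_lt Complex.continuous_re continuous_const
  · exact isOpen_lt continuous_const Complex.continuous_im
  · exact isOpen_lt Complex.continuous_im continuous_const

theorem hp4_convex (p : ℂ) (k : Fin 4) : Convex ℝ (hp4 p k) := by
  unfold hp4
  split_ifs
  · exact convex_halfSpace_re_gt _
  · exact convex_halfSpace_re_lt _
  · exact convex_halfSpace_im_gt _
  · exact convex_halfSpace_im_lt _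

theorem hp4_notMem (p : ℂ) (k : Fin 4) : p ∉ hp4 p k := by
  unfold hp4
  split_ifs <;> simp

theorem exists_hp4 {p z : ℂ} (h : z ≠ p) : ∃ k, z ∈ hp4 p k := by
  by_contra hcon
  push Not at hcon
  have h0 : ¬ p.re < z.re := hcon 0
  have h1 : ¬ z.re < p.re := hcon 1
  have h2 : ¬ p.im < z.im := hcon 2
  have h3 : ¬ z.im < p.im := hcon 3
  exact h (Complex.ext (le_antisymm (not_lt.1 h0) (not_lt.1 h1))
    (le_antisymm (not_lt.1 h2) (not_lt.1 h3)))

/-- the pieces of the cover -/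
def pc (A : Finset ℂ) (f : A → Fin 4) : Set ℂ := ⋂ p : A, hp4 p (f p)

theorem pc_open (f : A → Fin 4) : IsOpen (pc A f) := isOpen_iInter_of_finite fun _ => hp4_open _ _

theorem pc_convex (f : A → Fin 4) : Convex ℝ (pc A f) := convex_iInter fun _ => hp4_convex _ _

theorem pc_sub (f : A → Fin 4) : pc A f ⊆ (A : Set ℂ)ᶜ := fun z hz hzA =>
  hp4_notMem z (f ⟨z, hzA⟩) (mem_iInter.1 hz ⟨z, hzA⟩)

theorem iUnion_pc (A : Finset ℂ) : (⋃ f, pc A f) = (A : Set ℂ)ᶜ := by
  refine Subset.antisymm (iUnion_subset fun f => pc_sub f) fun z hz => ?_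
  have h1 : ∀ p : A, ∃ k, z ∈ hp4 p k := fun p => exists_hp4 fun h => hz (by rw [h]; exact p.2)
  choose f hf using h1
  exact mem_iUnion.2 ⟨f, mem_iInter.2 hf⟩

/-- trivialisations on the pieces -/
theorem exists_famA (V : PVHS A N w) : ∃ D : Fam V.P (A → Fin 4), D.W = pc A := by
  have h := fun f : A → Fin 4 => exists_tri V.ndc (pc_open f) (pc_convex f) (pc_sub f)
  choose T hT using h
  exact ⟨⟨pc A, T, pc_open, pc_convex, hT⟩, rfl⟩

/-! ### the Hodge norm in a flat frame -/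

theorem hodge_frame (V : PVHS A N w) {z : ℂ} (hz : z ∉ A) : ∀ᶠ y in 𝓝 z,
    V.H y = (cm (V.P z y))ᴴ * (V.S z * wl V z y) * cm (V.P z y) := by
  filter_upwards [V.flatS z hz] with y hy
  unfold PVHS.H hodge
  rw [hy, wl_eq]
  simp only [mul_assoc]
  rw [IpcRegS_309.cm_inv_mul, mul_one]

/-- `v ↦ vᴴ M v` -/
def qf (M : Matrix (Fin N) (Fin N) ℂ) (v : Fin N → ℂ) : ℝ := (star v ⬝ᵥ M *ᵥ v).re

theorem qf_conj (M g : Matrix (Fin N) (Fin N) ℂ) (v : Fin N → ℂ) :
    qf (gᴴ * M * g) v = qf M (g *ᵥ v) := by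
  unfold qf
  rw [← Matrix.mulVec_mulVec, ← Matrix.mulVec_mulVec, Matrix.dotProduct_mulVec (star v),
    Matrix.star_mulVec]

theorem qf_eq_sum (M : Matrix (Fin N) (Fin N) ℂ) (v : Fin N → ℂ) :
    qf M v = (∑ i, star (v i) * ∑ j, M i j * v j).re := rfl

theorem qf_smul (M : Matrix (Fin N) (Fin N) ℂ) (r : ℝ) (v : Fin N → ℂ) :
    qf M (r • v) = r ^ 2 * qf M v := by
  have h1 : (star (r • v) ⬝ᵥ M *ᵥ (r • v)) = ((r ^ 2 : ℝ) : ℂ) * (star v ⬝ᵥ M *ᵥ v) := by
    have h2 : r • v = (r : ℂ) • v := by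
      funext i
      simp
    rw [h2, star_smul, Matrix.mulVec_smul, smul_dotProduct, dotProduct_smul]
    simp only [smul_eq_mul, Complex.star_def, Complex.conj_ofReal]
    push_cast
    ring
  unfold qf
  rw [h1, Complex.re_ofReal_mul]

theorem qf_cont {X : Type*} [TopologicalSpace X] {M : X → Matrix (Fin N) (Fin N) ℂ}
    {v : X → Fin N → ℂ} {s : Set X} {x : X} (hM : ∀ i j, ContinuousWithinAt (fun y => M y i j) s x)
    (hv : ContinuousWithinAt v s x) : ContinuousWithinAt (fun y => qf (M y) (v y)) s x := by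
  simp only [qf_eq_sum]
  refine Complex.continuous_re.continuousAt.comp_continuousWithinAt ?_
  have hvi : ∀ i, ContinuousWithinAt (fun y => v y i) s x := fun i =>
    (continuous_apply i).continuousAt.comp_continuousWithinAt hv
  refine tendsto_finsetSum _ fun i _ => ?_
  refine ((hvi i).star).mul ?_
  exact tendsto_finsetSum _ fun j _ => (hM i j).mul (hvi j)

theorem nsq_eq (V : PVHS A N w) (φ : ℂ → Fin N → ℂ) (z : ℂ) : V.nsq φ z = qf (V.H z) (φ z) := rfl

theorem nsq_frame (V : PVHS A N w) {z : ℂ} (hz : z ∉ A) : ∀ᶠ y in 𝓝 z, ∀ φ : ℂ → Fin N → ℂ,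
    V.nsq φ y = qf (V.S z * wl V z y) (lV V.P φ z y) := by
  filter_upwards [hodge_frame V hz] with y hy φ
  rw [nsq_eq, hy, qf_conj]
  rfl

theorem wl_cont (V : PVHS A N w) {z : ℂ} (hz : z ∉ A) (i k : Fin N) :
    ContinuousAt (fun y => wl V z y i k) z := by
  obtain ⟨r, h⟩ := exists_good V hz
  exact ((h.smW i k).contDiffAt (Metric.isOpen_ball.mem_nhds
    (Metric.mem_ball_self h.pos))).continuousAt

theorem Swl_cont (V : PVHS A N w) {z : ℂ} (hz : z ∉ A) (i k : Fin N) :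
    ContinuousAt (fun y => (V.S z * wl V z y) i k) z := by
  simp only [Matrix.mul_apply]
  exact tendsto_finsetSum _ fun j _ => (continuousAt_const (y := V.S z i j)).mul (wl_cont V hz j k)

theorem nsq_cont (V : PVHS A N w) {φ : ℂ → Fin N → ℂ} (hφ : V.Sm φ) {z : ℂ} (hz : z ∉ A) :
    ContinuousAt (V.nsq φ) z := by
  have h1 : ContinuousAt (fun y => qf (V.S z * wl V z y) (lV V.P φ z y)) z := by
    rw [← continuousWithinAt_univ]
    refine qf_cont (fun i j => (Swl_cont V hz i j).continuousWithinAt) ?_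
    exact (hφ z hz).continuousAt.continuousWithinAt
  refine h1.congr ?_
  filter_upwards [nsq_frame V hz] with y hy
  exact (hy φ).symm

theorem nsq_nonneg (V : PVHS A N w) (φ : ℂ → Fin N → ℂ) {z : ℂ} (hz : z ∉ A) :
    0 ≤ V.nsq φ z := (V.hs z hz).hodge_nonneg _

/-- the metric in the flat frame `T` -/
def BT (V : PVHS A N w) (T : ℂ → GL (Fin N) ℤ) (x : ℂ) : Matrix (Fin N) (Fin N) ℂ :=
  (cm (T x))ᴴ * V.H x * cm (T x)

theorem nsq_BT (V : PVHS A N w) (T : ℂ → GL (Fin N) ℤ) (φ : ℂ → Fin N → ℂ) (x : ℂ) :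
    V.nsq φ x = qf (BT V T x) (tl T φ x) := by
  unfold BT
  rw [qf_conj, nsq_eq]
  congr 1
  exact (act_tl T φ x).symm

theorem BT_cont (V : PVHS A N w) {T : ℂ → GL (Fin N) ℤ} {W : Set ℂ} (hT : Tri V.P W T)
    (hWA : W ⊆ (A : Set ℂ)ᶜ) {z : ℂ} (hz : z ∈ W) (i k : Fin N) :
    ContinuousAt (fun x => BT V T x i k) z := by
  have hzA : z ∉ A := hWA hz
  obtain ⟨U, hU, h⟩ := hT z hz
  have h1 : (fun x => BT V T x i k) =ᶠ[𝓝 z]
      fun x => ((cm (T z))ᴴ * (V.S z * wl V z x) * cm (T z)) i k := by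
    filter_upwards [hU, hodge_frame V hzA] with y hy hy2
    have h3 : cm (V.P z y) * cm (T y) = cm (T z) := by
      rw [h z (mem_of_mem_nhds hU) y hy, ← IpcRegS_309.cm_mul, inv_mul_cancel_right]
    unfold BT
    rw [hy2]
    have h4 : (cm (T y))ᴴ * ((cm (V.P z y))ᴴ * (V.S z * wl V z y) * cm (V.P z y)) * cm (T y) =
        (cm (V.P z y) * cm (T y))ᴴ * (V.S z * wl V z y) * (cm (V.P z y) * cm (T y)) := by
      rw [Matrix.conjTranspose_mul]
      simp only [mul_assoc]
    rw [h4, h3]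
  refine ContinuousAt.congr ?_ h1.symm
  simp only [Matrix.mul_apply (M := (cm (T z))ᴴ * _), Matrix.mul_apply (M := (cm (T z))ᴴ)]
  refine tendsto_finsetSum _ fun a _ => ?_
  refine Tendsto.mul ?_ tendsto_const_nhds
  exact tendsto_finsetSum _ fun b _ => (continuousAt_const (y := ((cm (T z))ᴴ i b))).mul
    (Swl_cont V hzA b a)

theorem BT_pos (V : PVHS A N w) (T : ℂ → GL (Fin N) ℤ) {x : ℂ} (hx : x ∉ A) {v : Fin N → ℂ}
    (hv : v ≠ 0) : 0 < qf (BT V T x) v := by
  unfold BT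
  rw [qf_conj]
  refine (V.hs x hx).hodge_pos fun h => hv ?_
  have := cm_mulVec_injective (T x) (a₁ := v) (a₂ := 0) (by rw [Matrix.mulVec_zero]; exact h)
  exact this

/-- on compact sets the Hodge norm dominates the norm in a flat frame -/
theorem BT_lower (V : PVHS A N w) {T : ℂ → GL (Fin N) ℤ} {W : Set ℂ} (hT : Tri V.P W T)
    (hWA : W ⊆ (A : Set ℂ)ᶜ) {K : Set ℂ} (hK : IsCompact K) (hKW : K ⊆ W) :
    ∃ c > 0, ∀ x ∈ K, ∀ v : Fin N → ℂ, c * ‖v‖ ^ 2 ≤ qf (BT V T x) v := by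
  by_cases hne : (K ×ˢ Metric.sphere (0 : Fin N → ℂ) 1).Nonempty
  · have hc : ContinuousOn (fun p : ℂ × (Fin N → ℂ) => qf (BT V T p.1) p.2)
        (K ×ˢ Metric.sphere (0 : Fin N → ℂ) 1) := by
      intro p hp
      refine qf_cont (fun i j => ?_) continuous_snd.continuousWithinAt
      exact ((BT_cont V hT hWA (hKW hp.1) i j).comp (f := Prod.fst) (x := p)
        continuous_fst.continuousAt).continuousWithinAt
    obtain ⟨p, hp, hmin⟩ := (hK.prod (isCompact_sphere (0 : Fin N → ℂ) 1)).exists_isMinOn hne hc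
    have hp2 : p.2 ≠ 0 := by
      intro h
      have := hp.2
      rw [mem_sphere_zero_iff_norm, h, norm_zero] at this
      exact zero_ne_one this
    refine ⟨qf (BT V T p.1) p.2, BT_pos V T (hWA (hKW hp.1)) hp2, fun x hx v => ?_⟩
    by_cases hv : v = 0
    · subst hv
      simp [qf]
    · have hn : 0 < ‖v‖ := norm_pos_iff.2 hv
      have h1 : qf (BT V T p.1) p.2 ≤ qf (BT V T x) (‖v‖⁻¹ • v) := by
        refine hmin (a := (x, ‖v‖⁻¹ • v)) ⟨hx, ?_⟩
        rw [mem_sphere_zero_iff_norm, norm_smul, norm_inv, norm_norm, inv_mul_cancel₀ hn.ne']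
      rw [qf_smul] at h1
      calc qf (BT V T p.1) p.2 * ‖v‖ ^ 2 ≤ (‖v‖⁻¹ ^ 2 * qf (BT V T x) v) * ‖v‖ ^ 2 := by gcongr
        _ = qf (BT V T x) v := by field_simp
  · refine ⟨1, one_pos, fun x hx v => ?_⟩
    by_cases hv : v = 0
    · subst hv
      simp [qf]
    · exfalso
      have hn : 0 < ‖v‖ := norm_pos_iff.2 hv
      refine hne ⟨(x, ‖v‖⁻¹ • v), hx, ?_⟩
      rw [mem_sphere_zero_iff_norm, norm_smul, norm_inv, norm_norm, inv_mul_cancel₀ hn.ne']

/-! ### derivatives of sections -/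

theorem tl_d (V : PVHS A N w) {T : ℂ → GL (Fin N) ℤ} {W : Set ℂ} (hT : Tri V.P W T) {x : ℂ}
    (hx : x ∈ W) {φ : ℂ → Fin N → ℂ} (hφ : ContDiffAt ℝ (⊤ : ℕ∞) (lV V.P φ x) x) :
    tl T (V.d1 φ) x = wz (tl T φ) x ∧ tl T (V.d2 φ) x = wb (tl T φ) x := by
  have h4 := ((sm_iff hT hx φ).1 hφ).differentiableAt (by simp)
  have h5 := wz_lV hT hx h4
  constructor
  · show act (T x)⁻¹ (wz (lV V.P φ x) x) = _
    rw [h5.1, act_inv_act]
  · show act (T x)⁻¹ (wb (lV V.P φ x) x) = _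
    rw [h5.2, act_inv_act]

theorem cd_wz {g : ℂ → Fin N → ℂ} {z : ℂ} (hg : ContDiffAt ℝ (⊤ : ℕ∞) g z) :
    ContDiffAt ℝ (⊤ : ℕ∞) (wz g) z ∧ ContDiffAt ℝ (⊤ : ℕ∞) (wb g) z := by
  have h1 : ContDiffAt ℝ (⊤ : ℕ∞) (fderiv ℝ g) z := hg.fderiv_right (by simp)
  have h2 : ∀ v : ℂ, ContDiffAt ℝ (⊤ : ℕ∞) (fun y => fderiv ℝ g y v) z := fun v =>
    h1.clm_apply contDiffAt_const
  exact ⟨((h2 1).sub ((h2 Complex.I).const_smul Complex.I)).const_smul (1 / 2 : ℂ),
    ((h2 1).add ((h2 Complex.I).const_smul Complex.I)).const_smul (1 / 2 : ℂ)⟩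

theorem Sm_d (V : PVHS A N w) {φ : ℂ → Fin N → ℂ} (hφ : V.Sm φ) : V.Sm (V.d1 φ) ∧ V.Sm (V.d2 φ) := by
  obtain ⟨D, hD⟩ := exists_famA V
  have key : ∀ z ∉ A, ContDiffAt ℝ (⊤ : ℕ∞) (lV V.P (V.d1 φ) z) z ∧
      ContDiffAt ℝ (⊤ : ℕ∞) (lV V.P (V.d2 φ) z) z := by
    intro z hz
    have h1 : z ∈ ⋃ f, pc A f := by rw [iUnion_pc]; exact hz
    obtain ⟨i, hi⟩ := mem_iUnion.1 h1
    have hi' : z ∈ D.W i := by rw [hD]; exact hi
    have hW : D.W i ⊆ (A : Set ℂ)ᶜ := by rw [hD]; exact pc_sub i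
    rw [sm_iff (D.tri i) hi', sm_iff (D.tri i) hi']
    have h2 := cd_wz ((sm_iff (D.tri i) hi' φ).1 (hφ z hz))
    constructor
    · refine h2.1.congr_of_eventuallyEq ?_
      filter_upwards [(D.isOpen i).mem_nhds hi'] with y hy
      exact (tl_d V (D.tri i) hy (hφ y (hW hy))).1
    · refine h2.2.congr_of_eventuallyEq ?_
      filter_upwards [(D.isOpen i).mem_nhds hi'] with y hy
      exact (tl_d V (D.tri i) hy (hφ y (hW hy))).2
  exact ⟨fun z hz => (key z hz).1, fun z hz => (key z hz).2⟩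

theorem Sm_sub (V : PVHS A N w) {φ ψ : ℂ → Fin N → ℂ} (hφ : V.Sm φ) (hψ : V.Sm ψ) :
    V.Sm (fun z => φ z - ψ z) := by
  intro z hz
  have h1 : lV V.P (fun z => φ z - ψ z) z = fun y => lV V.P φ z y - lV V.P ψ z y := by
    funext y
    unfold Ipc735.lV
    rw [Matrix.mulVec_sub]
  rw [h1]
  exact (hφ z hz).sub (hψ z hz)


/-- a smooth closed form which is a limit in `L²_loc` of exact forms is exact -/
theorem exact_of_approx (V : PVHS A N w) {a b : ℂ → Fin N → ℂ} (ha : V.Sm a) (hb : V.Sm b)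
    (hab : V.Closed a b)
    (h : ∀ K ⊆ (A : Set ℂ)ᶜ, IsCompact K → ∀ ε : ℝ, 0 < ε → ∃ f, V.Sm f ∧
      ∫ z in K, (V.nsq (fun z => a z - V.d1 f z) z + V.nsq (fun z => b z - V.d2 f z) z) < ε) :
    ∃ φ, V.Sm φ ∧ (∀ z ∉ A, V.d1 φ z = a z) ∧ ∀ z ∉ A, V.d2 φ z = b z := by
  obtain ⟨D, hD⟩ := exists_famA V
  have hU : (⋃ i, D.W i) = (A : Set ℂ)ᶜ := by rw [hD]; exact iUnion_pc A
  have sa : SmOn V.P (⋃ i, D.W i) a := by rw [hU]; exact fun z hz => ha z hz
  have sb : SmOn V.P (⋃ i, D.W i) b := by rw [hU]; exact fun z hz => hb z hz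
  have cab : ClOn V.P (⋃ i, D.W i) a b := by rw [hU]; exact fun z hz => hab z hz
  have hE : (D.form sa sb cab).Exact := by
    have : Fintype D.cc.ι := inferInstanceAs (Fintype (A → Fin 4))
    refine Top2_937.exact_of_forall_approx (volume : Measure ℂ) D.cc _ fun K hK1 hK2 ε hε => ?_
    have hWA : ∀ i, D.W i ⊆ (A : Set ℂ)ᶜ := fun i => by rw [hD]; exact pc_sub i
    have hc := fun i => BT_lower V (D.tri i) (hWA i) (hK1 i) (hK2 i)
    choose c hc0 hc using hc
    set C : ℝ := ∑ i : D.cc.ι, (c i)⁻¹ with hCdef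
    have hC0 : 0 ≤ C := Finset.sum_nonneg fun i _ => (inv_pos.2 (hc0 i)).le
    have hC : ∀ i, ∀ x ∈ K i, ∀ v : Fin N → ℂ, ‖v‖ ^ 2 ≤ C * qf (BT V (D.T i) x) v := by
      intro i x hx v
      have h1 := hc i x hx v
      have h2 : 0 ≤ qf (BT V (D.T i) x) v := (mul_nonneg (hc0 i).le (sq_nonneg _)).trans h1
      have h3 : (c i)⁻¹ ≤ C := Finset.single_le_sum (f := fun i => (c i)⁻¹)
        (fun i _ => (inv_pos.2 (hc0 i)).le) (Finset.mem_univ i)
      calc ‖v‖ ^ 2 = (c i)⁻¹ * (c i * ‖v‖ ^ 2) := by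
            rw [← mul_assoc, inv_mul_cancel₀ (hc0 i).ne', one_mul]
        _ ≤ (c i)⁻¹ * qf (BT V (D.T i) x) v := by
            gcongr
            exact (inv_pos.2 (hc0 i)).le
        _ ≤ C * qf (BT V (D.T i) x) v := by gcongr
    set Kt : Set ℂ := ⋃ i, K i with hKt
    have hKtc : IsCompact Kt := isCompact_iUnion hK1
    have hKtA : Kt ⊆ (A : Set ℂ)ᶜ := iUnion_subset fun i => (hK2 i).trans (hWA i)
    obtain ⟨e, he0, heε⟩ : ∃ e : ℝ, 0 < e ∧ ENNReal.ofReal e ≤ ε := by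
      obtain ⟨e, he, he2⟩ := ENNReal.lt_iff_exists_nnreal_btwn.1 hε
      exact ⟨e, by exact_mod_cast he, by rw [ENNReal.ofReal_coe_nnreal]; exact he2.le⟩
    set n : ℝ := (Fintype.card D.cc.ι : ℝ) with hn
    have hn0 : 0 ≤ n := Nat.cast_nonneg _
    set k : ℝ := ‖(frm : ((Fin N → ℂ) × (Fin N → ℂ)) →L[ℝ] (ℂ →L[ℝ] (Fin N → ℂ)))‖ with hk
    have hk0 : 0 ≤ k := ContinuousLinearMap.opNorm_nonneg _
    set m : ℝ := (volume : Measure ℂ).real Kt with hm
    have hm0 : 0 ≤ m := measureReal_nonneg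
    -- the choice of `δ` and `ε'`
    obtain ⟨δ, hδ0, hδ⟩ : ∃ δ : ℝ, 0 < δ ∧ n * (k * (δ * m)) ≤ e / 2 := by
      refine ⟨e / 2 / (n * k * m + 1), by positivity, ?_⟩
      have h1 : n * (k * (e / 2 / (n * k * m + 1) * m)) = e / 2 * ((n * k * m) / (n * k * m + 1)) := by
        ring
      rw [h1]
      have h2 : (n * k * m) / (n * k * m + 1) ≤ 1 := by
        rw [div_le_one (by positivity)]
        linarith
      calc e / 2 * ((n * k * m) / (n * k * m + 1)) ≤ e / 2 * 1 := by gcongr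
        _ = e / 2 := mul_one _
    obtain ⟨e', he'0, he'⟩ : ∃ e' : ℝ, 0 < e' ∧ n * (k * (C / δ * e')) ≤ e / 2 := by
      refine ⟨e / 2 / (n * k * (C / δ) + 1), by positivity, ?_⟩
      have h1 : n * (k * (C / δ * (e / 2 / (n * k * (C / δ) + 1)))) =
          e / 2 * ((n * k * (C / δ)) / (n * k * (C / δ) + 1)) := by
        ring
      rw [h1]
      have h2 : (n * k * (C / δ)) / (n * k * (C / δ) + 1) ≤ 1 := by
        rw [div_le_one (by positivity)]
        linarith
      calc e / 2 * ((n * k * (C / δ)) / (n * k * (C / δ) + 1)) ≤ e / 2 * 1 := by gcongr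
        _ = e / 2 := mul_one _
    obtain ⟨f, hf, hfe⟩ := h Kt hKtA hKtc e' he'0
    set g : ℂ → ℝ := fun z => V.nsq (fun z => a z - V.d1 f z) z + V.nsq (fun z => b z - V.d2 f z) z
      with hg
    have hs : ∀ i, ContDiffOn ℝ ∞ (tl (D.T i) f) (D.W i) := fun i x hx =>
      ((sm_iff (D.tri i) hx f).1 (hf x (hWA i hx))).contDiffWithinAt
    have hr : ∀ i j, ∀ x ∈ D.cc.W i ∩ D.cc.W j, tl (D.T i) f x =
        D.cc.g i j (tl (D.T j) f x) + 0 := fun i j x hx => by
      rw [add_zero]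
      exact D.tl_change hx f
    refine ⟨Form.ofPrim D.cc (fun i => tl (D.T i) f) (fun _ _ => 0) hs hr,
      ⟨fun i => tl (D.T i) f, fun i x hx => (Top2_937.Prim.ofPrim D.cc _ _ hs hr).der i x hx,
        fun i j x hx => D.tl_change hx f⟩, ?_⟩
    -- pointwise bound
    have hpt : ∀ i, ∀ x ∈ K i, ‖(D.form sa sb cab).η i x -
        (Form.ofPrim D.cc (fun i => tl (D.T i) f) (fun _ _ => 0) hs hr).η i x‖ ≤
          k * (δ + C / δ * g x) := by
      intro i x hx
      have hxW : x ∈ D.W i := hK2 i hx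
      obtain ⟨t1, t2⟩ := tl_d V (D.tri i) hxW (hf x (hWA i hxW))
      have e1 : (D.form sa sb cab).η i x -
          (Form.ofPrim D.cc (fun i => tl (D.T i) f) (fun _ _ => 0) hs hr).η i x =
          frm (tl (D.T i) (fun z => a z - V.d1 f z) x, tl (D.T i) (fun z => b z - V.d2 f z) x) := by
        show frm (tl (D.T i) a x, tl (D.T i) b x) - fderiv ℝ (tl (D.T i) f) x = _
        rw [fderiv_eq_frm, ← map_sub, ← t1, ← t2]
        congr 1
        simp only [tl, map_sub]
        rfl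
      rw [e1]
      set u1 := tl (D.T i) (fun z => a z - V.d1 f z) x with hu1
      set u2 := tl (D.T i) (fun z => b z - V.d2 f z) x with hu2
      have e2 : ‖u1‖ ^ 2 + ‖u2‖ ^ 2 ≤ C * g x := by
        have h1 := hC i x hx u1
        have h2 := hC i x hx u2
        rw [hu1, ← nsq_BT] at h1
        rw [hu2, ← nsq_BT] at h2
        rw [hg]
        simp only
        linarith
      set t : ℝ := ‖(u1, u2)‖ with ht
      have ht0 : 0 ≤ t := norm_nonneg _
      have e3 : t ^ 2 ≤ C * g x := by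
        refine le_trans ?_ e2
        rw [ht, Prod.norm_mk]
        rcases max_choice ‖u1‖ ‖u2‖ with h | h
        · rw [h]; nlinarith [sq_nonneg ‖u2‖]
        · rw [h]; nlinarith [sq_nonneg ‖u1‖]
      have e4 : t ≤ δ + C / δ * g x := by
        have h1 : t * δ ≤ δ ^ 2 + t ^ 2 := by nlinarith [sq_nonneg (t - δ)]
        have h2 : t ≤ (δ ^ 2 + C * g x) / δ := by
          rw [le_div_iff₀ hδ0]
          linarith
        calc t ≤ (δ ^ 2 + C * g x) / δ := h2
          _ = δ + C / δ * g x := by field_simp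
      calc ‖frm (u1, u2)‖ ≤ k * t := ContinuousLinearMap.le_opNorm _ _
        _ ≤ k * (δ + C / δ * g x) := by gcongr
    -- integration
    have hgc : ContinuousOn g Kt := by
      intro z hz
      have hz' : z ∉ A := hKtA hz
      exact ((nsq_cont V (Sm_sub V ha (Sm_d V hf).1) hz').add
        (nsq_cont V (Sm_sub V hb (Sm_d V hf).2) hz')).continuousWithinAt
    have hgi : IntegrableOn g Kt := hgc.integrableOn_compact hKtc
    have hfin : IsFiniteMeasure ((volume : Measure ℂ).restrict Kt) :=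
      ⟨by rw [Measure.restrict_apply_univ]; exact hKtc.measure_lt_top⟩
    have hi2 : IntegrableOn (fun x => k * (δ + C / δ * g x)) Kt :=
      ((integrable_const δ).add (hgi.const_mul _)).const_mul _
    have hg0 : ∀ x ∈ Kt, 0 ≤ g x := fun x hx =>
      add_nonneg (nsq_nonneg V _ (hKtA hx)) (nsq_nonneg V _ (hKtA hx))
    have hI : ∫⁻ x in Kt, ENNReal.ofReal (k * (δ + C / δ * g x)) =
        ENNReal.ofReal (∫ x in Kt, k * (δ + C / δ * g x)) := by
      rw [ofReal_integral_eq_lintegral_ofReal hi2]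
      refine (ae_restrict_iff' hKtc.measurableSet).2 (Eventually.of_forall fun x hx => ?_)
      have := hg0 x hx
      show 0 ≤ k * (δ + C / δ * g x)
      positivity
    have hI2 : ∫ x in Kt, k * (δ + C / δ * g x) = k * (δ * m + C / δ * ∫ x in Kt, g x) := by
      rw [integral_const_mul, integral_add (integrable_const δ) (hgi.const_mul _),
        integral_const_mul, integral_const, smul_eq_mul, measureReal_restrict_apply_univ,
        mul_comm m δ]
    have hterm : ∀ i, ∫⁻ x in K i, ‖(D.form sa sb cab).η i x -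
        (Form.ofPrim D.cc (fun i => tl (D.T i) f) (fun _ _ => 0) hs hr).η i x‖ₑ ≤
          ENNReal.ofReal (k * (δ * m + C / δ * e')) := by
      intro i
      calc ∫⁻ x in K i, ‖(D.form sa sb cab).η i x -
            (Form.ofPrim D.cc (fun i => tl (D.T i) f) (fun _ _ => 0) hs hr).η i x‖ₑ
          ≤ ∫⁻ x in K i, ENNReal.ofReal (k * (δ + C / δ * g x)) := by
            refine setLIntegral_mono' (hK1 i).measurableSet fun x hx => ?_
            rw [← ofReal_norm]
            exact ENNReal.ofReal_le_ofReal (hpt i x hx)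
        _ ≤ ∫⁻ x in Kt, ENNReal.ofReal (k * (δ + C / δ * g x)) :=
            lintegral_mono_set (subset_iUnion K i)
        _ = ENNReal.ofReal (k * (δ * m + C / δ * ∫ x in Kt, g x)) := by rw [hI, hI2]
        _ ≤ ENNReal.ofReal (k * (δ * m + C / δ * e')) := by
            refine ENNReal.ofReal_le_ofReal ?_
            gcongr
    calc ∑ i, ∫⁻ x in K i, ‖(D.form sa sb cab).η i x -
          (Form.ofPrim D.cc (fun i => tl (D.T i) f) (fun _ _ => 0) hs hr).η i x‖ₑ
        ≤ ∑ _i : D.cc.ι, ENNReal.ofReal (k * (δ * m + C / δ * e')) :=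
          Finset.sum_le_sum fun i _ => hterm i
      _ = ENNReal.ofReal (n * (k * (δ * m + C / δ * e'))) := by
          rw [Finset.sum_const, Finset.card_univ, nsmul_eq_mul, ENNReal.ofReal_mul hn0, hn,
            ENNReal.ofReal_natCast]
      _ ≤ ENNReal.ofReal e := by
          refine ENNReal.ofReal_le_ofReal ?_
          nlinarith
      _ ≤ ε := heε
  obtain ⟨φ, hφ⟩ := (D.exOn_iff sa sb cab).2 hE
  rw [hU] at hφ
  exact ⟨φ, fun z hz => (hφ z hz).1, fun z hz => (hφ z hz).2.1, fun z hz => (hφ z hz).2.2⟩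


end Crest.Agent.R276.IpcEx_309
end
end

-- ▼ part R276/Nf_735
section

/-!
# Row 276, IPC-NF (helper735): the ends of a punctured plane and the normal form of a `PVHS` there

* `EndMap A s0` : holomorphic parametrisation `χ` of an end of `ℂ \ A` by `{Re u < -s0}`;
  `EndMap.punct` (`χ u = a + exp u`), `EndMap.infty` (`χ u = exp (-u)`);
* `NF V e` : normal form of `V` near the end `e`; `exists_nf`;
* `NF.pull` : pull back of a section; dictionary for smoothness, derivatives, Hodge norms;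
* `NF.exists_push` : descent;
* `EndMap.lintegral` : change of variables.
-/

set_option autoImplicit false
set_option linter.unusedSectionVars false

noncomputable section

open Set Filter Topology MeasureTheory Matrix
open scoped ContDiff ComplexConjugate

namespace Crest.Agent.R276.Ipc735

/-! ### Wirtinger derivatives and holomorphic maps -/

section chain

variable {F : Type*} [NormedAddCommGroup F] [NormedSpace ℂ F]

lemma fderiv_eq_wz_wb (f : ℂ → F) (z v : ℂ) :
    fderiv ℝ f z v = v • wz f z + (conj v) • wb f z := by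
  have h1 : v = (v.re : ℝ) • (1 : ℂ) + (v.im : ℝ) • Complex.I := by
    conv_lhs => rw [← Complex.re_add_im v]
    simp
  have h2 : fderiv ℝ f z v = (v.re : ℂ) • fderiv ℝ f z 1 + (v.im : ℂ) • fderiv ℝ f z Complex.I := by
    conv_lhs => rw [h1]
    rw [map_add, map_smul, map_smul]
    simp
  have h3 : (conj v : ℂ) = (v.re : ℂ) - (v.im : ℂ) * Complex.I := by
    apply Complex.ext <;> simp
  have h4 : v = (v.re : ℂ) + (v.im : ℂ) * Complex.I := (Complex.re_add_im v).symm
  have hI : Complex.I * Complex.I = -1 := Complex.I_mul_I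
  rw [h2, h3]
  conv_rhs => rw [h4]
  unfold wz wb
  simp only [Complex.add_re, Complex.ofReal_re, Complex.mul_re, Complex.I_re, mul_zero,
    Complex.ofReal_im, Complex.I_im, mul_one, sub_self, add_zero, Complex.add_im, Complex.mul_im,
    zero_add]
  match_scalars
  · ring
  · linear_combination (v.im : ℂ) * hI

lemma wz_congr {f g : ℂ → F} {z : ℂ} (h : f =ᶠ[𝓝 z] g) : wz f z = wz g z := by
  unfold wz; rw [h.fderiv_eq]

lemma wb_congr {f g : ℂ → F} {z : ℂ} (h : f =ᶠ[𝓝 z] g) : wb f z = wb g z := by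
  unfold wb; rw [h.fderiv_eq]

lemma fderiv_comp_hol {f : ℂ → F} {χ : ℂ → ℂ} {z : ℂ} (hχ : DifferentiableAt ℂ χ z)
    (hf : DifferentiableAt ℝ f (χ z)) (v : ℂ) :
    fderiv ℝ (fun u => f (χ u)) z v = fderiv ℝ f (χ z) (deriv χ z * v) := by
  have h1 : HasFDerivAt χ ((fderiv ℂ χ z).restrictScalars ℝ) z :=
    hχ.hasFDerivAt.restrictScalars ℝ
  have h2 := (hf.hasFDerivAt.comp z h1).fderiv
  have h3 : (fun u => f (χ u)) = f ∘ χ := rfl
  rw [h3, h2]
  simp only [ContinuousLinearMap.comp_apply, ContinuousLinearMap.coe_restrictScalars']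
  congr 1
  have h4 : fderiv ℂ χ z v = v • fderiv ℂ χ z 1 := by rw [← map_smul, smul_eq_mul, mul_one]
  rw [h4, smul_eq_mul, fderiv_apply_one_eq_deriv, mul_comm]

lemma wz_comp_hol {f : ℂ → F} {χ : ℂ → ℂ} {z : ℂ} (hχ : DifferentiableAt ℂ χ z)
    (hf : DifferentiableAt ℝ f (χ z)) :
    wz (fun u => f (χ u)) z = deriv χ z • wz f (χ z) := by
  conv_lhs => unfold wz
  rw [fderiv_comp_hol hχ hf, fderiv_comp_hol hχ hf, fderiv_eq_wz_wb, fderiv_eq_wz_wb f]
  have hI : Complex.I * Complex.I = -1 := Complex.I_mul_I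
  simp only [mul_one, map_mul, Complex.conj_I]
  match_scalars
  · linear_combination (-(1 / 2 : ℂ) * deriv χ z) * hI
  · linear_combination ((1 / 2 : ℂ) * (conj (deriv χ z))) * hI

lemma wb_comp_hol {f : ℂ → F} {χ : ℂ → ℂ} {z : ℂ} (hχ : DifferentiableAt ℂ χ z)
    (hf : DifferentiableAt ℝ f (χ z)) :
    wb (fun u => f (χ u)) z = (conj (deriv χ z)) • wb f (χ z) := by
  conv_lhs => unfold wb
  rw [fderiv_comp_hol hχ hf, fderiv_comp_hol hχ hf, fderiv_eq_wz_wb, fderiv_eq_wz_wb f]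
  have hI : Complex.I * Complex.I = -1 := Complex.I_mul_I
  simp only [mul_one, map_mul, Complex.conj_I]
  match_scalars
  · linear_combination ((1 / 2 : ℂ) * deriv χ z) * hI
  · linear_combination (-(1 / 2 : ℂ) * (conj (deriv χ z))) * hI

lemma fderiv_mulVec {N : ℕ} (M : Matrix (Fin N) (Fin N) ℂ) {f : ℂ → Fin N → ℂ} {z : ℂ}
    (hf : DifferentiableAt ℝ f z) (v : ℂ) :
    fderiv ℝ (fun u => M *ᵥ f u) z v = M *ᵥ fderiv ℝ f z v := by
  let L : (Fin N → ℂ) →L[ℝ] (Fin N → ℂ) :=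
    LinearMap.toContinuousLinearMap ((Matrix.mulVecLin M).restrictScalars ℝ)
  have h1 : (fun u => M *ᵥ f u) = fun u => L (f u) := rfl
  have h2 := (L.hasFDerivAt.comp z hf.hasFDerivAt).fderiv
  have h3 : (fun u => L (f u)) = L ∘ f := rfl
  rw [h1, h3, h2]
  rfl

lemma wz_mulVec {N : ℕ} (M : Matrix (Fin N) (Fin N) ℂ) {f : ℂ → Fin N → ℂ} {z : ℂ}
    (hf : DifferentiableAt ℝ f z) : wz (fun u => M *ᵥ f u) z = M *ᵥ wz f z := by
  unfold wz
  rw [fderiv_mulVec M hf, fderiv_mulVec M hf, Matrix.mulVec_smul, Matrix.mulVec_sub,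
    Matrix.mulVec_smul]

lemma wb_mulVec {N : ℕ} (M : Matrix (Fin N) (Fin N) ℂ) {f : ℂ → Fin N → ℂ} {z : ℂ}
    (hf : DifferentiableAt ℝ f z) : wb (fun u => M *ᵥ f u) z = M *ᵥ wb f z := by
  unfold wb
  rw [fderiv_mulVec M hf, fderiv_mulVec M hf, Matrix.mulVec_smul, Matrix.mulVec_add,
    Matrix.mulVec_smul]

lemma contDiff_mulVec {N : ℕ} (M : Matrix (Fin N) (Fin N) ℂ) (n : WithTop ℕ∞) :
    ContDiff ℝ n (fun v : Fin N → ℂ => M *ᵥ v) := by
  let L : (Fin N → ℂ) →L[ℝ] (Fin N → ℂ) :=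
    LinearMap.toContinuousLinearMap ((Matrix.mulVecLin M).restrictScalars ℝ)
  exact L.contDiff

end chain

/-! ### ends -/

/-- holomorphic parametrisation of an end of `ℂ \ A` by the half plane `{Re u < -s0}` -/
structure EndMap (A : Finset ℂ) (s0 : ℝ) where
  χ : ℂ → ℂ
  diff : Differentiable ℂ χ
  ne : ∀ u, deriv χ u ≠ 0
  per : ∀ u, χ (u + 2 * Real.pi * Complex.I) = χ u
  avoid : ∀ u : ℂ, u.re < -s0 → χ u ∉ A
  inj : ∀ u v : ℂ, u.re < -s0 → v.re < -s0 → χ u = χ v →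
    ∃ n : ℤ, v = u + n * (2 * Real.pi * Complex.I)

namespace EndMap

variable {A : Finset ℂ}

/-- the end at the puncture `a` -/
def punct (A : Finset ℂ) (a : ℂ) (s0 : ℝ) (h : ∀ b ∈ A, b ≠ a → Real.exp (-s0) ≤ ‖b - a‖) :
    EndMap A s0 where
  χ := fun u => a + Complex.exp u
  diff := by fun_prop
  ne := by
    intro u
    have : deriv (fun u => a + Complex.exp u) u = Complex.exp u := by
      rw [deriv_const_add, Complex.deriv_exp]
    rw [this]
    exact Complex.exp_ne_zero u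
  per := by
    intro u
    rw [Complex.exp_add, Complex.exp_two_pi_mul_I, mul_one]
  avoid := by
    intro u hu hmem
    have h1 : a + Complex.exp u ≠ a := by simp
    have h2 := h _ hmem h1
    rw [add_sub_cancel_left, Complex.norm_exp] at h2
    exact absurd h2 (not_le.mpr (Real.exp_lt_exp.mpr hu))
  inj := by
    intro u v _ _ huv
    have h1 : Complex.exp v = Complex.exp u := (add_left_cancel huv).symm
    exact Complex.exp_eq_exp_iff_exists_int.mp h1

/-- the end at infinity -/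
def infty (A : Finset ℂ) (s0 : ℝ) (h : ∀ b ∈ A, ‖b‖ ≤ Real.exp s0) :
    EndMap A s0 where
  χ := fun u => Complex.exp (-u)
  diff := by fun_prop
  ne := by
    intro u
    have h1 : HasDerivAt (fun u => Complex.exp (-u)) (Complex.exp (-u) * (-1)) u :=
      (Complex.hasDerivAt_exp (-u)).comp u (hasDerivAt_neg u)
    rw [h1.deriv]
    simp [Complex.exp_ne_zero]
  per := by
    intro u
    rw [neg_add, Complex.exp_add, Complex.exp_neg (2 * Real.pi * Complex.I),
      Complex.exp_two_pi_mul_I, inv_one, mul_one]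
  avoid := by
    intro u hu hmem
    have h2 := h _ hmem
    rw [Complex.norm_exp, Complex.neg_re] at h2
    exact absurd h2 (not_le.mpr (Real.exp_lt_exp.mpr (by linarith)))
  inj := by
    intro u v _ _ huv
    obtain ⟨n, hn⟩ := Complex.exp_eq_exp_iff_exists_int.mp huv
    exact ⟨n, by linear_combination hn⟩

/-- restriction to a smaller half plane -/
def mono {s0 s1 : ℝ} (e : EndMap A s0) (h : s0 ≤ s1) : EndMap A s1 where
  χ := e.χ
  diff := e.diff
  ne := e.ne
  per := e.per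
  avoid := fun u hu => e.avoid u (by linarith)
  inj := fun u v hu hv => e.inj u v (by linarith) (by linarith)

@[simp] lemma punct_χ (a : ℂ) (s0 : ℝ) (h : ∀ b ∈ A, b ≠ a → Real.exp (-s0) ≤ ‖b - a‖) (u : ℂ) :
    (punct A a s0 h).χ u = a + Complex.exp u := rfl

@[simp] lemma infty_χ (s0 : ℝ) (h : ∀ b ∈ A, ‖b‖ ≤ Real.exp s0) (u : ℂ) :
    (infty A s0 h).χ u = Complex.exp (-u) := rfl

@[simp] lemma mono_χ {s0 s1 : ℝ} (e : EndMap A s0) (h : s0 ≤ s1) : (e.mono h).χ = e.χ := rfl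

lemma exists_punct (A : Finset ℂ) (a : ℂ) :
    ∃ s0 : ℝ, ∀ b ∈ A, b ≠ a → Real.exp (-s0) ≤ ‖b - a‖ := by
  have h1 : ∀ᶠ s in atTop, ∀ b ∈ A, b ≠ a → Real.exp (-s) ≤ ‖b - a‖ := by
    have h2 : ∀ b ∈ A, ∀ᶠ s in atTop, b ≠ a → Real.exp (-s) ≤ ‖b - a‖ := by
      intro b _
      by_cases hb : b = a
      · exact Eventually.of_forall fun s h => absurd hb h
      · have h3 : Tendsto (fun s : ℝ => Real.exp (-s)) atTop (𝓝 0) :=
          Real.tendsto_exp_neg_atTop_nhds_zero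
        have h4 : 0 < ‖b - a‖ := norm_pos_iff.mpr (sub_ne_zero.mpr hb)
        filter_upwards [h3.eventually_lt_const h4] with s hs _
        exact hs.le
    exact (Filter.eventually_all_finset A).mpr h2
  exact h1.exists

lemma exists_infty (A : Finset ℂ) : ∃ s0 : ℝ, ∀ b ∈ A, ‖b‖ ≤ Real.exp s0 := by
  have h1 : ∀ᶠ s in atTop, ∀ b ∈ A, ‖b‖ ≤ Real.exp s := by
    have h2 : ∀ b ∈ A, ∀ᶠ s in atTop, ‖b‖ ≤ Real.exp s := by
      intro b _
      filter_upwards [Real.tendsto_exp_atTop.eventually_ge_atTop ‖b‖] with s hs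
      exact hs
    exact (Filter.eventually_all_finset A).mpr h2
  exact h1.exists

/-- the region covered by the end at a puncture -/
lemma punct_image (a : ℂ) (s0 s1 : ℝ) (h : ∀ b ∈ A, b ≠ a → Real.exp (-s0) ≤ ‖b - a‖) :
    (punct A a s0 h).χ '' {u | u.re < -s1} = {x | 0 < ‖x - a‖ ∧ ‖x - a‖ < Real.exp (-s1)} := by
  ext x
  constructor
  · rintro ⟨u, hu, rfl⟩
    simp only [punct_χ, Set.mem_ofPred_eq, add_sub_cancel_left, Complex.norm_exp]
    exact ⟨Real.exp_pos _, Real.exp_lt_exp.mpr hu⟩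
  · rintro ⟨h1, h2⟩
    have h3 : x - a ≠ 0 := norm_pos_iff.mp h1
    refine ⟨Complex.log (x - a), ?_, ?_⟩
    · simp only [Set.mem_ofPred_eq, Complex.log_re]
      rw [← Real.log_exp (-s1)]
      exact Real.log_lt_log h1 h2
    · simp only [punct_χ, Complex.exp_log h3]
      ring

lemma infty_image (s0 s1 : ℝ) (h : ∀ b ∈ A, ‖b‖ ≤ Real.exp s0) :
    (infty A s0 h).χ '' {u | u.re < -s1} = {x | Real.exp s1 < ‖x‖} := by
  ext x
  constructor
  · rintro ⟨u, hu, rfl⟩
    have hu' : u.re < -s1 := hu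
    simp only [infty_χ, Set.mem_ofPred_eq, Complex.norm_exp, Complex.neg_re]
    exact Real.exp_lt_exp.mpr (by linarith)
  · intro h1
    have h1' : Real.exp s1 < ‖x‖ := h1
    have h2 : 0 < ‖x‖ := (Real.exp_pos s1).trans h1'
    have h3 : x ≠ 0 := norm_pos_iff.mp h2
    refine ⟨-Complex.log x, ?_, ?_⟩
    · simp only [Set.mem_ofPred_eq, Complex.neg_re, Complex.log_re, neg_lt_neg_iff]
      exact (Real.lt_log_iff_exp_lt h2).mpr h1'
    · simp only [infty_χ, neg_neg, Complex.exp_log h3]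

variable {s0 : ℝ} (e : EndMap A s0)

lemma re_add (u : ℂ) : (u + 2 * Real.pi * Complex.I).re = u.re := by simp

lemma isOpen_half (s0 : ℝ) : IsOpen {u : ℂ | u.re < -s0} :=
  isOpen_lt Complex.continuous_re continuous_const

lemma convex_half (s0 : ℝ) : Convex ℝ {u : ℂ | u.re < -s0} := by
  intro x hx y hy a b ha hb hab
  have hx' : x.re < -s0 := hx
  have hy' : y.re < -s0 := hy
  show (a • x + b • y).re < -s0
  simp only [Complex.add_re, Complex.real_smul, Complex.mul_re, Complex.ofReal_re,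
    Complex.ofReal_im, zero_mul, sub_zero]
  rcases ha.eq_or_lt with h0 | h0
  · subst h0
    have : b = 1 := by linarith
    subst this
    simpa using hy'
  · calc a * x.re + b * y.re < a * (-s0) + b * y.re := by
          have := mul_lt_mul_of_pos_left hx' h0
          linarith
      _ ≤ a * (-s0) + b * (-s0) := by
          have := mul_le_mul_of_nonneg_left hy'.le hb
          linarith
      _ = -s0 := by rw [← add_mul, hab, one_mul]

lemma contDiff (n : WithTop ℕ∞) : ContDiff ℝ n e.χ := by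
  have h1 : ContDiff ℂ n e.χ := e.diff.contDiff
  exact h1.restrict_scalars ℝ

lemma tendsto (z : ℂ) : Tendsto e.χ (𝓝 z) (𝓝 (e.χ z)) := e.diff.continuous.tendsto z

/-- local inverse -/
lemma exists_inv (z : ℂ) : ∃ ψ : ℂ → ℂ, ψ (e.χ z) = z ∧ ContDiffAt ℝ ω ψ (e.χ z) ∧
    (∀ᶠ x in 𝓝 (e.χ z), e.χ (ψ x) = x) ∧ (∀ᶠ u in 𝓝 z, ψ (e.χ u) = u) := by
  have h1 : ContDiffAt ℂ ω e.χ z := e.diff.contDiff.contDiffAt
  have h2 : HasStrictDerivAt e.χ (deriv e.χ z) z := h1.hasStrictDerivAt (by simp)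
  have h3 : HasStrictFDerivAt e.χ
    ((ContinuousLinearEquiv.unitsEquivAut ℂ (Units.mk0 (deriv e.χ z) (e.ne z))) : ℂ →L[ℂ] ℂ) z := by
    refine h2.hasStrictFDerivAt.congr_fderiv ?_
    ext
    simp
  let φ := h1.toOpenPartialHomeomorph e.χ h3.hasFDerivAt (by simp)
  have hz : z ∈ φ.source := h1.mem_toOpenPartialHomeomorph_source h3.hasFDerivAt (by simp)
  have hφ : ∀ u, φ u = e.χ u := fun u => rfl
  refine ⟨φ.symm, ?_, ?_, ?_, ?_⟩
  · rw [← hφ z]; exact φ.left_inv hz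
  · have h4 : ContDiffAt ℂ ω φ.symm (e.χ z) := h1.to_localInverse h3.hasFDerivAt (by simp)
    exact h4.restrict_scalars ℝ
  · have h5 : e.χ z ∈ φ.target := by rw [← hφ z]; exact φ.map_source hz
    filter_upwards [φ.open_target.mem_nhds h5] with x hx
    rw [← hφ]; exact φ.right_inv hx
  · filter_upwards [φ.open_source.mem_nhds hz] with u hu
    rw [← hφ]; exact φ.left_inv hu

end EndMap

/-! ### the normal form -/

/-- normal form of `V` near the end `e`: flat frame `g u` over the half plane -/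
structure NF {A : Finset ℂ} {N w : ℕ} (V : PVHS A N w) {s0 : ℝ} (e : EndMap A s0) where
  g : ℂ → GL (Fin N) ℤ
  nf : EndNF N w s0
  loc : ∀ z : ℂ, z.re < -s0 → ∃ U ∈ 𝓝 z, ∀ u ∈ U, ∀ v ∈ U, V.P (e.χ u) (e.χ v) = g u * (g v)⁻¹
  mono : ∀ u : ℂ, u.re < -s0 → g (u + 2 * Real.pi * Complex.I) = g u * nf.T⁻¹
  S_eq : ∀ u : ℂ, u.re < -s0 → nf.S = (cm (g u))ᴴ * V.S (e.χ u) * cm (g u)
  E_eq : ∀ u : ℂ, nf.E u = cm (g u)⁻¹ * V.E (e.χ u) * cm (g u)

section exists_nf

variable {A : Finset ℂ} {N w : ℕ} (V : PVHS A N w) {s0 : ℝ} (e : EndMap A s0)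

/-- local form of the trivialised endomorphism -/
lemma conj_eq {P : ℂ → ℂ → GL (Fin N) ℤ} {g : ℂ → GL (Fin N) ℤ} {χ : ℂ → ℂ} {z u : ℂ}
    (h : P (χ z) (χ u) = g z * (g u)⁻¹) (B : ℂ → Matrix (Fin N) (Fin N) ℂ) :
    cm (g u)⁻¹ * B (χ u) * cm (g u) = cm (g z)⁻¹ * lM P B (χ z) (χ u) * cm (g z) := by
  unfold lM
  rw [h, _root_.mul_inv_rev, inv_inv, cm_mul, cm_mul]
  calc cm (g u)⁻¹ * B (χ u) * cm (g u)
      = 1 * cm (g u)⁻¹ * B (χ u) * cm (g u) * 1 := by simp
    _ = (cm (g z)⁻¹ * cm (g z)) * cm (g u)⁻¹ * B (χ u) * cm (g u) * (cm (g z)⁻¹ * cm (g z)) := by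
        rw [cm_inv_mul_cm]
    _ = _ := by noncomm_ring

theorem exists_nf : Nonempty (NF V e) := by
  have hS := EndMap.convex_half s0
  have hSo := EndMap.isOpen_half s0
  -- trivialisation on the half plane
  obtain ⟨g, hg⟩ := Top1_358.trivial_on_convex hS (c := fun u v => V.P (e.χ u) (e.χ v)) (by
    intro z hz
    obtain ⟨U, hU, h⟩ := V.ndc (e.χ z) (by simpa using e.avoid z hz)
    exact ⟨e.χ ⁻¹' U, e.tendsto z hU, fun x hx y hy w hw _ _ _ => h _ hx _ hy _ hw⟩)
  have hloc : ∀ z : ℂ, z.re < -s0 → ∃ U ∈ 𝓝 z, ∀ u ∈ U, ∀ v ∈ U,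
      V.P (e.χ u) (e.χ v) = g u * (g v)⁻¹ := by
    intro z hz
    obtain ⟨U, hU, h⟩ := hg z hz
    exact ⟨U ∩ {u | u.re < -s0}, Filter.inter_mem hU (hSo.mem_nhds hz),
      fun u hu v hv => h u hu.1 v hv.1 hu.2 hv.2⟩
  -- monodromy
  have hz0 : (((-s0 - 1 : ℝ) : ℂ)).re < -s0 := by simp
  set z0 : ℂ := ((-s0 - 1 : ℝ) : ℂ) with hz0def
  set τ : ℂ := 2 * Real.pi * Complex.I with hτ
  have hτre : ∀ u : ℂ, (u + τ).re = u.re := fun u => EndMap.re_add u
  have hmono : ∀ u : ℂ, u.re < -s0 → (g u)⁻¹ * g (u + τ) = (g z0)⁻¹ * g (z0 + τ) := by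
    intro u hu
    refine Top1_358.prop_of_isPreconnected (X := ℂ) hS.isPreconnected
      (P := fun v => (g v)⁻¹ * g (v + τ) = (g z0)⁻¹ * g (z0 + τ)) ?_ hz0 rfl hu
    intro v hv
    obtain ⟨U, hU, h⟩ := hloc v hv
    obtain ⟨U', hU', h'⟩ := hloc (v + τ) (by rw [hτre]; exact hv)
    have ht : Tendsto (fun y : ℂ => y + τ) (𝓝 v) (𝓝 (v + τ)) :=
      (continuous_id.add continuous_const).tendsto v
    refine ⟨U ∩ {y | y + τ ∈ U'}, mem_nhdsWithin_of_mem_nhds
      (Filter.inter_mem hU (ht.eventually_mem hU')), ?_⟩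
    rintro y ⟨hy1, hy2⟩
    have h1 := h v (mem_of_mem_nhds hU) y hy1
    have h2 := h' (v + τ) (mem_of_mem_nhds hU') (y + τ) hy2
    rw [e.per, e.per, h1] at h2
    have h3 : (g v)⁻¹ * g (v + τ) = (g y)⁻¹ * g (y + τ) := by
      have h4 : g v = g (v + τ) * (g (y + τ))⁻¹ * g y := by rw [← h2]; group
      rw [h4]; group
    show (_ = _) ↔ (_ = _)
    rw [h3]
  set T : GL (Fin N) ℤ := ((g z0)⁻¹ * g (z0 + τ))⁻¹ with hT
  have hmono' : ∀ u : ℂ, u.re < -s0 → g (u + τ) = g u * T⁻¹ := by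
    intro u hu
    rw [hT, inv_inv, ← hmono u hu]; group
  -- the form
  have hSc : ∀ u : ℂ, u.re < -s0 → (cm (g z0))ᴴ * V.S (e.χ z0) * cm (g z0) =
      (cm (g u))ᴴ * V.S (e.χ u) * cm (g u) := by
    intro u hu
    refine Top1_358.prop_of_isPreconnected (X := ℂ) hS.isPreconnected
      (P := fun v => (cm (g z0))ᴴ * V.S (e.χ z0) * cm (g z0) =
        (cm (g v))ᴴ * V.S (e.χ v) * cm (g v)) ?_ hz0 rfl hu
    intro v hv
    obtain ⟨U, hU, h⟩ := hloc v hv
    refine ⟨U ∩ {y | V.S (e.χ y) = (cm (V.P (e.χ v) (e.χ y)))ᴴ * V.S (e.χ v) *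
      cm (V.P (e.χ v) (e.χ y))}, mem_nhdsWithin_of_mem_nhds
      (Filter.inter_mem hU ((e.tendsto v).eventually (V.flatS _ (e.avoid v hv)))), ?_⟩
    rintro y ⟨hy1, hy2⟩
    have hy2' : V.S (e.χ y) = (cm (V.P (e.χ v) (e.χ y)))ᴴ * V.S (e.χ v) *
      cm (V.P (e.χ v) (e.χ y)) := hy2
    have h1 := h v (mem_of_mem_nhds hU) y hy1
    have h3 : (cm (g y))ᴴ * V.S (e.χ y) * cm (g y) = (cm (g v))ᴴ * V.S (e.χ v) * cm (g v) := by
      rw [hy2', h1, cm_mul, Matrix.conjTranspose_mul]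
      have h4 : (cm (g y))ᴴ * (cm (g y)⁻¹)ᴴ = 1 := by
        rw [← Matrix.conjTranspose_mul, cm_inv_mul_cm, Matrix.conjTranspose_one]
      calc (cm (g y))ᴴ * ((cm (g y)⁻¹)ᴴ * (cm (g v))ᴴ * V.S (e.χ v) * (cm (g v) * cm (g y)⁻¹)) *
            cm (g y) = ((cm (g y))ᴴ * (cm (g y)⁻¹)ᴴ) * (cm (g v))ᴴ * V.S (e.χ v) * cm (g v) *
            (cm (g y)⁻¹ * cm (g y)) := by noncomm_ring
        _ = _ := by rw [h4, cm_inv_mul_cm]; simp
    show (_ = _) ↔ (_ = _)
    rw [h3]
  have hEev : ∀ z : ℂ, z.re < -s0 →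
      (fun u => cm (g u)⁻¹ * V.E (e.χ u) * cm (g u)) =ᶠ[𝓝 z]
        fun u => cm (g z)⁻¹ * lM V.P V.E (e.χ z) (e.χ u) * cm (g z) := by
    intro z hz
    obtain ⟨U, hU, h⟩ := hloc z hz
    filter_upwards [hU] with u hu
    exact conj_eq (h z (mem_of_mem_nhds hU) u hu) V.E
  have hlMsm : ∀ z : ℂ, z.re < -s0 → ∀ i k,
      ContDiffAt ℝ (⊤ : ℕ∞) (fun u => lM V.P V.E (e.χ z) (e.χ u) i k) z := by
    intro z hz i k
    have h1 := V.smE (e.χ z) (e.avoid z hz) i k
    exact h1.comp z ((e.contDiff _).contDiffAt)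
  refine ⟨⟨g, ⟨T, (cm (g z0))ᴴ * V.S (e.χ z0) * cm (g z0),
      fun u => cm (g u)⁻¹ * V.E (e.χ u) * cm (g u), ?_, ?_, ?_, ?_, ?_⟩, hloc, hmono', hSc,
      fun u => rfl⟩⟩
  · intro u hu
    rw [hSc u hu]
    have h1 := (V.hs (e.χ u) (e.avoid u hu)).conj (g := cm (g u)⁻¹) (g' := cm (g u))
      (cm_inv_mul_cm _) (cm_mul_cm_inv _)
    exact h1
  · intro u hu i k
    have h1 : (fun y => (cm (g y)⁻¹ * V.E (e.χ y) * cm (g y)) i k) =ᶠ[𝓝 u]
        fun y => ∑ l, (∑ j, cm (g u)⁻¹ i j * lM V.P V.E (e.χ u) (e.χ y) j l) * cm (g u) l k := by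
      filter_upwards [hEev u hu] with y hy
      rw [hy, mul_mul_entry]
    refine ContDiffAt.congr_of_eventuallyEq ?_ h1
    refine ContDiffAt.sum fun l _ => (ContDiffAt.sum fun j _ => ?_).mul contDiffAt_const
    exact contDiffAt_const.mul (hlMsm u hu j l)
  · intro u hu
    have h1 : wE (fun y => cm (g y)⁻¹ * V.E (e.χ y) * cm (g y)) u =
        cm (g u)⁻¹ * (deriv e.χ u • wM V.P V.E (e.χ u)) * cm (g u) := by
      have h2 : wE (fun y => cm (g y)⁻¹ * V.E (e.χ y) * cm (g y)) u =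
          wE (fun y => cm (g u)⁻¹ * lM V.P V.E (e.χ u) (e.χ y) * cm (g u)) u := by
        ext i j
        simp only [wE, Matrix.of_apply]
        refine wz_congr ?_
        filter_upwards [hEev u hu] with y hy
        rw [hy]
      rw [h2, wz_mulVec_entry _ _ fun i j => (hlMsm u hu i j).differentiableAt (by simp)]
      congr 2
      ext i j
      simp only [wE, wM, Matrix.of_apply, Matrix.smul_apply]
      exact wz_comp_hol (e.diff u)
        ((V.smE (e.χ u) (e.avoid u hu) i j).differentiableAt (by simp))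
    rw [h1]
    have h3 := V.tr (e.χ u) (e.avoid u hu)
    have h4 : cm (g u) * cm (g u)⁻¹ = 1 := cm_mul_cm_inv _
    calc cm (g u)⁻¹ * V.E (e.χ u) * cm (g u) *
          (cm (g u)⁻¹ * (deriv e.χ u • wM V.P V.E (e.χ u)) * cm (g u)) -
          cm (g u)⁻¹ * (deriv e.χ u • wM V.P V.E (e.χ u)) * cm (g u) *
          (cm (g u)⁻¹ * V.E (e.χ u) * cm (g u))
        = cm (g u)⁻¹ * (V.E (e.χ u) * (cm (g u) * cm (g u)⁻¹) *
            (deriv e.χ u • wM V.P V.E (e.χ u)) - (deriv e.χ u • wM V.P V.E (e.χ u)) *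
            (cm (g u) * cm (g u)⁻¹) * V.E (e.χ u)) * cm (g u) := by noncomm_ring
      _ = cm (g u)⁻¹ * (deriv e.χ u • (V.E (e.χ u) * wM V.P V.E (e.χ u) -
            wM V.P V.E (e.χ u) * V.E (e.χ u))) * cm (g u) := by
          rw [h4]; simp only [mul_one, smul_sub, mul_smul_comm, smul_mul_assoc]
      _ = _ := by rw [h3]; simp only [smul_neg, mul_neg, neg_mul]
  · intro u hu
    rw [hmono' u hu, e.per, _root_.mul_inv_rev, inv_inv, cm_mul, cm_mul]
    noncomm_ring
  · have h1 := hSc (z0 + τ) (by rw [hτre]; exact hz0)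
    rw [e.per, hmono' z0 hz0, cm_mul, Matrix.conjTranspose_mul] at h1
    have h2 : (cm T)ᴴ * (cm T⁻¹)ᴴ = 1 := by
      rw [← Matrix.conjTranspose_mul, cm_inv_mul_cm, Matrix.conjTranspose_one]
    have h3 : (cm T)ᴴ * ((cm T⁻¹)ᴴ * (cm (g z0))ᴴ * V.S (e.χ z0) * (cm (g z0) * cm T⁻¹)) * cm T =
        (cm (g z0))ᴴ * V.S (e.χ z0) * cm (g z0) := by
      calc (cm T)ᴴ * ((cm T⁻¹)ᴴ * (cm (g z0))ᴴ * V.S (e.χ z0) * (cm (g z0) * cm T⁻¹)) * cm T
          = ((cm T)ᴴ * (cm T⁻¹)ᴴ) * (cm (g z0))ᴴ * V.S (e.χ z0) * cm (g z0) *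
            (cm T⁻¹ * cm T) := by noncomm_ring
        _ = _ := by rw [h2, cm_inv_mul_cm]; simp
    rw [h1]
    rw [h3, h1]

end exists_nf

/-! ### dictionary -/

namespace NF

variable {A : Finset ℂ} {N w : ℕ} {V : PVHS A N w} {s0 : ℝ} {e : EndMap A s0} (n : NF V e)

/-- pull back of a section to the half plane -/
def pull (φ : ℂ → Fin N → ℂ) (u : ℂ) : Fin N → ℂ := cm (n.g u)⁻¹ *ᵥ φ (e.χ u)




lemma pull_per (φ : ℂ → Fin N → ℂ) {u : ℂ} (hu : u.re < -s0) :
    n.pull φ (u + 2 * Real.pi * Complex.I) = cm n.nf.T *ᵥ n.pull φ u := by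
  unfold pull
  rw [n.mono u hu, e.per, _root_.mul_inv_rev, inv_inv, cm_mul, Matrix.mulVec_mulVec]

lemma lV_eq (φ : ℂ → Fin N → ℂ) {z : ℂ} (hz : z.re < -s0) :
    ∀ᶠ u in 𝓝 z, lV V.P φ (e.χ z) (e.χ u) = cm (n.g z) *ᵥ n.pull φ u := by
  obtain ⟨U, hU, h⟩ := n.loc z hz
  filter_upwards [hU] with u hu
  unfold lV pull
  rw [h z (mem_of_mem_nhds hU) u hu, cm_mul, Matrix.mulVec_mulVec]

lemma pull_eq (φ : ℂ → Fin N → ℂ) {z : ℂ} (hz : z.re < -s0) :
    ∀ᶠ u in 𝓝 z, n.pull φ u = cm (n.g z)⁻¹ *ᵥ lV V.P φ (e.χ z) (e.χ u) := by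
  filter_upwards [n.lV_eq φ hz] with u hu
  rw [hu, cm_inv_mulVec]

/-- smoothness of a section and of its pull back -/
lemma contDiffAt_pull_iff (φ : ℂ → Fin N → ℂ) {z : ℂ} (hz : z.re < -s0) {k : WithTop ℕ∞} :
    ContDiffAt ℝ k (n.pull φ) z ↔ ContDiffAt ℝ k (lV V.P φ (e.χ z)) (e.χ z) := by
  constructor
  · intro h
    obtain ⟨ψ, hψz, hψ, h1, _⟩ := e.exists_inv z
    have h2 : ContDiffAt ℝ k (fun x => cm (n.g z) *ᵥ n.pull φ (ψ x)) (e.χ z) := by
      have h3 : ContDiffAt ℝ k (n.pull φ) (ψ (e.χ z)) := by rw [hψz]; exact h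
      exact (contDiff_mulVec _ k).contDiffAt.comp _ (h3.comp _ (hψ.of_le le_top))
    refine h2.congr_of_eventuallyEq ?_
    have h4 : Tendsto ψ (𝓝 (e.χ z)) (𝓝 z) := by
      have := hψ.continuousAt
      rwa [ContinuousAt, hψz] at this
    filter_upwards [h1, h4.eventually (n.lV_eq φ hz)] with x hx1 hx2
    rw [hx1] at hx2
    exact hx2
  · intro h
    have h2 : ContDiffAt ℝ k (fun u => cm (n.g z)⁻¹ *ᵥ lV V.P φ (e.χ z) (e.χ u)) z :=
      (contDiff_mulVec _ k).contDiffAt.comp _ (h.comp z (e.contDiff k).contDiffAt)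
    exact h2.congr_of_eventuallyEq (n.pull_eq φ hz)

lemma differentiableAt_pull {φ : ℂ → Fin N → ℂ} {z : ℂ} (hz : z.re < -s0)
    (h : DifferentiableAt ℝ (lV V.P φ (e.χ z)) (e.χ z)) : DifferentiableAt ℝ (n.pull φ) z := by
  have h2 : DifferentiableAt ℝ (fun u => cm (n.g z)⁻¹ *ᵥ lV V.P φ (e.χ z) (e.χ u)) z :=
    ((contDiff_mulVec _ 1).differentiable (by simp)).differentiableAt.comp z
      (h.comp z ((e.contDiff 1).differentiable (by simp)).differentiableAt)
  exact h2.congr_of_eventuallyEq (n.pull_eq φ hz)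

lemma wz_pull {φ : ℂ → Fin N → ℂ} {z : ℂ} (hz : z.re < -s0)
    (h : DifferentiableAt ℝ (lV V.P φ (e.χ z)) (e.χ z)) :
    wz (n.pull φ) z = deriv e.χ z • n.pull (V.d1 φ) z := by
  have h1 : DifferentiableAt ℝ (fun u => lV V.P φ (e.χ z) (e.χ u)) z :=
    h.comp z ((e.contDiff 1).differentiable (by simp)).differentiableAt
  rw [wz_congr (n.pull_eq φ hz), wz_mulVec _ h1, wz_comp_hol (e.diff z) h, Matrix.mulVec_smul]
  rfl

lemma wb_pull {φ : ℂ → Fin N → ℂ} {z : ℂ} (hz : z.re < -s0)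
    (h : DifferentiableAt ℝ (lV V.P φ (e.χ z)) (e.χ z)) :
    wb (n.pull φ) z = (conj (deriv e.χ z)) • n.pull (V.d2 φ) z := by
  have h1 : DifferentiableAt ℝ (fun u => lV V.P φ (e.χ z) (e.χ u)) z :=
    h.comp z ((e.contDiff 1).differentiable (by simp)).differentiableAt
  rw [wb_congr (n.pull_eq φ hz), wb_mulVec _ h1, wb_comp_hol (e.diff z) h, Matrix.mulVec_smul]
  rfl

/-- the Hodge form of a section and of its pull back -/
lemma hodge_pull (φ ψ : ℂ → Fin N → ℂ) {u : ℂ} (hu : u.re < -s0) :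
    star (n.pull φ u) ⬝ᵥ hodge w n.nf.S (n.nf.E u) *ᵥ n.pull ψ u =
      star (φ (e.χ u)) ⬝ᵥ V.H (e.χ u) *ᵥ ψ (e.χ u) := by
  rw [n.S_eq u hu, n.E_eq u, hodge_conj (cm_inv_mul_cm _) (cm_mul_cm_inv _)]
  unfold pull PVHS.H
  rw [← Matrix.mulVec_mulVec, ← Matrix.mulVec_mulVec, cm_mulVec_inv, Matrix.dotProduct_mulVec,
    ← Matrix.star_mulVec, cm_mulVec_inv]

lemma nsq_pull (φ : ℂ → Fin N → ℂ) {u : ℂ} (hu : u.re < -s0) :
    V.nsq φ (e.χ u) = (star (n.pull φ u) ⬝ᵥ hodge w n.nf.S (n.nf.E u) *ᵥ n.pull φ u).re := by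
  rw [n.hodge_pull φ φ hu]; rfl



/-- integer translations -/
lemma g_int (k : ℤ) {u : ℂ} (hu : u.re < -s0) :
    n.g (u + k * (2 * Real.pi * Complex.I)) = n.g u * (n.nf.T⁻¹) ^ k := by
  have hre : ∀ k : ℤ, (u + k * (2 * Real.pi * Complex.I)).re = u.re := by intro k; simp
  induction k using Int.induction_on with
  | zero => simp
  | succ i ih =>
    have h1 := n.mono (u + (i : ℤ) * (2 * Real.pi * Complex.I)) (by rw [hre]; exact hu)
    have h2 : u + ((i + 1 : ℤ) : ℂ) * (2 * Real.pi * Complex.I) =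
      u + ((i : ℤ) : ℂ) * (2 * Real.pi * Complex.I) + 2 * Real.pi * Complex.I := by
      push_cast; ring
    rw [h2, h1, ih, mul_assoc, ← _root_.zpow_add_one]
  | pred i ih =>
    have h1 := n.mono (u + ((-(i : ℤ) - 1 : ℤ) : ℂ) * (2 * Real.pi * Complex.I))
      (by rw [hre]; exact hu)
    have h2 : u + ((-(i : ℤ) - 1 : ℤ) : ℂ) * (2 * Real.pi * Complex.I) + 2 * Real.pi * Complex.I =
      u + ((-(i : ℤ) : ℤ) : ℂ) * (2 * Real.pi * Complex.I) := by
      push_cast; ring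
    rw [h2, ih] at h1
    rw [← mul_inv_eq_iff_eq_mul.mpr h1, inv_inv, mul_assoc]
    congr 1
    rw [_root_.zpow_sub_one, inv_inv]

lemma iter_per {ψ : ℂ → Fin N → ℂ}
    (h : ∀ u : ℂ, u.re < -s0 → ψ (u + 2 * Real.pi * Complex.I) = cm n.nf.T *ᵥ ψ u) (k : ℤ) {u : ℂ}
    (hu : u.re < -s0) :
    ψ (u + k * (2 * Real.pi * Complex.I)) = cm (n.nf.T ^ k) *ᵥ ψ u := by
  have hre : ∀ k : ℤ, (u + k * (2 * Real.pi * Complex.I)).re = u.re := by intro k; simp
  induction k using Int.induction_on with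
  | zero => simp
  | succ i ih =>
    have h1 := h (u + (i : ℤ) * (2 * Real.pi * Complex.I)) (by rw [hre]; exact hu)
    have h2 : u + ((i + 1 : ℤ) : ℂ) * (2 * Real.pi * Complex.I) =
      u + ((i : ℤ) : ℂ) * (2 * Real.pi * Complex.I) + 2 * Real.pi * Complex.I := by
      push_cast; ring
    rw [h2, h1, ih, Matrix.mulVec_mulVec, ← cm_mul, ← _root_.zpow_one_add, add_comm]
  | pred i ih =>
    have h1 := h (u + ((-(i : ℤ) - 1 : ℤ) : ℂ) * (2 * Real.pi * Complex.I))
      (by rw [hre]; exact hu)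
    have h2 : u + ((-(i : ℤ) - 1 : ℤ) : ℂ) * (2 * Real.pi * Complex.I) + 2 * Real.pi * Complex.I =
      u + ((-(i : ℤ) : ℤ) : ℂ) * (2 * Real.pi * Complex.I) := by
      push_cast; ring
    rw [h2, ih] at h1
    apply cm_mulVec_injective n.nf.T
    show cm n.nf.T *ᵥ _ = cm n.nf.T *ᵥ _
    rw [← h1, Matrix.mulVec_mulVec, ← cm_mul, ← _root_.zpow_one_add]
    congr 3
    ring

open Classical in
/-- the section with pull back `ψ` (value `0` outside the end) -/
def push (ψ : ℂ → Fin N → ℂ) (x : ℂ) : Fin N → ℂ :=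
  if h : ∃ u : ℂ, u.re < -s0 ∧ e.χ u = x then cm (n.g h.choose) *ᵥ ψ h.choose else 0

lemma push_apply {ψ : ℂ → Fin N → ℂ}
    (h : ∀ u : ℂ, u.re < -s0 → ψ (u + 2 * Real.pi * Complex.I) = cm n.nf.T *ᵥ ψ u) {u : ℂ}
    (hu : u.re < -s0) : n.push ψ (e.χ u) = cm (n.g u) *ᵥ ψ u := by
  unfold push
  have hex : ∃ v : ℂ, v.re < -s0 ∧ e.χ v = e.χ u := ⟨u, hu, rfl⟩
  rw [dif_pos hex]
  obtain ⟨hv, hv2⟩ := hex.choose_spec
  obtain ⟨k, hk⟩ := e.inj u hex.choose hu hv hv2.symm
  rw [hk, n.g_int k hu, n.iter_per h k hu, Matrix.mulVec_mulVec, ← cm_mul, mul_assoc,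
    _root_.inv_zpow, inv_mul_cancel, mul_one]

/-- descent: `pull (push ψ) = ψ` -/
lemma pull_push {ψ : ℂ → Fin N → ℂ}
    (h : ∀ u : ℂ, u.re < -s0 → ψ (u + 2 * Real.pi * Complex.I) = cm n.nf.T *ᵥ ψ u) {u : ℂ}
    (hu : u.re < -s0) : n.pull (n.push ψ) u = ψ u := by
  unfold pull
  rw [n.push_apply h hu, cm_inv_mulVec]

end NF

end Crest.Agent.R276.Ipc735
end
end

-- ▼ part R276/NfInt_735
section

/-!
# Row 276, IPC-NF (helper735): change of variables on the ends, dictionary for one-forms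
-/

set_option autoImplicit false
set_option linter.unusedSectionVars false

noncomputable section

open Set Filter Topology MeasureTheory Matrix
open scoped ContDiff ComplexConjugate ENNReal

namespace Crest.Agent.R276.Ipc735

lemma det_fderiv_hol {χ : ℂ → ℂ} (u : ℂ) :
    ((fderiv ℂ χ u).restrictScalars ℝ).det = ‖deriv χ u‖ ^ 2 := by
  have h1 : fderiv ℂ χ u = (deriv χ u) • (ContinuousLinearMap.id ℂ ℂ) := by
    ext
    simp
  have h2 : ((fderiv ℂ χ u).restrictScalars ℝ).det =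
      LinearMap.det (((deriv χ u) • (LinearMap.id : ℂ →ₗ[ℂ] ℂ)).restrictScalars ℝ) := by
    rw [h1]; rfl
  rw [h2, LinearMap.det_restrictScalars]
  simp [Algebra.norm_complex_eq, Complex.normSq_eq_norm_sq]

namespace EndMap

variable {A : Finset ℂ} {s0 : ℝ} (e : EndMap A s0)

/-- a fundamental strip -/
def strip (s1 : ℝ) : Set ℂ := {u : ℂ | u.re < -s1 ∧ 0 < u.im ∧ u.im ≤ 2 * Real.pi}

lemma measurableSet_strip (s1 : ℝ) : MeasurableSet (strip s1) := by
  refine (measurableSet_lt Complex.measurable_re measurable_const).inter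
    ((measurableSet_lt measurable_const Complex.measurable_im).inter
      (measurableSet_le Complex.measurable_im measurable_const))

lemma χ_int (k : ℤ) (u : ℂ) : e.χ (u + k * (2 * Real.pi * Complex.I)) = e.χ u := by
  induction k using Int.induction_on with
  | zero => simp
  | succ i ih =>
    have h2 : u + ((i + 1 : ℤ) : ℂ) * (2 * Real.pi * Complex.I) =
      u + ((i : ℤ) : ℂ) * (2 * Real.pi * Complex.I) + 2 * Real.pi * Complex.I := by
      push_cast; ring
    rw [h2, e.per, ih]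
  | pred i ih =>
    have h1 := e.per (u + ((-(i : ℤ) - 1 : ℤ) : ℂ) * (2 * Real.pi * Complex.I))
    have h2 : u + ((-(i : ℤ) - 1 : ℤ) : ℂ) * (2 * Real.pi * Complex.I) + 2 * Real.pi * Complex.I =
      u + ((-(i : ℤ) : ℤ) : ℂ) * (2 * Real.pi * Complex.I) := by
      push_cast; ring
    rw [h2, ih] at h1
    exact h1.symm

lemma image_strip (s1 : ℝ) : e.χ '' strip s1 = e.χ '' {u | u.re < -s1} := by
  apply Subset.antisymm
  · exact image_mono fun u hu => hu.1
  · rintro _ ⟨u, hu, rfl⟩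
    obtain ⟨k, hk, _⟩ := existsUnique_add_zsmul_mem_Ioc Real.two_pi_pos u.im 0
    refine ⟨u + k * (2 * Real.pi * Complex.I), ⟨?_, ?_, ?_⟩, e.χ_int k u⟩
    · have : (u + k * (2 * Real.pi * Complex.I)).re = u.re := by simp
      rw [this]; exact hu
    · have : (u + k * (2 * Real.pi * Complex.I)).im = u.im + k • (2 * Real.pi) := by simp
      rw [this]; exact hk.1
    · have : (u + k * (2 * Real.pi * Complex.I)).im = u.im + k • (2 * Real.pi) := by simp
      rw [this]; simpa using hk.2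

lemma injOn_strip {s1 : ℝ} (h : s0 ≤ s1) : InjOn e.χ (strip s1) := by
  rintro u ⟨hu1, hu2, hu3⟩ v ⟨hv1, hv2, hv3⟩ huv
  obtain ⟨k, hk⟩ := e.inj u v (by linarith) (by linarith) huv
  have h1 : v.im = u.im + k * (2 * Real.pi) := by rw [hk]; simp
  have h2 : k = 0 := by
    have hpi := Real.pi_pos
    have h3 : (k : ℝ) < 1 := by
      by_contra hcon
      have h4 : (1 : ℝ) * (2 * Real.pi) ≤ k * (2 * Real.pi) :=
        mul_le_mul_of_nonneg_right (not_lt.mp hcon) (by positivity)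
      linarith
    have h5 : (-1 : ℝ) < k := by
      by_contra hcon
      have h4 : (k : ℝ) * (2 * Real.pi) ≤ (-1) * (2 * Real.pi) :=
        mul_le_mul_of_nonneg_right (not_lt.mp hcon) (by positivity)
      linarith
    have h6 : k < 1 := by exact_mod_cast h3
    have h7 : -1 < k := by exact_mod_cast h5
    omega
  rw [hk, h2]; simp

/-- change of variables on an end -/
theorem lintegral_strip {s1 : ℝ} (h : s0 ≤ s1) (F : ℂ → ℝ≥0∞) :
    ∫⁻ x in e.χ '' {u | u.re < -s1}, F x =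
      ∫⁻ u in strip s1, ENNReal.ofReal (‖deriv e.χ u‖ ^ 2) * F (e.χ u) := by
  rw [← e.image_strip s1]
  have h1 := lintegral_image_eq_lintegral_abs_det_fderiv_mul volume (measurableSet_strip s1)
    (f := e.χ) (f' := fun u => (fderiv ℂ e.χ u).restrictScalars ℝ)
    (fun u _ => ((e.diff u).hasFDerivAt.restrictScalars ℝ).hasFDerivWithinAt)
    (e.injOn_strip h) F
  rw [h1]
  refine lintegral_congr fun u => ?_
  rw [det_fderiv_hol, abs_of_nonneg (by positivity)]



/-- the strip integral as an iterated integral (measurable integrand) -/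
theorem lintegral_strip_prod (s1 : ℝ) {G : ℂ → ℝ≥0∞}
    (hG : AEMeasurable G (volume.restrict (strip s1))) :
    ∫⁻ u in strip s1, G u = ∫⁻ s in Ioi s1, ∫⁻ t in Ioc 0 (2 * Real.pi),
      G (-(s : ℂ) + t * Complex.I) := by
  -- the volume preserving map
  let T : ℝ × ℝ → ℂ := fun q => Complex.measurableEquivRealProd.symm (-q.1, q.2)
  have hT : MeasurePreserving T ((volume : Measure ℝ).prod volume) volume := by
    have h1 : MeasurePreserving (fun q : ℝ × ℝ => ((-q.1, q.2) : ℝ × ℝ))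
        ((volume : Measure ℝ).prod volume) ((volume : Measure ℝ).prod volume) :=
      (Measure.measurePreserving_neg volume).prod (MeasurePreserving.id volume)
    exact Complex.volume_preserving_equiv_real_prod.symm.comp h1
  have hTe : ∀ q : ℝ × ℝ, T q = -(q.1 : ℂ) + q.2 * Complex.I := by
    intro q
    apply Complex.ext <;> simp [T]
  have hpre : T ⁻¹' strip s1 = Ioi s1 ×ˢ Ioc 0 (2 * Real.pi) := by
    ext q
    have hre : (T q).re = -q.1 := by rw [hTe]; simp
    have him : (T q).im = q.2 := by rw [hTe]; simp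
    simp only [Set.mem_preimage, strip, Set.mem_ofPred_eq, hre, him, Set.mem_prod, Set.mem_Ioi,
      Set.mem_Ioc, neg_lt_neg_iff]
  have hres : MeasurePreserving T (((volume : Measure ℝ).prod volume).restrict
      (Ioi s1 ×ˢ Ioc 0 (2 * Real.pi))) (volume.restrict (strip s1)) := by
    rw [← hpre]
    exact hT.restrict_preimage (measurableSet_strip s1)
  have h1 : ∫⁻ u in strip s1, G u = ∫⁻ q, G (T q) ∂(((volume : Measure ℝ).prod volume).restrict
      (Ioi s1 ×ˢ Ioc 0 (2 * Real.pi))) := by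
    rw [← hres.map_eq]
    exact lintegral_map' (by rw [hres.map_eq]; exact hG) hres.measurable.aemeasurable
  rw [h1, ← Measure.prod_restrict]
  have hG2 : AEMeasurable (fun q => G (T q)) (((volume : Measure ℝ).restrict (Ioi s1)).prod
      ((volume : Measure ℝ).restrict (Ioc 0 (2 * Real.pi)))) := by
    rw [Measure.prod_restrict]
    exact hG.comp_quasiMeasurePreserving hres.quasiMeasurePreserving
  rw [lintegral_prod _ hG2]
  refine lintegral_congr fun s => lintegral_congr fun t => ?_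
  rw [hTe]

end EndMap

/-! ### one-forms near an end -/

/-- Hodge norm squared in the normal form -/
def EndNF.q {N w : ℕ} {s0 : ℝ} (n : EndNF N w s0) (u : ℂ) (v : Fin N → ℂ) : ℝ :=
  (star v ⬝ᵥ hodge w n.S (n.E u) *ᵥ v).re


lemma EndNF.q_smul {N w : ℕ} {s0 : ℝ} (n : EndNF N w s0) (u : ℂ) (c : ℂ) (v : Fin N → ℂ) :
    n.q u (c • v) = ‖c‖ ^ 2 * n.q u v := by
  unfold EndNF.q
  rw [star_smul, Matrix.mulVec_smul, smul_dotProduct, dotProduct_smul, smul_eq_mul, smul_eq_mul,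
    ← mul_assoc]
  have h1 : star c * c = ((‖c‖ ^ 2 : ℝ) : ℂ) := by
    rw [Complex.star_def, Complex.conj_mul', Complex.ofReal_pow]
  rw [h1, Complex.re_ofReal_mul]


namespace NF

variable {A : Finset ℂ} {N w : ℕ} {V : PVHS A N w} {s0 : ℝ} {e : EndMap A s0} (n : NF V e)

/-- pull back of the `dx`-component of a one-form -/
def pa (a : ℂ → Fin N → ℂ) (u : ℂ) : Fin N → ℂ := deriv e.χ u • n.pull a u

/-- pull back of the `d\bar x`-component of a one-form -/
def pb (b : ℂ → Fin N → ℂ) (u : ℂ) : Fin N → ℂ := (conj (deriv e.χ u) : ℂ) • n.pull b u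

lemma q_pull (φ : ℂ → Fin N → ℂ) {u : ℂ} (hu : u.re < -s0) :
    n.nf.q u (n.pull φ u) = V.nsq φ (e.χ u) := (n.nsq_pull φ hu).symm

lemma q_pa (a : ℂ → Fin N → ℂ) {u : ℂ} (hu : u.re < -s0) :
    n.nf.q u (n.pa a u) = ‖deriv e.χ u‖ ^ 2 * V.nsq a (e.χ u) := by
  unfold pa
  rw [n.nf.q_smul, n.q_pull a hu]

lemma q_pb (b : ℂ → Fin N → ℂ) {u : ℂ} (hu : u.re < -s0) :
    n.nf.q u (n.pb b u) = ‖deriv e.χ u‖ ^ 2 * V.nsq b (e.χ u) := by
  unfold pb
  rw [n.nf.q_smul, n.q_pull b hu, RCLike.norm_conj]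



/-- exactness from a primitive on the half plane with the right monodromy -/
theorem exactOn {a b : ℂ → Fin N → ℂ} {ψ : ℂ → Fin N → ℂ} {s1 : ℝ} (h01 : s0 ≤ s1)
    (hψ : ∀ u : ℂ, u.re < -s1 → ContDiffAt ℝ (⊤ : ℕ∞) ψ u)
    (hper : ∀ u : ℂ, u.re < -s1 → ψ (u + 2 * Real.pi * Complex.I) = cm n.nf.T *ᵥ ψ u)
    (hz : ∀ u : ℂ, u.re < -s1 → wz ψ u = n.pa a u)
    (hb : ∀ u : ℂ, u.re < -s1 → wb ψ u = n.pb b u) :
    V.ExactOn (e.χ '' {u | u.re < -s1}) a b := by
  classical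
  -- extend `ψ` by `0` to the rest of the half plane
  set ψ' : ℂ → Fin N → ℂ := fun u => if u.re < -s1 then ψ u else 0 with hψ'
  have hper' : ∀ u : ℂ, u.re < -s0 →
      ψ' (u + 2 * Real.pi * Complex.I) = cm n.nf.T *ᵥ ψ' u := by
    intro u _
    simp only [hψ', EndMap.re_add]
    split_ifs with h1
    · exact hper u h1
    · rw [Matrix.mulVec_zero]
  have hev : ∀ u : ℂ, u.re < -s1 → n.pull (n.push ψ') =ᶠ[𝓝 u] ψ := by
    intro u hu
    filter_upwards [(EndMap.isOpen_half s1).mem_nhds hu] with v hv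
    have hv' : v.re < -s1 := hv
    rw [n.pull_push hper' (by linarith)]
    simp only [hψ', if_pos hv']
  refine ⟨n.push ψ', ?_⟩
  rintro _ ⟨u, hu, rfl⟩ _
  have hu' : u.re < -s1 := hu
  have hu0 : u.re < -s0 := by linarith
  have hc : ContDiffAt ℝ (⊤ : ℕ∞) (lV V.P (n.push ψ') (e.χ u)) (e.χ u) := by
    rw [← n.contDiffAt_pull_iff _ hu0]
    exact (hψ u hu').congr_of_eventuallyEq (hev u hu')
  have hd := hc.differentiableAt (by simp)
  refine ⟨hc, ?_, ?_⟩
  · have h1 := n.wz_pull hu0 hd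
    rw [wz_congr (hev u hu'), hz u hu'] at h1
    unfold pa at h1
    have h2 := smul_right_injective _ (e.ne u) h1
    unfold pull at h2
    exact (cm_mulVec_injective _ h2).symm
  · have h1 := n.wb_pull hu0 hd
    rw [wb_congr (hev u hu'), hb u hu'] at h1
    unfold pb at h1
    have h2 := smul_right_injective _ ((map_ne_zero _).mpr (e.ne u)) h1
    unfold pull at h2
    exact (cm_mulVec_injective _ h2).symm


end NF

end Crest.Agent.R276.Ipc735
end
end

-- ▼ part R276/EndP3_659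

/-!
# R276 (helper659): (I3), a closed smooth `L²` one-form on a punctured plane is parabolic

* `exactOn_end` : at one end;
* `par_of_L2` : `PVHS.Par`.
-/

set_option autoImplicit false
set_option linter.unusedSectionVars false

open Set Filter Topology MeasureTheory Matrix
open scoped ContDiff ComplexConjugate ENNReal ComplexOrder

namespace Crest.Agent.R276.EndP_659

open Crest.Agent.R276.Ipc735 Crest.Agent.R276.EndTh_659 Crest.Agent.R276.EndF_659

section cprod

variable {F : Type*} [NormedAddCommGroup F] [NormedSpace ℂ F]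

theorem wz_csmul {c : ℂ → ℂ} {f : ℂ → F} {z : ℂ} (hc : DifferentiableAt ℝ c z)
    (hf : DifferentiableAt ℝ f z) :
    wz (fun x => c x • f x) z = c z • wz f z + wz c z • f z := by
  have h2 : fderiv ℝ (fun x => c x • f x) z = _ := (hc.hasFDerivAt.smul hf.hasFDerivAt).fderiv
  unfold wz
  rw [h2]
  simp only [_root_.add_apply, _root_.smul_apply, ContinuousLinearMap.smulRight_apply, smul_eq_mul]
  module

theorem wb_csmul {c : ℂ → ℂ} {f : ℂ → F} {z : ℂ} (hc : DifferentiableAt ℝ c z)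
    (hf : DifferentiableAt ℝ f z) :
    wb (fun x => c x • f x) z = c z • wb f z + wb c z • f z := by
  have h2 : fderiv ℝ (fun x => c x • f x) z = _ := (hc.hasFDerivAt.smul hf.hasFDerivAt).fderiv
  unfold wb
  rw [h2]
  simp only [_root_.add_apply, _root_.smul_apply, ContinuousLinearMap.smulRight_apply, smul_eq_mul]
  module

theorem wb_hol {c : ℂ → ℂ} {z : ℂ} (hc : DifferentiableAt ℂ c z) : wb c z = 0 := by
  unfold wb
  rw [(hasFDerivAt_mul hc).fderiv]
  simp only [ContinuousLinearMap.mul_apply', mul_one, smul_eq_mul]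
  linear_combination (1 / 2 * deriv c z) * Complex.I_mul_I

theorem wz_conj_hol {c : ℂ → ℂ} {z : ℂ} (hc : DifferentiableAt ℂ c z) :
    wz (fun x => conj (c x)) z = 0 := by
  have h1 := (Complex.conjCLE.toContinuousLinearMap.hasFDerivAt.comp z (hasFDerivAt_mul hc)).fderiv
  have h2 : fderiv ℝ (fun x => conj (c x)) z = _ := h1
  unfold wz
  rw [h2]
  simp only [ContinuousLinearMap.comp_apply, ContinuousLinearMap.mul_apply', mul_one, smul_eq_mul,
    ContinuousLinearEquiv.coe_coe, Complex.conjCLE_apply, map_mul, Complex.conj_I]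
  linear_combination (1 / 2 * (starRingEnd ℂ) (deriv c z)) * Complex.I_mul_I

end cprod

/-! ### (I3) -/

section ends

variable {A : Finset ℂ} {N w : ℕ} {V : PVHS A N w} {s0 : ℝ} {e : EndMap A s0} (n : NF V e)

theorem diff_deriv (e : EndMap A s0) : Differentiable ℂ (deriv e.χ) := by
  have h1 : DifferentiableOn ℂ (deriv e.χ) univ := e.diff.differentiableOn.deriv isOpen_univ
  exact differentiableOn_univ.1 h1

theorem deriv_per (e : EndMap A s0) (u : ℂ) :
    deriv e.χ (u + 2 * Real.pi * Complex.I) = deriv e.χ u := by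
  have h1 : (fun u => e.χ (u + 2 * Real.pi * Complex.I)) = e.χ := funext e.per
  have h2 := congrFun (congrArg deriv h1) u
  rw [deriv_comp_add_const] at h2
  exact h2

theorem image_sub {s1 : ℝ} (h : s0 ≤ s1) : e.χ '' {u | u.re < -s1} ⊆ (A : Set ℂ)ᶜ := by
  rintro _ ⟨u, hu, rfl⟩
  have hu' : u.re < -s1 := hu
  exact e.avoid u (by linarith)

/-- smooth on the end -/
def SmE (V : PVHS A N w) (e : EndMap A s0) (φ : ℂ → Fin N → ℂ) : Prop :=
  ∀ u : ℂ, u.re < -s0 → ContDiffAt ℝ (⊤ : ℕ∞) (lV V.P φ (e.χ u)) (e.χ u)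

theorem SmE.of {φ : ℂ → Fin N → ℂ} (h : V.Sm φ) : SmE V e φ := fun u hu => h _ (e.avoid u hu)

theorem contDiffOn_pull {a : ℂ → Fin N → ℂ} (ha : SmE V e a) :
    ContDiffOn ℝ ∞ (n.pull a) {u : ℂ | u.re < -s0} := fun u hu =>
  ((n.contDiffAt_pull_iff a hu).2 (ha u hu)).contDiffWithinAt

theorem contDiff_deriv (e : EndMap A s0) : ContDiff ℝ ∞ (deriv e.χ) :=
  ((diff_deriv e).contDiff (n := ∞)).restrict_scalars ℝ

theorem contDiffOn_pa {a : ℂ → Fin N → ℂ} (ha : SmE V e a) :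
    ContDiffOn ℝ ∞ (n.pa a) {u : ℂ | u.re < -s0} :=
  (contDiff_deriv e).contDiffOn.smul (contDiffOn_pull n ha)

theorem contDiffOn_pb {b : ℂ → Fin N → ℂ} (hb : SmE V e b) :
    ContDiffOn ℝ ∞ (n.pb b) {u : ℂ | u.re < -s0} :=
  (Complex.conjCLE.contDiff.comp (contDiff_deriv e)).contDiffOn.smul (contDiffOn_pull n hb)

theorem pa_per (a : ℂ → Fin N → ℂ) {u : ℂ} (hu : u.re < -s0) :
    n.pa a (u + 2 * Real.pi * Complex.I) = cm n.nf.T *ᵥ n.pa a u := by
  unfold NF.pa
  rw [deriv_per, n.pull_per a hu, Matrix.mulVec_smul]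

theorem pb_per (b : ℂ → Fin N → ℂ) {u : ℂ} (hu : u.re < -s0) :
    n.pb b (u + 2 * Real.pi * Complex.I) = cm n.nf.T *ᵥ n.pb b u := by
  unfold NF.pb
  rw [deriv_per, n.pull_per b hu, Matrix.mulVec_smul]

theorem pull_closed {a b : ℂ → Fin N → ℂ} (ha : SmE V e a) (hb : SmE V e b) {u : ℂ}
    (hu : u.re < -s0) (hcl : V.d2 a (e.χ u) = V.d1 b (e.χ u)) : wb (n.pa a) u = wz (n.pb b) u := by
  have hda := (ha u hu).differentiableAt (by simp)
  have hdb := (hb u hu).differentiableAt (by simp)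
  have h0 : DifferentiableAt ℂ (deriv e.χ) u := diff_deriv e u
  have h0r : DifferentiableAt ℝ (deriv e.χ) u := h0.restrictScalars ℝ
  have h0c : DifferentiableAt ℝ (fun x => conj (deriv e.χ x)) u :=
    (Complex.conjCLE.differentiable.differentiableAt).comp u h0r
  have h1 : wb (n.pa a) u = deriv e.χ u • wb (n.pull a) u + wb (deriv e.χ) u • n.pull a u :=
    wb_csmul h0r (n.differentiableAt_pull hu hda)
  have h2 : wz (n.pb b) u = (conj (deriv e.χ u)) • wz (n.pull b) u +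
      wz (fun x => conj (deriv e.χ x)) u • n.pull b u :=
    wz_csmul h0c (n.differentiableAt_pull hu hdb)
  rw [h1, h2, wb_hol h0, wz_conj_hol h0, zero_smul, zero_smul, add_zero, add_zero,
    n.wb_pull hu hda, n.wz_pull hu hdb, smul_comm]
  unfold NF.pull
  rw [hcl]

theorem H_entry_cont (m : EndNF N w s0) (i j : Fin N) :
    ContinuousOn (fun y => H m y i j) {u : ℂ | u.re < -s0} := by
  let _ : NormedRing (Matrix (Fin N) (Fin N) ℂ) := Matrix.linftyOpNormedRing
  let _ : NormedAlgebra ℂ (Matrix (Fin N) (Fin N) ℂ) := Matrix.linftyOpNormedAlgebra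
  have h4 := (VCalc_442.contDiffOn_matrix.1 (EndC_659.sm_hm (vhs m)) i j).continuousOn
  refine h4.congr fun y _ => ?_
  show H m y i j = VCalc_442.hm w m.S (Pn m) y i j
  rw [hm_eq]

theorem continuousOn_nq {ψ : ℂ → Fin N → ℂ} (m : EndNF N w s0)
    (hψ : ContinuousOn ψ {u : ℂ | u.re < -s0}) :
    ContinuousOn (fun u => nq (H m u) (ψ u)) {u : ℂ | u.re < -s0} := fun u hu =>
  IpcEx_309.qf_cont (fun i j => H_entry_cont m i j u hu) (hψ u hu)

theorem nq_sub_le {K : Matrix (Fin N) (Fin N) ℂ} (hK : K.PosDef) (a b : Fin N → ℂ) :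
    nq K (a - b) ≤ 2 * nq K a + 2 * nq K b := by
  have h1 := EndC_659.nq_parallelogram K a b
  have h2 := nq_nonneg hK (a + b)
  linarith

theorem aem_nq {ψ : ℂ → Fin N → ℂ} (m : EndNF N w s0) {s1 : ℝ} (h01 : s0 ≤ s1)
    (hψ : ContinuousOn ψ {u : ℂ | u.re < -s0}) :
    AEMeasurable (fun u => ENNReal.ofReal (nq (H m u) (ψ u)))
      (volume.restrict (EndMap.strip s1)) := by
  refine ENNReal.measurable_ofReal.comp_aemeasurable ?_
  refine ContinuousOn.aemeasurable ?_ (EndMap.measurableSet_strip s1)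
  refine (continuousOn_nq m hψ).mono fun u hu => ?_
  have h2 : u.re < -s1 := hu.1
  show u.re < -s0
  linarith

/-- the integral over the strip of the pulled back form -/
theorem lint_pa {s1 : ℝ} (h01 : s0 ≤ s1) (a : ℂ → Fin N → ℂ) :
    ∫⁻ u in EndMap.strip s1, ENNReal.ofReal (nq (H n.nf u) (n.pa a u)) =
      ∫⁻ x in e.χ '' {u | u.re < -s1}, ENNReal.ofReal (V.nsq a x) := by
  rw [e.lintegral_strip h01]
  refine setLIntegral_congr_fun (EndMap.measurableSet_strip s1) fun u hu => ?_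
  have h2 := n.q_pa a (u := u) (lt_of_lt_of_le hu.1 (by linarith))
  have h3 : nq (H n.nf u) (n.pa a u) = n.nf.q u (n.pa a u) := rfl
  rw [h3, h2, ENNReal.ofReal_mul (by positivity)]

theorem lint_pb {s1 : ℝ} (h01 : s0 ≤ s1) (b : ℂ → Fin N → ℂ) :
    ∫⁻ u in EndMap.strip s1, ENNReal.ofReal (nq (H n.nf u) (n.pb b u)) =
      ∫⁻ x in e.χ '' {u | u.re < -s1}, ENNReal.ofReal (V.nsq b x) := by
  rw [e.lintegral_strip h01]
  refine setLIntegral_congr_fun (EndMap.measurableSet_strip s1) fun u hu => ?_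
  have h2 := n.q_pb b (u := u) (lt_of_lt_of_le hu.1 (by linarith))
  have h3 : nq (H n.nf u) (n.pb b u) = n.nf.q u (n.pb b u) := rfl
  rw [h3, h2, ENNReal.ofReal_mul (by positivity)]

include n in
/-- **(I3) at one end** -/
theorem exactOn_end {s1 : ℝ} (h01 : s0 < s1) (h1 : 0 < s1) {a b : ℂ → Fin N → ℂ}
    (ha : SmE V e a) (hb : SmE V e b)
    (hcl : ∀ u : ℂ, u.re < -s0 → V.d2 a (e.χ u) = V.d1 b (e.χ u))
    (hia : ∫⁻ x in e.χ '' {u | u.re < -s1}, ENNReal.ofReal (V.nsq a x) < ⊤)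
    (hib : ∫⁻ x in e.χ '' {u | u.re < -s1}, ENNReal.ofReal (V.nsq b x) < ⊤) :
    V.ExactOn (e.χ '' {u | u.re < -s0}) a b := by
  set Hp : Set ℂ := {u : ℂ | u.re < -s0} with hHp
  have hopen : IsOpen Hp := EndMap.isOpen_half s0
  have hconv : Convex ℝ Hp := EndMap.convex_half s0
  obtain ⟨φ, hφs, hφd⟩ := primitive hopen hconv (contDiffOn_pa n ha) (contDiffOn_pb n hb)
    (fun u hu => pull_closed n ha hb hu (hcl u hu))
  -- the period is constant
  have hcomp : ∀ u ∈ Hp, HasFDerivAt (fun u => φ (u + 2 * Real.pi * Complex.I))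
      (om (n.pa a (u + 2 * Real.pi * Complex.I)) (n.pb b (u + 2 * Real.pi * Complex.I))) u := by
    intro u hu
    have h2 := hφd (u + 2 * Real.pi * Complex.I) (by
      show (u + 2 * Real.pi * Complex.I).re < -s0
      rw [EndMap.re_add]; exact hu)
    exact (hasFDerivAt_comp_add_right (2 * Real.pi * Complex.I)).2 h2
  let L : (Fin N → ℂ) →L[ℝ] (Fin N → ℂ) :=
    LinearMap.toContinuousLinearMap ((Matrix.mulVecLin (cm n.nf.T)).restrictScalars ℝ)
  have hL : ∀ v, L v = cm n.nf.T *ᵥ v := fun v => rfl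
  have hdiff : ∀ u ∈ Hp, HasFDerivAt (fun u => φ (u + 2 * Real.pi * Complex.I) - L (φ u))
      (0 : ℂ →L[ℝ] (Fin N → ℂ)) u := by
    intro u hu
    have h2 := (hcomp u hu).sub (L.hasFDerivAt.comp u (hφd u hu))
    refine h2.congr_fderiv ?_
    refine ContinuousLinearMap.ext fun v => ?_
    rw [_root_.sub_apply, ContinuousLinearMap.comp_apply, om_eq, om_eq, hL,
      pa_per n a hu, pb_per n b hu, Matrix.mulVec_add, Matrix.mulVec_smul, Matrix.mulVec_smul,
      sub_self]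
    rfl
  set u0 : ℂ := ((-s0 - 1 : ℝ) : ℂ) with hu0
  have hu0m : u0 ∈ Hp := by
    show u0.re < -s0
    rw [hu0, Complex.ofReal_re]; linarith
  set c : Fin N → ℂ := φ (u0 + 2 * Real.pi * Complex.I) - L (φ u0) with hc
  have hconst : ∀ u ∈ Hp, φ (u + 2 * Real.pi * Complex.I) - L (φ u) = c := by
    intro u hu
    exact hopen.is_const_of_fderiv_eq_zero hconv.isPreconnected
      (fun y hy => (hdiff y hy).differentiableAt.differentiableWithinAt)
      (fun y hy => (hdiff y hy).fderiv) hu hu0m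
  have hper : ∀ u : ℂ, u.re < -s0 → φ (u + 2 * Real.pi * Complex.I) = cm n.nf.T *ᵥ φ u + c := by
    intro u hu
    rw [← hconst u hu, hL]; abel
  -- the L2 bound
  have hfd : ∀ u ∈ Hp, fderiv ℝ φ u Complex.I = Complex.I • (n.pa a u - n.pb b u) := by
    intro u hu
    rw [(hφd u hu).fderiv, om_I]
  have hsub : ∀ u ∈ EndMap.strip s1, u ∈ Hp := by
    intro u hu
    have h2 : u.re < -s1 := hu.1
    show u.re < -s0
    linarith
  have hcont : ContinuousOn (fun u => Complex.I • (n.pa a u - n.pb b u)) Hp :=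
    ((contDiffOn_pa n ha).continuousOn.sub (contDiffOn_pb n hb).continuousOn).const_smul Complex.I
  have hcf : ContinuousOn (fun u => fderiv ℝ φ u Complex.I) Hp := hcont.congr hfd
  have hL2 : ∫⁻ u in EndMap.strip s1, ENNReal.ofReal (nq (H n.nf u) (fderiv ℝ φ u Complex.I)) <
      ⊤ := by
    have hle : ∀ u ∈ EndMap.strip s1,
        ENNReal.ofReal (nq (H n.nf u) (fderiv ℝ φ u Complex.I)) ≤
          2 * ENNReal.ofReal (nq (H n.nf u) (n.pa a u)) +
            2 * ENNReal.ofReal (nq (H n.nf u) (n.pb b u)) := by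
      intro u hu
      have hK := H_posDef n.nf (hsub u hu)
      rw [hfd u (hsub u hu), EndC_659.nq_smul, Complex.norm_I, one_pow, one_mul]
      have h2 : (2 : ℝ≥0∞) = ENNReal.ofReal 2 := by simp
      rw [h2, ← ENNReal.ofReal_mul (by norm_num), ← ENNReal.ofReal_mul (by norm_num),
        ← ENNReal.ofReal_add (by have := nq_nonneg hK (n.pa a u); positivity)
          (by have := nq_nonneg hK (n.pb b u); positivity)]
      exact ENNReal.ofReal_le_ofReal (nq_sub_le hK _ _)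
    refine (setLIntegral_mono' (EndMap.measurableSet_strip s1) hle).trans_lt ?_
    have hma := aem_nq n.nf h01.le (contDiffOn_pa n ha).continuousOn
    have hmb := aem_nq n.nf h01.le (contDiffOn_pb n hb).continuousOn
    rw [lintegral_add_left' (hma.const_mul 2), lintegral_const_mul'' _ hma,
      lintegral_const_mul'' _ hmb, lint_pa n h01.le, lint_pb n h01.le]
    exact ENNReal.add_lt_top.2 ⟨ENNReal.mul_lt_top (by simp) hia,
      ENNReal.mul_lt_top (by simp) hib⟩
  rw [EndMap.lintegral_strip_prod s1 (aem_nq n.nf h01.le hcf)] at hL2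
  obtain ⟨v, hv⟩ := EndF_659.par n.nf h01 h1 (hφs.of_le (by exact_mod_cast le_top)) hper hL2
  refine n.exactOn le_rfl (ψ := fun u => φ u + v) ?_ ?_ ?_ ?_
  · intro u hu
    exact (hφs.contDiffAt (hopen.mem_nhds hu)).add contDiffAt_const
  · intro u hu
    show φ (u + 2 * Real.pi * Complex.I) + v = cm n.nf.T *ᵥ (φ u + v)
    rw [hper u hu, hv, Matrix.mulVec_add]; abel
  · intro u hu
    exact wz_of ((hφd u hu).add_const v)
  · intro u hu
    exact wb_of ((hφd u hu).add_const v)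

end ends

section main

variable {A : Finset ℂ} {N w : ℕ} (V : PVHS A N w)

/-- **(I3)**: a closed smooth `L²` one-form is parabolic -/
theorem par_of_lintegral {a b : ℂ → Fin N → ℂ} (ha : V.Sm a) (hb : V.Sm b) (hcl : V.Closed a b)
    (hia : ∫⁻ x in (A : Set ℂ)ᶜ, ENNReal.ofReal (V.nsq a x) < ⊤)
    (hib : ∫⁻ x in (A : Set ℂ)ᶜ, ENNReal.ofReal (V.nsq b x) < ⊤) : V.Par a b := by
  have key : ∀ (s0 : ℝ) (e : EndMap A s0), V.ExactOn (e.χ '' {u | u.re < -s0}) a b := by
    intro s0 e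
    obtain ⟨n⟩ := exists_nf V e
    have h01 : s0 < max s0 0 + 1 := by have := le_max_left s0 0; linarith
    have h1 : 0 < max s0 0 + 1 := by have := le_max_right s0 0; linarith
    have hsub := image_sub (e := e) h01.le
    exact exactOn_end n h01 h1 (SmE.of ha) (SmE.of hb) (fun u hu => hcl _ (e.avoid u hu))
      ((lintegral_mono_set hsub).trans_lt hia) ((lintegral_mono_set hsub).trans_lt hib)
  constructor
  · intro p hp
    obtain ⟨s0, hs0⟩ := EndMap.exists_punct A p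
    obtain ⟨φ, hφ⟩ := key s0 (EndMap.punct A p s0 hs0)
    refine ⟨Metric.ball p (Real.exp (-s0)), Metric.ball_mem_nhds p (Real.exp_pos _), φ, ?_⟩
    intro z hz hzA
    apply hφ z ?_ hzA
    rw [EndMap.punct_image]
    refine ⟨?_, by rwa [← dist_eq_norm]⟩
    rw [norm_pos_iff, sub_ne_zero]
    rintro rfl
    exact hzA hp
  · obtain ⟨s0, hs0⟩ := EndMap.exists_infty A
    have h2 := key s0 (EndMap.infty A s0 hs0)
    rw [EndMap.infty_image] at h2
    exact ⟨Real.exp s0, h2⟩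

theorem par_of_L2 {a b : ℂ → Fin N → ℂ} (ha : V.Sm a) (hb : V.Sm b) (hcl : V.Closed a b)
    (hia : IntegrableOn (V.nsq a) (A : Set ℂ)ᶜ) (hib : IntegrableOn (V.nsq b) (A : Set ℂ)ᶜ) :
    V.Par a b :=
  par_of_lintegral V ha hb hcl (Integrable.lintegral_lt_top hia) (Integrable.lintegral_lt_top hib)

end main

end Crest.Agent.R276.EndP_659
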