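import Mathlib
import Crest.Agent.R276.RelC_870
import Crest.Agent.R276.EndInd_870
import Crest.Agent.R276.SkelDefs_220
import Crest.Agent.R273.OTA_34

/-!
# Row 276 (helper870): slice half of the endgame (ENDS)

From the inputs `C1 … C4`, `Flat`, `CJ`, `CInd`, `CNz` of `SkelDefs_220` (on one generic fibre of
`M_K → M_T`): all fields of 723's `EndData` which do not concern the weight alone.
-/

set_option autoImplicit false
set_option linter.unusedSectionVars false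

open Topology Filter Set MeasureTheory
open scoped ENNReal

noncomputable section

namespace Crest.Agent.R276.EndS_870

open Crest.Agent.R271 Crest.Agent.R271.Rd692 Crest.Agent.R271.Ho51
open Crest.Agent.R271.Defs710 hiding glue
open Crest.Agent.R276.Mod1_987 Crest.Agent.R276.SkelDefs_220 Crest.Agent.R276.CInd_870
open Crest.Agent.R276.RelB_870 Crest.Agent.R276.TowA_849 Crest.Agent.R276.RelC_870

/-! ### real numbers -/

section real


end real

/-! ### independence -/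

section ind

open MvPolynomial



end ind


/-! ### fibre integrals -/

section fi

variable {L K : Type} [Field L] [Field K] [Algebra ℂ L] [Algebra ℂ K] [Algebra L K]
  [IsScalarTower ℂ L K] {m r : ℕ} {ML : Mdl L m} {MK : Mdl K (m + r)} (H : Rel ML MK)


end fi

section hol

variable {n : ℕ} {A : Type*} [TopologicalSpace A] [RDom n A]






end hol

/-! ### the slice data -/

section main

variable {T L K : Type} [Field T] [Field L] [Field K] [Algebra ℂ T] [Algebra ℂ L] [Algebra ℂ K]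
  [Algebra T L] [Algebra L K] [Algebra T K] [IsScalarTower ℂ T L] [IsScalarTower ℂ L K]
  [IsScalarTower T L K] [IsScalarTower ℂ T K] {ρ a r : ℕ}
  {MT : Mdl T ρ} {ML : Mdl L (ρ + a)} {MK : Mdl K (ρ + a + r)} (H₁ : Rel MT ML) (H₂ : Rel ML MK)

/-- the weight of the endgame -/
def BB (H₂ : Rel ML MK) (b₁ : MK.Pts → ℝ) (b₂ : ML.Pts → ℝ) (σ : ML.B) (k' : ℕ) {e : ℕ}
    (w : Fin (e + 1) → ML.B) (mu a1 x : ℝ) (y : MK.Pts) : ℝ :=
  (b₁ y ^ mu * (b₂ (H₂.f y) * ‖H₂.f y σ‖ ^ (2 / (k' : ℝ)) * Wf w (H₂.f y) ^ x)) ^ (1 / (mu * a1))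

/-- the fields of 723's `EndData` over one fibre, for `R = (tow H₁ H₂).TK` -/
structure SliceOut (B : MK.Pts → ℝ) (d q N₁ e₀ : ℕ) where
  y₀ : (tow H₁ H₂).TK.ML.Pts
  ν : Measure ((tow H₁ H₂).TK.Fib y₀)
  leb : IsLeb ν
  τ : Fin (d + 1) → (tow H₁ H₂).TK.Fib y₀ → ℂ
  w : Fin (q + 1) → (tow H₁ H₂).TK.Fib y₀ → ℂ
  hτ : ∀ i, Ho51.Hol (τ i)
  hw : ∀ j, Ho51.Hol (w j)
  C : ℝ
  le : ∀ i j x, ‖τ i x‖ ^ (2 / N₁ : ℝ) * ‖w j x‖ ^ (2 / e₀ : ℝ) ≤ C * B x.val
  int : ∀ i j, ∫⁻ x, ENNReal.ofReal (‖τ i x‖ ^ (2 / N₁ : ℝ) * ‖w j x‖ ^ (2 / e₀ : ℝ)) ∂ν < ∞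
  ind : ∀ P : MvPolynomial (Fin d ⊕ Fin q) ℂ, P ≠ 0 → ∃ x, τ 0 x ≠ 0 ∧ w 0 x ≠ 0 ∧
    MvPolynomial.eval (Sum.elim (fun i => τ i.succ x / τ 0 x) (fun j => w j.succ x / w 0 x)) P ≠ 0

variable {H₁ H₂}









end main

end Crest.Agent.R276.EndS_870
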