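import Mathlib
import Crest.Agent.R276.Top1_175
import Crest.Agent.R276.IpcDefs_735
import Crest.Agent.R276.Psi_563

-- ▼ part R276/Top3_279
section

/-!
# Row 276, IPC-TOP3 (helper279): cohomology with values in a near-diagonal cocycle

`NDC P` : `P : X → X → G` satisfies `P x y * P y w = P x w` near the diagonal.
`H1 ρ P` : affine near-diagonal cocycles `c x w = c x y + ρ (P x y) (c y w)` modulo
`f x - ρ (P x y) (f y)`, for a representation `ρ : G →* Module.End R M`.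
`mapH` : functoriality for a continuous map together with a change of frames.
-/

set_option autoImplicit false
set_option linter.unusedSectionVars false

noncomputable section

open Set Filter Topology

namespace Crest.Agent.R276.Top3_279

section basic

variable {X : Type*} [TopologicalSpace X] {G : Type*} [Group G]

/-- near-diagonal cocycle with values in a group -/
def NDC (P : X → X → G) : Prop :=
  ∀ z, ∃ U ∈ 𝓝 z, ∀ x ∈ U, ∀ y ∈ U, ∀ w ∈ U, P x y * P y w = P x w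

/-- near-diagonal equality -/
def NDE {α : Type*} (f g : X → X → α) : Prop :=
  ∀ z, ∃ U ∈ 𝓝 z, ∀ x ∈ U, ∀ y ∈ U, f x y = g x y

lemma NDE.refl {α : Type*} (f : X → X → α) : NDE f f :=
  fun _ => ⟨univ, univ_mem, fun _ _ _ _ => rfl⟩

lemma NDE.symm {α : Type*} {f g : X → X → α} (h : NDE f g) : NDE g f := fun z => by
  obtain ⟨U, hU, h⟩ := h z
  exact ⟨U, hU, fun x hx y hy => (h x hx y hy).symm⟩

lemma NDE.trans {α : Type*} {f g k : X → X → α} (h : NDE f g) (h' : NDE g k) : NDE f k := fun z => by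
  obtain ⟨U, hU, h⟩ := h z
  obtain ⟨V, hV, h'⟩ := h' z
  exact ⟨U ∩ V, inter_mem hU hV, fun x hx y hy => (h x hx.1 y hy.1).trans (h' x hx.2 y hy.2)⟩

lemma NDE.map {α β : Type*} {f g : X → X → α} (h : NDE f g) (φ : α → β) :
    NDE (fun x y => φ (f x y)) (fun x y => φ (g x y)) := fun z => by
  obtain ⟨U, hU, h⟩ := h z
  exact ⟨U, hU, fun x hx y hy => congrArg φ (h x hx y hy)⟩

lemma NDE.pull {Y : Type*} [TopologicalSpace Y] {α : Type*} {f g : X → X → α} (h : NDE f g)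
    {k : Y → X} (hk : Continuous k) : NDE (fun x y => f (k x) (k y)) (fun x y => g (k x) (k y)) :=
  fun z => by
    obtain ⟨U, hU, h⟩ := h (k z)
    exact ⟨k ⁻¹' U, hk.continuousAt.preimage_mem_nhds hU, fun x hx y hy => h _ hx _ hy⟩

lemma NDC.diag {P : X → X → G} (hP : NDC P) (x : X) : P x x = 1 := by
  obtain ⟨U, hU, h⟩ := hP x
  have hx := mem_of_mem_nhds hU
  have := h x hx x hx x hx
  simpa using this

lemma NDC.near {P : X → X → G} (hP : NDC P) (z : X) :
    ∃ U ∈ 𝓝 z, (∀ x ∈ U, ∀ y ∈ U, ∀ w ∈ U, P x y * P y w = P x w) ∧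
      ∀ x ∈ U, ∀ y ∈ U, P y x = (P x y)⁻¹ := by
  obtain ⟨U, hU, h⟩ := hP z
  refine ⟨U, hU, h, fun x hx y hy => ?_⟩
  have := h x hx y hy x hx
  rw [hP.diag] at this
  exact eq_inv_of_mul_eq_one_right this

lemma NDC.pull {Y : Type*} [TopologicalSpace Y] {P : X → X → G} (h : NDC P)
    {k : Y → X} (hk : Continuous k) : NDC (fun x y => P (k x) (k y)) :=
  fun z => by
    obtain ⟨U, hU, h⟩ := h (k z)
    exact ⟨k ⁻¹' U, hk.continuousAt.preimage_mem_nhds hU, fun x hx y hy w hw => h _ hx _ hy _ hw⟩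

lemma NDC.congr {P Q : X → X → G} (hP : NDC P) (h : NDE P Q) : NDC Q := fun z => by
  obtain ⟨U, hU, h1⟩ := hP z
  obtain ⟨V, hV, h2⟩ := h z
  refine ⟨U ∩ V, inter_mem hU hV, fun x hx y hy w hw => ?_⟩
  rw [← h2 x hx.2 y hy.2, ← h2 y hy.2 w hw.2, ← h2 x hx.2 w hw.2, h1 x hx.1 y hy.1 w hw.1]

lemma NDC.conj {P : X → X → G} (hP : NDC P) (A : X → G) :
    NDC (fun x y => A x * P x y * (A y)⁻¹) := fun z => by
  obtain ⟨U, hU, h1⟩ := hP z
  refine ⟨U, hU, fun x hx y hy w hw => ?_⟩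
  simp only []
  rw [← h1 x hx y hy w hw]; group

/-- the frames `A` carry `f^* P` (on `Y`) to `P'` -/
def Frame {Y : Type*} [TopologicalSpace Y] (P : X → X → G) (f : Y → X) (A : Y → G)
    (P' : Y → Y → G) : Prop :=
  NDE P' (fun x y => A x * P (f x) (f y) * (A y)⁻¹)

lemma Frame.id (P : X → X → G) : Frame P (fun x => x) (fun _ => 1) P := by
  intro z
  exact ⟨univ, univ_mem, fun x _ y _ => by simp⟩

lemma Frame.pull {Y : Type*} [TopologicalSpace Y] (P : X → X → G) (f : Y → X) :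
    Frame P f (fun _ => 1) (fun x y => P (f x) (f y)) := by
  intro z
  exact ⟨univ, univ_mem, fun x _ y _ => by simp⟩

lemma Frame.comp {Y Z : Type*} [TopologicalSpace Y] [TopologicalSpace Z] {P : X → X → G}
    {f : Y → X} {A : Y → G} {P' : Y → Y → G} (h : Frame P f A P') {g : Z → Y} (hg : Continuous g)
    {B : Z → G} {P'' : Z → Z → G} (h' : Frame P' g B P'') :
    Frame P (fun z => f (g z)) (fun z => B z * A (g z)) P'' := by
  intro z
  obtain ⟨U, hU, h1⟩ := h' z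
  obtain ⟨V, hV, h2⟩ := (NDE.pull h hg) z
  refine ⟨U ∩ V, inter_mem hU hV, fun x hx y hy => ?_⟩
  rw [h1 x hx.1 y hy.1]
  simp only [] at h2 ⊢
  rw [h2 x hx.2 y hy.2]
  group

end basic

section coh

variable {X Y Z : Type*} [TopologicalSpace X] [TopologicalSpace Y] [TopologicalSpace Z]
variable {G : Type*} [Group G] {R : Type*} [CommRing R] {M : Type*} [AddCommGroup M] [Module R M]
variable (ρ : G →* Module.End R M)

/-- near-diagonal affine cocycles -/
def Z1 (P : X → X → G) : Submodule R (X → X → M) where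
  carrier := {c | ∀ z, ∃ U ∈ 𝓝 z, ∀ x ∈ U, ∀ y ∈ U, ∀ w ∈ U, c x w = c x y + ρ (P x y) (c y w)}
  zero_mem' := fun z => ⟨univ, univ_mem, fun x _ y _ w _ => by simp⟩
  add_mem' := by
    intro a b ha hb z
    obtain ⟨U, hU, h1⟩ := ha z
    obtain ⟨V, hV, h2⟩ := hb z
    refine ⟨U ∩ V, inter_mem hU hV, fun x hx y hy w hw => ?_⟩
    simp only [Pi.add_apply, map_add]
    rw [h1 x hx.1 y hy.1 w hw.1, h2 x hx.2 y hy.2 w hw.2]
    abel
  smul_mem' := by
    intro r a ha z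
    obtain ⟨U, hU, h1⟩ := ha z
    refine ⟨U, hU, fun x hx y hy w hw => ?_⟩
    simp only [Pi.smul_apply, map_smul]
    rw [h1 x hx y hy w hw, smul_add]

/-- near-diagonal coboundaries -/
def B1 (P : X → X → G) : Submodule R (X → X → M) where
  carrier := {c | ∃ f : X → M, NDE c (fun x y => f x - ρ (P x y) (f y))}
  zero_mem' := ⟨fun _ => 0, fun z => ⟨univ, univ_mem, fun x _ y _ => by simp⟩⟩
  add_mem' := by
    rintro a b ⟨f, hf⟩ ⟨g, hg⟩
    refine ⟨fun x => f x + g x, fun z => ?_⟩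
    obtain ⟨U, hU, h1⟩ := hf z
    obtain ⟨V, hV, h2⟩ := hg z
    refine ⟨U ∩ V, inter_mem hU hV, fun x hx y hy => ?_⟩
    simp only [Pi.add_apply, map_add] at h1 h2 ⊢
    rw [h1 x hx.1 y hy.1, h2 x hx.2 y hy.2]
    abel
  smul_mem' := by
    rintro r a ⟨f, hf⟩
    refine ⟨fun x => r • f x, fun z => ?_⟩
    obtain ⟨U, hU, h1⟩ := hf z
    refine ⟨U, hU, fun x hx y hy => ?_⟩
    simp only [Pi.smul_apply, map_smul] at h1 ⊢
    rw [h1 x hx y hy, smul_sub]

/-- first cohomology with values in the near-diagonal cocycle `P` -/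
abbrev H1 (P : X → X → G) : Type _ := (Z1 ρ P) ⧸ (B1 ρ P).submoduleOf (Z1 ρ P)

/-- the class of a cocycle -/
def cls {P : X → X → G} (c : X → X → M) (hc : c ∈ Z1 ρ P) : H1 ρ P :=
  Submodule.Quotient.mk ⟨c, hc⟩

lemma cls_surj {P : X → X → G} (h : H1 ρ P) : ∃ c, ∃ hc : c ∈ Z1 ρ P, cls ρ c hc = h := by
  obtain ⟨⟨c, hc⟩, rfl⟩ := Submodule.Quotient.mk_surjective _ h
  exact ⟨c, hc, rfl⟩

lemma cls_eq_iff {P : X → X → G} {c c' : X → X → M} {hc : c ∈ Z1 ρ P} {hc' : c' ∈ Z1 ρ P} :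
    cls ρ c hc = cls ρ c' hc' ↔
      ∃ f : X → M, NDE c (fun x y => c' x y + (f x - ρ (P x y) (f y))) := by
  unfold cls
  rw [Submodule.Quotient.eq]
  constructor
  · rintro ⟨f, hf⟩
    refine ⟨f, fun z => ?_⟩
    obtain ⟨U, hU, h1⟩ := hf z
    refine ⟨U, hU, fun x hx y hy => ?_⟩
    have := h1 x hx y hy
    simp only [Submodule.subtype_apply, Submodule.coe_sub, Pi.sub_apply] at this ⊢
    rw [← this]; abel
  · rintro ⟨f, hf⟩
    refine ⟨f, fun z => ?_⟩
    obtain ⟨U, hU, h1⟩ := hf z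
    refine ⟨U, hU, fun x hx y hy => ?_⟩
    have := h1 x hx y hy
    simp only [Submodule.subtype_apply, Submodule.coe_sub, Pi.sub_apply] at this ⊢
    rw [this]; abel

lemma cls_eq_zero_iff {P : X → X → G} {c : X → X → M} {hc : c ∈ Z1 ρ P} :
    cls ρ c hc = 0 ↔ ∃ f : X → M, NDE c (fun x y => f x - ρ (P x y) (f y)) := by
  have : (0 : H1 ρ P) = cls ρ 0 (Submodule.zero_mem _) := rfl
  rw [this, cls_eq_iff]
  simp

lemma mem_Z1 {P : X → X → G} {c : X → X → M} : c ∈ Z1 ρ P ↔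
    ∀ z, ∃ U ∈ 𝓝 z, ∀ x ∈ U, ∀ y ∈ U, ∀ w ∈ U, c x w = c x y + ρ (P x y) (c y w) := Iff.rfl

lemma mapZ_mem {P : X → X → G} {f : Y → X} (hf : Continuous f) {A : Y → G} {P' : Y → Y → G}
    (h : Frame P f A P') {c : X → X → M} (hc : c ∈ Z1 ρ P) :
    (fun x y => ρ (A x) (c (f x) (f y))) ∈ Z1 ρ P' := by
  rw [mem_Z1] at hc ⊢
  intro z
  obtain ⟨U, hU, h1⟩ := hc (f z)
  obtain ⟨V, hV, h2⟩ := h z
  refine ⟨f ⁻¹' U ∩ V, inter_mem (hf.continuousAt.preimage_mem_nhds hU) hV,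
    fun x hx y hy w hw => ?_⟩
  rw [h1 _ hx.1 _ hy.1 _ hw.1, h2 x hx.2 y hy.2, map_add, ← Module.End.mul_apply, ← map_mul,
    ← Module.End.mul_apply, ← map_mul]
  congr 3
  group

/-- pull back of cocycles with change of frames -/
def mapZ {P : X → X → G} {f : Y → X} (hf : Continuous f) {A : Y → G} {P' : Y → Y → G}
    (h : Frame P f A P') : Z1 ρ P →ₗ[R] Z1 ρ P' where
  toFun c := ⟨fun x y => ρ (A x) (c.1 (f x) (f y)), mapZ_mem ρ hf h c.2⟩
  map_add' := by
    intro a b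
    ext x y
    simp
  map_smul' := by
    intro r a
    ext x y
    simp

/-- functoriality of `H1` for a continuous map with change of frames -/
def mapH {P : X → X → G} {f : Y → X} (hf : Continuous f) {A : Y → G} {P' : Y → Y → G}
    (h : Frame P f A P') : H1 ρ P →ₗ[R] H1 ρ P' :=
  Submodule.mapQ _ _ (mapZ ρ hf h) (by
    rintro ⟨c, hc⟩ ⟨g, hg⟩
    refine ⟨fun x => ρ (A x) (g (f x)), fun z => ?_⟩
    obtain ⟨U, hU, h1⟩ := (hg.pull hf) z
    obtain ⟨V, hV, h2⟩ := h z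
    refine ⟨U ∩ V, inter_mem hU hV, fun x hx y hy => ?_⟩
    have e1 := h1 x hx.1 y hy.1
    simp only [Submodule.subtype_apply] at e1
    simp only [mapZ, LinearMap.coe_mk, AddHom.coe_mk, Submodule.subtype_apply]
    rw [e1, h2 x hx.2 y hy.2, map_sub, ← Module.End.mul_apply, ← map_mul,
      ← Module.End.mul_apply, ← map_mul]
    congr 3
    group)

lemma mapH_cls {P : X → X → G} {f : Y → X} (hf : Continuous f) {A : Y → G} {P' : Y → Y → G}
    (h : Frame P f A P') (c : X → X → M) (hc : c ∈ Z1 ρ P) :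
    mapH ρ hf h (cls ρ c hc) =
      cls ρ (fun x y => ρ (A x) (c (f x) (f y))) (mapZ_mem ρ hf h hc) := rfl



end coh

end Crest.Agent.R276.Top3_279
end
end

-- ▼ part R276/Top3b_279
section

/-!
# Row 276, IPC-TOP3 (helper279), part 2: homotopy invariance, deformation retracts

* `Aff ρ` : the affine group `M ⋊ G`;
* `homotopy_frame`, `homotopy_mapH` : homotopic maps induce the same map on `H1` up to the frames
  `hfr P K x = hlift (P ∘ K) (x, 1)`;
* `DR i` : `i : Y → X` is the inclusion of a strong deformation retract; `res_bijective`.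
-/

set_option autoImplicit false
set_option linter.unusedSectionVars false

noncomputable section

open Set Filter Topology unitInterval

namespace Crest.Agent.R276.Top3_279

open Crest.Agent.R276.Top1_175

section aff

variable {G : Type*} [Group G] {R : Type*} [CommRing R] {M : Type*} [AddCommGroup M] [Module R M]

/-- the affine group `M ⋊ G` -/
@[ext] structure Aff (ρ : G →* Module.End R M) where
  v : M
  g : G

variable {ρ : G →* Module.End R M}

instance : Group (Aff ρ) where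
  mul a b := ⟨a.v + ρ a.g b.v, a.g * b.g⟩
  one := ⟨0, 1⟩
  inv a := ⟨-(ρ a.g⁻¹ a.v), a.g⁻¹⟩
  mul_assoc := by
    intro a b c
    show Aff.mk _ _ = Aff.mk _ _
    congr 1
    · show (a.v + ρ a.g b.v) + ρ (a.g * b.g) c.v = a.v + ρ a.g (b.v + ρ b.g c.v)
      rw [map_mul, Module.End.mul_apply, map_add, add_assoc]
    · exact mul_assoc _ _ _
  one_mul := by
    intro a
    show Aff.mk _ _ = a
    ext
    · show (0 : M) + ρ (1 : G) a.v = a.v
      simp
    · exact one_mul _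
  mul_one := by
    intro a
    show Aff.mk _ _ = a
    ext
    · show a.v + ρ a.g (0 : M) = a.v
      simp
    · exact mul_one _
  inv_mul_cancel := by
    intro a
    show Aff.mk _ _ = Aff.mk _ _
    congr 1
    · show -(ρ a.g⁻¹ a.v) + ρ a.g⁻¹ a.v = 0
      simp
    · exact inv_mul_cancel _

@[simp] lemma Aff.mul_v (a b : Aff ρ) : (a * b).v = a.v + ρ a.g b.v := rfl
@[simp] lemma Aff.mul_g (a b : Aff ρ) : (a * b).g = a.g * b.g := rfl
@[simp] lemma Aff.one_v : (1 : Aff ρ).v = 0 := rfl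
@[simp] lemma Aff.one_g : (1 : Aff ρ).g = 1 := rfl
@[simp] lemma Aff.inv_v (a : Aff ρ) : (a⁻¹).v = -(ρ a.g⁻¹ a.v) := rfl
@[simp] lemma Aff.inv_g (a : Aff ρ) : (a⁻¹).g = a.g⁻¹ := rfl


end aff


section hom

variable {X Y : Type*} [TopologicalSpace X] [TopologicalSpace Y]
variable {G : Type*} [Group G] {R : Type*} [CommRing R] {M : Type*} [AddCommGroup M] [Module R M]
variable (ρ : G →* Module.End R M)

/-- the affine cocycle -/
def aff (P : Y → Y → G) (c : Y → Y → M) (x y : Y) : Aff ρ := ⟨c x y, P x y⟩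

lemma aff_ndc {P : Y → Y → G} (hP : NDC P) {c : Y → Y → M} (hc : c ∈ Z1 ρ P) :
    IsNDC (aff ρ P c) := by
  intro z
  obtain ⟨U, hU, h1⟩ := hP z
  obtain ⟨V, hV, h2⟩ := hc z
  refine ⟨U ∩ V, inter_mem hU hV, fun x hx y hy w hw => ?_⟩
  ext
  · show c x y + ρ (P x y) (c y w) = c x w
    rw [h2 x hx.2 y hy.2 w hw.2]
  · exact h1 x hx.1 y hy.1 w hw.1

/-- frames relating the two ends of the homotopy `K` -/
def hfr (P : Y → Y → G) (K : X × I → Y) (x : X) : G :=
  hlift (fun p q => P (K p) (K q)) (x, 1)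

lemma hfr_const {P : Y → Y → G} (hP : NDC P) {K : X × I → Y} (hK : Continuous K) {x : X}
    (h : ∀ t, K (x, t) = K (x, 0)) : hfr P K x = 1 := by
  have h1 : IsNDC (fun s t : I => P (K (x, s)) (K (x, t))) :=
    isNDC_slice (c := fun p q => P (K p) (K q)) (hP.pull hK) x
  have h2 : (fun _ : I => (1 : G)) = lift (fun s t : I => P (K (x, s)) (K (x, t))) := by
    refine lift_unique h1 rfl fun z => ⟨univ, univ_mem, fun s _ t _ => ?_⟩
    simp only [h s, h t, hP.diag]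
    simp
  show lift (fun s t : I => P (K (x, s)) (K (x, t))) 1 = 1
  rw [← h2]

theorem homotopy_frame {P : Y → Y → G} (hP : NDC P) {K : X × I → Y} (hK : Continuous K) :
    Frame P (fun x => K (x, 0)) (hfr P K) (fun x y => P (K (x, 1)) (K (y, 1))) := by
  have h1 : IsNDC (fun p q : X × I => P (K p) (K q)) := hP.pull hK
  have h2 := h1.homotopy
  intro z
  obtain ⟨U, hU, h⟩ := h2 (z, 1)
  have hc : Continuous (fun x : X => (x, (1 : I))) := by fun_prop
  refine ⟨(fun x => (x, (1 : I))) ⁻¹' U, hc.continuousAt.preimage_mem_nhds hU, fun x hx y hy => ?_⟩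
  exact h (x, 1) hx (y, 1) hy

/-- homotopic maps induce the same map in cohomology, up to the frames `hfr P K` -/
theorem homotopy_mapH {P : Y → Y → G} (hP : NDC P) {K : X × I → Y} (hK : Continuous K)
    (hK0 : Continuous fun x => K (x, 0)) (hK1 : Continuous fun x => K (x, 1)) (a : H1 ρ P) :
    mapH ρ hK1 (Frame.pull P (fun x => K (x, 1))) a =
      mapH ρ hK0 (homotopy_frame hP hK) a := by
  obtain ⟨c, hc, rfl⟩ := cls_surj ρ a
  rw [mapH_cls, mapH_cls, cls_eq_iff]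
  have h1 : IsNDC (fun p q : X × I => aff ρ P c (K p) (K q)) := (aff_ndc ρ hP hc).comp hK
  have h2 := h1.homotopy
  set L : X × I → Aff ρ := hlift (fun p q : X × I => aff ρ P c (K p) (K q)) with hL
  have hLg : ∀ x : X, (L (x, 1)).g = hfr P K x := by
    intro x
    have e1 : IsNDC (fun s t : I => aff ρ P c (K (x, s)) (K (x, t))) :=
      isNDC_slice (c := fun p q => aff ρ P c (K p) (K q)) h1 x
    have e2 : IsNDC (fun s t : I => P (K (x, s)) (K (x, t))) :=
      isNDC_slice (c := fun p q => P (K p) (K q)) (hP.pull hK) x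
    have e3 := lift_triv e1
    have e4 : (fun s => (lift (fun s t : I => aff ρ P c (K (x, s)) (K (x, t))) s).g) =
        lift (fun s t : I => P (K (x, s)) (K (x, t))) := by
      refine lift_unique e2 ?_ fun z => ?_
      · show (lift (fun s t : I => aff ρ P c (K (x, s)) (K (x, t))) 0).g = 1
        rw [lift_zero e1]; rfl
      · obtain ⟨U, hU, h⟩ := e3 z
        refine ⟨U, hU, fun s hs t ht => ?_⟩
        have := congrArg Aff.g (h s hs t ht)
        exact this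
    exact congrFun e4 1
  refine ⟨fun x => (L (x, 1)).v, fun z => ?_⟩
  obtain ⟨U, hU, h⟩ := h2 (z, 1)
  have hc1 : Continuous (fun x : X => (x, (1 : I))) := by fun_prop
  refine ⟨(fun x => (x, (1 : I))) ⁻¹' U, hc1.continuousAt.preimage_mem_nhds hU,
    fun x hx y hy => ?_⟩
  have h3 := h (x, 1) hx (y, 1) hy
  have hv := congrArg Aff.v h3
  have hg := congrArg Aff.g h3
  simp only [aff, Aff.mul_v, Aff.mul_g, Aff.inv_v, Aff.inv_g] at hv hg
  simp only [map_one, Module.End.one_apply]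
  rw [hv, ← hLg x]
  simp only [map_neg, ← Module.End.mul_apply, ← map_mul]
  have e5 : (L (x, 1)).g * P (K (x, 0)) (K (y, 0)) * (L (y, 1)).g⁻¹ = P (K (x, 1)) (K (y, 1)) :=
    hg.symm
  rw [e5]
  abel


end hom

section dr

variable {X Y : Type*} [TopologicalSpace X] [TopologicalSpace Y]
variable {G : Type*} [Group G] {R : Type*} [CommRing R] {M : Type*} [AddCommGroup M] [Module R M]
variable (ρ : G →* Module.End R M)

/-- data of a strong deformation retraction of `X` on `i : Y → X` -/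
structure DR (i : Y → X) where
  r : X → Y
  K : X × I → X
  hr : Continuous r
  hK : Continuous K
  ri : ∀ y, r (i y) = y
  K0 : ∀ x, K (x, 0) = i (r x)
  K1 : ∀ x, K (x, 1) = x
  Ki : ∀ y t, K (i y, t) = i y

variable {i : Y → X} (hi : Continuous i) (D : DR i) {P : X → X → G} (hP : NDC P)

include hP in
lemma DR.frame : Frame (fun x y => P (i x) (i y)) D.r (hfr P D.K) P := by
  have h := homotopy_frame hP D.hK
  simp only [D.K0, D.K1] at h
  exact h

/-- restriction along `i` -/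
def res : H1 ρ P →ₗ[R] H1 ρ (fun x y => P (i x) (i y)) := mapH ρ hi (Frame.pull P i)

/-- inverse of the restriction -/
def DR.ext : H1 ρ (fun x y => P (i x) (i y)) →ₗ[R] H1 ρ P := mapH ρ D.hr (D.frame hP)

include hP in
lemma DR.hfr_i (y : Y) : hfr P D.K (i y) = 1 :=
  hfr_const hP D.hK (fun t => by rw [D.Ki, D.Ki])

lemma DR.res_ext (b : H1 ρ (fun x y => P (i x) (i y))) : res ρ hi (D.ext ρ hP b) = b := by
  obtain ⟨c, hc, rfl⟩ := cls_surj ρ b
  unfold res DR.ext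
  rw [mapH_cls, mapH_cls, cls_eq_iff]
  refine ⟨0, fun z => ⟨univ, univ_mem, fun x _ y _ => ?_⟩⟩
  simp [D.ri, D.hfr_i hP]

lemma DR.ext_res (a : H1 ρ P) : D.ext ρ hP (res ρ hi a) = a := by
  have hK0 : Continuous fun x => D.K (x, 0) := by simp only [D.K0]; exact hi.comp D.hr
  have hK1 : Continuous fun x => D.K (x, 1) := by simp only [D.K1]; exact continuous_id
  have h := homotopy_mapH ρ hP D.hK hK0 hK1 a
  obtain ⟨c, hc, rfl⟩ := cls_surj ρ a
  unfold res DR.ext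
  rw [mapH_cls, mapH_cls] at h ⊢
  rw [cls_eq_iff] at h ⊢
  obtain ⟨f, hf⟩ := h
  refine ⟨fun x => - f x, fun z => ?_⟩
  obtain ⟨U, hU, h1⟩ := hf z
  refine ⟨U, hU, fun x hx y hy => ?_⟩
  have := h1 x hx y hy
  simp only [D.K0, D.K1, map_one, Module.End.one_apply, map_neg] at this ⊢
  rw [this]; abel

/-- restriction to a deformation retract is an isomorphism -/
def DR.equiv : H1 ρ P ≃ₗ[R] H1 ρ (fun x y => P (i x) (i y)) :=
  LinearEquiv.ofLinearMap (res ρ hi) (D.ext ρ hP)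
    (LinearMap.ext fun b => D.res_ext ρ hi hP b) (LinearMap.ext fun a => D.ext_res ρ hi hP a)

end dr

end Crest.Agent.R276.Top3_279
end
end

-- ▼ part R276/Top3c_279
section

/-!
# Row 276, IPC-TOP3 (helper279), part 3: families of punctured planes over a Riemann domain

* `Sheet B` : open, `cp` injective on `B`, `cp '' B` convex; intersections of sheets are sheets.
* `Loc Q s₀ B` : topological trivialisation `(s, x) ↦ (s, Ψ s x)` of the family over `B`.
* `Loc.dr` : the fibre over `s₀` is a deformation retract of the total space over `B`.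
-/

set_option autoImplicit false
set_option linter.unusedSectionVars false

noncomputable section

open Set Filter Topology unitInterval

namespace Crest.Agent.R276.Top3_279

open Crest.Agent.R271.Ho51 Crest.Agent.R276.Ipc735

section sheet

variable {m : ℕ} {S : Type*} [TopologicalSpace S] [RDom m S]

/-- open set which `cp` maps bijectively onto a convex set -/
structure Sheet (B : Set S) : Prop where
  isOpen : IsOpen B
  inj : InjOn (cp : S → (Fin m → ℂ)) B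
  conv : Convex ℝ ((cp : S → (Fin m → ℂ)) '' B)

/-- the section of `cp` over a sheet -/
def sect (B : Set S) (h : B.Nonempty) (z : Fin m → ℂ) : S :=
  haveI : Nonempty S := ⟨h.some⟩
  Function.invFunOn (cp : S → (Fin m → ℂ)) B z

variable {B : Set S}

lemma sect_mem (h : B.Nonempty) {z : Fin m → ℂ} (hz : z ∈ (cp : S → (Fin m → ℂ)) '' B) :
    sect B h z ∈ B := by
  have : Nonempty S := ⟨h.some⟩
  exact Function.invFunOn_mem hz

lemma cp_sect (h : B.Nonempty) {z : Fin m → ℂ} (hz : z ∈ (cp : S → (Fin m → ℂ)) '' B) :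
    cp (sect B h z) = z := by
  have : Nonempty S := ⟨h.some⟩
  exact Function.invFunOn_eq hz

lemma Sheet.sect_cp (hB : Sheet B) (h : B.Nonempty) {s : S} (hs : s ∈ B) :
    sect B h (cp s) = s :=
  hB.inj (sect_mem h (mem_image_of_mem _ hs)) hs (cp_sect h (mem_image_of_mem _ hs))

lemma Sheet.continuousOn_sect (hB : Sheet B) (h : B.Nonempty) :
    ContinuousOn (sect B h) ((cp : S → (Fin m → ℂ)) '' B) := by
  rintro z ⟨s, hs, rfl⟩
  have hopen : IsOpenMap (cp : S → (Fin m → ℂ)) := cp_lh.isOpenMap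
  rw [ContinuousWithinAt, hB.sect_cp h hs]
  intro U hU
  have h1 : U ∩ B ∈ 𝓝 s := inter_mem hU (hB.isOpen.mem_nhds hs)
  have h2 : (cp : S → (Fin m → ℂ)) '' (U ∩ B) ∈ 𝓝 (cp s) := hopen.image_mem_nhds h1
  refine mem_map.2 (mem_of_superset (mem_nhdsWithin_of_mem_nhds h2) ?_)
  rintro _ ⟨t, ⟨htU, htB⟩, rfl⟩
  show sect B h (cp t) ∈ U
  rw [hB.sect_cp h htB]
  exact htU

lemma Sheet.inter [T2Space S] {B₁ B₂ : Set S} (h₁ : Sheet B₁) (h₂ : Sheet B₂) :
    Sheet (B₁ ∩ B₂) := by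
  refine ⟨h₁.isOpen.inter h₂.isOpen, h₁.inj.mono inter_subset_left, ?_⟩
  rw [convex_iff_segment_subset]
  rintro _ ⟨u, ⟨hu1, hu2⟩, rfl⟩ _ ⟨v, ⟨hv1, hv2⟩, rfl⟩ z hz
  have hseg1 : segment ℝ (cp u) (cp v) ⊆ (cp : S → (Fin m → ℂ)) '' B₁ :=
    h₁.conv.segment_subset (mem_image_of_mem _ hu1) (mem_image_of_mem _ hv1)
  have hseg2 : segment ℝ (cp u) (cp v) ⊆ (cp : S → (Fin m → ℂ)) '' B₂ :=
    h₂.conv.segment_subset (mem_image_of_mem _ hu2) (mem_image_of_mem _ hv2)
  have hne1 : B₁.Nonempty := ⟨u, hu1⟩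
  have hne2 : B₂.Nonempty := ⟨u, hu2⟩
  have hpre : IsPreconnected (segment ℝ (cp u : Fin m → ℂ) (cp v)) :=
    (convex_segment _ _).isPreconnected
  -- the set where the two sections agree
  have hc1 : ContinuousOn (sect B₁ hne1) (segment ℝ (cp u) (cp v)) :=
    (h₁.continuousOn_sect hne1).mono hseg1
  have hc2 : ContinuousOn (sect B₂ hne2) (segment ℝ (cp u) (cp v)) :=
    (h₂.continuousOn_sect hne2).mono hseg2
  have key : ∀ w ∈ segment ℝ (cp u : Fin m → ℂ) (cp v), sect B₁ hne1 w = sect B₂ hne2 w := by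
    have : PreconnectedSpace (segment ℝ (cp u : Fin m → ℂ) (cp v)) :=
      isPreconnected_iff_preconnectedSpace.1 hpre
    let f : segment ℝ (cp u : Fin m → ℂ) (cp v) → S := fun w => sect B₁ hne1 w
    let g : segment ℝ (cp u : Fin m → ℂ) (cp v) → S := fun w => sect B₂ hne2 w
    have hf : Continuous f := continuousOn_iff_continuous_domRestrict.1 hc1
    have hg : Continuous g := continuousOn_iff_continuous_domRestrict.1 hc2
    have hclosed : IsClosed {w | f w = g w} := isClosed_eq hf hg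
    have hopen : IsOpen {w | f w = g w} := by
      rw [isOpen_iff_mem_nhds]
      intro w hw
      have hw' : f w = g w := hw
      have hm1 : f w ∈ B₁ := sect_mem hne1 (hseg1 w.2)
      have hm2 : f w ∈ B₂ := by rw [hw']; exact sect_mem hne2 (hseg2 w.2)
      have e1 : f ⁻¹' B₂ ∈ 𝓝 w := hf.continuousAt.preimage_mem_nhds (h₂.isOpen.mem_nhds hm2)
      filter_upwards [e1] with y hy
      have h3 : cp (f y) = cp (g y) := by
        rw [show f y = sect B₁ hne1 y from rfl, show g y = sect B₂ hne2 y from rfl,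
          cp_sect hne1 (hseg1 y.2), cp_sect hne2 (hseg2 y.2)]
      exact h₂.inj hy (sect_mem hne2 (hseg2 y.2)) h3
    have hmem : (⟨cp u, left_mem_segment ℝ _ _⟩ : segment ℝ (cp u : Fin m → ℂ) (cp v)) ∈
        {w | f w = g w} := by
      show sect B₁ hne1 (cp u) = sect B₂ hne2 (cp u)
      rw [h₁.sect_cp hne1 hu1, h₂.sect_cp hne2 hu2]
    have huniv := IsClopen.eq_univ ⟨hclosed, hopen⟩ ⟨_, hmem⟩
    intro w hw
    have : (⟨w, hw⟩ : segment ℝ (cp u : Fin m → ℂ) (cp v)) ∈ {w | f w = g w} := by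
      rw [huniv]; trivial
    exact this
  have hz1 := hseg1 hz
  refine ⟨sect B₁ hne1 z, ⟨sect_mem hne1 hz1, ?_⟩, cp_sect hne1 hz1⟩
  rw [key z hz]
  exact sect_mem hne2 (hseg2 hz)

/-- the linear contraction of a sheet to `s` -/
def kap (B : Set S) (h : B.Nonempty) (s b : S) (t : I) : S :=
  sect B h (AffineMap.lineMap (cp s) (cp b) (t : ℝ))

lemma Sheet.line_mem (hB : Sheet B) {s b : S} (hs : s ∈ B) (hb : b ∈ B) (t : I) :
    (AffineMap.lineMap (cp s) (cp b) (t : ℝ) : Fin m → ℂ) ∈ (cp : S → (Fin m → ℂ)) '' B :=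
  hB.conv.segment_subset (mem_image_of_mem _ hs) (mem_image_of_mem _ hb)
    (by rw [segment_eq_image_lineMap]; exact ⟨t, t.2, rfl⟩)

lemma Sheet.kap_mem (hB : Sheet B) (h : B.Nonempty) {s b : S} (hs : s ∈ B) (hb : b ∈ B) (t : I) :
    kap B h s b t ∈ B := sect_mem h (hB.line_mem hs hb t)

lemma Sheet.kap_zero (hB : Sheet B) (h : B.Nonempty) {s : S} (hs : s ∈ B) (b : S) :
    kap B h s b 0 = s := by
  simp [kap, hB.sect_cp h hs]

lemma Sheet.kap_one (hB : Sheet B) (h : B.Nonempty) {b : S} (hb : b ∈ B) (s : S) :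
    kap B h s b 1 = b := by
  simp [kap, hB.sect_cp h hb]

lemma Sheet.kap_self (hB : Sheet B) (h : B.Nonempty) {s : S} (hs : s ∈ B) (t : I) :
    kap B h s s t = s := by
  simp [kap, hB.sect_cp h hs]

lemma Sheet.continuous_kap (hB : Sheet B) (h : B.Nonempty) {s : S} (hs : s ∈ B) {X : Type*}
    [TopologicalSpace X] {b : X → S} (hb : Continuous b) (hbB : ∀ x, b x ∈ B) {t : X → I}
    (ht : Continuous t) : Continuous fun x => kap B h s (b x) (t x) := by
  have h1 : Continuous fun x => (AffineMap.lineMap (cp s) (cp (b x)) (t x : ℝ) : Fin m → ℂ) := by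
    simp only [AffineMap.lineMap_apply_module]
    have := cp_cont.comp hb
    fun_prop
  exact (hB.continuousOn_sect h).comp_continuous h1 (fun x => hB.line_mem hs (hbB x) (t x))

/-- small sheets -/
lemma exists_sheet (s : S) {N : Set S} (hN : N ∈ 𝓝 s) : ∃ B, Sheet B ∧ s ∈ B ∧ B ⊆ N := by
  obtain ⟨V, hVN, hVo, hsV⟩ := mem_nhds_iff.1 hN
  have hV : V ∩ (ch s).source ∈ 𝓝 s := inter_mem (hVo.mem_nhds hsV)
    ((ch s).open_source.mem_nhds (mem_ch s))
  have hopen : IsOpenMap (cp : S → (Fin m → ℂ)) := cp_lh.isOpenMap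
  have h2 : (cp : S → (Fin m → ℂ)) '' (V ∩ (ch s).source) ∈ 𝓝 (cp s) := hopen.image_mem_nhds hV
  obtain ⟨r, hr, hball⟩ := Metric.mem_nhds_iff.1 h2
  refine ⟨(V ∩ (ch s).source) ∩ cp ⁻¹' Metric.ball (cp s) r, ⟨?_, ?_, ?_⟩, ?_, ?_⟩
  · exact (hVo.inter (ch s).open_source).inter (Metric.isOpen_ball.preimage cp_cont)
  · exact (isCh_ch s).injOn.mono (fun x hx => hx.1.2)
  · have : (cp : S → (Fin m → ℂ)) '' ((V ∩ (ch s).source) ∩ cp ⁻¹' Metric.ball (cp s) r) =
        Metric.ball (cp s) r := by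
      ext z
      constructor
      · rintro ⟨x, ⟨_, hx⟩, rfl⟩; exact hx
      · intro hz
        obtain ⟨x, hx, rfl⟩ := hball hz
        exact ⟨x, ⟨hx, hz⟩, rfl⟩
    rw [this]; exact convex_ball _ _
  · exact ⟨⟨hsV, mem_ch s⟩, Metric.mem_ball_self hr⟩
  · exact fun x hx => hVN hx.1.1

end sheet

section loc

variable {m : ℕ} {S : Type*} [TopologicalSpace S] [RDom m S] {k : ℕ} (Q : Punc S k)

/-- the fibre over `s` -/
abbrev Fib (s : S) : Type := {x : ℂ // x ∉ Q.A s}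

variable {Q} in
/-- base point -/
def bs (q : Tot Q) : S := q.1.1

variable {Q} in
/-- fibre coordinate -/
def fc (q : Tot Q) : ℂ := q.1.2

variable {Q} in
lemma fc_notMem (q : Tot Q) : fc q ∉ Q.A (bs q) := q.2

@[simp] lemma bs_mk (s : S) (x : ℂ) (h : x ∉ Q.A s) : bs (Tot.mk Q s x h) = s := rfl
@[simp] lemma fc_mk (s : S) (x : ℂ) (h : x ∉ Q.A s) : fc (Tot.mk Q s x h) = x := rfl

variable {Q} in
lemma tot_ext {q q' : Tot Q} (h1 : bs q = bs q') (h2 : fc q = fc q') : q = q' :=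
  Subtype.ext (Prod.ext h1 h2)

@[simp] lemma mk_bs_fc (q : Tot Q) : Tot.mk Q (bs q) (fc q) (fc_notMem q) = q := rfl

lemma continuous_bs : Continuous (bs : Tot Q → S) :=
  continuous_fst.comp (continuous_subtype_val (p := fun q : S × ℂ => q.2 ∉ Q.A q.1))

lemma continuous_fc : Continuous (fc : Tot Q → ℂ) :=
  continuous_snd.comp (continuous_subtype_val (p := fun q : S × ℂ => q.2 ∉ Q.A q.1))

lemma continuous_mk {X : Type*} [TopologicalSpace X] {b : X → S} {x : X → ℂ} (hb : Continuous b)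
    (hx : Continuous x) (h : ∀ t, x t ∉ Q.A (b t)) :
    Continuous fun t => Tot.mk Q (b t) (x t) (h t) :=
  Continuous.subtype_mk (p := fun q : S × ℂ => q.2 ∉ Q.A q.1)
    (f := fun t => (b t, x t)) (hb.prodMk hx) _

/-- the part of the total space over `B` -/
abbrev Over (B : Set S) : Type _ := {q : Tot Q // bs q ∈ B}

/-- the inclusion of a fibre -/
def inc {B : Set S} {s : S} (hs : s ∈ B) (x : Fib Q s) : Over Q B := ⟨Tot.mk Q s x.1 x.2, hs⟩

@[simp] lemma inc_val {B : Set S} {s : S} (hs : s ∈ B) (x : Fib Q s) :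
    (inc Q hs x).1 = Tot.mk Q s x.1 x.2 := rfl

lemma continuous_over {B : Set S} : Continuous (fun q : Over Q B => bs q.1) :=
  (continuous_bs Q).comp continuous_subtype_val

lemma continuous_inc {B : Set S} {s : S} (hs : s ∈ B) : Continuous (inc Q hs) :=
  Continuous.subtype_mk (continuous_mk Q continuous_const continuous_subtype_val (fun x => x.2)) _

variable {Q} in
lemma over_ext {B : Set S} {q q' : Over Q B} (h1 : bs q.1 = bs q'.1) (h2 : fc q.1 = fc q'.1) :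
    q = q' := Subtype.ext (tot_ext h1 h2)

/-- topological trivialisation of the family of punctured planes over `B`, identity over `s₀` -/
structure Loc (s₀ : S) (B : Set S) where
  Ψ : S → ℂ → ℂ
  Φ : S → ℂ → ℂ
  hΨ : ContinuousOn (fun p : S × ℂ => Ψ p.1 p.2) (B ×ˢ univ)
  hΦ : ContinuousOn (fun p : S × ℂ => Φ p.1 p.2) (B ×ˢ univ)
  ΦΨ : ∀ s ∈ B, ∀ x, Φ s (Ψ s x) = x
  ΨΦ : ∀ s ∈ B, ∀ x, Ψ s (Φ s x) = x
  base : ∀ x, Ψ s₀ x = x
  punc : ∀ s ∈ B, ∀ x, Ψ s x ∈ Q.A s ↔ x ∈ Q.A s₀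

variable {Q}

/-- restriction to a smaller set -/
def Loc.mono {s₀ : S} {B B' : Set S} (L : Loc Q s₀ B) (h : B' ⊆ B) : Loc Q s₀ B' where
  Ψ := L.Ψ
  Φ := L.Φ
  hΨ := L.hΨ.mono (prod_mono h subset_rfl)
  hΦ := L.hΦ.mono (prod_mono h subset_rfl)
  ΦΨ := fun s hs x => L.ΦΨ s (h hs) x
  ΨΦ := fun s hs x => L.ΨΦ s (h hs) x
  base := L.base
  punc := fun s hs x => L.punc s (h hs) x

/-- change of the base point -/
def Loc.rebase {s₀ : S} {B : Set S} (L : Loc Q s₀ B) {s : S} (hs : s ∈ B) : Loc Q s B where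
  Ψ := fun b x => L.Ψ b (L.Φ s x)
  Φ := fun b x => L.Ψ s (L.Φ b x)
  hΨ := by
    have h1 : ContinuousOn (fun p : S × ℂ => (p.1, L.Φ s p.2)) (B ×ˢ univ) := by
      refine continuousOn_fst.prodMk ?_
      exact L.hΦ.comp (f := fun p : S × ℂ => (s, p.2)) (by fun_prop) (fun p _ => ⟨hs, trivial⟩)
    exact L.hΨ.comp h1 (fun p hp => ⟨hp.1, trivial⟩)
  hΦ := by
    have h1 : ContinuousOn (fun p : S × ℂ => (s, L.Φ p.1 p.2)) (B ×ˢ univ) :=
      continuousOn_const.prodMk L.hΦ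
    exact L.hΨ.comp h1 (fun p hp => ⟨hs, trivial⟩)
  ΦΨ := fun b hb x => by simp only [L.ΦΨ b hb, L.ΨΦ s hs]
  ΨΦ := fun b hb x => by simp only [L.ΦΨ s hs, L.ΨΦ b hb]
  base := fun x => by simp only [L.ΨΦ s hs]
  punc := fun b hb x => by
    rw [L.punc b hb, ← L.punc s hs, L.ΨΦ s hs]

lemma Loc.Φ_notMem {s₀ : S} {B : Set S} (L : Loc Q s₀ B) {s : S} (hs : s ∈ B) {x : ℂ}
    (hx : x ∉ Q.A s) : L.Φ s x ∉ Q.A s₀ := by
  rw [← L.punc s hs, L.ΨΦ s hs]; exact hx

lemma Loc.Ψ_notMem {s₀ : S} {B : Set S} (L : Loc Q s₀ B) {s : S} (hs : s ∈ B) {x : ℂ}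
    (hx : x ∉ Q.A s₀) : L.Ψ s x ∉ Q.A s := by
  rw [L.punc s hs]; exact hx

/-- retraction of the total space over `B` on the fibre over `s₀` -/
def Loc.ret {s₀ : S} {B : Set S} (L : Loc Q s₀ B) (q : Over Q B) : Fib Q s₀ :=
  ⟨L.Φ (bs q.1) (fc q.1), L.Φ_notMem q.2 (fc_notMem q.1)⟩

lemma Loc.continuous_ret {s₀ : S} {B : Set S} (L : Loc Q s₀ B) : Continuous L.ret := by
  refine Continuous.subtype_mk ?_ _
  refine L.hΦ.comp_continuous (f := fun q : Over Q B => (bs q.1, fc q.1)) ?_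
    (fun q => ⟨q.2, trivial⟩)
  exact (continuous_over Q).prodMk ((continuous_fc Q).comp continuous_subtype_val)

/-- the contraction of the base -/
def Loc.kb (B : Set S) {s₀ : S} (hs : s₀ ∈ B) (p : Over Q B × I) : S :=
  kap B (Set.nonempty_of_mem hs) s₀ (bs p.1.1) p.2

lemma Loc.kb_mem {B : Set S} (hB : Sheet B) {s₀ : S} (hs : s₀ ∈ B) (p : Over Q B × I) :
    Loc.kb (Q := Q) B hs p ∈ B := hB.kap_mem (Set.nonempty_of_mem hs) hs p.1.2 p.2

lemma Loc.continuous_kb {B : Set S} (hB : Sheet B) {s₀ : S} (hs : s₀ ∈ B) :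
    Continuous (Loc.kb (Q := Q) B hs) := by
  refine hB.continuous_kap _ hs ?_ (fun p => p.1.2) continuous_snd
  exact (continuous_over Q).comp continuous_fst

/-- the homotopy -/
def Loc.Kf {s₀ : S} {B : Set S} (L : Loc Q s₀ B) (hB : Sheet B) (hs : s₀ ∈ B)
    (p : Over Q B × I) : Over Q B :=
  ⟨Tot.mk Q (Loc.kb B hs p) (L.Ψ (Loc.kb B hs p) (L.ret p.1).1)
    (L.Ψ_notMem (Loc.kb_mem hB hs p) (L.ret p.1).2), Loc.kb_mem hB hs p⟩

lemma Loc.bs_Kf {s₀ : S} {B : Set S} (L : Loc Q s₀ B) (hB : Sheet B) (hs : s₀ ∈ B)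
    (p : Over Q B × I) : bs (L.Kf hB hs p).1 = Loc.kb B hs p := rfl

lemma Loc.fc_Kf {s₀ : S} {B : Set S} (L : Loc Q s₀ B) (hB : Sheet B) (hs : s₀ ∈ B)
    (p : Over Q B × I) : fc (L.Kf hB hs p).1 = L.Ψ (Loc.kb B hs p) (L.ret p.1).1 := rfl

lemma Loc.ret_val {s₀ : S} {B : Set S} (L : Loc Q s₀ B) (q : Over Q B) :
    (L.ret q).1 = L.Φ (bs q.1) (fc q.1) := rfl

lemma Loc.Φ_base {s₀ : S} {B : Set S} (L : Loc Q s₀ B) (hs : s₀ ∈ B) (x : ℂ) : L.Φ s₀ x = x := by
  rw [← L.base (L.Φ s₀ x), L.ΨΦ s₀ hs]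

/-- the deformation retraction of the total space over a sheet on the fibre over `s₀` -/
def Loc.dr {s₀ : S} {B : Set S} (L : Loc Q s₀ B) (hB : Sheet B) (hs : s₀ ∈ B) :
    DR (inc Q hs) where
  r := L.ret
  K := L.Kf hB hs
  hr := L.continuous_ret
  hK := by
    have h0 := Loc.continuous_kb (Q := Q) hB hs
    have h1 : Continuous fun p : Over Q B × I => L.Ψ (Loc.kb B hs p) (L.ret p.1).1 := by
      refine L.hΨ.comp_continuous (f := fun p : Over Q B × I =>
        (Loc.kb B hs p, (L.ret p.1).1)) ?_ (fun p => ⟨Loc.kb_mem hB hs p, trivial⟩)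
      exact h0.prodMk (continuous_subtype_val.comp (L.continuous_ret.comp continuous_fst))
    exact Continuous.subtype_mk (continuous_mk Q h0 h1
      (fun p => L.Ψ_notMem (Loc.kb_mem hB hs p) (L.ret p.1).2)) (fun p => Loc.kb_mem hB hs p)
  ri := by
    intro y
    apply Subtype.ext
    rw [L.ret_val, inc_val, bs_mk, fc_mk, L.Φ_base hs]
  K0 := by
    intro q
    have h0 : Loc.kb B hs (q, 0) = s₀ := hB.kap_zero _ hs _
    apply over_ext
    · rw [L.bs_Kf, h0]; rfl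
    · rw [L.fc_Kf, h0, L.base]; rfl
  K1 := by
    intro q
    have h0 : Loc.kb B hs (q, 1) = bs q.1 := hB.kap_one _ q.2 _
    apply over_ext
    · rw [L.bs_Kf, h0]
    · rw [L.fc_Kf, h0, L.ret_val, L.ΨΦ _ q.2]
  Ki := by
    intro y t
    have h0 : Loc.kb B hs (inc Q hs y, t) = s₀ := hB.kap_self _ hs _
    apply over_ext
    · rw [L.bs_Kf, h0]; rfl
    · rw [L.fc_Kf, h0, L.base, L.ret_val, inc_val, bs_mk, fc_mk, L.Φ_base hs]

/-- good open sets: sheets over which the family is topologically trivial -/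
structure Good (Q : Punc S k) (B : Set S) : Prop where
  sheet : Sheet B
  loc : ∀ s ∈ B, Nonempty (Loc Q s B)

lemma Good.of_loc {B : Set S} (hB : Sheet B) {s₀ : S} (L : Loc Q s₀ B) : Good Q B :=
  ⟨hB, fun _ h => ⟨L.rebase h⟩⟩

lemma Good.mono {B B' : Set S} (h : Good Q B) (hB' : Sheet B') (hsub : B' ⊆ B) : Good Q B' :=
  ⟨hB', fun s hs => (h.loc s (hsub hs)).map fun L => L.mono hsub⟩

lemma Good.inter [T2Space S] {B₁ B₂ : Set S} (h₁ : Good Q B₁) (h₂ : Good Q B₂) :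
    Good Q (B₁ ∩ B₂) := h₁.mono (h₁.sheet.inter h₂.sheet) inter_subset_left

/-- a deformation retraction of the part of the total space over a good set on a fibre -/
lemma Good.dr {B : Set S} (h : Good Q B) {s : S} (hs : s ∈ B) : Nonempty (DR (inc Q hs)) :=
  (h.loc s hs).map fun L => L.dr h.sheet hs

end loc

end Crest.Agent.R276.Top3_279
end
end

-- ▼ part R276/Top3d_279
section

/-!
# Row 276, IPC-TOP3 (helper279), part 4: the local system `s ↦ H1 (fibre over s)`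

`fP Q P s` : restriction of `P` to the fibre over `s`; `HF`, `HO` : `H1` of a fibre, of the part over `B`.
`tau ρ hP s s' : HF s' → HF s` : restriction to the fibre over `s` of the extension to a good set
(`0` if no good set contains both points).
* `tau_res` : independence of the good set; `tau_self`, `tau_mul`.
* `tau_gauge`, `tau_gauge'` : explicit formulas for a trivialisation and a gauge.
* `tau_natural` : natural operations commute with `tau`.
-/

set_option autoImplicit false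
set_option linter.unusedSectionVars false

noncomputable section

open Set Filter Topology unitInterval

namespace Crest.Agent.R276.Top3_279

open Crest.Agent.R271.Ho51 Crest.Agent.R276.Ipc735

section fam

variable {m : ℕ} {S : Type*} [TopologicalSpace S] [RDom m S] {k : ℕ} {Q : Punc S k}
variable {G : Type*} [Group G] {R : Type*} [CommRing R] {M : Type*} [AddCommGroup M] [Module R M]
variable (ρ : G →* Module.End R M) (P : Tot Q → Tot Q → G)

/-- restriction of `P` to the fibre over `s` -/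
def fP (s : S) (x y : Fib Q s) : G := P (Tot.mk Q s x.1 x.2) (Tot.mk Q s y.1 y.2)

/-- restriction of `P` to the part over `B` -/
def oP (B : Set S) (x y : Over Q B) : G := P x.1 y.1

/-- `H1` of the fibre over `s` -/
abbrev HF (s : S) : Type _ := H1 ρ (fP P s)

/-- `H1` of the part over `B` -/
abbrev HO (B : Set S) : Type _ := H1 ρ (oP P B)

variable {P}

lemma oP_ndc (hP : NDC P) (B : Set S) : NDC (oP P B) := hP.pull continuous_subtype_val

lemma fP_ndc (hP : NDC P) (s : S) : NDC (fP P s) := by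
  have h := (oP_ndc hP univ).pull (continuous_inc Q (mem_univ s))
  exact h

variable (P)

lemma frame_inc {B : Set S} {s : S} (hs : s ∈ B) :
    Frame (oP P B) (inc Q hs) (fun _ => 1) (fP P s) := Frame.pull (oP P B) (inc Q hs)

/-- restriction to a fibre -/
def resF {B : Set S} {s : S} (hs : s ∈ B) : HO ρ P B →ₗ[R] HF ρ P s :=
  mapH ρ (continuous_inc Q hs) (frame_inc P hs)


/-- inclusion of the part over a smaller set -/
def incO {B B' : Set S} (h : B' ⊆ B) (x : Over Q B') : Over Q B := ⟨x.1, h x.2⟩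

lemma continuous_incO {B B' : Set S} (h : B' ⊆ B) : Continuous (incO (Q := Q) h) :=
  Continuous.subtype_mk continuous_subtype_val _

lemma frame_incO {B B' : Set S} (h : B' ⊆ B) :
    Frame (oP P B) (incO h) (fun _ => 1) (oP P B') := Frame.pull (oP P B) (incO h)

/-- restriction to the part over a smaller set -/
def resO {B B' : Set S} (h : B' ⊆ B) : HO ρ P B →ₗ[R] HO ρ P B' :=
  mapH ρ (continuous_incO h) (frame_incO P h)

lemma resF_resO {B B' : Set S} (h : B' ⊆ B) {s : S} (hs : s ∈ B') (a : HO ρ P B) :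
    resF ρ P hs (resO ρ P h a) = resF ρ P (h hs) a := by
  obtain ⟨c, hc, rfl⟩ := cls_surj ρ a
  unfold resF resO
  rw [mapH_cls, mapH_cls, mapH_cls, cls_eq_iff]
  exact ⟨0, fun z => ⟨univ, univ_mem, fun x _ y _ => by simp [incO, inc]⟩⟩

variable {P}

lemma resF_bij (hP : NDC P) {B : Set S} (hB : Good Q B) {s : S} (hs : s ∈ B) :
    Function.Bijective (resF ρ P hs) := by
  obtain ⟨D⟩ := hB.dr hs
  exact (D.equiv ρ (continuous_inc Q hs) (oP_ndc hP B)).bijective

/-- the extension of a class on a fibre to a good set -/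
def extO (hP : NDC P) {B : Set S} (hB : Good Q B) {s : S} (hs : s ∈ B) :
    HF ρ P s →ₗ[R] HO ρ P B :=
  (LinearEquiv.ofBijective (resF ρ P hs) (resF_bij ρ hP hB hs)).symm.toLinearMap

@[simp] lemma resF_extO (hP : NDC P) {B : Set S} (hB : Good Q B) {s : S} (hs : s ∈ B)
    (v : HF ρ P s) : resF ρ P hs (extO ρ hP hB hs v) = v :=
  (LinearEquiv.ofBijective (resF ρ P hs) (resF_bij ρ hP hB hs)).apply_symm_apply v

@[simp] lemma extO_resF (hP : NDC P) {B : Set S} (hB : Good Q B) {s : S} (hs : s ∈ B)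
    (a : HO ρ P B) : extO ρ hP hB hs (resF ρ P hs a) = a :=
  (LinearEquiv.ofBijective (resF ρ P hs) (resF_bij ρ hP hB hs)).symm_apply_apply a

open Classical in
/-- the transport `H1 (fibre over s') → H1 (fibre over s)` -/
def tau (hP : NDC P) (s s' : S) : HF ρ P s' →ₗ[R] HF ρ P s :=
  if h : ∃ B, Good Q B ∧ s ∈ B ∧ s' ∈ B then
    (resF ρ P h.choose_spec.2.1).comp (extO ρ hP h.choose_spec.1 h.choose_spec.2.2)
  else 0

section T2

variable [T2Space S]

/-- characterisation of the transport -/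
theorem tau_res (hP : NDC P) {B : Set S} (hB : Good Q B) {s s' : S} (hs : s ∈ B) (hs' : s' ∈ B)
    (a : HO ρ P B) : tau ρ hP s s' (resF ρ P hs' a) = resF ρ P hs a := by
  have h : ∃ B, Good Q B ∧ s ∈ B ∧ s' ∈ B := ⟨B, hB, hs, hs'⟩
  unfold tau
  rw [dif_pos h]
  have hB0 := h.choose_spec.1
  have hs0 := h.choose_spec.2.1
  have hs0' := h.choose_spec.2.2
  set B0 := h.choose with hB0def
  have hB1 : Good Q (B ∩ B0) := hB.inter hB0
  have hs1 : s ∈ B ∩ B0 := ⟨hs, hs0⟩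
  have hs1' : s' ∈ B ∩ B0 := ⟨hs', hs0'⟩
  rw [LinearMap.comp_apply]
  set b := extO ρ hP hB0 hs0' (resF ρ P hs' a) with hb
  have e1 : resF ρ P hs0' b = resF ρ P hs' a := resF_extO ρ hP hB0 hs0' _
  have e2 : resO ρ P (inter_subset_right : B ∩ B0 ⊆ B0) b =
      resO ρ P (inter_subset_left : B ∩ B0 ⊆ B) a := by
    apply (resF_bij ρ hP hB1 hs1').1
    rw [resF_resO, resF_resO]
    exact e1
  have e3 := congrArg (resF ρ P hs1) e2
  rw [resF_resO, resF_resO] at e3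
  exact e3

theorem tau_eq_resF_extO (hP : NDC P) {B : Set S} (hB : Good Q B) {s s' : S} (hs : s ∈ B)
    (hs' : s' ∈ B) (v : HF ρ P s') :
    tau ρ hP s s' v = resF ρ P hs (extO ρ hP hB hs' v) := by
  rw [← tau_res ρ hP hB hs hs', resF_extO]

theorem tau_self (hP : NDC P) {B : Set S} (hB : Good Q B) {s : S} (hs : s ∈ B) (v : HF ρ P s) :
    tau ρ hP s s v = v := by
  rw [tau_eq_resF_extO ρ hP hB hs hs, resF_extO]

theorem tau_mul (hP : NDC P) {B : Set S} (hB : Good Q B) {s s' s'' : S} (hs : s ∈ B)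
    (hs' : s' ∈ B) (hs'' : s'' ∈ B) (v : HF ρ P s'') :
    tau ρ hP s s' (tau ρ hP s' s'' v) = tau ρ hP s s'' v := by
  rw [tau_eq_resF_extO ρ hP hB hs' hs'', tau_eq_resF_extO ρ hP hB hs hs'', tau_res ρ hP hB hs hs']

/-- the transport as an isomorphism -/
def tauE (hP : NDC P) {B : Set S} (hB : Good Q B) {s s' : S} (hs : s ∈ B) (hs' : s' ∈ B) :
    HF ρ P s' ≃ₗ[R] HF ρ P s :=
  LinearEquiv.ofLinearMap (tau ρ hP s s') (tau ρ hP s' s)
    (LinearMap.ext fun v => by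
      rw [LinearMap.comp_apply, tau_mul ρ hP hB hs hs' hs, tau_self ρ hP hB hs]; rfl)
    (LinearMap.ext fun v => by
      rw [LinearMap.comp_apply, tau_mul ρ hP hB hs' hs hs', tau_self ρ hP hB hs']; rfl)

@[simp] lemma tauE_apply (hP : NDC P) {B : Set S} (hB : Good Q B) {s s' : S} (hs : s ∈ B)
    (hs' : s' ∈ B) (v : HF ρ P s') : tauE ρ hP hB hs hs' v = tau ρ hP s s' v := rfl

/-- natural operations commute with the transports -/
theorem tau_natural {G' : Type*} [Group G'] {R' : Type*} [CommRing R'] {M' : Type*}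
    [AddCommGroup M'] [Module R' M'] (ρ' : G' →* Module.End R' M') {P' : Tot Q → Tot Q → G'}
    (hP : NDC P) (hP' : NDC P') {B : Set S} (hB : Good Q B)
    (TF : ∀ s, HF ρ P s → HF ρ' P' s) (TO : HO ρ P B → HO ρ' P' B)
    (hT : ∀ (s : S) (hs : s ∈ B) (a : HO ρ P B), resF ρ' P' hs (TO a) = TF s (resF ρ P hs a))
    {s s' : S} (hs : s ∈ B) (hs' : s' ∈ B) (v : HF ρ P s') :
    TF s (tau ρ hP s s' v) = tau ρ' hP' s s' (TF s' v) := by
  rw [tau_eq_resF_extO ρ hP hB hs hs', ← hT, ← tau_res ρ' hP' hB hs hs' (TO (extO ρ hP hB hs' v)), hT,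
    resF_extO]

end T2

/-! ### explicit formulas -/

/-- a gauge for a trivialisation: frames over `B`, trivial on the fibre over `s₀`, carrying the
restriction to the fibre over `s₀` to `P` -/
structure Gau (P : Tot Q → Tot Q → G) {s₀ : S} {B : Set S} (L : Loc Q s₀ B) (hs₀ : s₀ ∈ B) where
  A : Over Q B → G
  fr : Frame (fP P s₀) L.ret A (oP P B)
  one : ∀ x, A (inc Q hs₀ x) = 1

/-- existence of a gauge -/
theorem exists_gau (hP : NDC P) {s₀ : S} {B : Set S} (L : Loc Q s₀ B) (hB : Sheet B)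
    (hs₀ : s₀ ∈ B) : Nonempty (Gau P L hs₀) :=
  ⟨⟨hfr (oP P B) (L.dr hB hs₀).K, (L.dr hB hs₀).frame (oP_ndc hP B),
    fun x => (L.dr hB hs₀).hfr_i (oP_ndc hP B) x⟩⟩

/-- the homeomorphism from the fibre over `s` to the fibre over `s₀` -/
def Loc.phi {s₀ : S} {B : Set S} (L : Loc Q s₀ B) {s : S} (hs : s ∈ B) (x : Fib Q s) : Fib Q s₀ :=
  ⟨L.Φ s x.1, L.Φ_notMem hs x.2⟩

/-- the homeomorphism from the fibre over `s₀` to the fibre over `s` -/
def Loc.psi {s₀ : S} {B : Set S} (L : Loc Q s₀ B) {s : S} (hs : s ∈ B) (x : Fib Q s₀) : Fib Q s :=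
  ⟨L.Ψ s x.1, L.Ψ_notMem hs x.2⟩

lemma Loc.continuous_phi {s₀ : S} {B : Set S} (L : Loc Q s₀ B) {s : S} (hs : s ∈ B) :
    Continuous (L.phi hs) := L.continuous_ret.comp (continuous_inc Q hs)

lemma Loc.continuous_Ψ {s₀ : S} {B : Set S} (L : Loc Q s₀ B) {s : S} (hs : s ∈ B) :
    Continuous (L.Ψ s) :=
  L.hΨ.comp_continuous (f := fun x : ℂ => (s, x)) (by fun_prop) (fun _ => ⟨hs, trivial⟩)

lemma Loc.continuous_Φ {s₀ : S} {B : Set S} (L : Loc Q s₀ B) {s : S} (hs : s ∈ B) :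
    Continuous (L.Φ s) :=
  L.hΦ.comp_continuous (f := fun x : ℂ => (s, x)) (by fun_prop) (fun _ => ⟨hs, trivial⟩)

lemma Loc.continuous_psi {s₀ : S} {B : Set S} (L : Loc Q s₀ B) {s : S} (hs : s ∈ B) :
    Continuous (L.psi hs) :=
  Continuous.subtype_mk ((L.continuous_Ψ hs).comp continuous_subtype_val) _


lemma Loc.phi_psi {s₀ : S} {B : Set S} (L : Loc Q s₀ B) {s : S} (hs : s ∈ B) (x : Fib Q s₀) :
    L.phi hs (L.psi hs x) = x := Subtype.ext (L.ΦΨ s hs x.1)

lemma Loc.ret_inc {s₀ : S} {B : Set S} (L : Loc Q s₀ B) {s : S} (hs : s ∈ B) (x : Fib Q s) :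
    L.ret (inc Q hs x) = L.phi hs x := rfl

lemma Loc.phi_self {s₀ : S} {B : Set S} (L : Loc Q s₀ B) (hs₀ : s₀ ∈ B) (x : Fib Q s₀) :
    L.phi hs₀ x = x := by
  apply Subtype.ext
  show L.Φ s₀ x.1 = x.1
  rw [← L.base (L.Φ s₀ x.1), L.ΨΦ s₀ hs₀]

lemma Gau.frame_phi {s₀ : S} {B : Set S} {L : Loc Q s₀ B} {hs₀ : s₀ ∈ B} (A : Gau P L hs₀)
    {s : S} (hs : s ∈ B) :
    Frame (fP P s₀) (L.phi hs) (fun x => A.A (inc Q hs x)) (fP P s) := by
  have h := A.fr.comp (continuous_inc Q hs) (Frame.pull (oP P B) (inc Q hs))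
  intro z
  obtain ⟨U, hU, h1⟩ := h z
  refine ⟨U, hU, fun x hx y hy => ?_⟩
  have := h1 x hx y hy
  simp only [one_mul] at this
  exact this

lemma Gau.frame_psi {s₀ : S} {B : Set S} {L : Loc Q s₀ B} {hs₀ : s₀ ∈ B} (A : Gau P L hs₀)
    {s : S} (hs : s ∈ B) :
    Frame (fP P s) (L.psi hs) (fun x => (A.A (inc Q hs (L.psi hs x)))⁻¹) (fP P s₀) := by
  have h := A.frame_phi hs
  intro z
  obtain ⟨U, hU, h1⟩ := (NDE.pull h (L.continuous_psi hs)) z
  refine ⟨U, hU, fun x hx y hy => ?_⟩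
  have := h1 x hx y hy
  simp only [L.phi_psi] at this
  simp only []
  rw [this]
  group

section T2

variable [T2Space S]

/-- **explicit formula**, from the fibre over `s₀` to the fibre over `s` -/
theorem tau_gauge (hP : NDC P) {s₀ : S} {B : Set S} (L : Loc Q s₀ B) (hB : Sheet B)
    (hs₀ : s₀ ∈ B) (A : Gau P L hs₀) {s : S} (hs : s ∈ B) (v : HF ρ P s₀) :
    tau ρ hP s s₀ v = mapH ρ (L.continuous_phi hs) (A.frame_phi hs) v := by
  have hG : Good Q B := Good.of_loc hB L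
  obtain ⟨c, hc, rfl⟩ := cls_surj ρ v
  set a : HO ρ P B := mapH ρ L.continuous_ret A.fr (cls ρ c hc) with ha
  have h0 : resF ρ P hs₀ a = cls ρ c hc := by
    rw [ha]
    unfold resF
    rw [mapH_cls, mapH_cls, cls_eq_iff]
    refine ⟨0, fun z => ⟨univ, univ_mem, fun x _ y _ => ?_⟩⟩
    simp [A.one, L.ret_inc hs₀, L.phi_self hs₀]
  rw [← h0, tau_res ρ hP hG hs hs₀, h0, ha]
  unfold resF
  rw [mapH_cls, mapH_cls, mapH_cls, cls_eq_iff]
  refine ⟨0, fun z => ⟨univ, univ_mem, fun x _ y _ => ?_⟩⟩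
  simp [L.ret_inc hs]

/-- **explicit formula**, from the fibre over `s` to the fibre over `s₀` -/
theorem tau_gauge' (hP : NDC P) {s₀ : S} {B : Set S} (L : Loc Q s₀ B) (hB : Sheet B)
    (hs₀ : s₀ ∈ B) (A : Gau P L hs₀) {s : S} (hs : s ∈ B) (v : HF ρ P s) :
    tau ρ hP s₀ s v = mapH ρ (L.continuous_psi hs) (A.frame_psi hs) v := by
  have hG : Good Q B := Good.of_loc hB L
  obtain ⟨u, rfl⟩ := (tauE ρ hP hG hs hs₀).surjective v
  rw [tauE_apply, tau_mul ρ hP hG hs₀ hs hs₀, tau_self ρ hP hG hs₀, tau_gauge ρ hP L hB hs₀ A hs]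
  obtain ⟨c, hc, rfl⟩ := cls_surj ρ u
  rw [mapH_cls, mapH_cls, cls_eq_iff]
  refine ⟨0, fun z => ⟨univ, univ_mem, fun x _ y _ => ?_⟩⟩
  simp only [L.phi_psi, Pi.zero_apply, map_zero, sub_zero, add_zero]
  rw [← Module.End.mul_apply, ← map_mul, inv_mul_cancel, map_one, Module.End.one_apply]


theorem tau_gauge_cls' (hP : NDC P) {s₀ : S} {B : Set S} (L : Loc Q s₀ B) (hB : Sheet B)
    (hs₀ : s₀ ∈ B) (A : Gau P L hs₀) {s : S} (hs : s ∈ B) (c : Fib Q s → Fib Q s → M)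
    (hc : c ∈ Z1 ρ (fP P s)) :
    tau ρ hP s₀ s (cls ρ c hc) =
      cls ρ (fun x y => ρ (A.A (inc Q hs (L.psi hs x)))⁻¹ (c (L.psi hs x) (L.psi hs y)))
        (mapZ_mem ρ (L.continuous_psi hs) (A.frame_psi hs) hc) :=
  tau_gauge' ρ hP L hB hs₀ A hs _

end T2

end fam

end Crest.Agent.R276.Top3_279
end
end

-- ▼ part R276/Top3e_279
section

/-!
# Row 276, IPC-TOP3 (helper279), part 5: parabolic classes, change of coefficients, automorphisms

* `ZeroOn ρ a U` : the class `a` vanishes on `U`; `parF ρ P s` : parabolic classes of a fibre;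
  `tau_par` : the transports preserve them.
* `coefH` : change of coefficients (additive; semilinear maps allowed), `coefH_tau`.
* `isoF` : isomorphism of local systems, `isoF_tau`.
-/

set_option autoImplicit false
set_option linter.unusedSectionVars false

noncomputable section

open Set Filter Topology unitInterval

namespace Crest.Agent.R276.Top3_279

section zero

variable {X Y : Type*} [TopologicalSpace X] [TopologicalSpace Y]
variable {G : Type*} [Group G] {R : Type*} [CommRing R] {M : Type*} [AddCommGroup M] [Module R M]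
variable (ρ : G →* Module.End R M)

lemma cob_mem {P : X → X → G} (hP : NDC P) (f : X → M) :
    (fun x y => f x - ρ (P x y) (f y)) ∈ Z1 ρ P := by
  intro z
  obtain ⟨U, hU, h⟩ := hP z
  refine ⟨U, hU, fun x hx y hy w hw => ?_⟩
  simp only [map_sub]
  rw [← Module.End.mul_apply, ← map_mul, h x hx y hy w hw]
  abel

/-- the class `a` vanishes on the set `U` -/
def ZeroOn {P : X → X → G} (a : H1 ρ P) (U : Set X) : Prop :=
  ∃ c, ∃ hc : c ∈ Z1 ρ P, cls ρ c hc = a ∧ ∀ z ∈ U, ∃ N ∈ 𝓝 z, ∀ x ∈ N, ∀ y ∈ N, c x y = 0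

variable {ρ}

lemma zeroOn_cls_iff {P : X → X → G} (hP : NDC P) {c : X → X → M} {hc : c ∈ Z1 ρ P} {U : Set X} :
    ZeroOn ρ (cls ρ c hc) U ↔
      ∃ f : X → M, ∀ z ∈ U, ∃ N ∈ 𝓝 z, ∀ x ∈ N, ∀ y ∈ N, c x y = f x - ρ (P x y) (f y) := by
  constructor
  · rintro ⟨c', hc', h1, h2⟩
    obtain ⟨f, hf⟩ := (cls_eq_iff ρ).1 h1.symm
    refine ⟨f, fun z hz => ?_⟩
    obtain ⟨N, hN, h3⟩ := h2 z hz
    obtain ⟨N', hN', h4⟩ := hf z
    refine ⟨N ∩ N', inter_mem hN hN', fun x hx y hy => ?_⟩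
    rw [h4 x hx.2 y hy.2]
    simp only []
    rw [h3 x hx.1 y hy.1, zero_add]
  · rintro ⟨f, hf⟩
    refine ⟨fun x y => c x y - (f x - ρ (P x y) (f y)),
      Submodule.sub_mem _ hc (cob_mem ρ hP f), ?_, ?_⟩
    · rw [cls_eq_iff]
      refine ⟨fun x => - f x, fun z => ⟨univ, univ_mem, fun x _ y _ => ?_⟩⟩
      simp only [map_neg]
      abel
    · intro z hz
      obtain ⟨N, hN, h⟩ := hf z hz
      exact ⟨N, hN, fun x hx y hy => sub_eq_zero.2 (h x hx y hy)⟩

lemma ZeroOn.mono {P : X → X → G} {a : H1 ρ P} {U V : Set X} (h : ZeroOn ρ a U) (hV : V ⊆ U) :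
    ZeroOn ρ a V := by
  obtain ⟨c, hc, h1, h2⟩ := h
  exact ⟨c, hc, h1, fun z hz => h2 z (hV hz)⟩

lemma zeroOn_zero {P : X → X → G} (U : Set X) : ZeroOn ρ (0 : H1 ρ P) U :=
  ⟨0, Submodule.zero_mem _, rfl, fun _ _ => ⟨univ, univ_mem, fun _ _ _ _ => rfl⟩⟩

lemma ZeroOn.add {P : X → X → G} {a b : H1 ρ P} {U : Set X} (ha : ZeroOn ρ a U)
    (hb : ZeroOn ρ b U) : ZeroOn ρ (a + b) U := by
  obtain ⟨c, hc, rfl, h1⟩ := ha
  obtain ⟨d, hd, rfl, h2⟩ := hb
  refine ⟨c + d, Submodule.add_mem _ hc hd, rfl, fun z hz => ?_⟩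
  obtain ⟨N, hN, h3⟩ := h1 z hz
  obtain ⟨N', hN', h4⟩ := h2 z hz
  refine ⟨N ∩ N', inter_mem hN hN', fun x hx y hy => ?_⟩
  show c x y + d x y = 0
  rw [h3 x hx.1 y hy.1, h4 x hx.2 y hy.2, zero_add]

lemma ZeroOn.smul {P : X → X → G} {a : H1 ρ P} {U : Set X} (ha : ZeroOn ρ a U) (r : R) :
    ZeroOn ρ (r • a) U := by
  obtain ⟨c, hc, rfl, h1⟩ := ha
  refine ⟨r • c, Submodule.smul_mem _ r hc, rfl, fun z hz => ?_⟩
  obtain ⟨N, hN, h3⟩ := h1 z hz
  refine ⟨N, hN, fun x hx y hy => ?_⟩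
  show r • c x y = 0
  rw [h3 x hx y hy, smul_zero]

lemma ZeroOn.mapH {P : X → X → G} {a : H1 ρ P} {U : Set X} (ha : ZeroOn ρ a U)
    {f : Y → X} (hf : Continuous f) {A : Y → G} {P' : Y → Y → G} (h : Frame P f A P') :
    ZeroOn ρ (mapH ρ hf h a) (f ⁻¹' U) := by
  obtain ⟨c, hc, rfl, h1⟩ := ha
  refine ⟨_, mapZ_mem ρ hf h hc, rfl, fun z hz => ?_⟩
  obtain ⟨N, hN, h3⟩ := h1 (f z) hz
  refine ⟨f ⁻¹' N, hf.continuousAt.preimage_mem_nhds hN, fun x hx y hy => ?_⟩
  rw [h3 _ hx _ hy, map_zero]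

lemma zeroOn_univ_iff {P : X → X → G} {a : H1 ρ P} : ZeroOn ρ a univ ↔ a = 0 := by
  constructor
  · rintro ⟨c, hc, rfl, h⟩
    rw [cls_eq_zero_iff]
    refine ⟨0, fun z => ?_⟩
    obtain ⟨N, hN, h3⟩ := h z trivial
    exact ⟨N, hN, fun x hx y hy => by simp [h3 x hx y hy]⟩
  · rintro rfl
    exact zeroOn_zero _

end zero

section coef

variable {X Y : Type*} [TopologicalSpace X] [TopologicalSpace Y]
variable {G : Type*} [Group G] {R : Type*} [CommRing R] {M : Type*} [AddCommGroup M] [Module R M]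
variable {R' : Type*} [CommRing R'] {M' : Type*} [AddCommGroup M'] [Module R' M']
variable {R'' : Type*} [CommRing R''] {M'' : Type*} [AddCommGroup M''] [Module R'' M'']
variable {ρ : G →* Module.End R M} {ρ' : G →* Module.End R' M'} {ρ'' : G →* Module.End R'' M''}

lemma coef_mem (φ : M →+ M') (hφ : ∀ g v, φ (ρ g v) = ρ' g (φ v)) {P : X → X → G}
    {c : X → X → M} (hc : c ∈ Z1 ρ P) : (fun x y => φ (c x y)) ∈ Z1 ρ' P := by
  intro z
  obtain ⟨U, hU, h⟩ := hc z
  refine ⟨U, hU, fun x hx y hy w hw => ?_⟩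
  simp only []
  rw [h x hx y hy w hw, map_add, hφ]

lemma coef_congr (φ : M →+ M') (hφ : ∀ g v, φ (ρ g v) = ρ' g (φ v)) {P : X → X → G}
    {c c' : X → X → M} {hc : c ∈ Z1 ρ P} {hc' : c' ∈ Z1 ρ P} (h : cls ρ c hc = cls ρ c' hc') :
    cls ρ' (fun x y => φ (c x y)) (coef_mem φ hφ hc) =
      cls ρ' (fun x y => φ (c' x y)) (coef_mem φ hφ hc') := by
  obtain ⟨f, hf⟩ := (cls_eq_iff ρ).1 h
  rw [cls_eq_iff]
  refine ⟨fun x => φ (f x), fun z => ?_⟩
  obtain ⟨U, hU, h1⟩ := hf z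
  refine ⟨U, hU, fun x hx y hy => ?_⟩
  simp only []
  rw [h1 x hx y hy, map_add, map_sub, hφ]

/-- change of coefficients -/
def coefH (φ : M →+ M') (hφ : ∀ g v, φ (ρ g v) = ρ' g (φ v)) {P : X → X → G} :
    H1 ρ P →+ H1 ρ' P :=
  AddMonoidHom.mk' (fun a => cls ρ' (fun x y => φ ((cls_surj ρ a).choose x y))
    (coef_mem φ hφ (cls_surj ρ a).choose_spec.choose)) (by
      intro a b
      have ha := (cls_surj ρ a).choose_spec.choose_spec
      have hb := (cls_surj ρ b).choose_spec.choose_spec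
      have hab := (cls_surj ρ (a + b)).choose_spec.choose_spec
      set c := (cls_surj ρ a).choose
      set d := (cls_surj ρ b).choose
      have hc := (cls_surj ρ a).choose_spec.choose
      have hd := (cls_surj ρ b).choose_spec.choose
      have h1 : cls ρ _ (cls_surj ρ (a + b)).choose_spec.choose =
          cls ρ (c + d) (Submodule.add_mem _ hc hd) := by
        rw [hab]
        conv_lhs => rw [← ha, ← hb]
        rfl
      have h2 := coef_congr φ hφ h1
      rw [h2]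
      show cls ρ' (fun x y => φ (c x y + d x y)) _ =
        cls ρ' ((fun x y => φ (c x y)) + fun x y => φ (d x y))
          (Submodule.add_mem _ (coef_mem φ hφ hc) (coef_mem φ hφ hd))
      rw [cls_eq_iff]
      refine ⟨0, fun z => ⟨univ, univ_mem, fun x _ y _ => ?_⟩⟩
      simp only [map_add, Pi.add_apply, Pi.zero_apply, map_zero, sub_zero, add_zero])

lemma coefH_cls (φ : M →+ M') (hφ : ∀ g v, φ (ρ g v) = ρ' g (φ v)) {P : X → X → G}
    (c : X → X → M) (hc : c ∈ Z1 ρ P) :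
    coefH φ hφ (cls ρ c hc) = cls ρ' (fun x y => φ (c x y)) (coef_mem φ hφ hc) :=
  coef_congr φ hφ (cls_surj ρ (cls ρ c hc)).choose_spec.choose_spec


lemma coefH_mapH (φ : M →+ M') (hφ : ∀ g v, φ (ρ g v) = ρ' g (φ v)) {P : X → X → G}
    {f : Y → X} (hf : Continuous f) {A : Y → G} {P' : Y → Y → G} (h : Frame P f A P')
    (a : H1 ρ P) : coefH φ hφ (mapH ρ hf h a) = mapH ρ' hf h (coefH φ hφ a) := by
  obtain ⟨c, hc, rfl⟩ := cls_surj ρ a
  rw [coefH_cls, mapH_cls, mapH_cls, coefH_cls, cls_eq_iff]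
  refine ⟨0, fun z => ⟨univ, univ_mem, fun x _ y _ => ?_⟩⟩
  simp only [hφ, Pi.zero_apply, map_zero, sub_zero, add_zero]


lemma ZeroOn.coefH (φ : M →+ M') (hφ : ∀ g v, φ (ρ g v) = ρ' g (φ v)) {P : X → X → G}
    {a : H1 ρ P} {U : Set X} (ha : ZeroOn ρ a U) : ZeroOn ρ' (coefH φ hφ a) U := by
  obtain ⟨c, hc, rfl, h⟩ := ha
  rw [coefH_cls]
  refine ⟨_, coef_mem φ hφ hc, rfl, fun z hz => ?_⟩
  obtain ⟨N, hN, h3⟩ := h z hz
  refine ⟨N, hN, fun x hx y hy => ?_⟩
  rw [h3 x hx y hy, map_zero]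

end coef

section fam

open Crest.Agent.R271.Ho51 Crest.Agent.R276.Ipc735

variable {m : ℕ} {S : Type*} [TopologicalSpace S] [RDom m S] {k : ℕ} {Q : Punc S k}
variable {G : Type*} [Group G] {R : Type*} [CommRing R] {M : Type*} [AddCommGroup M] [Module R M]
variable (ρ : G →* Module.End R M) (P : Tot Q → Tot Q → G)

/-- parabolic classes of the fibre over `s` -/
def parF (s : S) : Submodule R (HF ρ P s) where
  carrier := {a | (∀ p ∈ Q.A s, ∃ U ∈ 𝓝 p, ZeroOn ρ a {x | x.1 ∈ U}) ∧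
    ∃ r : ℝ, ZeroOn ρ a {x | r < ‖x.1‖}}
  zero_mem' := ⟨fun _ _ => ⟨univ, univ_mem, zeroOn_zero _⟩, 0, zeroOn_zero _⟩
  add_mem' := by
    rintro a b ⟨ha, r, har⟩ ⟨hb, t, hbt⟩
    refine ⟨fun p hp => ?_, max r t, ?_⟩
    · obtain ⟨U, hU, h1⟩ := ha p hp
      obtain ⟨V, hV, h2⟩ := hb p hp
      exact ⟨U ∩ V, inter_mem hU hV, (h1.mono fun x hx => hx.1).add (h2.mono fun x hx => hx.2)⟩
    · exact (har.mono fun x hx => lt_of_le_of_lt (le_max_left r t) hx).add
        (hbt.mono fun x hx => lt_of_le_of_lt (le_max_right r t) hx)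
  smul_mem' := by
    rintro c a ⟨ha, r, har⟩
    refine ⟨fun p hp => ?_, r, har.smul c⟩
    obtain ⟨U, hU, h1⟩ := ha p hp
    exact ⟨U, hU, h1.smul c⟩

lemma mem_parF {s : S} {a : HF ρ P s} : a ∈ parF ρ P s ↔
    (∀ p ∈ Q.A s, ∃ U ∈ 𝓝 p, ZeroOn ρ a {x | x.1 ∈ U}) ∧
    ∃ r : ℝ, ZeroOn ρ a {x | r < ‖x.1‖} := Iff.rfl

variable {P}

/-- isomorphism of local systems, on fibres -/
lemma frame_fP {P' : Tot Q → Tot Q → G} {A : Tot Q → G} (hA : Frame P (fun x => x) A P') (s : S) :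
    Frame (fP P s) (fun x => x) (fun x => A (Tot.mk Q s x.1 x.2)) (fP P' s) := by
  have hc : Continuous (fun x : Fib Q s => Tot.mk Q s x.1 x.2) :=
    continuous_mk Q continuous_const continuous_subtype_val (fun x => x.2)
  exact NDE.pull hA hc

/-- isomorphism of local systems, over `B` -/
lemma frame_oP {P' : Tot Q → Tot Q → G} {A : Tot Q → G} (hA : Frame P (fun x => x) A P')
    (B : Set S) : Frame (oP P B) (fun x => x) (fun x => A x.1) (oP P' B) :=
  NDE.pull hA continuous_subtype_val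

/-- the map on `H1` of a fibre induced by an isomorphism of local systems -/
def isoF {P' : Tot Q → Tot Q → G} {A : Tot Q → G} (hA : Frame P (fun x => x) A P') (s : S) :
    HF ρ P s →ₗ[R] HF ρ P' s := mapH ρ continuous_id (frame_fP hA s)

lemma isoF_cls {P' : Tot Q → Tot Q → G} {A : Tot Q → G} (hA : Frame P (fun x => x) A P') (s : S)
    (c : Fib Q s → Fib Q s → M) (hc : c ∈ Z1 ρ (fP P s)) :
    isoF ρ hA s (cls ρ c hc) = cls ρ (fun x y => ρ (A (Tot.mk Q s x.1 x.2)) (c x y))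
      (mapZ_mem ρ continuous_id (frame_fP hA s) hc) := rfl



lemma isoF_par {P' : Tot Q → Tot Q → G} {A : Tot Q → G} (hA : Frame P (fun x => x) A P') (s : S)
    {a : HF ρ P s} (ha : a ∈ parF ρ P s) : isoF ρ hA s a ∈ parF ρ P' s := by
  obtain ⟨h1, r, h2⟩ := ha
  refine ⟨fun p hp => ?_, r, h2.mapH continuous_id _⟩
  obtain ⟨U, hU, h3⟩ := h1 p hp
  exact ⟨U, hU, h3.mapH continuous_id _⟩

lemma resF_iso {P' : Tot Q → Tot Q → G} {A : Tot Q → G} (hA : Frame P (fun x => x) A P')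
    {B : Set S} {s : S} (hs : s ∈ B) (a : HO ρ P B) :
    resF ρ P' hs (mapH ρ continuous_id (frame_oP hA B) a) = isoF ρ hA s (resF ρ P hs a) := by
  obtain ⟨c, hc, rfl⟩ := cls_surj ρ a
  unfold resF isoF
  rw [mapH_cls, mapH_cls, mapH_cls, mapH_cls, cls_eq_iff]
  refine ⟨0, fun z => ⟨univ, univ_mem, fun x _ y _ => ?_⟩⟩
  simp [inc]

section T2

variable [T2Space S]

theorem isoF_tau {P' : Tot Q → Tot Q → G} {A : Tot Q → G} (hP : NDC P) (hP' : NDC P')
    (hA : Frame P (fun x => x) A P') {B : Set S} (hB : Good Q B) {s s' : S} (hs : s ∈ B)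
    (hs' : s' ∈ B) (v : HF ρ P s') :
    isoF ρ hA s (tau ρ hP s s' v) = tau ρ hP' s s' (isoF ρ hA s' v) :=
  tau_natural ρ ρ hP hP' hB (fun s => isoF ρ hA s) (mapH ρ continuous_id (frame_oP hA B))
    (fun _ hs a => resF_iso ρ hA hs a) hs hs' v

/-- **the transports preserve the parabolic classes** -/
theorem tau_par (hP : NDC P) {B : Set S} (hB : Good Q B) {s s' : S} (hs : s ∈ B) (hs' : s' ∈ B)
    {v : HF ρ P s'} (hv : v ∈ parF ρ P s') : tau ρ hP s s' v ∈ parF ρ P s := by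
  obtain ⟨L⟩ := hB.loc s' hs'
  obtain ⟨A⟩ := exists_gau hP L hB.sheet hs'
  rw [tau_gauge ρ hP L hB.sheet hs' A hs]
  obtain ⟨h1, r, h2⟩ := hv
  refine ⟨fun p hp => ?_, ?_⟩
  · have hp' : L.Φ s p ∈ Q.A s' := by rw [← L.punc s hs, L.ΨΦ s hs]; exact hp
    obtain ⟨U, hU, h3⟩ := h1 _ hp'
    refine ⟨L.Φ s ⁻¹' U, (L.continuous_Φ hs).continuousAt.preimage_mem_nhds hU, ?_⟩
    exact (h3.mapH (L.continuous_phi hs) (A.frame_phi hs)).mono fun x hx => hx
  · have hcomp : IsCompact (L.Ψ s '' Metric.closedBall (0 : ℂ) r) :=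
      (isCompact_closedBall _ _).image (L.continuous_Ψ hs)
    obtain ⟨t, ht⟩ := hcomp.isBounded.subset_closedBall (0 : ℂ)
    refine ⟨t, (h2.mapH (L.continuous_phi hs) (A.frame_phi hs)).mono fun x hx => ?_⟩
    show r < ‖L.Φ s x.1‖
    by_contra hcon
    have h4 : L.Φ s x.1 ∈ Metric.closedBall (0 : ℂ) r := by
      rw [mem_closedBall_zero_iff]; exact not_lt.1 hcon
    have h5 := ht (mem_image_of_mem (L.Ψ s) h4)
    rw [L.ΨΦ s hs, mem_closedBall_zero_iff] at h5
    exact absurd hx (not_lt.2 h5)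

end T2

section coef

variable {R' : Type*} [CommRing R'] {M' : Type*} [AddCommGroup M'] [Module R' M']
variable {ρ} {ρ' : G →* Module.End R' M'}

lemma resF_coefH (φ : M →+ M') (hφ : ∀ g v, φ (ρ g v) = ρ' g (φ v)) {B : Set S} {s : S}
    (hs : s ∈ B) (a : HO ρ P B) :
    resF ρ' P hs (coefH φ hφ a) = coefH φ hφ (resF ρ P hs a) :=
  (coefH_mapH φ hφ (continuous_inc Q hs) (frame_inc P hs) a).symm


lemma coefH_isoF (φ : M →+ M') (hφ : ∀ g v, φ (ρ g v) = ρ' g (φ v)) {P' : Tot Q → Tot Q → G}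
    {A : Tot Q → G} (hA : Frame P (fun x => x) A P') (s : S) (a : HF ρ P s) :
    coefH φ hφ (isoF ρ hA s a) = isoF ρ' hA s (coefH φ hφ a) :=
  coefH_mapH φ hφ continuous_id (frame_fP hA s) a

/-- **the transports commute with the change of coefficients** -/
theorem coefH_tau [T2Space S] (φ : M →+ M') (hφ : ∀ g v, φ (ρ g v) = ρ' g (φ v)) (hP : NDC P)
    {B : Set S} (hB : Good Q B) {s s' : S} (hs : s ∈ B) (hs' : s' ∈ B) (v : HF ρ P s') :
    coefH φ hφ (tau ρ hP s s' v) = tau ρ' hP s s' (coefH φ hφ v) :=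
  tau_natural ρ ρ' hP hP hB (fun _ => coefH φ hφ) (coefH φ hφ)
    (fun _ hs a => resF_coefH φ hφ hs a) hs hs' v

end coef

end fam

end Crest.Agent.R276.Top3_279
end
end

-- ▼ part R276/Top3f_279

/-!
# Row 276, IPC-TOP3 (helper279), part 6: existence of trivialisations, the near-diagonal cocycle

* `locOf` : helper563's horizontal trivialisation as a `Loc`.
* `exists_locOf`, `exists_good` : good neighbourhoods exist.
* `tau_near` : the transports form a near-diagonal cocycle of isomorphisms.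
-/

set_option autoImplicit false
set_option linter.unusedSectionVars false

noncomputable section

open Set Filter Topology unitInterval

namespace Crest.Agent.R276.Top3_279

open Crest.Agent.R271.Ho51 Crest.Agent.R276.Ipc735 Crest.Agent.R276.Psi_563

variable {m : ℕ} {S : Type*} [TopologicalSpace S] [RDom m S] {k : ℕ} {Q : Punc S k}

lemma contOn_aux (Bm : Bumps k) {α : S → Fin k → ℂ} {B : Set S} (hα : ContinuousOn α B) :
    ContinuousOn (fun p : S × ℂ => ((α p.1 - Bm.a, p.2) : (Fin k → ℂ) × ℂ)) (B ×ˢ univ) := by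
  have h1 : ContinuousOn (fun p : S × ℂ => α p.1 - Bm.a) (B ×ˢ univ) :=
    (hα.comp (f := fun p : S × ℂ => p.1) continuousOn_fst (fun p hp => hp.1)).sub
      continuousOn_const
  exact h1.prodMk continuousOn_snd

lemma contOn_psi (Bm : Bumps k) {α : S → Fin k → ℂ} {B : Set S} (hα : ContinuousOn α B) :
    ContinuousOn (fun p : S × ℂ => Bm.psi (α p.1 - Bm.a) p.2) (B ×ˢ univ) := by
  have h2 : Continuous (fun z : (Fin k → ℂ) × ℂ => Bm.psi z.1 z.2) := Bm.contDiff_psi.continuous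
  exact h2.comp_continuousOn (contOn_aux Bm hα)

lemma contOn_inv (Bm : Bumps k) {α : S → Fin k → ℂ} {B : Set S} (hα : ContinuousOn α B)
    (hδ : ∀ s ∈ B, ‖α s - Bm.a‖ < Bm.δ) :
    ContinuousOn (fun p : S × ℂ => Bm.inv (α p.1 - Bm.a) p.2) (B ×ˢ univ) := by
  intro p hp
  have h1 : ContinuousAt (fun z : (Fin k → ℂ) × ℂ => Bm.inv z.1 z.2) (α p.1 - Bm.a, p.2) :=
    (Bm.contDiffAt_inv (z := (α p.1 - Bm.a, p.2)) (hδ _ hp.1)).continuousAt
  have h2 := contOn_aux Bm hα p hp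
  exact ContinuousAt.comp_continuousWithinAt
    (f := fun p : S × ℂ => ((α p.1 - Bm.a, p.2) : (Fin k → ℂ) × ℂ)) h1 h2

/-- the horizontal trivialisation `(s, x) ↦ (s, ψ_{α s - a} x)` -/
def locOf (Bm : Bumps k) (α : S → Fin k → ℂ) {s₀ : S} {B : Set S} (hα : ContinuousOn α B)
    (h0 : α s₀ = Bm.a) (hs₀ : s₀ ∈ B) (hδ : ∀ s ∈ B, ‖α s - Bm.a‖ < Bm.δ)
    (hA : ∀ s ∈ B, Q.A s = Finset.univ.image (α s)) : Loc Q s₀ B where
  Ψ := fun s x => Bm.psi (α s - Bm.a) x
  Φ := fun s x => Bm.inv (α s - Bm.a) x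
  hΨ := contOn_psi Bm hα
  hΦ := contOn_inv Bm hα hδ
  ΦΨ := fun s hs x => Bm.inv_psi (hδ s hs) x
  ΨΦ := fun s hs x => Bm.psi_inv (hδ s hs) x
  base := fun x => by
    rw [h0, sub_self, Bm.psi_zero]
  punc := fun s hs x => by
    have h := Bm.mem_fibre (U := B) (α := α) hδ hs (x := x)
    have h1 : Bm.psi (α s - Bm.a) x ∈ Q.A s ↔ ¬ ∀ i, Bm.psi (α s - Bm.a) x ≠ α s i := by
      rw [hA s hs]
      simp only [Finset.mem_image, Finset.mem_univ, true_and, not_forall, not_not]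
      exact exists_congr fun i => eq_comm
    have h2 : x ∈ Q.A s₀ ↔ ¬ ∀ i, x ≠ Bm.a i := by
      rw [hA s₀ hs₀, h0]
      simp only [Finset.mem_image, Finset.mem_univ, true_and, not_forall, not_not]
      exact exists_congr fun i => eq_comm
    rw [h1, h2, not_iff_not]
    exact h

@[simp] lemma locOf_Ψ (Bm : Bumps k) (α : S → Fin k → ℂ) {s₀ : S} {B : Set S}
    (hα : ContinuousOn α B) (h0 : α s₀ = Bm.a) (hs₀ : s₀ ∈ B) (hδ : ∀ s ∈ B, ‖α s - Bm.a‖ < Bm.δ)
    (hA : ∀ s ∈ B, Q.A s = Finset.univ.image (α s)) (s : S) (x : ℂ) :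
    (locOf (Q := Q) Bm α hα h0 hs₀ hδ hA).Ψ s x = Bm.psi (α s - Bm.a) x := rfl

@[simp] lemma locOf_Φ (Bm : Bumps k) (α : S → Fin k → ℂ) {s₀ : S} {B : Set S}
    (hα : ContinuousOn α B) (h0 : α s₀ = Bm.a) (hs₀ : s₀ ∈ B) (hδ : ∀ s ∈ B, ‖α s - Bm.a‖ < Bm.δ)
    (hA : ∀ s ∈ B, Q.A s = Finset.univ.image (α s)) (s : S) (x : ℂ) :
    (locOf (Q := Q) Bm α hα h0 hs₀ hδ hA).Φ s x = Bm.inv (α s - Bm.a) x := rfl

lemma HolAt.eventually_continuousAt {G : Type*} [NormedAddCommGroup G] [NormedSpace ℂ G]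
    [CompleteSpace G] {f : S → G} {z : S} (h : HolAt f z) : ∀ᶠ s in 𝓝 z, ContinuousAt f s := by
  have h1 : ∀ᶠ w in 𝓝 (cp z : Fin m → ℂ), AnalyticAt ℂ (f ∘ (ch z).symm) w :=
    AnalyticAt.eventually_analyticAt h
  have h2 : ∀ᶠ s in 𝓝 z, AnalyticAt ℂ (f ∘ (ch z).symm) (cp s) :=
    cp_cont.continuousAt.eventually h1
  filter_upwards [h2, (ch z).open_source.mem_nhds (mem_ch z)] with s hs hsrc
  have h3 : ContinuousAt (fun y => (f ∘ (ch z).symm) (cp y)) s :=
    ContinuousAt.comp (g := f ∘ (ch z).symm) hs.continuousAt cp_cont.continuousAt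
  exact h3.congr (eventually_eq_comp (isCh_ch z) hsrc f).symm

/-- local data of a family of punctures near a point -/
theorem exists_local (Q : Punc S k) (s₀ : S) : ∃ (Bm : Bumps k) (α : S → Fin k → ℂ) (N : Set S),
    N ∈ 𝓝 s₀ ∧ IsOpen N ∧ (∀ i, HolAt (fun s => α s i) s₀) ∧ ContinuousOn α N ∧ α s₀ = Bm.a ∧
    (∀ s ∈ N, ‖α s - Bm.a‖ < Bm.δ) ∧ (∀ s ∈ N, Function.Injective (α s)) ∧
    ∀ s ∈ N, Q.A s = Finset.univ.image (α s) := by
  obtain ⟨a, ha, hloc⟩ := Q.loc s₀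
  obtain ⟨Bm, hBm, -⟩ := exists_bumps (fun i => a i s₀) hloc.self_of_nhds.1 one_pos
  have h1 : ∀ᶠ s in 𝓝 s₀, ContinuousAt (fun s => (fun i => a i s : Fin k → ℂ)) s := by
    have : ∀ᶠ s in 𝓝 s₀, ∀ i, ContinuousAt (a i) s :=
      eventually_all.2 fun i => HolAt.eventually_continuousAt (ha i)
    filter_upwards [this] with s hs
    exact continuousAt_pi.2 hs
  have h2 : ∀ᶠ s in 𝓝 s₀, ‖(fun i => a i s : Fin k → ℂ) - Bm.a‖ < Bm.δ := by
    have hc : ContinuousAt (fun s => ‖(fun i => a i s : Fin k → ℂ) - Bm.a‖) s₀ :=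
      (h1.self_of_nhds.sub continuousAt_const).norm
    refine hc.eventually_lt continuousAt_const ?_
    rw [hBm, sub_self, norm_zero]
    exact Bm.δ_pos
  obtain ⟨N, hN1, hN2, hN3⟩ := mem_nhds_iff.1 (inter_mem h1 (inter_mem h2 hloc))
  refine ⟨Bm, fun s i => a i s, N, hN2.mem_nhds hN3, hN2, ha,
    fun s hs => ContinuousAt.continuousWithinAt (f := fun s i => a i s) (hN1 hs).1, hBm.symm, fun s hs => (hN1 hs).2.1,
    fun s hs => (hN1 hs).2.2.1, fun s hs => (hN1 hs).2.2.2⟩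

theorem exists_loc (Q : Punc S k) (s₀ : S) : ∃ N ∈ 𝓝 s₀, Nonempty (Loc Q s₀ N) := by
  obtain ⟨Bm, α, N, hN, -, -, h1, h2, h3, -, h4⟩ := exists_local Q s₀
  exact ⟨N, hN, ⟨locOf Bm α h1 h2 (mem_of_mem_nhds hN) h3 h4⟩⟩

/-- good neighbourhoods exist, arbitrarily small -/
theorem exists_good (Q : Punc S k) (s₀ : S) {N : Set S} (hN : N ∈ 𝓝 s₀) :
    ∃ B, Good Q B ∧ s₀ ∈ B ∧ B ⊆ N := by
  obtain ⟨N', hN', ⟨L⟩⟩ := exists_loc Q s₀
  obtain ⟨B, hB, hs, hBN⟩ := exists_sheet s₀ (inter_mem hN hN')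
  exact ⟨B, Good.of_loc hB (L.mono (hBN.trans inter_subset_right)), hs,
    hBN.trans inter_subset_left⟩

theorem exists_good_nhds (Q : Punc S k) (s₀ : S) : ∃ B ∈ 𝓝 s₀, Good Q B := by
  obtain ⟨B, hB, hs, -⟩ := exists_good Q s₀ univ_mem
  exact ⟨B, hB.sheet.isOpen.mem_nhds hs, hB⟩

section tau

variable {G : Type*} [Group G] {R : Type*} [CommRing R] {M : Type*} [AddCommGroup M] [Module R M]
variable (ρ : G →* Module.End R M) {P : Tot Q → Tot Q → G} [T2Space S]

theorem tau_id (hP : NDC P) (s : S) (v : HF ρ P s) : tau ρ hP s s v = v := by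
  obtain ⟨B, hB, hG⟩ := exists_good_nhds Q s
  exact tau_self ρ hP hG (mem_of_mem_nhds hB) v


end tau

end Crest.Agent.R276.Top3_279
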