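import Crest.Agent.R276.BndB_563
import Crest.Agent.R276.VCalcI_442
import Crest.Agent.R276.IpcLoc_735
import Crest.Agent.R276.Res_735
import Crest.Agent.R276.Top3f_279

/-!
# R276, leaf IPC-FAM (helper563), part A: the family over a coordinate ball, pulled back to a fixed fibre

`V : VHS (m+1) (Tot Q) N w`, `s₀ : S`.  `LD V s₀` : bump functions, punctures `α`, radius `r`, gauge.
`D.σ z` the point of the base with coordinate `z`, `D.Ψ z x` the trivialisation, `D.pt z x` the point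
`(σ z, Ψ_z x)` of the total space, `D.G z x` the gauge and
`D.E z x = G(z,x)⁻¹ V.E(σ z, Ψ_z x) G(z,x)` : the Hodge structures in the frame at `(s₀, x)`.

* `exists_LD` : local data exist, in arbitrarily small neighbourhoods;
* `LD.frame_ev` : the transports in terms of the gauge;
* `LD.isHS` : `E z x` is a Hodge structure for the FIXED form `V.S (s₀, x)`;
* `LD.local_formula`, `LD.sm_E` : joint smoothness in `(z, x)`;
* `LD.vhs_E` : for fixed `x` it is a polarised VHS on the ball (radius independent of `x`).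
-/

set_option autoImplicit false
set_option linter.unusedSectionVars false

noncomputable section

open Set Filter Topology Matrix Metric
open scoped ContDiff

namespace Crest.Agent.R276.FamA_563

open Crest.Agent.R271.Ho51 Crest.Agent.R276.Ipc735 Crest.Agent.R276.Top3_279
open Crest.Agent.R276.Psi_563

/-! ### a VHS near a point, in terms of the grading operator -/

section localE

variable {n N w : ℕ} {X : Type*} [TopologicalSpace X] [RDom n X]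

/-- the grading operator near `z`, in the frame and the chart at `z` -/
def hatE (V : Ipc735.VHS n X N w) (z : X) (c : Fin n → ℂ) : Matrix (Fin N) (Fin N) ℂ :=
  lM V.P V.E z ((ch z).symm c)

theorem local_E (V : Ipc735.VHS n X N w) (z : X) :
    ∃ U : Set (Fin n → ℂ), IsOpen U ∧ cp z ∈ U ∧ U ⊆ (ch z).target ∧
      (∀ c ∈ U, IsHS w (V.S z) (hatE V z c)) ∧
      (∀ i j, ContDiffOn ℝ ∞ (fun c => hatE V z c i j) U) ∧
      (∀ c ∈ U, ∀ v, hatE V z c * VCalc_442.mW (hatE V z) v c -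
        VCalc_442.mW (hatE V z) v c * hatE V z c = - VCalc_442.mW (hatE V z) v c) := by
  obtain ⟨U, hU, hz, hUt, hP, hS, h⟩ := V.local z
  have hHS : ∀ c ∈ U, IsHS w (V.S z) (hatE V z c) := fun c hc => (V.hs _).lM (hS c hc)
  have hgr : ∀ c ∈ U, VCalc_442.grOp w
      (fun p c => hq w (lM V.P V.E z ((ch z).symm c)) p) c = hatE V z c :=
    fun c hc => grOp_hq (hHS c hc)
  refine ⟨U, hU, hz, hUt, hHS, ?_, ?_⟩
  · intro i j
    have h1 : ∀ p, ContDiffOn ℝ ∞ (fun c => hq w (lM V.P V.E z ((ch z).symm c)) p i j) U :=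
      fun p => h.sm p i j
    have h2 : ContDiffOn ℝ ∞ (fun c => ∑ p ∈ Finset.range (w + 1),
        (p : ℂ) * hq w (lM V.P V.E z ((ch z).symm c)) p i j) U :=
      ContDiffOn.sum fun p _ => contDiffOn_const.mul (h1 p)
    refine h2.congr fun c hc => ?_
    rw [← hgr c hc]
    unfold VCalc_442.grOp
    rw [Matrix.sum_apply]
    rfl
  · intro c hc v
    have h1 : VCalc_442.mW (VCalc_442.grOp w
        (fun p c => hq w (lM V.P V.E z ((ch z).symm c)) p)) v c = VCalc_442.mW (hatE V z) v c := by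
      refine BndB_563.mW_congr' v ?_
      filter_upwards [hU.mem_nhds hc] with d hd
      exact hgr d hd
    have h2 := h.hor c hc v
    rw [h1, hgr c hc] at h2
    exact h2

end localE

variable {m : ℕ} {S : Type*} [TopologicalSpace S] [RDom m S] {k N w : ℕ} {Q : Punc S k}

/-! ### coordinate balls -/

/-- the coordinate ball around `s₀` -/
def bB (s₀ : S) (r : ℝ) : Set S := (ch s₀).source ∩ cp ⁻¹' ball (cp s₀ : Fin m → ℂ) r

lemma isOpen_bB (s₀ : S) (r : ℝ) : IsOpen (bB s₀ r) :=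
  (ch s₀).open_source.inter (isOpen_ball.preimage cp_cont)

lemma mem_bB_self (s₀ : S) {r : ℝ} (hr : 0 < r) : s₀ ∈ bB s₀ r := ⟨mem_ch s₀, mem_ball_self hr⟩

lemma symm_mem_bB {s₀ : S} {r : ℝ} (hsub : ball (cp s₀ : Fin m → ℂ) r ⊆ (ch s₀).target)
    {z : Fin m → ℂ} (hz : z ∈ ball (cp s₀ : Fin m → ℂ) r) : (ch s₀).symm z ∈ bB s₀ r := by
  refine ⟨(ch s₀).map_target (hsub hz), ?_⟩
  show cp ((ch s₀).symm z) ∈ ball (cp s₀ : Fin m → ℂ) r
  rw [(isCh_ch s₀).cp_symm (hsub hz)]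
  exact hz

lemma sheet_bB {s₀ : S} {r : ℝ} (hsub : ball (cp s₀ : Fin m → ℂ) r ⊆ (ch s₀).target) :
    Sheet (bB s₀ r) := by
  refine ⟨isOpen_bB s₀ r, (isCh_ch s₀).injOn.mono fun x hx => hx.1, ?_⟩
  have : (cp : S → (Fin m → ℂ)) '' bB s₀ r = ball (cp s₀) r := by
    ext z
    constructor
    · rintro ⟨x, hx, rfl⟩; exact hx.2
    · intro hz
      exact ⟨(ch s₀).symm z, symm_mem_bB hsub hz, (isCh_ch s₀).cp_symm (hsub hz)⟩
  rw [this]
  exact convex_ball _ _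

/-- local data of a variation over a family of punctured planes near a point of the base -/
structure LD (V : Ipc735.VHS (m + 1) (Tot Q) N w) (s₀ : S) where
  Bm : Bumps k
  α : S → Fin k → ℂ
  r : ℝ
  r_pos : 0 < r
  sub : ball (cp s₀ : Fin m → ℂ) r ⊆ (ch s₀).target
  hol : ∀ z ∈ ball (cp s₀ : Fin m → ℂ) r, AnalyticAt ℂ (fun z => α ((ch s₀).symm z)) z
  cont : ContinuousOn α (bB s₀ r)
  h0 : α s₀ = Bm.a
  mem : s₀ ∈ bB s₀ r
  hδ : ∀ s ∈ bB s₀ r, ‖α s - Bm.a‖ < Bm.δ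
  inj : ∀ s ∈ bB s₀ r, Function.Injective (α s)
  hA : ∀ s ∈ bB s₀ r, Q.A s = Finset.univ.image (α s)
  gau : Gau V.P (locOf Bm α cont h0 mem hδ hA) mem

/-- local data exist, inside any given neighbourhood -/
theorem exists_LD [T2Space S] (V : Ipc735.VHS (m + 1) (Tot Q) N w) (s₀ : S) {W : Set S}
    (hW : W ∈ 𝓝 s₀) :
    ∃ D : LD V s₀, bB s₀ D.r ⊆ W := by
  obtain ⟨Bm, α, N', hN', hNo, hhol, hcont, h0, hδ, hinj, hA⟩ := exists_local Q s₀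
  have hcpt : cp s₀ ∈ (ch s₀).target := (isCh_ch s₀).cp_mem (mem_ch s₀)
  have ht : Tendsto (ch s₀).symm (𝓝 (cp s₀)) (𝓝 s₀) := by
    have := (ch s₀).symm.continuousAt (x := cp s₀) (by simpa using hcpt)
    rwa [ContinuousAt, symm_cp] at this
  have hhol' : AnalyticAt ℂ (fun z => α ((ch s₀).symm z)) (cp s₀) := by
    rw [analyticAt_pi_iff]
    intro i
    exact hhol i
  obtain ⟨r, hr, hball⟩ := Metric.mem_nhds_iff.1 (inter_mem (inter_mem (ht.eventually_mem hN')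
    (ht.eventually_mem hW)) (inter_mem ((ch s₀).open_target.mem_nhds hcpt)
      hhol'.eventually_analyticAt))
  have hsub : ball (cp s₀ : Fin m → ℂ) r ⊆ (ch s₀).target := fun z hz => (hball hz).2.1
  have hB : ∀ s ∈ bB s₀ r, s ∈ N' ∧ s ∈ W := by
    intro s hs
    have h1 := (hball hs.2).1
    have h2 : (ch s₀).symm (cp s) = s := (isCh_ch s₀).symm_cp hs.1
    have h3 : (ch s₀).symm (cp s) ∈ N' ∧ (ch s₀).symm (cp s) ∈ W := h1
    rwa [h2] at h3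
  have hcont' : ContinuousOn α (bB s₀ r) := hcont.mono fun s hs => (hB s hs).1
  have hδ' : ∀ s ∈ bB s₀ r, ‖α s - Bm.a‖ < Bm.δ := fun s hs => hδ s (hB s hs).1
  have hA' : ∀ s ∈ bB s₀ r, Q.A s = Finset.univ.image (α s) := fun s hs => hA s (hB s hs).1
  obtain ⟨gau⟩ := exists_gau (P := V.P) V.ndc
    (locOf (Q := Q) Bm α hcont' h0 (mem_bB_self s₀ hr) hδ' hA') (sheet_bB hsub) (mem_bB_self s₀ hr)
  exact ⟨{ Bm := Bm, α := α, r := r, r_pos := hr, sub := hsub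
           hol := fun z hz => (hball hz).2.2
           cont := hcont', h0 := h0, mem := mem_bB_self s₀ hr, hδ := hδ'
           inj := fun s hs => hinj s (hB s hs).1, hA := hA', gau := gau },
    fun s hs => (hB s hs).2⟩

namespace LD

variable {V : Ipc735.VHS (m + 1) (Tot Q) N w} {s₀ : S} (D : LD V s₀)

/-- the parameter ball -/
def U (D : LD V s₀) : Set (Fin m → ℂ) := ball (cp s₀ : Fin m → ℂ) D.r

/-- the point of the base with coordinate `z` -/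
def σ (_D : LD V s₀) (z : Fin m → ℂ) : S := (ch s₀).symm z

/-- displacement of the punctures -/
def b (D : LD V s₀) (z : Fin m → ℂ) : Fin k → ℂ := D.α (D.σ z) - D.Bm.a

/-- the trivialisation -/
def Ψ (D : LD V s₀) (z : Fin m → ℂ) (x : ℂ) : ℂ := D.Bm.psi (D.b z) x

/-- the trivialisation as a `Loc` of helper279 -/
def L (D : LD V s₀) : Loc Q s₀ (bB s₀ D.r) := locOf D.Bm D.α D.cont D.h0 D.mem D.hδ D.hA


lemma isOpen_U : IsOpen D.U := isOpen_ball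

lemma center_mem : (cp s₀ : Fin m → ℂ) ∈ D.U := mem_ball_self D.r_pos

variable {D} in
lemma σ_mem {z : Fin m → ℂ} (hz : z ∈ D.U) : D.σ z ∈ bB s₀ D.r := symm_mem_bB D.sub hz

variable {D} in
lemma cp_σ {z : Fin m → ℂ} (hz : z ∈ D.U) : cp (D.σ z) = z := (isCh_ch s₀).cp_symm (D.sub hz)

@[simp] lemma σ_center : D.σ (cp s₀) = s₀ := symm_cp s₀



@[simp] lemma b_center : D.b (cp s₀) = 0 := by
  unfold b; rw [σ_center, D.h0, sub_self]

@[simp] lemma Ψ_center (x : ℂ) : D.Ψ (cp s₀) x = x := by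
  unfold Ψ; rw [b_center, D.Bm.psi_zero]

variable {D} in
lemma norm_b {z : Fin m → ℂ} (hz : z ∈ D.U) : ‖D.b z‖ < D.Bm.δ := D.hδ _ (σ_mem hz)

variable {D} in
lemma Ψ_notMem {z : Fin m → ℂ} (hz : z ∈ D.U) {x : ℂ} (hx : x ∉ Q.A s₀) :
    D.Ψ z x ∉ Q.A (D.σ z) := D.L.Ψ_notMem (σ_mem hz) hx

/-- the point `(σ z, Ψ_z x)` of the total space -/
def pt (D : LD V s₀) (z : Fin m → ℂ) (x : ℂ) (hz : z ∈ D.U) (hx : x ∉ Q.A s₀) :
    Over Q (bB s₀ D.r) := ⟨Tot.mk Q (D.σ z) (D.Ψ z x) (Ψ_notMem hz hx), σ_mem hz⟩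

open Classical in
/-- the gauge -/
def G (D : LD V s₀) (z : Fin m → ℂ) (x : ℂ) : GL (Fin N) ℤ :=
  if h : z ∈ D.U ∧ x ∉ Q.A s₀ then D.gau.A (D.pt z x h.1 h.2) else 1

open Classical in
/-- the Hodge structure at `(σ z, Ψ_z x)` in the frame at `(s₀, x)` -/
def E (D : LD V s₀) (z : Fin m → ℂ) (x : ℂ) : Matrix (Fin N) (Fin N) ℂ :=
  if h : z ∈ D.U ∧ x ∉ Q.A s₀ then
    cm (D.G z x)⁻¹ * V.E (D.pt z x h.1 h.2).1 * cm (D.G z x) else 0

variable {D} in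
lemma G_of {z : Fin m → ℂ} {x : ℂ} (hz : z ∈ D.U) (hx : x ∉ Q.A s₀) :
    D.G z x = D.gau.A (D.pt z x hz hx) := by
  unfold G; rw [dif_pos ⟨hz, hx⟩]

variable {D} in
lemma E_of {z : Fin m → ℂ} {x : ℂ} (hz : z ∈ D.U) (hx : x ∉ Q.A s₀) :
    D.E z x = cm (D.G z x)⁻¹ * V.E (D.pt z x hz hx).1 * cm (D.G z x) := by
  unfold E; rw [dif_pos ⟨hz, hx⟩]

lemma pt_center {x : ℂ} (hx : x ∉ Q.A s₀) :
    D.pt (cp s₀) x D.center_mem hx = inc Q D.mem ⟨x, hx⟩ := by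
  apply over_ext
  · exact D.σ_center
  · exact D.Ψ_center x

@[simp] lemma G_center (x : ℂ) : D.G (cp s₀) x = 1 := by
  unfold G
  split_ifs with h
  · rw [D.pt_center h.2]
    exact D.gau.one _
  · rfl

lemma E_center {x : ℂ} (hx : x ∉ Q.A s₀) : D.E (cp s₀) x = V.E (Tot.mk Q s₀ x hx) := by
  rw [E_of D.center_mem hx, G_center, D.pt_center hx]
  simp

lemma ret_pt {z : Fin m → ℂ} {x : ℂ} (hz : z ∈ D.U) (hx : x ∉ Q.A s₀) :
    D.L.ret (D.pt z x hz hx) = ⟨x, hx⟩ := by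
  apply Subtype.ext
  exact D.L.ΦΨ (D.σ z) (σ_mem hz) x

/-! ### continuity -/

variable {D} in
lemma continuousAt_σ {z : Fin m → ℂ} (hz : z ∈ D.U) : ContinuousAt D.σ z := by
  have := (ch s₀).symm.continuousAt (x := z) (by simpa using D.sub hz)
  exact this

variable {D} in
lemma contDiffAt_b {z : Fin m → ℂ} (hz : z ∈ D.U) : ContDiffAt ℝ ∞ D.b z := by
  have h1 : ContDiffAt ℂ ∞ (fun z => D.α (D.σ z)) z := (D.hol z hz).contDiffAt
  exact (h1.restrict_scalars ℝ).sub contDiffAt_const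

variable {D} in
lemma diffAt_b {z : Fin m → ℂ} (hz : z ∈ D.U) : DifferentiableAt ℂ D.b z :=
  (D.hol z hz).differentiableAt.sub_const _

variable {D} in
lemma contDiffAt_Ψ {p : (Fin m → ℂ) × ℂ} (hz : p.1 ∈ D.U) :
    ContDiffAt ℝ ∞ (fun p : (Fin m → ℂ) × ℂ => D.Ψ p.1 p.2) p := by
  have h1 : ContDiffAt ℝ ∞ (fun p : (Fin m → ℂ) × ℂ => ((D.b p.1, p.2) : (Fin k → ℂ) × ℂ)) p := by
    refine ContDiffAt.prodMk ?_ contDiffAt_snd
    exact ContDiffAt.comp p (by exact contDiffAt_b hz) contDiffAt_fst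
  exact ContDiffAt.comp p (D.Bm.contDiff_psi.contDiffAt) h1

/-- the coordinates of `(σ z, Ψ_z x)` -/
def γ (D : LD V s₀) (p : (Fin m → ℂ) × ℂ) : Fin (m + 1) → ℂ := Fin.cons (D.Ψ p.1 p.2) p.1

variable {D} in
lemma cp_pt {z : Fin m → ℂ} {x : ℂ} (hz : z ∈ D.U) (hx : x ∉ Q.A s₀) :
    cp (D.pt z x hz hx).1 = D.γ (z, x) := by
  have h1 : cp (D.pt z x hz hx).1 = Fin.cons (D.Ψ z x) (cp (D.σ z)) := rfl
  rw [h1, cp_σ hz]
  rfl

variable {D} in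
lemma contDiffAt_γ {p : (Fin m → ℂ) × ℂ} (hz : p.1 ∈ D.U) : ContDiffAt ℝ ∞ D.γ p := by
  rw [contDiffAt_pi]
  intro i
  refine Fin.cases ?_ (fun j => ?_) i
  · exact contDiffAt_Ψ hz
  · have h1 : ContDiff ℝ ∞ (fun p : (Fin m → ℂ) × ℂ => p.1 j) :=
      (contDiff_apply ℝ ℂ j).comp contDiff_fst
    exact h1.contDiffAt

variable {D} in
/-- for fixed `x` the coordinates depend holomorphically on `z` -/
lemma diffAt_γ {z : Fin m → ℂ} (hz : z ∈ D.U) (x : ℂ) :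
    DifferentiableAt ℂ (fun z => D.γ (z, x)) z := by
  rw [differentiableAt_pi]
  intro i
  refine Fin.cases ?_ (fun j => ?_) i
  · have h1 : DifferentiableAt ℂ (fun z => D.α (D.σ z)) z := (D.hol z hz).differentiableAt
    exact D.Bm.differentiableAt_psi h1 D.Bm.a x
  · have h1 : DifferentiableAt ℂ (fun z : Fin m → ℂ => z j) z := differentiableAt_apply j z
    exact h1

variable {D} in
/-- `pt` is continuous -/
lemma ev_pt {z₁ : Fin m → ℂ} {x₁ : ℂ} (hz₁ : z₁ ∈ D.U) (hx₁ : x₁ ∉ Q.A s₀)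
    {W : Set (Over Q (bB s₀ D.r))} (hW : W ∈ 𝓝 (D.pt z₁ x₁ hz₁ hx₁)) :
    ∀ᶠ p in 𝓝 ((z₁, x₁) : (Fin m → ℂ) × ℂ), ∀ (hz : p.1 ∈ D.U) (hx : p.2 ∉ Q.A s₀),
      D.pt p.1 p.2 hz hx ∈ W := by
  have hind : Topology.IsInducing (fun q : Over Q (bB s₀ D.r) => (q.1.1 : S × ℂ)) := by
    have h1 : Topology.IsInducing (Subtype.val : {q : S × ℂ // q.2 ∉ Q.A q.1} → S × ℂ) :=
      Topology.IsInducing.subtypeVal
    have h2 : Topology.IsInducing (Subtype.val : Over Q (bB s₀ D.r) → Tot Q) :=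
      Topology.IsInducing.subtypeVal
    exact h1.comp h2
  rw [hind.nhds_eq_comap] at hW
  obtain ⟨W', hW', hsub⟩ := mem_comap.1 hW
  have hc : ContinuousAt (fun p : (Fin m → ℂ) × ℂ => ((D.σ p.1, D.Ψ p.1 p.2) : S × ℂ)) (z₁, x₁) := by
    refine ContinuousAt.prodMk ?_ (contDiffAt_Ψ (p := (z₁, x₁)) hz₁).continuousAt
    exact ContinuousAt.comp (g := D.σ) (continuousAt_σ hz₁) continuousAt_fst
  have h3 : ∀ᶠ p in 𝓝 ((z₁, x₁) : (Fin m → ℂ) × ℂ), ((D.σ p.1, D.Ψ p.1 p.2) : S × ℂ) ∈ W' :=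
    hc.eventually_mem hW'
  filter_upwards [h3] with p hp hz hx
  exact hsub hp

lemma ev_U {z₁ : Fin m → ℂ} (x₁ : ℂ) (hz₁ : z₁ ∈ D.U) :
    ∀ᶠ p in 𝓝 ((z₁, x₁) : (Fin m → ℂ) × ℂ), p.1 ∈ D.U :=
  (continuousAt_fst (p := ((z₁, x₁) : (Fin m → ℂ) × ℂ))).eventually_mem (D.isOpen_U.mem_nhds hz₁)

lemma ev_A (z₁ : Fin m → ℂ) {x₁ : ℂ} (hx₁ : x₁ ∉ Q.A s₀) :
    ∀ᶠ p in 𝓝 ((z₁, x₁) : (Fin m → ℂ) × ℂ), p.2 ∉ Q.A s₀ :=
  (continuousAt_snd (p := ((z₁, x₁) : (Fin m → ℂ) × ℂ))).eventually (eventually_notMem _ hx₁)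

variable {D} in
/-- the transports in terms of the gauge -/
theorem frame_nhds {z₁ : Fin m → ℂ} {x₁ : ℂ} (hz₁ : z₁ ∈ D.U) (hx₁ : x₁ ∉ Q.A s₀) :
    ∃ W ∈ 𝓝 ((z₁, x₁) : (Fin m → ℂ) × ℂ), ∀ p ∈ W, ∀ p' ∈ W,
      ∀ (hz : p.1 ∈ D.U) (hx : p.2 ∉ Q.A s₀) (hz' : p'.1 ∈ D.U) (hx' : p'.2 ∉ Q.A s₀),
      V.P (D.pt p.1 p.2 hz hx).1 (D.pt p'.1 p'.2 hz' hx').1 =
        D.G p.1 p.2 * rP Q V.P s₀ p.2 p'.2 * (D.G p'.1 p'.2)⁻¹ := by
  obtain ⟨W, hW, h⟩ := D.gau.fr (D.pt z₁ x₁ hz₁ hx₁)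
  refine ⟨_, ev_pt hz₁ hx₁ hW, ?_⟩
  intro p hp p' hp' hz hx hz' hx'
  have h1 := h _ (hp hz hx) _ (hp' hz' hx')
  have e1 : (locOf (Q := Q) D.Bm D.α D.cont D.h0 D.mem D.hδ D.hA).ret (D.pt p.1 p.2 hz hx) =
    ⟨p.2, hx⟩ := D.ret_pt hz hx
  have e2 : (locOf (Q := Q) D.Bm D.α D.cont D.h0 D.mem D.hδ D.hA).ret (D.pt p'.1 p'.2 hz' hx') =
    ⟨p'.2, hx'⟩ := D.ret_pt hz' hx'
  simp only [e1, e2] at h1
  rw [G_of hz hx, G_of hz' hx', rP_of V.P hx hx']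
  exact h1

/-! ### the form is constant -/

lemma P_diag (V : Ipc735.VHS (m + 1) (Tot Q) N w) (q : Tot Q) : V.P q q = 1 :=
  (V.ndc.on univ).diag (mem_univ q)

lemma rP_diag {x : ℂ} (hx : x ∉ Q.A s₀) : rP Q V.P s₀ x x = 1 := by
  rw [rP_of V.P hx hx]; exact P_diag V _

lemma ev_fst {p : (Fin m → ℂ) × ℂ → Prop} {z₁ : Fin m → ℂ} {x₁ : ℂ}
    (h : ∀ᶠ q in 𝓝 ((z₁, x₁) : (Fin m → ℂ) × ℂ), p q) : ∀ᶠ z in 𝓝 z₁, p (z, x₁) := by
  have hc : ContinuousAt (fun z : Fin m → ℂ => ((z, x₁) : (Fin m → ℂ) × ℂ)) z₁ := by fun_prop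
  exact hc.eventually h

lemma ev_snd {p : (Fin m → ℂ) × ℂ → Prop} {z₁ : Fin m → ℂ} {x₁ : ℂ}
    (h : ∀ᶠ q in 𝓝 ((z₁, x₁) : (Fin m → ℂ) × ℂ), p q) : ∀ᶠ x in 𝓝 x₁, p (z₁, x) := by
  have hc : ContinuousAt (fun x : ℂ => ((z₁, x) : (Fin m → ℂ) × ℂ)) x₁ := by fun_prop
  exact hc.eventually h

variable {D} in
/-- the form in the frame at `(s₀, x)` does not depend on `z` -/
theorem S_const {z : Fin m → ℂ} {x : ℂ} (hz : z ∈ D.U) (hx : x ∉ Q.A s₀) :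
    (cm (D.G z x))ᴴ * V.S (D.pt z x hz hx).1 * cm (D.G z x) = V.S (Tot.mk Q s₀ x hx) := by
  let f : D.U → Matrix (Fin N) (Fin N) ℂ := fun z =>
    (cm (D.G z.1 x))ᴴ * V.S (D.pt z.1 x z.2 hx).1 * cm (D.G z.1 x)
  have hpre : PreconnectedSpace D.U :=
    Subtype.preconnectedSpace (convex_ball (cp s₀ : Fin m → ℂ) D.r).isPreconnected
  have hlc : IsLocallyConstant f := by
    rw [IsLocallyConstant.iff_eventually_eq]
    rintro ⟨z₁, hz₁⟩
    obtain ⟨W, hW, hfr⟩ := frame_nhds hz₁ hx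
    have h1 : ∀ᶠ q : Over Q (bB s₀ D.r) in 𝓝 (D.pt z₁ x hz₁ hx),
        V.S q.1 = (cm (V.P (D.pt z₁ x hz₁ hx).1 q.1))ᴴ * V.S (D.pt z₁ x hz₁ hx).1 *
          cm (V.P (D.pt z₁ x hz₁ hx).1 q.1) :=
      (continuous_subtype_val.continuousAt (x := D.pt z₁ x hz₁ hx)).eventually
        (V.flatS (D.pt z₁ x hz₁ hx).1)
    have h2 := ev_pt hz₁ hx h1
    have h3 : ∀ᶠ z in 𝓝 z₁, ∀ hz : z ∈ D.U, (cm (D.G z x))ᴴ * V.S (D.pt z x hz hx).1 *
        cm (D.G z x) = (cm (D.G z₁ x))ᴴ * V.S (D.pt z₁ x hz₁ hx).1 * cm (D.G z₁ x) := by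
      filter_upwards [ev_fst h2, ev_fst (p := fun q => q ∈ W) hW] with z hS hW' hz
      have e1 := hS hz hx
      have e2 := hfr (z₁, x) (mem_of_mem_nhds hW) (z, x) hW' hz₁ hx hz hx
      simp only at e1 e2
      have e1' : V.S (D.pt z x hz hx).1 =
        (cm (V.P (D.pt z₁ x hz₁ hx).1 (D.pt z x hz hx).1))ᴴ * V.S (D.pt z₁ x hz₁ hx).1 *
          cm (V.P (D.pt z₁ x hz₁ hx).1 (D.pt z x hz hx).1) := e1
      rw [e1', e2, rP_diag hx, mul_one, cm_mul, Matrix.conjTranspose_mul]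
      have e3 : cm (D.G z x)⁻¹ * cm (D.G z x) = 1 := cm_inv_mul_cm _
      have e4 : (cm (D.G z x))ᴴ * (cm (D.G z x)⁻¹)ᴴ = 1 := by
        rw [← Matrix.conjTranspose_mul, e3, Matrix.conjTranspose_one]
      calc (cm (D.G z x))ᴴ * ((cm (D.G z x)⁻¹)ᴴ * (cm (D.G z₁ x))ᴴ * V.S (D.pt z₁ x hz₁ hx).1 *
            (cm (D.G z₁ x) * cm (D.G z x)⁻¹)) * cm (D.G z x)
          = ((cm (D.G z x))ᴴ * (cm (D.G z x)⁻¹)ᴴ) * ((cm (D.G z₁ x))ᴴ *
              V.S (D.pt z₁ x hz₁ hx).1 * cm (D.G z₁ x)) * (cm (D.G z x)⁻¹ * cm (D.G z x)) := by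
            noncomm_ring
        _ = _ := by rw [e3, e4, one_mul, mul_one]
    have h4 := (continuous_subtype_val.continuousAt (x := (⟨z₁, hz₁⟩ : D.U))).eventually h3
    filter_upwards [h4] with z hz
    exact hz z.2
  have h5 := hlc.apply_eq_of_preconnectedSpace ⟨z, hz⟩ ⟨cp s₀, D.center_mem⟩
  have h6 : f ⟨z, hz⟩ = (cm (D.G z x))ᴴ * V.S (D.pt z x hz hx).1 * cm (D.G z x) := rfl
  have h7 : f ⟨cp s₀, D.center_mem⟩ = V.S (Tot.mk Q s₀ x hx) := by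
    show (cm (D.G (cp s₀) x))ᴴ * V.S (D.pt (cp s₀) x D.center_mem hx).1 * cm (D.G (cp s₀) x) = _
    rw [G_center, D.pt_center hx]
    simp
  rw [← h6, h5, h7]

variable {D} in
/-- `E z x` is a Hodge structure for the form at `(s₀, x)` -/
theorem isHS {z : Fin m → ℂ} {x : ℂ} (hz : z ∈ D.U) (hx : x ∉ Q.A s₀) :
    IsHS w (V.S (Tot.mk Q s₀ x hx)) (D.E z x) := by
  have h := (V.hs (D.pt z x hz hx).1).conj (cm_inv_mul_cm (D.G z x)) (cm_mul_cm_inv (D.G z x))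
  rw [S_const hz hx, ← E_of hz hx] at h
  exact h

/-! ### local formula and smoothness -/

/-- the field `E` in the frame at `x₁` -/
def Fr (D : LD V s₀) (x₁ : ℂ) (p : (Fin m → ℂ) × ℂ) : Matrix (Fin N) (Fin N) ℂ :=
  cm (rP Q V.P s₀ x₁ p.2) * D.E p.1 p.2 * cm (rP Q V.P s₀ x₁ p.2)⁻¹

lemma Fr_self {x : ℂ} (hx : x ∉ Q.A s₀) (z : Fin m → ℂ) : D.Fr x (z, x) = D.E z x := by
  unfold Fr
  rw [rP_diag hx]; simp

variable {D} in
theorem local_formula {z₁ : Fin m → ℂ} {x₁ : ℂ} (hz₁ : z₁ ∈ D.U) (hx₁ : x₁ ∉ Q.A s₀) :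
    ∀ᶠ p in 𝓝 ((z₁, x₁) : (Fin m → ℂ) × ℂ), D.Fr x₁ p =
      cm (D.G z₁ x₁)⁻¹ * hatE V (D.pt z₁ x₁ hz₁ hx₁).1 (D.γ p) * cm (D.G z₁ x₁) := by
  obtain ⟨W, hW, hfr⟩ := frame_nhds hz₁ hx₁
  set q₁ : Tot Q := (D.pt z₁ x₁ hz₁ hx₁).1 with hq₁
  have h1 : ∀ᶠ q : Over Q (bB s₀ D.r) in 𝓝 (D.pt z₁ x₁ hz₁ hx₁), q.1 ∈ (ch q₁).source :=
    (continuous_subtype_val.continuousAt (x := D.pt z₁ x₁ hz₁ hx₁)).eventually
      ((ch q₁).open_source.mem_nhds (mem_ch q₁))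
  filter_upwards [ev_pt hz₁ hx₁ h1, hW, D.ev_U x₁ hz₁, ev_A z₁ hx₁]
    with p hsrc hpW hz hx
  have e1 := hfr (z₁, x₁) (mem_of_mem_nhds hW) p hpW hz₁ hx₁ hz hx
  simp only at e1
  have e2 : (ch q₁).symm (D.γ p) = (D.pt p.1 p.2 hz hx).1 := by
    have e3 := (isCh_ch q₁).symm_cp (hsrc hz hx)
    rw [cp_pt hz hx] at e3
    exact e3
  unfold hatE
  rw [e2, lM, hq₁, e1, Fr, E_of hz hx]
  set R := rP Q V.P s₀ x₁ p.2
  set g := D.G z₁ x₁
  set h := D.G p.1 p.2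
  have e4 : (g * R * h⁻¹)⁻¹ = h * R⁻¹ * g⁻¹ := by group
  rw [e4, cm_mul, cm_mul, cm_mul, cm_mul]
  have e5 : cm g⁻¹ * cm g = 1 := cm_inv_mul_cm _
  calc cm R * (cm h⁻¹ * V.E (D.pt p.1 p.2 hz hx).1 * cm h) * cm R⁻¹
      = 1 * cm R * cm h⁻¹ * V.E (D.pt p.1 p.2 hz hx).1 * cm h * cm R⁻¹ * 1 := by noncomm_ring
    _ = (cm g⁻¹ * cm g) * cm R * cm h⁻¹ * V.E (D.pt p.1 p.2 hz hx).1 * cm h * cm R⁻¹ *
        (cm g⁻¹ * cm g) := by rw [e5]
    _ = _ := by noncomm_ring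

variable {D} in
/-- joint smoothness -/
theorem sm_Fr {z₁ : Fin m → ℂ} {x₁ : ℂ} (hz₁ : z₁ ∈ D.U) (hx₁ : x₁ ∉ Q.A s₀) (i j : Fin N) :
    ContDiffAt ℝ ∞ (fun p => D.Fr x₁ p i j) (z₁, x₁) := by
  obtain ⟨U, hU, hqU, hUt, hHS, hsm, hhor⟩ := local_E V (D.pt z₁ x₁ hz₁ hx₁).1
  have h1 : ∀ i j, ContDiffAt ℝ ∞ (fun p => hatE V (D.pt z₁ x₁ hz₁ hx₁).1 (D.γ p) i j)
      (z₁, x₁) := by
    intro i j
    have h2 : ContDiffAt ℝ ∞ (fun c => hatE V (D.pt z₁ x₁ hz₁ hx₁).1 c i j) (D.γ (z₁, x₁)) := by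
      rw [← cp_pt hz₁ hx₁]
      exact (hsm i j).contDiffAt (hU.mem_nhds hqU)
    exact ContDiffAt.comp (g := fun c => hatE V (D.pt z₁ x₁ hz₁ hx₁).1 c i j) (f := D.γ) (z₁, x₁) h2
      (contDiffAt_γ (p := (z₁, x₁)) hz₁)
  have h3 : (fun p => D.Fr x₁ p i j) =ᶠ[𝓝 (z₁, x₁)] fun p =>
      ∑ l, (∑ k, cm (D.G z₁ x₁)⁻¹ i k * hatE V (D.pt z₁ x₁ hz₁ hx₁).1 (D.γ p) k l) *
        cm (D.G z₁ x₁) l j := by
    filter_upwards [local_formula hz₁ hx₁] with p hp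
    rw [hp, mul_mul_entry]
  refine ContDiffAt.congr_of_eventuallyEq ?_ h3
  exact ContDiffAt.sum fun l _ => (ContDiffAt.sum fun k _ => contDiffAt_const.mul (h1 k l)).mul
    contDiffAt_const

variable {D} in
/-- smoothness in `z` -/
theorem sm_E {z₁ : Fin m → ℂ} {x : ℂ} (hz₁ : z₁ ∈ D.U) (hx : x ∉ Q.A s₀) (i j : Fin N) :
    ContDiffAt ℝ ∞ (fun z => D.E z x i j) z₁ := by
  have h1 : ContDiffAt ℝ ∞ (fun z : Fin m → ℂ => ((z, x) : (Fin m → ℂ) × ℂ)) z₁ :=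
    contDiffAt_id.prodMk contDiffAt_const
  have h2 := ContDiffAt.comp z₁ (sm_Fr hz₁ hx i j) h1
  have h3 : ((fun p => D.Fr x p i j) ∘ fun z : Fin m → ℂ => ((z, x) : (Fin m → ℂ) × ℂ)) =
      fun z => D.E z x i j := by
    funext z
    show D.Fr x (z, x) i j = _
    rw [D.Fr_self hx]
  rw [h3] at h2
  exact h2

variable {D} in
/-- horizontality in `z` -/
theorem hor_E {z₁ : Fin m → ℂ} {x : ℂ} (hz₁ : z₁ ∈ D.U) (hx : x ∉ Q.A s₀) (v : Fin m → ℂ) :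
    D.E z₁ x * VCalc_442.mW (fun z => D.E z x) v z₁ -
      VCalc_442.mW (fun z => D.E z x) v z₁ * D.E z₁ x =
      - VCalc_442.mW (fun z => D.E z x) v z₁ := by
  obtain ⟨U, hU, hqU, hUt, hHS, hsm, hhor⟩ := local_E V (D.pt z₁ x hz₁ hx).1
  set q₁ : Tot Q := (D.pt z₁ x hz₁ hx).1 with hq₁
  set g := D.G z₁ x with hg
  have hγ : D.γ (z₁, x) = cp q₁ := (cp_pt hz₁ hx).symm
  have hev : (fun z => D.E z x) =ᶠ[𝓝 z₁] fun z => cm g⁻¹ * hatE V q₁ (D.γ (z, x)) * cm g := by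
    filter_upwards [ev_fst (local_formula hz₁ hx)] with z hz
    rw [D.Fr_self hx] at hz
    exact hz
  have hd : ∀ i j, DifferentiableAt ℝ (fun c => hatE V q₁ c i j) (cp q₁) := fun i j =>
    ((hsm i j).contDiffAt (hU.mem_nhds hqU)).differentiableAt (by simp)
  have hγd : HasFDerivAt (fun z => D.γ (z, x)) (fderiv ℂ (fun z => D.γ (z, x)) z₁) z₁ :=
    (diffAt_γ hz₁ x).hasFDerivAt
  have hd' : ∀ i j, DifferentiableAt ℝ (fun z => hatE V q₁ (D.γ (z, x)) i j) z₁ := by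
    intro i j
    have h1 : DifferentiableAt ℝ (fun c => hatE V q₁ c i j) ((fun z => D.γ (z, x)) z₁) := by
      show DifferentiableAt ℝ (fun c => hatE V q₁ c i j) (D.γ (z₁, x))
      rw [hγ]; exact hd i j
    exact DifferentiableAt.comp (g := fun c => hatE V q₁ c i j) (f := fun z => D.γ (z, x)) z₁ h1
      (hγd.restrictScalars ℝ).differentiableAt
  have h1 : VCalc_442.mW (fun z => D.E z x) v z₁ =
      cm g⁻¹ * VCalc_442.mW (hatE V q₁) (fderiv ℂ (fun z => D.γ (z, x)) z₁ v) (cp q₁) * cm g := by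
    rw [BndB_563.mW_congr' v hev, mW_conj _ _ hd']
    congr 2
    ext i j
    show VCalc_442.dW (fun z => hatE V q₁ (D.γ (z, x)) i j) v z₁ =
      VCalc_442.dW (fun c => hatE V q₁ c i j) (fderiv ℂ (fun z => D.γ (z, x)) z₁ v) (cp q₁)
    have h2 : DifferentiableAt ℝ (fun c => hatE V q₁ c i j) (D.γ (z₁, x)) := by
      rw [hγ]; exact hd i j
    rw [VCalc_442.dW_comp (f := fun c => hatE V q₁ c i j) (φ := fun z => D.γ (z, x)) h2 hγd v, hγ]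
  have h2 : D.E z₁ x = cm g⁻¹ * hatE V q₁ (cp q₁) * cm g := by
    have := hev.self_of_nhds
    simp only [hγ] at this
    exact this
  have h3 := hhor (cp q₁) hqU (fderiv ℂ (fun z => D.γ (z, x)) z₁ v)
  rw [h1, h2]
  set A := hatE V q₁ (cp q₁)
  set B := VCalc_442.mW (hatE V q₁) (fderiv ℂ (fun z => D.γ (z, x)) z₁ v) (cp q₁)
  have e5 : cm g * cm g⁻¹ = 1 := cm_mul_cm_inv _
  calc cm g⁻¹ * A * cm g * (cm g⁻¹ * B * cm g) - cm g⁻¹ * B * cm g * (cm g⁻¹ * A * cm g)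
      = cm g⁻¹ * (A * (cm g * cm g⁻¹) * B - B * (cm g * cm g⁻¹) * A) * cm g := by noncomm_ring
    _ = cm g⁻¹ * (A * B - B * A) * cm g := by rw [e5]; simp only [mul_one]
    _ = _ := by rw [h3]; noncomm_ring

/-- **for fixed `x` the Hodge structures over the ball form a polarised VHS** (with constant form);
the ball does not depend on `x` -/
theorem vhs_E {x : ℂ} (hx : x ∉ Q.A s₀) :
    VCalc_442.VHS w D.U (V.S (Tot.mk Q s₀ x hx)) (fun p z => hq w (D.E z x) p) :=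
  toVCalc D.isOpen_U (fun _ hz => isHS hz hx)
    (fun i j _ hz => (sm_E hz hx i j).contDiffWithinAt) (fun _ hz v => hor_E hz hx v)
    (V.hs _).herm

/-! ### the pair of Wirtinger derivatives -/

/-- `∂Ψ_z (x)` and `∂̄Ψ_z (x)` form a holomorphic pair -/
theorem pair (x : ℂ) :
    BndB_563.Pair D.U (fun z => D.Bm.P (D.b z) x) (fun z => D.Bm.Q (D.b z) x) where
  op := D.isOpen_U
  smp := fun z hz => by
    have h1 : ContDiffAt ℝ ∞ (fun b : Fin k → ℂ => D.Bm.P b x) (D.b z) := by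
      have h2 : ContDiff ℝ ∞ (fun b : Fin k → ℂ => ((b, x) : (Fin k → ℂ) × ℂ)) :=
        contDiff_id.prodMk contDiff_const
      exact (D.Bm.contDiff_P.comp h2).contDiffAt
    exact (h1.comp z (contDiffAt_b hz)).contDiffWithinAt
  smq := fun z hz => by
    have h1 : ContDiffAt ℝ ∞ (fun b : Fin k → ℂ => D.Bm.Q b x) (D.b z) := by
      have h2 : ContDiff ℝ ∞ (fun b : Fin k → ℂ => ((b, x) : (Fin k → ℂ) × ℂ)) :=
        contDiff_id.prodMk contDiff_const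
      exact (D.Bm.contDiff_Q.comp h2).contDiffAt
    exact (h1.comp z (contDiffAt_b hz)).contDiffWithinAt
  hp := fun z hz v => by
    apply VCalc_442.dB_of_diff
    simp only [Bumps.P_eq]
    have h1 := diffAt_b hz
    have h2 : ∀ i, DifferentiableAt ℂ (fun z => D.b z i) z := fun i =>
      (differentiableAt_pi.1 h1) i
    exact (differentiableAt_const _).add
      (DifferentiableAt.fun_sum fun i _ => (h2 i).mul_const _)
  hq := fun z hz v => by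
    apply VCalc_442.dB_of_diff
    simp only [Bumps.Q_eq]
    have h1 := diffAt_b hz
    have h2 : ∀ i, DifferentiableAt ℂ (fun z => D.b z i) z := fun i =>
      (differentiableAt_pi.1 h1) i
    exact DifferentiableAt.fun_sum fun i _ => (h2 i).mul_const _
  lt := fun z hz => D.Bm.norm_Q_lt_norm_P (norm_b hz) x

/-- the total type projectors at `(z, x)` in the frame at `(s₀, x)` -/
def T (D : LD V s₀) (p : ℕ) (z : Fin m → ℂ) (x : ℂ) : Matrix (Fin 2 × Fin N) (Fin 2 × Fin N) ℂ :=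
  BndB_563.tot (fun z => D.Bm.P (D.b z) x) (fun z => D.Bm.Q (D.b z) x)
    (fun p z => hq w (D.E z x) p) p z

open scoped Kronecker in
/-- **the total types form a polarised VHS of weight `1 + w` on the ball** -/
theorem vhs_T {x : ℂ} (hx : x ∉ Q.A s₀) :
    VCalc_442.VHS (1 + w) D.U (BndB_563.s1 ⊗ₖ V.S (Tot.mk Q s₀ x hx)) (fun p z => D.T p z x) :=
  BndB_563.tot_vhs (D.pair x) (D.vhs_E hx)

end LD

end Crest.Agent.R276.FamA_563
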