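import Crest.Agent.R276.FamA_563
import Crest.Agent.R276.K4b_817

/-!
# R276, leaf IPC-FAM (helper563), part B: the pointwise input of `K4b_817.PtFam`

* `opT M` : the operator on pairs `(a, b)` given by a matrix on `Fin 2 × Fin N`;
* `IsFm V s₀ M b` : `M` is the bundle of one-forms over the fibre over `s₀` with the Hodge metric, `b` the
  operator of the form `S(a, a') ↦ S(b, b') - S(a, a')`;
* `LD.ptFam` : `PtFam M (w + 1) (fun z P x => opT (D.T P z x)) b (ball (cp s₀) (D.r / 2))`.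
-/

set_option autoImplicit false
set_option linter.unusedSectionVars false

noncomputable section

open Set Filter Topology Matrix Metric
open scoped ContDiff Kronecker

namespace Crest.Agent.R276.FamB_563

open Crest.Agent.R271.Ho51 Crest.Agent.R276.Ipc735 Crest.Agent.R276.Top3_279
open Crest.Agent.R276.Psi_563 Crest.Agent.R276.FamA_563 Crest.Agent.R276.BndB_563
open Crest.Agent.R276.IpcG1_975 Crest.Agent.R276.K4_817 Crest.Agent.R276.K4b_817

/-- pairs of vectors -/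
abbrev VV (N : ℕ) : Type := (Fin N → ℂ) × (Fin N → ℂ)

/-- matrices on pairs -/
abbrev MM (N : ℕ) : Type := Matrix (Fin 2 × Fin N) (Fin 2 × Fin N) ℂ

section opT

variable {N : ℕ}

/-- `(a, b) ↦ vp a b` -/
def vpL (N : ℕ) : VV N →L[ℂ] (Fin 2 × Fin N → ℂ) :=
  LinearMap.toContinuousLinearMap
    { toFun := fun u => vp u.1 u.2
      map_add' := fun _ _ => (vp_add _ _ _ _).symm
      map_smul' := fun c _ => (vp_smul c _ _).symm }

@[simp] lemma vpL_apply (u : VV N) : vpL N u = vp u.1 u.2 := rfl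

/-- the inverse of `vpL` -/
def uvL (N : ℕ) : (Fin 2 × Fin N → ℂ) →L[ℂ] VV N :=
  LinearMap.toContinuousLinearMap
    { toFun := fun f => (fun i => f (0, i), fun i => f (1, i))
      map_add' := fun _ _ => rfl
      map_smul' := fun _ _ => rfl }

lemma uvL_apply (f : Fin 2 × Fin N → ℂ) : uvL N f = (fun i => f (0, i), fun i => f (1, i)) := rfl

@[simp] lemma uvL_vp (a b : Fin N → ℂ) : uvL N (vp a b) = (a, b) := by
  rw [uvL_apply]
  ext i <;> simp [vp]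

@[simp] lemma vp_uvL (f : Fin 2 × Fin N → ℂ) : vp (uvL N f).1 (uvL N f).2 = f := by
  rw [uvL_apply]
  ext ⟨k, i⟩
  fin_cases k <;> simp [vp]


/-- the operator on pairs given by a matrix -/
def opT (M : MM N) : VV N →L[ℂ] VV N :=
  (uvL N).comp ((LinearMap.toContinuousLinearMap (Matrix.mulVecLin M)).comp (vpL N))

lemma opT_apply (M : MM N) (u : VV N) : opT M u = uvL N (M *ᵥ vp u.1 u.2) := rfl

lemma vp_opT (M : MM N) (u : VV N) : vp (opT M u).1 (opT M u).2 = M *ᵥ vp u.1 u.2 := by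
  rw [opT_apply, vp_uvL]

lemma opT_mul (A B : MM N) : opT (A * B) = opT A * opT B := by
  refine ContinuousLinearMap.ext fun u => ?_
  show opT (A * B) u = opT A (opT B u)
  rw [opT_apply, opT_apply, vp_opT, Matrix.mulVec_mulVec]

lemma opT_one : opT (1 : MM N) = 1 := by
  refine ContinuousLinearMap.ext fun u => ?_
  rw [opT_apply, Matrix.one_mulVec, uvL_vp]
  rfl

/-- `opT` as a linear map -/
def opTl (N : ℕ) : MM N →ₗ[ℂ] (VV N →L[ℂ] VV N) where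
  toFun := opT
  map_add' A B := by
    refine ContinuousLinearMap.ext fun u => ?_
    show opT (A + B) u = opT A u + opT B u
    rw [opT_apply, opT_apply, opT_apply, Matrix.add_mulVec, map_add]
  map_smul' c A := by
    refine ContinuousLinearMap.ext fun u => ?_
    show opT (c • A) u = c • opT A u
    rw [opT_apply, opT_apply, Matrix.smul_mulVec, map_smul]




lemma opT_smul (c : ℂ) (A : MM N) : opT (c • A) = c • opT A := map_smul (opTl N) c A

lemma opT_zero : opT (0 : MM N) = 0 := map_zero (opTl N)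

lemma opT_sum {ι : Type*} (s : Finset ι) (f : ι → MM N) : opT (∑ i ∈ s, f i) = ∑ i ∈ s, opT (f i) :=
  map_sum (opTl N) f s

section nm

attribute [local instance] Matrix.linftyOpNormedRing Matrix.linftyOpNormedAlgebra

/-- `opT` as a continuous linear map -/
def opTL (N : ℕ) : MM N →L[ℂ] (VV N →L[ℂ] VV N) := LinearMap.toContinuousLinearMap (opTl N)


variable {E : Type*} [NormedAddCommGroup E] [NormedSpace ℂ E]

lemma contDiffAt_MM {ι : Type*} [Fintype ι] [DecidableEq ι] {F : E → Matrix ι ι ℂ} {z : E}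
    (h : ∀ i j, ContDiffAt ℝ ∞ (fun z => F z i j) z) : ContDiffAt ℝ ∞ F z := by
  have h1 : F = fun z => ∑ i, ∑ j, F z i j • Matrix.single i j (1 : ℂ) := by
    funext z
    conv_lhs => rw [Matrix.matrix_eq_sum_single (F z)]
    refine Finset.sum_congr rfl fun i _ => Finset.sum_congr rfl fun j _ => ?_
    rw [Matrix.smul_single, smul_eq_mul, mul_one]
  rw [h1]
  exact ContDiffAt.sum fun i _ => ContDiffAt.sum fun j _ => (h i j).smul contDiffAt_const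

lemma contDiffAt_opT {F : E → MM N} {z : E} (h : ∀ i j, ContDiffAt ℝ ∞ (fun z => F z i j) z) :
    ContDiffAt ℝ ∞ (fun z => opT (F z)) z :=
  ((opTL N).restrictScalars ℝ).contDiff.contDiffAt.comp z (contDiffAt_MM h)

lemma diff_opT {F : E → MM N} {z : E} (h : DifferentiableAt ℝ F z) :
    DifferentiableAt ℝ (fun z => opT (F z)) z :=
  ((opTL N).restrictScalars ℝ).differentiableAt.comp z h

lemma fderiv_opT {F : E → MM N} {z : E} (h : DifferentiableAt ℝ F z) (t : E) :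
    fderiv ℝ (fun z => opT (F z)) z t = opT (fderiv ℝ F z t) := by
  have h1 : HasFDerivAt (fun z => opT (F z)) (((opTL N).restrictScalars ℝ).comp (fderiv ℝ F z)) z :=
    ((opTL N).restrictScalars ℝ).hasFDerivAt.comp z h.hasFDerivAt
  rw [h1.fderiv]
  rfl

lemma fderiv_opT_apply {F : E → MM N} {z : E} (h : DifferentiableAt ℝ F z) (t : E) (u : VV N) :
    fderiv ℝ (fun z => opT (F z)) z t u =
      uvL N (fderiv ℝ (fun z => F z *ᵥ vp u.1 u.2) z t) := by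
  rw [fderiv_opT h, opT_apply]
  congr 1
  have h1 : HasFDerivAt (fun z => F z *ᵥ vp u.1 u.2)
      (((BndA_563.vecL (vp u.1 u.2)).restrictScalars ℝ).comp (fderiv ℝ F z)) z :=
    ((BndA_563.vecL (vp u.1 u.2)).restrictScalars ℝ).hasFDerivAt.comp z h.hasFDerivAt
  rw [h1.fderiv]
  rfl

end nm

/-- sesquilinear forms on pairs -/
lemma dot_vp (K : Matrix (Fin N) (Fin N) ℂ) (c d : ℂ) (u v : VV N) :
    star (vp u.1 u.2) ⬝ᵥ ((!![c, 0; 0, d] : Matrix (Fin 2) (Fin 2) ℂ) ⊗ₖ K) *ᵥ vp v.1 v.2 =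
      c * (star u.1 ⬝ᵥ K *ᵥ v.1) + d * (star u.2 ⬝ᵥ K *ᵥ v.2) := by
  rw [kron_vp, star_vp_dot]
  simp [dotProduct_smul]

lemma dot_vp_one (K : Matrix (Fin N) (Fin N) ℂ) (u v : VV N) :
    star (vp u.1 u.2) ⬝ᵥ ((1 : Matrix (Fin 2) (Fin 2) ℂ) ⊗ₖ K) *ᵥ vp v.1 v.2 =
      star u.1 ⬝ᵥ K *ᵥ v.1 + star u.2 ⬝ᵥ K *ᵥ v.2 := by
  rw [kron_vp, star_vp_dot]
  simp

end opT

/-! ### smoothness of the total types -/

section smooth

variable {N w : ℕ} {E : Type*} [NormedAddCommGroup E] [NormedSpace ℂ E] {z : E}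

lemma contDiffAt_aeval {F : E → Matrix (Fin N) (Fin N) ℂ}
    (hF : ∀ i j, ContDiffAt ℝ ∞ (fun x => F x i j) z) (f : Polynomial ℂ) (i j : Fin N) :
    ContDiffAt ℝ ∞ (fun x => Polynomial.aeval (F x) f i j) z := by
  have hpow : ∀ (n : ℕ) (i j : Fin N), ContDiffAt ℝ ∞ (fun x => (F x ^ n) i j) z := by
    intro n
    induction n with
    | zero =>
      intro i j
      simp only [pow_zero]
      exact contDiffAt_const
    | succ n ih =>
      intro i j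
      simp only [pow_succ, Matrix.mul_apply]
      exact ContDiffAt.sum fun l _ => (ih i l).mul (hF l j)
  induction f using Polynomial.induction_on' with
  | add f g hf hg =>
    simp only [map_add, Matrix.add_apply]
    exact hf.add hg
  | monomial n a =>
    simp only [Polynomial.aeval_monomial, Algebra.algebraMap_eq_smul_one, smul_mul_assoc, one_mul,
      Matrix.smul_apply, smul_eq_mul]
    exact contDiffAt_const.mul (hpow n i j)

lemma contDiffAt_hq {F : E → Matrix (Fin N) (Fin N) ℂ}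
    (hF : ∀ i j, ContDiffAt ℝ ∞ (fun x => F x i j) z) (n : ℕ) (i j : Fin N) :
    ContDiffAt ℝ ∞ (fun x => hq w (F x) n i j) z := by
  by_cases hn : n ≤ w
  · simp only [hq_of_le hn, hpr_eq]
    exact contDiffAt_aeval hF _ i j
  · simp only [hq, if_neg hn, Matrix.zero_apply]
    exact contDiffAt_const

lemma contDiffAt_e1 {f g : E → ℂ} (hf : ContDiffAt ℝ ∞ f z) (hg : ContDiffAt ℝ ∞ g z)
    (hlt : ‖g z‖ < ‖f z‖) (i j : Fin 2) : ContDiffAt ℝ ∞ (fun x => e1 (f x) (g x) i j) z := by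
  have h1 : ContDiffAt ℝ ∞ (fun x => (starRingEnd ℂ) (f x)) z :=
    Complex.conjCLE.contDiff.contDiffAt.comp z hf
  have h2 : ContDiffAt ℝ ∞ (fun x => (starRingEnd ℂ) (g x)) z :=
    Complex.conjCLE.contDiff.contDiffAt.comp z hg
  have hJ : ContDiffAt ℝ ∞ (fun x => JJ (f x) (g x)) z := (hf.mul h1).sub (hg.mul h2)
  have hJi : ContDiffAt ℝ ∞ (fun x => (JJ (f x) (g x))⁻¹) z := hJ.inv (JJ_ne hlt)
  fin_cases i <;> fin_cases j
  · exact (hf.mul h1).mul hJi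
  · exact (hf.mul h2).neg.mul hJi
  · exact (hg.mul h1).mul hJi
  · exact (hg.mul h2).neg.mul hJi

lemma kron_conj (A A' B : Matrix (Fin N) (Fin N) ℂ) (e : Matrix (Fin 2) (Fin 2) ℂ) :
    ((1 : Matrix (Fin 2) (Fin 2) ℂ) ⊗ₖ A) * (e ⊗ₖ B) * ((1 : Matrix (Fin 2) (Fin 2) ℂ) ⊗ₖ A') =
      e ⊗ₖ (A * B * A') := by
  rw [← Matrix.mul_kronecker_mul, ← Matrix.mul_kronecker_mul, one_mul, mul_one]

lemma hq_conj {g g' : Matrix (Fin N) (Fin N) ℂ} (h1 : g * g' = 1) (h2 : g' * g = 1)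
    (E : Matrix (Fin N) (Fin N) ℂ) (p : ℕ) : hq w (g * E * g') p = g * hq w E p * g' := by
  unfold hq
  split_ifs
  · exact hpr_conj h1 h2 w p
  · simp

/-- shifted Hodge projector -/
def shq (w : ℕ) (n : ℕ) (E : Matrix (Fin N) (Fin N) ℂ) : Matrix (Fin N) (Fin N) ℂ :=
  match n with
  | 0 => 0
  | n + 1 => hq w E n

lemma shq_conj {g g' : Matrix (Fin N) (Fin N) ℂ} (h1 : g * g' = 1) (h2 : g' * g = 1)
    (E : Matrix (Fin N) (Fin N) ℂ) (n : ℕ) : shq w n (g * E * g') = g * shq w n E * g' := by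
  cases n with
  | zero => simp [shq]
  | succ n => exact hq_conj h1 h2 E n

lemma contDiffAt_shq {F : E → Matrix (Fin N) (Fin N) ℂ}
    (hF : ∀ i j, ContDiffAt ℝ ∞ (fun x => F x i j) z) (n : ℕ) (i j : Fin N) :
    ContDiffAt ℝ ∞ (fun x => shq w n (F x) i j) z := by
  cases n with
  | zero => simp only [shq, Matrix.zero_apply]; exact contDiffAt_const
  | succ n => exact contDiffAt_hq hF n i j

end smooth

variable {m : ℕ} {S : Type*} [TopologicalSpace S] [RDom m S] {k N w : ℕ} {Q : Punc S k}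

section TF

variable {V : Ipc735.VHS (m + 1) (Tot Q) N w} {s₀ : S} (D : LD V s₀)

lemma T_eq (n : ℕ) (z : Fin m → ℂ) (x : ℂ) :
    D.T n z x = e1 (D.Bm.P (D.b z) x) (D.Bm.Q (D.b z) x) ⊗ₖ shq w n (D.E z x) +
      (1 - e1 (D.Bm.P (D.b z) x) (D.Bm.Q (D.b z) x)) ⊗ₖ hq w (D.E z x) n := by
  unfold LD.T
  rw [tot_eq]
  cases n with
  | zero => rfl
  | succ n => rfl

/-- the total types in the frame at `x₁` -/
def TF (D : LD V s₀) (n : ℕ) (x₁ : ℂ) (p : (Fin m → ℂ) × ℂ) : MM N :=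
  ((1 : Matrix (Fin 2) (Fin 2) ℂ) ⊗ₖ cm (rP Q V.P s₀ x₁ p.2)) * D.T n p.1 p.2 *
    ((1 : Matrix (Fin 2) (Fin 2) ℂ) ⊗ₖ cm (rP Q V.P s₀ x₁ p.2)⁻¹)

lemma TF_eq (n : ℕ) (x₁ : ℂ) (p : (Fin m → ℂ) × ℂ) :
    TF D n x₁ p = e1 (D.Bm.P (D.b p.1) p.2) (D.Bm.Q (D.b p.1) p.2) ⊗ₖ shq w n (D.Fr x₁ p) +
      (1 - e1 (D.Bm.P (D.b p.1) p.2) (D.Bm.Q (D.b p.1) p.2)) ⊗ₖ hq w (D.Fr x₁ p) n := by
  unfold TF LD.Fr
  rw [T_eq, mul_add, add_mul, kron_conj, kron_conj,
    shq_conj (cm_mul_cm_inv _) (cm_inv_mul_cm _), hq_conj (cm_mul_cm_inv _) (cm_inv_mul_cm _)]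

variable {D} in
lemma contDiffAt_Pz {p : (Fin m → ℂ) × ℂ} (hz : p.1 ∈ D.U) :
    ContDiffAt ℝ ∞ (fun p : (Fin m → ℂ) × ℂ => D.Bm.P (D.b p.1) p.2) p := by
  have h1 : ContDiffAt ℝ ∞ (fun p : (Fin m → ℂ) × ℂ => ((D.b p.1, p.2) : (Fin k → ℂ) × ℂ)) p := by
    refine ContDiffAt.prodMk ?_ contDiffAt_snd
    exact ContDiffAt.comp p (by exact LD.contDiffAt_b hz) contDiffAt_fst
  have h2 : ContDiffAt ℝ ∞ (fun z : (Fin k → ℂ) × ℂ => D.Bm.P z.1 z.2) (D.b p.1, p.2) :=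
    D.Bm.contDiff_P.contDiffAt
  exact ContDiffAt.comp (g := fun z : (Fin k → ℂ) × ℂ => D.Bm.P z.1 z.2)
    (f := fun p : (Fin m → ℂ) × ℂ => ((D.b p.1, p.2) : (Fin k → ℂ) × ℂ)) p h2 h1

variable {D} in
lemma contDiffAt_Qz {p : (Fin m → ℂ) × ℂ} (hz : p.1 ∈ D.U) :
    ContDiffAt ℝ ∞ (fun p : (Fin m → ℂ) × ℂ => D.Bm.Q (D.b p.1) p.2) p := by
  have h1 : ContDiffAt ℝ ∞ (fun p : (Fin m → ℂ) × ℂ => ((D.b p.1, p.2) : (Fin k → ℂ) × ℂ)) p := by
    refine ContDiffAt.prodMk ?_ contDiffAt_snd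
    exact ContDiffAt.comp p (by exact LD.contDiffAt_b hz) contDiffAt_fst
  have h2 : ContDiffAt ℝ ∞ (fun z : (Fin k → ℂ) × ℂ => D.Bm.Q z.1 z.2) (D.b p.1, p.2) :=
    D.Bm.contDiff_Q.contDiffAt
  exact ContDiffAt.comp (g := fun z : (Fin k → ℂ) × ℂ => D.Bm.Q z.1 z.2)
    (f := fun p : (Fin m → ℂ) × ℂ => ((D.b p.1, p.2) : (Fin k → ℂ) × ℂ)) p h2 h1

variable {D} in
/-- joint smoothness of the total types -/
theorem sm_TF {z₁ : Fin m → ℂ} {x₁ : ℂ} (hz₁ : z₁ ∈ D.U) (hx₁ : x₁ ∉ Q.A s₀) (n : ℕ)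
    (i j : Fin 2 × Fin N) : ContDiffAt ℝ ∞ (fun p => TF D n x₁ p i j) (z₁, x₁) := by
  simp only [TF_eq, Matrix.add_apply, Matrix.kroneckerMap_apply, Matrix.sub_apply]
  have hlt : ‖D.Bm.Q (D.b ((z₁, x₁) : (Fin m → ℂ) × ℂ).1) ((z₁, x₁) : (Fin m → ℂ) × ℂ).2‖ <
      ‖D.Bm.P (D.b ((z₁, x₁) : (Fin m → ℂ) × ℂ).1) ((z₁, x₁) : (Fin m → ℂ) × ℂ).2‖ :=
    D.Bm.norm_Q_lt_norm_P (LD.norm_b hz₁) x₁
  have he := contDiffAt_e1 (contDiffAt_Pz (D := D) (p := (z₁, x₁)) hz₁)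
    (contDiffAt_Qz (D := D) (p := (z₁, x₁)) hz₁) hlt
  have hs := LD.sm_Fr (D := D) hz₁ hx₁
  exact ((he i.1 j.1).mul (contDiffAt_shq hs n i.2 j.2)).add
    ((contDiffAt_const.sub (he i.1 j.1)).mul (contDiffAt_hq hs n i.2 j.2))



end TF

/-! ### the bundle of one-forms over a fibre -/

/-- `M` is the bundle of one-forms with values in `R`, with the Hodge metric; `b` the operator of the
form -/
structure IsFm {A : Finset ℂ} (R : PVHS A N w) (M : MB (VV N) ((A : Set ℂ)ᶜ))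
    (b : ℂ → (VV N →L[ℂ] VV N)) : Prop where
  P : ∀ x ∉ A, ∀ y ∉ A, ∀ u, M.P x y u = (cm (R.P x y) *ᵥ u.1, cm (R.P x y) *ᵥ u.2)
  G : ∀ x ∉ A, ∀ u v, M.G x u v = star u.1 ⬝ᵥ R.H x *ᵥ v.1 + star u.2 ⬝ᵥ R.H x *ᵥ v.2
  bE : ∀ x ∉ A, ∀ u, b x u = (-(weil w (R.E x) *ᵥ u.1), weil w (R.E x) *ᵥ u.2)
  okb : M.Ok b

section fm

variable {A : Finset ℂ} {R : PVHS A N w} {M : MB (VV N) ((A : Set ℂ)ᶜ)} {b : ℂ → (VV N →L[ℂ] VV N)}

lemma IsFm.P_opT (h : IsFm R M b) {x y : ℂ} (hx : x ∉ A) (hy : y ∉ A) :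
    M.P x y = opT ((1 : Matrix (Fin 2) (Fin 2) ℂ) ⊗ₖ cm (R.P x y)) := by
  refine ContinuousLinearMap.ext fun u => ?_
  rw [h.P x hx y hy, opT_apply, kron_vp, uvL_vp]
  simp

/-- near the diagonal the backward transport is the inverse -/
lemma ev_inv (R : PVHS A N w) {x : ℂ} (hx : x ∉ A) : ∀ᶠ y in 𝓝 x, y ∉ A ∧ R.P y x = (R.P x y)⁻¹ := by
  have hx' : x ∈ (A : Set ℂ)ᶜ := by simpa using hx
  obtain ⟨U, hU, h⟩ := R.ndc x hx'
  have hd : R.P x x = 1 := R.ndc.diag hx'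
  filter_upwards [hU, eventually_notMem A hx] with y hy hyA
  refine ⟨hyA, ?_⟩
  have h1 := h x (mem_of_mem_nhds hU) y hy x (mem_of_mem_nhds hU)
  rw [hd] at h1
  exact eq_inv_of_mul_eq_one_right h1

/-- an operator field given by matrices, seen in the frame at `x` -/
lemma IsFm.trO_opT (h : IsFm R M b) (F : ℂ → MM N) {x : ℂ} (hx : x ∉ A) :
    ∀ᶠ y in 𝓝 x, M.trO x (fun y => opT (F y)) y =
      opT (((1 : Matrix (Fin 2) (Fin 2) ℂ) ⊗ₖ cm (R.P x y)) * F y *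
        ((1 : Matrix (Fin 2) (Fin 2) ℂ) ⊗ₖ cm (R.P x y)⁻¹)) := by
  filter_upwards [ev_inv R hx] with y hy
  unfold FB.trO
  rw [h.P_opT hx hy.1, h.P_opT hy.1 hx, hy.2, opT_mul, opT_mul]

lemma IsFm.smO_opT (h : IsFm R M b) {F : ℂ → MM N}
    (hF : ∀ x ∉ A, ∀ i j, ContDiffAt ℝ ∞ (fun y =>
      (((1 : Matrix (Fin 2) (Fin 2) ℂ) ⊗ₖ cm (R.P x y)) * F y *
        ((1 : Matrix (Fin 2) (Fin 2) ℂ) ⊗ₖ cm (R.P x y)⁻¹)) i j) x) :
    M.SmO (fun y => opT (F y)) := by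
  intro x hx
  have hx' : x ∉ A := by simpa using hx
  refine ContDiffAt.congr_of_eventuallyEq ?_ (h.trO_opT F hx')
  exact contDiffAt_opT (hF x hx')

end fm

/-! ### the forms on the fibre over `s₀` -/

lemma weil_mul_weil {S' E' : Matrix (Fin N) (Fin N) ℂ} (h : IsHS w S' E') :
    weil w E' * weil w E' = 1 := by
  conv_lhs => rw [show weil w E' * weil w E' = weil w E' *
    ∑ p ∈ Finset.range (w + 1), (-1 : ℂ) ^ p • hpr w p E' from rfl]
  rw [Finset.mul_sum, ← sum_hpr w E']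
  refine Finset.sum_congr rfl fun p hp => ?_
  rw [mul_smul_comm, h.weil_mul_hpr (by have := Finset.mem_range.1 hp; omega), smul_smul, ← pow_add,
    Even.neg_one_pow ⟨p, rfl⟩, one_smul]

lemma star_opT_dot (A K : MM N) (u v : VV N) :
    star (vp (opT A u).1 (opT A u).2) ⬝ᵥ K *ᵥ vp v.1 v.2 =
      star (vp u.1 u.2) ⬝ᵥ (Aᴴ * K) *ᵥ vp v.1 v.2 := by
  rw [vp_opT, Matrix.star_mulVec, ← Matrix.dotProduct_mulVec, Matrix.mulVec_mulVec]

section ptFam

variable {V : Ipc735.VHS (m + 1) (Tot Q) N w} {s₀ : S} (D : LD V s₀)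

/-- total types, weight `w + 1` -/
theorem vhs_T' {x : ℂ} (hx : x ∉ Q.A s₀) :
    VCalc_442.VHS (w + 1) D.U (s1 ⊗ₖ V.S (Tot.mk Q s₀ x hx)) (fun p z => D.T p z x) := by
  have h := D.vhs_T hx
  rwa [Nat.add_comm] at h

lemma mi_one : mi 1 0 = 1 := by
  ext i j
  fin_cases i <;> fin_cases j <;> simp [mi]

lemma JJ_one : JJ 1 0 = 1 := by simp [JJ]

/-- the Hodge metric of the total types at the centre is the Hodge metric of the forms -/
theorem hm_center {x : ℂ} (hx : x ∉ Q.A s₀) :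
    VCalc_442.hm (w + 1) (s1 ⊗ₖ V.S (Tot.mk Q s₀ x hx)) (fun p z => D.T p z x) (cp s₀) =
      (1 : Matrix (Fin 2) (Fin 2) ℂ) ⊗ₖ
        hodge w (V.S (Tot.mk Q s₀ x hx)) (V.E (Tot.mk Q s₀ x hx)) := by
  have h := hm_tot (D.pair x) (D.vhs_E hx) D.center_mem
  have e1 : D.Bm.P (D.b (cp s₀)) x = 1 := by rw [D.b_center, D.Bm.P_zero]
  have e2 : D.Bm.Q (D.b (cp s₀)) x = 0 := by rw [D.b_center, D.Bm.Q_zero]
  simp only [e1, e2] at h
  rw [mi_one, JJ_one, inv_one, one_smul, Matrix.conjTranspose_one, mul_one, Nat.add_comm 1 w] at h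
  have e3 : VCalc_442.hm w (V.S (Tot.mk Q s₀ x hx)) (fun p z => hq w (D.E z x) p) (cp s₀) =
      hodge w (V.S (Tot.mk Q s₀ x hx)) (V.E (Tot.mk Q s₀ x hx)) := by
    unfold VCalc_442.hm hodge
    rw [sgOp_hq (fun z => D.E z x), D.E_center hx]
  rw [e3] at h
  exact h

lemma H_res {x : ℂ} (hx : x ∉ Q.A s₀) : (V.res s₀).H x =
    hodge w (V.S (Tot.mk Q s₀ x hx)) (V.E (Tot.mk Q s₀ x hx)) := by
  unfold PVHS.H
  rw [(V.isRes s₀).S, (V.isRes s₀).E, rM_of V.S hx, rM_of V.E hx]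

variable {M : MB (VV N) ((Q.A s₀ : Set ℂ)ᶜ)} {b : ℂ → (VV N →L[ℂ] VV N)}

/-- the metric in terms of the total types at the centre -/
lemma G_eq (h : IsFm (V.res s₀) M b) {x : ℂ} (hx : x ∉ Q.A s₀) (u v : VV N) :
    M.G x u v = star (vp u.1 u.2) ⬝ᵥ
      VCalc_442.hm (w + 1) (s1 ⊗ₖ V.S (Tot.mk Q s₀ x hx)) (fun p z => D.T p z x) (cp s₀) *ᵥ
        vp v.1 v.2 := by
  rw [h.G x hx, hm_center D hx, dot_vp_one, H_res hx]

lemma gn_eq (h : IsFm (V.res s₀) M b) {x : ℂ} (hx : x ∉ Q.A s₀) (u : VV N) :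
    gn M x u = BndA_563.hn
      (VCalc_442.hm (w + 1) (s1 ⊗ₖ V.S (Tot.mk Q s₀ x hx)) (fun p z => D.T p z x) (cp s₀))
        (vp u.1 u.2) := by
  unfold gn BndA_563.hn
  rw [G_eq D h hx]

/-- the form -/
lemma Gb_eq (h : IsFm (V.res s₀) M b) {x : ℂ} (hx : x ∉ Q.A s₀) (u v : VV N) :
    M.G x (b x u) v = star (vp u.1 u.2) ⬝ᵥ (s1 ⊗ₖ V.S (Tot.mk Q s₀ x hx)) *ᵥ vp v.1 v.2 := by
  rw [h.G x hx, h.bE x hx, H_res hx, (V.isRes s₀).E, rM_of V.E hx, s1, dot_vp]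
  have hHS := V.hs (Tot.mk Q s₀ x hx)
  have key : ∀ a c : Fin N → ℂ, star (weil w (V.E (Tot.mk Q s₀ x hx)) *ᵥ a) ⬝ᵥ
      hodge w (V.S (Tot.mk Q s₀ x hx)) (V.E (Tot.mk Q s₀ x hx)) *ᵥ c =
      star a ⬝ᵥ V.S (Tot.mk Q s₀ x hx) *ᵥ c := by
    intro a c
    unfold hodge
    rw [Matrix.star_mulVec, ← Matrix.dotProduct_mulVec, Matrix.mulVec_mulVec, ← mul_assoc,
      ← hHS.S_weil, mul_assoc, weil_mul_weil hHS, mul_one]
  simp only [star_neg, neg_dotProduct, key]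
  ring

/-! #### bounds -/

/-- the parameter domain -/
def U2 (D : LD V s₀) : Set (Fin m → ℂ) := ball (cp s₀ : Fin m → ℂ) (D.r / 2)

lemma isOpen_U2 : IsOpen (U2 D) := isOpen_ball

lemma U2_sub : U2 D ⊆ D.U := ball_subset_ball (by have := D.r_pos; linarith)

lemma center_U2 : (cp s₀ : Fin m → ℂ) ∈ U2 D := mem_ball_self (half_pos D.r_pos)

lemma bd_T (h : IsFm (V.res s₀) M b) {z : Fin m → ℂ} (hz : z ∈ U2 D) (P : ℕ) :
    M.Bd (fun x => opT (D.T P z x)) (Real.exp (BndA_563.C0 (Fin 2 × Fin N))) := by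
  refine ⟨(Real.exp_pos _).le, fun x hx u => ?_⟩
  have hx' : x ∉ Q.A s₀ := by simpa using hx
  have h1 := BndA_563.hn_P_le' (vhs_T' D hx') D.r_pos (Subset.refl _) P (vp u.1 u.2) hz
    (center_U2 D)
  show gn M x (opT (D.T P z x) u) ≤ _ * gn M x u
  rw [gn_eq D h hx', gn_eq D h hx', vp_opT]
  exact h1

section nm

attribute [local instance] Matrix.linftyOpNormedRing Matrix.linftyOpNormedAlgebra

lemma diff_T {z : Fin m → ℂ} (hz : z ∈ D.U) {x : ℂ} (hx : x ∉ Q.A s₀) (P : ℕ) :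
    DifferentiableAt ℝ (fun z => opT (D.T P z x)) z :=
  diff_opT ((vhs_T' D hx).dP P hz)

lemma bd_dT (h : IsFm (V.res s₀) M b) {z : Fin m → ℂ} (hz : z ∈ U2 D) (P : ℕ) {x : ℂ}
    (hx : x ∉ Q.A s₀) (t : Fin m → ℂ) (u : VV N) :
    gn M x (fderiv ℝ (fun z => opT (D.T P z x)) z t u) ≤
      (Real.exp (BndA_563.C0 (Fin 2 × Fin N)) * BndA_563.C0 (Fin 2 × Fin N) / D.r * ‖t‖) ^ 2 *
        gn M x u := by
  have hz' := U2_sub D hz
  have h1 := BndA_563.hn_fderiv_P_le' (vhs_T' D hx) D.r_pos (Subset.refl _) P (vp u.1 u.2) t hz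
    (center_U2 D)
  rw [fderiv_opT_apply ((vhs_T' D hx).dP P hz'), gn_eq D h hx, gn_eq D h hx, vp_uvL]
  refine h1.trans (le_of_eq ?_)
  have := D.r_pos
  field_simp

end nm

/-! #### smoothness on the fibre -/

lemma smO_T (h : IsFm (V.res s₀) M b) {z : Fin m → ℂ} (hz : z ∈ D.U) (P : ℕ) :
    M.SmO (fun x => opT (D.T P z x)) := by
  refine h.smO_opT (F := fun x => D.T P z x) fun x hx i j => ?_
  rw [(V.isRes s₀).P]
  have h1 : ContDiffAt ℝ ∞ (fun y : ℂ => ((z, y) : (Fin m → ℂ) × ℂ)) x :=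
    contDiffAt_const.prodMk contDiffAt_id
  exact ContDiffAt.comp (g := fun p => TF D P x p i j)
    (f := fun y : ℂ => ((z, y) : (Fin m → ℂ) × ℂ)) x (sm_TF hz hx P i j) h1

/-- `A ↦ P A P'` -/
def lr (P P' : VV N →L[ℂ] VV N) : (VV N →L[ℂ] VV N) →L[ℂ] (VV N →L[ℂ] VV N) :=
  ((ContinuousLinearMap.compL ℂ (VV N) (VV N) (VV N)).flip P').comp
    (ContinuousLinearMap.compL ℂ (VV N) (VV N) (VV N) P)

lemma lr_apply (P P' A : VV N →L[ℂ] VV N) : lr P P' A = P * A * P' := rfl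

lemma smD_T (h : IsFm (V.res s₀) M b) {z : Fin m → ℂ} (hz : z ∈ D.U) (P : ℕ) (t : Fin m → ℂ) :
    M.SmO (fun x => fderiv ℝ (fun z => opT (D.T P z x)) z t) := by
  intro x hx
  have hx' : x ∉ Q.A s₀ := by simpa using hx
  -- the derivative in the frame at `x`
  have hev : M.trO x (fun x => fderiv ℝ (fun z => opT (D.T P z x)) z t) =ᶠ[𝓝 x]
      fun y => fderiv ℝ (fun z => opT (TF D P x (z, y))) z t := by
    filter_upwards [ev_inv (V.res s₀) hx'] with y hy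
    unfold FB.trO
    have h1 : (fun z => opT (TF D P x (z, y))) = fun z =>
        lr (M.P x y) (M.P y x) (opT (D.T P z y)) := by
      funext z
      rw [lr_apply, h.P_opT hx' hy.1, h.P_opT hy.1 hx', hy.2, TF,
        opT_mul, opT_mul, (V.isRes s₀).P]
    have h2 := ((lr (M.P x y) (M.P y x)).restrictScalars ℝ).hasFDerivAt.comp z
      (diff_T D hz hy.1 P).hasFDerivAt
    have h3 : HasFDerivAt (fun z => opT (TF D P x (z, y)))
        (((lr (M.P x y) (M.P y x)).restrictScalars ℝ).comp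
          (fderiv ℝ (fun z => opT (D.T P z y)) z)) z := by
      rw [h1]
      exact h2
    rw [h3.fderiv]
    rfl
  refine ContDiffAt.congr_of_eventuallyEq ?_ hev
  -- joint smoothness
  have hj : ContDiffAt ℝ ∞ (Function.uncurry fun (y : ℂ) (z : Fin m → ℂ) =>
      opT (TF D P x (z, y))) (x, z) := by
    have h1 : ContDiffAt ℝ ∞ (fun p : (Fin m → ℂ) × ℂ => opT (TF D P x p)) (z, x) :=
      contDiffAt_opT (sm_TF hz hx' P)
    have h2 : ContDiffAt ℝ ∞ (fun q : ℂ × (Fin m → ℂ) => ((q.2, q.1) : (Fin m → ℂ) × ℂ)) (x, z) :=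
      contDiffAt_snd.prodMk contDiffAt_fst
    exact ContDiffAt.comp (g := fun p : (Fin m → ℂ) × ℂ => opT (TF D P x p))
      (f := fun q : ℂ × (Fin m → ℂ) => ((q.2, q.1) : (Fin m → ℂ) × ℂ)) (x, z) h1 h2
  have h4 : ContDiffAt ℝ ∞ (fun y => fderiv ℝ (fun z => opT (TF D P x (z, y))) z) x :=
    ContDiffAt.fderiv (f := fun (y : ℂ) (z : Fin m → ℂ) => opT (TF D P x (z, y)))
      (g := fun _ => z) hj contDiffAt_const (by simp)
  exact h4.clm_apply contDiffAt_const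

/-! #### types -/

lemma dfam_T (h : IsFm (V.res s₀) M b) {z₀ : Fin m → ℂ} (hz₀ : z₀ ∈ U2 D) (P : ℕ) :
    DFam M (fun z x => opT (D.T P z x)) z₀ := by
  obtain ⟨ρ, hρ, hball⟩ := Metric.isOpen_iff.1 (isOpen_U2 D) z₀ hz₀
  refine dfam_of_deriv_bound hρ (fun z hz => smO_T D h (U2_sub D (hball hz)) P)
    ⟨_, bd_T D h hz₀ P⟩ (fun x hx z hz => diff_T D (U2_sub D (hball hz)) (by simpa using hx) P)
    (fun t => smD_T D h (U2_sub D hz₀) P t)
    (C := Real.exp (BndA_563.C0 (Fin 2 × Fin N)) * BndA_563.C0 (Fin 2 × Fin N) / D.r) ?_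
    (fun x hx z hz t u => bd_dT D h (hball hz) P (by simpa using hx) t u)
  have h1 := BndA_563.C0_nonneg (Fin 2 × Fin N)
  have h2 := D.r_pos
  positivity

lemma jf_eq (z : Fin m → ℂ) (x : ℂ) (n : ℕ) : jf n (fun P x => opT (D.T P z x)) x =
    opT (VCalc_442.sgOp n (fun p z => D.T p z x) z) := by
  unfold jf VCalc_442.sgOp
  rw [opT_sum]
  exact Finset.sum_congr rfl fun P _ => (opT_smul _ _).symm

lemma qf_eq (z : Fin m → ℂ) (x : ℂ) (n P : ℕ) : qf n (fun P x => opT (D.T P z x)) P x =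
    opT (BndA_563.Fp n (fun p z => D.T p z x) P z) := by
  unfold qf BndA_563.Fp
  rw [opT_sum]
  refine Finset.sum_congr ?_ fun _ _ => rfl
  ext Q'
  simp only [Finset.mem_Ico, Finset.mem_Icc]
  omega

/-- the type decomposition at one parameter value -/
theorem ptTypes (h : IsFm (V.res s₀) M b) {z : Fin m → ℂ} (hz : z ∈ U2 D) :
    PtTypes M (w + 1) (fun P x => opT (D.T P z x)) b
      (Real.exp (BndA_563.C0 (Fin 2 × Fin N)))⁻¹ where
  cpos := inv_pos.2 (Real.exp_pos _)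
  okp P _ := ⟨smO_T D h (U2_sub D hz) P, _, bd_T D h hz P⟩
  okb := h.okb
  sum x hx v := by
    have hx' : x ∉ Q.A s₀ := by simpa using hx
    have h1 := (vhs_T' D hx').sum z (U2_sub D hz)
    have h2 : (∑ P ∈ Finset.range (w + 1 + 1), opT (D.T P z x)) v = v := by
      rw [← opT_sum, h1, opT_one]
      rfl
    rw [_root_.sum_apply] at h2
    exact h2
  idem x hx P _ v := by
    have hx' : x ∉ Q.A s₀ := by simpa using hx
    have h1 := (vhs_T' D hx').idem z (U2_sub D hz) P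
    show (opT (D.T P z x) * opT (D.T P z x)) v = _
    rw [← opT_mul, h1]
  mul0 x hx P _ Q' _ hne v := by
    have hx' : x ∉ Q.A s₀ := by simpa using hx
    have h1 := (vhs_T' D hx').orth z (U2_sub D hz) P Q' hne
    show (opT (D.T P z x) * opT (D.T Q' z x)) v = _
    rw [← opT_mul, h1, opT_zero]
    rfl
  orth x hx P _ Q' _ hne u v := by
    have hx' : x ∉ Q.A s₀ := by simpa using hx
    have hV := vhs_T' D hx'
    have h1 := hV.orth z (U2_sub D hz) P Q' hne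
    rw [Gb_eq h hx', star_opT_dot, hV.adj z (U2_sub D hz) P, vp_opT, Matrix.mulVec_mulVec,
      mul_assoc, h1, mul_zero, Matrix.zero_mulVec, dotProduct_zero]
  coer x hx u := by
    have hx' : x ∉ Q.A s₀ := by simpa using hx
    have hV := vhs_T' D hx'
    have hC : 0 < Real.exp (BndA_563.C0 (Fin 2 × Fin N)) := Real.exp_pos _
    rw [jf_eq, Gb_eq h hx', star_opT_dot, hV.adjC (U2_sub D hz)]
    have h1 := BndA_563.hn_le hV D.r_pos (Subset.refl _) (vp u.1 u.2) (center_U2 D) hz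
    have h2 := gn_eq D h hx' u
    show (Real.exp (BndA_563.C0 (Fin 2 × Fin N)))⁻¹ * gn M x u ≤
      BndA_563.hn (VCalc_442.hm (w + 1) (s1 ⊗ₖ V.S (Tot.mk Q s₀ x hx')) (fun p z => D.T p z x) z)
        (vp u.1 u.2)
    rw [h2, inv_mul_le_iff₀ hC]
    exact h1

section nm2

attribute [local instance] Matrix.linftyOpNormedRing Matrix.linftyOpNormedAlgebra

/-- holomorphy and transversality of the total Hodge filtration, pointwise -/
theorem hol_trans {z : Fin m → ℂ} (hz : z ∈ D.U) {x : ℂ} (hx : x ∉ Q.A s₀) (P : ℕ) {v : VV N}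
    (hv : qf (w + 1) (fun P x => opT (D.T P z x)) P x v = v) :
    (∀ t : Fin m → ℂ,
      fderiv ℝ (fun z => qf (w + 1) (fun P x => opT (D.T P z x)) P x) z (Complex.I • t) v =
        Complex.I • fderiv ℝ (fun z => qf (w + 1) (fun P x => opT (D.T P z x)) P x) z t v) ∧
    (∀ t : Fin m → ℂ, qf (w + 1) (fun P x => opT (D.T P z x)) (P - 1) x
      (fderiv ℝ (fun z => qf (w + 1) (fun P x => opT (D.T P z x)) P x) z t v) =
        fderiv ℝ (fun z => qf (w + 1) (fun P x => opT (D.T P z x)) P x) z t v) := by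
  have hV := vhs_T' D hx
  have e1 : (fun z => qf (w + 1) (fun P x => opT (D.T P z x)) P x) =
      fun z => opT (BndA_563.Fp (w + 1) (fun p z => D.T p z x) P z) := funext fun z => qf_eq D z x _ P
  have hd : DifferentiableAt ℝ (BndA_563.Fp (w + 1) (fun p z => D.T p z x) P) z :=
    BndA_563.diff_Fp hV hz P
  rw [qf_eq] at hv
  have hv' : BndA_563.Fp (w + 1) (fun p z => D.T p z x) P z *ᵥ vp v.1 v.2 = vp v.1 v.2 := by
    rw [← vp_opT, hv]
  obtain ⟨h1, h2⟩ := BndA_563.fderiv_Fp hV hz P hv'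
  rw [e1]
  refine ⟨fun t => ?_, fun t => ?_⟩
  · rw [fderiv_opT_apply hd, fderiv_opT_apply hd, h1, map_smul]
  · rw [fderiv_opT_apply hd, qf_eq, opT_apply, vp_uvL, h2]

end nm2

/-- **the pointwise input of the L² half** -/
theorem ptFam (h : IsFm (V.res s₀) M b) :
    PtFam M (w + 1) (fun z P x => opT (D.T P z x)) b (U2 D) where
  isOpen := isOpen_U2 D
  dfam z₀ hz₀ P _ := dfam_T D h hz₀ P
  types z₀ hz₀ := ⟨_, by
    filter_upwards [(isOpen_U2 D).mem_nhds hz₀] with z hz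
    exact ptTypes D h hz⟩
  hol z₀ hz₀ x hx P v hv t :=
    (hol_trans D (U2_sub D hz₀) (by simpa using hx) P hv).1 t
  trans z₀ hz₀ x hx P v hv t :=
    (hol_trans D (U2_sub D hz₀) (by simpa using hx) (P + 1) hv).2 t

end ptFam

end Crest.Agent.R276.FamB_563
end
private theorem rz_146afa82f4 : type_of% @_root_.Crest.Agent.R276.FamB_563.shq.eq_1 := @_root_.Crest.Agent.R276.FamB_563.shq.eq_1 -- L239
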