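import Mathlib

/-!
# Poisson inequality for continuous submean functions on the closed disc (helper999, row 276)

`u` continuous on the closed unit disc, `u c ≤` mean of `u` over small circles about `c` (all `c` in
the open disc).  Then `u c ≤` Poisson integral of `u` over the unit circle.
-/

namespace Crest.Agent.R276.Poi_999

open MeasureTheory Metric Filter Topology
open Real (circleAverage circleAverage_const)

/-- submean on small circles -/
def SubM (u : ℂ → ℝ) : Prop :=
  ∀ c ∈ ball (0 : ℂ) 1, ∃ r0 > 0, ∀ r, 0 < r → r < r0 → u c ≤ circleAverage u c r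


/-- maximum principle -/
theorem le_zero_of_boundary {u : ℂ → ℝ} (hu : ContinuousOn u (closedBall 0 1)) (hs : SubM u)
    (hb : ∀ z ∈ sphere (0 : ℂ) 1, u z ≤ 0) : ∀ z ∈ closedBall (0 : ℂ) 1, u z ≤ 0 := by
  have hK : IsCompact (closedBall (0 : ℂ) 1) := isCompact_closedBall _ _
  obtain ⟨z0, hz0, hmax⟩ := hK.exists_isMaxOn ⟨0, by simp⟩ hu
  by_contra hcon
  push Not at hcon
  obtain ⟨w, hw, hwpos⟩ := hcon
  set M := u z0 with hM
  have hMpos : 0 < M := lt_of_lt_of_le hwpos (hmax hw)
  -- the set where the maximum is attained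
  have hS : IsCompact (closedBall (0 : ℂ) 1 ∩ {z | u z = M}) := by
    have hcl : IsClosed (closedBall (0 : ℂ) 1 ∩ u ⁻¹' {M}) :=
      hu.preimage_isClosed_of_isClosed isClosed_closedBall isClosed_singleton
    exact hK.of_isClosed_subset hcl Set.inter_subset_left
  obtain ⟨c, ⟨hc1, hc2⟩, hcmax⟩ := hS.exists_isMaxOn ⟨z0, hz0, rfl⟩
    (f := fun z : ℂ => ‖z‖) continuous_norm.continuousOn
  have hc2' : u c = M := hc2
  have hcb : ‖c‖ < 1 := by
    rcases lt_or_eq_of_le (by simpa using hc1 : ‖c‖ ≤ 1) with h | h
    · exact h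
    · exfalso
      have := hb c (by simp [h])
      linarith
  obtain ⟨r0, hr0, hsub⟩ := hs c (by simpa using hcb)
  set r := min (r0 / 2) ((1 - ‖c‖) / 2) with hr
  have hrpos : 0 < r := lt_min (by positivity) (by linarith)
  have hr1 : r < r0 := lt_of_le_of_lt (min_le_left _ _) (by linarith)
  have hr2 : r ≤ (1 - ‖c‖) / 2 := min_le_right _ _
  have hin : ∀ θ : ℝ, circleMap c r θ ∈ closedBall (0 : ℂ) 1 := by
    intro θ
    rw [mem_closedBall_zero_iff]
    have h1 : ‖circleMap c r θ - c‖ = r := by
      simp [circleMap, abs_of_pos hrpos]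
    calc ‖circleMap c r θ‖ = ‖(circleMap c r θ - c) + c‖ := by ring_nf
      _ ≤ ‖circleMap c r θ - c‖ + ‖c‖ := norm_add_le _ _
      _ ≤ 1 := by rw [h1]; linarith
  have hcont : Continuous fun θ : ℝ => u (circleMap c r θ) := by
    rw [← continuousOn_univ]
    exact hu.comp (continuous_circleMap c r).continuousOn (fun θ _ => hin θ)
  -- all values on the circle are M
  have hall : ∀ θ : ℝ, u (circleMap c r θ) = M := by
    have h1 := hsub r hrpos hr1
    rw [hc2'] at h1
    have h2 : ∀ θ : ℝ, u (circleMap c r θ) ≤ M := fun θ => hmax (hin θ)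
    intro θ
    by_contra hne
    have hlt : 0 < M - u (circleMap c r θ) := by
      have := h2 θ
      rcases lt_or_eq_of_le this with h | h
      · linarith
      · exact absurd h hne
    have hper : Function.Periodic (fun x : ℝ => M - u (circleMap c r x)) (2 * Real.pi) := by
      intro x; simp only [periodic_circleMap c r x]
    have hpos2 : 0 < ∫ x in θ..θ + 2 * Real.pi, (M - u (circleMap c r x)) := by
      apply intervalIntegral.integral_pos (by linarith [Real.pi_pos])
      · exact (continuous_const.sub hcont).continuousOn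
      · intro x _; exact sub_nonneg.mpr (h2 x)
      · exact ⟨θ, ⟨le_refl _, by linarith [Real.pi_pos]⟩, hlt⟩
    rw [hper.intervalIntegral_add_eq θ 0, zero_add,
      intervalIntegral.integral_sub (continuous_const.intervalIntegrable _ _)
        (hcont.intervalIntegrable _ _), intervalIntegral.integral_const] at hpos2
    have h3 : (2 * Real.pi)⁻¹ * ∫ x in (0 : ℝ)..2 * Real.pi, u (circleMap c r x) = 
        circleAverage u c r := by
      simp [circleAverage]
    have hpi : 0 < 2 * Real.pi := by positivity
    have h4 : ∫ x in (0 : ℝ)..2 * Real.pi, u (circleMap c r x) =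
        2 * Real.pi * circleAverage u c r := by
      rw [← h3]; field_simp
    rw [h4] at hpos2
    simp only [sub_zero, smul_eq_mul] at hpos2
    nlinarith
  -- a point of larger modulus
  obtain ⟨θ, hθ⟩ : ∃ θ : ℝ, ‖c‖ < ‖circleMap c r θ‖ := by
    refine ⟨Complex.arg c, ?_⟩
    have h1 : circleMap c r (Complex.arg c) = ((‖c‖ + r : ℝ) : ℂ) * Complex.exp (Complex.arg c * Complex.I) := by
      have h0 : (‖c‖ : ℂ) * Complex.exp (Complex.arg c * Complex.I) = c :=
        Complex.norm_mul_exp_arg_mul_I c
      rw [circleMap, Complex.ofReal_add, add_mul, h0]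
    rw [h1, norm_mul, Complex.norm_exp_ofReal_mul_I, mul_one, Complex.norm_real,
      Real.norm_of_nonneg (by positivity)]
    linarith
  have := hcmax ⟨hin θ, hall θ⟩
  exact absurd hθ (not_lt.mpr this)

/-- the real part of a polynomial -/
noncomputable def reP (P : Polynomial ℂ) (z : ℂ) : ℝ := (P.eval z).re

theorem reP_cont (P : Polynomial ℂ) : Continuous (reP P) :=
  Complex.continuous_re.comp P.continuous

theorem reP_mean (P : Polynomial ℂ) (c : ℂ) (r : ℝ) : circleAverage (reP P) c r = reP P c := by
  have h1 : DiffContOnCl ℂ (fun z => P.eval z) (ball c |r|) := P.differentiable.diffContOnCl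
  have h2 := h1.circleAverage
  have h3 : CircleIntegrable (fun z => P.eval z) c r := P.continuous.continuousOn.circleIntegrable'
  have h4 := Complex.reCLM.circleAverage_comp_comm h3
  rw [h2] at h4
  exact h4

theorem reP_poisson (P : Polynomial ℂ) {w : ℂ} (hw : w ∈ ball (0 : ℂ) 1) :
    circleAverage (fun z => (herglotzRieszKernel 0 w z).re * reP P z) 0 1 = reP P w := by
  have h1 : DiffContOnCl ℂ (fun z => P.eval z) (ball (0 : ℂ) 1) := P.differentiable.diffContOnCl
  have h2 := h1.circleAverage_re_herglotzRieszKernel_smul hw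
  have hk : ContinuousOn (herglotzRieszKernel 0 w) (sphere (0 : ℂ) |(1 : ℝ)|) :=
    continuousOn_herglotzRieszKernel_sphere hw
  have h3 : CircleIntegrable ((Complex.re ∘ herglotzRieszKernel 0 w) • fun z => P.eval z) 0 1 := by
    apply ContinuousOn.circleIntegrable'
    exact (Complex.continuous_re.comp_continuousOn hk).smul P.continuous.continuousOn
  have h4 := Complex.reCLM.circleAverage_comp_comm h3
  rw [h2] at h4
  rw [show reP P w = Complex.reCLM (P.eval w) from rfl, ← h4]
  congr 1
  ext z
  simp [reP, Complex.mul_re]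

/-- density: every continuous function on the circle is approximated by real parts of
polynomials -/
theorem exists_reP {f : ℂ → ℝ} (hf : ContinuousOn f (sphere 0 1)) {ε : ℝ} (hε : 0 < ε) :
    ∃ P : Polynomial ℂ, ∀ z ∈ sphere (0 : ℂ) 1, |reP P z - f z| < ε := by
  classical
  have hT : Fact (0 < 2 * Real.pi) := ⟨by positivity⟩
  -- the function on AddCircle
  have hmem : ∀ x : AddCircle (2 * Real.pi), ((AddCircle.toCircle x : Circle) : ℂ) ∈ sphere (0 : ℂ) 1 := by
    intro x
    rw [mem_sphere_zero_iff_norm]
    exact Circle.norm_coe _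
  have hcont : Continuous fun x : AddCircle (2 * Real.pi) => f ((AddCircle.toCircle x : Circle) : ℂ) := by
    rw [← continuousOn_univ]
    refine hf.comp ?_ (fun x _ => hmem x)
    exact (continuous_subtype_val.comp AddCircle.continuous_toCircle).continuousOn
  let F : C(AddCircle (2 * Real.pi), ℂ) :=
    ⟨fun x => ((f ((AddCircle.toCircle x : Circle) : ℂ) : ℝ) : ℂ), Complex.continuous_ofReal.comp hcont⟩
  have hF : F ∈ (Submodule.span ℂ (Set.range <| @fourier (2 * Real.pi))).topologicalClosure := by
    rw [span_fourier_closure_eq_top]; trivial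
  rw [← SetLike.mem_coe, Submodule.topologicalClosure_coe, Metric.mem_closure_iff] at hF
  obtain ⟨G, hG, hdist⟩ := hF ε hε
  -- G is a trigonometric polynomial, hence has real part reP P
  have key : ∀ G ∈ Submodule.span ℂ (Set.range <| @fourier (2 * Real.pi)), ∀ a : ℂ,
      ∃ P : Polynomial ℂ, ∀ x : AddCircle (2 * Real.pi),
        (a * G x).re = reP P ((AddCircle.toCircle x : Circle) : ℂ) := by
    intro G hG
    induction hG using Submodule.span_induction with
    | mem G hG =>
      intro a
      obtain ⟨k, rfl⟩ := hG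
      rcases le_total 0 k with hk | hk
      · refine ⟨Polynomial.C a * Polynomial.X ^ k.toNat, fun x => ?_⟩
        simp only [reP, Polynomial.eval_pow, Polynomial.eval_X, Polynomial.eval_mul,
          Polynomial.eval_C]
        rw [fourier_apply]
        have : (k.toNat : ℤ) = k := Int.toNat_of_nonneg hk
        conv_lhs => rw [← this]
        rw [natCast_zsmul, AddCircle.toCircle_nsmul]
        simp
      · refine ⟨Polynomial.C (star a) * Polynomial.X ^ (-k).toNat, fun x => ?_⟩
        simp only [reP, Polynomial.eval_pow, Polynomial.eval_X, Polynomial.eval_mul,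
          Polynomial.eval_C]
        rw [fourier_apply]
        have h1 : ((-k).toNat : ℤ) = -k := Int.toNat_of_nonneg (by linarith)
        have h2 : k • x = -(((-k).toNat : ℤ) • x) := by rw [h1]; simp
        rw [h2, natCast_zsmul, AddCircle.toCircle_neg, AddCircle.toCircle_nsmul]
        rw [Circle.coe_inv_eq_conj]
        simp only [Complex.star_def, Complex.mul_re, Complex.conj_re, Complex.conj_im,
          Circle.coe_pow]
        ring
    | zero => intro a; exact ⟨0, fun x => by simp [reP]⟩
    | add G1 G2 _ _ h1 h2 =>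
      intro a
      obtain ⟨P1, hP1⟩ := h1 a
      obtain ⟨P2, hP2⟩ := h2 a
      refine ⟨P1 + P2, fun x => ?_⟩
      simp only [ContinuousMap.add_apply, mul_add, Complex.add_re, hP1, hP2, reP,
        Polynomial.eval_add]
    | smul b G _ h =>
      intro a
      obtain ⟨P, hP⟩ := h (a * b)
      refine ⟨P, fun x => ?_⟩
      rw [← hP x, ContinuousMap.smul_apply, smul_eq_mul, mul_assoc]
  obtain ⟨P, hP⟩ := key G hG 1
  refine ⟨P, fun z hz => ?_⟩
  obtain ⟨x, hx⟩ : ∃ x : AddCircle (2 * Real.pi), ((AddCircle.toCircle x : Circle) : ℂ) = z := by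
    refine ⟨((Complex.arg z : ℝ) : AddCircle (2 * Real.pi)), ?_⟩
    have hz1 : ‖z‖ = 1 := by simpa using hz
    rw [AddCircle.toCircle_apply_mk, Circle.coe_exp]
    have h1 : (2 * Real.pi / (2 * Real.pi) : ℝ) = 1 := by
      field_simp
    rw [h1, one_mul]
    conv_rhs => rw [← Complex.norm_mul_exp_arg_mul_I z, hz1]
    simp
  rw [← hx, ← hP x, one_mul]
  have h1 : dist (F x) (G x) < ε := lt_of_le_of_lt (ContinuousMap.dist_apply_le_dist x) hdist
  have h2 : (G x).re - f ((AddCircle.toCircle x : Circle) : ℂ) = (G x - F x).re := by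
    simp [F]
  rw [h2]
  refine lt_of_le_of_lt (Complex.abs_re_le_norm _) ?_
  rw [← dist_eq_norm, dist_comm]; exact h1

/-- **Poisson inequality.** -/
theorem poisson_le {u : ℂ → ℝ} (hu : ContinuousOn u (closedBall 0 1)) (hs : SubM u)
    {w : ℂ} (hw : w ∈ ball (0 : ℂ) 1) :
    u w ≤ circleAverage (fun z => (herglotzRieszKernel 0 w z).re * u z) 0 1 := by
  have hk : ContinuousOn (fun z => (herglotzRieszKernel 0 w z).re) (sphere (0 : ℂ) |(1 : ℝ)|) :=
    Complex.continuous_re.comp_continuousOn (continuousOn_herglotzRieszKernel_sphere hw)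
  have hus : ContinuousOn u (sphere (0 : ℂ) |(1 : ℝ)|) := by
    rw [abs_one]; exact hu.mono sphere_subset_closedBall
  have hi1 : CircleIntegrable (fun z => (herglotzRieszKernel 0 w z).re * u z) 0 1 :=
    ContinuousOn.circleIntegrable' (hk.mul hus)
  have hknn : ∀ z ∈ sphere (0 : ℂ) 1, 0 ≤ (herglotzRieszKernel 0 w z).re := by
    intro z hz
    have h1 := le_re_herglotzRieszKernel (c := 0) hz hw
    refine le_trans ?_ h1
    have h2 : ‖w‖ < 1 := by simpa using hw
    rw [sub_zero]
    exact div_nonneg (by linarith) (by positivity)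
  have hk1 : circleAverage (fun z => (herglotzRieszKernel 0 w z).re) 0 1 = 1 := by
    have := reP_poisson 1 hw
    simpa [reP] using this
  refine le_of_forall_pos_le_add fun ε hε => ?_
  obtain ⟨P, hP⟩ := exists_reP (f := u) (hu.mono sphere_subset_closedBall) (half_pos hε)
  -- u ≤ reP P + ε/2 on the disc
  have h1 : u w ≤ reP P w + ε / 2 := by
    have hv : ContinuousOn (fun z => u z - (reP P z + ε / 2)) (closedBall 0 1) :=
      hu.sub ((reP_cont P).continuousOn.add continuousOn_const)
    have hvs : SubM (fun z => u z - (reP P z + ε / 2)) := by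
      intro c hc
      obtain ⟨r0, hr0, hsub⟩ := hs c hc
      have hcn : ‖c‖ < 1 := by simpa using hc
      refine ⟨min r0 (1 - ‖c‖), lt_min hr0 (by linarith), fun r hr hr' => ?_⟩
      have hr1 : r < r0 := lt_of_lt_of_le hr' (min_le_left _ _)
      have hr2 : r < 1 - ‖c‖ := lt_of_lt_of_le hr' (min_le_right _ _)
      have hiu : CircleIntegrable u c r := by
        apply ContinuousOn.circleIntegrable hr.le
        apply hu.mono
        intro z hz
        rw [mem_closedBall_zero_iff]
        have : ‖z - c‖ = r := by simpa [dist_eq_norm] using hz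
        calc ‖z‖ = ‖(z - c) + c‖ := by ring_nf
          _ ≤ ‖z - c‖ + ‖c‖ := norm_add_le _ _
          _ ≤ 1 := by rw [this]; linarith
      have hiP : CircleIntegrable (fun z => reP P z + ε / 2) c r :=
        ((reP_cont P).add continuous_const).continuousOn.circleIntegrable'
      have hiP' : CircleIntegrable (reP P) c r := (reP_cont P).continuousOn.circleIntegrable'
      have hic : CircleIntegrable (fun _ : ℂ => ε / 2) c r :=
        continuous_const.continuousOn.circleIntegrable'
      rw [Real.circleAverage_fun_sub hiu hiP, Real.circleAverage_fun_add hiP' hic, reP_mean,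
        circleAverage_const]
      have := hsub r hr hr1
      linarith
    have := le_zero_of_boundary hv hvs (fun z hz => by
      have := hP z hz
      rw [abs_lt] at this
      linarith [this.1]) w (ball_subset_closedBall hw)
    linarith
  have h2 : reP P w ≤ circleAverage (fun z => (herglotzRieszKernel 0 w z).re * u z) 0 1 + ε / 2 := by
    rw [← reP_poisson P hw]
    have hi2 : CircleIntegrable (fun z => (herglotzRieszKernel 0 w z).re * reP P z) 0 1 :=
      ContinuousOn.circleIntegrable' (hk.mul (reP_cont P).continuousOn)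
    have hik : CircleIntegrable (fun z => (herglotzRieszKernel 0 w z).re) 0 1 :=
      ContinuousOn.circleIntegrable' hk
    have hi3 : CircleIntegrable (fun z => (ε / 2) • (herglotzRieszKernel 0 w z).re) 0 1 :=
      ContinuousOn.circleIntegrable' (hk.const_smul (ε / 2))
    have h3 : circleAverage (fun z => (herglotzRieszKernel 0 w z).re * reP P z) 0 1 ≤
        circleAverage (fun z => (herglotzRieszKernel 0 w z).re * u z +
          (ε / 2) • (herglotzRieszKernel 0 w z).re) 0 1 := by
      apply Real.circleAverage_mono hi2 (hi1.add hi3)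
      intro z hz
      rw [abs_one] at hz
      have h4 := hknn z hz
      have h5 := (abs_lt.mp (hP z hz)).2
      simp only [smul_eq_mul, Pi.add_apply]
      nlinarith
    rw [Real.circleAverage_fun_add hi1 hi3, Real.circleAverage_fun_smul, hk1] at h3
    simpa using h3
  linarith

end Crest.Agent.R276.Poi_999
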