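import Mathlib
import Crest.Agent.R276.Avg_999
import Crest.Agent.R276.Poi_999

-- ▼ part R276/Nc_999
section

/-!
# Constancy of norms along leaves (helper999, row 276)

LEMMA N (posts 835, 1072), step (N3): in the situation of the averaging principle, let `W p` be the
matrices of the dual norms; if `log (b* W b)` is submean along lifted discs for every constant `b`
and everything is bounded, then the norm `a* W⁻¹ a` is constant along lifted discs.
-/

set_option linter.unusedSectionVars false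

namespace Crest.Agent.R276.Nc_999

open MeasureTheory Metric Filter Topology Matrix
open scoped ComplexOrder
open Real (circleAverage circleAverage_const)
open Crest.Agent.R276.Avg_999

section matrix

variable {s : ℕ}

/-- the real quadratic form of a matrix -/
noncomputable def qf (W : Matrix (Fin s) (Fin s) ℂ) (v : Fin s → ℂ) : ℝ :=
  (star v ⬝ᵥ (W *ᵥ v)).re

theorem qf_pos {W : Matrix (Fin s) (Fin s) ℂ} (hW : W.PosDef) {v : Fin s → ℂ} (hv : v ≠ 0) :
    0 < qf W v := hW.re_dotProduct_pos hv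

theorem qf_nonneg {W : Matrix (Fin s) (Fin s) ℂ} (hW : W.PosDef) (v : Fin s → ℂ) :
    0 ≤ qf W v := hW.posSemidef.re_dotProduct_nonneg v

theorem im_zero {W : Matrix (Fin s) (Fin s) ℂ} (hW : W.IsHermitian) (v : Fin s → ℂ) :
    (star v ⬝ᵥ (W *ᵥ v)).im = 0 := by
  have h : star (star v ⬝ᵥ (W *ᵥ v)) = star v ⬝ᵥ (W *ᵥ v) := by
    rw [← star_dotProduct_star, star_star, star_mulVec, hW.eq, dotProduct_comm,
      dotProduct_comm v, dotProduct_comm (star v ᵥ* W), dotProduct_comm v,
      ← dotProduct_mulVec]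
  have := congrArg Complex.im h
  simp at this
  linarith

theorem cs {W : Matrix (Fin s) (Fin s) ℂ} (hW : W.PosDef) (a b : Fin s → ℂ) :
    ‖star b ⬝ᵥ a‖ ^ 2 ≤ qf W b * qf W⁻¹ a := by
  by_cases hb : b = 0
  · simp [hb, qf]
  have hWb := qf_pos hW hb
  have hM : (W⁻¹).PosDef := hW.inv
  set c : ℂ := star b ⬝ᵥ a with hc
  set β : ℝ := qf W b with hβ
  -- v = a - (c/β) W b
  have key := qf_nonneg hM (a - (c / β) • (W *ᵥ b))
  have hinv : W⁻¹ *ᵥ (W *ᵥ b) = b := by
    rw [mulVec_mulVec, nonsing_inv_mul _ ((isUnit_iff_isUnit_det W).mp hW.isUnit), one_mulVec]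
  have hWbc : star b ⬝ᵥ (W *ᵥ b) = (β : ℂ) := by
    apply Complex.ext
    · rw [hβ]; simp [qf]
    · rw [im_zero hW.isHermitian]; simp
  have h1 : star (W *ᵥ b) ⬝ᵥ (W⁻¹ *ᵥ a) = c := by
    rw [star_mulVec, hW.isHermitian.eq, ← dotProduct_mulVec, mulVec_mulVec,
      mul_nonsing_inv _ ((isUnit_iff_isUnit_det W).mp hW.isUnit), one_mulVec]
  have h2 : star a ⬝ᵥ b = star c := by
    rw [hc, star_dotProduct]
  have h3 : star (W *ᵥ b) ⬝ᵥ b = (β : ℂ) := by
    rw [star_mulVec, hW.isHermitian.eq, ← dotProduct_mulVec, hWbc]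
  have hexp : star (a - (c / β) • (W *ᵥ b)) ⬝ᵥ (W⁻¹ *ᵥ (a - (c / β) • (W *ᵥ b))) =
      star a ⬝ᵥ (W⁻¹ *ᵥ a) - (c / β) * star c - star (c / (β : ℂ)) * c +
        star (c / (β : ℂ)) * (c / β) * β := by
    rw [mulVec_sub, mulVec_smul, hinv, star_sub, star_smul, sub_dotProduct, dotProduct_sub,
      dotProduct_sub, dotProduct_smul, smul_dotProduct, smul_dotProduct, dotProduct_smul,
      h1, h2, h3]
    simp only [smul_eq_mul]
    ring
  have hre : qf W⁻¹ (a - (c / β) • (W *ᵥ b)) = qf W⁻¹ a - ‖c‖ ^ 2 / β := by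
    unfold qf
    rw [hexp]
    have hβ0 : (β : ℂ) ≠ 0 := by exact_mod_cast hWb.ne'
    have hcc : c * star c = ((‖c‖ ^ 2 : ℝ) : ℂ) := by
      rw [Complex.star_def, Complex.mul_conj, Complex.normSq_eq_norm_sq]
    have e1 : (c / β) * star c = ((‖c‖ ^ 2 / β : ℝ) : ℂ) := by
      rw [div_mul_eq_mul_div, hcc]; push_cast; rfl
    have e2 : star (c / (β : ℂ)) * c = ((‖c‖ ^ 2 / β : ℝ) : ℂ) := by
      rw [star_div₀]
      have : star (β : ℂ) = β := Complex.conj_ofReal β
      rw [this, div_mul_eq_mul_div, mul_comm, hcc]; push_cast; rfl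
    have e3 : star (c / (β : ℂ)) * (c / β) * β = ((‖c‖ ^ 2 / β : ℝ) : ℂ) := by
      rw [mul_assoc, div_mul_cancel₀ _ hβ0, e2]
    rw [e1, e2, e3]
    simp only [Complex.add_re, Complex.sub_re, Complex.ofReal_re]
    ring
  rw [hre] at key
  have : ‖c‖ ^ 2 / β ≤ qf W⁻¹ a := by linarith
  rw [div_le_iff₀ hWb] at this
  linarith

theorem cs_eq {W : Matrix (Fin s) (Fin s) ℂ} (hW : W.PosDef) (a : Fin s → ℂ) :
    star (W⁻¹ *ᵥ a) ⬝ᵥ a = (qf W⁻¹ a : ℂ) ∧ qf W (W⁻¹ *ᵥ a) = qf W⁻¹ a := by
  have hM : (W⁻¹).PosDef := hW.inv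
  have h1 : star (W⁻¹ *ᵥ a) ⬝ᵥ a = (qf W⁻¹ a : ℂ) := by
    rw [star_mulVec, hM.isHermitian.eq, ← dotProduct_mulVec]
    apply Complex.ext
    · simp [qf]
    · rw [im_zero hM.isHermitian]; simp
  refine ⟨h1, ?_⟩
  unfold qf
  rw [mulVec_mulVec, mul_nonsing_inv _ ((isUnit_iff_isUnit_det W).mp hW.isUnit), one_mulVec, h1]
  simp [qf]

end matrix

variable {X E K : Type*} [TopologicalSpace X] [TopologicalSpace E]
variable [Group K] [TopologicalSpace K] [IsTopologicalGroup K] [CompactSpace K]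
  [MeasurableSpace K] [BorelSpace K] [MulAction K E] [ContinuousSMul K E]
variable [T2Space K] [SecondCountableTopology K] [FirstCountableTopology X]
  [LocallyCompactSpace X]
variable (μ : Measure K) [IsProbabilityMeasure μ] [μ.IsMulLeftInvariant] [μ.IsOpenPosMeasure]

theorem lift_smul {P : Set (X × E)} (hP : Tor K P) {d : ℂ → X} {T : ℂ → E} (h : IsLift P d T)
    (g : K) : IsLift P d (fun t => g • T t) :=
  ⟨h.contd, continuousOn_const.smul h.contT, fun t ht => hP.act _ _ _ (h.mem t ht)⟩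

theorem cont_lift {P : Set (X × E)} {d : ℂ → X} {T : ℂ → E} (h : IsLift P d T)
    {F : Type*} [TopologicalSpace F] {f : X × E → F} (hf : ContinuousOn f P) :
    Continuous (fun θ : ℝ => f (d (circleMap 0 1 θ), T (circleMap 0 1 θ))) := by
  rw [← continuousOn_univ]
  refine hf.comp (t := P) ?_ ?_
  · apply ContinuousOn.prodMk
    · exact h.contd.comp (continuous_circleMap 0 1).continuousOn (fun θ _ => circleMap_mem θ)
    · exact h.contT.comp (continuous_circleMap 0 1).continuousOn (fun θ _ => circleMap_mem θ)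
  · intro θ _; exact h.mem _ (circleMap_mem θ)

theorem circleIntegrable_lift {P : Set (X × E)} {d : ℂ → X} {T : ℂ → E} (h : IsLift P d T)
    {f : X × E → ℝ} (hf : ContinuousOn f P) :
    CircleIntegrable (fun t => f (d t, T t)) 0 1 :=
  (cont_lift h hf).intervalIntegrable 0 (2 * Real.pi)

/-- Jensen equality: if `F` is continuous on the circle, and `F 0 = avg F`, `exp (F 0) = avg exp F`
then `F = F 0` on the circle. -/
theorem eq_of_exp_avg {F : ℂ → ℝ} (hc : Continuous fun θ : ℝ => F (circleMap 0 1 θ))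
    (h1 : F 0 = circleAverage F 0 1)
    (h2 : Real.exp (F 0) = circleAverage (fun t => Real.exp (F t)) 0 1) :
    ∀ θ : ℝ, F (circleMap 0 1 θ) = F 0 := by
  set m := F 0 with hm
  let G : ℂ → ℝ := fun t => Real.exp (F t) - Real.exp m * (1 + (F t - m))
  have hG0 : ∀ t, 0 ≤ G t := by
    intro t
    simp only [G]
    have := Real.add_one_le_exp (F t - m)
    have h3 : Real.exp (F t) = Real.exp m * Real.exp (F t - m) := by
      rw [← Real.exp_add]; congr 1; ring
    rw [h3]
    have := Real.exp_pos m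
    nlinarith
  have hGc : Continuous fun θ : ℝ => G (circleMap 0 1 θ) := by
    simp only [G]
    exact (Real.continuous_exp.comp hc).sub
      (continuous_const.mul (continuous_const.add (hc.sub continuous_const)))
  have hi1 : CircleIntegrable F 0 1 := hc.intervalIntegrable _ _
  have hi2 : CircleIntegrable (fun t => Real.exp (F t)) 0 1 :=
    (Real.continuous_exp.comp hc).intervalIntegrable _ _
  have hGavg : circleAverage G 0 1 = 0 := by
    have : G = (fun t => Real.exp (F t)) - (fun t => Real.exp m * (1 - m) + Real.exp m * F t) := by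
      ext t; simp only [G, Pi.sub_apply]; ring
    have hi3 : CircleIntegrable (fun t => Real.exp m * F t) 0 1 := by
      have : Continuous fun θ : ℝ => Real.exp m * F (circleMap 0 1 θ) := continuous_const.mul hc
      exact this.intervalIntegrable _ _
    have hi4 : CircleIntegrable (fun _ : ℂ => Real.exp m * (1 - m)) 0 1 := by
      have : Continuous fun _ : ℝ => Real.exp m * (1 - m) := continuous_const
      exact this.intervalIntegrable _ _
    rw [this, Real.circleAverage_sub (f₂ := fun t => Real.exp m * (1 - m) + Real.exp m * F t)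
      hi2 (hi4.add hi3)]
    have h5 : circleAverage (fun t => Real.exp m * (1 - m) + Real.exp m * F t) 0 1 =
        Real.exp m * (1 - m) + Real.exp m * circleAverage F 0 1 := by
      rw [Real.circleAverage_fun_add hi4 hi3, circleAverage_const]
      congr 1
      have := Real.circleAverage_fun_smul (a := Real.exp m) (f := F) (c := 0) (R := 1)
      simpa using this
    rw [h5, ← h1, ← h2]; ring
  intro θ
  by_contra hne
  have hpos : 0 < G (circleMap 0 1 θ) := by
    simp only [G]
    have hx : F (circleMap 0 1 θ) - m ≠ 0 := sub_ne_zero.mpr hne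
    have := Real.add_one_lt_exp hx
    have h3 : Real.exp (F (circleMap 0 1 θ)) = Real.exp m * Real.exp (F (circleMap 0 1 θ) - m) := by
      rw [← Real.exp_add]; congr 1; ring
    rw [h3]
    have := Real.exp_pos m
    nlinarith
  -- move θ to [0, 2π)
  have hint : ∫ x in (0 : ℝ)..2 * Real.pi, G (circleMap 0 1 x) = 0 := by
    have := hGavg
    unfold circleAverage at this
    have hpi : (2 * Real.pi)⁻¹ ≠ 0 := by positivity
    simpa [hpi] using this
  have hper : Function.Periodic (fun x : ℝ => G (circleMap 0 1 x)) (2 * Real.pi) := by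
    intro x; simp only [periodic_circleMap 0 1 x]
  have hint2 : ∫ x in θ..θ + 2 * Real.pi, G (circleMap 0 1 x) = 0 := by
    rw [hper.intervalIntegral_add_eq θ 0, zero_add]; exact hint
  have hpos2 : 0 < ∫ x in θ..θ + 2 * Real.pi, G (circleMap 0 1 x) := by
    apply intervalIntegral.integral_pos (by linarith [Real.pi_pos])
    · exact hGc.continuousOn
    · intro x _; exact hG0 _
    · exact ⟨θ, ⟨le_refl _, by linarith [Real.pi_pos]⟩, hpos⟩
  linarith

include μ in
/-- **Constancy of norms.** -/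
theorem norm_const {s : ℕ} {P : Set (X × E)} (hP : Tor K P)
    (W : X × E → Matrix (Fin s) (Fin s) ℂ) (hW : ∀ p ∈ P, (W p).PosDef)
    (hWc : ContinuousOn W P) (a : Fin s → ℂ) (ha : a ≠ 0)
    (C1 : ℝ) (hC1 : ∀ p ∈ P, ∀ b, qf (W p) b ≤ C1 * ‖b‖ ^ 2)
    (C2 : ℝ) (hC2 : ∀ p ∈ P, qf (W p)⁻¹ a ≤ C2)
    (D : Set ((ℂ → X) × (ℂ → E))) (hD : ∀ p ∈ D, IsLift P p.1 p.2)
    (hsub : ∀ p ∈ D, ∀ g : K, ∀ b : Fin s → ℂ, b ≠ 0 →
      Real.log (qf (W (p.1 0, g • p.2 0)) b) ≤
        circleAverage (fun t => Real.log (qf (W (p.1 t, g • p.2 t)) b)) 0 1)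
    (hL : ∀ A : X → ℝ, Continuous A → (∃ C, ∀ x, A x ≤ C) →
      (∀ p ∈ D, A (p.1 0) ≤ circleAverage (fun t => A (p.1 t)) 0 1) → ∀ x y, A x = A y)
    (hloc : ∀ x, ∃ U ∈ 𝓝 x, ∃ S : X → E, ContinuousOn S U ∧ ∀ z ∈ U, (z, S z) ∈ P) :
    ∀ p ∈ D, ∀ g : K, ∀ θ : ℝ,
      qf (W (p.1 (circleMap 0 1 θ), g • p.2 (circleMap 0 1 θ)))⁻¹ a =
        qf (W (p.1 0, g • p.2 0))⁻¹ a := by
  -- continuity of the quadratic forms
  have hqc : ∀ b : Fin s → ℂ, ContinuousOn (fun p => qf (W p) b) P := by
    intro b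
    have : Continuous fun A : Matrix (Fin s) (Fin s) ℂ => qf A b := by
      unfold qf
      apply Complex.continuous_re.comp
      apply Continuous.dotProduct continuous_const
      exact continuous_id.matrix_mulVec continuous_const
    exact this.comp_continuousOn hWc
  have hqi : ContinuousOn (fun p => qf (W p)⁻¹ a) P := by
    have h1 : ContinuousOn (fun p => (W p)⁻¹) P := by
      have : ∀ p, (W p)⁻¹ = (W p).det⁻¹ • (W p).adjugate := by
        intro p; rw [Matrix.inv_def, Ring.inverse_eq_inv']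
      simp only [this]
      have hdet : ContinuousOn (fun p => (W p).det⁻¹) P := by
        apply ContinuousOn.inv₀
        · exact (Continuous.matrix_det continuous_id).comp_continuousOn hWc
        · intro p hp
          exact ((isUnit_iff_isUnit_det _).mp (hW p hp).isUnit).ne_zero
      have hadj : ContinuousOn (fun p => (W p).adjugate) P :=
        (Continuous.matrix_adjugate continuous_id).comp_continuousOn hWc
      exact hdet.smul hadj
    have : Continuous fun A : Matrix (Fin s) (Fin s) ℂ => qf A a := by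
      unfold qf
      apply Complex.continuous_re.comp
      apply Continuous.dotProduct continuous_const
      exact continuous_id.matrix_mulVec continuous_const
    exact this.comp_continuousOn h1
  -- step 1: equality for the dual norms
  have hlogc : ∀ b : Fin s → ℂ, b ≠ 0 → ContinuousOn (fun p => Real.log (qf (W p) b)) P := by
    intro b hb
    exact (hqc b).log (fun p hp => (qf_pos (hW p hp) hb).ne')
  have step1 : ∀ b : Fin s → ℂ, b ≠ 0 → ∀ p ∈ D, ∀ g : K,
      Real.log (qf (W (p.1 0, g • p.2 0)) b) =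
        circleAverage (fun t => Real.log (qf (W (p.1 t, g • p.2 t)) b)) 0 1 := by
    intro b hb
    refine avg_eq μ hP (fun p => Real.log (qf (W p) b)) (hlogc b hb)
      (Real.log (C1 * ‖b‖ ^ 2)) ?_ D hD (fun p hp g => hsub p hp g b hb) hL hloc
    intro p hp
    exact Real.log_le_log (qf_pos (hW p hp) hb) (hC1 p hp b)
  -- step 2: submean for the norm
  have hap : ∀ p ∈ P, 0 < qf (W p)⁻¹ a := fun p hp => qf_pos (hW p hp).inv ha
  have hlogi : ContinuousOn (fun p => Real.log (qf (W p)⁻¹ a)) P :=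
    hqi.log (fun p hp => (hap p hp).ne')
  have step2 : ∀ p ∈ D, ∀ g : K,
      Real.log (qf (W (p.1 0, g • p.2 0))⁻¹ a) ≤
        circleAverage (fun t => Real.log (qf (W (p.1 t, g • p.2 t))⁻¹ a)) 0 1 := by
    intro p hp g
    have hlift := lift_smul hP (hD p hp) g
    have hp0 : (p.1 0, g • p.2 0) ∈ P := hlift.mem 0 (by simp)
    set W0 := W (p.1 0, g • p.2 0) with hW0
    set b := W0⁻¹ *ᵥ a with hb
    obtain ⟨e1, e2⟩ := cs_eq (hW _ hp0) a
    rw [← hW0, ← hb] at e1 e2
    have hα : 0 < qf W0⁻¹ a := hap _ hp0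
    have hb0 : b ≠ 0 := by
      intro h0
      rw [h0] at e2
      simp only [qf, star_zero, zero_dotProduct, Complex.zero_re] at e2
      rw [← show (qf W0⁻¹ a) = (star a ⬝ᵥ (W0⁻¹ *ᵥ a)).re from rfl] at e2
      exact hα.ne e2
    have h1 := step1 b hb0 p hp g
    have hint1 := circleIntegrable_lift hlift (hlogc b hb0)
    have hint2 := circleIntegrable_lift hlift hlogi
    have h2 : circleAverage (fun t => 2 * Real.log (qf W0⁻¹ a) -
        Real.log (qf (W (p.1 t, g • p.2 t)) b)) 0 1 ≤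
        circleAverage (fun t => Real.log (qf (W (p.1 t, g • p.2 t))⁻¹ a)) 0 1 := by
      apply Real.circleAverage_mono
      · have hc : CircleIntegrable (fun _ : ℂ => 2 * Real.log (qf W0⁻¹ a)) 0 1 := by
          have : Continuous fun _ : ℝ => 2 * Real.log (qf W0⁻¹ a) := continuous_const
          exact this.intervalIntegrable _ _
        exact hc.sub hint1
      · exact hint2
      · intro t ht
        have ht' : t ∈ closedBall (0 : ℂ) 1 := by
          rw [mem_sphere_zero_iff_norm] at ht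
          simp only [abs_one] at ht
          simp [ht]
        have hpt := hlift.mem t ht'
        have hcs := cs (hW _ hpt) a b
        have hn : ‖star b ⬝ᵥ a‖ = qf W0⁻¹ a := by
          rw [e1, Complex.norm_real, Real.norm_of_nonneg hα.le]
        rw [hn] at hcs
        have hq1 := qf_pos (hW _ hpt) hb0
        have hq2 := hap _ hpt
        have h3 := Real.log_le_log (by positivity) hcs
        rw [Real.log_pow, Real.log_mul hq1.ne' hq2.ne'] at h3
        push_cast at h3
        linarith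
    have h3 : circleAverage (fun t => 2 * Real.log (qf W0⁻¹ a) -
        Real.log (qf (W (p.1 t, g • p.2 t)) b)) 0 1 = Real.log (qf W0⁻¹ a) := by
      have hc : CircleIntegrable (fun _ : ℂ => 2 * Real.log (qf W0⁻¹ a)) 0 1 := by
        have : Continuous fun _ : ℝ => 2 * Real.log (qf W0⁻¹ a) := continuous_const
        exact this.intervalIntegrable _ _
      rw [Real.circleAverage_fun_sub hc hint1, circleAverage_const, ← h1, e2]
      ring
    rw [h3] at h2
    exact h2
  -- step 3: equality for the norm and for its exponential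
  have hbd : ∀ p ∈ P, Real.log (qf (W p)⁻¹ a) ≤ Real.log C2 := fun p hp =>
    Real.log_le_log (hap p hp) (hC2 p hp)
  have step3 := avg_eq μ hP (fun p => Real.log (qf (W p)⁻¹ a)) hlogi (Real.log C2) hbd D hD
    step2 hL hloc
  have hexp : ∀ p ∈ P, Real.exp (Real.log (qf (W p)⁻¹ a)) = qf (W p)⁻¹ a := fun p hp =>
    Real.exp_log (hap p hp)
  have step4 := avg_eq μ hP (fun p => Real.exp (Real.log (qf (W p)⁻¹ a)))
    (Real.continuous_exp.comp_continuousOn hlogi) C2 (fun p hp => by
      rw [hexp p hp]; exact hC2 p hp) D hD ?_ hL hloc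
  · intro p hp g θ
    have hlift := lift_smul hP (hD p hp) g
    have hp0 : (p.1 0, g • p.2 0) ∈ P := hlift.mem 0 (by simp)
    have hpt := hlift.mem _ (circleMap_mem θ)
    have := eq_of_exp_avg (F := fun t => Real.log (qf (W (p.1 t, g • p.2 t))⁻¹ a))
      (cont_lift hlift hlogi) (step3 p hp g) (step4 p hp g) θ
    have h2 := congrArg Real.exp this
    rw [hexp _ hp0, hexp _ hpt] at h2
    exact h2
  · -- Jensen
    intro p hp g
    have hlift := lift_smul hP (hD p hp) g
    have h3 := step3 p hp g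
    set F : ℂ → ℝ := fun t => Real.log (qf (W (p.1 t, g • p.2 t))⁻¹ a) with hF
    have hi1 : CircleIntegrable F 0 1 := circleIntegrable_lift hlift hlogi
    have hi2 : CircleIntegrable (fun t => Real.exp (F t)) 0 1 :=
      (Real.continuous_exp.comp (cont_lift hlift hlogi)).intervalIntegrable _ _
    change Real.exp (F 0) ≤ circleAverage (fun t => Real.exp (F t)) 0 1
    set m := F 0 with hm
    have hi4 : CircleIntegrable (fun _ : ℂ => Real.exp m * (1 - m)) 0 1 := by
      have : Continuous fun _ : ℝ => Real.exp m * (1 - m) := continuous_const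
      exact this.intervalIntegrable _ _
    have hi3 : CircleIntegrable (fun t => Real.exp m * F t) 0 1 := by
      have : Continuous fun θ : ℝ => Real.exp m * F (circleMap 0 1 θ) :=
        continuous_const.mul (cont_lift hlift hlogi)
      exact this.intervalIntegrable _ _
    have h5 : circleAverage (fun t => Real.exp m * (1 - m) + Real.exp m * F t) 0 1 =
        Real.exp m * (1 - m) + Real.exp m * circleAverage F 0 1 := by
      rw [Real.circleAverage_fun_add hi4 hi3, circleAverage_const]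
      congr 1
      have := Real.circleAverage_fun_smul (a := Real.exp m) (f := F) (c := 0) (R := 1)
      simpa using this
    have h6 : circleAverage (fun t => Real.exp m * (1 - m) + Real.exp m * F t) 0 1 ≤
        circleAverage (fun t => Real.exp (F t)) 0 1 := by
      apply Real.circleAverage_mono (hi4.add hi3) hi2
      intro t _
      have := Real.add_one_le_exp (F t - m)
      have h7 : Real.exp (F t) = Real.exp m * Real.exp (F t - m) := by
        rw [← Real.exp_add]; congr 1; ring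
      rw [h7]
      have := Real.exp_pos m
      simp only [Pi.add_apply]
      nlinarith
    rw [h5] at h6
    have h8 : m = circleAverage F 0 1 := h3
    rw [← h8] at h6
    linarith

end Crest.Agent.R276.Nc_999
end

-- ▼ part R276/Fda_999

/-!
# Near-minimisers of the circle energy (helper999, row 276), part (a) of flatness on a disc

`H` a continuous positive definite Hermitian metric on the closed disc; polynomial sections `p_n`
with given value `v` at `0` whose energy on the unit circle tends to the infimum converge locally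
uniformly on the open disc.
-/

set_option linter.unusedSectionVars false

namespace Crest.Agent.R276.Fda_999

open MeasureTheory Metric Filter Topology Matrix Polynomial
open scoped ComplexOrder
open Real (circleAverage circleAverage_const)
open Crest.Agent.R276.Nc_999 Crest.Agent.R276.Poi_999

variable {s : ℕ}

/-- evaluation of a vector of polynomials -/
noncomputable def ev (p : Fin s → ℂ[X]) (z : ℂ) : Fin s → ℂ := fun i => (p i).eval z

theorem ev_cont (p : Fin s → ℂ[X]) : Continuous (ev p) :=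
  continuous_pi fun i => (p i).continuous

theorem ev_sub (p r : Fin s → ℂ[X]) (z : ℂ) : ev (p - r) z = ev p z - ev r z := by
  ext i; simp [ev]

theorem ev_add (p r : Fin s → ℂ[X]) (z : ℂ) : ev (p + r) z = ev p z + ev r z := by
  ext i; simp [ev]

theorem qf_cont : Continuous fun q : Matrix (Fin s) (Fin s) ℂ × (Fin s → ℂ) => qf q.1 q.2 := by
  unfold qf
  apply Complex.continuous_re.comp
  apply Continuous.dotProduct
  · exact continuous_snd.star
  · exact continuous_fst.matrix_mulVec continuous_snd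

theorem qf_smul (W : Matrix (Fin s) (Fin s) ℂ) (c : ℂ) (v : Fin s → ℂ) :
    qf W (c • v) = ‖c‖ ^ 2 * qf W v := by
  unfold qf
  rw [mulVec_smul, star_smul, smul_dotProduct, dotProduct_smul, smul_eq_mul, smul_eq_mul,
    ← mul_assoc]
  have : star c * c = ((‖c‖ ^ 2 : ℝ) : ℂ) := by
    rw [mul_comm, Complex.star_def, Complex.mul_conj, Complex.normSq_eq_norm_sq]
  rw [this, Complex.re_ofReal_mul]

theorem qf_parallelogram (W : Matrix (Fin s) (Fin s) ℂ) (u v : Fin s → ℂ) :
    qf W (u + v) + qf W (u - v) = 2 * qf W u + 2 * qf W v := by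
  unfold qf
  simp only [mulVec_add, mulVec_sub, star_add, star_sub, add_dotProduct, sub_dotProduct,
    dotProduct_add, dotProduct_sub, Complex.add_re, Complex.sub_re]
  ring

theorem qf_contOn {Y : Type*} [TopologicalSpace Y] {S : Set Y}
    {A : Y → Matrix (Fin s) (Fin s) ℂ} {b : Y → Fin s → ℂ} (hA : ContinuousOn A S)
    (hb : ContinuousOn b S) : ContinuousOn (fun y => qf (A y) (b y)) S :=
  Continuous.comp_continuousOn (g := fun q : Matrix (Fin s) (Fin s) ℂ × (Fin s → ℂ) => qf q.1 q.2)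
    (f := fun y => (A y, b y)) qf_cont (hA.prodMk hb)

theorem smul_int {f : ℂ → ℝ} (c : ℝ) (hf : ContinuousOn f (sphere (0 : ℂ) |(1 : ℝ)|)) :
    CircleIntegrable (fun z => c • f z) 0 1 :=
  ContinuousOn.circleIntegrable' (ContinuousOn.const_smul (g := f) hf c)

/-- two-sided bounds on a compact set -/
theorem exists_bounds {K : Set ℂ} (hK : IsCompact K) (H : ℂ → Matrix (Fin s) (Fin s) ℂ)
    (hHc : ContinuousOn H K) (hH : ∀ z ∈ K, (H z).PosDef) :
    ∃ m M : ℝ, 0 < m ∧ 0 < M ∧ ∀ z ∈ K, ∀ v, m * ‖v‖ ^ 2 ≤ qf (H z) v ∧ qf (H z) v ≤ M * ‖v‖ ^ 2 := by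
  classical
  have hcomp : IsCompact (K ×ˢ (sphere (0 : Fin s → ℂ) 1)) := hK.prod (isCompact_sphere _ _)
  have hc : ContinuousOn (fun q : ℂ × (Fin s → ℂ) => qf (H q.1) q.2) (K ×ˢ (sphere 0 1)) :=
    qf_contOn (hHc.comp continuousOn_fst (fun q hq => hq.1)) continuousOn_snd
  have scale : ∀ z ∈ K, ∀ v : Fin s → ℂ, v ≠ 0 →
      qf (H z) v = ‖v‖ ^ 2 * qf (H z) (((‖v‖⁻¹ : ℝ) : ℂ) • v) := by
    intro z _ v hv
    have hnv : ‖v‖ ≠ 0 := norm_ne_zero_iff.mpr hv
    rw [qf_smul, ← mul_assoc, Complex.norm_real, norm_inv, norm_norm, ← mul_pow,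
      mul_inv_cancel₀ hnv, one_pow, one_mul]
  have unit : ∀ v : Fin s → ℂ, v ≠ 0 → ((‖v‖⁻¹ : ℝ) : ℂ) • v ∈ sphere (0 : Fin s → ℂ) 1 := by
    intro v hv
    have hnv : ‖v‖ ≠ 0 := norm_ne_zero_iff.mpr hv
    rw [mem_sphere_zero_iff_norm, norm_smul, Complex.norm_real, norm_inv, norm_norm,
      inv_mul_cancel₀ hnv]
  by_cases hne : (K ×ˢ (sphere (0 : Fin s → ℂ) 1)).Nonempty
  · obtain ⟨q0, hq0, hmin⟩ := hcomp.exists_isMinOn hne hc
    obtain ⟨q1, hq1, hmax⟩ := hcomp.exists_isMaxOn hne hc
    have hq0' : q0.2 ≠ 0 := by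
      intro h
      have := hq0.2
      rw [h] at this; simp at this
    have hq1' : q1.2 ≠ 0 := by
      intro h
      have := hq1.2
      rw [h] at this; simp at this
    refine ⟨qf (H q0.1) q0.2, qf (H q1.1) q1.2, qf_pos (hH _ hq0.1) hq0', qf_pos (hH _ hq1.1) hq1',
      fun z hz v => ?_⟩
    by_cases hv : v = 0
    · simp [hv, qf]
    · rw [scale z hz v hv]
      have h1 := hmin (⟨hz, unit v hv⟩ : (z, ((‖v‖⁻¹ : ℝ) : ℂ) • v) ∈ K ×ˢ (sphere (0 : Fin s → ℂ) 1))
      have h2 := hmax (⟨hz, unit v hv⟩ : (z, ((‖v‖⁻¹ : ℝ) : ℂ) • v) ∈ K ×ˢ (sphere (0 : Fin s → ℂ) 1))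
      simp only [Set.mem_ofPred_eq] at h1 h2
      have h3 : 0 ≤ ‖v‖ ^ 2 := by positivity
      constructor
      · rw [mul_comm]; exact mul_le_mul_of_nonneg_left h1 h3
      · rw [mul_comm]; exact mul_le_mul_of_nonneg_right h2 h3
  · refine ⟨1, 1, one_pos, one_pos, fun z hz v => ?_⟩
    have hv : v = 0 := by
      by_contra hv
      exact hne ⟨(z, ((‖v‖⁻¹ : ℝ) : ℂ) • v), ⟨hz, unit v hv⟩⟩
    simp [hv, qf]

/-- kernel bound -/
theorem kernel_le {w z : ℂ} (hw : ‖w‖ < 1) (hz : z ∈ sphere (0 : ℂ) 1) :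
    (herglotzRieszKernel 0 w z).re ≤ (1 + ‖w‖) / (1 - ‖w‖) := by
  have h1 := re_herglotzRieszKernel_le (c := 0) hz (by simpa using hw)
  simp only [sub_zero] at h1
  simpa [herglotzRieszKernel_def] using h1

theorem kernel_nonneg {w z : ℂ} (hw : ‖w‖ < 1) (hz : z ∈ sphere (0 : ℂ) 1) :
    0 ≤ (herglotzRieszKernel 0 w z).re := by
  have h1 := le_re_herglotzRieszKernel (c := 0) hz (by simpa using hw)
  refine le_trans ?_ h1
  rw [sub_zero]
  exact div_nonneg (by linarith) (by positivity)

theorem kernel_cont {w : ℂ} (hw : ‖w‖ < 1) :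
    ContinuousOn (fun z => (herglotzRieszKernel 0 w z).re) (sphere (0 : ℂ) |(1 : ℝ)|) :=
  Complex.continuous_re.comp_continuousOn (continuousOn_herglotzRieszKernel_sphere (by simpa using hw))

/-- interior bound for a polynomial by its mean modulus on the circle -/
theorem poly_le (P : ℂ[X]) {w : ℂ} (hw : ‖w‖ < 1) :
    ‖P.eval w‖ ≤ (1 + ‖w‖) / (1 - ‖w‖) * circleAverage (fun z => ‖P.eval z‖) 0 1 := by
  set a := P.eval w with ha
  obtain ⟨l, hl1, hl2⟩ : ∃ l : ℂ, ‖l‖ ≤ 1 ∧ (l * a).re = ‖a‖ := by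
    by_cases h0 : a = 0
    · exact ⟨0, by simp, by simp [h0]⟩
    · refine ⟨star a / ‖a‖, ?_, ?_⟩
      · rw [norm_div, norm_star, Complex.norm_real, norm_norm, div_self (norm_ne_zero_iff.mpr h0)]
      · have h1 : star a * a = ((‖a‖ ^ 2 : ℝ) : ℂ) := by
          rw [mul_comm, Complex.star_def, Complex.mul_conj, Complex.normSq_eq_norm_sq]
        rw [div_mul_eq_mul_div, h1]
        have hn : (‖a‖ : ℂ) ≠ 0 := by exact_mod_cast norm_ne_zero_iff.mpr h0
        have : ((‖a‖ ^ 2 : ℝ) : ℂ) / (‖a‖ : ℂ) = ((‖a‖ : ℝ) : ℂ) := by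
          push_cast; field_simp
        rw [this, Complex.ofReal_re]
  have h1 := reP_poisson (C l * P) (w := w) (by simpa using hw)
  have h2 : reP (C l * P) w = ‖a‖ := by
    simp only [reP, eval_mul, eval_C]
    exact hl2
  rw [h2] at h1
  rw [← h1]
  have hk := kernel_cont hw
  have hi1 : CircleIntegrable (fun z => (herglotzRieszKernel 0 w z).re * reP (C l * P) z) 0 1 :=
    ContinuousOn.circleIntegrable' (hk.mul (reP_cont _).continuousOn)
  have hi2 : CircleIntegrable (fun z => ((1 + ‖w‖) / (1 - ‖w‖)) • ‖P.eval z‖) 0 1 :=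
    smul_int _ P.continuous.norm.continuousOn
  have h3 : circleAverage (fun z => (herglotzRieszKernel 0 w z).re * reP (C l * P) z) 0 1 ≤
      circleAverage (fun z => ((1 + ‖w‖) / (1 - ‖w‖)) • ‖P.eval z‖) 0 1 := by
    apply Real.circleAverage_mono hi1 hi2
    intro z hz
    rw [abs_one] at hz
    have h4 : reP (C l * P) z ≤ ‖P.eval z‖ := by
      simp only [reP, eval_mul, eval_C]
      refine (Complex.re_le_norm _).trans ?_
      rw [norm_mul]
      have := norm_nonneg (P.eval z)
      nlinarith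
    have h5 := kernel_nonneg hw hz
    have h6 := kernel_le hw hz
    have h7 := norm_nonneg (P.eval z)
    calc (herglotzRieszKernel 0 w z).re * reP (C l * P) z
        ≤ (herglotzRieszKernel 0 w z).re * ‖P.eval z‖ := mul_le_mul_of_nonneg_left h4 h5
      _ ≤ _ := mul_le_mul_of_nonneg_right h6 h7
  rw [Real.circleAverage_fun_smul] at h3
  exact h3

/-- mean modulus ≤ root of the mean square -/
theorem mean_le {f : ℂ → ℝ} (hf : ContinuousOn f (sphere (0 : ℂ) |(1 : ℝ)|)) {l : ℝ} (hl : 0 < l) :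
    circleAverage f 0 1 ≤ (2 * l)⁻¹ * circleAverage (fun z => f z ^ 2) 0 1 + l / 2 := by
  have hi1 : CircleIntegrable f 0 1 := ContinuousOn.circleIntegrable' hf
  have hi2 : CircleIntegrable (fun z => (2 * l)⁻¹ • f z ^ 2) 0 1 :=
    smul_int _ (hf.pow 2)
  have hi3 : CircleIntegrable (fun _ : ℂ => l / 2) 0 1 :=
    ContinuousOn.circleIntegrable' continuousOn_const
  have h : circleAverage f 0 1 ≤ circleAverage (fun z => (2 * l)⁻¹ • f z ^ 2 + l / 2) 0 1 := by
    apply Real.circleAverage_mono hi1 (hi2.add hi3)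
    intro z _
    simp only [smul_eq_mul, Pi.add_apply]
    have : 0 ≤ (f z - l) ^ 2 := sq_nonneg _
    have h2 : (2 * l)⁻¹ * f z ^ 2 + l / 2 - f z = (2 * l)⁻¹ * (f z - l) ^ 2 := by
      field_simp; ring
    have h3 : 0 ≤ (2 * l)⁻¹ * (f z - l) ^ 2 := by positivity
    linarith
  rw [Real.circleAverage_fun_add hi2 hi3, Real.circleAverage_fun_smul, circleAverage_const] at h
  exact h

/-- the energy on the unit circle -/
noncomputable def En (H : ℂ → Matrix (Fin s) (Fin s) ℂ) (p : Fin s → ℂ[X]) : ℝ :=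
  circleAverage (fun z => qf (H z) (ev p z)) 0 1

variable {H : ℂ → Matrix (Fin s) (Fin s) ℂ}

theorem qfev_cont (hHc : ContinuousOn H (closedBall 0 1)) (p : Fin s → ℂ[X]) :
    ContinuousOn (fun z => qf (H z) (ev p z)) (closedBall 0 1) :=
  qf_contOn hHc (ev_cont p).continuousOn

theorem sph_sub : sphere (0 : ℂ) |(1 : ℝ)| ⊆ closedBall 0 1 := by
  rw [abs_one]; exact sphere_subset_closedBall

theorem qfev_int (hHc : ContinuousOn H (closedBall 0 1)) (p : Fin s → ℂ[X]) :
    CircleIntegrable (fun z => qf (H z) (ev p z)) 0 1 :=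
  ContinuousOn.circleIntegrable' ((qfev_cont hHc p).mono sph_sub)

theorem En_parallelogram (hHc : ContinuousOn H (closedBall 0 1)) (p r : Fin s → ℂ[X]) :
    En H (p + r) + En H (p - r) = 2 * En H p + 2 * En H r := by
  unfold En
  rw [← Real.circleAverage_fun_add (qfev_int hHc _) (qfev_int hHc _)]
  have h1 : (fun z => qf (H z) (ev (p + r) z) + qf (H z) (ev (p - r) z)) =
      fun z => (2 : ℝ) • qf (H z) (ev p z) + (2 : ℝ) • qf (H z) (ev r z) := by
    ext z
    rw [ev_add, ev_sub, qf_parallelogram]; simp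
  have hp : CircleIntegrable (fun z => (2 : ℝ) • qf (H z) (ev p z)) 0 1 :=
    smul_int _ ((qfev_cont hHc p).mono sph_sub)
  have hr : CircleIntegrable (fun z => (2 : ℝ) • qf (H z) (ev r z)) 0 1 :=
    smul_int _ ((qfev_cont hHc r).mono sph_sub)
  rw [h1, Real.circleAverage_fun_add hp hr, Real.circleAverage_fun_smul,
    Real.circleAverage_fun_smul]
  simp

theorem En_nonneg (hH : ∀ z ∈ closedBall (0 : ℂ) 1, (H z).PosDef) (p : Fin s → ℂ[X]) :
    0 ≤ En H p := by
  apply Real.circleAverage_nonneg_of_nonneg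
  intro z hz
  exact qf_nonneg (hH z (sph_sub hz)) _

theorem En_lower (hHc : ContinuousOn H (closedBall 0 1)) {m : ℝ} 
    (hm : ∀ z ∈ closedBall (0 : ℂ) 1, ∀ v, m * ‖v‖ ^ 2 ≤ qf (H z) v) (p : Fin s → ℂ[X]) (i : Fin s)
    (hm0 : 0 < m) :
    m * circleAverage (fun z => ‖(p i).eval z‖ ^ 2) 0 1 ≤ En H p := by
  have hi : CircleIntegrable (fun z => m • ‖(p i).eval z‖ ^ 2) 0 1 :=
    smul_int _ ((p i).continuous.norm.pow 2).continuousOn
  have h := Real.circleAverage_mono hi (qfev_int hHc p) (fun z hz => by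
    refine le_trans ?_ (hm z (sph_sub hz) (ev p z))
    simp only [smul_eq_mul]
    apply mul_le_mul_of_nonneg_left _ hm0.le
    have : ‖(p i).eval z‖ ≤ ‖ev p z‖ := norm_le_pi_norm (ev p z) i
    gcongr)
  rw [Real.circleAverage_fun_smul] at h
  exact h

/-- interior bound by the energy -/
theorem ev_le (hHc : ContinuousOn H (closedBall 0 1)) {m : ℝ} (hm0 : 0 < m)
    (hm : ∀ z ∈ closedBall (0 : ℂ) 1, ∀ v, m * ‖v‖ ^ 2 ≤ qf (H z) v) (p : Fin s → ℂ[X])
    {l : ℝ} (hl : 0 < l) {w : ℂ} (hw : ‖w‖ < 1) :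
    ‖ev p w‖ ≤ (1 + ‖w‖) / (1 - ‖w‖) * ((2 * l)⁻¹ * (En H p / m) + l / 2) := by
  have hEn : 0 ≤ (1 + ‖w‖) / (1 - ‖w‖) := div_nonneg (by positivity) (by linarith)
  by_cases hs : Nonempty (Fin s)
  · have hbd : ∀ i, ‖ev p w i‖ ≤ (1 + ‖w‖) / (1 - ‖w‖) * ((2 * l)⁻¹ * (En H p / m) + l / 2) := by
      intro i
      refine (poly_le (p i) hw).trans (mul_le_mul_of_nonneg_left ?_ hEn)
      refine (mean_le (f := fun z => ‖(p i).eval z‖) (p i).continuous.norm.continuousOn hl).trans ?_
      have h1 := En_lower hHc hm p i hm0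
      have h2 : circleAverage (fun z => ‖(p i).eval z‖ ^ 2) 0 1 ≤ En H p / m := by
        rw [le_div_iff₀ hm0]; linarith
      have h3 : 0 < (2 * l)⁻¹ := by positivity
      have := mul_le_mul_of_nonneg_left h2 h3.le
      linarith
    obtain ⟨i0⟩ := hs
    exact (pi_norm_le_iff_of_nonneg ((norm_nonneg _).trans (hbd i0))).mpr hbd
  · have : ev p w = 0 := by
      ext i; exact absurd ⟨i⟩ hs
    rw [this, norm_zero]
    have h0 : En H p / m ≥ 0 := by
      have : En H p = 0 := by
        unfold En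
        have : (fun z => qf (H z) (ev p z)) = fun _ => 0 := by
          ext z
          have : ev p z = 0 := by
            ext i; exact absurd ⟨i⟩ hs
          rw [this]; simp [qf]
        rw [this, circleAverage_const]
      rw [this]; simp
    positivity

/-- **Minimising sequences converge.** -/
theorem exists_minimiser (hHc : ContinuousOn H (closedBall 0 1))
    (hH : ∀ z ∈ closedBall (0 : ℂ) 1, (H z).PosDef) (v : Fin s → ℂ) (Q : ℝ)
    (hOT : ∀ ε > 0, ∃ p : Fin s → ℂ[X], ev p 0 = v ∧ En H p ≤ Q + ε) :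
    ∃ (p : ℕ → Fin s → ℂ[X]) (f : ℂ → Fin s → ℂ), (∀ n, ev (p n) 0 = v) ∧
      (∀ n : ℕ, En H (p n) ≤ Q + 1 / (n + 1)) ∧ DifferentiableOn ℂ f (ball 0 1) ∧
      (∀ w ∈ ball (0 : ℂ) 1, Tendsto (fun n => ev (p n) w) atTop (𝓝 (f w))) := by
  classical
  obtain ⟨m, M, hm, hM, hbd⟩ := exists_bounds (isCompact_closedBall (0 : ℂ) 1) H hHc hH
  set S : Set ℝ := {e | ∃ p : Fin s → ℂ[X], ev p 0 = v ∧ En H p = e} with hS
  have hSne : S.Nonempty := by
    obtain ⟨p, hp, _⟩ := hOT 1 one_pos
    exact ⟨_, p, hp, rfl⟩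
  have hSbd : BddBelow S := ⟨0, by rintro e ⟨p, _, rfl⟩; exact En_nonneg hH p⟩
  set I := sInf S with hI
  have hIQ : I ≤ Q := by
    refine le_of_forall_pos_le_add fun ε hε => ?_
    obtain ⟨p, hp, hpe⟩ := hOT ε hε
    exact (csInf_le hSbd ⟨p, hp, rfl⟩).trans hpe
  have hex : ∀ n : ℕ, ∃ p : Fin s → ℂ[X], ev p 0 = v ∧ En H p < I + 1 / (n + 1) := by
    intro n
    obtain ⟨e, ⟨p, hp, rfl⟩, he⟩ := exists_lt_of_csInf_lt hSne
      (show sInf S < I + 1 / ((n : ℝ) + 1) by
        have : (0 : ℝ) < 1 / ((n : ℝ) + 1) := by positivity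
        linarith)
    exact ⟨p, hp, he⟩
  choose p hp0 hpe using hex
  -- Cauchy
  have hcau : ∀ n k, En H (p n - p k) ≤ 2 / (n + 1) + 2 / (k + 1) := by
    intro n k
    have h1 := En_parallelogram hHc (p n) (p k)
    have h2 : 4 * I ≤ En H (p n + p k) := by
      -- the midpoint
      set r : Fin s → ℂ[X] := fun i => C (1 / 2 : ℂ) * (p n + p k) i with hr
      have hr0 : ev r 0 = v := by
        ext i
        have e1 := congrFun (hp0 n) i
        have e2 := congrFun (hp0 k) i
        simp only [ev] at e1 e2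
        simp only [hr, ev, eval_mul, eval_C, Pi.add_apply, eval_add, e1, e2]
        ring
      have h3 : I ≤ En H r := csInf_le hSbd ⟨r, hr0, rfl⟩
      have h4 : En H r = 1 / 4 * En H (p n + p k) := by
        unfold En
        have : (fun z => qf (H z) (ev r z)) = fun z => (1 / 4 : ℝ) • qf (H z) (ev (p n + p k) z) := by
          ext z
          have : ev r z = (1 / 2 : ℂ) • ev (p n + p k) z := by
            ext i; simp [hr, ev]
          rw [this, qf_smul]
          norm_num
        rw [this, Real.circleAverage_fun_smul]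
        simp
      linarith
    have h5 := hpe n
    have h6 := hpe k
    have e1 : (2 : ℝ) / (n + 1) = 2 * (1 / (n + 1)) := by ring
    have e2 : (2 : ℝ) / (k + 1) = 2 * (1 / (k + 1)) := by ring
    rw [e1, e2]
    linarith
  -- uniform Cauchy on smaller discs
  have hunif : ∀ ρ : ℝ, ρ < 1 → UniformCauchySeqOn (fun n w => ev (p n) w) atTop (closedBall (0 : ℂ) ρ) := by
    intro ρ hρ
    by_cases hρ0 : ρ < 0
    · rw [closedBall_eq_empty.mpr hρ0]
      intro u hu
      simp
    push Not at hρ0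
    rw [Metric.uniformCauchySeqOn_iff]
    intro ε hε
    set Cρ := (1 + ρ) / (1 - ρ) with hCρ
    have hCpos : 0 < Cρ := div_pos (by linarith) (by linarith)
    -- choose l
    set l := ε / (2 * Cρ) with hl
    have hlpos : 0 < l := by positivity
    -- choose N
    obtain ⟨N, hN⟩ := exists_nat_gt (Cρ * (2 * l)⁻¹ * (4 / m) * (2 / ε))
    refine ⟨N, fun n hn k hk w hw => ?_⟩
    have hwn : ‖w‖ ≤ ρ := by simpa using hw
    have hw1 : ‖w‖ < 1 := lt_of_le_of_lt hwn hρ
    rw [dist_eq_norm, ← ev_sub]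
    have h1 := ev_le hHc hm (fun z hz v => (hbd z hz v).1) (p n - p k) hlpos hw1
    have h2 : (1 + ‖w‖) / (1 - ‖w‖) ≤ Cρ := by
      rw [hCρ, div_le_div_iff₀ (by linarith) (by linarith)]
      nlinarith [norm_nonneg w]
    have hEnn := En_nonneg hH (p n - p k)
    have h3 : 0 ≤ (2 * l)⁻¹ * (En H (p n - p k) / m) + l / 2 := by positivity
    have h4 : En H (p n - p k) ≤ 4 / (N + 1) := by
      have hn' : (2 : ℝ) / (n + 1) ≤ 2 / (N + 1) := by
        apply div_le_div_of_nonneg_left (by norm_num) (by positivity)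
        have : (N : ℝ) ≤ n := by exact_mod_cast hn
        linarith
      have hk' : (2 : ℝ) / (k + 1) ≤ 2 / (N + 1) := by
        apply div_le_div_of_nonneg_left (by norm_num) (by positivity)
        have : (N : ℝ) ≤ k := by exact_mod_cast hk
        linarith
      have := hcau n k
      have e : (4 : ℝ) / (N + 1) = 2 / (N + 1) + 2 / (N + 1) := by ring
      linarith
    calc ‖ev (p n - p k) w‖ ≤ (1 + ‖w‖) / (1 - ‖w‖) * ((2 * l)⁻¹ * (En H (p n - p k) / m) + l / 2) := h1
      _ ≤ Cρ * ((2 * l)⁻¹ * (En H (p n - p k) / m) + l / 2) := mul_le_mul_of_nonneg_right h2 h3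
      _ ≤ Cρ * ((2 * l)⁻¹ * (4 / (N + 1) / m) + l / 2) := by
          gcongr
      _ = Cρ * (2 * l)⁻¹ * (4 / m) / (N + 1) + ε / 4 := by
          rw [hl]; field_simp; ring
      _ < ε / 2 + ε / 4 := by
          have h5 : Cρ * (2 * l)⁻¹ * (4 / m) < ε / 2 * (N + 1) := by
            have h6 : Cρ * (2 * l)⁻¹ * (4 / m) * (2 / ε) < N + 1 := by linarith
            have h7 : Cρ * (2 * l)⁻¹ * (4 / m) = (Cρ * (2 * l)⁻¹ * (4 / m) * (2 / ε)) * (ε / 2) := by
              field_simp
            rw [h7, mul_comm (ε / 2)]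
            exact mul_lt_mul_of_pos_right h6 (by positivity)
          have h8 : Cρ * (2 * l)⁻¹ * (4 / m) / (N + 1) < ε / 2 := by
            rw [div_lt_iff₀ (by positivity)]; exact h5
          linarith
      _ ≤ ε := by linarith
  -- pointwise limits
  have hlim : ∀ w : ℂ, ∃ y, w ∈ ball (0 : ℂ) 1 → Tendsto (fun n => ev (p n) w) atTop (𝓝 y) := by
    intro w
    by_cases hw : w ∈ ball (0 : ℂ) 1
    · have hw' : ‖w‖ < 1 := by simpa using hw
      have hc : CauchySeq (fun n => ev (p n) w) :=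
        (hunif ‖w‖ hw').cauchySeq (by simp)
      obtain ⟨y, hy⟩ := cauchySeq_tendsto_of_complete hc
      exact ⟨y, fun _ => hy⟩
    · exact ⟨0, fun h => absurd h hw⟩
  choose f hf using hlim
  have hloc : TendstoLocallyUniformlyOn (fun n w => ev (p n) w) f atTop (ball (0 : ℂ) 1) := by
    rw [tendstoLocallyUniformlyOn_iff_forall_isCompact isOpen_ball]
    intro K hK1 hK2
    obtain ⟨ρ, hρ, hKρ⟩ : ∃ ρ < (1 : ℝ), K ⊆ closedBall (0 : ℂ) ρ := by
      by_cases hKn : K.Nonempty
      · obtain ⟨z, hz, hzmax⟩ := hK2.exists_isMaxOn hKn (f := fun z : ℂ => ‖z‖) continuous_norm.continuousOn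
        exact ⟨‖z‖, by simpa using hK1 hz, fun w hw => by simpa using hzmax hw⟩
      · exact ⟨0, one_pos, by rw [Set.not_nonempty_iff_eq_empty.mp hKn]; exact Set.empty_subset _⟩
    have := (hunif ρ hρ).tendstoUniformlyOn_of_tendsto (f := f) (fun w hw => hf w (by
      have : ‖w‖ ≤ ρ := by simpa using hw
      simpa using lt_of_le_of_lt this hρ))
    exact this.mono hKρ
  refine ⟨p, f, hp0, fun n => ?_, ?_, fun w hw => hf w hw⟩
  · have := hpe n
    linarith
  · apply hloc.differentiableOn _ isOpen_ball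
    filter_upwards with n
    apply differentiableOn_pi.mpr
    intro i
    exact (p n i).differentiable.differentiableOn

end Crest.Agent.R276.Fda_999
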