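import Mathlib
import Crest.Agent.R276.FibI_448
import Crest.Agent.R276.CmpA_595

/-!
# INT and GRO-UP on the fibres of relative models, explicit growth

`bd C k l X H = C X^k / H^l`.

* `growth_fin` : finitely many elements of a model are bounded by `C (1 + ∑ |z_i|²)^k / |h(z)|^l`;
* `sep` : points of the fibres are separated by finitely many elements of `K`;
* `main_fib` : `GroUpD_845.main` for all sufficiently small relative models, at EVERY point of the base;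
* `int_fib` : `g` with `PluriS L b N g`: `∫_{M_w} |g|^{2/N} ≤ C (1 + ∑ |z_i|²)^k / |h_L(z)|^l` for EVERY `w`;
* `ev2_int_fib` : the same with `Ev2` of 849.
-/

set_option autoImplicit false

open Filter Set MeasureTheory Polynomial Topology
open scoped ENNReal

noncomputable section

namespace Crest.Agent.R276.FibI_448

open Crest.Agent.R271.Defs710 Crest.Agent.R271.Alg255 Crest.Agent.R271.Rd692 Crest.Agent.R271
open Crest.Agent.R271.Ho51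
open Crest.Agent.R276.Mod1_987 Crest.Agent.R276.Mod1_987.Mdl
open Crest.Agent.R276.FKDefs_779 Crest.Agent.R276.TowA_849
open Crest.Agent.R276.IntA_448 Crest.Agent.R276.IntB_448 Crest.Agent.R276.IntC_448
open Crest.Agent.R276.IntD_448 Crest.Agent.R276.IntE_448 Crest.Agent.R276.IntF_448
open Crest.Agent.R276.GroUpD_845

/-! ### bounds `C X^k / H^l` -/

/-- `C X^k / H^l` -/
def bd (C : ℝ) (k l : ℕ) (X H : ℝ) : ℝ := C * X ^ k / H ^ l

section bd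

variable {X H D C C₁ C₂ : ℝ} {e k l k₁ k₂ l₁ l₂ : ℕ}

lemma bd_nonneg (hC : 0 ≤ C) (hX : 0 ≤ X) (hH : 0 ≤ H) : 0 ≤ bd C k l X H := by
  unfold bd; positivity

lemma bd_mono_C (hX : 0 ≤ X) (hH : 0 ≤ H) (h : C₁ ≤ C₂) : bd C₁ k l X H ≤ bd C₂ k l X H := by
  unfold bd
  apply div_le_div_of_nonneg_right _ (by positivity)
  exact mul_le_mul_of_nonneg_right h (by positivity)

lemma bd_mono_k (hC : 0 ≤ C) (hX : 1 ≤ X) (hH : 0 ≤ H) (h : k₁ ≤ k₂) :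
    bd C k₁ l X H ≤ bd C k₂ l X H := by
  unfold bd
  apply div_le_div_of_nonneg_right _ (by positivity)
  exact mul_le_mul_of_nonneg_left (pow_le_pow_right₀ hX h) hC

lemma bd_mono_l (hC : 0 ≤ C) (hX : 1 ≤ X) (hH : 0 < H) (hHX : H ≤ D * X ^ e) (l₂ : ℕ) :
    bd C k l₁ X H ≤ bd (C * D ^ l₂) (k + e * l₂) (l₁ + l₂) X H := by
  unfold bd
  rw [div_le_div_iff₀ (by positivity) (by positivity)]
  have h1 : H ^ l₂ ≤ (D * X ^ e) ^ l₂ := pow_le_pow_left₀ hH.le hHX l₂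
  have hX0 : (0 : ℝ) ≤ X := by linarith
  calc C * X ^ k * H ^ (l₁ + l₂) = C * X ^ k * H ^ l₁ * H ^ l₂ := by rw [pow_add]; ring
    _ ≤ C * X ^ k * H ^ l₁ * (D * X ^ e) ^ l₂ := mul_le_mul_of_nonneg_left h1 (by positivity)
    _ = C * D ^ l₂ * X ^ (k + e * l₂) * H ^ l₁ := by
      rw [mul_pow, ← pow_mul, pow_add]; ring

lemma bd_mono_H {H' : ℝ} (hC : 0 ≤ C) (hX : 1 ≤ X) (hH : 0 < H) (hH' : 0 < H')
    (h : H' ≤ D * X ^ e * H) : bd C k l X H ≤ bd (C * D ^ l) (k + e * l) l X H' := by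
  unfold bd
  rw [div_le_div_iff₀ (by positivity) (by positivity)]
  have hX0 : (0 : ℝ) ≤ X := by linarith
  calc C * X ^ k * H' ^ l ≤ C * X ^ k * (D * X ^ e * H) ^ l :=
        mul_le_mul_of_nonneg_left (pow_le_pow_left₀ hH'.le h l) (by positivity)
    _ = C * D ^ l * X ^ (k + e * l) * H ^ l := by
      rw [mul_pow, mul_pow, ← pow_mul, pow_add]; ring

/-- two bounds, one common bound -/
lemma bd_le_left (hC₁ : 0 ≤ C₁) (hC₂ : 0 ≤ C₂) (hD : 1 ≤ D) (hX : 1 ≤ X) (hH : 0 < H)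
    (hHX : H ≤ D * X ^ e) : bd C₁ k₁ l₁ X H ≤
      bd (C₁ * D ^ l₂ + C₂ * D ^ l₁) (k₁ + e * l₂ + (k₂ + e * l₁)) (l₁ + l₂) X H := by
  refine (bd_mono_l hC₁ hX hH hHX l₂).trans ?_
  have hD0 : (0 : ℝ) ≤ D := by linarith
  refine (bd_mono_k (by positivity) hX hH.le (Nat.le_add_right _ (k₂ + e * l₁))).trans ?_
  exact bd_mono_C (by linarith) hH.le (le_add_of_nonneg_right (by positivity))

lemma bd_le_right (hC₁ : 0 ≤ C₁) (hC₂ : 0 ≤ C₂) (hD : 1 ≤ D) (hX : 1 ≤ X) (hH : 0 < H)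
    (hHX : H ≤ D * X ^ e) : bd C₂ k₂ l₂ X H ≤
      bd (C₁ * D ^ l₂ + C₂ * D ^ l₁) (k₁ + e * l₂ + (k₂ + e * l₁)) (l₁ + l₂) X H := by
  refine (bd_mono_l hC₂ hX hH hHX l₁).trans ?_
  have hD0 : (0 : ℝ) ≤ D := by linarith
  rw [add_comm l₂ l₁]
  refine (bd_mono_k (by positivity) hX hH.le (Nat.le_add_left _ (k₁ + e * l₂))).trans ?_
  exact bd_mono_C (by linarith) hH.le (le_add_of_nonneg_left (by positivity))

/-- `C₁ (1 + bd)^n` is again of the form `bd` -/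
lemma bd_pow (hC₁ : 0 ≤ C₁) (h1 : 1 ≤ bd C k l X H) (n : ℕ) :
    C₁ * (1 + bd C k l X H) ^ n ≤ bd (C₁ * (2 * C) ^ n) (k * n) (l * n) X H := by
  have h2 : 1 + bd C k l X H ≤ 2 * bd C k l X H := by linarith
  calc C₁ * (1 + bd C k l X H) ^ n ≤ C₁ * (2 * bd C k l X H) ^ n :=
        mul_le_mul_of_nonneg_left (pow_le_pow_left₀ (by linarith) h2 n) hC₁
    _ = bd (C₁ * (2 * C) ^ n) (k * n) (l * n) X H := by
      unfold bd
      rw [mul_pow, div_pow, mul_pow, mul_pow, ← pow_mul, ← pow_mul]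
      ring

end bd

section mdl

variable {K : Type} [Field K] [Algebra ℂ K] {n : ℕ} (M : Mdl K n)

/-- `1 + ∑ |z_i|²` -/
def Xz (y : M.Pts) : ℝ := 1 + ∑ i, ‖M.pz y i‖ ^ 2

/-- `|h(z)|` -/
def Hz (y : M.Pts) : ℝ := ‖MvPolynomial.eval (M.pz y) M.h‖

lemma one_le_Xz (y : M.Pts) : 1 ≤ Xz M y := by
  unfold Xz
  have : 0 ≤ ∑ i, ‖M.pz y i‖ ^ 2 := Finset.sum_nonneg fun _ _ => by positivity
  linarith

lemma Hz_pos (y : M.Pts) : 0 < Hz M y := norm_pos_iff.2 (M.eval_h_ne y)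

lemma exists_poly_le (p : MvPolynomial (Fin n) ℂ) : ∃ (D : ℝ) (e : ℕ), 1 ≤ D ∧
    ∀ y : M.Pts, ‖MvPolynomial.eval (M.pz y) p‖ ≤ D * Xz M y ^ e := by
  have h1 : PG M.z (az M.z p) := by
    apply PG.adjoin
    rw [Algebra.adjoin_range_eq_range_aeval]
    exact ⟨p, rfl⟩
  obtain ⟨C, k, hC, h2⟩ := h1
  refine ⟨1 + C, k, by linarith, fun y => ?_⟩
  have h3 := h2 y
  rw [M.apply_az'] at h3
  refine h3.trans ?_
  have h4 := one_le_Xz M y
  have h5 : (0 : ℝ) ≤ Xz M y ^ k := by positivity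
  change C * Xz M y ^ k ≤ _
  nlinarith

/-- **growth of finitely many elements** -/
theorem growth_fin (F : Finset K) : ∃ (C : ℝ) (k l : ℕ), 1 ≤ C ∧ ∀ y : M.Pts,
    1 ≤ bd C k l (Xz M y) (Hz M y) ∧
      ∀ a ∈ F, ∀ a' : M.B, (a' : K) = a → ‖y a'‖ ≤ bd C k l (Xz M y) (Hz M y) := by
  classical
  obtain ⟨D, e, hD, hDX⟩ := exists_poly_le M M.h
  induction F using Finset.induction_on with
  | empty =>
    refine ⟨1, 0, 0, le_rfl, fun y => ⟨?_, fun a ha => absurd ha (Finset.notMem_empty a)⟩⟩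
    unfold bd
    simp
  | insert a F ha ih =>
    obtain ⟨C₁, k₁, l₁, hC₁, ih⟩ := ih
    have h1 : ∃ (C₂ : ℝ) (k₂ l₂ : ℕ), 0 ≤ C₂ ∧ ∀ y : M.Pts, ∀ a' : M.B, (a' : K) = a →
        ‖y a'‖ ≤ bd C₂ k₂ l₂ (Xz M y) (Hz M y) := by
      by_cases hmem : a ∈ M.B
      · obtain ⟨C₂, k₂, l₂, hC₂, h2⟩ := M.growth ⟨a, hmem⟩
        refine ⟨C₂, k₂, l₂, hC₂, fun y a' ha' => ?_⟩
        have h3 : a' = ⟨a, hmem⟩ := Subtype.ext ha'
        rw [h3]
        unfold bd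
        rw [le_div_iff₀ (pow_pos (Hz_pos M y) _), mul_comm]
        exact h2 y
      · exact ⟨0, 0, 0, le_rfl, fun y a' ha' => absurd (ha' ▸ a'.2) hmem⟩
    obtain ⟨C₂, k₂, l₂, hC₂, h2⟩ := h1
    have hC₁0 : 0 ≤ C₁ := by linarith
    refine ⟨C₁ * D ^ l₂ + C₂ * D ^ l₁, k₁ + e * l₂ + (k₂ + e * l₁), l₁ + l₂, ?_, fun y => ?_⟩
    · have h3 : 1 ≤ D ^ l₂ := one_le_pow₀ hD
      have h4 : 0 ≤ C₂ * D ^ l₁ := mul_nonneg hC₂ (pow_nonneg (by linarith) _)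
      nlinarith
    · have hl := bd_le_left (k₁ := k₁) (l₁ := l₁) (k₂ := k₂) (l₂ := l₂) hC₁0 hC₂ hD
        (one_le_Xz M y) (Hz_pos M y) (hDX y)
      have hr := bd_le_right (k₁ := k₁) (l₁ := l₁) (k₂ := k₂) (l₂ := l₂) hC₁0 hC₂ hD
        (one_le_Xz M y) (Hz_pos M y) (hDX y)
      refine ⟨(ih y).1.trans hl, fun c hc c' hc' => ?_⟩
      rcases Finset.mem_insert.1 hc with rfl | hc
      · exact (h2 y c' hc').trans hr
      · exact ((ih y).2 c hc c' hc').trans hl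

/-- the bounds hold on all smaller models -/
theorem growth_fin_loc (F : Finset K) : ∃ (C : ℝ) (k l : ℕ), 1 ≤ C ∧ ∀ M' : Mdl K n,
    M.zK = M'.zK → M.B ≤ M'.B → (∀ a ∈ F, a ∈ M.B) → ∀ y : M'.Pts,
    1 ≤ bd C k l (Xz M' y) ‖MvPolynomial.eval (M'.pz y) M.h‖ ∧
      ∀ a ∈ F, ∀ a' : M'.B, (a' : K) = a →
        ‖y a'‖ ≤ bd C k l (Xz M' y) ‖MvPolynomial.eval (M'.pz y) M.h‖ := by
  obtain ⟨C, k, l, hC, h1⟩ := growth_fin M F
  refine ⟨C, k, l, hC, fun M' hz hle hF y => ?_⟩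
  have h2 := h1 (resB hle y)
  have h3 : M.pz (resB hle y) = M'.pz y := pz_resB hz hle y
  have h4 : Xz M (resB hle y) = Xz M' y := by
    unfold Xz
    rw [h3]
  have h5 : Hz M (resB hle y) = ‖MvPolynomial.eval (M'.pz y) M.h‖ := by
    unfold Hz
    rw [h3]
  rw [h4, h5] at h2
  refine ⟨h2.1, fun a ha a' ha' => ?_⟩
  have h6 := h2.2 a ha ⟨a, hF a ha⟩ rfl
  have h7 : (resB hle y) ⟨a, hF a ha⟩ = y a' := by
    rw [resB_apply]
    congr 1
    exact Subtype.ext ha'.symm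
  rwa [h7] at h6

lemma mem_loc_of_dvd {p₀ p : MvPolynomial (Fin n) ℂ} (hp : p ≠ 0) (hd : p₀ ∣ p) {a : K}
    (h : M.aK p₀ * a ∈ M.B) : a ∈ (M.loc p hp).B := by
  apply mem_loc_of_den
  obtain ⟨c, rfl⟩ := hd
  rw [map_mul]
  have h1 : M.aK p₀ * M.aK c * a = M.aK c * (M.aK p₀ * a) := by ring
  rw [h1]
  exact mul_mem (M.aK_mem c) h

lemma loc_le_loc {p₀ p : MvPolynomial (Fin n) ℂ} (hp₀ : p₀ ≠ 0) (hp : p ≠ 0) (hd : p₀ ∣ p) :
    (M.loc p₀ hp₀).B ≤ (M.loc p hp).B := by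
  refine B_le (M := M.loc p₀ hp₀) (M' := M.loc p hp) rfl (j := 1) ?_
  rw [pow_one, loc_h, loc_h]
  exact mul_dvd_mul_left _ hd

end mdl

section rel

variable {L K : Type} [Field L] [Field K] [Algebra ℂ L] [Algebra ℂ K] [Algebra L K]
  [IsScalarTower ℂ L K] {m r : ℕ} (R : RMdl L K m r)

/-- **separation**: the points of the fibres of all smaller models are separated by finitely many
elements of `K` -/
theorem sep : ∃ GG : Finset K, (∀ b ∈ GG, b ∈ R.MK.B) ∧ ∀ R' : RMdl L K m r,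
    R.MK.zK = R'.MK.zK → R.MK.B ≤ R'.MK.B → ∀ (w : R'.ML.Pts) (x x' : R'.Fib w),
      (∀ b : R'.MK.B, (b : K) ∈ GG → (x.val) b = (x'.val) b) → x = x' := by
  classical
  refine ⟨insert (R.MK.θ : K) (Finset.univ.image R.MK.zK), ?_, ?_⟩
  · intro b hb
    rcases Finset.mem_insert.1 hb with rfl | hb
    · exact Subtype.property _
    · obtain ⟨i, -, rfl⟩ := Finset.mem_image.1 hb
      exact Subtype.property _
  · intro R' hz hle w x x' h
    apply RMdl.Fib.ext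
    apply resB_injective hz hle
    apply R.MK.pt_ext
    · funext i
      exact h ⟨R.MK.zK i, hle (Subtype.property _)⟩
        (Finset.mem_insert_of_mem (Finset.mem_image_of_mem _ (Finset.mem_univ i)))
    · exact h ⟨R.MK.θ, hle (Subtype.property _)⟩ (Finset.mem_insert_self _ _)


/-- the conclusion of `GroUpD_845.main` at the point `w`, with the radius `T` -/
structure MainAt (bas : Module.Basis (Fin r) K (Ω[K⁄L])) {ι : Type} (h : ι → K)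
    (y : ι → Fin r → K) (S : Finset ι) (d : ι → ℕ) (w : R.ML.Pts) (T : ℝ) : Prop where
  one_le : 1 ≤ T
  cov : ∀ x : R.MK.Pts, R.q x = w → ∃ i ∈ S,
    (∀ b : R.MK.B, (b : K) = h i → ‖x b‖ ≤ T) ∧ ∀ l, ∀ b : R.MK.B, (b : K) = y i l → ‖x b‖ ≤ T
  int : ∀ wt : ι → (Fin r → ℂ) → ℝ≥0∞, (∀ i, Measurable (wt i)) →
    ∀ F : R.MK.Pts → ℝ≥0∞, Measurable F →
      (∀ i ∈ S, ∀ (hB JB : R.MK.B) (yB : Fin r → R.MK.B),
        (hB : K) = h i → (JB : K) = jac L bas (y i) → (∀ l, (yB l : K) = y i l) →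
        ∀ x : R.MK.Pts, R.q x = w → ‖x hB‖ ≤ T → (∀ l, ‖x (yB l)‖ ≤ T) →
        F x ≤ ENNReal.ofReal (‖x JB‖ ^ 2) * wt i (fun l => x (yB l))) →
      R.fint w F ≤ ∑ i ∈ S, (d i : ℝ≥0∞) * ∫⁻ η in {η : Fin r → ℂ | ∀ l, ‖η l‖ ≤ T}, wt i η

/-- **`GroUpD_845.main` on the fibres of all sufficiently small relative models**, at every point
`w` of the base, radius `C (1 + ∑ |z_i|²)^k / |(h_L p₀)(z)|^l` -/
theorem main_fib (bas : Module.Basis (Fin r) K (Ω[K⁄L]))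
    (hbas : ∀ j, bas j = KaehlerDifferential.D L K (R.MK.zK (Fin.natAdd m j)))
    {ι : Type} (h : ι → K) (y : ι → Fin r → K) (hJ : ∀ i, jac L bas (y i) ≠ 0)
    (H : ∀ V : ValuationSubring K, (∀ a : L, algebraMap L K a ∈ V) → ∃ i, h i ∈ V ∧ ∀ l, y i l ∈ V)
    (BB₀ : Finset K) :
    ∃ (S : Finset ι) (d : ι → ℕ) (s₀ : MvPolynomial (Fin (m + r)) ℂ)
      (p₀ : MvPolynomial (Fin m) ℂ) (C : ℝ) (k l : ℕ), s₀ ≠ 0 ∧ p₀ ≠ 0 ∧ 1 ≤ C ∧
      ∀ (s : MvPolynomial (Fin (m + r)) ℂ) (hs : s ≠ 0) (p : MvPolynomial (Fin m) ℂ) (hp : p ≠ 0),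
        s₀ ∣ s → p₀ ∣ p →
        (∀ b ∈ BB₀, b ∈ (R.shrink p hp s hs).MK.B ∧ b⁻¹ ∈ (R.shrink p hp s hs).MK.B) ∧
        (∀ i ∈ S, h i ∈ (R.shrink p hp s hs).MK.B ∧ (∀ l, y i l ∈ (R.shrink p hp s hs).MK.B) ∧
          jac L bas (y i) ∈ (R.shrink p hp s hs).MK.B) ∧
        ∀ w : (R.shrink p hp s hs).ML.Pts, ∀ T : ℝ,
          bd C k l (Xz _ w) ‖MvPolynomial.eval ((R.shrink p hp s hs).ML.pz w) (R.ML.h * p₀)‖ ≤ T →
          MainAt (R.shrink p hp s hs) bas h y S d w T := by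
  classical
  have hc : CharZero L := charZero_of_injective_algebraMap (algebraMap ℂ L).injective
  have he1 : Algebra.EssFiniteType ℂ K := Cmp_595.essFiniteType R.MK
  have he2 : Algebra.EssFiniteType L K := Algebra.EssFiniteType.of_comp ℂ L K
  obtain ⟨GG, hGG, hsep⟩ := sep R
  obtain ⟨S, AA, BB, C₁, n, d, hC₁, hmain⟩ := main bas h y hJ H GG
  obtain ⟨p₀, hp₀, hpA⟩ := IntD_448.exists_den R.ML (AA ∪ AA.image (fun a => a⁻¹))
  let E : Finset K := BB ∪ BB₀ ∪ S.image h ∪ S.image (fun i => jac L bas (y i)) ∪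
    S.biUnion fun i => Finset.univ.image (y i)
  obtain ⟨s₀, hs₀, hsB⟩ := IntD_448.exists_den R.MK (E ∪ E.image (fun a => a⁻¹))
  obtain ⟨C₂, k₂, l₂, hC₂, hgr⟩ := growth_fin_loc (R.ML.loc p₀ hp₀) AA
  refine ⟨S, d, s₀, p₀, C₁ * (2 * C₂) ^ n, k₂ * n, l₂ * n, hs₀, hp₀, ?_, ?_⟩
  · have h1 : (1 : ℝ) ≤ (2 * C₂) ^ n := one_le_pow₀ (by linarith)
    nlinarith
  intro s hs p hp hds hdp
  set R' := R.shrink p hp s hs with hR'
  have hEmem : ∀ b ∈ E, b ∈ R'.MK.B ∧ b⁻¹ ∈ R'.MK.B := by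
    intro b hb
    have h1 : s₀ ∣ MvPolynomial.rename (Fin.castAdd r) p * s := hds.trans (Dvd.intro_left _ rfl)
    exact ⟨mem_loc_of_dvd R.MK (cp2_ne hp hs) h1 (hsB b (Finset.mem_union_left _ hb)),
      mem_loc_of_dvd R.MK (cp2_ne hp hs) h1 (hsB _ (Finset.mem_union_right _
        (Finset.mem_image_of_mem (fun a => a⁻¹) hb)))⟩
  have hAmem : ∀ a ∈ AA, a ∈ R'.ML.B ∧ a⁻¹ ∈ R'.ML.B := by
    intro a ha
    exact ⟨mem_loc_of_dvd R.ML hp hdp (hpA a (Finset.mem_union_left _ ha)),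
      mem_loc_of_dvd R.ML hp hdp (hpA _ (Finset.mem_union_right _
        (Finset.mem_image_of_mem (fun a => a⁻¹) ha)))⟩
  refine ⟨fun b hb => hEmem b (by simp only [E, Finset.mem_union]; tauto), fun i hi => ⟨?_, ?_, ?_⟩,
    ?_⟩
  · refine (hEmem _ ?_).1
    simp only [E, Finset.mem_union]
    have := Finset.mem_image_of_mem h hi
    tauto
  · intro l
    refine (hEmem _ ?_).1
    simp only [E, Finset.mem_union]
    have : y i l ∈ S.biUnion fun i => Finset.univ.image (y i) :=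
      Finset.mem_biUnion.2 ⟨i, hi, Finset.mem_image_of_mem _ (Finset.mem_univ _)⟩
    tauto
  · refine (hEmem _ ?_).1
    simp only [E, Finset.mem_union]
    have := Finset.mem_image_of_mem (fun i => jac L bas (y i)) hi
    tauto
  intro w T hT
  have hgw := hgr R'.ML rfl (loc_le_loc R.ML hp₀ hp hdp) (fun a ha =>
    mem_loc_of_den R.ML hp₀ (hpA a (Finset.mem_union_left _ ha))) w
  set Rw : ℝ := bd C₂ k₂ l₂ (Xz R'.ML w) ‖MvPolynomial.eval (R'.ML.pz w) (R.ML.loc p₀ hp₀).h‖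
    with hRw
  have hRw1 : 1 ≤ Rw := hgw.1
  have hTT : C₁ * (1 + Rw) ^ n ≤ T := (bd_pow (by linarith) hRw1 n).trans hT
  have hone : 1 ≤ C₁ * (1 + Rw) ^ n := by
    have h1 : (1 : ℝ) ≤ (1 + Rw) ^ n := one_le_pow₀ (by linarith)
    nlinarith
  obtain ⟨μ, hμ⟩ := Ho51.exists_leb (M := R'.Fib w) (n := r)
  obtain ⟨hcov, hint⟩ := hmain R'.ML.B R'.MK.B (R'.ML.B.val : R'.ML.B →+* L)
    (R'.MK.B.val : R'.MK.B →+* K)
    (R'.incl : R'.ML.B →+* R'.MK.B) (w : R'.ML.B →+* ℂ) (R'.Fib w)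
    (fun y : R'.Fib w => ((y.val : R'.MK.B →ₐ[ℂ] ℂ) : R'.MK.B →+* ℂ)) μ hμ
    (isFib R' bas hbas w) (fun a ha => ⟨⟨a, (hAmem a ha).1⟩, rfl⟩)
    (fun a ha => ⟨⟨a⁻¹, (hAmem a ha).2⟩, rfl⟩)
    (fun b hb => ⟨⟨b, (hEmem b (by simp only [E, Finset.mem_union]; tauto)).1⟩, rfl⟩)
    (fun b hb => ⟨⟨b⁻¹, (hEmem b (by simp only [E, Finset.mem_union]; tauto)).2⟩, rfl⟩)
    (hsep R' rfl (R.MK.le_loc _ (cp2_ne hp hs)) w) Rw (by linarith) (fun a ha a' ha' => hgw.2 a ha a' ha')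
  refine ⟨hone.trans hTT, fun x hx => ?_, fun wt hwt F hF hFw => ?_⟩
  · subst hx
    obtain ⟨i, hi, h1, h2⟩ := hcov (show R'.Fib (R'.q x) from ⟨x, rfl⟩)
    exact ⟨i, hi, fun b hb => (h1 b hb).trans hTT, fun l b hb => (h2 l b hb).trans hTT⟩
  · rw [R'.fint_eq hμ hF]
    refine (hint wt hwt (fun y => F y.val) ?_).trans ?_
    · intro i hi hB JB yB h1 h2 h3 x hx1 hx2
      exact hFw i hi hB JB yB h1 h2 h3 x.val x.q_eq (hx1.trans hTT) fun l => (hx2 l).trans hTT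
    · refine Finset.sum_le_sum fun i _ => ?_
      gcongr

/-- `h` of the shrunk model -/
lemma exists_Hz_le (p₀ : MvPolynomial (Fin m) ℂ) (s : MvPolynomial (Fin (m + r)) ℂ) (hs : s ≠ 0)
    (p : MvPolynomial (Fin m) ℂ) (hp : p ≠ 0) (hd : p₀ ∣ p) : ∃ (D : ℝ) (e : ℕ), 1 ≤ D ∧
      ∀ w : (R.shrink p hp s hs).ML.Pts, Hz _ w ≤ D * Xz _ w ^ e *
        ‖MvPolynomial.eval ((R.shrink p hp s hs).ML.pz w) (R.ML.h * p₀)‖ := by
  obtain ⟨c, hc⟩ := hd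
  obtain ⟨D, e, hD, h1⟩ := exists_poly_le (R.shrink p hp s hs).ML c
  refine ⟨D, e, hD, fun w => ?_⟩
  have h2 : (R.shrink p hp s hs).ML.h = R.ML.h * p₀ * c := by
    rw [mul_assoc, ← hc]
    rfl
  unfold Hz
  rw [h2, map_mul, norm_mul, mul_comm]
  exact mul_le_mul_of_nonneg_right (h1 w) (norm_nonneg _)

lemma eval_pos (p₀ : MvPolynomial (Fin m) ℂ) (s : MvPolynomial (Fin (m + r)) ℂ) (hs : s ≠ 0)
    (p : MvPolynomial (Fin m) ℂ) (hp : p ≠ 0) (hd : p₀ ∣ p) (w : (R.shrink p hp s hs).ML.Pts) :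
    0 < ‖MvPolynomial.eval ((R.shrink p hp s hs).ML.pz w) (R.ML.h * p₀)‖ := by
  obtain ⟨c, hc⟩ := hd
  have h2 : (R.shrink p hp s hs).ML.h = R.ML.h * p₀ * c := by
    rw [mul_assoc, ← hc]
    rfl
  have h1 := (R.shrink p hp s hs).ML.eval_h_ne w
  rw [h2, map_mul] at h1
  exact norm_pos_iff.2 (left_ne_zero_of_mul h1)

/-- the same with `Ev2`, growth in terms of the model itself -/
theorem ev2_main_fib (bas : Module.Basis (Fin r) K (Ω[K⁄L]))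
    (hbas : ∀ j, bas j = KaehlerDifferential.D L K (R.MK.zK (Fin.natAdd m j)))
    {ι : Type} (h : ι → K) (y : ι → Fin r → K) (hJ : ∀ i, jac L bas (y i) ≠ 0)
    (H : ∀ V : ValuationSubring K, (∀ a : L, algebraMap L K a ∈ V) → ∃ i, h i ∈ V ∧ ∀ l, y i l ∈ V)
    (BB₀ : Finset K) :
    ∃ (S : Finset ι) (d : ι → ℕ), Ev2 R fun R' =>
      (∀ b ∈ BB₀, b ∈ R'.MK.B ∧ b⁻¹ ∈ R'.MK.B) ∧
      (∀ i ∈ S, h i ∈ R'.MK.B ∧ (∀ l, y i l ∈ R'.MK.B) ∧ jac L bas (y i) ∈ R'.MK.B) ∧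
      ∃ (C : ℝ) (k l : ℕ), 1 ≤ C ∧ ∀ w : R'.ML.Pts, ∀ T : ℝ,
        bd C k l (Xz _ w) (Hz _ w) ≤ T → MainAt R' bas h y S d w T := by
  obtain ⟨S, d, s₀, p₀, C, k, l, hs₀, hp₀, hC, hm⟩ := main_fib R bas hbas h y hJ H BB₀
  refine ⟨S, d, s₀, hs₀, fun s hs hds => ⟨p₀, hp₀, fun p hp hdp => ?_⟩⟩
  obtain ⟨h1, h2, h3⟩ := hm s hs p hp hds hdp
  refine ⟨h1, h2, ?_⟩
  obtain ⟨D, e, hD, h4⟩ := exists_Hz_le R p₀ s hs p hp hdp
  refine ⟨C * D ^ l, k + e * l, l, ?_, fun w T hT => h3 w T (le_trans ?_ hT)⟩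
  · have : 1 ≤ D ^ l := one_le_pow₀ hD
    nlinarith
  · exact bd_mono_H (by linarith) (one_le_Xz _ w) (eval_pos R p₀ s hs p hp hdp w) (Hz_pos _ w)
      (h4 w)

/-- **OUT.** `g` with `PluriS L b N g`: `∫_{M_w} |g|^{2/N}` at EVERY point `w` of the base. -/
theorem ev2_int_fib (bas : Module.Basis (Fin r) K (Ω[K⁄L]))
    (hbas : ∀ j, bas j = KaehlerDifferential.D L K (R.MK.zK (Fin.natAdd m j)))
    {N : ℕ} (hN : 0 < N) {g : K} (hg : PluriS L bas N g) :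
    Ev2 R fun R' => (g ∈ R'.MK.B) ∧
      ∃ (C : ℝ) (k l : ℕ), 0 ≤ C ∧ ∀ gB : R'.MK.B, (gB : K) = g → ∀ w : R'.ML.Pts,
        R'.fint w (fun y => ENNReal.ofReal (‖y gB‖ ^ (2 / (N : ℝ)))) ≤
          ENNReal.ofReal (bd C k l (Xz _ w) (Hz _ w)) := by
  classical
  have hN0 : (0 : ℝ) < N := by exact_mod_cast hN
  by_cases hg0 : g = 0
  · refine Ev2.of_forall fun R' => ⟨by rw [hg0]; exact zero_mem _, 0, 0, 0, le_rfl,
      fun gB hgB w => ?_⟩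
    have h0 : gB = 0 := Subtype.ext (hgB.trans hg0)
    have h1 : R'.fint w (fun y => ENNReal.ofReal (‖y gB‖ ^ (2 / (N : ℝ)))) = 0 := by
      have h2 : (0 : ℝ) ^ (2 / (N : ℝ)) = 0 := Real.zero_rpow (by positivity)
      unfold RMdl.fint RMdl.fsumR
      simp [h0, h2]
    rw [h1]
    exact zero_le
  obtain ⟨S, d, hev⟩ := ev2_main_fib R bas hbas
    (ι := {t : K × (Fin r → K) // jac L bas t.2 ≠ 0 ∧ g = t.1 * jac L bas t.2 ^ N})
    (fun t => t.1.1) (fun t => t.1.2) (fun t => t.2.1) (GroUpE_845.exists_tuples bas hN hg0 hg) {g}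
  refine hev.mono fun R' hR' => ?_
  obtain ⟨h1, h2, C, k, l, hC, h3⟩ := hR'
  refine ⟨(h1 g (Finset.mem_singleton_self g)).1, ((∑ t ∈ S, d t : ℕ) : ℝ) * Real.pi ^ r *
    C ^ (2 + 2 * r), k * (2 + 2 * r), l * (2 + 2 * r), by positivity, fun gB hgB w => ?_⟩
  set T : ℝ := bd C k l (Xz _ w) (Hz _ w) with hT
  obtain ⟨hT1, -, hint⟩ := h3 w T le_rfl
  have hmeas : Measurable fun x : R'.MK.Pts => ENNReal.ofReal (‖x gB‖ ^ (2 / (N : ℝ))) := by
    have h1 : Continuous fun x : R'.MK.Pts => ‖x gB‖ := (continuous_ev gB).norm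
    exact (h1.measurable.pow_const _).ennreal_ofReal
  have h4 := hint (fun _ _ => ENNReal.ofReal (T ^ (2 / (N : ℝ)))) (fun _ => measurable_const)
    (fun x => ENNReal.ofReal (‖x gB‖ ^ (2 / (N : ℝ)))) hmeas (by
      intro t ht hB JB yB h1 h2 h3 x hx hx1 hx2
      have h4 : gB = hB * JB ^ N := by
        apply Subtype.ext
        change (gB : K) = (hB : K) * (JB : K) ^ N
        rw [hgB, h1, h2]
        exact t.2.2
      rw [h4, map_mul, map_pow, norm_mul, norm_pow, Real.mul_rpow (norm_nonneg _) (by positivity),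
        ← ENNReal.ofReal_mul (by positivity)]
      apply ENNReal.ofReal_le_ofReal
      have h5 : (‖x JB‖ ^ N) ^ (2 / (N : ℝ)) = ‖x JB‖ ^ 2 := by
        rw [← Real.rpow_natCast, ← Real.rpow_mul (norm_nonneg _), mul_div_cancel₀ _ hN0.ne']
        exact_mod_cast Real.rpow_natCast _ 2
      rw [h5, mul_comm]
      apply mul_le_mul_of_nonneg_left _ (by positivity)
      exact Real.rpow_le_rpow (norm_nonneg _) hx1 (by positivity))
  refine h4.trans ?_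
  have h5 : ∀ t ∈ S, (d t : ℝ≥0∞) * ∫⁻ η in {η : Fin r → ℂ | ∀ l, ‖η l‖ ≤ T},
      ENNReal.ofReal (T ^ (2 / (N : ℝ))) ≤
        (d t : ℝ≥0∞) * ENNReal.ofReal (T ^ (2 + 2 * r) * Real.pi ^ r) := by
    intro t _
    gcongr
    rw [setLIntegral_const, GroUpE_845.volume_polydisc' (by linarith),
      ← ENNReal.ofReal_mul (by positivity)]
    apply ENNReal.ofReal_le_ofReal
    have h4 : T ^ (2 / (N : ℝ)) ≤ T ^ (2 : ℕ) := by
      rw [← Real.rpow_natCast]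
      apply Real.rpow_le_rpow_of_exponent_le hT1
      rw [div_le_iff₀ hN0]
      have : (1 : ℝ) ≤ N := by exact_mod_cast hN
      push_cast
      linarith
    calc T ^ (2 / (N : ℝ)) * (T ^ 2 * Real.pi) ^ r ≤ T ^ 2 * (T ^ 2 * Real.pi) ^ r := by
          apply mul_le_mul_of_nonneg_right h4 (by positivity)
      _ = T ^ (2 + 2 * r) * Real.pi ^ r := by rw [mul_pow, ← pow_mul]; ring
  refine (Finset.sum_le_sum h5).trans (le_of_eq ?_)
  rw [← Finset.sum_mul]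
  have h6 : (∑ t ∈ S, (d t : ℝ≥0∞)) = ENNReal.ofReal ((∑ t ∈ S, d t : ℕ) : ℝ) := by
    rw [ENNReal.ofReal_natCast]
    push_cast
    rfl
  rw [h6, ← ENNReal.ofReal_mul (by positivity)]
  congr 1
  rw [hT]
  unfold bd
  rw [div_pow, mul_pow, ← pow_mul, ← pow_mul]
  ring

theorem _root_.Crest.Agent.R276.TowA_849.Ev2.forall_finset {ι : Type*} (S : Finset ι)
    {Q : ι → RMdl L K m r → Prop} (h : ∀ i ∈ S, Ev2 R (Q i)) :
    Ev2 R fun R' => ∀ i ∈ S, Q i R' := by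
  classical
  induction S using Finset.induction_on with
  | empty => exact Ev2.of_forall fun _ _ hi => absurd hi (Finset.notMem_empty _)
  | insert i S hi ih =>
    refine ((h i (Finset.mem_insert_self i S)).and
      (ih fun j hj => h j (Finset.mem_insert_of_mem hj))).mono ?_
    rintro W ⟨h1, h2⟩ j hj
    rcases Finset.mem_insert.1 hj with rfl | hj
    · exact h1
    · exact h2 j hj

/-- finitely many bounds of the form `bd` have a common bound -/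
lemma bd_sum (M : Mdl L m) {ι : Type*} (S : Finset ι) (C : ι → ℝ) (k l : ι → ℕ)
    (hC : ∀ i ∈ S, 0 ≤ C i) : ∃ (C' : ℝ) (k' l' : ℕ), 0 ≤ C' ∧ ∀ w : M.Pts,
      ∑ i ∈ S, bd (C i) (k i) (l i) (Xz M w) (Hz M w) ≤ bd C' k' l' (Xz M w) (Hz M w) := by
  classical
  obtain ⟨D, e, hD, hDX⟩ := exists_poly_le M M.h
  have hD0 : (0 : ℝ) ≤ D := by linarith
  induction S using Finset.induction_on with
  | empty => exact ⟨0, 0, 0, le_rfl, fun w => by simp [bd]⟩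
  | insert i S hi ih =>
    obtain ⟨C', k', l', hC', h1⟩ := ih fun j hj => hC j (Finset.mem_insert_of_mem hj)
    have hCi := hC i (Finset.mem_insert_self i S)
    refine ⟨2 * (C i * D ^ l' + C' * D ^ l i), k i + e * l' + (k' + e * l i), l i + l', ?_,
      fun w => ?_⟩
    · positivity
    · rw [Finset.sum_insert hi]
      have hl := bd_le_left (k₁ := k i) (l₁ := l i) (k₂ := k') (l₂ := l') hCi hC' hD
        (one_le_Xz M w) (Hz_pos M w) (hDX w)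
      have hr := bd_le_right (k₁ := k i) (l₁ := l i) (k₂ := k') (l₂ := l') hCi hC' hD
        (one_le_Xz M w) (Hz_pos M w) (hDX w)
      have h2 : bd (2 * (C i * D ^ l' + C' * D ^ l i)) (k i + e * l' + (k' + e * l i)) (l i + l')
          (Xz M w) (Hz M w) = 2 * bd (C i * D ^ l' + C' * D ^ l i)
            (k i + e * l' + (k' + e * l i)) (l i + l') (Xz M w) (Hz M w) := by
        unfold bd
        ring
      rw [h2]
      linarith [h1 w]


end rel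

end Crest.Agent.R276.FibI_448
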