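import Crest.Agent.R276.Ahl_25

/-!
# R276, plane step of GVHS/SS (helper317, shape of helper574's post 1805)

`plane` : on the plane minus a finite set `F`, if `Δ U ≥ 0` and `|dU|² ≤ C G` where `G ≥ 0` satisfies the
negative curvature inequality `Δ log G ≥ c G`, then `Δ U = 0`.

Proof: Ahlfors-Schwarz gives `G ≤ K W`, `W = ∑_{a} 1/(|z-a|²(1+log²|z-a|))` (`a` in `F ∪ {0}`), an integrable
function; `Ψ = ∑_a log (1 + log²|z-a|)` is an exhaustion of the complement with `|dΨ|² ≤ K W`, so with the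
cut-offs `χ_n = q(Ψ/n)` one gets `∫ χ_n Δ U = - ∫ dχ_n · dU = O(1/n)`.
-/

set_option autoImplicit false

open Set Filter Topology Metric InnerProductSpace Laplacian MeasureTheory
open scoped ContDiff

noncomputable section

namespace Crest.Agent.R276.Flux_317

open Crest.Agent.R276.Ahl_25

/-! ### the integrable weight -/

/-- `1/(r²(1+log² r))` -/
def w1 (r : ℝ) : ℝ := (r ^ 2 * (1 + Real.log r ^ 2))⁻¹

/-- the weight at `a` -/
def W1 (a z : ℂ) : ℝ := w1 ‖z - a‖

lemma w1_nonneg (r : ℝ) : 0 ≤ w1 r := by unfold w1; positivity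

lemma W1_nonneg (a z : ℂ) : 0 ≤ W1 a z := w1_nonneg _

lemma integrable_w1 : IntegrableOn (fun y : ℝ => y * w1 y) (Ioi 0) := by
  have h1 : Real.exp '' univ = Ioi 0 := by rw [image_univ, Real.range_exp]
  rw [← h1, integrableOn_image_iff_integrableOn_abs_deriv_smul MeasurableSet.univ
    (fun x _ => (Real.hasDerivAt_exp x).hasDerivWithinAt) (Real.exp_injective.injOn)]
  rw [integrableOn_univ]
  refine integrable_inv_one_add_sq.congr (Eventually.of_forall fun x => ?_)
  simp only [w1, Real.log_exp, smul_eq_mul, abs_of_pos (Real.exp_pos x)]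
  have : Real.exp x ≠ 0 := (Real.exp_pos x).ne'
  field_simp

lemma integrable_W1 (a : ℂ) : Integrable (W1 a) := by
  have h1 : Integrable (fun z : ℂ => w1 ‖z‖) := by
    rw [integrable_fun_norm_addHaar volume (f := w1)]
    refine integrable_w1.congr_fun (fun y _ => ?_) measurableSet_Ioi
    simp [Complex.finrank_real_complex]
  have h2 := h1.comp_sub_right a
  exact h2

/-! ### the exhaustion -/

/-- `log (1 + log²|z-a|)` -/
def psi (a z : ℂ) : ℝ := Real.log (1 + Real.log ‖z - a‖ ^ 2)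

lemma psi_nonneg (a z : ℂ) : 0 ≤ psi a z := Real.log_nonneg (by nlinarith [sq_nonneg (Real.log ‖z - a‖)])

lemma contDiffAt_lognorm {a z : ℂ} (h : z ≠ a) {n : WithTop ℕ∞} :
    ContDiffAt ℝ n (fun w : ℂ => Real.log ‖w - a‖) z := by
  have h1 : z - a ≠ 0 := sub_ne_zero.2 h
  exact ((contDiffAt_id.sub contDiffAt_const).norm ℝ h1).log (norm_ne_zero_iff.2 h1)

lemma contDiffAt_psi {a z : ℂ} (h : z ≠ a) {n : WithTop ℕ∞} : ContDiffAt ℝ n (psi a) z := by
  unfold psi
  refine ContDiffAt.log (contDiffAt_const.add ((contDiffAt_lognorm h).pow 2)) ?_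
  positivity

lemma norm_fderiv_psi {a z : ℂ} (h : z ≠ a) : ‖fderiv ℝ (psi a) z‖ ^ 2 ≤ 4 * W1 a z := by
  have h1 : z - a ≠ 0 := sub_ne_zero.2 h
  have hr : 0 < ‖z - a‖ := norm_pos_iff.2 h1
  set r := ‖z - a‖ with hrdef
  have hd : DifferentiableAt ℝ (fun w : ℂ => ‖w - a‖) z :=
    ((contDiffAt_id.sub contDiffAt_const).norm ℝ h1 : ContDiffAt ℝ 1 _ z).differentiableAt
      (by norm_num)
  have hlip : LipschitzWith 1 (fun w : ℂ => ‖w - a‖) := by
    refine LipschitzWith.of_dist_le_mul fun x y => ?_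
    simp only [NNReal.coe_one, one_mul, dist_eq_norm]
    have := abs_norm_sub_norm_le (x - a) (y - a)
    simpa using this
  have hn : ‖fderiv ℝ (fun w : ℂ => ‖w - a‖) z‖ ≤ 1 := by
    have := norm_fderiv_le_of_lipschitz ℝ hlip (x₀ := z)
    simpa using this
  have h2 : HasFDerivAt (psi a) ((1 + Real.log r ^ 2)⁻¹ • ((2 * Real.log r) • (r⁻¹ •
      fderiv ℝ (fun w : ℂ => ‖w - a‖) z))) z := by
    have e1 := hd.hasFDerivAt.log hr.ne'
    have e2 := e1.pow 2
    have e3 := (e2.const_add 1).log (by positivity)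
    refine e3.congr_fderiv ?_
    simp only [← hrdef]
    ext v
    simp [smul_eq_mul]
  rw [h2.fderiv, norm_smul, norm_smul, norm_smul, norm_inv, norm_inv, norm_mul,
    Real.norm_of_nonneg (by positivity : (0:ℝ) ≤ 1 + Real.log r ^ 2), Real.norm_of_nonneg hr.le,
    Real.norm_of_nonneg (by norm_num : (0:ℝ) ≤ 2), Real.norm_eq_abs]
  unfold W1 w1
  rw [← hrdef]
  set L := Real.log r
  set D := ‖fderiv ℝ (fun w : ℂ => ‖w - a‖) z‖
  have hD : D ^ 2 ≤ 1 := by have := norm_nonneg (fderiv ℝ (fun w : ℂ => ‖w - a‖) z); nlinarith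
  have e : ((1 + L ^ 2)⁻¹ * (2 * |L| * (r⁻¹ * D))) ^ 2 =
      4 * (r ^ 2 * (1 + L ^ 2))⁻¹ * (L ^ 2 / (1 + L ^ 2) * D ^ 2) := by
    rw [mul_pow, mul_pow, mul_pow, mul_pow, sq_abs]
    field_simp
    ring
  rw [e]
  have hL : L ^ 2 / (1 + L ^ 2) ≤ 1 := by
    rw [div_le_one (by positivity)]
    linarith
  have hL0 : 0 ≤ L ^ 2 / (1 + L ^ 2) := by positivity
  have h5 : L ^ 2 / (1 + L ^ 2) * D ^ 2 ≤ 1 := by nlinarith [sq_nonneg D]
  have h6 : 0 ≤ 4 * (r ^ 2 * (1 + L ^ 2))⁻¹ := by positivity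
  nlinarith

/-! ### sums over a finite set -/

section sums

variable (A : Finset ℂ)

/-- the total weight -/
def WW (z : ℂ) : ℝ := ∑ a ∈ A, W1 a z

/-- the total exhaustion -/
def PP (z : ℂ) : ℝ := ∑ a ∈ A, psi a z

lemma WW_nonneg (z : ℂ) : 0 ≤ WW A z := Finset.sum_nonneg fun _ _ => W1_nonneg _ _

lemma PP_nonneg (z : ℂ) : 0 ≤ PP A z := Finset.sum_nonneg fun _ _ => psi_nonneg _ _

lemma integrable_WW : Integrable (WW A) := by
  unfold WW
  exact integrable_finsetSum _ fun a _ => integrable_W1 a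

variable {A}

lemma ne_of_notMem {a z : ℂ} (ha : a ∈ A) (hz : z ∉ A) : z ≠ a := fun h => hz (h ▸ ha)

lemma contDiffAt_PP {z : ℂ} (hz : z ∉ A) {n : WithTop ℕ∞} : ContDiffAt ℝ n (PP A) z := by
  unfold PP
  exact ContDiffAt.sum fun a ha => contDiffAt_psi (ne_of_notMem ha hz)

lemma norm_fderiv_PP {z : ℂ} (hz : z ∉ A) : ‖fderiv ℝ (PP A) z‖ ^ 2 ≤ 4 * A.card * WW A z := by
  have h1 : fderiv ℝ (PP A) z = ∑ a ∈ A, fderiv ℝ (psi a) z := by
    unfold PP
    exact fderiv_fun_sum fun a ha =>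
      (contDiffAt_psi (n := 1) (ne_of_notMem ha hz)).differentiableAt (by norm_num)
  rw [h1]
  calc ‖∑ a ∈ A, fderiv ℝ (psi a) z‖ ^ 2 ≤ (∑ a ∈ A, ‖fderiv ℝ (psi a) z‖) ^ 2 := by
        gcongr
        exact norm_sum_le _ _
    _ ≤ A.card * ∑ a ∈ A, ‖fderiv ℝ (psi a) z‖ ^ 2 := sq_sum_le_card_mul_sum_sq
    _ ≤ A.card * ∑ a ∈ A, 4 * W1 a z := by
        gcongr with a ha
        exact norm_fderiv_psi (ne_of_notMem ha hz)
    _ = 4 * A.card * WW A z := by
        rw [← Finset.mul_sum]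
        unfold WW
        ring

lemma continuousAt_W1 {a z : ℂ} (h : z ≠ a) : ContinuousAt (W1 a) z := by
  have h1 : z - a ≠ 0 := sub_ne_zero.2 h
  have hr : 0 < ‖z - a‖ := norm_pos_iff.2 h1
  unfold W1 w1
  have h2 : ContinuousAt (fun w : ℂ => Real.log ‖w - a‖) z :=
    (contDiffAt_lognorm h (n := 0)).continuousAt
  refine ContinuousAt.inv₀ ?_ (by positivity)
  exact ((by fun_prop : ContinuousAt (fun w : ℂ => ‖w - a‖ ^ 2) z)).mul
    (continuousAt_const.add (h2.pow 2))

lemma W1_pos {a z : ℂ} (h : z ≠ a) : 0 < W1 a z := by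
  have h1 : z - a ≠ 0 := sub_ne_zero.2 h
  have hr : 0 < ‖z - a‖ := norm_pos_iff.2 h1
  unfold W1 w1
  positivity

lemma continuousAt_WW {z : ℂ} (hz : z ∉ A) : ContinuousAt (WW A) z := by
  unfold WW
  exact tendsto_finsetSum _ fun a ha => continuousAt_W1 (ne_of_notMem ha hz)

/-- the sublevel sets of the exhaustion are relatively compact in the complement of `A` -/
lemma sublevel (h0 : (0 : ℂ) ∈ A) (M : ℝ) : ∃ L : ℝ, 0 < L ∧ ∀ z ∉ A, PP A z ≤ M →
    ‖z‖ ≤ Real.exp L ∧ ∀ a ∈ A, Real.exp (-L) ≤ ‖z - a‖ := by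
  refine ⟨Real.exp (|M|) , Real.exp_pos _, fun z hz hM => ?_⟩
  have key : ∀ a ∈ A, |Real.log ‖z - a‖| ≤ Real.exp |M| := by
    intro a ha
    have h1 : psi a z ≤ M := by
      have h2 : psi a z ≤ PP A z := by
        unfold PP
        exact Finset.single_le_sum (f := fun a => psi a z) (fun a _ => psi_nonneg a z) ha
      exact h2.trans hM
    have h3 : 1 + Real.log ‖z - a‖ ^ 2 ≤ Real.exp |M| := by
      have h4 : Real.log (1 + Real.log ‖z - a‖ ^ 2) ≤ |M| := h1.trans (le_abs_self M)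
      have := Real.exp_le_exp.2 h4
      rwa [Real.exp_log (by positivity)] at this
    have h5 : 1 ≤ Real.exp |M| := Real.one_le_exp (abs_nonneg M)
    have h6 : |Real.log ‖z - a‖| ^ 2 ≤ Real.exp |M| ^ 2 := by
      rw [sq_abs]
      nlinarith
    exact (sq_le_sq₀ (abs_nonneg _) (Real.exp_pos _).le).1 h6
  constructor
  · have hz0 : z ≠ 0 := fun h => hz (h ▸ h0)
    have h1 := key 0 h0
    rw [sub_zero] at h1
    have hpos : 0 < ‖z‖ := norm_pos_iff.2 hz0
    rw [← Real.exp_log hpos]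
    exact Real.exp_le_exp.2 ((le_abs_self _).trans h1)
  · intro a ha
    have hpos : 0 < ‖z - a‖ := norm_pos_iff.2 (sub_ne_zero.2 (ne_of_notMem ha hz))
    rw [← Real.exp_log hpos]
    exact Real.exp_le_exp.2 (by have := (abs_le.1 (key a ha)).1; linarith)

end sums

/-! ### the cut-off profile -/

/-- `(max 0 (1-s))²` -/
def q (s : ℝ) : ℝ := (max 0 (1 - s)) ^ 2

lemma q_nonneg (s : ℝ) : 0 ≤ q s := sq_nonneg _

lemma q_eq_zero {s : ℝ} (h : 1 ≤ s) : q s = 0 := by
  unfold q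
  rw [max_eq_left (by linarith)]
  ring

lemma hasDerivAt_maxsq (x : ℝ) : HasDerivAt (fun y : ℝ => (max 0 y) ^ 2) (2 * max 0 x) x := by
  rcases lt_trichotomy x 0 with h | h | h
  · have h1 : (fun y : ℝ => (max 0 y) ^ 2) =ᶠ[𝓝 x] fun _ => 0 := by
      filter_upwards [gt_mem_nhds h] with y hy
      rw [max_eq_left hy.le]
      ring
    rw [max_eq_left h.le, mul_zero]
    exact (hasDerivAt_const x (0 : ℝ)).congr_of_eventuallyEq h1
  · subst h
    rw [max_self, mul_zero, hasDerivAt_iff_isLittleO]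
    simp only [max_self, ne_eq, OfNat.ofNat_ne_zero, not_false_eq_true, zero_pow, sub_zero,
      smul_eq_mul, mul_zero]
    refine Asymptotics.IsBigO.trans_isLittleO (g := fun y : ℝ => y ^ 2) ?_ ?_
    · refine Asymptotics.IsBigO.of_bound 1 (Eventually.of_forall fun y => ?_)
      rw [one_mul, Real.norm_of_nonneg (sq_nonneg _), Real.norm_of_nonneg (sq_nonneg _)]
      rcases le_total 0 y with hy | hy
      · rw [max_eq_right hy]
      · rw [max_eq_left hy]
        nlinarith [sq_nonneg y]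
    · simpa using Asymptotics.isLittleO_pow_id (𝕜 := ℝ) (n := 2) (by norm_num)
  · have h1 : (fun y : ℝ => (max 0 y) ^ 2) =ᶠ[𝓝 x] fun y => y ^ 2 := by
      filter_upwards [lt_mem_nhds h] with y hy
      rw [max_eq_right hy.le]
    rw [max_eq_right h.le]
    have h2 : HasDerivAt (fun y : ℝ => y ^ 2) (2 * x) x := by
      simpa using (hasDerivAt_pow 2 x)
    exact h2.congr_of_eventuallyEq h1

/-- derivative of `q` -/
def q' (s : ℝ) : ℝ := -(2 * max 0 (1 - s))

lemma hasDerivAt_q (s : ℝ) : HasDerivAt q (q' s) s := by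
  have h1 := (hasDerivAt_maxsq (1 - s)).scomp s ((hasDerivAt_id s).const_sub 1)
  refine (h1.congr_deriv ?_)
  simp [q']

lemma continuous_q' : Continuous q' := by unfold q'; fun_prop

lemma continuous_q : Continuous q := by unfold q; fun_prop

lemma q'_eq_zero {s : ℝ} (h : 1 ≤ s) : q' s = 0 := by
  unfold q'
  rw [max_eq_left (by linarith)]
  ring

lemma abs_q'_le {s : ℝ} (h : 0 ≤ s) : |q' s| ≤ 2 := by
  unfold q'
  rw [abs_neg, abs_of_nonneg (by positivity)]
  have : max 0 (1 - s) ≤ 1 := max_le (by norm_num) (by linarith)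
  linarith

/-! ### the cut-off functions -/

section cut

variable (A : Finset ℂ)

/-- the cut-off function -/
def chi (n : ℝ) (z : ℂ) : ℝ := (A : Set ℂ)ᶜ.indicator (fun z => q (PP A z / n)) z

/-- a function with a factor vanishing for `n ≤ Ψ` -/
def ext (g : ℂ → ℝ) (z : ℂ) : ℝ := (A : Set ℂ)ᶜ.indicator g z

variable {A}

lemma ext_of_notMem {g : ℂ → ℝ} {z : ℂ} (hz : z ∉ A) : ext A g z = g z := by
  unfold ext
  rw [indicator_of_mem (by simpa using hz)]


/-- near the points of `A` the exhaustion is large -/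
lemma eventually_large (h0 : (0 : ℂ) ∈ A) (M : ℝ) {a : ℂ} (ha : a ∈ A) :
    ∀ᶠ z in 𝓝 a, z ∉ A → M < PP A z := by
  obtain ⟨L, hL, hsub⟩ := sublevel h0 M
  have h1 : ∀ᶠ z in 𝓝 a, ‖z - a‖ < Real.exp (-L) := by
    have : ball a (Real.exp (-L)) ∈ 𝓝 a := ball_mem_nhds a (Real.exp_pos _)
    filter_upwards [this] with z hz
    rwa [mem_ball_iff_norm] at hz
  filter_upwards [h1] with z hz hzA
  by_contra hcon
  push Not at hcon
  exact absurd ((hsub z hzA hcon).2 a ha) (not_le.2 hz)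

lemma ext_eventually_zero (h0 : (0 : ℂ) ∈ A) {n : ℝ} {g : ℂ → ℝ}
    (hg : ∀ z ∉ A, n ≤ PP A z → g z = 0) {a : ℂ} (ha : a ∈ A) : ext A g =ᶠ[𝓝 a] fun _ => 0 := by
  filter_upwards [eventually_large h0 n ha] with z hz
  by_cases hzA : z ∈ A
  · unfold ext
    rw [indicator_of_notMem (by simpa using hzA)]
  · rw [ext_of_notMem hzA]
    exact hg z hzA (hz hzA).le

lemma eventually_notMem {z : ℂ} (hz : z ∉ A) : ∀ᶠ w in 𝓝 z, w ∉ A :=
  (A.finite_toSet.isClosed.isOpen_compl.mem_nhds (by simpa using hz))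

lemma ext_eventually_eq {g : ℂ → ℝ} {z : ℂ} (hz : z ∉ A) : ext A g =ᶠ[𝓝 z] g := by
  filter_upwards [eventually_notMem hz] with w hw
  exact ext_of_notMem hw

lemma continuous_ext (h0 : (0 : ℂ) ∈ A) {n : ℝ} {g : ℂ → ℝ}
    (hg : ∀ z ∉ A, n ≤ PP A z → g z = 0) (hc : ∀ z ∉ A, ContinuousAt g z) :
    Continuous (ext A g) := by
  rw [continuous_iff_continuousAt]
  intro z
  by_cases hz : z ∈ A
  · exact (continuousAt_const (y := (0 : ℝ))).congr (ext_eventually_zero h0 hg hz).symm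
  · exact (hc z hz).congr (ext_eventually_eq hz).symm

lemma hasCompactSupport_ext (h0 : (0 : ℂ) ∈ A) {n : ℝ} {g : ℂ → ℝ}
    (hg : ∀ z ∉ A, n ≤ PP A z → g z = 0) : HasCompactSupport (ext A g) := by
  obtain ⟨L, hL, hsub⟩ := sublevel h0 n
  refine HasCompactSupport.intro (isCompact_closedBall (0 : ℂ) (Real.exp L)) fun z hz => ?_
  by_cases hzA : z ∈ A
  · unfold ext
    rw [indicator_of_notMem (by simpa using hzA)]
  · rw [ext_of_notMem hzA]
    refine hg z hzA ?_
    by_contra hcon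
    push Not at hcon
    apply hz
    rw [mem_closedBall_zero_iff]
    exact (hsub z hzA hcon.le).1

lemma integrable_ext (h0 : (0 : ℂ) ∈ A) {n : ℝ} {g : ℂ → ℝ}
    (hg : ∀ z ∉ A, n ≤ PP A z → g z = 0) (hc : ∀ z ∉ A, ContinuousAt g z) :
    Integrable (ext A g) :=
  (continuous_ext h0 hg hc).integrable_of_hasCompactSupport (hasCompactSupport_ext h0 hg)

lemma hasFDerivAt_chi (h0 : (0 : ℂ) ∈ A) {n : ℝ} (hn : 0 < n) (z : ℂ) (v : ℂ) :
    HasLineDerivAt ℝ (chi A n) (ext A (fun z => q' (PP A z / n) * (fderiv ℝ (PP A) z v / n)) z)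
      z v := by
  by_cases hz : z ∈ A
  · have h1 : chi A n =ᶠ[𝓝 z] fun _ => 0 := by
      refine ext_eventually_zero (g := fun z => q (PP A z / n)) h0 (n := n) (fun w _ hw => ?_) hz
      exact q_eq_zero ((one_le_div hn).2 hw)
    have h2 : ext A (fun z => q' (PP A z / n) * (fderiv ℝ (PP A) z v / n)) z = 0 := by
      unfold ext
      rw [indicator_of_notMem (by simpa using hz)]
    rw [h2]
    have h3 : HasFDerivAt (chi A n) (0 : ℂ →L[ℝ] ℝ) z :=
      (hasFDerivAt_const (0 : ℝ) z).congr_of_eventuallyEq h1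
    simpa using h3.hasLineDerivAt v
  · rw [ext_of_notMem hz]
    have h1 : chi A n =ᶠ[𝓝 z] fun w => q (PP A w / n) :=
      ext_eventually_eq (g := fun z => q (PP A z / n)) hz
    have h2 : HasFDerivAt (PP A) (fderiv ℝ (PP A) z) z :=
      ((contDiffAt_PP (n := 1) hz).differentiableAt (by norm_num)).hasFDerivAt
    have h3 : HasFDerivAt (fun w => PP A w / n) (n⁻¹ • fderiv ℝ (PP A) z) z := by
      have := h2.const_smul n⁻¹
      refine this.congr_of_eventuallyEq (Eventually.of_forall fun w => ?_)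
      simp only [Pi.smul_apply, smul_eq_mul]
      rw [div_eq_inv_mul]
    have h4 : HasFDerivAt (fun w => q (PP A w / n)) (q' (PP A z / n) • (n⁻¹ • fderiv ℝ (PP A) z))
        z := (hasDerivAt_q _).comp_hasFDerivAt z h3
    have h5 := (h4.congr_of_eventuallyEq h1).hasLineDerivAt v
    have h6 : q' (PP A z / n) * (fderiv ℝ (PP A) z v / n) =
        (q' (PP A z / n) • (n⁻¹ • fderiv ℝ (PP A) z)) v := by
      show _ = q' (PP A z / n) * (n⁻¹ * fderiv ℝ (PP A) z v)
      ring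
    rw [h6]
    exact h5

/-- integration by parts in one direction -/
lemma by_parts (h0 : (0 : ℂ) ∈ A) {n : ℝ} (hn : 0 < n) {U : ℂ → ℝ}
    (hU : ∀ z ∉ A, ContDiffAt ℝ 2 U z) (v : ℂ) :
    ∫ z, ext A (fun z => fderiv ℝ (fderiv ℝ U) z v v * q (PP A z / n)) z =
      - ∫ z, ext A (fun z => fderiv ℝ U z v * (q' (PP A z / n) * (fderiv ℝ (PP A) z v / n))) z := by
  set f : ℂ → ℝ := fun z => fderiv ℝ U z v with hf
  set f' : ℂ → ℝ := fun z => fderiv ℝ (fderiv ℝ U) z v v with hf'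
  set g' : ℂ → ℝ := ext A (fun z => q' (PP A z / n) * (fderiv ℝ (PP A) z v / n)) with hg'
  have hq0 : ∀ z ∉ A, n ≤ PP A z → q (PP A z / n) = 0 := fun z _ h =>
    q_eq_zero ((one_le_div hn).2 h)
  have hq0' : ∀ z ∉ A, n ≤ PP A z → q' (PP A z / n) = 0 := fun z _ h =>
    q'_eq_zero ((one_le_div hn).2 h)
  have hcP : ∀ z ∉ A, ContinuousAt (PP A) z := fun z hz =>
    (contDiffAt_PP (n := 0) hz).continuousAt
  have hcq : ∀ z ∉ A, ContinuousAt (fun z => q (PP A z / n)) z := fun z hz =>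
    continuous_q.continuousAt.comp (f := fun z => PP A z / n) ((hcP z hz).div_const n)
  have hcq' : ∀ z ∉ A, ContinuousAt (fun z => q' (PP A z / n)) z := fun z hz =>
    continuous_q'.continuousAt.comp (f := fun z => PP A z / n) ((hcP z hz).div_const n)
  have hcDP : ∀ z ∉ A, ContinuousAt (fun z => fderiv ℝ (PP A) z v / n) z := by
    intro z hz
    have h1 : ContDiffAt ℝ 0 (fderiv ℝ (PP A)) z :=
      (contDiffAt_PP (n := 1) hz).fderiv_right (by norm_num)
    exact (h1.continuousAt.clm_apply continuousAt_const).div_const n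
  have hdU : ∀ z ∉ A, ContDiffAt ℝ 1 (fderiv ℝ U) z := fun z hz =>
    (hU z hz).fderiv_right (by norm_num)
  have hcU : ∀ z ∉ A, ContinuousAt f z := fun z hz =>
    (hdU z hz).continuousAt.clm_apply continuousAt_const
  have hcU' : ∀ z ∉ A, ContinuousAt f' z := by
    intro z hz
    have h1 : ContDiffAt ℝ 0 (fderiv ℝ (fderiv ℝ U)) z := (hdU z hz).fderiv_right (by norm_num)
    exact (h1.continuousAt.clm_apply continuousAt_const).clm_apply continuousAt_const
  have hsupp : tsupport (chi A n) ⊆ (A : Set ℂ)ᶜ := by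
    intro z hz hzA
    have h1 : chi A n =ᶠ[𝓝 z] fun _ => 0 :=
      ext_eventually_zero (g := fun z => q (PP A z / n)) h0 hq0 hzA
    exact (notMem_tsupport_iff_eventuallyEq.2 h1) hz
  have e1 : (fun z => ContinuousLinearMap.mul ℝ ℝ (f' z) (chi A n z)) =
      ext A (fun z => fderiv ℝ (fderiv ℝ U) z v v * q (PP A z / n)) := by
    funext z
    by_cases hz : z ∈ A
    · simp [chi, ext, hz]
    · simp [chi, ext, hz, hf']
  have e2 : (fun z => ContinuousLinearMap.mul ℝ ℝ (f z) (g' z)) =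
      ext A (fun z => fderiv ℝ U z v * (q' (PP A z / n) * (fderiv ℝ (PP A) z v / n))) := by
    funext z
    by_cases hz : z ∈ A
    · simp [hg', ext, hz]
    · simp [hg', ext, hz, hf]
  have e3 : (fun z => ContinuousLinearMap.mul ℝ ℝ (f z) (chi A n z)) =
      ext A (fun z => fderiv ℝ U z v * q (PP A z / n)) := by
    funext z
    by_cases hz : z ∈ A
    · simp [chi, ext, hz]
    · simp [chi, ext, hz, hf]
  have i1 : Integrable (fun z => ContinuousLinearMap.mul ℝ ℝ (f' z) (chi A n z)) := by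
    rw [e1]
    refine integrable_ext h0 (n := n) (fun z hz h => ?_) fun z hz => (hcU' z hz).mul (hcq z hz)
    rw [hq0 z hz h, mul_zero]
  have i2 : Integrable (fun z => ContinuousLinearMap.mul ℝ ℝ (f z) (g' z)) := by
    rw [e2]
    refine integrable_ext h0 (n := n) (fun z hz h => ?_) fun z hz =>
      (hcU z hz).mul ((hcq' z hz).mul (hcDP z hz))
    rw [hq0' z hz h, zero_mul, mul_zero]
  have i3 : Integrable (fun z => ContinuousLinearMap.mul ℝ ℝ (f z) (chi A n z)) := by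
    rw [e3]
    refine integrable_ext h0 (n := n) (fun z hz h => ?_) fun z hz => (hcU z hz).mul (hcq z hz)
    rw [hq0 z hz h, mul_zero]
  have key := integral_bilinear_hasLineDerivAt_right_eq_neg_left_of_integrable
    (μ := (volume : Measure ℂ)) (B := ContinuousLinearMap.mul ℝ ℝ) (f := f) (f' := f')
    (g := chi A n) (g' := g') (v := v) i1 i2 i3
    (fun z hz => by
      have hzA : z ∉ A := by simpa using hsupp hz
      have h1 : HasFDerivAt (fderiv ℝ U) (fderiv ℝ (fderiv ℝ U) z) z :=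
        ((hdU z hzA).differentiableAt (by norm_num)).hasFDerivAt
      have h2 : HasFDerivAt f ((ContinuousLinearMap.apply ℝ ℝ v).comp
          (fderiv ℝ (fderiv ℝ U) z)) z :=
        (ContinuousLinearMap.apply ℝ ℝ v).hasFDerivAt.comp z h1
      exact h2.hasLineDerivAt v)
    (fun z _ => hasFDerivAt_chi h0 hn z v)
  rw [e2, e1] at key
  rw [key, neg_neg]

lemma int1 (h0 : (0 : ℂ) ∈ A) {n : ℝ} (hn : 0 < n) {U : ℂ → ℝ}
    (hU : ∀ z ∉ A, ContDiffAt ℝ 2 U z) (v : ℂ) :
    Integrable (ext A (fun z => fderiv ℝ (fderiv ℝ U) z v v * q (PP A z / n))) := by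
  have hdU : ∀ z ∉ A, ContDiffAt ℝ 1 (fderiv ℝ U) z := fun z hz =>
    (hU z hz).fderiv_right (by norm_num)
  refine integrable_ext h0 (n := n) (fun z hz h => ?_) fun z hz => ?_
  · rw [q_eq_zero ((one_le_div hn).2 h), mul_zero]
  · have h1 : ContDiffAt ℝ 0 (fderiv ℝ (fderiv ℝ U)) z := (hdU z hz).fderiv_right (by norm_num)
    refine ((h1.continuousAt.clm_apply continuousAt_const).clm_apply continuousAt_const).mul ?_
    exact continuous_q.continuousAt.comp (f := fun z => PP A z / n)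
      (((contDiffAt_PP (n := 0) hz).continuousAt).div_const n)

/-- the flux estimate -/
lemma flux_le (h0 : (0 : ℂ) ∈ A) {n : ℝ} (hn : 0 < n) {U : ℂ → ℝ} {K : ℝ} (hK : 0 ≤ K)
    (hU : ∀ z ∉ A, ContDiffAt ℝ 2 U z) (hd : ∀ z ∉ A, ‖fderiv ℝ U z‖ ^ 2 ≤ K * WW A z) :
    ∫ z, ext A (fun z => (Δ U) z * q (PP A z / n)) z ≤
      (2 * (K + 4 * A.card) * ∫ z, WW A z) / n := by
  have hI : ∀ v : ℂ, ‖v‖ ≤ 1 →
      - ∫ z, ext A (fun z => fderiv ℝ U z v * (q' (PP A z / n) * (fderiv ℝ (PP A) z v / n))) z ≤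
      ((K + 4 * A.card) * ∫ z, WW A z) / n := by
    intro v hv
    have h1 : ∀ z, ‖ext A (fun z => fderiv ℝ U z v *
        (q' (PP A z / n) * (fderiv ℝ (PP A) z v / n))) z‖ ≤ (K + 4 * A.card) / n * WW A z := by
      intro z
      have hW := WW_nonneg A z
      by_cases hz : z ∈ A
      · have : ext A (fun z => fderiv ℝ U z v *
          (q' (PP A z / n) * (fderiv ℝ (PP A) z v / n))) z = 0 := by
          unfold ext
          rw [indicator_of_notMem (by simpa using hz)]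
        rw [this, norm_zero]
        positivity
      · rw [ext_of_notMem hz]
        have a1 : |fderiv ℝ U z v| ≤ ‖fderiv ℝ U z‖ := by
          have := (fderiv ℝ U z).le_opNorm v
          rw [Real.norm_eq_abs] at this
          nlinarith [norm_nonneg (fderiv ℝ U z)]
        have a2 : |fderiv ℝ (PP A) z v| ≤ ‖fderiv ℝ (PP A) z‖ := by
          have := (fderiv ℝ (PP A) z).le_opNorm v
          rw [Real.norm_eq_abs] at this
          nlinarith [norm_nonneg (fderiv ℝ (PP A) z)]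
        have a3 : |q' (PP A z / n)| ≤ 2 := abs_q'_le (div_nonneg (PP_nonneg A z) hn.le)
        have a4 := hd z hz
        have a5 := norm_fderiv_PP hz
        rw [Real.norm_eq_abs, abs_mul, abs_mul, abs_div, abs_of_pos hn]
        set x := ‖fderiv ℝ U z‖
        set y := ‖fderiv ℝ (PP A) z‖
        have hx : 0 ≤ x := norm_nonneg _
        have hy : 0 ≤ y := norm_nonneg _
        have e1 : |fderiv ℝ U z v| * (|q' (PP A z / n)| * (|fderiv ℝ (PP A) z v| / n)) ≤
            x * (2 * (y / n)) := by gcongr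
        have e2 : x * (2 * (y / n)) = (2 * x * y) / n := by ring
        have e3 : 2 * x * y ≤ (K + 4 * A.card) * WW A z := by nlinarith [sq_nonneg (x - y)]
        calc _ ≤ (2 * x * y) / n := e1.trans_eq e2
          _ ≤ ((K + 4 * A.card) * WW A z) / n := by gcongr
          _ = (K + 4 * A.card) / n * WW A z := by ring
    have h2 := norm_integral_le_of_norm_le ((integrable_WW A).const_mul ((K + 4 * A.card) / n))
      (Eventually.of_forall h1)
    rw [integral_const_mul] at h2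
    have h3 := (neg_le_abs _).trans h2
    refine h3.trans_eq ?_
    ring
  have h2 : (fun z => ext A (fun z => (Δ U) z * q (PP A z / n)) z) =
      fun z => ext A (fun z => fderiv ℝ (fderiv ℝ U) z 1 1 * q (PP A z / n)) z +
        ext A (fun z => fderiv ℝ (fderiv ℝ U) z Complex.I Complex.I * q (PP A z / n)) z := by
    funext z
    by_cases hz : z ∈ A
    · simp [ext, hz]
    · rw [ext_of_notMem hz, ext_of_notMem hz, ext_of_notMem hz, lap_eq]
      ring
  rw [h2, integral_add (int1 h0 hn hU 1) (int1 h0 hn hU Complex.I), by_parts h0 hn hU,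
    by_parts h0 hn hU]
  have e1 := hI 1 (by simp)
  have e2 := hI Complex.I (by simp)
  refine (add_le_add e1 e2).trans_eq ?_
  ring

/-- **core**: a function with nonnegative Laplacian and gradient controlled by the integrable weight is
harmonic -/
theorem core (h0 : (0 : ℂ) ∈ A) {U : ℂ → ℝ} {K : ℝ} (hK : 0 ≤ K)
    (hU : ∀ z ∉ A, ContDiffAt ℝ 2 U z) (hpos : ∀ z ∉ A, 0 ≤ (Δ U) z)
    (hd : ∀ z ∉ A, ‖fderiv ℝ U z‖ ^ 2 ≤ K * WW A z) : ∀ z ∉ A, (Δ U) z = 0 := by
  intro z₀ hz₀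
  by_contra hne
  have hpos0 : 0 < (Δ U) z₀ := lt_of_le_of_ne (hpos z₀ hz₀) (Ne.symm hne)
  have hcL : ContinuousAt (Δ U) z₀ := by
    have h1 : ContDiffAt ℝ 1 (fderiv ℝ U) z₀ := (hU z₀ hz₀).fderiv_right (by norm_num)
    have h2 : ContDiffAt ℝ 0 (fderiv ℝ (fderiv ℝ U)) z₀ := h1.fderiv_right (by norm_num)
    have h3 : Δ U = fun z => fderiv ℝ (fderiv ℝ U) z 1 1 +
      fderiv ℝ (fderiv ℝ U) z Complex.I Complex.I := by
      funext z
      exact lap_eq U z
    rw [h3]
    exact ((h2.continuousAt.clm_apply continuousAt_const).clm_apply continuousAt_const).add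
      ((h2.continuousAt.clm_apply continuousAt_const).clm_apply continuousAt_const)
  set ε := (Δ U) z₀ / 2 with hε
  have hεpos : 0 < ε := by positivity
  set M := PP A z₀ + 1 with hM
  have hMpos : 0 < M := by have := PP_nonneg A z₀; positivity
  have hev : ∀ᶠ z in 𝓝 z₀, z ∉ A ∧ ε < (Δ U) z ∧ PP A z < M := by
    refine (eventually_notMem hz₀).and ((hcL.eventually (lt_mem_nhds (by rw [hε]; linarith))).and
      ((contDiffAt_PP (n := 0) hz₀).continuousAt.eventually (gt_mem_nhds (by rw [hM]; linarith))))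
  obtain ⟨r, hr, hball⟩ := Metric.eventually_nhds_iff_ball.1 hev
  have hvol : 0 < (volume (ball z₀ r)).toReal :=
    ENNReal.toReal_pos (measure_ball_pos volume z₀ hr).ne' measure_ball_lt_top.ne
  -- lower bound
  have hlow : ∀ n : ℝ, 2 * M ≤ n →
      ε / 4 * (volume (ball z₀ r)).toReal ≤ ∫ z, ext A (fun z => (Δ U) z * q (PP A z / n)) z := by
    intro n hn
    have hn0 : 0 < n := by linarith
    have hint : Integrable (ext A (fun z => (Δ U) z * q (PP A z / n))) := by
      have h2 : (ext A (fun z => (Δ U) z * q (PP A z / n))) =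
          fun z => ext A (fun z => fderiv ℝ (fderiv ℝ U) z 1 1 * q (PP A z / n)) z +
          ext A (fun z => fderiv ℝ (fderiv ℝ U) z Complex.I Complex.I * q (PP A z / n)) z := by
        funext z
        by_cases hz : z ∈ A
        · simp [ext, hz]
        · rw [ext_of_notMem hz, ext_of_notMem hz, ext_of_notMem hz, lap_eq]
          ring
      rw [h2]
      exact (int1 h0 hn0 hU 1).add (int1 h0 hn0 hU Complex.I)
    have hnn : ∀ z, 0 ≤ ext A (fun z => (Δ U) z * q (PP A z / n)) z := by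
      intro z
      by_cases hz : z ∈ A
      · simp [ext, hz]
      · rw [ext_of_notMem hz]
        exact mul_nonneg (hpos z hz) (q_nonneg _)
    have s1 : ε / 4 * (volume (ball z₀ r)).toReal = ∫ z in ball z₀ r, ε / 4 := by
      rw [setIntegral_const, smul_eq_mul, mul_comm]
      rfl
    have s2 : ∫ z in ball z₀ r, ε / 4 ≤
        ∫ z in ball z₀ r, ext A (fun z => (Δ U) z * q (PP A z / n)) z := by
      refine setIntegral_mono_on (integrableOn_const measure_ball_lt_top.ne) hint.integrableOn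
        measurableSet_ball fun z hz => ?_
      obtain ⟨h1, h2, h3⟩ := hball z hz
      rw [ext_of_notMem h1]
      have h4 : PP A z / n ≤ 1 / 2 := by
        rw [div_le_iff₀ hn0]
        linarith
      have h5 : 1 / 4 ≤ q (PP A z / n) := by
        unfold q
        have : 1 / 2 ≤ max 0 (1 - PP A z / n) := le_max_of_le_right (by linarith)
        nlinarith
      nlinarith
    have s3 : ∫ z in ball z₀ r, ext A (fun z => (Δ U) z * q (PP A z / n)) z ≤
        ∫ z, ext A (fun z => (Δ U) z * q (PP A z / n)) z :=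
      setIntegral_le_integral hint (Eventually.of_forall hnn)
    rw [s1]
    exact s2.trans s3
  set C := 2 * (K + 4 * A.card) * ∫ z, WW A z with hC
  have hC0 : 0 ≤ C := by
    have : 0 ≤ ∫ z, WW A z := integral_nonneg (WW_nonneg A)
    positivity
  have hbound : ∀ n : ℝ, 2 * M ≤ n → ε / 4 * (volume (ball z₀ r)).toReal ≤ C / n := fun n hn =>
    (hlow n hn).trans (flux_le h0 (by linarith) hK hU hd)
  have hpos1 : 0 < ε / 4 * (volume (ball z₀ r)).toReal := by positivity
  have h7 := hbound (max (2 * M) ((C + 1) / (ε / 4 * (volume (ball z₀ r)).toReal)))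
    (le_max_left _ _)
  have h8 : C / max (2 * M) ((C + 1) / (ε / 4 * (volume (ball z₀ r)).toReal)) <
      ε / 4 * (volume (ball z₀ r)).toReal := by
    rw [div_lt_iff₀ (by positivity)]
    have h9 : (C + 1) / (ε / 4 * (volume (ball z₀ r)).toReal) ≤
      max (2 * M) ((C + 1) / (ε / 4 * (volume (ball z₀ r)).toReal)) := le_max_right _ _
    have h10 := (div_le_iff₀ hpos1).1 h9
    nlinarith
  exact absurd h7 (not_le.2 h8)

end cut

/-! ### the Ahlfors bound -/

/-- near a puncture -/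
lemma bound_near {c : ℝ} (hc : 0 < c) {G : ℂ → ℝ} {a : ℂ} {R : ℝ} (hR : 0 < R) (hR1 : R < 1)
    (hC2 : ∀ z ∈ ball a R \ {a}, ContDiffAt ℝ 2 G z) (hG0 : ∀ z ∈ ball a R \ {a}, 0 ≤ G z)
    (hneg : Neg c G (ball a R \ {a})) :
    ∃ ρ > 0, ∀ z ∈ ball a ρ \ {a}, G z ≤ 64 / c * W1 a z := by
  refine ⟨min (R ^ 2) (Real.exp (-1)), lt_min (by positivity) (Real.exp_pos _), ?_⟩
  rintro z ⟨hz, hza⟩
  rw [mem_ball_iff_norm, lt_min_iff] at hz
  have hz1 : z - a ≠ 0 := sub_ne_zero.2 hza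
  have hr : 0 < ‖z - a‖ := norm_pos_iff.2 hz1
  set r := ‖z - a‖ with hrdef
  have hrR : r < R := hz.1.trans_le (by nlinarith)
  -- translate
  set g : ℂ → ℝ := fun w => G (a + w) with hg
  have hmem : ∀ w : ℂ, w ∈ ball (0 : ℂ) R \ {0} → a + w ∈ ball a R \ {a} := by
    rintro w ⟨hw, hw0⟩
    refine ⟨by simpa using hw, ?_⟩
    simpa using hw0
  have h1 := ahlfors_punctured hc hR (g := g)
    (fun w hw => (hC2 _ (hmem w hw)).comp w (contDiffAt_const.add contDiffAt_id))
    (fun w hw => hG0 _ (hmem w hw)) (by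
      intro w hw hgw
      have h2 := hneg _ (hmem w hw) hgw
      have hlog : ContDiffAt ℝ 2 (fun x => Real.log (G x)) (a + w) :=
        (hC2 _ (hmem w hw)).log hgw
      have h3 := lap_comp (f := fun x => Real.log (G x)) (h := fun x => a + x) (z := w) hlog
        (analyticAt_const.add analyticAt_id)
      have h4 : deriv (fun x : ℂ => a + x) w = 1 := by simp
      rw [h4] at h3
      have h5 : (Δ (fun x => Real.log (g x))) w = (Δ (fun x => Real.log (G x))) (a + w) := by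
        simpa using h3
      rw [h5]
      exact h2) (z := z - a) ⟨by simpa [mem_ball_zero_iff] using hrR, by simpa using hz1⟩
  have h6 : g (z - a) = G z := by simp [hg]
  rw [h6, ← hrdef] at h1
  refine h1.trans ?_
  have hlogr : Real.log r < -1 := by
    rw [← Real.log_exp (-1)]
    exact Real.log_lt_log hr hz.2
  have hlogR : Real.log r ≤ 2 * Real.log R := by
    rw [show 2 * Real.log R = Real.log (R ^ 2) by rw [Real.log_pow]; norm_num]
    exact Real.log_le_log hr hz.1.le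
  have hlog : Real.log (R / r) = Real.log R - Real.log r := Real.log_div hR.ne' hr.ne'
  have h7 : -(Real.log r) / 2 ≤ Real.log (R / r) := by rw [hlog]; linarith
  unfold W1 w1
  rw [← hrdef]
  set L := Real.log r
  have h8 : L ^ 2 / 4 ≤ Real.log (R / r) ^ 2 := by nlinarith
  have h9 : (1 + L ^ 2) / 8 ≤ Real.log (R / r) ^ 2 := by nlinarith
  have h10 : c * r ^ 2 * ((1 + L ^ 2) / 8) ≤ c * r ^ 2 * Real.log (R / r) ^ 2 := by gcongr
  calc 8 / (c * r ^ 2 * Real.log (R / r) ^ 2) ≤ 8 / (c * r ^ 2 * ((1 + L ^ 2) / 8)) := by gcongr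
    _ = 64 / c * (r ^ 2 * (1 + L ^ 2))⁻¹ := by field_simp; norm_num

/-- **Ahlfors-Schwarz near infinity** -/
theorem ahlfors_infty {c R : ℝ} (hc : 0 < c) (hR : 0 < R) {g : ℂ → ℝ}
    (hC2 : ∀ z : ℂ, R < ‖z‖ → ContDiffAt ℝ 2 g z)
    (h0 : ∀ z : ℂ, R < ‖z‖ → 0 ≤ g z) (hneg : Neg c g {z | R < ‖z‖}) {z : ℂ}
    (hz : R < ‖z‖) :
    g z ≤ 8 / (c * ‖z‖ ^ 2 * (Real.log (‖z‖ / R)) ^ 2) := by
  set e : ℂ → ℂ := fun w => Complex.exp (-w) with he
  set G : ℂ → ℝ := fun w => g (e w) * Real.exp (-(2 * w.re)) with hG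
  have hmem : ∀ w : ℂ, w.re < -Real.log R → R < ‖e w‖ := by
    intro w hw
    rw [he]
    simp only [Complex.norm_exp, Complex.neg_re]
    calc R = Real.exp (Real.log R) := (Real.exp_log hR).symm
      _ < Real.exp (-w.re) := Real.exp_lt_exp.2 (by linarith)
  have hexp : ∀ w : ℂ, AnalyticAt ℂ e w := fun w => (analyticAt_id.neg).cexp
  have hexp2 : ∀ w : ℂ, ContDiffAt ℝ 2 e w := fun w =>
    ((hexp w).contDiffAt (n := 2)).restrict_scalars ℝ
  have hre2 : ∀ w : ℂ, ContDiffAt ℝ 2 (fun w : ℂ => Real.exp (-(2 * w.re))) w := by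
    intro w
    refine ContDiffAt.exp ((contDiffAt_const.mul ?_).neg)
    exact Complex.reCLM.contDiff.contDiffAt
  have hGC2 : ∀ w : ℂ, w.re < -Real.log R → ContDiffAt ℝ 2 G w := by
    intro w hw
    exact ((hC2 _ (hmem w hw)).comp w (hexp2 w)).mul (hre2 w)
  have hG0 : ∀ w : ℂ, w.re < -Real.log R → 0 ≤ G w := by
    intro w hw
    exact mul_nonneg (h0 _ (hmem w hw)) (Real.exp_pos _).le
  have hGneg : Neg c G {w | w.re < -Real.log R} := by
    intro w hw hgw
    rw [mem_ofPred_eq] at hw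
    have hgw' : g (e w) ≠ 0 := fun h => hgw (by simp [hG, h])
    have hlog : ContDiffAt ℝ 2 (fun x => Real.log (g x)) (e w) :=
      (hC2 _ (hmem w hw)).log hgw'
    have hev : (fun x => Real.log (G x)) =ᶠ[𝓝 w]
        (fun x => Real.log (g (e x))) + (-2 : ℝ) • (fun x : ℂ => x.re) := by
      have h1 : ∀ᶠ x in 𝓝 w, g (e x) ≠ 0 := by
        have : ContinuousAt (fun x => g (e x)) w :=
          ((hC2 _ (hmem w hw)).comp w (hexp2 w)).continuousAt
        exact this.eventually_ne hgw'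
      filter_upwards [h1] with x hx
      simp only [hG, Pi.add_apply, Pi.smul_apply, smul_eq_mul]
      rw [Real.log_mul hx (Real.exp_pos _).ne', Real.log_exp]
      ring
    rw [laplacian_congr_nhds hev |>.self_of_nhds]
    have hre : ContDiffAt ℝ 2 (fun x : ℂ => x.re) w := Complex.reCLM.contDiff.contDiffAt
    have h2 : (Δ ((fun x => Real.log (g (e x))) + (-2 : ℝ) • (fun x : ℂ => x.re))) w =
        (Δ (fun x => Real.log (g (e x)))) w + (Δ ((-2 : ℝ) • (fun x : ℂ => x.re))) w :=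
      ContDiffAt.laplacian_add (hlog.comp w (hexp2 w)) (hre.const_smul (-2 : ℝ))
    have h3 : (Δ ((-2 : ℝ) • (fun x : ℂ => x.re))) w = (-2 : ℝ) • (Δ (fun x : ℂ => x.re)) w :=
      laplacian_smul (-2 : ℝ) hre
    have h4 : (Δ (fun x : ℂ => x.re)) w = 0 := by
      rw [lap_eq]
      have h5 : fderiv ℝ (fun x : ℂ => x.re) = fun _ => Complex.reCLM := by
        funext x
        exact Complex.reCLM.hasFDerivAt.fderiv
      rw [h5]
      simp
    have h6 := lap_comp (f := fun x => Real.log (g x)) (h := e) (z := w) hlog (hexp w)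
    have h6' : deriv e w = -Complex.exp (-w) := by
      have : HasDerivAt e (Complex.exp (-w) * (-1)) w := (hasDerivAt_neg w).cexp
      rw [this.deriv]
      ring
    rw [h2, h3, h4, smul_zero, add_zero, h6, h6', norm_neg]
    have h7 := hneg _ (hmem w hw) hgw'
    have h8 : ‖Complex.exp (-w)‖ ^ 2 = Real.exp (-(2 * w.re)) := by
      rw [Complex.norm_exp, ← Real.exp_nat_mul]
      congr 1
      simp
    rw [h8]
    have h9 : c * G w = Real.exp (-(2 * w.re)) * (c * g (e w)) := by rw [hG]; ring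
    rw [h9]
    exact mul_le_mul_of_nonneg_left h7 (Real.exp_pos _).le
  have hzp : 0 < ‖z‖ := hR.trans hz
  have hz0 : z ≠ 0 := norm_pos_iff.1 hzp
  have hwre : (-Complex.log z).re < -Real.log R := by
    rw [Complex.neg_re, Complex.log_re]
    exact neg_lt_neg (Real.log_lt_log hR hz)
  have hfin := ahlfors_halfplane hc hGC2 hG0 hGneg hwre
  have hGz : G (-Complex.log z) = g z * ‖z‖ ^ 2 := by
    simp only [hG, he, neg_neg]
    rw [Complex.exp_log hz0, Complex.neg_re, Complex.log_re]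
    congr 1
    rw [show -(2 * -Real.log ‖z‖) = Real.log ‖z‖ + Real.log ‖z‖ by ring, Real.exp_add,
      Real.exp_log hzp]
    ring
  rw [hGz, Complex.neg_re, Complex.log_re] at hfin
  have e1 : -Real.log R - -Real.log ‖z‖ = Real.log (‖z‖ / R) := by
    rw [Real.log_div hzp.ne' hR.ne']
    ring
  rw [e1] at hfin
  have hl : 0 < Real.log (‖z‖ / R) := Real.log_pos ((one_lt_div hR).2 hz)
  rw [le_div_iff₀ (by positivity)] at hfin ⊢
  calc g z * (c * ‖z‖ ^ 2 * Real.log (‖z‖ / R) ^ 2) =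
      g z * ‖z‖ ^ 2 * (c * Real.log (‖z‖ / R) ^ 2) := by ring
    _ ≤ 8 := hfin

/-- near infinity -/
lemma bound_infty {c : ℝ} (hc : 0 < c) {G : ℂ → ℝ} {R : ℝ} (hR1 : 1 < R)
    (hC2 : ∀ z : ℂ, R < ‖z‖ → ContDiffAt ℝ 2 G z) (hG0 : ∀ z : ℂ, R < ‖z‖ → 0 ≤ G z)
    (hneg : Neg c G {z | R < ‖z‖}) :
    ∃ ρ > 0, ∀ z : ℂ, ρ < ‖z‖ → G z ≤ 64 / c * W1 0 z := by
  have hR : 0 < R := by linarith
  refine ⟨max (R ^ 2) (Real.exp 1), by positivity, fun z hz => ?_⟩
  rw [max_lt_iff] at hz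
  have hr : 0 < ‖z‖ := (Real.exp_pos 1).trans hz.2
  set r := ‖z‖ with hrdef
  have hrR : R < r := lt_trans (by nlinarith) hz.1
  have h1 := ahlfors_infty hc hR hC2 hG0 hneg (z := z) hrR
  rw [← hrdef] at h1
  refine h1.trans ?_
  have hlogr : 1 < Real.log r := by
    rw [← Real.log_exp 1]
    exact Real.log_lt_log (Real.exp_pos 1) hz.2
  have hlogR : 2 * Real.log R ≤ Real.log r := by
    rw [show 2 * Real.log R = Real.log (R ^ 2) by rw [Real.log_pow]; norm_num]
    exact Real.log_le_log (by positivity) hz.1.le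
  have hlog : Real.log (r / R) = Real.log r - Real.log R := Real.log_div hr.ne' hR.ne'
  have h7 : Real.log r / 2 ≤ Real.log (r / R) := by rw [hlog]; linarith
  unfold W1 w1
  rw [sub_zero, ← hrdef]
  set L := Real.log r
  have h8 : L ^ 2 / 4 ≤ Real.log (r / R) ^ 2 := by nlinarith
  have h9 : (1 + L ^ 2) / 8 ≤ Real.log (r / R) ^ 2 := by nlinarith
  have h10 : c * r ^ 2 * ((1 + L ^ 2) / 8) ≤ c * r ^ 2 * Real.log (r / R) ^ 2 := by gcongr
  calc 8 / (c * r ^ 2 * Real.log (r / R) ^ 2) ≤ 8 / (c * r ^ 2 * ((1 + L ^ 2) / 8)) := by gcongr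
    _ = 64 / c * (r ^ 2 * (1 + L ^ 2))⁻¹ := by field_simp; norm_num

/-- the global bound -/
theorem global_bound {A : Finset ℂ} (h0 : (0 : ℂ) ∈ A) {c : ℝ} (hc : 0 < c) {G : ℂ → ℝ}
    (hG : ∀ z ∉ A, ContDiffAt ℝ 2 G z ∧ 0 ≤ G z) (hneg : Neg c G (A : Set ℂ)ᶜ) :
    ∃ K : ℝ, 0 ≤ K ∧ ∀ z ∉ A, G z ≤ K * WW A z := by
  classical
  -- a radius for each puncture
  have hnear : ∀ a ∈ A, ∃ ρ > 0, ∀ z ∈ ball a ρ \ {a}, G z ≤ 64 / c * W1 a z := by
    intro a ha
    have hfin : ((A : Set ℂ) \ {a}).Finite := A.finite_toSet.subset sdiff_subset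
    have hnhds : ((A : Set ℂ) \ {a})ᶜ ∈ 𝓝 a :=
      hfin.isClosed.isOpen_compl.mem_nhds (by simp)
    obtain ⟨R, hR, hRsub⟩ := Metric.mem_nhds_iff.1 hnhds
    set R' := min R (1 / 2) with hR'
    have hR'0 : 0 < R' := lt_min hR (by norm_num)
    have hout : ∀ z ∈ ball a R' \ {a}, z ∉ A := by
      rintro z ⟨hz, hza⟩ hzA
      exact hRsub (ball_subset_ball (min_le_left _ _) hz) ⟨hzA, hza⟩
    exact bound_near hc hR'0 ((min_le_right _ _).trans_lt (by norm_num))
      (fun z hz => (hG z (hout z hz)).1) (fun z hz => (hG z (hout z hz)).2)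
      (fun z hz => hneg z (by simpa using hout z hz))
  choose! ρ hρ hρb using hnear
  -- infinity
  obtain ⟨B, hB⟩ : ∃ B : ℝ, ∀ a ∈ A, ‖a‖ ≤ B := by
    obtain ⟨B, hB⟩ := (A.image fun a => ‖a‖).bddAbove
    exact ⟨B, fun a ha => hB (Finset.mem_coe.2 (Finset.mem_image_of_mem _ ha))⟩
  have hinf : ∀ z : ℂ, max B 2 < ‖z‖ → z ∉ A := by
    intro z hz hzA
    have h1 := hB z hzA
    exact absurd (lt_of_le_of_lt (le_max_left B 2) hz) (not_lt.2 h1)
  obtain ⟨σ, hσ, hσb⟩ := bound_infty hc (R := max B 2)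
    (lt_of_lt_of_le (by norm_num) (le_max_right B 2)) (fun z hz => (hG z (hinf z hz)).1)
    (fun z hz => (hG z (hinf z hz)).2) (fun z hz => hneg z (by simpa using hinf z hz))
  -- the compact part
  set Kc : Set ℂ := closedBall 0 σ \ ⋃ a ∈ A, ball a (ρ a) with hKc
  have hKcompact : IsCompact Kc :=
    (isCompact_closedBall _ _).diff (isOpen_biUnion fun a _ => isOpen_ball)
  have hKA : ∀ z ∈ Kc, z ∉ A := by
    rintro z ⟨_, hz⟩ hzA
    exact hz (mem_iUnion₂.2 ⟨z, hzA, mem_ball_self (hρ z hzA)⟩)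
  have hWpos : ∀ z ∉ A, 0 < WW A z := by
    intro z hz
    unfold WW
    exact Finset.sum_pos (fun a ha => W1_pos (ne_of_notMem ha hz)) ⟨0, h0⟩
  have hcont : ContinuousOn (fun z => G z / WW A z) Kc := fun z hz =>
    ((hG z (hKA z hz)).1.continuousAt.div (continuousAt_WW (hKA z hz))
      (hWpos z (hKA z hz)).ne').continuousWithinAt
  obtain ⟨C, hC⟩ := hKcompact.exists_bound_of_continuousOn hcont
  refine ⟨max (64 / c) C, le_max_of_le_left (by positivity), fun z hz => ?_⟩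
  have hW := hWpos z hz
  have hsingle : ∀ a ∈ A, W1 a z ≤ WW A z := fun a ha => by
    unfold WW
    exact Finset.single_le_sum (f := fun a => W1 a z) (fun a _ => W1_nonneg a z) ha
  by_cases hzn : ∃ a ∈ A, z ∈ ball a (ρ a)
  · obtain ⟨a, ha, hza⟩ := hzn
    calc G z ≤ 64 / c * W1 a z := hρb a ha z ⟨hza, ne_of_notMem ha hz⟩
      _ ≤ max (64 / c) C * WW A z :=
          mul_le_mul (le_max_left _ _) (hsingle a ha) (W1_nonneg _ _)
            (le_max_of_le_left (by positivity))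
  · by_cases hzi : σ < ‖z‖
    · calc G z ≤ 64 / c * W1 0 z := hσb z hzi
        _ ≤ max (64 / c) C * WW A z :=
          mul_le_mul (le_max_left _ _) (hsingle 0 h0) (W1_nonneg _ _)
            (le_max_of_le_left (by positivity))
    · have hzK : z ∈ Kc := by
        refine ⟨by rw [mem_closedBall_zero_iff]; exact not_lt.1 hzi, fun hcon => hzn ?_⟩
        obtain ⟨a, ha, hza⟩ := mem_iUnion₂.1 hcon
        exact ⟨a, ha, hza⟩
      have h1 := (le_abs_self _).trans (hC z hzK)
      rw [div_le_iff₀ hW] at h1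
      exact h1.trans (mul_le_mul_of_nonneg_right (le_max_right _ _) hW.le)

/-! ### the plane step -/

/-- **plane step** -/
theorem plane {F : Finset ℂ} {U G : ℂ → ℝ} {c C : ℝ} (hc : 0 < c)
    (hU : ∀ z ∉ F, ContDiffAt ℝ 2 U z ∧ 0 ≤ (Δ U) z)
    (hG : ∀ z ∉ F, ContDiffAt ℝ 2 G z ∧ 0 ≤ G z) (hneg : Neg c G (F : Set ℂ)ᶜ)
    (hd : ∀ z ∉ F, ‖fderiv ℝ U z‖ ^ 2 ≤ C * G z) : ∀ z ∉ F, (Δ U) z = 0 := by
  classical
  set A : Finset ℂ := insert 0 F with hA
  have h0 : (0 : ℂ) ∈ A := Finset.mem_insert_self _ _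
  have hAF : ∀ z, z ∉ A → z ∉ F := fun z hz hzF => hz (Finset.mem_insert_of_mem hzF)
  obtain ⟨K, hK, hKb⟩ := global_bound h0 hc (fun z hz => hG z (hAF z hz))
    (fun z hz => hneg z (by simpa using hAF z (by simpa using hz)))
  have hcore := core h0 (U := U) (K := |C| * K) (by positivity) (fun z hz => (hU z (hAF z hz)).1)
    (fun z hz => (hU z (hAF z hz)).2) (fun z hz => by
      have h1 := hd z (hAF z hz)
      have h2 := hKb z hz
      have h3 := (hG z (hAF z hz)).2
      calc ‖fderiv ℝ U z‖ ^ 2 ≤ C * G z := h1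
        _ ≤ |C| * G z := mul_le_mul_of_nonneg_right (le_abs_self C) h3
        _ ≤ |C| * (K * WW A z) := mul_le_mul_of_nonneg_left h2 (abs_nonneg C)
        _ = |C| * K * WW A z := by ring)
  intro z hz
  by_cases hzA : z ∉ A
  · exact hcore z hzA
  · -- `z = 0`, by continuity
    have hcL : ContinuousAt (Δ U) z := by
      have h1 : ContDiffAt ℝ 1 (fderiv ℝ U) z := (hU z hz).1.fderiv_right (by norm_num)
      have h2 : ContDiffAt ℝ 0 (fderiv ℝ (fderiv ℝ U)) z := h1.fderiv_right (by norm_num)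
      have h3 : Δ U = fun z => fderiv ℝ (fderiv ℝ U) z 1 1 +
        fderiv ℝ (fderiv ℝ U) z Complex.I Complex.I := by
        funext z
        exact lap_eq U z
      rw [h3]
      exact ((h2.continuousAt.clm_apply continuousAt_const).clm_apply continuousAt_const).add
        ((h2.continuousAt.clm_apply continuousAt_const).clm_apply continuousAt_const)
    have hev : ∀ᶠ w in 𝓝[≠] z, (Δ U) w = 0 := by
      have hfin : ((A : Set ℂ) \ {z}).Finite := A.finite_toSet.subset sdiff_subset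
      have hnhds : ((A : Set ℂ) \ {z})ᶜ ∈ 𝓝 z := hfin.isClosed.isOpen_compl.mem_nhds (by simp)
      rw [eventually_nhdsWithin_iff]
      filter_upwards [hnhds] with w hw hwz
      refine hcore w fun hwA => hw ⟨hwA, hwz⟩
    have hlim : Tendsto (Δ U) (𝓝[≠] z) (𝓝 ((Δ U) z)) := hcL.tendsto.mono_left nhdsWithin_le_nhds
    have hlim0 : Tendsto (Δ U) (𝓝[≠] z) (𝓝 0) :=
      tendsto_const_nhds.congr' (hev.mono fun w hw => hw.symm)
    exact tendsto_nhds_unique hlim hlim0

end Crest.Agent.R276.Flux_317
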