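import Mathlib
import Crest.Agent.R276.IpcDefs_735

-- ▼ part R276/Tow_244
section

/-!
# Row 276 (S0419), leaf TOW (helper244): algebra of the tower of punctured lines

* `step`: for `D ≠ 0` in `R[X]`, `R` a domain of characteristic zero, there are `P ∈ R[X]` and
  `c ≠ 0` in `R` such that over every field point of `{c ≠ 0}` the polynomial `P` has constant
  degree, is separable, and has the same roots as `D`.
* `localRoots`: a polynomial with analytic coefficients, of constant degree near `s₀`, separable at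
  `s₀`, has analytic pairwise distinct roots near `s₀`.
-/

set_option autoImplicit false

open Polynomial Filter
open scoped Topology

noncomputable section

namespace Crest.Agent.R276.Tow_244

section algebra

variable {R : Type*} [CommRing R] [IsDomain R]

/-- clearing denominators -/
lemma clear (p : (FractionRing R)[X]) :
    ∃ b : R, b ≠ 0 ∧ ∃ q : R[X],
      q.map (algebraMap R (FractionRing R)) = C (algebraMap R (FractionRing R) b) * p := by
  obtain ⟨b, hb, h⟩ := IsLocalization.integerNormalization_spec (nonZeroDivisors R) p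
  refine ⟨b, nonZeroDivisors.ne_zero hb, _, h.trans ?_⟩
  rw [← smul_eq_C_mul, algebraMap_smul]

/-- squarefree part, with denominators cleared -/
theorem exists_sqfree [CharZero R] (D : R[X]) (hD : D ≠ 0) :
    ∃ P : R[X], P ≠ 0 ∧ ∃ c : R, c ≠ 0 ∧ ∃ (m : ℕ) (U V Q₁ Q₂ : R[X]),
      U * P + V * derivative P = C c ∧ P * Q₁ = C c * D ∧ D * Q₂ = C c * P ^ m := by
  classical
  set K := FractionRing R
  set i : R →+* K := algebraMap R K with hi
  have hinj : Function.Injective i := IsFractionRing.injective R K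
  have hmi : Function.Injective (Polynomial.map i : R[X] → K[X]) := map_injective i hinj
  have : CharZero K := charZero_of_injective_algebraMap (R := R) hinj
  set D₀ : K[X] := D.map i with hD₀
  have hD₀0 : D₀ ≠ 0 := by
    intro h
    exact hD (hmi (by rw [Polynomial.map_zero]; exact h))
  -- the radical over the fraction field
  obtain ⟨P₀, m, hsq, ⟨E₁, hE₁⟩, ⟨E₂, hE₂⟩⟩ :=
    exists_squarefree_dvd_pow_of_ne_zero hD₀0
  have hsep : P₀.Separable := PerfectField.separable_iff_squarefree.mpr hsq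
  have hP₀0 : P₀ ≠ 0 := hsq.ne_zero
  -- the numerator of `P₀`
  obtain ⟨b, hb, P, hP⟩ := clear P₀
  change P.map i = C (i b) * P₀ at hP
  have hib : i b ≠ 0 := fun h => hb (hinj (by rw [h, map_zero]))
  have hbb : (C (i b)⁻¹ : K[X]) * C (i b) = 1 := by
    rw [← C_mul, inv_mul_cancel₀ hib, C_1]
  have hPP : P₀ = C (i b)⁻¹ * P.map i := by
    rw [hP, ← mul_assoc, hbb, one_mul]
  obtain ⟨u, v, huv⟩ := hsep
  obtain ⟨c₁, hc₁, U, hU⟩ := clear (u * C (i b)⁻¹)
  obtain ⟨c₂, hc₂, V, hV⟩ := clear (v * C (i b)⁻¹)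
  obtain ⟨c₃, hc₃, Q₁, hQ₁⟩ := clear (C (i b)⁻¹ * E₁)
  obtain ⟨c₄, hc₄, Q₂, hQ₂⟩ := clear (C (i b) ^ m * E₂)
  change U.map i = C (i c₁) * _ at hU
  change V.map i = C (i c₂) * _ at hV
  change Q₁.map i = C (i c₃) * _ at hQ₁
  change Q₂.map i = C (i c₄) * _ at hQ₂
  refine ⟨P, ?_, c₁ * c₂ * c₃ * c₄, by simp [hc₁, hc₂, hc₃, hc₄], m,
    C (c₂ * c₃ * c₄) * U, C (c₁ * c₃ * c₄) * V, C (c₁ * c₂ * c₄) * Q₁, C (c₁ * c₂ * c₃) * Q₂,
    ?_, ?_, ?_⟩
  · rintro rfl
    apply hP₀0
    rw [hPP, Polynomial.map_zero, mul_zero]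
  · apply hmi
    simp only [Polynomial.map_add, Polynomial.map_mul, Polynomial.map_C, hU, hV, map_mul]
    have hder : (derivative P).map i = derivative (P.map i) := (derivative_map P i).symm
    rw [hder]
    have hd : derivative P₀ = C (i b)⁻¹ * derivative (P.map i) := by
      rw [hPP, derivative_C_mul]
    rw [hd, hPP] at huv
    have : C (i c₂) * C (i c₃) * C (i c₄) * (C (i c₁) * (u * C (i b)⁻¹)) * Polynomial.map i P +
      C (i c₁) * C (i c₃) * C (i c₄) * (C (i c₂) * (v * C (i b)⁻¹)) * derivative (Polynomial.map i P)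
      = C (i c₁) * C (i c₂) * C (i c₃) * C (i c₄) *
        (u * (C (i b)⁻¹ * Polynomial.map i P) + v * (C (i b)⁻¹ * derivative (Polynomial.map i P))) := by
      ring
    rw [this, huv, mul_one]
  · apply hmi
    simp only [Polynomial.map_mul, Polynomial.map_C, hQ₁, map_mul]
    have : Polynomial.map i P * (C (i c₁) * C (i c₂) * C (i c₄) * (C (i c₃) * (C (i b)⁻¹ * E₁)))
      = C (i c₁) * C (i c₂) * C (i c₃) * C (i c₄) * ((C (i b)⁻¹ * Polynomial.map i P) * E₁) := by
      ring
    rw [this, ← hPP, ← hE₁]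
  · apply hmi
    simp only [Polynomial.map_mul, Polynomial.map_C, hQ₂, map_mul, Polynomial.map_pow]
    have h1 : Polynomial.map i D * (C (i c₁) * C (i c₂) * C (i c₃) * (C (i c₄) * (C (i b) ^ m * E₂)))
      = C (i c₁) * C (i c₂) * C (i c₃) * C (i c₄) * (C (i b) ^ m * (D₀ * E₂)) := by
      rw [hD₀]; ring
    rw [h1, ← hE₂, hP, mul_pow]

/-- **One step of the tower.** -/
theorem step [CharZero R] (D : R[X]) (hD : D ≠ 0) :
    ∃ (P : R[X]) (c : R), P ≠ 0 ∧ c ≠ 0 ∧ ∀ (K : Type) [Field K] (φ : R →+* K), φ c ≠ 0 →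
      (P.map φ).natDegree = P.natDegree ∧ (P.map φ).Separable ∧
      ∀ x : K, (P.map φ).eval x = 0 ↔ (D.map φ).eval x = 0 := by
  obtain ⟨P, hP, c, hc, m, U, V, Q₁, Q₂, h1, h2, h3⟩ := exists_sqfree D hD
  refine ⟨P, P.leadingCoeff * c, hP, mul_ne_zero (leadingCoeff_ne_zero.mpr hP) hc, ?_⟩
  intro K _ φ hφ
  rw [map_mul] at hφ
  have hl : φ P.leadingCoeff ≠ 0 := left_ne_zero_of_mul hφ
  have hφc : φ c ≠ 0 := right_ne_zero_of_mul hφ
  refine ⟨natDegree_map_of_leadingCoeff_ne_zero φ hl, ?_, ?_⟩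
  · refine ⟨C (φ c)⁻¹ * U.map φ, C (φ c)⁻¹ * V.map φ, ?_⟩
    have h := congrArg (Polynomial.map φ) h1
    simp only [Polynomial.map_add, Polynomial.map_mul, Polynomial.map_C] at h
    rw [← derivative_map] at h
    rw [mul_assoc, mul_assoc, ← mul_add, h, ← C_mul, inv_mul_cancel₀ hφc, C_1]
  · intro x
    have h2' := congrArg (fun q => (Polynomial.map φ q).eval x) h2
    have h3' := congrArg (fun q => (Polynomial.map φ q).eval x) h3
    simp only [Polynomial.map_mul, Polynomial.map_C, eval_mul, eval_C, Polynomial.map_pow,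
      eval_pow] at h2' h3'
    constructor
    · intro h
      rw [h, zero_mul] at h2'
      exact (mul_eq_zero.mp h2'.symm).resolve_left hφc
    · intro h
      rw [h, zero_mul] at h3'
      have := (mul_eq_zero.mp h3'.symm).resolve_left hφc
      exact eq_zero_of_pow_eq_zero this

end algebra

section roots

variable {E : Type*} [NormedAddCommGroup E] [NormedSpace ℂ E] [CompleteSpace E]

omit [CompleteSpace E] in
/-- `(s, x) ↦ P_s(x)` is analytic. -/
lemma analyticAt_eval {P : E → ℂ[X]} {s₀ : E} {d : ℕ}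
    (hdeg : ∀ᶠ s in 𝓝 s₀, (P s).natDegree ≤ d)
    (han : ∀ i, AnalyticAt ℂ (fun s => (P s).coeff i) s₀) (x₀ : ℂ) :
    AnalyticAt ℂ (fun q : E × ℂ => (P q.1).eval q.2) (s₀, x₀) := by
  have h1 : AnalyticAt ℂ (fun q : E × ℂ => ∑ i ∈ Finset.range (d + 1),
      (P q.1).coeff i * q.2 ^ i) (s₀, x₀) := by
    refine Finset.analyticAt_fun_sum _ fun i _ => ?_
    refine AnalyticAt.mul ?_ (analyticAt_snd.pow i)
    exact AnalyticAt.comp (g := fun s => (P s).coeff i) (f := Prod.fst) (han i) analyticAt_fst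
  refine h1.congr ?_
  have h2 : ∀ᶠ q : E × ℂ in 𝓝 (s₀, x₀), (P q.1).natDegree ≤ d :=
    (continuousAt_fst (p := (s₀, x₀))).eventually hdeg
  filter_upwards [h2] with q hq
  rw [eval_eq_sum_range' (Nat.lt_succ_of_le hq)]

/-- analytic implicit function theorem at a simple root -/
theorem exists_analytic_root {P : E → ℂ[X]} {s₀ : E} {d : ℕ}
    (hdeg : ∀ᶠ s in 𝓝 s₀, (P s).natDegree ≤ d)
    (han : ∀ i, AnalyticAt ℂ (fun s => (P s).coeff i) s₀) (x₀ : ℂ)
    (h0 : (P s₀).eval x₀ = 0) (h1 : (derivative (P s₀)).eval x₀ ≠ 0) :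
    ∃ a : E → ℂ, AnalyticAt ℂ a s₀ ∧ a s₀ = x₀ ∧ (∀ᶠ s in 𝓝 s₀, (P s).eval (a s) = 0) ∧
      ∀ᶠ q : E × ℂ in 𝓝 (s₀, x₀), (P q.1).eval q.2 = 0 → q.2 = a q.1 := by
  set f : E × ℂ → ℂ := fun q => (P q.1).eval q.2 with hf
  have hfa : AnalyticAt ℂ f (s₀, x₀) := analyticAt_eval hdeg han x₀
  set Ψ : E × ℂ → E × ℂ := fun q => (q.1, f q) with hΨ
  have hA : AnalyticAt ℂ Ψ (s₀, x₀) := analyticAt_fst.prod hfa
  set A : E × ℂ →L[ℂ] ℂ := fderiv ℂ f (s₀, x₀) with hAdef
  have hpe : HasFDerivAt f A (s₀, x₀) := hfa.differentiableAt.hasFDerivAt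
  set δ : ℂ := (derivative (P s₀)).eval x₀ with hδ
  have hA1 : A (0, 1) = δ := by
    have h2 : HasDerivAt (fun t : ℂ => ((s₀, t) : E × ℂ)) ((0, 1) : E × ℂ) x₀ :=
      (hasDerivAt_const x₀ s₀).prodMk (hasDerivAt_id x₀)
    have h3 : HasDerivAt (fun t => f (s₀, t)) (A (0, 1)) x₀ := by
      have h4 : HasFDerivAt f A ((fun t : ℂ => ((s₀, t) : E × ℂ)) x₀) := hpe
      exact h4.comp_hasDerivAt x₀ h2
    exact h3.unique ((P s₀).hasDerivAt x₀)
  have hA2 : ∀ (v : E) (t : ℂ), A (v, t) = A (v, 0) + t * δ := by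
    intro v t
    have : ((v, t) : E × ℂ) = (v, 0) + t • ((0, 1) : E × ℂ) := by simp
    rw [this, map_add, map_smul, hA1, smul_eq_mul]
  -- the derivative is invertible
  let L : (E × ℂ) ≃L[ℂ] (E × ℂ) :=
    ContinuousLinearEquiv.equivOfInverse
      ((ContinuousLinearMap.fst ℂ E ℂ).prod A)
      ((ContinuousLinearMap.fst ℂ E ℂ).prod
        (δ⁻¹ • (ContinuousLinearMap.snd ℂ E ℂ -
          A.comp ((ContinuousLinearMap.fst ℂ E ℂ).prod 0))))
      (by
        rintro ⟨v, t⟩
        have := hA2 v t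
        simp [this]
        field_simp
        )
      (by
        rintro ⟨v, t⟩
        simp
        rw [hA2]
        field_simp
        ring)
  have hD : HasFDerivAt Ψ (L : (E × ℂ) →L[ℂ] (E × ℂ)) (s₀, x₀) := hasFDerivAt_fst.prodMk hpe
  have hC : ContDiffAt ℂ (⊤ : WithTop ℕ∞) Ψ (s₀, x₀) := hA.contDiffAt
  set e := hC.toOpenPartialHomeomorph Ψ hD (by simp) with he
  have hecoe : ∀ q, e q = Ψ q := fun q => rfl
  have hsrc : (s₀, x₀) ∈ e.source := hC.mem_toOpenPartialHomeomorph_source hD (by simp)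
  have hval : Ψ (s₀, x₀) = (s₀, 0) := by simp [hΨ, hf, h0]
  have htgt : ((s₀, 0) : E × ℂ) ∈ e.target := by
    rw [← hval]; exact e.map_source hsrc
  have hsymm : AnalyticAt ℂ e.symm (s₀, 0) := by
    have h7 := hC.to_localInverse hD (by simp)
    rw [hval] at h7
    exact h7.analyticAt
  have hsymm0 : e.symm (s₀, 0) = (s₀, x₀) := by
    rw [← hval]; exact e.left_inv hsrc
  have hinc : ContinuousAt (fun w : E => ((w, 0) : E × ℂ)) s₀ := by fun_prop
  have hev : ∀ᶠ w in 𝓝 s₀, ((w, 0) : E × ℂ) ∈ e.target :=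
    hinc.eventually_mem (e.open_target.mem_nhds htgt)
  refine ⟨fun w => (e.symm (w, 0)).2, ?_, ?_, ?_, ?_⟩
  · have h8 : AnalyticAt ℂ (fun w : E => ((w, 0) : E × ℂ)) s₀ :=
      analyticAt_id.prod analyticAt_const
    have h9 : AnalyticAt ℂ (fun w => e.symm (w, 0)) s₀ :=
      AnalyticAt.comp (g := e.symm) (f := fun w : E => ((w, 0) : E × ℂ)) hsymm h8
    exact AnalyticAt.comp (g := Prod.snd) (f := fun w : E => e.symm ((w, 0) : E × ℂ))
      analyticAt_snd h9
  · simp [hsymm0]
  · filter_upwards [hev] with w hw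
    have h10 : Ψ (e.symm (w, 0)) = (w, 0) := by
      rw [← hecoe]; exact e.right_inv hw
    have h11 : (e.symm (w, 0)).1 = w := congrArg Prod.fst h10
    have h12 : f (e.symm (w, 0)) = 0 := congrArg Prod.snd h10
    have h13 : ((w, (e.symm (w, 0)).2) : E × ℂ) = e.symm (w, 0) := Prod.ext h11.symm rfl
    have h14 : f (w, (e.symm (w, 0)).2) = 0 := by rw [h13]; exact h12
    exact h14
  · filter_upwards [e.open_source.mem_nhds hsrc] with q hq hq0
    have h14 : Ψ q = (q.1, 0) := by simp [hΨ, hf, hq0]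
    have h15 : e.symm (q.1, 0) = q := by
      rw [← h14]; exact e.left_inv hq
    simp [h15]

/-- a polynomial with as many distinct roots as its degree -/
lemma eq_prod_of_roots {d : ℕ} {p : ℂ[X]} (hp : p.natDegree = d) (hp0 : p ≠ 0)
    {x : Fin d → ℂ} (hx : Function.Injective x) (hr : ∀ i, p.eval (x i) = 0) :
    p = C p.leadingCoeff * ∏ i, (X - C (x i)) ∧ ∀ y, p.eval y = 0 ↔ ∃ i, x i = y := by
  classical
  have hle : (Finset.univ.val.map x) ≤ p.roots := by
    rw [Multiset.le_iff_subset (Multiset.Nodup.map hx Finset.univ.nodup)]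
    intro y hy
    rw [Multiset.mem_map] at hy
    obtain ⟨i, -, rfl⟩ := hy
    exact (mem_roots hp0).mpr (hr i)
  have heq : (Finset.univ.val.map x) = p.roots := by
    refine Multiset.eq_of_le_of_card_le hle ?_
    rw [Multiset.card_map, Finset.card_val, Finset.card_univ, Fintype.card_fin, ← hp]
    exact p.card_roots'
  have hcard : Multiset.card p.roots = p.natDegree := by
    rw [← heq, Multiset.card_map, Finset.card_val, Finset.card_univ, Fintype.card_fin, hp]
  have h1 := C_leadingCoeff_mul_prod_multiset_X_sub_C hcard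
  constructor
  · rw [← heq, Multiset.map_map] at h1
    exact h1.symm
  · intro y
    have h2 : p.eval y = 0 ↔ y ∈ p.roots := (mem_roots hp0).symm
    rw [h2, ← heq, Multiset.mem_map]
    simp

/-- **Local analytic roots** of a family of polynomials, separable of constant degree. -/
theorem localRoots {P : E → ℂ[X]} {s₀ : E} {d : ℕ}
    (hdeg : ∀ᶠ s in 𝓝 s₀, (P s).natDegree ≤ d) (hd : (P s₀).natDegree = d)
    (hsep : (P s₀).Separable)
    (han : ∀ i, AnalyticAt ℂ (fun s => (P s).coeff i) s₀) :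
    ∃ a : Fin d → E → ℂ, (∀ i, AnalyticAt ℂ (a i) s₀) ∧ (Function.Injective fun i => a i s₀) ∧
      ∀ᶠ s in 𝓝 s₀, (P s).natDegree = d ∧ (Function.Injective fun i => a i s) ∧
        P s = C (P s).leadingCoeff * ∏ i, (X - C (a i s)) ∧
        ∀ x, (P s).eval x = 0 ↔ ∃ i, a i s = x := by
  classical
  have hP0 : P s₀ ≠ 0 := hsep.ne_zero
  have hcard : Multiset.card (P s₀).roots = d := by
    rw [← hd]
    exact splits_iff_card_roots.mp (IsAlgClosed.splits (P s₀))
  have hnd : (P s₀).roots.Nodup := nodup_roots hsep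
  -- enumerate the roots at `s₀`
  let F : Finset ℂ := (P s₀).roots.toFinset
  have hF : F.card = d := by
    rw [← hcard]; exact Multiset.toFinset_card_of_nodup hnd
  let eq : Fin d ≃ F := (F.equivFinOfCardEq hF).symm
  let x : Fin d → ℂ := fun i => (eq i : ℂ)
  have hxinj : Function.Injective x := fun i j h => eq.injective (Subtype.ext h)
  have hxr : ∀ i, (P s₀).eval (x i) = 0 := by
    intro i
    have h : (eq i : ℂ) ∈ F := (eq i).2
    rw [Multiset.mem_toFinset] at h
    exact (mem_roots hP0).mp h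
  have hder : ∀ i, (derivative (P s₀)).eval (x i) ≠ 0 := by
    intro i
    have h := hsep.eval₂_derivative_ne_zero (RingHom.id ℂ) (x := x i) (by simpa using hxr i)
    simpa using h
  choose a haA ha0 har _ using fun i => exists_analytic_root hdeg han (x i) (hxr i) (hder i)
  have hinj0 : Function.Injective fun i => a i s₀ := by
    intro i j h
    simp only [ha0] at h
    exact hxinj h
  refine ⟨a, haA, hinj0, ?_⟩
  have hlc : ∀ᶠ s in 𝓝 s₀, (P s).coeff d ≠ 0 := by
    refine (han d).continuousAt.eventually_ne ?_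
    rw [← hd]
    exact leadingCoeff_ne_zero.mpr hP0
  have hij : ∀ᶠ s in 𝓝 s₀, ∀ i j, i ≠ j → a i s ≠ a j s := by
    rw [eventually_all]
    intro i
    rw [eventually_all]
    intro j
    rw [eventually_imp_distrib_left]
    intro hne
    exact ((haA i).continuousAt.ne_iff_eventually_ne (haA j).continuousAt).mp (hinj0.ne hne)
  have hall : ∀ᶠ s in 𝓝 s₀, ∀ i, (P s).eval (a i s) = 0 := eventually_all.mpr har
  filter_upwards [hdeg, hlc, hij, hall] with s g1 g2 g3 g4
  have hdeg' : (P s).natDegree = d := le_antisymm g1 (le_natDegree_of_ne_zero g2)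
  have hinj : Function.Injective fun i => a i s := by
    intro i j h
    by_contra hne
    exact g3 i j hne h
  have hPs : P s ≠ 0 := by
    rintro h
    rw [h] at g2
    simp at g2
  obtain ⟨h1, h2⟩ := eq_prod_of_roots hdeg' hPs hinj g4
  exact ⟨hdeg', hinj, h1, h2⟩

end roots

section tower

/-- the isomorphism `ℂ[w₀,…,wₙ] ≃ ℂ[w₀,…,wₙ₋₁][X]`, last variable `↦ X` -/
def lastEquiv (n : ℕ) : MvPolynomial (Fin (n + 1)) ℂ ≃ₐ[ℂ] Polynomial (MvPolynomial (Fin n) ℂ) :=
  (MvPolynomial.renameEquiv ℂ finSuccEquivLast).trans (MvPolynomial.optionEquivLeft ℂ (Fin n))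

/-- the value of `P ∈ ℂ[w₀,…,wₙ₋₁][X]` at the point `w` -/
abbrev at' {n : ℕ} (P : Polynomial (MvPolynomial (Fin n) ℂ)) (w : Fin n → ℂ) : ℂ[X] :=
  P.map (MvPolynomial.eval w)

lemma eval_lastEquiv {n : ℕ} (f : MvPolynomial (Fin (n + 1)) ℂ) (w : Fin n → ℂ) (t : ℂ) :
    (at' (lastEquiv n f) w).eval t = MvPolynomial.eval (Fin.snoc w t : Fin (n + 1) → ℂ) f := by
  have h := MvPolynomial.optionEquivLeft_elim_eval (R := ℂ) (S₁ := Fin n) w t
    (MvPolynomial.rename finSuccEquivLast f)
  rw [MvPolynomial.eval_rename] at h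
  have h2 : ((fun x : Option (Fin n) => Option.elim x t w) ∘ finSuccEquivLast) =
      (Fin.snoc w t : Fin (n + 1) → ℂ) := by
    funext i
    refine Fin.lastCases ?_ (fun j => ?_) i
    · simp
    · simp
  rw [h2] at h
  exact h.symm

/-- one step, for polynomials over `ℂ` -/
theorem stepC {n : ℕ} (f : MvPolynomial (Fin (n + 1)) ℂ) (hf : f ≠ 0) :
    ∃ (P : Polynomial (MvPolynomial (Fin n) ℂ)) (c : MvPolynomial (Fin n) ℂ), P ≠ 0 ∧ c ≠ 0 ∧
      ∀ w : Fin n → ℂ, MvPolynomial.eval w c ≠ 0 →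
        (at' P w).natDegree = P.natDegree ∧ (at' P w).Separable ∧
        ∀ t : ℂ, (at' P w).eval t = 0 ↔ MvPolynomial.eval (Fin.snoc w t : Fin (n + 1) → ℂ) f = 0 := by
  obtain ⟨P, c, hP, hc, h⟩ := step (lastEquiv n f) (by
    intro h0
    exact hf ((lastEquiv n).injective (by rw [h0, map_zero])))
  refine ⟨P, c, hP, hc, fun w hw => ?_⟩
  obtain ⟨h1, h2, h3⟩ := h ℂ (MvPolynomial.eval w) hw
  refine ⟨h1, h2, fun t => ?_⟩
  rw [← eval_lastEquiv]
  exact h3 t

/-- **TOW1: the tower of discriminants.** -/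
theorem tower (m r : ℕ) (h : MvPolynomial (Fin (m + r)) ℂ) (hh : h ≠ 0) :
    ∃ (c : (j : ℕ) → MvPolynomial (Fin (m + j)) ℂ)
      (P : (j : ℕ) → Polynomial (MvPolynomial (Fin (m + j)) ℂ)),
      c r = h ∧ (∀ j ≤ r, c j ≠ 0) ∧ ∀ j < r, P j ≠ 0 ∧ ∀ w : Fin (m + j) → ℂ,
        MvPolynomial.eval w (c j) ≠ 0 →
          (at' (P j) w).natDegree = (P j).natDegree ∧ (at' (P j) w).Separable ∧
          ∀ t : ℂ, (at' (P j) w).eval t = 0 ↔
            MvPolynomial.eval (Fin.snoc w t : Fin (m + j + 1) → ℂ) (c (j + 1)) = 0 := by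
  induction r with
  | zero =>
    refine ⟨fun j => if hj : j = 0 then hj ▸ h else 0, fun j => 0, by simp, ?_, by simp⟩
    intro j hj
    obtain rfl : j = 0 := by omega
    simpa using hh
  | succ r ih =>
    obtain ⟨P', c', hP', hc', h'⟩ := stepC (n := m + r) h hh
    obtain ⟨c, P, h1, h2, h3⟩ := ih c' hc'
    refine ⟨Function.update c (r + 1) h, Function.update P r P', ?_, ?_, ?_⟩
    · simp
    · intro j hj
      rcases Nat.lt_or_ge r j with hj' | hj'
      · obtain rfl : j = r + 1 := by omega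
        simpa using hh
      · rw [Function.update_of_ne (by omega)]
        exact h2 j hj'
    · intro j hj
      rcases Nat.lt_or_ge j r with hj' | hj'
      · rw [Function.update_of_ne (by omega : j ≠ r), Function.update_of_ne (by omega : j ≠ r + 1),
          Function.update_of_ne (by omega : j + 1 ≠ r + 1)]
        exact h3 j hj'
      · obtain rfl : j = r := by omega
        rw [Function.update_self, Function.update_of_ne (by omega : j ≠ j + 1),
          Function.update_self, h1]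
        exact ⟨hP', h'⟩

end tower

end Crest.Agent.R276.Tow_244
end
end

-- ▼ part R276/Tow2_244

/-!
# Row 276 (S0419), leaf TOW, part 2 (helper244): the tower of punctured lines over a Riemann domain

* `PTow m`, `exists_ptow`: the polynomial tower (coordinate `0` = fibre coordinate).
* `puncOfPoly`: a family of separable polynomials of constant degree with holomorphic coefficients
  gives a family of punctures.
* `Lvl`, `PTow.lvl`: the levels `X_0 = S`, `X_{j+1} = Tot`.
-/

set_option autoImplicit false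

noncomputable section

open Set Filter Topology MeasureTheory
open Crest.Agent.R271.Ho51 Crest.Agent.R276.Ipc735

namespace Crest.Agent.R276.Tow2_244

open Crest.Agent.R276.Tow_244 (at' step localRoots)

/-! ### the polynomial tower -/

/-- one step, for polynomials over `ℂ`; variable `0` is the fibre variable -/
theorem stepCons {n : ℕ} (f : MvPolynomial (Fin (n + 1)) ℂ) (hf : f ≠ 0) :
    ∃ (P : Polynomial (MvPolynomial (Fin n) ℂ)) (c : MvPolynomial (Fin n) ℂ), P ≠ 0 ∧ c ≠ 0 ∧
      ∀ w : Fin n → ℂ, MvPolynomial.eval w c ≠ 0 →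
        (at' P w).natDegree = P.natDegree ∧ (at' P w).Separable ∧
        ∀ t : ℂ, (at' P w).eval t = 0 ↔ MvPolynomial.eval (Fin.cons t w : Fin (n + 1) → ℂ) f = 0 := by
  obtain ⟨P, c, hP, hc, h⟩ := step (MvPolynomial.finSuccEquiv ℂ n f) (by
    intro h0
    exact hf ((MvPolynomial.finSuccEquiv ℂ n).injective (by rw [h0, map_zero])))
  refine ⟨P, c, hP, hc, fun w hw => ?_⟩
  obtain ⟨h1, h2, h3⟩ := h ℂ (MvPolynomial.eval w) hw
  refine ⟨h1, h2, fun t => ?_⟩
  rw [MvPolynomial.eval_eq_eval_mv_eval']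
  exact h3 t

/-- the tower of discriminants: over `{c_j ≠ 0}` the polynomial `P_j` is separable of constant degree in
the new variable, with zero set `{c_{j+1} = 0}` -/
structure PTow (m : ℕ) where
  c : (j : ℕ) → MvPolynomial (Fin (m + j)) ℂ
  P : (j : ℕ) → Polynomial (MvPolynomial (Fin (m + j)) ℂ)
  prop : ∀ (j : ℕ) (w : Fin (m + j) → ℂ), MvPolynomial.eval w (c j) ≠ 0 →
    (at' (P j) w).natDegree = (P j).natDegree ∧ (at' (P j) w).Separable ∧
      ∀ t : ℂ, (at' (P j) w).eval t = 0 ↔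
        MvPolynomial.eval (Fin.cons t w : Fin (m + j + 1) → ℂ) (c (j + 1)) = 0

lemma eval_cons_succ {n : ℕ} (f : MvPolynomial (Fin n) ℂ) (w : Fin n → ℂ) (t : ℂ) :
    MvPolynomial.eval (Fin.cons t w : Fin (n + 1) → ℂ) (MvPolynomial.rename Fin.succ f) =
      MvPolynomial.eval w f := by
  rw [MvPolynomial.eval_rename]
  rfl

/-- the trivial tower over `c₀` -/
def trivC {m : ℕ} (c₀ : MvPolynomial (Fin m) ℂ) : (j : ℕ) → MvPolynomial (Fin (m + j)) ℂ
  | 0 => c₀
  | (j + 1) => MvPolynomial.rename Fin.succ (trivC c₀ j)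

lemma prop_one {n : ℕ} (f : MvPolynomial (Fin n) ℂ) (w : Fin n → ℂ) (hw : MvPolynomial.eval w f ≠ 0) :
    (at' (1 : Polynomial (MvPolynomial (Fin n) ℂ)) w).natDegree =
        (1 : Polynomial (MvPolynomial (Fin n) ℂ)).natDegree ∧
      (at' (1 : Polynomial (MvPolynomial (Fin n) ℂ)) w).Separable ∧
      ∀ t : ℂ, (at' (1 : Polynomial (MvPolynomial (Fin n) ℂ)) w).eval t = 0 ↔
        MvPolynomial.eval (Fin.cons t w : Fin (n + 1) → ℂ) (MvPolynomial.rename Fin.succ f) = 0 := by
  refine ⟨by simp [at'], ?_, fun t => ?_⟩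
  · simp only [at', Polynomial.map_one]
    exact Polynomial.separable_one
  · rw [eval_cons_succ]
    simp [at', hw]

/-- the trivial tower -/
def PTow.triv {m : ℕ} (c₀ : MvPolynomial (Fin m) ℂ) : PTow m where
  c := trivC c₀
  P := fun _ => 1
  prop := fun j w hw => prop_one (trivC c₀ j) w hw

/-- extension of a tower by one step at level `r` -/
def extC {m : ℕ} (T : PTow m) (r : ℕ) (h : MvPolynomial (Fin (m + (r + 1))) ℂ) :
    (j : ℕ) → MvPolynomial (Fin (m + j)) ℂ
  | 0 => T.c 0
  | (j + 1) => if hj : r = j then (by rw [← hj]; exact h) else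
      if j < r then T.c (j + 1) else MvPolynomial.rename Fin.succ (extC T r h j)

lemma extC_le {m : ℕ} (T : PTow m) (r : ℕ) (h : MvPolynomial (Fin (m + (r + 1))) ℂ) {j : ℕ}
    (hj : j ≤ r) : extC T r h j = T.c j := by
  cases j with
  | zero => rfl
  | succ j =>
    unfold extC
    rw [dif_neg (by omega), if_pos (by omega)]

lemma extC_succ_self {m : ℕ} (T : PTow m) (r : ℕ) (h : MvPolynomial (Fin (m + (r + 1))) ℂ) :
    extC T r h (r + 1) = h := by
  unfold extC
  rw [dif_pos rfl]
  rfl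

lemma extC_gt {m : ℕ} (T : PTow m) (r : ℕ) (h : MvPolynomial (Fin (m + (r + 1))) ℂ) {j : ℕ}
    (hj : r < j) : extC T r h (j + 1) = MvPolynomial.rename Fin.succ (extC T r h j) := by
  conv_lhs => unfold extC
  rw [dif_neg (by omega), if_neg (by omega)]

/-- extension of the polynomials -/
def extP {m : ℕ} (T : PTow m) (r : ℕ) (P' : Polynomial (MvPolynomial (Fin (m + r)) ℂ)) (j : ℕ) :
    Polynomial (MvPolynomial (Fin (m + j)) ℂ) :=
  if hj : r = j then (by rw [← hj]; exact P') else if j < r then T.P j else 1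

/-- **The polynomial tower.** -/
theorem exists_ptow (m r : ℕ) (h : MvPolynomial (Fin (m + r)) ℂ) (hh : h ≠ 0) :
    ∃ T : PTow m, T.c r = h ∧ ∀ j ≤ r, T.c j ≠ 0 := by
  induction r with
  | zero =>
    refine ⟨PTow.triv h, rfl, ?_⟩
    intro j hj
    obtain rfl : j = 0 := by omega
    exact hh
  | succ r ih =>
    obtain ⟨P', c', hP', hc', h'⟩ := stepCons (n := m + r) h hh
    obtain ⟨T, h1, h2⟩ := ih c' hc'
    refine ⟨⟨extC T r h, extP T r P', ?_⟩, extC_succ_self T r h, ?_⟩
    · intro j w hw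
      rcases lt_trichotomy j r with hj | hj | hj
      · have e1 : extP T r P' j = T.P j := by
          unfold extP
          rw [dif_neg (by omega), if_pos hj]
        rw [e1, extC_le T r h (show j + 1 ≤ r by omega)]
        rw [extC_le T r h hj.le] at hw
        exact T.prop j w hw
      · subst hj
        have e1 : extP T j P' j = P' := by
          unfold extP
          rw [dif_pos rfl]
          rfl
        rw [e1, extC_succ_self]
        rw [extC_le T j h le_rfl, h1] at hw
        exact h' w hw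
      · have e1 : extP T r P' j = 1 := by
          unfold extP
          rw [dif_neg (by omega), if_neg (by omega)]
        rw [e1, extC_gt T r h hj]
        exact prop_one _ w hw
    · intro j hj
      rcases Nat.lt_or_ge r j with hj' | hj'
      · obtain rfl : j = r + 1 := by omega
        change extC T r h (r + 1) ≠ 0
        rw [extC_succ_self T r h]
        exact hh
      · change extC T r h j ≠ 0
        rw [extC_le T r h hj']
        exact h2 j hj'

/-! ### punctures from polynomials -/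

section punc

variable {m : ℕ} {S : Type*} [TopologicalSpace S] [RDom m S]

/-- a function of the coordinates is holomorphic if it is analytic -/
lemma holAt_comp_cp {G : Type*} [NormedAddCommGroup G] [NormedSpace ℂ G] {g : (Fin m → ℂ) → G}
    {z : S} (hg : AnalyticAt ℂ g (cp z)) : HolAt (fun s : S => g (cp s)) z := by
  have h1 : ((fun x : S => g (cp x)) ∘ (ch z).symm) =ᶠ[𝓝 (cp z)] g := by
    filter_upwards [(ch z).open_target.mem_nhds ((isCh_ch z).cp_mem (mem_ch z))] with y hy
    simp [(isCh_ch z).cp_symm hy]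
  exact hg.congr h1.symm

/-- coefficients of a polynomial over `ℂ[w]` evaluated at the coordinates are holomorphic -/
lemma holAt_coeff_at' (P : Polynomial (MvPolynomial (Fin m) ℂ)) (i : ℕ) (z : S) :
    HolAt (fun s : S => (at' P (cp s)).coeff i) z := by
  have h : (fun s : S => (at' P (cp s)).coeff i) =
      fun s : S => MvPolynomial.eval (cp s) (P.coeff i) := by
    funext s
    simp [at', Polynomial.coeff_map]
  rw [h]
  exact holAt_comp_cp (AnalyticOnNhd.eval_mvPolynomial (P.coeff i) (cp z) (mem_univ _))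

/-- a family of separable polynomials of constant degree with holomorphic coefficients gives a family
of punctures -/
def puncOfPoly (P : S → Polynomial ℂ) (k : ℕ)
    (hol : ∀ (i : ℕ) (s : S), HolAt (fun s => (P s).coeff i) s)
    (hdeg : ∀ s, (P s).natDegree = k) (hsep : ∀ s, (P s).Separable) : Punc S k where
  A := fun s => (P s).roots.toFinset
  loc := by
    classical
    intro s₀
    -- the family in the chart
    set e := ch s₀ with he
    have hcp : (fun s => P s) =ᶠ[𝓝 s₀] fun s => (fun w => P (e.symm w)) (cp s) := by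
      filter_upwards [e.open_source.mem_nhds (mem_ch s₀)] with y hy
      rw [(isCh_ch s₀).symm_cp hy]
    obtain ⟨b, hb1, hb2, hb3⟩ := localRoots (P := fun w => P (e.symm w)) (s₀ := cp s₀) (d := k)
      (Eventually.of_forall fun w => (hdeg _).le) (hdeg _) (hsep _) (fun i => hol i s₀)
    refine ⟨fun i s => b i (cp s), fun i => holAt_comp_cp (hb1 i), ?_⟩
    have h3 : ∀ᶠ s : S in 𝓝 s₀, _ := (cp_cont (M := S)).continuousAt.eventually hb3
    filter_upwards [h3, hcp] with s hs hPs
    obtain ⟨g1, g2, g3, g4⟩ := hs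
    refine ⟨g2, ?_⟩
    ext x
    have hne : P s ≠ 0 := (hsep s).ne_zero
    rw [Multiset.mem_toFinset, Polynomial.mem_roots hne, Polynomial.IsRoot.def, hPs, g4 x]
    simp

@[simp] lemma mem_puncOfPoly {P : S → Polynomial ℂ} {k : ℕ}
    {hol : ∀ (i : ℕ) (s : S), HolAt (fun s => (P s).coeff i) s}
    {hdeg : ∀ s, (P s).natDegree = k} {hsep : ∀ s, (P s).Separable} {s : S} {x : ℂ} :
    x ∈ (puncOfPoly P k hol hdeg hsep).A s ↔ (P s).eval x = 0 := by
  change x ∈ (P s).roots.toFinset ↔ _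
  rw [Multiset.mem_toFinset, Polynomial.mem_roots (hsep s).ne_zero, Polynomial.IsRoot.def]

variable {k : ℕ} (Q : Punc S k)

instance [T2Space S] : T2Space (Tot Q) :=
  inferInstanceAs (T2Space {q : S × ℂ // q.2 ∉ Q.A q.1})

instance [SecondCountableTopology S] : SecondCountableTopology (Tot Q) :=
  TopologicalSpace.Subtype.secondCountableTopology {q : S × ℂ | q.2 ∉ Q.A q.1}

/-- the projection to the base -/
def Tot.fst (q : Tot Q) : S := q.1.1

lemma continuous_fst' : Continuous (Tot.fst Q) := continuous_fst.comp continuous_subtype_val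

lemma isOpenMap_fst' : IsOpenMap (Tot.fst Q) :=
  isOpenMap_fst.comp (IsOpen.isOpenEmbedding_subtypeVal (isOpen_tot Q)).isOpenMap

lemma surjective_fst' : Function.Surjective (Tot.fst Q) := by
  intro s
  obtain ⟨x, hx⟩ := (Q.A s).finite_toSet.exists_notMem
  exact ⟨Tot.mk Q s x (by simpa using hx), rfl⟩

lemma isConnected_fibre (s : S) : IsConnected (Tot.fst Q ⁻¹' {s}) := by
  have h1 : IsConnected ((Q.A s : Set ℂ)ᶜ) := by
    apply Set.Countable.isConnected_compl_of_one_lt_rank
    · simp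
    · exact (Q.A s).finite_toSet.countable
  have h2 : ContinuousOn (fun x : ℂ => (s, x)) ((Q.A s : Set ℂ)ᶜ) := by fun_prop
  let f : ((Q.A s : Set ℂ)ᶜ : Set ℂ) → Tot Q := fun x => Tot.mk Q s x.1
    (fun h => x.2 (Finset.mem_coe.mpr h))
  have hf : Continuous f := by
    refine Continuous.subtype_mk ?_ _
    exact continuous_const.prodMk continuous_subtype_val
  have h3 : IsConnected (univ : Set ((Q.A s : Set ℂ)ᶜ : Set ℂ)) := by
    have := isConnected_iff_connectedSpace.mp h1
    exact isConnected_univ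
  have h4 := h3.image f hf.continuousOn
  have h5 : Tot.fst Q ⁻¹' {s} = f '' univ := by
    ext q
    constructor
    · intro hq
      obtain ⟨⟨s', x⟩, hx⟩ := q
      have hs : s' = s := hq
      subst hs
      exact ⟨⟨x, by simpa using hx⟩, trivial, rfl⟩
    · rintro ⟨x, -, rfl⟩
      rfl
  rw [h5]
  exact h4

instance [PreconnectedSpace S] : PreconnectedSpace (Tot Q) := by
  rcases isEmpty_or_nonempty S with hS | hS
  · have : IsEmpty (Tot Q) := ⟨fun q => hS.false (Tot.fst Q q)⟩
    infer_instance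
  · have hq : IsOpenQuotientMap (Tot.fst Q) := ⟨surjective_fst' Q, continuous_fst' Q, isOpenMap_fst' Q⟩
    have hc : Topology.IsCoinducing (Tot.fst Q) := hq.isQuotientMap.isCoinducing
    have h1 : IsConnected (univ : Set S) := ⟨univ_nonempty, isPreconnected_univ⟩
    have h2 := hc.isConnected_preimage_of_isClosed (isConnected_fibre Q) isClosed_univ h1
    rw [preimage_univ] at h2
    exact ⟨h2.2⟩

end punc

/-! ### levels -/

/-- a level of the tower -/
structure Lvl (n : ℕ) (c : MvPolynomial (Fin n) ℂ) where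
  X : Type
  [top : TopologicalSpace X]
  [rd : RDom n X]
  [t2 : T2Space X]
  [sc : SecondCountableTopology X]
  [pc : PreconnectedSpace X]
  hc : ∀ x : X, MvPolynomial.eval (cp x) c ≠ 0

attribute [instance] Lvl.top Lvl.rd Lvl.t2 Lvl.sc Lvl.pc

namespace PTow

variable {m : ℕ} (T : PTow m)

/-- the punctures over a level -/
def punc (j : ℕ) (L : Lvl (m + j) (T.c j)) : Punc L.X (T.P j).natDegree :=
  puncOfPoly (fun x : L.X => at' (T.P j) (cp x)) _ (fun i z => holAt_coeff_at' (T.P j) i z)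
    (fun x => (T.prop j _ (L.hc x)).1) (fun x => (T.prop j _ (L.hc x)).2.1)

lemma mem_punc (j : ℕ) (L : Lvl (m + j) (T.c j)) (x : L.X) (t : ℂ) :
    t ∈ (T.punc j L).A x ↔
      MvPolynomial.eval (Fin.cons t (cp x) : Fin (m + j + 1) → ℂ) (T.c (j + 1)) = 0 := by
  rw [punc, mem_puncOfPoly]
  exact (T.prop j _ (L.hc x)).2.2 t

/-- the next level -/
def next (j : ℕ) (L : Lvl (m + j) (T.c j)) : Lvl (m + (j + 1)) (T.c (j + 1)) where
  X := Tot (T.punc j L)
  rd := inferInstanceAs (RDom (m + j + 1) (Tot (T.punc j L)))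
  hc := by
    intro q h
    exact q.2 ((T.mem_punc j L q.1.1 q.1.2).mpr h)

/-- the levels over a base -/
def lvl (L₀ : Lvl m (T.c 0)) : (j : ℕ) → Lvl (m + j) (T.c j)
  | 0 => L₀
  | (j + 1) => T.next j (lvl L₀ j)

@[simp] lemma lvl_zero (L₀ : Lvl m (T.c 0)) : T.lvl L₀ 0 = L₀ := rfl

@[simp] lemma lvl_succ (L₀ : Lvl m (T.c 0)) (j : ℕ) : T.lvl L₀ (j + 1) = T.next j (T.lvl L₀ j) := rfl


/-- the projection of the level `j` to the base -/
def toBase (L₀ : Lvl m (T.c 0)) : (j : ℕ) → (T.lvl L₀ j).X → L₀.X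
  | 0 => id
  | (j + 1) => fun q => toBase L₀ j q.1.1

lemma continuous_toBase (L₀ : Lvl m (T.c 0)) (j : ℕ) : Continuous (T.toBase L₀ j) := by
  induction j with
  | zero => exact continuous_id
  | succ j ih => exact ih.comp (continuous_fst' (T.punc j (T.lvl L₀ j)))

/-- a point of a level is determined by its base point and its coordinates; topological version -/
lemma isEmbedding_toBase_cp (L₀ : Lvl m (T.c 0)) (j : ℕ) :
    Topology.IsEmbedding (fun q : (T.lvl L₀ j).X => (T.toBase L₀ j q, (cp q : Fin (m + j) → ℂ))) := by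
  induction j with
  | zero =>
    refine Topology.IsEmbedding.of_comp (g := Prod.fst) ?_ continuous_fst ?_
    · exact continuous_id.prodMk cp_cont
    · exact Topology.IsEmbedding.id
  | succ j ih =>
    have h1 : Topology.IsEmbedding (fun q : (T.lvl L₀ (j + 1)).X =>
        ((T.toBase L₀ j q.1.1, (cp q.1.1 : Fin (m + j) → ℂ)), q.1.2)) := by
      have h2 : Topology.IsEmbedding (fun q : (T.lvl L₀ j).X × ℂ =>
          ((T.toBase L₀ j q.1, (cp q.1 : Fin (m + j) → ℂ)), q.2)) :=
        ih.prodMap Topology.IsEmbedding.id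
      exact h2.comp Topology.IsEmbedding.subtypeVal
    let g : L₀.X × (Fin (m + j + 1) → ℂ) → (L₀.X × (Fin (m + j) → ℂ)) × ℂ :=
      fun p => ((p.1, fun i => p.2 i.succ), p.2 0)
    have hg : Continuous g := by fun_prop
    refine Topology.IsEmbedding.of_comp (g := g) ?_ hg ?_
    · exact (T.continuous_toBase L₀ (j + 1)).prodMk (cp_cont (M := (T.lvl L₀ (j + 1)).X))
    · have h3 : (g ∘ fun q : (T.lvl L₀ (j + 1)).X =>
          (T.toBase L₀ (j + 1) q, (cp q : Fin (m + j + 1) → ℂ))) =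
          (fun q : (T.lvl L₀ (j + 1)).X =>
            ((T.toBase L₀ j q.1.1, (cp q.1.1 : Fin (m + j) → ℂ)), q.1.2)) := by
        funext q
        rfl
      rw [h3]
      exact h1

section lift

variable {Y : Type*}

/-- the coordinates of the lift -/
def crd (L₀ : Lvl m (T.c 0)) (f : Y → L₀.X) (x : ℕ → Y → ℂ) (y : Y) :
    (j : ℕ) → (Fin (m + j) → ℂ)
  | 0 => cp (f y)
  | (j + 1) => (Fin.cons (x j y) (crd L₀ f x y j) : Fin (m + j + 1) → ℂ)

/-- the lift to the level `j` of a map to the base, given the new coordinates `x 0, x 1, …` -/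
def liftAux (L₀ : Lvl m (T.c 0)) (f : Y → L₀.X) (x : ℕ → Y → ℂ) (y : Y) :
    (j : ℕ) → (∀ i ≤ j, MvPolynomial.eval (T.crd L₀ f x y i) (T.c i) ≠ 0) →
      {p : (T.lvl L₀ j).X // T.toBase L₀ j p = f y ∧ (cp p : Fin (m + j) → ℂ) = T.crd L₀ f x y j}
  | 0 => fun _ => ⟨f y, rfl, rfl⟩
  | (j + 1) => fun h =>
      let p := liftAux L₀ f x y j (fun i hi => h i (by omega))
      ⟨Tot.mk (T.punc j (T.lvl L₀ j)) p.1 (x j y) (by
        rw [mem_punc, p.2.2]
        exact h (j + 1) le_rfl), p.2.1, by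
          have h1 := p.2.2
          change (Fin.cons (x j y) (cp p.1) : Fin (m + j + 1) → ℂ) =
            (Fin.cons (x j y) (T.crd L₀ f x y j) : Fin (m + j + 1) → ℂ)
          rw [h1]⟩

/-- the lift to the level `j` -/
def lift (L₀ : Lvl m (T.c 0)) (f : Y → L₀.X) (x : ℕ → Y → ℂ) (j : ℕ)
    (h : ∀ y, ∀ i ≤ j, MvPolynomial.eval (T.crd L₀ f x y i) (T.c i) ≠ 0) (y : Y) :
    (T.lvl L₀ j).X := (T.liftAux L₀ f x y j (h y)).1

variable {L₀ : Lvl m (T.c 0)} {f : Y → L₀.X} {x : ℕ → Y → ℂ} {j : ℕ}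
  {h : ∀ y, ∀ i ≤ j, MvPolynomial.eval (T.crd L₀ f x y i) (T.c i) ≠ 0}

lemma toBase_lift (y : Y) : T.toBase L₀ j (T.lift L₀ f x j h y) = f y :=
  (T.liftAux L₀ f x y j (h y)).2.1

lemma cp_lift (y : Y) : (cp (T.lift L₀ f x j h y) : Fin (m + j) → ℂ) = T.crd L₀ f x y j :=
  (T.liftAux L₀ f x y j (h y)).2.2

lemma continuous_crd [TopologicalSpace Y] (hf : Continuous f) (hx : ∀ i, Continuous (x i)) (j : ℕ) :
    Continuous (fun y => T.crd L₀ f x y j) := by
  induction j with
  | zero => exact cp_cont.comp hf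
  | succ j ih =>
    refine continuous_pi fun i => ?_
    refine Fin.cases ?_ (fun i => ?_) i
    · exact hx j
    · exact (continuous_apply i).comp ih

/-- the lift is continuous -/
theorem continuous_lift [TopologicalSpace Y] (hf : Continuous f) (hx : ∀ i, Continuous (x i)) :
    Continuous (T.lift L₀ f x j h) := by
  rw [(T.isEmbedding_toBase_cp L₀ j).continuous_iff]
  have h1 : ((fun q : (T.lvl L₀ j).X => (T.toBase L₀ j q, (cp q : Fin (m + j) → ℂ))) ∘
      T.lift L₀ f x j h) = fun y => (f y, T.crd L₀ f x y j) := by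
    funext y
    exact Prod.ext (T.toBase_lift y) (T.cp_lift y)
  rw [h1]
  exact hf.prodMk (T.continuous_crd hf hx j)

/-- the lift is a local homeomorphism if the coordinates are -/
theorem isLocalHomeomorph_lift [TopologicalSpace Y] (hf : Continuous f)
    (hx : ∀ i, Continuous (x i)) (hY : IsLocalHomeomorph (fun y => T.crd L₀ f x y j)) :
    IsLocalHomeomorph (T.lift L₀ f x j h) := by
  refine IsLocalHomeomorph.of_comp (g := (cp : (T.lvl L₀ j).X → Fin (m + j) → ℂ)) ?_ cp_lh
    (T.continuous_lift hf hx)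
  have h1 : (cp : (T.lvl L₀ j).X → Fin (m + j) → ℂ) ∘ T.lift L₀ f x j h =
      fun y => T.crd L₀ f x y j := by
    funext y
    exact T.cp_lift y
  rw [h1]
  exact hY

end lift

/-- the fibre coordinates on the level `j`: coordinate `i < j` is the fibre coordinate of step `i` -/
def fx (L₀ : Lvl m (T.c 0)) : (j : ℕ) → ℕ → (T.lvl L₀ j).X → ℂ
  | 0 => fun _ _ => 0
  | (j + 1) => fun i q => if i = j then q.1.2 else fx L₀ j i q.1.1

lemma continuous_fx (L₀ : Lvl m (T.c 0)) (j i : ℕ) : Continuous (T.fx L₀ j i) := by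
  induction j with
  | zero => exact continuous_const
  | succ j ih =>
    unfold fx
    by_cases hi : i = j
    · simp only [hi, if_true]
      exact continuous_snd.comp continuous_subtype_val
    · simp only [hi, if_false]
      exact ih.comp (continuous_fst' (T.punc j (T.lvl L₀ j)))

lemma crd_fx_lt (L₀ : Lvl m (T.c 0)) (j : ℕ) (q : (T.lvl L₀ (j + 1)).X) (i : ℕ) (hi : i ≤ j) :
    T.crd L₀ (T.toBase L₀ (j + 1)) (T.fx L₀ (j + 1)) q i =
      T.crd L₀ (T.toBase L₀ j) (T.fx L₀ j) (q.1.1 : (T.lvl L₀ j).X) i := by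
  induction i with
  | zero => rfl
  | succ i ih =>
    have h1 : T.fx L₀ (j + 1) i q = T.fx L₀ j i q.1.1 := by
      change (if i = j then q.1.2 else T.fx L₀ j i q.1.1) = _
      rw [if_neg (by omega)]
    unfold crd
    rw [h1, ih (by omega)]

/-- the coordinates of a point of level `j` in terms of its base point and fibre coordinates -/
theorem crd_fx (L₀ : Lvl m (T.c 0)) (j : ℕ) (q : (T.lvl L₀ j).X) :
    T.crd L₀ (T.toBase L₀ j) (T.fx L₀ j) q j = cp q := by
  induction j with
  | zero => rfl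
  | succ j ih =>
    have h1 : T.fx L₀ (j + 1) j q = q.1.2 := by
      change (if j = j then q.1.2 else T.fx L₀ j j q.1.1) = _
      rw [if_pos rfl]
    unfold crd
    rw [h1, T.crd_fx_lt L₀ j q j le_rfl, ih]
    rfl

/-- on the level `j` all `c_i`, `i ≤ j`, are different from zero -/
theorem ne_zero_of_lvl (L₀ : Lvl m (T.c 0)) (j : ℕ) (q : (T.lvl L₀ j).X) (i : ℕ) (hi : i ≤ j) :
    MvPolynomial.eval (T.crd L₀ (T.toBase L₀ j) (T.fx L₀ j) q i) (T.c i) ≠ 0 := by
  induction j with
  | zero =>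
    obtain rfl : i = 0 := by omega
    exact L₀.hc q
  | succ j ih =>
    rcases Nat.lt_or_ge j i with h | h
    · obtain rfl : i = j + 1 := by omega
      rw [crd_fx]
      exact (T.lvl L₀ (j + 1)).hc q
    · rw [T.crd_fx_lt L₀ j q i h]
      exact ih q.1.1 h

end PTow

end Crest.Agent.R276.Tow2_244
end
private theorem rz_11334e8b43 : type_of% @_root_.Crest.Agent.R276.Tow2_244.PTow.crd.eq_def := @_root_.Crest.Agent.R276.Tow2_244.PTow.crd.eq_def -- L368
private theorem rz_37a3e6a433 : type_of% @_root_.Crest.Agent.R276.Tow2_244.PTow.fx.eq_def := @_root_.Crest.Agent.R276.Tow2_244.PTow.fx.eq_def -- L439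
private theorem rz_63d6c4d837 : type_of% @_root_.Crest.Agent.R276.Tow2_244.extC.eq_def := @_root_.Crest.Agent.R276.Tow2_244.extC.eq_def -- L81
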