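import Crest.Agent.R271.H3_51
import Crest.Agent.R276.Top8b_815
import Crest.Agent.R276.Tow2_244
import Crest.Agent.R276.Res_735

-- ▼ part R276/Perm_840
section

/-!
# Row 276, leaf IPC-PERM (helper840): the permutation local system of a finite covering

* `IsSC U` : schlicht convex open subsets of a Riemann domain; they are preconnected and (in a
  `T2` domain) stable under intersection;
* `Triv f U` : every point of `Y` over `U` lies on a section over `U`;
* `tp f x b` : transport of the point `b : Y` into the fibre over `x` (meaningful if `Adj f x (f b)`);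
* `pp f e x y : Equiv.Perm (Fin N)` : near-diagonal cocycle of permutations;
* `pm σ` : the permutation matrix; `P`-transport of functions on fibres.
-/

set_option autoImplicit false

noncomputable section

open Set Filter Topology
open Crest.Agent.R271.Ho51

namespace Crest.Agent.R276.Perm_840

/-! ### schlicht convex sets -/
section schlicht

variable {m : ℕ} {S : Type*} [TopologicalSpace S] [RDom m S]

/-- a schlicht convex open set of a Riemann domain -/
structure IsSC (U : Set S) : Prop where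
  isOpen : IsOpen U
  inj : InjOn (cp : S → (Fin m → ℂ)) U
  conv : Convex ℝ ((cp : S → (Fin m → ℂ)) '' U)

/-- the inverse of `cp` on `U` (with an arbitrary default value) -/
def sec (x0 : S) (U : Set S) : (Fin m → ℂ) → S :=
  haveI : Nonempty S := ⟨x0⟩
  Function.invFunOn (cp : S → (Fin m → ℂ)) U

lemma IsSC.sec_cp {U : Set S} (hU : IsSC U) (x0 : S) {u : S} (hu : u ∈ U) : sec x0 U (cp u) = u :=
  haveI : Nonempty S := ⟨x0⟩
  hU.inj.leftInvOn_invFunOn hu

lemma sec_mem {U : Set S} (x0 : S) {z : Fin m → ℂ} (hz : z ∈ (cp : S → (Fin m → ℂ)) '' U) :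
    sec x0 U z ∈ U :=
  haveI : Nonempty S := ⟨x0⟩
  Function.invFunOn_mem (by simpa using hz)

lemma cp_sec {U : Set S} (x0 : S) {z : Fin m → ℂ} (hz : z ∈ (cp : S → (Fin m → ℂ)) '' U) :
    cp (sec x0 U z) = z :=
  haveI : Nonempty S := ⟨x0⟩
  Function.invFunOn_eq (by simpa using hz)


lemma IsSC.continuousOn_sec {U : Set S} (hU : IsSC U) (x0 : S) :
    ContinuousOn (sec x0 U) ((cp : S → (Fin m → ℂ)) '' U) := by
  rintro z ⟨u, hu, rfl⟩
  apply ContinuousAt.continuousWithinAt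
  rw [ContinuousAt, hU.sec_cp x0 hu]
  intro V hV
  have h1 : (cp : S → (Fin m → ℂ)) '' (V ∩ U) ∈ 𝓝 (cp u) :=
    cp_lh.isOpenMap.image_mem_nhds (inter_mem hV (hU.isOpen.mem_nhds hu))
  refine Filter.mem_map.2 (mem_of_superset h1 ?_)
  rintro w ⟨v, ⟨hv1, hv2⟩, rfl⟩
  show sec x0 U (cp v) ∈ V
  rw [hU.sec_cp x0 hv2]
  exact hv1

lemma IsSC.isPreconnected {U : Set S} (hU : IsSC U) : IsPreconnected U := by
  rcases U.eq_empty_or_nonempty with rfl | ⟨x0, hx0⟩
  · exact isPreconnected_empty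
  have h1 : U = sec x0 U '' ((cp : S → (Fin m → ℂ)) '' U) := by
    ext u
    constructor
    · intro hu
      exact ⟨cp u, ⟨u, hu, rfl⟩, hU.sec_cp x0 hu⟩
    · rintro ⟨z, hz, rfl⟩
      exact sec_mem x0 hz
  rw [h1]
  exact hU.conv.isPreconnected.image _ (hU.continuousOn_sec x0)

lemma exists_isSC (x : S) {V : Set S} (hV : V ∈ 𝓝 x) : ∃ U : Set S, IsSC U ∧ x ∈ U ∧ U ⊆ V := by
  have he := isCh_ch x
  have hx := mem_ch x
  have h1 : (ch x).symm ⁻¹' V ∈ 𝓝 (cp x) := by
    have := (ch x).symm.continuousAt (x := cp x) (by simpa using he.cp_mem hx)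
    rw [ContinuousAt, he.symm_cp hx] at this
    exact this hV
  have h2 : (ch x).target ∩ (ch x).symm ⁻¹' V ∈ 𝓝 (cp x) :=
    inter_mem ((ch x).open_target.mem_nhds (he.cp_mem hx)) h1
  obtain ⟨r, hr, hball⟩ := Metric.mem_nhds_iff.1 h2
  refine ⟨(ch x).source ∩ cp ⁻¹' Metric.ball (cp x) r, ⟨?_, ?_, ?_⟩, ?_, ?_⟩
  · exact (ch x).open_source.inter (Metric.isOpen_ball.preimage cp_cont)
  · exact he.injOn.mono inter_subset_left
  · have : (cp : S → (Fin m → ℂ)) '' ((ch x).source ∩ cp ⁻¹' Metric.ball (cp x) r)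
        = Metric.ball (cp x) r := by
      ext z
      constructor
      · rintro ⟨u, ⟨_, hu⟩, rfl⟩
        exact hu
      · intro hz
        have hz2 := (hball hz).1
        exact ⟨(ch x).symm z, ⟨(ch x).map_target hz2, by
          simpa [he.cp_symm hz2] using hz⟩, he.cp_symm hz2⟩
    rw [this]
    exact convex_ball _ _
  · exact ⟨hx, Metric.mem_ball_self hr⟩
  · rintro u ⟨hu1, hu2⟩
    have := (hball hu2).2
    simpa [he.symm_cp hu1] using this

lemma IsSC.sec_eq [T2Space S] {U V : Set S} (hU : IsSC U) (hV : IsSC V) (x0 : S) {p : S}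
    (hpU : p ∈ U) (hpV : p ∈ V) {z : Fin m → ℂ} (hzU : z ∈ (cp : S → (Fin m → ℂ)) '' U)
    (hzV : z ∈ (cp : S → (Fin m → ℂ)) '' V) : sec x0 U z = sec x0 V z := by
  have hs : IsPreconnected (((cp : S → (Fin m → ℂ)) '' U) ∩ ((cp : S → (Fin m → ℂ)) '' V)) :=
    (hU.conv.inter hV.conv).isPreconnected
  have h := (T2Space.isSeparatedMap (cp : S → (Fin m → ℂ))).eqOn_of_comp_eqOn
    (cp_lh (M := S)).isLocallyInjective hs
    ((hU.continuousOn_sec x0).mono inter_subset_left)
    ((hV.continuousOn_sec x0).mono inter_subset_right)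
    (fun w hw => by simp [cp_sec x0 hw.1, cp_sec x0 hw.2])
    (a := cp p) ⟨⟨p, hpU, rfl⟩, ⟨p, hpV, rfl⟩⟩ (by rw [hU.sec_cp x0 hpU, hV.sec_cp x0 hpV])
  exact h ⟨hzU, hzV⟩

lemma IsSC.image_inter [T2Space S] {U V : Set S} (hU : IsSC U) (hV : IsSC V) {p : S}
    (hpU : p ∈ U) (hpV : p ∈ V) :
    (cp : S → (Fin m → ℂ)) '' (U ∩ V) = (cp : S → (Fin m → ℂ)) '' U ∩ (cp : S → (Fin m → ℂ)) '' V := by
  apply Subset.antisymm (image_inter_subset _ _ _)
  rintro z ⟨hzU, hzV⟩
  refine ⟨sec p U z, ⟨sec_mem p hzU, ?_⟩, cp_sec p hzU⟩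
  rw [hU.sec_eq hV p hpU hpV hzU hzV]
  exact sec_mem p hzV

lemma IsSC.inter [T2Space S] {U V : Set S} (hU : IsSC U) (hV : IsSC V) : IsSC (U ∩ V) := by
  refine ⟨hU.isOpen.inter hV.isOpen, hU.inj.mono inter_subset_left, ?_⟩
  rcases (U ∩ V).eq_empty_or_nonempty with h | ⟨p, hpU, hpV⟩
  · rw [h, image_empty]
    exact convex_empty
  · rw [hU.image_inter hV hpU hpV]
    exact hU.conv.inter hV.conv

end schlicht

/-! ### sections and transport -/
section transport

variable {m : ℕ} {S : Type*} [TopologicalSpace S] [RDom m S] [T2Space S]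
  {Y : Type*} [TopologicalSpace Y] {f : Y → S}

/-- `s` is a section of `f` over `U` -/
def IsSec (f : Y → S) (U : Set S) (s : S → Y) : Prop := ContinuousOn s U ∧ ∀ u ∈ U, f (s u) = u

/-- every point of `Y` over `U` lies on a section over `U` -/
def Triv (f : Y → S) (U : Set S) : Prop := ∀ y, f y ∈ U → ∃ s : S → Y, IsSec f U s ∧ s (f y) = y

omit [RDom m S] [T2Space S] in
lemma IsSec.mono {U V : Set S} {s : S → Y} (h : IsSec f V s) (hUV : U ⊆ V) : IsSec f U s :=
  ⟨h.1.mono hUV, fun u hu => h.2 u (hUV hu)⟩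

omit [RDom m S] [T2Space S] in
lemma Triv.mono {U V : Set S} (h : Triv f V) (hUV : U ⊆ V) : Triv f U := fun y hy => by
  obtain ⟨s, hs, h2⟩ := h y (hUV hy)
  exact ⟨s, hs.mono hUV, h2⟩

omit [RDom m S] [T2Space S] in
lemma exists_triv (hf : IsCoveringMap f) (x : S) : ∃ U : Set S, IsOpen U ∧ x ∈ U ∧ Triv f U := by
  obtain ⟨_, U, hxU, hU, hfU, H, hH⟩ := hf x
  refine ⟨U, hU, hxU, fun y hy => ?_⟩
  classical
  refine ⟨fun u => if h : u ∈ U then (H.symm (⟨u, h⟩, (H ⟨y, hy⟩).2)).1 else y, ⟨?_, ?_⟩, ?_⟩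
  · rw [continuousOn_iff_continuous_domRestrict]
    have : U.domRestrict (fun u => if h : u ∈ U then (H.symm (⟨u, h⟩, (H ⟨y, hy⟩).2)).1 else y)
        = fun u : U => (H.symm (u, (H ⟨y, hy⟩).2)).1 := by
      funext u
      simp [Set.domRestrict, u.2]
    rw [this]
    fun_prop
  · intro u hu
    have := hH (H.symm (⟨u, hu⟩, (H ⟨y, hy⟩).2))
    rw [H.apply_symm_apply] at this
    simp only [hu, dif_pos]
    exact this.symm
  · have h1 : (⟨f y, hy⟩ : U) = (H ⟨y, hy⟩).1 := Subtype.ext (hH ⟨y, hy⟩).symm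
    have hy' : f y ∈ U := hy
    simp only [hy', dif_pos]
    rw [h1]
    have : ((H ⟨y, hy⟩).1, (H ⟨y, hy⟩).2) = H ⟨y, hy⟩ := rfl
    rw [this, H.symm_apply_apply]

/-- good sets -/
structure Good (f : Y → S) (U : Set S) : Prop where
  sc : IsSC U
  triv : Triv f U

lemma Good.inter {U V : Set S} (hU : Good f U) (hV : Good f V) : Good f (U ∩ V) :=
  ⟨hU.sc.inter hV.sc, hU.triv.mono inter_subset_left⟩

omit [T2Space S] in
lemma exists_good (hf : IsCoveringMap f) (x : S) {V : Set S} (hV : V ∈ 𝓝 x) :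
    ∃ U : Set S, Good f U ∧ x ∈ U ∧ U ⊆ V := by
  obtain ⟨W, hW, hxW, hT⟩ := exists_triv hf x
  obtain ⟨U, hU, hxU, hUV⟩ := exists_isSC x (inter_mem hV (hW.mem_nhds hxW))
  exact ⟨U, ⟨hU, hT.mono (hUV.trans inter_subset_right)⟩, hxU, hUV.trans inter_subset_left⟩

omit [RDom m S] [T2Space S] in
/-- uniqueness of sections -/
lemma IsSec.eq (hf : IsCoveringMap f) {U : Set S} (hU : IsPreconnected U) {s t : S → Y}
    (hs : IsSec f U s) (ht : IsSec f U t) {a : S} (ha : a ∈ U) (h : s a = t a) {u : S}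
    (hu : u ∈ U) : s u = t u :=
  hf.eqOn_of_comp_eqOn hU hs.1 ht.1 (fun w hw => by simp [hs.2 w hw, ht.2 w hw]) ha h hu

/-- `x` and `y` lie in a common good set -/
def Adj (f : Y → S) (x y : S) : Prop := ∃ U : Set S, Good f U ∧ x ∈ U ∧ y ∈ U

omit [T2Space S] in
lemma Adj.symm {x y : S} (h : Adj f x y) : Adj f y x := by
  obtain ⟨U, hU, hx, hy⟩ := h
  exact ⟨U, hU, hy, hx⟩

omit [T2Space S] in
lemma Adj.refl (hf : IsCoveringMap f) (x : S) : Adj f x x := by
  obtain ⟨U, hU, hx, _⟩ := exists_good hf x univ_mem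
  exact ⟨U, hU, hx, hx⟩

omit [T2Space S] in
lemma exists_tp {x : S} {b : Y} (h : Adj f x (f b)) :
    ∃ c : Y, ∃ (U : Set S) (s : S → Y), Good f U ∧ x ∈ U ∧ f b ∈ U ∧ IsSec f U s ∧ s (f b) = b ∧
      s x = c := by
  obtain ⟨U, hU, hx, hy⟩ := h
  obtain ⟨s, hs, h2⟩ := hU.triv b hy
  exact ⟨s x, U, s, hU, hx, hy, hs, h2, rfl⟩

open Classical in
/-- transport of `b` into the fibre over `x` -/
def tp (f : Y → S) (x : S) (b : Y) : Y := if h : Adj f x (f b) then (exists_tp h).choose else b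

lemma tp_eq (hf : IsCoveringMap f) {U : Set S} (hU : Good f U) {x : S} {b : Y} (hx : x ∈ U)
    (hb : f b ∈ U) {s : S → Y} (hs : IsSec f U s) (h : s (f b) = b) : tp f x b = s x := by
  have hA : Adj f x (f b) := ⟨U, hU, hx, hb⟩
  rw [tp, dif_pos hA]
  obtain ⟨V, t, hV, hxV, hbV, ht, h2, h3⟩ := (exists_tp hA).choose_spec
  rw [← h3]
  exact IsSec.eq hf (hV.inter hU).sc.isPreconnected (ht.mono inter_subset_left)
    (hs.mono inter_subset_right) (a := f b) ⟨hbV, hb⟩ (by rw [h2, h]) ⟨hxV, hx⟩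

lemma f_tp (hf : IsCoveringMap f) {x : S} {b : Y} (h : Adj f x (f b)) : f (tp f x b) = x := by
  obtain ⟨U, hU, hx, hb⟩ := h
  obtain ⟨s, hs, h2⟩ := hU.triv b hb
  rw [tp_eq hf hU hx hb hs h2, hs.2 x hx]

lemma tp_self (hf : IsCoveringMap f) (b : Y) : tp f (f b) b = b := by
  obtain ⟨U, hU, hx, _⟩ := exists_good hf (f b) univ_mem
  obtain ⟨s, hs, h2⟩ := hU.triv b hx
  rw [tp_eq hf hU hx hx hs h2, h2]

lemma tp_self' (hf : IsCoveringMap f) {x : S} {b : Y} (h : f b = x) : tp f x b = b := by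
  subst h
  exact tp_self hf b

lemma tp_tp (hf : IsCoveringMap f) {U : Set S} (hU : Good f U) {x y : S} {b : Y} (hx : x ∈ U)
    (hy : y ∈ U) (hb : f b ∈ U) : tp f x (tp f y b) = tp f x b := by
  obtain ⟨s, hs, h2⟩ := hU.triv b hb
  have h3 := tp_eq hf hU hy hb hs h2
  have h4 : f (s y) = y := hs.2 y hy
  rw [h3, tp_eq hf hU hx hb hs h2, tp_eq hf hU hx (by rw [h4]; exact hy) hs (by rw [h4])]

/-- `u ↦ tp f u b` is a section over a good set -/
lemma isSec_tp (hf : IsCoveringMap f) {U : Set S} (hU : Good f U) {b : Y} (hb : f b ∈ U) :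
    IsSec f U (fun u => tp f u b) := by
  obtain ⟨s, hs, h2⟩ := hU.triv b hb
  refine ⟨hs.1.congr fun u hu => tp_eq hf hU hu hb hs h2, fun u hu => ?_⟩
  exact f_tp hf ⟨U, hU, hu, hb⟩

/-- transport commutes with fibre preserving continuous maps -/
lemma tp_map (hf : IsCoveringMap f) {g : Y → Y} (hg : Continuous g) (hfg : ∀ y, f (g y) = f y)
    {x : S} {b : Y} (h : Adj f x (f b)) : tp f x (g b) = g (tp f x b) := by
  obtain ⟨U, hU, hx, hb⟩ := h
  obtain ⟨s, hs, h2⟩ := hU.triv b hb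
  rw [tp_eq hf hU hx hb hs h2]
  have hs' : IsSec f U (fun u => g (s u)) :=
    ⟨hg.comp_continuousOn hs.1, fun u hu => by rw [hfg, hs.2 u hu]⟩
  exact tp_eq hf hU hx (by rw [hfg]; exact hb) hs' (by rw [hfg, h2])


/-- transport between fibres -/
def tpE (hf : IsCoveringMap f) {x y : S} (h : Adj f x y) : f ⁻¹' {y} ≃ f ⁻¹' {x} where
  toFun a := ⟨tp f x a, f_tp hf (by rw [show f a = y from a.2]; exact h)⟩
  invFun a := ⟨tp f y a, f_tp hf (by rw [show f a = x from a.2]; exact h.symm)⟩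
  left_inv a := by
    obtain ⟨U, hU, hx, hy⟩ := h
    have ha : f a = y := a.2
    apply Subtype.ext
    show tp f y (tp f x a) = a
    rw [tp_tp hf hU hy hx (by rw [ha]; exact hy), tp_self' hf ha]
  right_inv a := by
    obtain ⟨U, hU, hx, hy⟩ := h
    have ha : f a = x := a.2
    apply Subtype.ext
    show tp f x (tp f y a) = a
    rw [tp_tp hf hU hx hy (by rw [ha]; exact hx), tp_self' hf ha]

end transport

/-! ### the permutation cocycle -/
section cocycle

variable {m : ℕ} {S : Type*} [TopologicalSpace S] [RDom m S] [T2Space S]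
  {Y : Type*} [TopologicalSpace Y] {f : Y → S} {N : ℕ}

open Classical in
/-- the permutation describing the transport from the fibre over `y` to the fibre over `x` -/
def pp (hf : IsCoveringMap f) (e : ∀ s : S, Fin N ≃ f ⁻¹' {s}) (x y : S) : Equiv.Perm (Fin N) :=
  if h : Adj f x y then ((e y).trans (tpE hf h)).trans (e x).symm else 1

lemma e_pp (hf : IsCoveringMap f) (e : ∀ s : S, Fin N ≃ f ⁻¹' {s}) {x y : S} (h : Adj f x y)
    (i : Fin N) : (e x (pp hf e x y i) : Y) = tp f x (e y i) := by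
  rw [pp, dif_pos h]
  simp [tpE]

lemma e_pp_inv (hf : IsCoveringMap f) (e : ∀ s : S, Fin N ≃ f ⁻¹' {s}) {x y : S} (h : Adj f x y)
    (i : Fin N) : (e y ((pp hf e x y)⁻¹ i) : Y) = tp f y (e x i) := by
  have h1 := e_pp hf e h ((pp hf e x y)⁻¹ i)
  have h0 : (pp hf e x y) ((pp hf e x y)⁻¹ i) = i := by simp
  rw [h0] at h1
  rw [h1]
  obtain ⟨U, hU, hx, hy⟩ := h
  have h2 : f (e y ((pp hf e x y)⁻¹ i)) = y := (e y ((pp hf e x y)⁻¹ i)).2
  rw [tp_tp hf hU hy hx (by rw [h2]; exact hy), tp_self' hf h2]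

/-- near-diagonal cocycle property -/
theorem pp_cocycle (hf : IsCoveringMap f) (e : ∀ s : S, Fin N ≃ f ⁻¹' {s}) (z : S) :
    ∃ U ∈ 𝓝 z, ∀ x ∈ U, ∀ y ∈ U, ∀ w ∈ U,
      pp hf e x y * pp hf e y w = pp hf e x w := by
  obtain ⟨U, hU, hz, _⟩ := exists_good hf z univ_mem
  refine ⟨U, hU.sc.isOpen.mem_nhds hz, fun x hx y hy w hw => ?_⟩
  ext i
  congr 1
  apply (e x).injective
  apply Subtype.ext
  have h1 : Adj f x y := ⟨U, hU, hx, hy⟩
  have h2 : Adj f y w := ⟨U, hU, hy, hw⟩
  have h3 : Adj f x w := ⟨U, hU, hx, hw⟩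
  have h4 : f (e w i) = w := (e w i).2
  show (e x (pp hf e x y (pp hf e y w i)) : Y) = _
  rw [e_pp hf e h1, e_pp hf e h2, e_pp hf e h3, tp_tp hf hU hx hy (by rw [h4]; exact hw)]


omit [T2Space S] in
/-- adjacency holds near the diagonal -/
lemma adj_nhds (hf : IsCoveringMap f) (z : S) : ∃ U ∈ 𝓝 z, ∀ x ∈ U, ∀ y ∈ U, Adj f x y := by
  obtain ⟨U, hU, hz, _⟩ := exists_good hf z univ_mem
  exact ⟨U, hU.sc.isOpen.mem_nhds hz, fun x hx y hy => ⟨U, hU, hx, hy⟩⟩

/-- the permutation induced by a fibre preserving bijection -/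
def ag (e : ∀ s : S, Fin N ≃ f ⁻¹' {s}) (g : Y ≃ Y) (hfg : ∀ y, f (g y) = f y) (x : S) :
    Equiv.Perm (Fin N) where
  toFun i := (e x).symm ⟨g (e x i), by rw [mem_preimage, hfg]; exact (e x i).2⟩
  invFun i := (e x).symm ⟨g.symm (e x i), by
    rw [mem_preimage, ← hfg, g.apply_symm_apply]; exact (e x i).2⟩
  left_inv i := by simp
  right_inv i := by simp

omit [TopologicalSpace S] [RDom m S] [T2Space S] [TopologicalSpace Y] in
lemma e_ag (e : ∀ s : S, Fin N ≃ f ⁻¹' {s}) (g : Y ≃ Y) (hfg : ∀ y, f (g y) = f y) (x : S)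
    (i : Fin N) : (e x (ag e g hfg x i) : Y) = g (e x i) := by
  simp [ag]

omit [TopologicalSpace S] [RDom m S] [T2Space S] [TopologicalSpace Y] in
lemma ag_mul (e : ∀ s : S, Fin N ≃ f ⁻¹' {s}) (g g' : Y ≃ Y) (hfg : ∀ y, f (g y) = f y)
    (hfg' : ∀ y, f (g' y) = f y) (x : S) :
    ag e (g'.trans g) (fun y => by simp [hfg, hfg']) x = ag e g hfg x * ag e g' hfg' x := by
  ext i
  congr 1
  apply (e x).injective
  apply Subtype.ext
  rw [e_ag]
  show _ = (e x (ag e g hfg x (ag e g' hfg' x i)) : Y)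
  rw [e_ag, e_ag]
  rfl

/-- the group action commutes with transport near the diagonal -/
lemma ag_pp (hf : IsCoveringMap f) (e : ∀ s : S, Fin N ≃ f ⁻¹' {s}) (g : Y ≃ Y)
    (hg : Continuous g) (hfg : ∀ y, f (g y) = f y) {x y : S} (h : Adj f x y) :
    ag e g hfg x * pp hf e x y = pp hf e x y * ag e g hfg y := by
  ext i
  congr 1
  apply (e x).injective
  apply Subtype.ext
  show (e x (ag e g hfg x (pp hf e x y i)) : Y) = (e x (pp hf e x y (ag e g hfg y i)) : Y)
  rw [e_ag, e_pp hf e h, e_pp hf e h, e_ag, tp_map hf hg hfg]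
  rw [show f (e y i) = y from (e y i).2]
  exact h

end cocycle

/-! ### permutation matrices -/
section matrices

variable {N : ℕ} (R : Type*) [CommRing R]

/-- the permutation matrix with `(pm σ *ᵥ v) (σ i) = v i` -/
def pm (σ : Equiv.Perm (Fin N)) : Matrix (Fin N) (Fin N) R :=
  Matrix.of fun i j => if i = σ j then 1 else 0

variable {R}

lemma pm_apply (σ : Equiv.Perm (Fin N)) (i j : Fin N) : pm R σ i j = if i = σ j then 1 else 0 := rfl

@[simp] lemma pm_one : pm R (1 : Equiv.Perm (Fin N)) = 1 := by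
  ext i j
  by_cases h : i = j
  · subst h
    rw [Matrix.one_apply_eq, pm_apply]
    simp
  · rw [Matrix.one_apply_ne h, pm_apply]
    simp [h]

lemma pm_mul (σ τ : Equiv.Perm (Fin N)) : pm R (σ * τ) = pm R σ * pm R τ := by
  ext i j
  rw [Matrix.mul_apply, Finset.sum_eq_single (τ j)]
  · by_cases h : i = σ (τ j) <;> simp [pm_apply, h]
  · intro b _ hb
    simp [pm_apply, hb]
  · simp

lemma pm_mulVec (σ : Equiv.Perm (Fin N)) (v : Fin N → R) (i : Fin N) :
    (pm R σ).mulVec v i = v (σ⁻¹ i) := by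
  simp only [Matrix.mulVec, dotProduct, pm_apply]
  rw [Finset.sum_eq_single (σ⁻¹ i)]
  · simp
  · intro b _ hb
    have : i ≠ σ b := by
      rintro rfl
      simp at hb
    simp [this]
  · simp

lemma pm_transpose (σ : Equiv.Perm (Fin N)) : (pm R σ).transpose = pm R σ⁻¹ := by
  ext i j
  simp only [Matrix.transpose_apply, pm_apply]
  congr 1
  rw [eq_iff_iff]
  constructor
  · rintro rfl; simp
  · rintro rfl; simp


lemma pm_conjTranspose [StarRing R] (σ : Equiv.Perm (Fin N)) :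
    (pm R σ).conjTranspose = pm R σ⁻¹ := by
  rw [Matrix.conjTranspose, pm_transpose]
  ext i j
  simp only [Matrix.map_apply, pm_apply]
  split_ifs <;> simp

lemma pm_conjTranspose_mul [StarRing R] (σ : Equiv.Perm (Fin N)) :
    (pm R σ).conjTranspose * pm R σ = 1 := by
  rw [pm_conjTranspose, ← pm_mul]
  simp

/-- permutation matrices as a homomorphism into the units -/
def pmU : Equiv.Perm (Fin N) →* (Matrix (Fin N) (Fin N) R)ˣ where
  toFun σ := ⟨pm R σ, pm R σ⁻¹, by rw [← pm_mul]; simp, by rw [← pm_mul]; simp⟩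
  map_one' := by ext1; simp
  map_mul' σ τ := by ext1; simp [pm_mul]

@[simp] lemma coe_pmU (σ : Equiv.Perm (Fin N)) :
    ((pmU σ : (Matrix (Fin N) (Fin N) R)ˣ) : Matrix (Fin N) (Fin N) R) = pm R σ := rfl

lemma pm_map {R' : Type*} [CommRing R'] (φ : R →+* R') (σ : Equiv.Perm (Fin N)) :
    (pm R σ).map φ = pm R' σ := by
  ext i j
  simp only [Matrix.map_apply, pm_apply]
  split_ifs <;> simp

end matrices

end Crest.Agent.R276.Perm_840
end
end

-- ▼ part R276/PermV_840
section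

/-!
# Row 276, leaf IPC-PERM (helper840), part 2: the weight `0` variation of a finite covering

`permVHS`, `permAct`, `permF`, `permI` and the theorems `rz_perm`, `rzAct_perm`: the base case of the
iteration (`d = 0`) in the interface of `IpcDefs_735` and `Top8b_815`.
-/

set_option autoImplicit false

noncomputable section

open Set Filter Topology MeasureTheory Matrix
open Crest.Agent.R271.Ho51 Crest.Agent.R276.Ipc735 Crest.Agent.R276.Top8_815
open scoped ENNReal

namespace Crest.Agent.R276.Perm_840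

/-- permutation matrices in `GL_N(ℤ)` -/
def pg {N : ℕ} : Equiv.Perm (Fin N) →* GL (Fin N) ℤ := pmU

lemma cm_pg {N : ℕ} (σ : Equiv.Perm (Fin N)) : cm (pg σ) = pm ℂ σ := by
  have := pm_map (R := ℤ) (Int.castRingHom ℂ) σ
  rw [← this]
  rfl

lemma weil_zero {N : ℕ} : weil 0 (0 : Matrix (Fin N) (Fin N) ℂ) = 1 := by
  simp [weil, hpr]

lemma hodge_zero {N : ℕ} : hodge 0 (1 : Matrix (Fin N) (Fin N) ℂ) 0 = 1 := by
  rw [hodge, weil_zero, one_mul]

lemma isHS_zero {N : ℕ} : IsHS 0 (1 : Matrix (Fin N) (Fin N) ℂ) 0 where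
  herm := Matrix.isHermitian_one
  adj := by simp
  eig := by simp
  pos := by
    intro p v hp hv _
    obtain rfl : p = 0 := Nat.le_zero.1 hp
    rw [pow_zero, one_mul, Matrix.one_mulVec]
    have h1 : (star v ⬝ᵥ v).re = ∑ i, ‖v i‖ ^ 2 := by
      rw [dotProduct, Complex.re_sum]
      refine Finset.sum_congr rfl fun i _ => ?_
      rw [Pi.star_apply, Complex.star_def, mul_comm, Complex.mul_conj, Complex.ofReal_re,
        Complex.normSq_eq_norm_sq]
    rw [h1]
    obtain ⟨i, hi⟩ := Function.ne_iff.1 hv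
    have h2 : 0 < ‖v i‖ ^ 2 := by
      have : 0 < ‖v i‖ := norm_pos_iff.2 hi
      positivity
    exact Finset.sum_pos' (fun j _ => by positivity) ⟨i, Finset.mem_univ _, h2⟩

section

variable {m : ℕ} {X : Type*} [TopologicalSpace X] [RDom m X] [T2Space X]
  {Y : Type*} [TopologicalSpace Y] {f : Y → X} {N : ℕ}

/-- the weight `0` variation attached to a finite covering -/
def permVHS (hf : IsCoveringMap f) (e : ∀ s : X, Fin N ≃ f ⁻¹' {s}) : VHS m X N 0 where
  P x y := pg (pp hf e x y)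
  S _ := 1
  E _ := 0
  ndc z := by
    obtain ⟨U, hU, h⟩ := pp_cocycle hf e z
    refine ⟨U, hU, fun x hx y hy w hw => ?_⟩
    rw [← map_mul, h x hx y hy w hw]
  hs _ := isHS_zero
  flatS z := Eventually.of_forall fun y => by
    rw [cm_pg, mul_one, pm_conjTranspose_mul]
  smE z i k := by
    have : (fun y : X => lM (fun x y => pg (pp hf e x y))
        (fun _ => (0 : Matrix (Fin N) (Fin N) ℂ)) z y i k) = fun _ => 0 := by
      funext y
      simp [lM]
    rw [this]
    exact contDiffAt_const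
  tr z j := by
    have : dM (fun x y => pg (pp hf e x y)) (fun _ => (0 : Matrix (Fin N) (Fin N) ℂ)) j z = 0 := by
      ext i k
      have h0 : (fun y : X => lM (fun x y => pg (pp hf e x y))
          (fun _ => (0 : Matrix (Fin N) (Fin N) ℂ)) z y i k) = fun _ => (0 : ℂ) := by
        funext y
        simp [lM]
      simp only [dM, Matrix.of_apply, Matrix.zero_apply]
      rw [h0, dz_const]
    rw [this]
    simp

@[simp] lemma permVHS_E (hf : IsCoveringMap f) (e : ∀ s : X, Fin N ≃ f ⁻¹' {s}) (x : X) :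
    (permVHS hf e).E x = 0 := rfl

@[simp] lemma permVHS_S (hf : IsCoveringMap f) (e : ∀ s : X, Fin N ≃ f ⁻¹' {s}) (x : X) :
    (permVHS hf e).S x = 1 := rfl

lemma permVHS_P (hf : IsCoveringMap f) (e : ∀ s : X, Fin N ≃ f ⁻¹' {s}) (x y : X) :
    (permVHS hf e).P x y = pg (pp hf e x y) := rfl

/-- every vector is in the top piece -/
lemma isTop_perm (hf : IsCoveringMap f) (e : ∀ s : X, Fin N ≃ f ⁻¹' {s}) (x : X)
    (v : Fin N → ℂ) : Top8_815.IsTop 0 ((permVHS hf e).E x) v := by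
  show (0 : Matrix (Fin N) (Fin N) ℂ) *ᵥ v = ((0 : ℕ) : ℂ) • v
  simp

/-- the action of a group of automorphisms of the covering -/
def permAct (hf : IsCoveringMap f) (e : ∀ s : X, Fin N ≃ f ⁻¹' {s}) {Γ : Type} [Group Γ]
    (α : Γ →* Equiv.Perm Y) (hα : ∀ g, Continuous (α g)) (hfα : ∀ g y, f (α g y) = f y) :
    Act (permVHS hf e) Γ where
  ρ g x := pg (ag e (α g) (hfα g) x)
  mul g h x := by
    rw [← map_mul, ← ag_mul]
    congr 2
    ext i
    simp
  flat g z := by
    obtain ⟨U, hU, h⟩ := adj_nhds hf z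
    filter_upwards [hU] with y hy
    rw [permVHS_P, ← map_mul, ← map_mul]
    congr 1
    exact (ag_pp hf e (α g) (hα g) (hfα g) (h z (mem_of_mem_nhds hU) y hy)).symm
  commE g x := by simp
  presS g x := by
    rw [cm_pg, permVHS_S, mul_one, pm_conjTranspose_mul]

/-- `Y` as a space fibred over `X` with fibre dimension `0` -/
def permF (hf : IsCoveringMap f) : FSp m 0 X Y where
  q := f
  t := fun _ => Fin.elim0
  lh := by
    have h2 := (Homeomorph.prodUnique X (Fin 0 → ℂ)).symm.isLocalHomeomorph.comp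
      hf.isLocalHomeomorph
    have h3 : (fun y => (f y, (Fin.elim0 : Fin 0 → ℂ)))
        = ⇑(Homeomorph.prodUnique X (Fin 0 → ℂ)).symm ∘ f := by
      funext y
      exact Prod.ext rfl (Subsingleton.elim _ _)
    rw [h3]
    exact h2

omit [T2Space X] in
@[simp] lemma permF_q (hf : IsCoveringMap f) : (permF (m := m) hf).q = f := rfl

open Classical in
/-- the realisation map -/
def permI (f : Y → X) (e : ∀ s : X, Fin N ≃ f ⁻¹' {s}) (u : X) (v : Fin N → ℂ) (y : Y) : ℂ :=
  if h : f y = u then v ((e u).symm ⟨y, h⟩) else 0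

omit [TopologicalSpace X] [RDom m X] [T2Space X] [TopologicalSpace Y] in
lemma permI_of {e : ∀ s : X, Fin N ≃ f ⁻¹' {s}} {u : X} {v : Fin N → ℂ} {y : Y} (h : f y = u) :
    permI f e u v y = v ((e u).symm ⟨y, h⟩) := dif_pos h

omit [TopologicalSpace X] [RDom m X] [T2Space X] [TopologicalSpace Y] in
lemma permI_self {e : ∀ s : X, Fin N ≃ f ⁻¹' {s}} {u : X} {v : Fin N → ℂ} (i : Fin N) :
    permI f e u v (e u i) = v i := by
  rw [permI_of (e u i).2]
  simp

/-- the transported section, component by component -/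
lemma lV_perm (hf : IsCoveringMap f) (e : ∀ s : X, Fin N ≃ f ⁻¹' {s}) (v : X → Fin N → ℂ)
    {z x : X} (h : Adj f z x) (i : Fin N) :
    lV (permVHS hf e).P v z x i = permI f e x (v x) (tp f x (e z i)) := by
  have h2 : (tp f x (e z i) : Y) = e x ((pp hf e z x)⁻¹ i) := (e_pp_inv hf e h i).symm
  rw [h2, permI_self, lV, permVHS_P, cm_pg, pm_mulVec]

/-- near `y` the points are obtained by transport from `y` -/
lemma tp_near (hf : IsCoveringMap f) (y : Y) : ∀ᶠ y' in 𝓝 y, tp f (f y') y = y' := by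
  obtain ⟨U, hU, hy, _⟩ := exists_good hf (f y) univ_mem
  have hs := isSec_tp hf hU hy
  obtain ⟨e, hye, he⟩ := hf.isLocalHomeomorph y
  have h1 : ContinuousAt (fun u => tp f u y) (f y) :=
    hs.1.continuousAt (hU.sc.isOpen.mem_nhds hy)
  have h2 : ∀ᶠ u in 𝓝 (f y), tp f u y ∈ e.source := by
    apply h1.eventually_mem
    rw [tp_self hf]
    exact e.open_source.mem_nhds hye
  have h3 : ∀ᶠ u in 𝓝 (f y), u ∈ U := hU.sc.isOpen.mem_nhds hy
  have h4 := hf.continuous.continuousAt.eventually (h2.and h3)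
  filter_upwards [h4, e.open_source.mem_nhds hye] with y' hy' hy's
  apply e.injOn hy'.1 hy's
  rw [← he]
  exact hs.2 _ hy'.2

omit [T2Space X] in
/-- the sum over the fibre -/
lemma fint_perm (hf : IsCoveringMap f) (e : ∀ s : X, Fin N ≃ f ⁻¹' {s}) (u : X) (g : Y → ℝ≥0∞) :
    (permF (m := m) hf).fint u g = ∑ i, g (e u i) := by
  rw [FSp.fint]
  have h1 : (volume : Measure (Fin 0 → ℂ)) = Measure.dirac default := by
    rw [volume_pi, Measure.pi_of_empty _ default]
  rw [h1, lintegral_dirac]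
  let E : Fin N ≃ {y : Y // (permF (m := m) hf).q y = u ∧ (permF (m := m) hf).t y = default} :=
    (e u).trans ((Equiv.refl Y).subtypeEquiv (fun y => by
      constructor
      · intro h
        exact ⟨h, Subsingleton.elim _ _⟩
      · intro h
        exact h.1))
  rw [← E.tsum_eq, tsum_fintype]
  rfl

lemma hnsq_perm (hf : IsCoveringMap f) (e : ∀ s : X, Fin N ≃ f ⁻¹' {s}) (u : X)
    (v : Fin N → ℂ) : hnsq (permVHS hf e) u v = ∑ i, ‖v i‖ ^ 2 := by
  rw [hnsq, permVHS_S, permVHS_E, hodge_zero, Matrix.one_mulVec, dotProduct, Complex.re_sum]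
  refine Finset.sum_congr rfl fun i _ => ?_
  rw [Pi.star_apply, Complex.star_def, mul_comm, Complex.mul_conj, Complex.ofReal_re,
    Complex.normSq_eq_norm_sq]

/-- **Base case**: realisation of the permutation local system. -/
theorem rz_perm (hf : IsCoveringMap f) (e : ∀ s : X, Fin N ≃ f ⁻¹' {s}) :
    Rz (permVHS hf e) (permF (m := m) hf) (permI f e) where
  add u v v' _ _ y hy := by
    have hy' : f y = u := hy
    rw [permI_of hy', permI_of hy', permI_of hy']
    rfl
  smul u c v _ y hy := by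
    have hy' : f y = u := hy
    rw [permI_of hy', permI_of hy']
    rfl
  hol u v _ y hy := by
    have hy' : f y = u := hy
    refine ⟨fun _ => permI f e u v y, analyticAt_const, ?_⟩
    filter_upwards [tp_near (m := m) hf y] with y' h1 h2
    have h3 : f y' = u := h2
    have h4 : y' = y := by
      rw [← h1, h3, ← hy', tp_self hf]
    rw [h4]
  norm u v _ := by
    rw [FSp.fnorm, fint_perm hf e, hnsq_perm, ENNReal.ofReal_sum_of_nonneg (fun _ _ => by positivity)]
    refine Finset.sum_congr rfl fun i _ => ?_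
    rw [permI_self, ENNReal.ofReal_pow (norm_nonneg _), ofReal_norm]
  surj u g _ _ := by
    refine ⟨fun i => g (e u i), isTop_perm hf e u _, fun y hy => ?_⟩
    have hy' : f y = u := hy
    rw [permI_of hy']
    simp
  hol1 u₀ v hv _ y hy := by
    have hy' : f y = u₀ := hy
    subst hy'
    set i := (e (f y)).symm ⟨y, rfl⟩ with hi
    have hei : (e (f y) i : Y) = y := by simp [hi]
    refine ⟨fun p => (lV (permVHS hf e).P v (f y) ∘ (ch (f y)).symm) p.1 i, ?_, ?_⟩
    · have h1 : AnalyticAt ℂ (lV (permVHS hf e).P v (f y) ∘ (ch (f y)).symm) (cp (f y)) := hv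
      have h2 := (analyticAt_pi_iff.1 h1) i
      exact h2.comp_of_eq analyticAt_fst rfl
    · obtain ⟨U, hU, hadj⟩ := adj_nhds (m := m) hf (f y)
      have h3 := hf.continuous.continuousAt.eventually (show ∀ᶠ x in 𝓝 (f y), x ∈ U from hU)
      have h4 : ∀ᶠ y' in 𝓝 y, f y' ∈ (ch (f y)).source :=
        hf.continuous.continuousAt.eventually ((ch (f y)).open_source.mem_nhds (mem_ch (f y)))
      filter_upwards [tp_near (m := m) hf y, h3, h4] with y' h5 h6 h7
      show permI f e (f y') (v (f y')) y' = (lV (permVHS hf e).P v (f y)) ((ch (f y)).symm (cp (f y'))) i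
      rw [(isCh_ch (f y)).symm_cp h7, lV_perm hf e v (hadj _ (mem_of_mem_nhds hU) _ h6), hei, h5]
  hol2 u₀ v _ hv := by
    have hv0 := hv.self_of_nhds
    show AnalyticAt ℂ (lV (permVHS hf e).P v u₀ ∘ (ch u₀).symm) (cp u₀)
    rw [analyticAt_pi_iff]
    intro i
    have hy : f (e u₀ i) = u₀ := (e u₀ i).2
    obtain ⟨g, hg, h1⟩ := hv0 (e u₀ i) hy
    have hpc : (permF (m := m) hf).pc (e u₀ i : Y) = (cp u₀, default) := by
      show (cp (f (e u₀ i)), _) = (cp u₀, default)
      rw [hy]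
      congr 1
      exact Subsingleton.elim _ _
    rw [hpc] at hg
    have h2 : AnalyticAt ℂ (fun z : Fin m → ℂ => g (z, default)) (cp u₀) :=
      hg.comp_of_eq (analyticAt_id.prod analyticAt_const) rfl
    refine h2.congr ?_
    -- transport of the point
    obtain ⟨U, hU, hu0, _⟩ := exists_good hf u₀ univ_mem
    have hb : f (e u₀ i : Y) ∈ U := by rw [hy]; exact hu0
    have hs := isSec_tp hf hU hb
    have h3 : ContinuousAt (fun u => tp f u (e u₀ i : Y)) u₀ :=
      hs.1.continuousAt (hU.sc.isOpen.mem_nhds hu0)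
    have h4 : ∀ᶠ x in 𝓝 u₀, permI f e (f (tp f x (e u₀ i : Y))) (v (f (tp f x (e u₀ i : Y))))
        (tp f x (e u₀ i : Y)) = g ((permF (m := m) hf).pc (tp f x (e u₀ i : Y))) := by
      have : tp f u₀ (e u₀ i : Y) = e u₀ i := tp_self' hf hy
      have h5 : Tendsto (fun u => tp f u (e u₀ i : Y)) (𝓝 u₀) (𝓝 (e u₀ i : Y)) := by
        have h6 := h3.tendsto
        rwa [this] at h6
      exact h5.eventually h1
    have h7 : ∀ᶠ x in 𝓝 u₀, x ∈ U := hU.sc.isOpen.mem_nhds hu0
    have h8 : Tendsto (ch u₀).symm (𝓝 (cp u₀)) (𝓝 u₀) := by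
      have := (ch u₀).symm.continuousAt (x := cp u₀) (by simpa using (isCh_ch u₀).cp_mem (mem_ch u₀))
      rwa [ContinuousAt, (isCh_ch u₀).symm_cp (mem_ch u₀)] at this
    have h9 : ∀ᶠ z in 𝓝 (cp u₀), z ∈ (ch u₀).target :=
      (ch u₀).open_target.mem_nhds ((isCh_ch u₀).cp_mem (mem_ch u₀))
    filter_upwards [h8.eventually (h4.and h7), h9] with z hz hzt
    obtain ⟨hz1, hz2⟩ := hz
    set x := (ch u₀).symm z with hx
    have h10 : f (tp f x (e u₀ i : Y)) = x := hs.2 x hz2
    have h11 : cp x = z := (isCh_ch u₀).cp_symm hzt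
    have h12 : (permF (m := m) hf).pc (tp f x (e u₀ i : Y)) = (z, default) := by
      show (cp (f (tp f x (e u₀ i : Y))), _) = _
      rw [h10, h11]
      congr 1
      exact Subsingleton.elim _ _
    rw [h10, h12] at hz1
    show g (z, default) = lV (permVHS hf e).P v u₀ x i
    rw [lV_perm hf e v ⟨U, hU, hu0, hz2⟩, hz1]

/-- compatibility with the group action -/
theorem rzAct_perm (hf : IsCoveringMap f) (e : ∀ s : X, Fin N ≃ f ⁻¹' {s}) {Γ : Type} [Group Γ]
    (α : Γ →* Equiv.Perm Y) (hα : ∀ g, Continuous (α g)) (hfα : ∀ g y, f (α g y) = f y) :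
    RzAct (permAct (m := m) hf e α hα hfα) (permF (m := m) hf) (permI f e) (fun g => α g) where
  q g y := hfα g y
  t g y := rfl
  eqv g u v _ y hy := by
    have hy' : f y = u := hy
    rw [permI_of hy', permI_of (by rw [hfα]; exact hy')]
    show (cm (pg (ag e (α g) (hfα g) u)) *ᵥ v) _ = _
    rw [cm_pg, pm_mulVec]
    congr 1
    rw [Equiv.Perm.inv_eq_iff_eq]
    apply (e u).injective
    apply Subtype.ext
    rw [e_ag]
    simp

end

end Crest.Agent.R276.Perm_840
end
end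

-- ▼ part R276/IpcIter_840

/-!
# Row 276, leaf IPC-ITER (helper840): induction over the tower of discriminants

Inputs (as `Prop`-valued definitions):
* `OneStep` (`IpcDefs_735`);
* `StepRz`, `StepRzAct` : helper815's step of the realisation (`Top8d_815`).

Outputs:
* `iter` : from a realised variation over the level `r` of a tower (`Tow2_244.PTow.lvl`) to a realised
  variation over the base;
* `geoVHS` : the geometric variation of a finite covering `f : Y → X_r`: a polarised `ℤ`-variation `W` of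
  weight `r` over the base, with group action, whose top piece is identified (isometrically,
  holomorphically, equivariantly) with the `L²` holomorphic functions on the fibres of `Y → S`.
-/

set_option autoImplicit false

noncomputable section

open Set Filter Topology MeasureTheory Matrix
open Crest.Agent.R271.Ho51 Crest.Agent.R276.Ipc735 Crest.Agent.R276.Top8_815
open Crest.Agent.R276.Tow2_244 Crest.Agent.R276.Perm_840

namespace Crest.Agent.R276.Iter_840

/-- helper815's step theorem: the realisation goes down. -/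
def StepRz : Prop :=
  ∀ (m k N N' w d : ℕ) (S : Type) [TopologicalSpace S] [T2Space S] [SecondCountableTopology S]
    [PreconnectedSpace S] [RDom m S] (Y : Type) [TopologicalSpace Y] [T2Space Y]
    (Q : Punc S k) (V : VHS (m + 1) (Tot Q) N w) (W : VHS m S N' (w + 1))
    (R : ∀ s : S, PVHS (Q.A s) N w) (cl : ∀ _ : S, (ℂ → Fin N → ℂ) → (Fin N' → ℂ))
    (F : FSp (m + 1) d (Tot Q) Y) (ι : Tot Q → (Fin N → ℂ) → Y → ℂ),
    Rz V F ι → StepTop Q V W R cl → Rz W F.down (down R cl F ι)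

/-- the clause of `OneStep` about the group action -/
def StepEqv {m k N N' w : ℕ} {S : Type*} [TopologicalSpace S] [RDom m S] (Q : Punc S k)
    {V : VHS (m + 1) (Tot Q) N w} {W : VHS m S N' (w + 1)} {Γ : Type} [Group Γ] (ρ : Act V Γ)
    (ρ' : Act W Γ) (R : ∀ s : S, PVHS (Q.A s) N w)
    (cl : ∀ _ : S, (ℂ → Fin N → ℂ) → (Fin N' → ℂ)) : Prop :=
  ∀ s g f, (R s).Top f →
    cl s (fun x => rM Q (fun q => cm (ρ.ρ g q)) s x *ᵥ f x) = cm (ρ'.ρ g s) *ᵥ cl s f

/-- helper815's step theorem: the compatibility with the group action goes down. -/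
def StepRzAct : Prop :=
  ∀ (m k N N' w d : ℕ) (S : Type) [TopologicalSpace S] [T2Space S] [SecondCountableTopology S]
    [PreconnectedSpace S] [RDom m S] (Y : Type) [TopologicalSpace Y] [T2Space Y]
    (Q : Punc S k) (V : VHS (m + 1) (Tot Q) N w) (W : VHS m S N' (w + 1))
    (R : ∀ s : S, PVHS (Q.A s) N w) (cl : ∀ _ : S, (ℂ → Fin N → ℂ) → (Fin N' → ℂ))
    (F : FSp (m + 1) d (Tot Q) Y) (ι : Tot Q → (Fin N → ℂ) → Y → ℂ)
    (Γ : Type) [Group Γ] (ρ : Act V Γ) (ρ' : Act W Γ) (α : Γ → Y → Y),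
    Rz V F ι → RzAct ρ F ι α → StepTop Q V W R cl → StepEqv Q ρ ρ' R cl →
      RzAct ρ' F.down (down R cl F ι) α

theorem t2Space_of_isSeparatedMap {X Y : Type*} [TopologicalSpace X] [TopologicalSpace Y]
    [T2Space X] {f : Y → X} (hf : IsSeparatedMap f) (hc : Continuous f) : T2Space Y := by
  refine ⟨fun x y hxy => ?_⟩
  by_cases h : f x = f y
  · exact hf x y h hxy
  · obtain ⟨u, v, hu, hv, h1, h2, h3⟩ := t2_separation h
    exact ⟨f ⁻¹' u, f ⁻¹' v, hu.preimage hc, hv.preimage hc, h1, h2, h3.preimage f⟩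

section

variable {m : ℕ} (T : PTow m) (L₀ : Lvl m (T.c 0)) {Y : Type} [TopologicalSpace Y]
  {Γ : Type} [Group Γ]

/-- **Induction over the tower.** -/
theorem iter [T2Space Y] (hO : OneStep) (hR : StepRz) (hA : StepRzAct) (α : Γ → Y → Y) :
    ∀ (r d N w : ℕ) (V : VHS (m + r) (T.lvl L₀ r).X N w) (ρ : Act V Γ)
      (F : FSp (m + r) d (T.lvl L₀ r).X Y) (ι : (T.lvl L₀ r).X → (Fin N → ℂ) → Y → ℂ),
      Rz V F ι → RzAct ρ F ι α → ∀ w' d' : ℕ, w' = w + r → d' = d + r →
      ∃ (N' : ℕ) (W : VHS m L₀.X N' w') (ρ' : Act W Γ) (F' : FSp m d' L₀.X Y)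
        (ι' : L₀.X → (Fin N' → ℂ) → Y → ℂ), Rz W F' ι' ∧ RzAct ρ' F' ι' α ∧
        (∀ y, F'.q y = T.toBase L₀ r (F.q y)) ∧
        (∀ y (i : ℕ) (hi : i < d'), i < r → F'.t y ⟨i, hi⟩ = T.fx L₀ r i (F.q y)) ∧
        (∀ y (i : ℕ) (hi : i < d) (hi' : r + i < d'), F'.t y ⟨r + i, hi'⟩ = F.t y ⟨i, hi⟩) := by
  intro r
  induction r with
  | zero =>
    intro d N w V ρ F ι h1 h2 w' d' hw hd
    obtain rfl : w' = w := by omega
    obtain rfl : d' = d := by omega
    refine ⟨N, V, ρ, F, ι, h1, h2, fun y => rfl, fun y i hi h => absurd h (by omega), ?_⟩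
    intro y i hi hi'
    congr 2
    omega
  | succ r ih =>
    intro d N w V ρ F ι h1 h2 w' d' hw hd
    -- the one-step theorem at level `r`
    let Q := T.punc r (T.lvl L₀ r)
    let V1 : VHS (m + r + 1) (Tot Q) N w := V
    obtain ⟨N1, W, ρ1, cl, c1, c2, c3, c4, c5, c6, c7, c8⟩ :=
      hO (m + r) (T.P r).natDegree N w (T.lvl L₀ r).X Q V1 Γ ρ (fun s => VHS.res V1 s)
        (fun s => VHS.isRes V1 s)
    have hst : StepTop Q V1 W (fun s => VHS.res V1 s) cl :=
      ⟨fun s => VHS.isRes V1 s, c1, c2, c3, c4, c5, c7, c8⟩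
    have hrz := hR (m + r) (T.P r).natDegree N N1 w d (T.lvl L₀ r).X Y Q V1 W
      (fun s => VHS.res V1 s) cl F ι h1 hst
    have hact := hA (m + r) (T.P r).natDegree N N1 w d (T.lvl L₀ r).X Y Q V1 W
      (fun s => VHS.res V1 s) cl F ι Γ ρ ρ1 α h1 h2 hst c6
    obtain ⟨N', W', ρ', F', ι', r1, r2, r3, r4, r5⟩ := ih (d + 1) N1 (w + 1) W ρ1 F.down
      (down (fun s => VHS.res V1 s) cl F ι) hrz hact w' d' (by omega) (by omega)
    refine ⟨N', W', ρ', F', ι', r1, r2, ?_, ?_, ?_⟩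
    · intro y
      rw [r3]
      rfl
    · intro y i hi hir
      by_cases hir' : i < r
      · rw [r4 y i hi hir']
        show _ = (if i = r then (F.q y).1.2 else T.fx L₀ r i (F.q y).1.1)
        rw [if_neg (by omega)]
        rfl
      · obtain rfl : i = r := by omega
        have h5 := r5 y 0 (by omega) (by omega)
        show _ = (if i = i then (F.q y).1.2 else T.fx L₀ i i (F.q y).1.1)
        rw [if_pos rfl]
        exact h5
    · intro y i hi hi'
      have h5 := r5 y (i + 1) (by omega) (by omega)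
      have h6 : F'.t y ⟨r + 1 + i, hi'⟩ = F'.t y ⟨r + (i + 1), by omega⟩ := by
        congr 2
        omega
      rw [h6, h5]
      rfl

/-- **The geometric variation of a finite covering of the top level of the tower.** -/
theorem geoVHS (hO : OneStep) (hR : StepRz) (hA : StepRzAct) (r N : ℕ)
    {f : Y → (T.lvl L₀ r).X} (hf : IsCoveringMap f)
    (e : ∀ s : (T.lvl L₀ r).X, Fin N ≃ f ⁻¹' {s})
    (α : Γ →* Equiv.Perm Y) (hα : ∀ g, Continuous (α g)) (hfα : ∀ g y, f (α g y) = f y) :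
    ∃ (N' : ℕ) (W : VHS m L₀.X N' r) (ρ : Act W Γ) (F : FSp m r L₀.X Y)
      (ι : L₀.X → (Fin N' → ℂ) → Y → ℂ), Rz W F ι ∧ RzAct ρ F ι (fun g => α g) ∧
      (∀ y, F.q y = T.toBase L₀ r (f y)) ∧ (∀ y (i : Fin r), F.t y i = T.fx L₀ r i (f y)) := by
  have hY : T2Space Y := t2Space_of_isSeparatedMap hf.isSeparatedMap hf.continuous
  obtain ⟨N', W, ρ, F, ι, r1, r2, r3, r4, _⟩ := iter T L₀ hO hR hA (fun g => α g) r 0 N 0
    (permVHS hf e) (permAct hf e α hα hfα) (permF hf) (permI f e) (rz_perm hf e)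
    (rzAct_perm hf e α hα hfα) r r (by omega) (by omega)
  exact ⟨N', W, ρ, F, ι, r1, r2, r3, fun y i => r4 y i i.2 i.2⟩

end

end Crest.Agent.R276.Iter_840
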