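import Crest.Agent.R276.Top8b_815
import Crest.Agent.R276.FinC_39
import Crest.Agent.R276.Rc_348
import Crest.Agent.R276.FriD_348
import Crest.Agent.R276.IpcIter_840
import Crest.Agent.R276.Tow4_244
import Crest.Agent.R271.Null_956

-- ▼ part R276/Fri_348
section

/-!
# R276, leaf FRI (helper348): finite rank of the norm of a holomorphic section of the top piece

`V : VHS n X N w`, `Rz V F ι` (815).  A holomorphic function `f` on `Y` with finite fibre norms is a
holomorphic section of the top piece, so locally on `X` its squared norm is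
`∑ H i j * p i * conj (p j)` with `p` holomorphic and `H` a constant matrix of size `N` (`rz_fnorm_local`).
`locRank_of_rz` : the hypothesis `LocRank` of helper39's FIN.
-/

set_option autoImplicit false

noncomputable section

open Set Filter Topology MeasureTheory Matrix ComplexConjugate
open Crest.Agent.R271.Ho51 Crest.Agent.R276.Ipc735 Crest.Agent.R276.Top8_815
open scoped ENNReal

namespace Crest.Agent.R276.Fri_348

theorem aeval_mulVec {N : ℕ} {E : Matrix (Fin N) (Fin N) ℂ} {v : Fin N → ℂ} {c : ℂ}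
    (h : E *ᵥ v = c • v) (p : Polynomial ℂ) : (Polynomial.aeval E p) *ᵥ v = p.eval c • v := by
  induction p using Polynomial.induction_on with
  | C a =>
    rw [Polynomial.aeval_C, Polynomial.eval_C, Algebra.algebraMap_eq_smul_one, smul_mulVec,
      one_mulVec]
  | add p q hp hq => rw [map_add, add_mulVec, hp, hq, Polynomial.eval_add, add_smul]
  | monomial n a ih =>
    have h1 : Polynomial.aeval E (Polynomial.C a * Polynomial.X ^ (n + 1)) =
        E * Polynomial.aeval E (Polynomial.C a * Polynomial.X ^ n) := by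
      simp only [map_mul, map_pow, Polynomial.aeval_X, Polynomial.aeval_C, pow_succ']
      rw [← mul_assoc, Algebra.commutes, mul_assoc]
    rw [h1, ← mulVec_mulVec, ih, mulVec_smul, h, smul_smul]
    congr 1
    simp [pow_succ]; ring

theorem weil_top {N w : ℕ} {E : Matrix (Fin N) (Fin N) ℂ} {v : Fin N → ℂ} (h : IsTop w E v) :
    weil w E *ᵥ v = (-1 : ℂ) ^ w • v := by
  unfold weil hpr
  rw [sum_mulVec]
  rw [Finset.sum_eq_single w]
  · rw [smul_mulVec, aeval_mulVec h, Lagrange.eval_basis_self, one_smul]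
    · intro a _ b _ hab; exact_mod_cast hab
    · simp
  · intro p hp hpw
    rw [smul_mulVec, aeval_mulVec h, Lagrange.eval_basis_of_ne hpw, zero_smul, smul_zero]
    simp
  · intro h; exact absurd (Finset.self_mem_range_succ w) h

theorem herm_im {N : ℕ} {S : Matrix (Fin N) (Fin N) ℂ} (hS : S.IsHermitian) (v : Fin N → ℂ) :
    conj (star v ⬝ᵥ S *ᵥ v) = star v ⬝ᵥ S *ᵥ v := by
  have h1 : star (star v ⬝ᵥ S *ᵥ v) = star v ⬝ᵥ S *ᵥ v := by
    rw [← star_dotProduct, star_mulVec, hS.eq, ← dotProduct_mulVec]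
  exact h1

variable {n d N w : ℕ} {X Y : Type*} [TopologicalSpace X] [RDom n X] [TopologicalSpace Y]

/-- The Hodge norm on the top piece is the flat form up to sign. -/
theorem hnsq_top (V : VHS n X N w) {u : X} {v : Fin N → ℂ} (h : IsTop w (V.E u) v) :
    (hnsq V u v : ℂ) = (-1 : ℂ) ^ w * (star v ⬝ᵥ V.S u *ᵥ v) := by
  have h1 : star v ⬝ᵥ hodge w (V.S u) (V.E u) *ᵥ v = (-1 : ℂ) ^ w * (star v ⬝ᵥ V.S u *ᵥ v) := by
    unfold hodge
    rw [← mulVec_mulVec, weil_top h, mulVec_smul, dotProduct_smul, smul_eq_mul]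
  unfold hnsq
  rw [h1]
  rw [← Complex.conj_eq_iff_re, map_mul, herm_im (V.hs u).herm]
  simp

/-- In a flat frame at `u₀`. -/
theorem hnsq_top_local (V : VHS n X N w) (u₀ : X) (v : X → Fin N → ℂ)
    (h : ∀ᶠ u in 𝓝 u₀, IsTop w (V.E u) (v u)) :
    ∀ᶠ u in 𝓝 u₀, (hnsq V u (v u) : ℂ) = ∑ i, ∑ j, ((-1 : ℂ) ^ w * V.S u₀ j i) *
      lV V.P v u₀ u i * conj (lV V.P v u₀ u j) := by
  filter_upwards [h, V.flatS u₀] with u hu hS
  rw [hnsq_top V hu, hS]
  have h1 : star (v u) ⬝ᵥ ((cm (V.P u₀ u))ᴴ * V.S u₀ * cm (V.P u₀ u)) *ᵥ v u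
      = star (lV V.P v u₀ u) ⬝ᵥ V.S u₀ *ᵥ lV V.P v u₀ u := by
    unfold lV
    rw [star_mulVec, ← dotProduct_mulVec, mulVec_mulVec, mulVec_mulVec, Matrix.mul_assoc]
  rw [h1]
  simp only [dotProduct, mulVec, Pi.star_apply, RCLike.star_def, Finset.mul_sum]
  rw [Finset.sum_comm]
  refine Finset.sum_congr rfl fun i _ => Finset.sum_congr rfl fun j _ => ?_
  ring

theorem rz_fnorm_local (V : VHS n X N w) (F : FSp n d X Y) (ι : X → (Fin N → ℂ) → Y → ℂ)
    (hR : Rz V F ι) (f : Y → ℂ) (hf : ∀ u, F.FH u f) (hfin : ∀ u, F.fnorm u f < ∞)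
    (hPB : ∀ y, PB F.pc f y) (u₀ : X) :
    ∃ (p : X → Fin N → ℂ) (H : Matrix (Fin N) (Fin N) ℂ), HolAt p u₀ ∧
      ∀ᶠ u in 𝓝 u₀, ((F.fnorm u f).toReal : ℂ) = ∑ i, ∑ j, H i j * p u i * conj (p u j) := by
  choose v hv hιv using fun u => hR.surj u f (hf u) (hfin u)
  have hfun : (fun y' => ι (F.q y') (v (F.q y')) y') = f := by
    funext y'; exact hιv (F.q y') y' rfl
  have hol : HolAt (lV V.P v u₀) u₀ := by
    refine hR.hol2 u₀ v (Eventually.of_forall hv) (Eventually.of_forall fun u y _ => ?_)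
    rw [hfun]; exact hPB y
  refine ⟨lV V.P v u₀, fun i j => (-1 : ℂ) ^ w * V.S u₀ j i, hol, ?_⟩
  filter_upwards [hnsq_top_local V u₀ v (Eventually.of_forall hv)] with u hu
  rw [← hu]
  have h1 : F.fnorm u f = ENNReal.ofReal (hnsq V u (v u)) := by
    rw [← hR.norm u (v u) (hv u)]
    unfold FSp.fnorm FSp.fint
    refine lintegral_congr fun τ => tsum_congr fun y => ?_
    show ‖f y.1‖ₑ ^ 2 = ‖ι u (v u) y.1‖ₑ ^ 2
    rw [hιv u y.1 y.2.1]
  rw [h1]
  rw [ENNReal.toReal_ofReal]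
  -- positivity of the Hodge norm on the top piece
  by_cases h0 : v u = 0
  · rw [h0]; simp [hnsq]
  · have h2 := (V.hs u).pos w (v u) le_rfl h0 (hv u)
    have h3 := hnsq_top V (hv u)
    have h4 : hnsq V u (v u) = (-1 : ℝ) ^ w * (star (v u) ⬝ᵥ V.S u *ᵥ v u).re := by
      have h5 := congrArg Complex.re h3
      rw [Complex.ofReal_re] at h5
      rw [h5]
      have h6 : ((-1 : ℂ) ^ w) = (((-1 : ℝ) ^ w : ℝ) : ℂ) := by push_cast; rfl
      rw [h6, Complex.re_ofReal_mul]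
    rw [h4]; exact h2.le

/-- The hypothesis `LocRank` of FIN. -/
theorem locRank_of_rz (V : VHS n X N w) (F : FSp n d X Y) (ι : X → (Fin N → ℂ) → Y → ℂ)
    (hR : Rz V F ι) (f : Y → ℂ) (hf : ∀ u, F.FH u f) (hfin : ∀ u, F.fnorm u f < ∞)
    (hPB : ∀ y, PB F.pc f y) (Φ : (Fin n → ℂ) → ℝ) (Q : (Fin n → ℂ) → ℂ)
    (hX : ∀ σ, Q σ ≠ 0 → ∃ x : X, cp x = σ) (c : ℝ) (hc : c ≠ 0)
    (hΦ : ∀ x : X, (F.fnorm x f).toReal = c * Φ (cp x)) :
    FinC_39.LocRank N Φ Q := by
  intro σ hσ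
  obtain ⟨x, rfl⟩ := hX σ hσ
  obtain ⟨p, H, hp, hloc⟩ := rz_fnorm_local V F ι hR f hf hfin hPB x
  -- move to the chart
  have hsymm : Tendsto (ch x).symm (𝓝 (cp x)) (𝓝 x) := by
    have h1 := (ch x).symm.continuousAt (x := (ch x) x) (by
      rw [OpenPartialHomeomorph.symm_source]
      exact (ch x).map_source (mem_ch x))
    have h2 : (ch x).symm ((ch x) x) = x := (ch x).left_inv (mem_ch x)
    have h3 : (ch x) x = cp x := (isCh_ch x).apply x
    rw [h3] at h1 h2
    have h4 := h1.tendsto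
    rw [h2] at h4
    exact h4
  have hev1 : ∀ᶠ τ in 𝓝 (cp x), ((F.fnorm ((ch x).symm τ) f).toReal : ℂ) =
      ∑ i, ∑ j, H i j * p ((ch x).symm τ) i * conj (p ((ch x).symm τ) j) := hsymm.eventually hloc
  have hev2 : ∀ᶠ τ in 𝓝 (cp x), cp ((ch x).symm τ) = τ := by
    have h3 : (ch x) x = cp x := (isCh_ch x).apply x
    have h4 : cp x ∈ (ch x).target := by rw [← h3]; exact (ch x).map_source (mem_ch x)
    filter_upwards [(ch x).open_target.mem_nhds h4] with τ hτ
    rw [← (isCh_ch x).apply, (ch x).right_inv hτ]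
  have hev3 : ∀ᶠ τ in 𝓝 (cp x), AnalyticAt ℂ (p ∘ (ch x).symm) τ := hp.eventually_analyticAt
  obtain ⟨δ, hδ, hball⟩ := Metric.eventually_nhds_iff_ball.1 (hev1.and (hev2.and hev3))
  refine ⟨δ, fun i τ => p ((ch x).symm τ) i, fun i j => (c : ℂ)⁻¹ * H i j, hδ, fun i => ?_, ?_⟩
  · intro τ hτ
    have h1 := (hball τ hτ).2.2
    have h2 : DifferentiableAt ℂ (p ∘ (ch x).symm) τ := h1.differentiableAt
    exact (differentiableAt_pi.1 h2 i).differentiableWithinAt
  · intro τ hτ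
    obtain ⟨h1, h2, _⟩ := hball τ hτ
    have h3 := hΦ ((ch x).symm τ)
    rw [h2] at h3
    rw [h3] at h1
    have hc' : (c : ℂ) ≠ 0 := by exact_mod_cast hc
    have h4 : (Φ τ : ℂ) = (c : ℂ)⁻¹ * ((c * Φ τ : ℝ) : ℂ) := by
      push_cast; field_simp
    rw [h4, h1, Finset.mul_sum]
    refine Finset.sum_congr rfl fun i _ => ?_
    rw [Finset.mul_sum]
    refine Finset.sum_congr rfl fun j _ => ?_
    ring

end Crest.Agent.R276.Fri_348
end
end

-- ▼ part R276/Fri2_348

/-!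
# R276, leaf FRI (helper348): finite rank of `c ↦ ∫_M |∑ c k * g k| ^ (2 / N)`

`fri` : for a model `M : Mdl K r`, `g : Fin s → M.B` not all zero, `N ≠ 0`, the function
`Φ c = ∫_M |∑ c k * g k| ^ (2 / N)` (assumed finite) satisfies helper39's `LocRank` off a hypersurface.
Inputs: `OneStep`, `StepRz`, `StepRzAct`.
-/

set_option autoImplicit false

noncomputable section

open Set Filter Topology MeasureTheory
open Crest.Agent.R271.Ho51 Crest.Agent.R271.Defs710 Crest.Agent.R271.Rd692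
open Crest.Agent.R276.Ipc735 Crest.Agent.R276.Top8_815
open Crest.Agent.R276.Tow2_244 Crest.Agent.R276.Iter_840 Crest.Agent.R276.Mod1_987
open Crest.Agent.R276.Rc_348 Crest.Agent.R276.FriD_348
open scoped ENNReal

namespace Crest.Agent.R276.Fri2_348

variable {s : ℕ}

/-! ### the base -/

/-- The base of the tower in `ℂˢ`. -/
abbrev baseX (T : PTow s) : Type := {c : Fin s → ℂ // MvPolynomial.eval c (T.c 0) ≠ 0}

theorem isOpen_base (T : PTow s) : IsOpen {c : Fin s → ℂ | MvPolynomial.eval c (T.c 0) ≠ 0} :=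
  isOpen_ne_fun (MvPolynomial.continuous_eval _) continuous_const

instance (T : PTow s) : RDom s (baseX T) where
  p := Subtype.val
  hp := (isOpen_base T).isOpenEmbedding_subtypeVal.isLocalHomeomorph

theorem cp_base (T : PTow s) (c : baseX T) : cp c = c.1 := rfl

instance (T : PTow s) : PreconnectedSpace (baseX T) :=
  Subtype.preconnectedSpace (isPreconnected_ne (T.c 0))

/-- The base as a level. -/
def base (T : PTow s) : Lvl s (T.c 0) where
  X := baseX T
  hc := fun x => x.2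

theorem crd_eq (T : PTow s) {L₀ : Lvl s (T.c 0)} {Y : Type*} (f : Y → L₀.X) (x : ℕ → Y → ℂ) (y : Y)
    (j : ℕ) : T.crd L₀ f x y j = crd0 (fun i => x i y) (cp (f y)) j := by
  induction j with
  | zero => rfl
  | succ j ih =>
    show (Fin.cons (x j y) (T.crd L₀ f x y j) : Fin (s + j + 1) → ℂ) = _
    rw [ih]; rfl

theorem surjective_toBase (T : PTow s) (L₀ : Lvl s (T.c 0)) (j : ℕ) :
    Function.Surjective (T.toBase L₀ j) := by
  induction j with
  | zero => exact Function.surjective_id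
  | succ j ih =>
    intro s₀
    obtain ⟨q, hq⟩ := ih s₀
    obtain ⟨q', hq'⟩ := surjective_fst' (T.punc j (T.lvl L₀ j)) q
    refine ⟨q', ?_⟩
    show T.toBase L₀ j (Tot.fst _ q') = s₀
    rw [hq', hq]

/-- Over a point of the base almost all fibre coordinates satisfy all conditions. -/
theorem ae_good (T : PTow s) (L₀ : Lvl s (T.c 0)) (r : ℕ) (u : L₀.X) :
    ∀ᵐ τ : Fin r → ℂ, ∀ i ≤ r, MvPolynomial.eval (crd0 (ex0 τ) (cp u) i) (T.c i) ≠ 0 := by
  obtain ⟨q, hq⟩ := surjective_toBase T L₀ r u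
  let τ₀ : Fin r → ℂ := fun i => T.fx L₀ r i q
  have h1 : ∀ i ≤ r, MvPolynomial.eval (crd0 (ex0 τ₀) (cp u) i) (T.c i) ≠ 0 := by
    intro i hi
    have h2 := T.ne_zero_of_lvl L₀ r q i hi
    rw [crd_eq, hq] at h2
    rw [crd0_congr (x' := fun i => T.fx L₀ r i q)]
    · exact h2
    · intro k hk
      simp [ex0, τ₀, show k < r by omega]
  rw [ae_all_iff]
  intro i
  by_cases hi : i ≤ r
  · let A : MvPolynomial (Fin r) ℂ := MvPolynomial.aeval
      (crd0 (fun k => if h : k < r then (MvPolynomial.X ⟨k, h⟩ : MvPolynomial (Fin r) ℂ) else 0)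
        (fun k => MvPolynomial.C (cp u k)) i) (T.c i)
    have hA : ∀ τ : Fin r → ℂ, MvPolynomial.eval τ A =
        MvPolynomial.eval (crd0 (ex0 τ) (cp u) i) (T.c i) := by
      intro τ
      have h3 : (MvPolynomial.eval τ).comp (MvPolynomial.aeval
        (crd0 (fun k => if h : k < r then (MvPolynomial.X ⟨k, h⟩ : MvPolynomial (Fin r) ℂ) else 0)
        (fun k => MvPolynomial.C (cp u k)) i) :
          MvPolynomial (Fin (s + i)) ℂ →ₐ[ℂ] MvPolynomial (Fin r) ℂ).toRingHom =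
          MvPolynomial.eval (crd0 (ex0 τ) (cp u) i) := by
        apply MvPolynomial.ringHom_ext
        · intro c; simp
        · intro k
          have h4 := congrFun (crd0_comp (MvPolynomial.eval τ)
            (fun k => if h : k < r then (MvPolynomial.X ⟨k, h⟩ : MvPolynomial (Fin r) ℂ) else 0)
            (fun k => MvPolynomial.C (cp u k)) i) k
          simp only [AlgHom.toRingHom_eq_coe, RingHom.coe_comp, RingHom.coe_coe,
            Function.comp_apply, MvPolynomial.aeval_X, MvPolynomial.eval_X]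
          rw [h4]
          congr 1
          · funext k
            by_cases hk : k < r
            · simp [hk, ex0]
            · simp [hk, ex0]
          · funext k; simp
      exact congrArg (fun φ : MvPolynomial (Fin (s + i)) ℂ →+* ℂ => φ (T.c i)) h3
    have hA0 : A ≠ 0 := by
      intro h
      apply h1 i hi
      rw [← hA, h, map_zero]
    filter_upwards [Crest.Agent.R271.Null956.ae_eval_ne hA0] with τ hτ _
    rw [← hA]; exact hτ
  · exact Eventually.of_forall fun τ h => absurd h hi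

/-! ### the covering -/

variable {K : Type} [Field K] [Algebra ℂ K] {r : ℕ} (M : Mdl K r)

theorem analytic_local (b : M.B) (p₀ : M.Pts) : ∃ G : (Fin r → ℂ) → ℂ, AnalyticAt ℂ G (M.pz p₀) ∧
    ∀ᶠ p : M.Pts in 𝓝 p₀, p b = G (M.pz p) := by
  obtain ⟨C⟩ := M.hch p₀
  obtain ⟨S, ε, hε, hS⟩ := C.surj
  refine ⟨fun w => C.s (w - M.pz p₀) b, ?_, ?_⟩
  · have h1 : AnalyticAt ℂ (fun ζ => C.s ζ b) ((fun w : Fin r → ℂ => w - M.pz p₀) (M.pz p₀)) := by
      simp only [sub_self]
      exact C.anal b 0 (Metric.mem_ball_self C.r_pos)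
    exact AnalyticAt.comp (g := fun ζ => C.s ζ b) (f := fun w : Fin r → ℂ => w - M.pz p₀) h1
      (analyticAt_id.sub analyticAt_const)
  · have h2 : ∀ᶠ p : M.Pts in 𝓝 p₀, ∀ b ∈ S, ‖p b - p₀ b‖ < ε := by
      rw [Filter.eventually_all_finset]
      intro b _
      have h3 : Tendsto (fun p : M.Pts => p b) (𝓝 p₀) (𝓝 (p₀ b)) :=
        (continuous_ev b).tendsto p₀
      have h4 : Tendsto (fun p : M.Pts => ‖p b - p₀ b‖) (𝓝 p₀) (𝓝 0) :=
        tendsto_iff_norm_sub_tendsto_zero.1 h3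
      exact h4.eventually (gt_mem_nhds hε)
    filter_upwards [h2] with p hp
    have h5 := hS p hp
    show p b = C.s (M.pz p - M.pz p₀) b
    have h6 : (fun i => p (M.z i) - p₀ (M.z i)) = M.pz p - M.pz p₀ := rfl
    rw [← h6, ← h5]

variable (T : PTow s)

/-- `{(p, c)}` over the top level of the tower. -/
abbrev Zt : Type := {q : M.Pts × (Fin s → ℂ) //
  ∀ i ≤ r, MvPolynomial.eval (crd0 (ex0 (M.pz q.1)) q.2 i) (T.c i) ≠ 0}

theorem isOpen_Zt : IsOpen {q : M.Pts × (Fin s → ℂ) |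
    ∀ i ≤ r, MvPolynomial.eval (crd0 (ex0 (M.pz q.1)) q.2 i) (T.c i) ≠ 0} := by
  have h1 : {q : M.Pts × (Fin s → ℂ) |
      ∀ i ≤ r, MvPolynomial.eval (crd0 (ex0 (M.pz q.1)) q.2 i) (T.c i) ≠ 0} =
      ⋂ i ∈ Set.Iic r, {q | MvPolynomial.eval (crd0 (ex0 (M.pz q.1)) q.2 i) (T.c i) ≠ 0} := by
    ext q; simp
  rw [h1]
  refine (Set.finite_Iic r).isOpen_biInter fun i _ => ?_
  refine isOpen_ne_fun ?_ continuous_const
  refine (MvPolynomial.continuous_eval (T.c i)).comp ?_
  refine continuous_crd0 (x := fun k (q : M.Pts × (Fin s → ℂ)) => ex0 (M.pz q.1) k)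
    (c := fun q => q.2) (fun k => ?_) continuous_snd i
  exact (continuous_ex0 k).comp ((continuous_pr M.z).comp continuous_fst)

/-- to the base -/
def f0 (q : Zt M T) : (base T).X := (⟨q.1.2, q.2 0 (Nat.zero_le _)⟩ : baseX T)

theorem cp_f0 (q : Zt M T) : cp (f0 M T q) = q.1.2 := rfl

theorem continuous_f0 : Continuous (f0 M T) :=
  Continuous.subtype_mk (continuous_snd.comp continuous_subtype_val) _

/-- fibre coordinates -/
def xc (i : ℕ) (q : Zt M T) : ℂ := ex0 (M.pz q.1.1) i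

theorem continuous_xc (i : ℕ) : Continuous (xc M T i) :=
  (continuous_ex0 i).comp ((continuous_pr M.z).comp (continuous_fst.comp continuous_subtype_val))

theorem crd_Zt (q : Zt M T) (j : ℕ) :
    T.crd (base T) (f0 M T) (xc M T) q j = crd0 (ex0 (M.pz q.1.1)) q.1.2 j := by
  rw [crd_eq, cp_f0]; rfl

theorem good_Zt (q : Zt M T) : ∀ i ≤ r,
    MvPolynomial.eval (T.crd (base T) (f0 M T) (xc M T) q i) (T.c i) ≠ 0 := by
  intro i hi
  rw [crd_Zt]; exact q.2 i hi

/-- the map to the top level -/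
def fZ : Zt M T → (T.lvl (base T) r).X := T.lift (base T) (f0 M T) (xc M T) r (good_Zt M T)

theorem lh_pz : IsLocalHomeomorph (fun q : M.Pts × (Fin s → ℂ) => (M.pz q.1, q.2)) := by
  refine IsLocalHomeomorph.mk _ fun q => ?_
  refine ⟨(ch q.1).prod (OpenPartialHomeomorph.refl _), ?_, ?_⟩
  · simp [mem_ch]
  · intro y hy
    simp only [OpenPartialHomeomorph.prod_apply, OpenPartialHomeomorph.refl_apply]
    have h1 : (ch q.1) y.1 = cp y.1 := (isCh_ch q.1).apply y.1
    rw [h1]; rfl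

theorem lh_fZ : IsLocalHomeomorph (fZ M T) := by
  refine T.isLocalHomeomorph_lift (continuous_f0 M T) (continuous_xc M T) ?_
  obtain ⟨E, hE⟩ := exists_homeo (s := s) r
  have h1 : (fun q => T.crd (base T) (f0 M T) (xc M T) q r) =
      E ∘ (fun q : M.Pts × (Fin s → ℂ) => (M.pz q.1, q.2)) ∘ (Subtype.val : Zt M T → _) := by
    funext q
    rw [crd_Zt]; exact (hE _ _).symm
  rw [h1]
  exact E.isLocalHomeomorph.comp ((lh_pz M).comp
    (isOpen_Zt M T).isOpenEmbedding_subtypeVal.isLocalHomeomorph)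

theorem cp_fZ (q : Zt M T) : (cp (fZ M T q) : Fin (s + r) → ℂ) =
    crd0 (ex0 (M.pz q.1.1)) q.1.2 r := by
  unfold fZ
  rw [T.cp_lift, crd_Zt]

theorem toBase_fZ (q : Zt M T) : T.toBase (base T) r (fZ M T q) = f0 M T q := T.toBase_lift q

/-- the fibre coordinates of the image -/
theorem fx_fZ (q : Zt M T) (i : Fin r) : T.fx (base T) r i (fZ M T q) = M.pz q.1.1 i := by
  obtain ⟨e, he⟩ := exists_posEquiv (s := s) r
  have h1 := T.crd_fx (base T) r (fZ M T q)
  rw [cp_fZ, crd_eq] at h1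
  have h2 := congrFun h1 (e (Sum.inl i))
  rw [(he _ _).1, (he _ _).1, ex0_val] at h2
  exact h2

theorem compact_fZ (hT : ∀ x : (T.lvl (base T) r).X, ∀ (y : Fin r → ℂ) (c : Fin s → ℂ),
    (cp x : Fin (s + r) → ℂ) = crd0 (ex0 y) c r → MvPolynomial.eval y M.h ≠ 0)
    {S : Set (T.lvl (base T) r).X} (hS : IsCompact S) : IsCompact (fZ M T ⁻¹' S) := by
  obtain ⟨E, hE⟩ := exists_homeo (s := s) r
  let A : Set ((Fin r → ℂ) × (Fin s → ℂ)) :=
    E.symm '' ((fun x : (T.lvl (base T) r).X => (cp x : Fin (s + r) → ℂ)) '' S)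
  have hA : IsCompact A := (hS.image cp_cont).image E.symm.continuous
  have hA1 : ∀ q ∈ A, ∃ x ∈ S, (cp x : Fin (s + r) → ℂ) = crd0 (ex0 q.1) q.2 r := by
    rintro _ ⟨_, ⟨x, hx, rfl⟩, rfl⟩
    refine ⟨x, hx, ?_⟩
    have h1 := hE (E.symm (cp x)).1 (E.symm (cp x)).2
    rw [Prod.mk.eta, E.apply_symm_apply] at h1
    exact h1
  -- points of `A` satisfy all the conditions
  have hA2 : ∀ q ∈ A, ∀ i ≤ r, MvPolynomial.eval (crd0 (ex0 q.1) q.2 i) (T.c i) ≠ 0 := by
    intro q hq i hi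
    obtain ⟨x, hx, hxq⟩ := hA1 q hq
    obtain ⟨e, he⟩ := exists_posEquiv (s := s) r
    have h1 := T.ne_zero_of_lvl (base T) r x i hi
    rw [crd_eq] at h1
    have h2 := T.crd_fx (base T) r x
    rw [crd_eq, hxq] at h2
    have h3 : (cp (T.toBase (base T) r x) : Fin s → ℂ) = q.2 := by
      funext k
      have := congrFun h2 (e (Sum.inr k))
      rw [(he _ _).2, (he _ _).2] at this
      exact this
    have h4 : ∀ k < r, (fun i => T.fx (base T) r i x) k = ex0 q.1 k := by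
      intro k hk
      have := congrFun h2 (e (Sum.inl ⟨k, hk⟩))
      rw [(he _ _).1, (he _ _).1] at this
      exact this
    rw [h3, crd0_congr _ (fun k hk => h4 k (by omega))] at h1
    exact h1
  have hA3 : ∀ q ∈ A, MvPolynomial.eval q.1 M.h ≠ 0 := by
    intro q hq
    obtain ⟨x, hx, hxq⟩ := hA1 q hq
    exact hT x q.1 q.2 hxq
  -- the preimage in `M.Pts × ℂˢ`
  have hB : IsCompact ((fun q : M.Pts × (Fin s → ℂ) => (M.pz q.1, q.2)) ⁻¹' A) := by
    have h1 : IsCompact (M.pz ⁻¹' (Prod.fst '' A)) := by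
      refine M.isCompact_preimage (hA.image continuous_fst) ?_
      rintro _ ⟨q, hq, rfl⟩
      exact hA3 q hq
    have h2 : IsCompact ((M.pz ⁻¹' (Prod.fst '' A)) ×ˢ (Prod.snd '' A)) :=
      h1.prod (hA.image continuous_snd)
    refine h2.of_isClosed_subset ?_ ?_
    · refine hA.isClosed.preimage ?_
      exact ((continuous_pr M.z).comp continuous_fst).prodMk continuous_snd
    · intro q hq
      exact ⟨⟨_, hq, rfl⟩, ⟨_, hq, rfl⟩⟩
  have hsub : (fun q : M.Pts × (Fin s → ℂ) => (M.pz q.1, q.2)) ⁻¹' A ⊆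
      Set.range (Subtype.val : Zt M T → M.Pts × (Fin s → ℂ)) := by
    intro q hq
    have h5 := hA2 (M.pz q.1, q.2) hq
    exact Set.mem_range.2 ⟨(⟨q, h5⟩ : Zt M T), rfl⟩
  have hC : IsCompact ((Subtype.val : Zt M T → M.Pts × (Fin s → ℂ)) ⁻¹'
      ((fun q : M.Pts × (Fin s → ℂ) => (M.pz q.1, q.2)) ⁻¹' A)) :=
    Topology.IsInducing.subtypeVal.isCompact_preimage' hB hsub
  refine hC.of_isClosed_subset (hS.isClosed.preimage (lh_fZ M T).continuous) ?_
  intro q hq
  have h1 : E.symm (cp (fZ M T q)) = (M.pz q.1.1, q.1.2) := by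
    rw [E.symm_apply_eq, cp_fZ, hE]
  have h2 : E.symm (cp (fZ M T q)) ∈ A := ⟨cp (fZ M T q), ⟨fZ M T q, hq, rfl⟩, rfl⟩
  rw [h1] at h2
  exact h2

end Crest.Agent.R276.Fri2_348
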