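import Crest.Agent.R276.Top8f_815
import Crest.Agent.R276.IpcIter_840

-- ▼ part R276/Top8g_815
section

/-!
# Row 276, IPC step (8): THE STEP THEOREM (helper815)

`stepRz : Rz V F ι → StepTop Q V W R cl → Rz W F.down (down R cl F ι)` and the same for group actions
(`stepRzAct`).
-/

set_option autoImplicit false
set_option linter.unusedSectionVars false

noncomputable section

open Set Filter Topology MeasureTheory Matrix
open Crest.Agent.R271.Ho51 Crest.Agent.R276.Ipc735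
open scoped ENNReal

namespace Crest.Agent.R276.Top8_815

section step

variable {m k N N' w d : ℕ} {S Y : Type*} [TopologicalSpace S] [RDom m S] [TopologicalSpace Y]
  {Q : Punc S k} {V : VHS (m + 1) (Tot Q) N w} {W : VHS m S N' (w + 1)}
  {R : ∀ s : S, PVHS (Q.A s) N w} {cl : ∀ _ : S, (ℂ → Fin N → ℂ) → (Fin N' → ℂ)}
  {F : FSp (m + 1) d (Tot Q) Y} {ι : Tot Q → (Fin N → ℂ) → Y → ℂ}

theorem step_add (hR : Rz V F ι) (hst : StepTop Q V W R cl) {s : S} {v v' : Fin N' → ℂ}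
    (hv : IsTop (w + 1) (W.E s) v) (hv' : IsTop (w + 1) (W.E s) v') {y : Y}
    (hy : F.down.q y = s) :
    down R cl F ι s (v + v') y = down R cl F ι s v y + down R cl F ι s v' y := by
  obtain ⟨f, hf, rfl⟩ := exists_top_of hst hv
  obtain ⟨g, hg, rfl⟩ := exists_top_of hst hv'
  rw [down_eq hst (top_add hf hg) (hst.add s f g hf hg), down_eq hst hf rfl, down_eq hst hg rfl]
  exact hR.add _ _ _ (isTop_of_top hst hf hy) (isTop_of_top hst hg hy) y rfl

theorem step_smul (hR : Rz V F ι) (hst : StepTop Q V W R cl) {s : S} (c : ℂ) {v : Fin N' → ℂ}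
    (hv : IsTop (w + 1) (W.E s) v) {y : Y} (hy : F.down.q y = s) :
    down R cl F ι s (c • v) y = c * down R cl F ι s v y := by
  obtain ⟨f, hf, rfl⟩ := exists_top_of hst hv
  rw [down_eq hst (top_smul c hf) (hst.smul s c f hf), down_eq hst hf rfl]
  exact hR.smul _ _ _ (isTop_of_top hst hf hy) y rfl

/-- a section of the top piece over the fibre, realised as a function -/
theorem fh_sec (hR : Rz V F ι) (hst : StepTop Q V W R cl) {s : S} {f : ℂ → Fin N → ℂ}
    (hf : (R s).Top f) : F.down.FH s (fun y => ι (F.q y) (f (F.q y).1.2) y) := by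
  rintro y rfl
  have hx₀ : (F.q y).1.2 ∉ Q.A (F.down.q y) := (F.q y).2
  obtain ⟨ρ, e, β, he, hev⟩ := exists_frame V (F.q y)
  have hφ : ∀ k, PB F.pc (fun y' => ι (F.q y') (e k (F.q y')) y') y := fun k =>
    (hR.frame_pb (he k) (hev.mono fun u h => h.1 k)).self_of_nhds y rfl
  choose g hg hgy using hφ
  let c : Fin ρ → ℂ → ℂ := fun k x => β k (lV (R (F.down.q y)).P f (F.q y).1.2 x)
  have hc : ∀ k, AnalyticAt ℂ (c k) (F.q y).1.2 := fun k =>
    ((LinearMap.toContinuousLinearMap (β k)).analyticAt _).comp (hf.hol _ hx₀)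
  refine ⟨fun τ => ∑ k, c k (τ 0) * g k (Fin.cons (τ 0) (cp (F.down.q y)), Fin.tail τ), ?_, ?_⟩
  · refine (cl_analyticAt _).sum _ _ fun k _ => (cl_analyticAt _).mul _ _ ?_ ?_
    · exact AnalyticAt.comp (g := c k) (hc k)
        ((ContinuousLinearMap.proj (R := ℂ) (φ := fun _ : Fin (d + 1) => ℂ) 0).analyticAt _)
    · refine AnalyticAt.comp (g := g k) (hg k) ?_
      refine AnalyticAt.prod ?_ ?_
      · refine AnalyticAt.comp (g := fun x : ℂ => (Fin.cons x (cp (F.down.q y)) :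
          Fin (m + 1) → ℂ)) (acons _ _) ?_
        exact (ContinuousLinearMap.proj (R := ℂ) (φ := fun _ : Fin (d + 1) => ℂ) 0).analyticAt _
      · refine AnalyticAt.pi fun i => ?_
        exact (ContinuousLinearMap.proj (R := ℂ) (φ := fun _ : Fin (d + 1) => ℂ)
          i.succ).analyticAt _
  · filter_upwards [F.continuous_q.continuousAt.eventually hev, Filter.eventually_all.2 hgy]
      with y' h1 h2 hy'
    obtain ⟨h3, -, h5⟩ := h1
    have h6 := h5 (f (F.q y').1.2) (isTop_of_top hst hf hy')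
    conv_lhs => rw [h6]
    rw [hR.sum _ _ (fun i _ => h3 i) rfl]
    refine Finset.sum_congr rfl fun k _ => ?_
    have h7 : c k (F.down.t y' 0) = β k (cm (V.P (F.q y) (F.q y')) *ᵥ f (F.q y').1.2) := by
      have h8 : (F.q y').1.2 ∉ Q.A (F.down.q y) := by rw [← hy']; exact (F.q y').2
      show β k (lV (R (F.down.q y)).P f (F.q y).1.2 (F.q y').1.2) = _
      rw [lV_res hst hx₀ h8]
      have h9 : F.q y' = Tot.mk Q (F.down.q y) (F.q y').1.2 h8 := (q_eq_mk F).2 ⟨hy', rfl⟩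
      rw [← h9]
      rfl
    have h10 := h2 k
    rw [pc_over hy'] at h10
    rw [h7]
    congr 1

/-- local structure of a function which is almost everywhere in the image of the realisation -/
theorem local_frame (hR : Rz V F ι) {s : S} {f : Y → ℂ} (hf : F.down.FH s f)
    (hae : ∀ᵐ x : ℂ, ∀ hx : x ∉ Q.A s, ∃ v, IsTop w (V.E (Tot.mk Q s x hx)) v ∧
      ∀ y, F.q y = Tot.mk Q s x hx → ι (Tot.mk Q s x hx) v y = f y) {x₀ : ℂ}
    (hx₀ : x₀ ∉ Q.A s) :
    ∃ (ρ : ℕ) (e : Fin ρ → Tot Q → Fin N → ℂ) (c : Fin ρ → ℂ → ℂ),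
      (∀ k, HolAt (lV V.P (e k) (Tot.mk Q s x₀ hx₀)) (Tot.mk Q s x₀ hx₀)) ∧
      (∀ k, AnalyticAt ℂ (c k) x₀) ∧
      ∀ᶠ x in 𝓝 x₀, ∀ hx : x ∉ Q.A s,
        (∀ k, IsTop w (V.E (Tot.mk Q s x hx)) (e k (Tot.mk Q s x hx))) ∧
        ∀ y, F.q y = Tot.mk Q s x hx →
          ι (Tot.mk Q s x hx) (∑ k, c k x • e k (Tot.mk Q s x hx)) y = f y := by
  classical
  set u₀ : Tot Q := Tot.mk Q s x₀ hx₀ with hu₀
  obtain ⟨ρ, e, β, he, hev⟩ := exists_frame V u₀
  let φ : Fin ρ → Y → ℂ := fun k y' => ι (F.q y') (e k (F.q y')) y'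
  have hpb : ∀ᶠ u in 𝓝 u₀, ∀ k, ∀ y, F.q y = u → PB F.pc (φ k) y :=
    Filter.eventually_all.2 fun k => hR.frame_pb (he k) (hev.mono fun u h => h.1 k)
  -- linear independence on the fibre over `u₀`
  have hli : LinearIndependent ℂ (fun k => fun y : {y // F.q y = u₀} => φ k y.1) := by
    rw [Fintype.linearIndependent_iff]
    intro g hg k
    have ht := hev.self_of_nhds.1
    have h1 : ∀ y, F.q y = u₀ → ι u₀ (∑ k, g k • e k u₀) y = ι u₀ 0 y := by
      intro y hy
      rw [hR.sum _ _ (fun i _ => ht i) hy, hR.zero hy]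
      have h2 := congrFun hg ⟨y, hy⟩
      simp only [φ, Finset.sum_apply, Pi.smul_apply, smul_eq_mul, Pi.zero_apply, hy] at h2
      exact h2
    have h2 := hR.inj (isTop_sum _ fun i _ => isTop_smul _ (ht i)) isTop_zero h1
    have h3 := congrArg (fun v => β k (cm (V.P u₀ u₀) *ᵥ v)) h2
    simp only [mulVec_sum, mulVec_smul, map_sum, map_smul, hev.self_of_nhds.2.1, mulVec_zero,
      map_zero, smul_eq_mul, mul_ite, mul_one, mul_zero, Finset.sum_ite_eq', Finset.mem_univ,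
      if_true] at h3
    exact h3
  obtain ⟨yj, hdet⟩ := exists_points _ hli
  choose σ hσ0 hσe using fun j => exists_xsec F (yj j).1
  have hyj : ∀ j, F.q (yj j).1 = u₀ := fun j => (yj j).2
  have hx : ∀ j, (F.q (yj j).1).1.2 = x₀ := fun j => by rw [hyj j]; rfl
  have hs : ∀ j, (F.q (yj j).1).1.1 = s := fun j => by rw [hyj j]; rfl
  have hcφ : ∀ j k, AnalyticAt ℂ (fun x => φ k (σ j x)) x₀ := by
    intro j k
    rw [← hx j]
    exact PB.along (hpb.self_of_nhds k _ (hyj j)) (hσ0 j) (hσe j)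
  have hcf : ∀ j, AnalyticAt ℂ (fun x => f (σ j x)) x₀ := by
    intro j
    rw [← hx j]
    exact fh_along (by rw [hs j]; exact hf) (hσ0 j) (hσe j)
  have hσ0' : ∀ j, σ j x₀ = (yj j).1 := fun j => by rw [← hx j]; exact hσ0 j
  have hσe' : ∀ j, ∀ᶠ x in 𝓝 x₀, ContinuousAt (σ j) x ∧ (F.q (σ j x)).1.1 = s ∧
      (F.q (σ j x)).1.2 = x := by
    intro j
    have := hσe j
    rw [hx j, hs j] at this
    exact this.mono fun x h => ⟨h.1, h.2.1, h.2.2.1⟩
  have hdet0 : (evM φ σ x₀).det ≠ 0 := by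
    have h1 : evM φ σ x₀ = Matrix.of fun j k => φ k (yj j).1 := by
      ext j k
      simp only [evM, Matrix.of_apply, hσ0']
    rw [h1]
    exact hdet
  have hdete : ∀ᶠ x in 𝓝 x₀, (evM φ σ x).det ≠ 0 :=
    ((cl_continuousAt x₀).det fun j k => (hcφ j k).continuousAt).eventually_ne hdet0
  have hgood : ∀ᶠ x in 𝓝 x₀, x ∉ Q.A s ∧ ∀ hx : x ∉ Q.A s,
      ((∀ k, IsTop w (V.E (Tot.mk Q s x hx)) (e k (Tot.mk Q s x hx))) ∧
      (∀ v, IsTop w (V.E (Tot.mk Q s x hx)) v → v = ∑ k, β k (cm (V.P u₀ (Tot.mk Q s x hx)) *ᵥ v) •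
        e k (Tot.mk Q s x hx)) ∧
      ∀ k, ∀ y, F.q y = Tot.mk Q s x hx → PB F.pc (φ k) y) := by
    have h1 := (continuousAt_fib_tendsto hx₀).eventually (hev.and hpb)
    filter_upwards [h1, eventually_not_mem _ hx₀] with x h2 h3
    refine ⟨h3, fun hx => ?_⟩
    rw [fib_of hx₀ hx] at h2
    exact ⟨h2.1.1, h2.1.2.2, h2.2⟩
  have hall : ∀ᶠ x in 𝓝 x₀, (x ∉ Q.A s ∧ ∀ hx : x ∉ Q.A s,
      ((∀ k, IsTop w (V.E (Tot.mk Q s x hx)) (e k (Tot.mk Q s x hx))) ∧
      (∀ v, IsTop w (V.E (Tot.mk Q s x hx)) v → v = ∑ k, β k (cm (V.P u₀ (Tot.mk Q s x hx)) *ᵥ v) •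
        e k (Tot.mk Q s x hx)) ∧
      ∀ k, ∀ y, F.q y = Tot.mk Q s x hx → PB F.pc (φ k) y)) ∧
      (∀ j, ∀ᶠ x' in 𝓝 x, ContinuousAt (σ j) x' ∧ (F.q (σ j x')).1.1 = s ∧
      (F.q (σ j x')).1.2 = x') ∧ (evM φ σ x).det ≠ 0 :=
    hgood.and ((Filter.eventually_all.2 fun j => (hσe' j).eventually_nhds).and hdete)
  obtain ⟨U, hU, hUo, hU0⟩ := mem_nhds_iff.1 hall
  have key := ep_core' (μ := (volume : Measure ℂ)) (π := fun y : Y => (F.q y).1.2)
    (Df := fun y => (F.q y).1.1 = s) (f := f) (φ := φ) (σ := σ) hUo ?_ ?_ ?_ ?_ ?_ ?_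
  rotate_left
  · -- hσ
    intro j x hx
    exact ((hU hx).2.1 j).self_of_nhds.2
  · -- f along the sections
    intro j x hx
    have h1 := (hU hx).2.1 j
    have h2 := hf.continuousWithinAt (y := σ j x) h1.self_of_nhds.2.1
    refine Tendsto.comp (g := f) h2 (tendsto_nhdsWithin_iff.2 ⟨h1.self_of_nhds.1, ?_⟩)
    exact h1.mono fun x' h => h.2.1
  · -- φ along the sections
    intro j k x hx
    have h1 := (hU hx).2.1 j
    obtain ⟨hxA, h3⟩ := (hU hx).1
    have h4 : F.q (σ j x) = Tot.mk Q s x hxA := (q_eq_mk F).2 h1.self_of_nhds.2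
    have h5 := (h3 hxA).2.2 k _ h4
    exact ContinuousAt.comp (g := φ k) (PB.continuousAt F.continuous_pc h5) h1.self_of_nhds.1
  · exact fun x hx => (hU hx).2.2
  · -- sections through all points
    intro y hy hyU
    obtain ⟨τ, h0, h1⟩ := exists_xsec F y
    rw [hy] at h1
    have hyA : (F.q y).1.2 ∉ Q.A s := (hU hyU).1.1
    have h4 : F.q y = Tot.mk Q s _ hyA := (q_eq_mk F).2 ⟨hy, rfl⟩
    have hτ : ContinuousAt τ (F.q y).1.2 := h1.self_of_nhds.1
    refine ⟨τ, h0, h1.mono fun x h => ⟨h.2.1, h.2.2.1⟩, ?_, ?_⟩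
    · have h2 := hf.continuousWithinAt (y := τ (F.q y).1.2) (by rw [h0]; exact hy)
      refine Tendsto.comp (g := f) h2 (tendsto_nhdsWithin_iff.2 ⟨hτ, ?_⟩)
      exact h1.mono fun x' h => h.2.1
    · intro k
      have h5 := ((hU hyU).1.2 hyA).2.2 k y h4
      refine ContinuousAt.comp (g := φ k) ?_ hτ
      rw [h0]
      exact PB.continuousAt F.continuous_pc h5
  · -- almost everywhere
    filter_upwards [hae] with x hx hxU
    obtain ⟨hxA, h3⟩ := (hU hxU).1
    obtain ⟨v, hv, hvy⟩ := hx hxA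
    refine ⟨fun k => β k (cm (V.P u₀ (Tot.mk Q s x hxA)) *ᵥ v), fun y hy hy2 => ?_⟩
    have h4 : F.q y = Tot.mk Q s x hxA := (q_eq_mk F).2 ⟨hy, hy2⟩
    rw [← hvy y h4]
    conv_lhs => rw [(h3 hxA).2.1 v hv]
    rw [hR.sum _ _ (fun i _ => (h3 hxA).1 i) h4]
    refine Finset.sum_congr rfl fun k _ => ?_
    simp only [φ, h4]
  refine ⟨ρ, e, fun k x => evC f φ σ x k, he, ?_, ?_⟩
  · intro k
    exact (cl_analyticAt x₀).evC hdet0 hcφ hcf k
  · filter_upwards [hUo.mem_nhds hU0] with x hxU hxA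
    refine ⟨((hU hxU).1.2 hxA).1, ?_⟩
    intro y hy
    have h1 := (q_eq_mk F).1 hy
    rw [key x hxU y h1.1 h1.2, hR.sum _ _ (fun i _ => ((hU hxU).1.2 hxA).1 i) hy]
    refine Finset.sum_congr rfl fun k _ => ?_
    simp only [φ, hy]

/-- `fD` of the squared norm of the realisation of a section -/
theorem fD_sec (hR : Rz V F ι) (hst : StepTop Q V W R cl) {s : S} {f : ℂ → Fin N → ℂ}
    (hE : TopE (R s) f) {g : Y → ℂ}
    (hg : ∀ x (hx : x ∉ Q.A s) y, F.q y = Tot.mk Q s x hx → ι (Tot.mk Q s x hx) (f x) y = g y)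
    {x : ℂ} (hx : x ∉ Q.A s) :
    fD F s (fun y => ‖g y‖ₑ ^ 2) x = ENNReal.ofReal ((R s).nsq f x) := by
  have ht : IsTop w (V.E (Tot.mk Q s x hx)) (f x) := by
    have h1 := hE x hx
    rw [(hst.res s).E, rM_of V.E hx] at h1
    exact h1
  rw [fD, dif_pos hx, ← hnsq_eq hst hx, ← hR.norm _ _ ht]
  exact (F.fnorm_congr (hg x hx)).symm

theorem step_surj [T2Space Y] (hR : Rz V F ι) (hst : StepTop Q V W R cl) {s : S} {f : Y → ℂ}
    (hf : F.down.FH s f) (hfin : F.down.fnorm s f < ∞) :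
    ∃ v, IsTop (w + 1) (W.E s) v ∧ ∀ y, F.down.q y = s → down R cl F ι s v y = f y := by
  classical
  have hm := measurable_fsum F.down hf
  have h1 : ∫⁻ x, fD F s (fun y => ‖f y‖ₑ ^ 2) x < ∞ := by
    rw [← fint_down F hm]; exact hfin
  have h2 : ∀ᵐ x, fD F s (fun y => ‖f y‖ₑ ^ 2) x < ∞ := ae_lt_top (measurable_fD F hm) h1.ne
  have hae : ∀ᵐ x : ℂ, ∀ hx : x ∉ Q.A s, ∃ v, IsTop w (V.E (Tot.mk Q s x hx)) v ∧
      ∀ y, F.q y = Tot.mk Q s x hx → ι (Tot.mk Q s x hx) v y = f y := by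
    filter_upwards [h2] with x hx hxA
    rw [fD, dif_pos hxA] at hx
    exact hR.surj _ f (fh_of_down hf hxA) hx
  have hex : ∀ x, ∀ hx : x ∉ Q.A s, ∃ v, IsTop w (V.E (Tot.mk Q s x hx)) v ∧
      ∀ y, F.q y = Tot.mk Q s x hx → ι (Tot.mk Q s x hx) v y = f y := by
    intro x hx
    obtain ⟨ρ, e, c, -, -, h3⟩ := local_frame hR hf hae hx
    obtain ⟨h4, h5⟩ := h3.self_of_nhds hx
    exact ⟨_, isTop_sum _ fun i _ => isTop_smul _ (h4 i), h5⟩
  let φ : ℂ → Fin N → ℂ := fun x => if hx : x ∉ Q.A s then (hex x hx).choose else 0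
  have hφ : ∀ x (hx : x ∉ Q.A s), φ x = (hex x hx).choose := fun x hx => dif_pos hx
  have hφt : ∀ x (hx : x ∉ Q.A s), IsTop w (V.E (Tot.mk Q s x hx)) (φ x) := fun x hx => by
    rw [hφ x hx]; exact (hex x hx).choose_spec.1
  have hφι : ∀ x (hx : x ∉ Q.A s) y, F.q y = Tot.mk Q s x hx →
      ι (Tot.mk Q s x hx) (φ x) y = f y := fun x hx y hy => by
    rw [hφ x hx]; exact (hex x hx).choose_spec.2 y hy
  have hE : TopE (R s) φ := by
    intro x hx
    have h1 := hφt x hx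
    rw [(hst.res s).E, rM_of V.E hx]
    exact h1
  have hho : (R s).Ho φ := by
    intro x₀ hx₀
    obtain ⟨ρ, e, c, he, hc, h3⟩ := local_frame hR hf hae hx₀
    have h4 : AnalyticAt ℂ (fun x => ∑ k, c k x •
        lV V.P (e k) (Tot.mk Q s x₀ hx₀) (fib Q s x₀ hx₀ x)) x₀ :=
      Finset.analyticAt_fun_sum _ fun k _ => (hc k).smul (analyticAt_fib hx₀ (he k))
    refine h4.congr ?_
    filter_upwards [h3, eventually_not_mem _ hx₀] with x h5 hx
    obtain ⟨h6, h7⟩ := h5 hx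
    have h8 : φ x = ∑ k, c k x • e k (Tot.mk Q s x hx) :=
      hR.inj (hφt x hx) (isTop_sum _ fun i _ => isTop_smul _ (h6 i)) fun y hy => by
        rw [hφι x hx y hy, h7 y hy]
    rw [lV_res hst hx₀ hx, h8, fib_of hx₀ hx, mulVec_sum]
    simp only [mulVec_smul]
    rfl
  have hint : IntegrableOn ((R s).nsq φ) ((Q.A s : Set ℂ)ᶜ) := by
    refine ⟨(continuousOn_nsq hE hho).aestronglyMeasurable (measurableSet_compl _), ?_⟩
    have h0 : 0 ≤ᵐ[volume.restrict ((Q.A s : Set ℂ)ᶜ)] (R s).nsq φ :=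
      ae_restrict_of_forall_mem (measurableSet_compl _) fun z hz =>
        nsq_nonneg hE (by simpa using hz)
    rw [hasFiniteIntegral_iff_ofReal h0]
    have h3 : ∫⁻ x in ((Q.A s : Set ℂ)ᶜ), ENNReal.ofReal ((R s).nsq φ x) =
        ∫⁻ x in ((Q.A s : Set ℂ)ᶜ), fD F s (fun y => ‖f y‖ₑ ^ 2) x :=
      setLIntegral_congr_fun (measurableSet_compl _) fun x hx =>
        (fD_sec hR hst hE hφι (by simpa using hx)).symm
    rw [h3]
    exact lt_of_le_of_lt (setLIntegral_le_lintegral _ _) h1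
  have htop : (R s).Top φ :=
    { zero := fun z hz => dif_neg (fun h => h hz)
      eig := hE
      hol := hho
      int := hint }
  refine ⟨cl s φ, isTop_cl hst htop, fun y hy => ?_⟩
  rw [down_eq hst htop rfl]
  subst hy
  exact hφι _ (F.q y).2 y rfl

theorem step_norm [T2Space Y] (hR : Rz V F ι) (hst : StepTop Q V W R cl) {s : S}
    {v : Fin N' → ℂ} (hv : IsTop (w + 1) (W.E s) v) :
    F.down.fnorm s (down R cl F ι s v) = ENNReal.ofReal (hnsq W s v) := by
  obtain ⟨f, hf, rfl⟩ := exists_top_of hst hv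
  have h0 : down R cl F ι s (cl s f) = fun y => ι (F.q y) (f (F.q y).1.2) y :=
    funext fun y => down_eq hst hf rfl y
  rw [h0]
  have hFH := fh_sec hR hst hf
  have hm := measurable_fsum F.down hFH
  have hE : TopE (R s) f := hf.eig
  rw [FSp.fnorm, fint_down F hm, hnsq, hst.norm s f hf,
    ofReal_integral_eq_lintegral_ofReal hf.int]
  · rw [← lintegral_indicator (measurableSet_compl _)]
    refine lintegral_congr fun x => ?_
    by_cases hx : x ∈ Q.A s
    · rw [Set.indicator_of_notMem (by simpa using hx), fD, dif_neg (fun h => h hx)]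
    · rw [Set.indicator_of_mem (by simpa using hx)]
      refine fD_sec hR hst hE ?_ hx
      intro x hx y hy
      rw [hy]
      rfl
  · exact ae_restrict_of_forall_mem (measurableSet_compl _) fun z hz =>
        nsq_nonneg hE (by simpa using hz)

/-- the section belonging to a family of top vectors -/
def pick (R : ∀ s : S, PVHS (Q.A s) N w) (cl : ∀ _ : S, (ℂ → Fin N → ℂ) → (Fin N' → ℂ))
    (v : S → Fin N' → ℂ) (s : S) : ℂ → Fin N → ℂ :=
  open Classical in if h : ∃ f, (R s).Top f ∧ cl s f = v s then h.choose else 0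

theorem pick_spec (hst : StepTop Q V W R cl) {v : S → Fin N' → ℂ} {s : S}
    (hv : IsTop (w + 1) (W.E s) (v s)) :
    (R s).Top (pick R cl v s) ∧ cl s (pick R cl v s) = v s := by
  have h := exists_top_of hst hv
  rw [pick, dif_pos h]
  exact h.choose_spec

theorem step_hol1 (hR : Rz V F ι) (hst : StepTop Q V W R cl) {s₀ : S} {v : S → Fin N' → ℂ}
    (hv : HolAt (lV W.P v s₀) s₀) (ht : ∀ᶠ s in 𝓝 s₀, IsTop (w + 1) (W.E s) (v s)) {y : Y}
    (hy : F.down.q y = s₀) :
    PB F.down.pc (fun y' => down R cl F ι (F.down.q y') (v (F.down.q y')) y') y := by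
  rw [pb_down]
  have hp : ∀ᶠ s in 𝓝 s₀, (R s).Top (pick R cl v s) ∧ cl s (pick R cl v s) = v s :=
    ht.mono fun s hs => pick_spec hst hs
  have hh := hst.hol2 s₀ v (pick R cl v) hv ht hp
  have hq : Tendsto (fun q : Tot Q => q.1.1) (𝓝 (F.q y)) (𝓝 s₀) := by
    rw [← hy]
    exact (continuous_fst.comp continuous_subtype_val).continuousAt
  have h1 : HolAt (lV V.P (sec (pick R cl v)) (F.q y)) (F.q y) :=
    hh.self_of_nhds (F.q y) hy
  have h2 : ∀ᶠ q in 𝓝 (F.q y), IsTop w (V.E q) (sec (pick R cl v) q) := by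
    filter_upwards [hq.eventually hp] with q hq
    exact isTop_of_top hst hq.1 rfl
  obtain ⟨g, hg, h3⟩ := hR.hol1 (F.q y) (sec (pick R cl v)) h1 h2 y rfl
  refine ⟨g, hg, ?_⟩
  have h4 : ∀ᶠ y' in 𝓝 y, (R (F.down.q y')).Top (pick R cl v (F.down.q y')) ∧
      cl (F.down.q y') (pick R cl v (F.down.q y')) = v (F.down.q y') :=
    (hq.comp F.continuous_q.continuousAt).eventually hp
  filter_upwards [h3, h4] with y' h5 h6
  rw [down_eq hst h6.1 h6.2, ← h5]
  rfl

theorem step_hol2 (hR : Rz V F ι) (hst : StepTop Q V W R cl) {s₀ : S} {v : S → Fin N' → ℂ}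
    (ht : ∀ᶠ s in 𝓝 s₀, IsTop (w + 1) (W.E s) (v s))
    (hpb : ∀ᶠ s in 𝓝 s₀, ∀ y, F.down.q y = s →
      PB F.down.pc (fun y' => down R cl F ι (F.down.q y') (v (F.down.q y')) y') y) :
    HolAt (lV W.P v s₀) s₀ := by
  have hp : ∀ᶠ s in 𝓝 s₀, (R s).Top (pick R cl v s) ∧ cl s (pick R cl v s) = v s :=
    ht.mono fun s hs => pick_spec hst hs
  have hh : ∀ᶠ s in 𝓝 s₀, HolFib V (pick R cl v) s := by
    filter_upwards [hp.eventually_nhds, hpb.eventually_nhds] with s h1 h2 q hq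
    have hqc : Tendsto (fun q : Tot Q => q.1.1) (𝓝 q) (𝓝 s) := by
      rw [← hq]
      exact (continuous_fst.comp continuous_subtype_val).continuousAt
    refine hR.hol2 q (sec (pick R cl v)) ?_ ?_
    · filter_upwards [hqc.eventually h1] with q' hq'
      exact isTop_of_top hst hq'.1 rfl
    · filter_upwards [hqc.eventually h1.eventually_nhds, hqc.eventually h2] with q' h3 h4 y hy
      have h5 := h4 y (by rw [down_q, hy])
      rw [pb_down] at h5
      obtain ⟨g, hg, h6⟩ := h5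
      refine ⟨g, hg, ?_⟩
      have hqy : Tendsto (fun y' => (F.q y').1.1) (𝓝 y) (𝓝 q'.1.1) := by
        rw [← hy]
        exact (continuous_fst.comp (continuous_subtype_val.comp F.continuous_q)).continuousAt
      filter_upwards [h6, hqy.eventually h3] with y' h7 h8
      rw [← h7]
      exact (down_eq hst h8.1 h8.2 y').symm
  have h1 := hst.hol1 s₀ (pick R cl v) (hp.mono fun s h => h.1) hh
  refine hol_congr h1 ?_
  filter_upwards [hp] with s hs
  simp only [lV, hs.2]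

/-- **The realisation goes down.** -/
theorem stepRz [T2Space Y] (hR : Rz V F ι) (hst : StepTop Q V W R cl) :
    Rz W F.down (down R cl F ι) where
  add _ _ _ hv hv' _ hy := step_add hR hst hv hv' hy
  smul _ c _ hv _ hy := step_smul hR hst c hv hy
  hol s v hv := by
    obtain ⟨f, hf, rfl⟩ := exists_top_of hst hv
    have h0 : down R cl F ι s (cl s f) = fun y => ι (F.q y) (f (F.q y).1.2) y :=
      funext fun y => down_eq hst hf rfl y
    rw [h0]
    exact fh_sec hR hst hf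
  norm _ _ hv := step_norm hR hst hv
  surj _ _ hf hfin := step_surj hR hst hf hfin
  hol1 _ _ hv ht _ hy := step_hol1 hR hst hv ht hy
  hol2 _ _ ht hpb := step_hol2 hR hst ht hpb

/-- **The compatibility with a group action goes down.** -/
theorem stepRzAct {Γ : Type} [Group Γ] {ρ : Act V Γ} {ρ' : Act W Γ} {α : Γ → Y → Y}
    (hR : Rz V F ι) (hA : RzAct ρ F ι α) (hst : StepTop Q V W R cl)
    (heq : ∀ s g f, (R s).Top f →
      cl s (fun x => rM Q (fun q => cm (ρ.ρ g q)) s x *ᵥ f x) = cm (ρ'.ρ g s) *ᵥ cl s f) :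
    RzAct ρ' F.down (down R cl F ι) α where
  q g y := by rw [down_q, down_q, hA.q]
  t g y := by rw [down_t, down_t, hA.q, hA.t]
  eqv g s v hv y hy := by
    obtain ⟨f, hf, rfl⟩ := exists_top_of hst hv
    -- the transported section
    set f' : ℂ → Fin N → ℂ := fun x => rM Q (fun q => cm (ρ.ρ g q)) s x *ᵥ f x with hf'
    have hf'of : ∀ x (hx : x ∉ Q.A s), f' x = cm (ρ.ρ g (Tot.mk Q s x hx)) *ᵥ f x := by
      intro x hx
      rw [hf']
      simp only
      rw [rM_of _ hx]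
    have hE : TopE (R s) f' := by
      intro x hx
      have h1 : IsTop w (V.E (Tot.mk Q s x hx)) (f x) := isTop_of_top hst hf (q := Tot.mk Q s x hx)
        rfl
      rw [(hst.res s).E, rM_of V.E hx, hf'of x hx]
      show V.E (Tot.mk Q s x hx) *ᵥ (cm (ρ.ρ g (Tot.mk Q s x hx)) *ᵥ f x) = _
      rw [mulVec_mulVec, ← ρ.commE, ← mulVec_mulVec,
        (show V.E (Tot.mk Q s x hx) *ᵥ f x = (w : ℂ) • f x from h1), mulVec_smul]
    have hfE : TopE (R s) f := hf.eig
    have hho : (R s).Ho f' := by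
      intro x₀ hx₀
      have h1 := hf.hol x₀ hx₀
      have h2 : AnalyticAt ℂ (fun x => cm (ρ.ρ g (Tot.mk Q s x₀ hx₀)) *ᵥ lV (R s).P f x₀ x) x₀ :=
        ((LinearMap.toContinuousLinearMap (Matrix.mulVecLin
          (cm (ρ.ρ g (Tot.mk Q s x₀ hx₀))))).analyticAt _).comp h1
      refine h2.congr ?_
      have h3 := (continuousAt_fib_tendsto hx₀).eventually (ρ.flat g (Tot.mk Q s x₀ hx₀))
      filter_upwards [h3, eventually_not_mem _ hx₀] with x h4 hx
      rw [fib_of hx₀ hx] at h4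
      rw [lV_res hst hx₀ hx, lV_res hst hx₀ hx, hf'of x hx, mulVec_mulVec, mulVec_mulVec,
        ← cm_mul, ← cm_mul, h4]
    have hnsq : ∀ x (hx : x ∉ Q.A s), (R s).nsq f' x = (R s).nsq f x := by
      intro x hx
      rw [nsq_eq hE hx, nsq_eq hfE hx, hf'of x hx, ← star_quad, (hst.res s).S, rM_of V.S hx,
        ρ.presS]
    have htop : (R s).Top f' :=
      { zero := fun z hz => by
          rw [hf']
          simp only
          rw [hf.zero z hz, mulVec_zero]
        eig := hE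
        hol := hho
        int := by
          refine (integrableOn_congr_fun ?_ (measurableSet_compl _)).2 hf.int
          intro x hx
          exact hnsq x (by simpa using hx) }
    rw [down_eq hst htop (heq s g f hf), down_eq hst hf rfl]
    have hy' : (F.q y).1.1 = s := hy
    have hx : (F.q y).1.2 ∉ Q.A s := by rw [← hy']; exact (F.q y).2
    have hq : F.q y = Tot.mk Q s (F.q y).1.2 hx := (q_eq_mk F).2 ⟨hy', rfl⟩
    have h1 := hA.eqv g (F.q y) (f (F.q y).1.2) (isTop_of_top hst hf hy') y rfl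
    rw [hf'of _ hx, ← hq, h1, hA.q]

end step

end Crest.Agent.R276.Top8_815
end
end

-- ▼ part R276/IpcRz_840

/-!
# Row 276, IPC : the realisation step holds (helper840)

`stepRz_holds : StepRz` and `stepRzAct_holds : StepRzAct` : the two hypotheses about the realisation in
`IpcIter_840` (`iter`, `geoVHS`), from helper815's `Top8g_815`.
-/

set_option autoImplicit false

open Crest.Agent.R271.Ho51 Crest.Agent.R276.Ipc735 Crest.Agent.R276.Top8_815

namespace Crest.Agent.R276.Iter_840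

theorem stepRz_holds : StepRz := by
  intro m k N N' w d S _ _ _ _ _ Y _ _ Q V W R cl F ι hR hst
  exact stepRz hR hst

theorem stepRzAct_holds : StepRzAct := by
  intro m k N N' w d S _ _ _ _ _ Y _ _ Q V W R cl F ι Γ _ ρ ρ' α hR hA hst heq
  exact stepRzAct hR hA hst heq

end Crest.Agent.R276.Iter_840
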