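import Crest.Agent.R276.PVa_159
import Crest.Agent.R271.Rd8_692

-- ▼ part R276/PVb_159
section

/-!
# Row 276, part D1 (helper159): fibre products of Riemann domains over the first coordinate
-/

set_option autoImplicit false
set_option linter.unusedSectionVars false

noncomputable section

open Set Filter Topology Complex

namespace Crest.Agent.R276.PV_159

open Crest.Agent.R271 Crest.Agent.R271.Ho51 Crest.Agent.R271.W792

/-! ### coordinate maps -/

/-- `(t, x, y) ↦ (t, x)` -/
def L1 (a b : ℕ) : (Fin (a + b + 1) → ℂ) →L[ℂ] (Fin (a + 1) → ℂ) :=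
  ContinuousLinearMap.pi fun i : Fin (a + 1) =>
    Fin.cases (ContinuousLinearMap.proj (0 : Fin (a + b + 1)))
      (fun j => ContinuousLinearMap.proj (Fin.castAdd b j).succ) i

/-- `(t, x, y) ↦ (t, y)` -/
def L2 (a b : ℕ) : (Fin (a + b + 1) → ℂ) →L[ℂ] (Fin (b + 1) → ℂ) :=
  ContinuousLinearMap.pi fun i : Fin (b + 1) =>
    Fin.cases (ContinuousLinearMap.proj (0 : Fin (a + b + 1)))
      (fun j => ContinuousLinearMap.proj (Fin.natAdd a j).succ) i

variable {a b : ℕ}

@[simp] lemma L1_zero (z : Fin (a + b + 1) → ℂ) : L1 a b z 0 = z 0 := rfl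
@[simp] lemma L1_succ (z : Fin (a + b + 1) → ℂ) (j : Fin a) :
    L1 a b z j.succ = z (Fin.castAdd b j).succ := rfl
@[simp] lemma L2_zero (z : Fin (a + b + 1) → ℂ) : L2 a b z 0 = z 0 := rfl
@[simp] lemma L2_succ (z : Fin (a + b + 1) → ℂ) (j : Fin b) :
    L2 a b z j.succ = z (Fin.natAdd a j).succ := rfl

/-- `(t, x), (t, y) ↦ (t, x, y)` -/
def glue (u : Fin (a + 1) → ℂ) (v : Fin (b + 1) → ℂ) : Fin (a + b + 1) → ℂ :=
  Fin.cons (u 0) (Fin.append (fun i => u i.succ) (fun j => v j.succ))

@[simp] lemma glue_zero (u : Fin (a + 1) → ℂ) (v : Fin (b + 1) → ℂ) : glue u v 0 = u 0 := rfl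

lemma L1_glue (u : Fin (a + 1) → ℂ) (v : Fin (b + 1) → ℂ) : L1 a b (glue u v) = u := by
  funext i
  refine Fin.cases ?_ (fun j => ?_) i
  · rfl
  · simp [glue]

lemma L2_glue (u : Fin (a + 1) → ℂ) (v : Fin (b + 1) → ℂ) (h : u 0 = v 0) :
    L2 a b (glue u v) = v := by
  funext i
  refine Fin.cases ?_ (fun j => ?_) i
  · simp [h]
  · simp [glue]

lemma glue_L (z : Fin (a + b + 1) → ℂ) : glue (L1 a b z) (L2 a b z) = z := by
  funext i
  refine Fin.cases ?_ (fun j => ?_) i
  · rfl
  · refine Fin.addCases (fun j => ?_) (fun j => ?_) j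
    · simp [glue]
    · simp [glue]

lemma continuous_glue : Continuous fun p : (Fin (a + 1) → ℂ) × (Fin (b + 1) → ℂ) =>
    (glue p.1 p.2 : Fin (a + b + 1) → ℂ) := by
  refine continuous_pi fun i => ?_
  refine Fin.cases ?_ (fun j => ?_) i
  · simp only [glue_zero]; fun_prop
  · refine Fin.addCases (fun j => ?_) (fun j => ?_) j
    · simp only [glue, Fin.cons_succ, Fin.append_left]; fun_prop
    · simp only [glue, Fin.cons_succ, Fin.append_right]; fun_prop

/-! ### the fibre product -/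

variable (M : Type) (N : Type) [TopologicalSpace M] [TopologicalSpace N]
  [RDom (a + 1) M] [RDom (b + 1) N]

/-- the fibre product `M ×_t N` -/
def FP : Type := {p : M × N // (cp p.1 : Fin (a + 1) → ℂ) 0 = (cp p.2 : Fin (b + 1) → ℂ) 0}

instance instTopFP : TopologicalSpace (FP M N) := instTopologicalSpaceSubtype
instance [T2Space M] [T2Space N] : T2Space (FP M N) :=
  inferInstanceAs (T2Space {p : M × N // (cp p.1 : Fin (a + 1) → ℂ) 0 = (cp p.2 : Fin (b + 1) → ℂ) 0})
instance [SecondCountableTopology M] [SecondCountableTopology N] :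
    SecondCountableTopology (FP M N) :=
  TopologicalSpace.Subtype.secondCountableTopology
    {p : M × N | (cp p.1 : Fin (a + 1) → ℂ) 0 = (cp p.2 : Fin (b + 1) → ℂ) 0}

variable {M N}

/-- first projection -/
def FP.fst (p : FP M N) : M := p.1.1
/-- second projection -/
def FP.snd (p : FP M N) : N := p.1.2

lemma FP.cond (p : FP M N) : (cp p.fst : Fin (a + 1) → ℂ) 0 = (cp p.snd : Fin (b + 1) → ℂ) 0 := p.2

/-- constructor -/
def FP.mk' (x : M) (y : N) (h : (cp x : Fin (a + 1) → ℂ) 0 = (cp y : Fin (b + 1) → ℂ) 0) :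
    FP M N := ⟨(x, y), h⟩

lemma FP.ext' {p q : FP M N} (h1 : p.fst = q.fst) (h2 : p.snd = q.snd) : p = q :=
  Subtype.ext (Prod.ext h1 h2)

lemma FP.cont_fst : Continuous (FP.fst : FP M N → M) :=
  continuous_fst.comp continuous_subtype_val
lemma FP.cont_snd : Continuous (FP.snd : FP M N → N) :=
  continuous_snd.comp continuous_subtype_val

/-- coordinates on the fibre product -/
def FP.crd (p : FP M N) : Fin (a + b + 1) → ℂ := glue (cp p.fst) (cp p.snd)

lemma FP.cont_crd : Continuous (FP.crd : FP M N → Fin (a + b + 1) → ℂ) :=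
  continuous_glue.comp ((cp_cont.comp FP.cont_fst).prodMk (cp_cont.comp FP.cont_snd))

lemma FP.L1_crd (p : FP M N) : L1 a b p.crd = cp p.fst := L1_glue _ _
lemma FP.L2_crd (p : FP M N) : L2 a b p.crd = cp p.snd := L2_glue _ _ p.cond

lemma FP.compat {e : OpenPartialHomeomorph M (Fin (a + 1) → ℂ)}
    {d : OpenPartialHomeomorph N (Fin (b + 1) → ℂ)} (he : IsCh e) (hd : IsCh d)
    {z : Fin (a + b + 1) → ℂ} (h : L1 a b z ∈ e.target ∧ L2 a b z ∈ d.target) :
    (cp (e.symm (L1 a b z)) : Fin (a + 1) → ℂ) 0 = (cp (d.symm (L2 a b z)) : Fin (b + 1) → ℂ) 0 := by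
  rw [he.cp_symm h.1, hd.cp_symm h.2, L1_zero, L2_zero]

open Classical in
/-- the chart of the fibre product given by two charts -/
def FP.chart (e : OpenPartialHomeomorph M (Fin (a + 1) → ℂ))
    (d : OpenPartialHomeomorph N (Fin (b + 1) → ℂ)) (he : IsCh e) (hd : IsCh d) (p0 : FP M N) :
    OpenPartialHomeomorph (FP M N) (Fin (a + b + 1) → ℂ) where
  toFun := FP.crd
  invFun z := if h : L1 a b z ∈ e.target ∧ L2 a b z ∈ d.target then
    FP.mk' (e.symm (L1 a b z)) (d.symm (L2 a b z)) (FP.compat he hd h) else p0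
  source := {p | p.fst ∈ e.source ∧ p.snd ∈ d.source}
  target := {z | L1 a b z ∈ e.target ∧ L2 a b z ∈ d.target}
  map_source' p hp := by
    show L1 a b p.crd ∈ e.target ∧ L2 a b p.crd ∈ d.target
    rw [FP.L1_crd, FP.L2_crd]
    exact ⟨he.cp_mem hp.1, hd.cp_mem hp.2⟩
  map_target' z hz := by
    have hz' : L1 a b z ∈ e.target ∧ L2 a b z ∈ d.target := hz
    rw [dif_pos hz']
    exact ⟨e.map_target hz.1, d.map_target hz.2⟩
  left_inv' p hp := by
    have h : L1 a b p.crd ∈ e.target ∧ L2 a b p.crd ∈ d.target := by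
      rw [FP.L1_crd, FP.L2_crd]
      exact ⟨he.cp_mem hp.1, hd.cp_mem hp.2⟩
    rw [dif_pos h]
    apply FP.ext'
    · show e.symm (L1 a b p.crd) = p.fst
      rw [FP.L1_crd]; exact he.symm_cp hp.1
    · show d.symm (L2 a b p.crd) = p.snd
      rw [FP.L2_crd]; exact hd.symm_cp hp.2
  right_inv' z hz := by
    have hz' : L1 a b z ∈ e.target ∧ L2 a b z ∈ d.target := hz
    rw [dif_pos hz']
    show glue (cp (e.symm (L1 a b z))) (cp (d.symm (L2 a b z))) = z
    rw [he.cp_symm hz.1, hd.cp_symm hz.2, glue_L]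
  open_source := (e.open_source.preimage FP.cont_fst).inter (d.open_source.preimage FP.cont_snd)
  open_target := (e.open_target.preimage (L1 a b).continuous).inter
    (d.open_target.preimage (L2 a b).continuous)
  continuousOn_toFun := FP.cont_crd.continuousOn
  continuousOn_invFun := by
    rw [continuousOn_iff_continuous_domRestrict]
    have h1 : (({z : Fin (a + b + 1) → ℂ | L1 a b z ∈ e.target ∧ L2 a b z ∈ d.target}).domRestrict
        (fun z => if h : L1 a b z ∈ e.target ∧ L2 a b z ∈ d.target then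
          FP.mk' (e.symm (L1 a b z)) (d.symm (L2 a b z)) (FP.compat he hd h) else p0)) =
        fun z => FP.mk' (e.symm (L1 a b z.1)) (d.symm (L2 a b z.1)) (FP.compat he hd z.2) := by
      funext z
      exact dif_pos z.2
    rw [h1]
    refine Continuous.subtype_mk ?_ _
    refine Continuous.prodMk ?_ ?_
    · have := e.continuousOn_symm
      rw [continuousOn_iff_continuous_domRestrict] at this
      exact this.comp (f := fun z : {z : Fin (a + b + 1) → ℂ | L1 a b z ∈ e.target ∧
        L2 a b z ∈ d.target} => (⟨L1 a b z.1, z.2.1⟩ : e.target))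
        (Continuous.subtype_mk ((L1 a b).continuous.comp continuous_subtype_val) _)
    · have := d.continuousOn_symm
      rw [continuousOn_iff_continuous_domRestrict] at this
      exact this.comp (f := fun z : {z : Fin (a + b + 1) → ℂ | L1 a b z ∈ e.target ∧
        L2 a b z ∈ d.target} => (⟨L2 a b z.1, z.2.2⟩ : d.target))
        (Continuous.subtype_mk ((L2 a b).continuous.comp continuous_subtype_val) _)

instance instRDomFP : RDom (a + b + 1) (FP M N) where
  p := FP.crd
  hp := fun p => ⟨FP.chart (ch p.fst) (ch p.snd) (isCh_ch _) (isCh_ch _) p,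
    ⟨mem_ch _, mem_ch _⟩, rfl⟩

lemma FP.cp_eq (p : FP M N) : (cp p : Fin (a + b + 1) → ℂ) = FP.crd p := rfl

lemma FP.isCh_chart {e : OpenPartialHomeomorph M (Fin (a + 1) → ℂ)}
    {d : OpenPartialHomeomorph N (Fin (b + 1) → ℂ)} (he : IsCh e) (hd : IsCh d) (p0 : FP M N) :
    IsCh (FP.chart e d he hd p0) := rfl


lemma FP.mor_fst : Mor (0 : Fin (a + 1) → ℂ) (L1 a b) (FP.fst : FP M N → M) where
  cont := FP.cont_fst
  eq p := by rw [zero_add]; exact (FP.L1_crd p).symm

lemma FP.mor_snd : Mor (0 : Fin (b + 1) → ℂ) (L2 a b) (FP.snd : FP M N → N) where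
  cont := FP.cont_snd
  eq p := by rw [zero_add]; exact (FP.L2_crd p).symm

end Crest.Agent.R276.PV_159
end
end

-- ▼ part R276/PVc_159

/-!
# Row 276, part D1 (helper159): fibre integrals and Fubini
-/

set_option autoImplicit false
set_option linter.unusedSectionVars false

noncomputable section

open Set Filter Topology Complex MeasureTheory
open scoped ENNReal

namespace Crest.Agent.R276.PV_159

open Crest.Agent.R271 Crest.Agent.R271.Ho51 Crest.Agent.R271.W792

/-! ### measure preserving maps -/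

/-- `(x, y) ↦ append x y` as a measurable equivalence -/
def eApp (a b : ℕ) : ((Fin a → ℂ) × (Fin b → ℂ)) ≃ᵐ (Fin (a + b) → ℂ) :=
  (MeasurableEquiv.sumPiEquivProdPi (fun _ : Fin a ⊕ Fin b => ℂ)).symm.trans
    (MeasurableEquiv.piCongrLeft (fun _ : Fin (a + b) => ℂ) finSumFinEquiv)

lemma eApp_apply (a b : ℕ) (p : (Fin a → ℂ) × (Fin b → ℂ)) :
    eApp a b p = Fin.append p.1 p.2 := by
  funext i
  refine Fin.addCases (fun j => ?_) (fun j => ?_) i
  · rw [Fin.append_left]
    have h := Equiv.piCongrLeft_apply_apply (fun _ : Fin (a + b) => ℂ) finSumFinEquiv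
      ((MeasurableEquiv.sumPiEquivProdPi (fun _ : Fin a ⊕ Fin b => ℂ)).symm p) (Sum.inl j)
    exact h
  · rw [Fin.append_right]
    have h := Equiv.piCongrLeft_apply_apply (fun _ : Fin (a + b) => ℂ) finSumFinEquiv
      ((MeasurableEquiv.sumPiEquivProdPi (fun _ : Fin a ⊕ Fin b => ℂ)).symm p) (Sum.inr j)
    exact h

lemma eApp_mp (a b : ℕ) : MeasurePreserving (eApp a b) volume volume :=
  (volume_measurePreserving_sumPiEquivProdPi_symm (fun _ : Fin a ⊕ Fin b => ℂ)).trans
    (volume_measurePreserving_piCongrLeft (fun _ : Fin (a + b) => ℂ) finSumFinEquiv)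

lemma lintegral_append {a b : ℕ} {g : (Fin (a + b) → ℂ) → ℝ≥0∞} (hg : Measurable g) :
    ∫⁻ z, g z = ∫⁻ x : Fin a → ℂ, ∫⁻ y : Fin b → ℂ, g (Fin.append x y) := by
  rw [← (eApp_mp a b).lintegral_comp hg, Measure.volume_eq_prod, lintegral_prod]
  · simp only [eApp_apply]
  · exact (hg.comp (eApp a b).measurable).aemeasurable

lemma measurable_append {a b : ℕ} {g : (Fin (a + b) → ℂ) → ℝ≥0∞} (hg : Measurable g) :
    Measurable fun p : (Fin a → ℂ) × (Fin b → ℂ) => g (Fin.append p.1 p.2) := by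
  have h : (fun p : (Fin a → ℂ) × (Fin b → ℂ) => g (Fin.append p.1 p.2)) = g ∘ eApp a b := by
    funext p
    simp only [Function.comp_apply, eApp_apply]
  rw [h]
  exact hg.comp (eApp a b).measurable

lemma eCons_apply {a : ℕ} (p : ℂ × (Fin a → ℂ)) :
    (MeasurableEquiv.piFinSuccAbove (fun _ : Fin (a + 1) => ℂ) 0).symm p =
      (Fin.cons p.1 p.2 : Fin (a + 1) → ℂ) := by
  show (Fin.insertNth 0 p.1 p.2 : Fin (a + 1) → ℂ) = Fin.cons p.1 p.2
  exact Fin.insertNth_zero' p.1 p.2

lemma lintegral_cons {a : ℕ} {g : (Fin (a + 1) → ℂ) → ℝ≥0∞} (hg : Measurable g) :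
    ∫⁻ z, g z = ∫⁻ t : ℂ, ∫⁻ x : Fin a → ℂ, g (Fin.cons t x) := by
  have h := (volume_preserving_piFinSuccAbove (fun _ : Fin (a + 1) => ℂ) 0).symm
  rw [← h.lintegral_comp hg, Measure.volume_eq_prod, lintegral_prod]
  · simp only [eCons_apply]
  · exact (hg.comp (MeasurableEquiv.measurable _)).aemeasurable

lemma measurable_cons {a : ℕ} {g : (Fin (a + 1) → ℂ) → ℝ≥0∞} (hg : Measurable g) :
    Measurable fun p : ℂ × (Fin a → ℂ) => g (Fin.cons p.1 p.2) := by
  have h : (fun p : ℂ × (Fin a → ℂ) => g (Fin.cons p.1 p.2)) =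
      g ∘ (MeasurableEquiv.piFinSuccAbove (fun _ : Fin (a + 1) => ℂ) 0).symm := by
    funext p
    simp only [Function.comp_apply, eCons_apply]
  rw [h]
  exact hg.comp (MeasurableEquiv.measurable _)

/-! ### fibre integrals -/

section fi

variable {a : ℕ} {M : Type} [TopologicalSpace M] [RDom (a + 1) M]

/-- fibre sum -/
def fsum (g : M → ℝ≥0∞) (ζ : Fin (a + 1) → ℂ) : ℝ≥0∞ := ∑' y : {y : M // cp y = ζ}, g y.1

/-- integral over the fibre `M_t` -/
def fi (g : M → ℝ≥0∞) (t : ℂ) : ℝ≥0∞ := ∫⁻ x : Fin a → ℂ, fsum g (Fin.cons t x)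

lemma fsum_mono {g h : M → ℝ≥0∞} {ζ : Fin (a + 1) → ℂ} (H : ∀ y, cp y = ζ → g y ≤ h y) :
    fsum g ζ ≤ fsum h ζ := ENNReal.tsum_le_tsum fun y => H y.1 y.2

lemma fsum_congr {g h : M → ℝ≥0∞} {ζ : Fin (a + 1) → ℂ} (H : ∀ y, cp y = ζ → g y = h y) :
    fsum g ζ = fsum h ζ := tsum_congr fun y => H y.1 y.2

lemma fi_mono {g h : M → ℝ≥0∞} {t : ℂ} (H : ∀ y : M, (cp y : Fin (a + 1) → ℂ) 0 = t → g y ≤ h y) :
    fi g t ≤ fi h t :=
  lintegral_mono fun x => fsum_mono fun y hy => H y (by rw [hy]; rfl)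

lemma fi_congr {g h : M → ℝ≥0∞} {t : ℂ}
    (H : ∀ y : M, (cp y : Fin (a + 1) → ℂ) 0 = t → g y = h y) : fi g t = fi h t :=
  lintegral_congr fun x => fsum_congr fun y hy => H y (by rw [hy]; rfl)

lemma fi_const_mul {g : M → ℝ≥0∞} {t : ℂ} {k : ℝ≥0∞} (hk : k ≠ ∞) :
    fi (fun y => k * g y) t = k * fi g t := by
  unfold fi fsum
  rw [← lintegral_const_mul' k _ hk]
  refine lintegral_congr fun x => ?_
  rw [ENNReal.tsum_mul_left]

variable [MeasurableSpace M] [BorelSpace M] [SecondCountableTopology M]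

lemma measurable_fsum {g : M → ℝ≥0∞} (hg : Measurable g) :
    Measurable (fsum g : (Fin (a + 1) → ℂ) → ℝ≥0∞) := Rd692.measurable_fibre hg

lemma measurable_fi {g : M → ℝ≥0∞} (hg : Measurable g) : Measurable (fi g) :=
  (measurable_cons (measurable_fsum hg)).lintegral_prod_right'

theorem lintegral_eq_fi {μ : Measure M} (hμ : IsLeb μ) {g : M → ℝ≥0∞} (hg : Measurable g) :
    ∫⁻ y, g y ∂μ = ∫⁻ t : ℂ, fi g t := by
  rw [Rd692.lintegral_eq_fibre hμ hg]
  exact lintegral_cons (measurable_fsum hg)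


end fi

/-! ### fibres are countable -/

section count

variable {n : ℕ} {M : Type} [TopologicalSpace M] [RDom n M] [SecondCountableTopology M]

instance fibre_countable (ζ : Fin n → ℂ) : Countable {y : M // cp y = ζ} := by
  rcases isEmpty_or_nonempty M with hM | hM
  · infer_instance
  obtain ⟨S, hSc, hSu⟩ := TopologicalSpace.countable_cover_nhds
    (f := fun x : M => (ch x).source) (fun x => (ch x).open_source.mem_nhds (mem_ch x))
  have h1 : ∀ y : {y : M // cp y = ζ}, ∃ x : S, y.1 ∈ (ch x.1).source := by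
    intro y
    have : y.1 ∈ ⋃ x ∈ S, (ch x).source := by rw [hSu]; trivial
    simp only [mem_iUnion] at this
    obtain ⟨x, hx, hy⟩ := this
    exact ⟨⟨x, hx⟩, hy⟩
  choose f hf using h1
  have : Countable S := hSc
  refine Function.Injective.countable (f := f) ?_
  intro y y' h
  have h2 := hf y
  have h3 := hf y'
  rw [← h] at h3
  apply Subtype.ext
  exact (isCh_ch (f y).1).injOn h2 h3 (by rw [y.2, y'.2])

end count

/-! ### Fubini for the fibre product -/

section fub

variable {a b : ℕ} {M N : Type} [TopologicalSpace M] [TopologicalSpace N]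
  [RDom (a + 1) M] [RDom (b + 1) N]

open Classical in
/-- a function on the fibre product as a function of two variables -/
def ext2 {E : Type*} [Zero E] (G : FP M N → E) (x : M) (y : N) : E :=
  if h : (cp x : Fin (a + 1) → ℂ) 0 = (cp y : Fin (b + 1) → ℂ) 0 then G (FP.mk' x y h) else 0

lemma ext2_of {E : Type*} [Zero E] (G : FP M N → E) {x : M} {y : N}
    (h : (cp x : Fin (a + 1) → ℂ) 0 = (cp y : Fin (b + 1) → ℂ) 0) :
    ext2 G x y = G (FP.mk' x y h) := dif_pos h

/-- the fibre of the fibre product -/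
def fibEquiv (t : ℂ) (x : Fin a → ℂ) (y : Fin b → ℂ) :
    {p : FP M N // cp p = (Fin.cons t (Fin.append x y) : Fin (a + b + 1) → ℂ)} ≃
      {m : M // cp m = (Fin.cons t x : Fin (a + 1) → ℂ)} ×
        {n : N // cp n = (Fin.cons t y : Fin (b + 1) → ℂ)} where
  toFun p := (⟨p.1.fst, by
      have h : L1 a b (cp p.1) = cp p.1.fst := FP.L1_crd p.1
      rw [← h, p.2]
      funext i
      refine Fin.cases rfl (fun j => ?_) i
      simp⟩, ⟨p.1.snd, by
      have h : L2 a b (cp p.1) = cp p.1.snd := FP.L2_crd p.1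
      rw [← h, p.2]
      funext i
      refine Fin.cases rfl (fun j => ?_) i
      simp⟩)
  invFun q := ⟨FP.mk' q.1.1 q.2.1 (by rw [q.1.2, q.2.2]; rfl), by
      show glue (cp q.1.1) (cp q.2.1) = _
      rw [q.1.2, q.2.2]
      rfl⟩
  left_inv p := rfl
  right_inv q := rfl

lemma fsum_FP (G : FP M N → ℝ≥0∞) (t : ℂ) (x : Fin a → ℂ) (y : Fin b → ℂ) :
    fsum G (Fin.cons t (Fin.append x y)) =
      fsum (fun m => fsum (fun n => ext2 G m n) (Fin.cons t y)) (Fin.cons t x) := by
  unfold fsum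
  rw [← (fibEquiv (M := M) (N := N) t x y).symm.tsum_eq, ENNReal.tsum_prod']
  refine tsum_congr fun m => tsum_congr fun n => ?_
  show _ = ext2 G m.1 n.1
  rw [ext2_of G (x := m.1) (y := n.1) (by rw [m.2, n.2]; rfl)]
  rfl

variable [SecondCountableTopology M] [SecondCountableTopology N]
  [MeasurableSpace M] [BorelSpace M] [MeasurableSpace N] [BorelSpace N]
  [MeasurableSpace (FP M N)] [BorelSpace (FP M N)]

lemma measurable_ext2 [T2Space N] {G : FP M N → ℝ≥0∞} (hG : Measurable G) (m : M) :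
    Measurable (ext2 G m) := by
  classical
  set C : Set N := {n | (cp m : Fin (a + 1) → ℂ) 0 = (cp n : Fin (b + 1) → ℂ) 0} with hC
  have hCc : IsClosed C := by
    refine isClosed_eq continuous_const ?_
    exact (continuous_apply 0).comp cp_cont
  apply measurable_of_restrict_of_restrict_compl hCc.measurableSet
  · have h1 : C.domRestrict (ext2 G m) = G ∘ (fun n : C => FP.mk' m n.1 n.2) := by
      funext n
      exact ext2_of G n.2
    rw [h1]
    refine hG.comp (Continuous.measurable ?_)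
    exact Continuous.subtype_mk (continuous_const.prodMk continuous_subtype_val) _
  · have h1 : (Cᶜ).domRestrict (ext2 G m) = fun _ => 0 := by
      funext n
      exact dif_neg n.2
    rw [h1]
    exact measurable_const

/-- **Fubini** for the fibre product -/
theorem fi_FP [T2Space N] {G : FP M N → ℝ≥0∞} (hG : Measurable G) (t : ℂ) :
    fi G t = fi (fun m => fi (fun n => ext2 G m n) t) t := by
  have h0 : Measurable fun z : Fin (a + b) → ℂ => fsum G (Fin.cons t z : Fin (a + b + 1) → ℂ) :=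
    (measurable_cons (measurable_fsum hG)).comp (measurable_const.prodMk measurable_id)
  unfold fi
  rw [lintegral_append h0]
  refine lintegral_congr fun x => ?_
  simp_rw [fsum_FP]
  unfold fsum
  rw [lintegral_tsum]
  intro m
  refine Measurable.aemeasurable ?_
  exact (measurable_cons (measurable_fsum (measurable_ext2 hG m.1))).comp
    (measurable_const.prodMk measurable_id)

end fub

end Crest.Agent.R276.PV_159
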