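import Crest.Agent.R276.Top8d_815
import Crest.Agent.R276.Res_735

-- ▼ part R276/Top8e_815
section

/-!
# Row 276, IPC step (8): fibre integrals and the evaluation-point argument (helper815)

* `FSp.exists_sec`: local sections of a fibred space.
* `lsc_fsum`, `measurable_fsum`: the sum over the points of the fibre with given fibre coordinates is
  measurable (`Y` Hausdorff).
* `fint_down`: Tonelli for `FSp.down`.
* `pb_down`: the coordinates of `F` and of `F.down` define the same analytic functions.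
* `ep_core'`: the evaluation-point argument with sections.
-/

set_option autoImplicit false
set_option linter.unusedSectionVars false

noncomputable section

open Set Filter Topology MeasureTheory Matrix
open Crest.Agent.R271.Ho51 Crest.Agent.R276.Ipc735
open scoped ENNReal

namespace Crest.Agent.R276.Top8_815

section fibre

variable {n d : ℕ} {X Y : Type*} [TopologicalSpace X] [RDom n X] [TopologicalSpace Y]
  (F : FSp n d X Y)

/-- local section through `y` in all variables -/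
theorem FSp.exists_sec (y : Y) : ∃ σ : X × (Fin d → ℂ) → Y, σ (F.q y, F.t y) = y ∧
    ∀ᶠ p in 𝓝 (F.q y, F.t y), ContinuousAt σ p ∧ F.q (σ p) = p.1 ∧ F.t (σ p) = p.2 := by
  obtain ⟨e, he, hf⟩ := F.lh y
  have h1 : e y = (F.q y, F.t y) := by rw [← hf]
  refine ⟨e.symm, ?_, ?_⟩
  · rw [← h1]; exact e.left_inv he
  · have h2 : (F.q y, F.t y) ∈ e.target := by rw [← h1]; exact e.map_source he
    filter_upwards [e.open_target.mem_nhds h2] with p hp
    have h3 : (F.q (e.symm p), F.t (e.symm p)) = p := by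
      have := e.right_inv hp
      rw [← hf] at this
      exact this
    exact ⟨e.symm.continuousAt hp, congrArg Prod.fst h3, congrArg Prod.snd h3⟩

theorem FSp.continuous_qt : Continuous fun y => (F.q y, F.t y) := F.lh.continuous

theorem FSp.continuous_q : Continuous F.q := continuous_fst.comp F.continuous_qt

theorem FSp.continuous_t : Continuous F.t := continuous_snd.comp F.continuous_qt

theorem FSp.continuous_pc : Continuous F.pc :=
  (cp_cont.comp F.continuous_q).prodMk F.continuous_t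

/-- local section through `y` along the fibre -/
theorem FSp.exists_fsec (y : Y) : ∃ σ : (Fin d → ℂ) → Y, σ (F.t y) = y ∧
    ContinuousAt σ (F.t y) ∧ ∀ᶠ τ in 𝓝 (F.t y), F.q (σ τ) = F.q y ∧ F.t (σ τ) = τ := by
  obtain ⟨σ, h1, h2⟩ := F.exists_sec y
  have hc : Tendsto (fun τ : Fin d → ℂ => (F.q y, τ)) (𝓝 (F.t y)) (𝓝 (F.q y, F.t y)) :=
    (Continuous.prodMk_right (F.q y)).tendsto (F.t y)
  refine ⟨fun τ => σ (F.q y, τ), h1, ?_, ?_⟩
  · exact ContinuousAt.comp (g := σ) (h2.self_of_nhds.1) hc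
  · exact (hc.eventually h2).mono fun τ h => ⟨h.2.1, h.2.2⟩

/-- sum over the points of the fibre over `u` with fibre coordinates `τ` -/
def FSp.fsum (u : X) (g : Y → ℝ≥0∞) (τ : Fin d → ℂ) : ℝ≥0∞ :=
  ∑' y : {y : Y // F.q y = u ∧ F.t y = τ}, g y.1

theorem FSp.fint_eq (u : X) (g : Y → ℝ≥0∞) : F.fint u g = ∫⁻ τ, F.fsum u g τ := rfl

theorem lsc_fsum [T2Space Y] {u : X} {g : Y → ℝ≥0∞}
    (hg : ∀ y, F.q y = u → ContinuousWithinAt g {y' | F.q y' = u} y) :
    LowerSemicontinuous (F.fsum u g) := by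
  classical
  intro τ₀ c hc
  rw [gt_iff_lt, FSp.fsum, ENNReal.tsum_eq_iSup_sum, lt_iSup_iff] at hc
  obtain ⟨s, hs⟩ := hc
  choose σ hσ0 hσc hσe using fun y => F.exists_fsec y
  -- conditions
  have e1 : ∀ y : {y : Y // F.q y = u ∧ F.t y = τ₀},
      ∀ᶠ τ in 𝓝 τ₀, F.q (σ y.1 τ) = u ∧ F.t (σ y.1 τ) = τ := by
    intro y
    have := hσe y.1
    rw [y.2.2, y.2.1] at this
    exact this
  have e2 : ∀ y : {y : Y // F.q y = u ∧ F.t y = τ₀}, Tendsto (σ y.1) (𝓝 τ₀) (𝓝 y.1) := by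
    intro y
    have h1 := hσc y.1
    rw [ContinuousAt, hσ0 y.1, y.2.2] at h1
    exact h1
  have e3 : ∀ᶠ τ in 𝓝 τ₀, ∀ y ∈ s, F.q (σ y.1 τ) = u ∧ F.t (σ y.1 τ) = τ :=
    (Filter.eventually_all_finset s).2 fun y _ => e1 y
  have e4 : ∀ᶠ τ in 𝓝 τ₀, ∀ y ∈ s, ∀ y' ∈ s, y ≠ y' → σ y.1 τ ≠ σ y'.1 τ := by
    refine (Filter.eventually_all_finset s).2 fun y _ =>
      (Filter.eventually_all_finset s).2 fun y' _ => ?_
    by_cases hyy : y = y'
    · exact Filter.Eventually.of_forall fun τ h => absurd hyy h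
    · have hne : y.1 ≠ y'.1 := fun h => hyy (Subtype.ext h)
      obtain ⟨U, V, hU, hV, hyU, hyV, hUV⟩ := t2_separation hne
      filter_upwards [(e2 y).eventually (hU.mem_nhds hyU), (e2 y').eventually (hV.mem_nhds hyV)]
        with τ h1 h2 _ h3
      exact Set.disjoint_left.1 hUV h1 (h3 ▸ h2)
  have e5 : Tendsto (fun τ => ∑ y ∈ s, g (σ y.1 τ)) (𝓝 τ₀) (𝓝 (∑ y ∈ s, g y.1)) := by
    refine tendsto_finsetSum _ fun y _ => ?_
    have h1 := hg y.1 y.2.1
    refine Tendsto.comp (g := g) h1 ?_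
    refine tendsto_nhdsWithin_iff.2 ⟨e2 y, ?_⟩
    exact (e1 y).mono fun τ h => h.1
  filter_upwards [e3, e4, e5.eventually (lt_mem_nhds hs)] with τ h3 h4 h5
  show c < F.fsum u g τ
  refine lt_of_lt_of_le h5 ?_
  -- injection into the fibre over `τ`
  let j : {y // y ∈ s} → {y : Y // F.q y = u ∧ F.t y = τ} := fun y => ⟨σ y.1.1 τ, h3 y.1 y.2⟩
  have hj : Function.Injective j := by
    intro y y' h
    by_contra hne
    have hne' : y.1 ≠ y'.1 := fun h => hne (Subtype.ext h)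
    exact h4 y.1 y.2 y'.1 y'.2 hne' (congrArg Subtype.val h)
  have h6 : ∑ y ∈ s, g (σ y.1 τ) = ∑ z ∈ s.attach.map ⟨j, hj⟩, g z.1 := by
    rw [Finset.sum_map, ← Finset.sum_attach]
    rfl
  rw [h6]
  exact ENNReal.sum_le_tsum _

theorem FSp.FH.continuousWithinAt {F : FSp n d X Y} {u : X} {f : Y → ℂ} (hf : F.FH u f) {y : Y}
    (hy : F.q y = u) : ContinuousWithinAt f {y' | F.q y' = u} y := by
  obtain ⟨g, hg, h1⟩ := hf y hy
  have h2 : ContinuousAt (fun y' => g (F.t y')) y :=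
    ContinuousAt.comp (g := g) hg.continuousAt F.continuous_t.continuousAt
  refine h2.continuousWithinAt.congr_of_eventuallyEq ?_ ?_
  · exact eventually_nhdsWithin_iff.2 h1
  · exact h1.self_of_nhds hy

theorem measurable_fsum [T2Space Y] {u : X} {f : Y → ℂ} (hf : F.FH u f) :
    Measurable (F.fsum u fun y => ‖f y‖ₑ ^ 2) := by
  refine (lsc_fsum F fun y hy => ?_).measurable
  have h1 : ContinuousWithinAt (fun y => ‖f y‖ₑ) {y' | F.q y' = u} y :=
    continuous_enorm.continuousAt.comp_continuousWithinAt (hf.continuousWithinAt hy)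
  exact ENNReal.continuous_pow 2 |>.continuousAt.comp_continuousWithinAt h1

/-- the fibre integral only depends on the values on the fibre -/
theorem FSp.fsum_congr {u : X} {g g' : Y → ℝ≥0∞} (h : ∀ y, F.q y = u → g y = g' y) (τ) :
    F.fsum u g τ = F.fsum u g' τ :=
  tsum_congr fun y => h y.1 y.2.1

theorem FSp.fnorm_congr {u : X} {f f' : Y → ℂ} (h : ∀ y, F.q y = u → f y = f' y) :
    F.fnorm u f = F.fnorm u f' := by
  unfold FSp.fnorm
  rw [F.fint_eq, F.fint_eq]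
  refine lintegral_congr fun τ => F.fsum_congr (fun y hy => ?_) τ
  rw [h y hy]

theorem FSp.fnorm_zero {u : X} {f : Y → ℂ} (h : ∀ y, F.q y = u → f y = 0) :
    F.fnorm u f = 0 := by
  rw [F.fnorm_congr (f' := fun _ => 0) h, FSp.fnorm, F.fint_eq]
  simp [FSp.fsum]

end fibre

section down

variable {m k d : ℕ} {S Y : Type*} [TopologicalSpace S] [RDom m S] [TopologicalSpace Y]
  {Q : Punc S k} (F : FSp (m + 1) d (Tot Q) Y)

open Classical in
/-- the fibre integral over `(s, x)`, zero at the punctures -/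
def fD (s : S) (g : Y → ℝ≥0∞) (x : ℂ) : ℝ≥0∞ :=
  if h : x ∉ Q.A s then F.fint (Tot.mk Q s x h) g else 0

theorem down_q (y : Y) : F.down.q y = (F.q y).1.1 := rfl

theorem down_t (y : Y) : F.down.t y = Fin.cons (F.q y).1.2 (F.t y) := rfl

theorem q_eq_mk {y : Y} {s : S} {x : ℂ} {h : x ∉ Q.A s} :
    F.q y = Tot.mk Q s x h ↔ (F.q y).1.1 = s ∧ (F.q y).1.2 = x := by
  constructor
  · intro h1; rw [h1]; exact ⟨rfl, rfl⟩
  · rintro ⟨h1, h2⟩; exact Tot.ext' h1 h2

theorem fsum_down {s : S} {x : ℂ} (h : x ∉ Q.A s) (g : Y → ℝ≥0∞) (τ : Fin d → ℂ) :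
    F.down.fsum s g (Fin.cons x τ) = F.fsum (Tot.mk Q s x h) g τ := by
  unfold FSp.fsum
  have hp : ∀ y : Y, (F.down.q y = s ∧ F.down.t y = Fin.cons x τ) ↔
      (F.q y = Tot.mk Q s x h ∧ F.t y = τ) := by
    intro y
    rw [q_eq_mk, down_q, down_t, Fin.cons_inj]
    tauto
  exact ((Equiv.subtypeEquivRight hp).tsum_eq (fun y => g y.1)).symm ▸ rfl

theorem fsum_down_zero {s : S} {x : ℂ} (h : x ∈ Q.A s) (g : Y → ℝ≥0∞) (τ : Fin d → ℂ) :
    F.down.fsum s g (Fin.cons x τ) = 0 := by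
  unfold FSp.fsum
  rw [ENNReal.tsum_eq_zero]
  rintro ⟨y, hy1, hy2⟩
  exfalso
  rw [down_t, Fin.cons_inj] at hy2
  have := (F.q y).2
  rw [hy2.1, ← down_q, hy1] at this
  exact this h

theorem fD_eq (s : S) (g : Y → ℝ≥0∞) (x : ℂ) :
    fD F s g x = ∫⁻ τ : Fin d → ℂ, F.down.fsum s g (Fin.cons x τ) := by
  by_cases h : x ∈ Q.A s
  · rw [fD, dif_neg (fun h2 => h2 h)]
    simp only [fsum_down_zero F h, lintegral_zero]
  · rw [fD, dif_pos h, F.fint_eq]
    refine lintegral_congr fun τ => ?_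
    rw [fsum_down F h]

theorem piFin_symm (x : ℂ) (τ : Fin d → ℂ) :
    (MeasurableEquiv.piFinSuccAbove (fun _ : Fin (d + 1) => ℂ) 0).symm (x, τ) = Fin.cons x τ := by
  rw [← Fin.insertNth_zero']
  rfl

theorem measurable_fD {s : S} {g : Y → ℝ≥0∞} (hg : Measurable (F.down.fsum s g)) :
    Measurable (fD F s g) := by
  have h1 : fD F s g = fun x => ∫⁻ τ : Fin d → ℂ, F.down.fsum s g
      ((MeasurableEquiv.piFinSuccAbove (fun _ : Fin (d + 1) => ℂ) 0).symm (x, τ)) := by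
    funext x
    rw [fD_eq]
    simp only [piFin_symm]
  rw [h1]
  have hm : Measurable fun p : ℂ × (Fin d → ℂ) => F.down.fsum s g
      ((MeasurableEquiv.piFinSuccAbove (fun _ : Fin (d + 1) => ℂ) 0).symm p) :=
    hg.comp (MeasurableEquiv.measurable _)
  exact hm.lintegral_prod_right'

/-- **Tonelli** -/
theorem fint_down {s : S} {g : Y → ℝ≥0∞} (hg : Measurable (F.down.fsum s g)) :
    F.down.fint s g = ∫⁻ x, fD F s g x := by
  rw [F.down.fint_eq]
  have hmp := (volume_preserving_piFinSuccAbove (fun _ : Fin (d + 1) => ℂ) 0).symm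
  have hm : Measurable fun p : ℂ × (Fin d → ℂ) => F.down.fsum s g
      ((MeasurableEquiv.piFinSuccAbove (fun _ : Fin (d + 1) => ℂ) 0).symm p) :=
    hg.comp (MeasurableEquiv.measurable _)
  rw [← hmp.lintegral_comp hg, Measure.volume_eq_prod, lintegral_prod _ hm.aemeasurable]
  refine lintegral_congr fun x => ?_
  rw [fD_eq]
  simp only [piFin_symm]

/-- `F.pc` and `F.down.pc` differ by a linear isomorphism -/
theorem pb_down {f : Y → ℂ} {y : Y} : PB F.down.pc f y ↔ PB F.pc f y := by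
  constructor
  · rintro ⟨g, hg, h1⟩
    let L : (Fin (m + 1) → ℂ) × (Fin d → ℂ) → (Fin m → ℂ) × (Fin (d + 1) → ℂ) :=
      fun p => (Fin.tail p.1, Fin.cons (p.1 0) p.2)
    have hL : ∀ y', L (F.pc y') = F.down.pc y' := fun y' => by
      show (Fin.tail (Fin.cons (F.q y').1.2 (cp (F.q y').1.1) : Fin (m + 1) → ℂ), _) = _
      rw [Fin.tail_cons]
      rfl
    have hLa : AnalyticAt ℂ L (F.pc y) := by
      refine AnalyticAt.prod ?_ ?_
      · refine AnalyticAt.pi fun i => ?_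
        exact ((ContinuousLinearMap.proj (R := ℂ) (φ := fun _ : Fin (m + 1) => ℂ) i.succ).comp
          (ContinuousLinearMap.fst ℂ _ (Fin d → ℂ))).analyticAt _
      · refine AnalyticAt.pi (Fin.cases ?_ fun i => ?_)
        · exact ((ContinuousLinearMap.proj (R := ℂ) (φ := fun _ : Fin (m + 1) => ℂ) 0).comp
            (ContinuousLinearMap.fst ℂ _ (Fin d → ℂ))).analyticAt _
        · exact ((ContinuousLinearMap.proj (R := ℂ) (φ := fun _ : Fin d => ℂ) i).comp
            (ContinuousLinearMap.snd ℂ (Fin (m + 1) → ℂ) _)).analyticAt _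
    refine ⟨g ∘ L, ?_, ?_⟩
    · refine AnalyticAt.comp ?_ hLa
      rw [hL]; exact hg
    · filter_upwards [h1] with y' hy'
      rw [Function.comp_apply, hL, hy']
  · rintro ⟨g, hg, h1⟩
    let L : (Fin m → ℂ) × (Fin (d + 1) → ℂ) → (Fin (m + 1) → ℂ) × (Fin d → ℂ) :=
      fun p => (Fin.cons (p.2 0) p.1, Fin.tail p.2)
    have hL : ∀ y', L (F.down.pc y') = F.pc y' := fun y' => by
      show ((Fin.cons (F.q y').1.2 (cp (F.q y').1.1) : Fin (m + 1) → ℂ),
        Fin.tail (Fin.cons (F.q y').1.2 (F.t y') : Fin (d + 1) → ℂ)) = _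
      rw [Fin.tail_cons]
      rfl
    have hLa : AnalyticAt ℂ L (F.down.pc y) := by
      refine AnalyticAt.prod ?_ ?_
      · refine AnalyticAt.pi (Fin.cases ?_ fun i => ?_)
        · exact ((ContinuousLinearMap.proj (R := ℂ) (φ := fun _ : Fin (d + 1) => ℂ) 0).comp
            (ContinuousLinearMap.snd ℂ (Fin m → ℂ) _)).analyticAt _
        · exact ((ContinuousLinearMap.proj (R := ℂ) (φ := fun _ : Fin m => ℂ) i).comp
            (ContinuousLinearMap.fst ℂ _ (Fin (d + 1) → ℂ))).analyticAt _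
      · refine AnalyticAt.pi fun i => ?_
        exact ((ContinuousLinearMap.proj (R := ℂ) (φ := fun _ : Fin (d + 1) => ℂ) i.succ).comp
          (ContinuousLinearMap.snd ℂ (Fin m → ℂ) _)).analyticAt _
    refine ⟨g ∘ L, ?_, ?_⟩
    · refine AnalyticAt.comp ?_ hLa
      rw [hL]; exact hg
    · filter_upwards [h1] with y' hy'
      rw [Function.comp_apply, hL, hy']

end down

section ep

variable {E : Type*} [TopologicalSpace E] [MeasurableSpace E] {Y : Type*} {ρ : ℕ}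

/-- THE EVALUATION-POINT ARGUMENT (version with sections). -/
theorem ep_core' {μ : Measure E} [μ.IsOpenPosMeasure] {π : Y → E} {Df : Y → Prop} {f : Y → ℂ}
    {φ : Fin ρ → Y → ℂ} {σ : Fin ρ → E → Y} {U : Set E} (hU : IsOpen U)
    (hσ : ∀ j, ∀ x ∈ U, Df (σ j x) ∧ π (σ j x) = x)
    (hfσ : ∀ j, ∀ x ∈ U, ContinuousAt (fun x => f (σ j x)) x)
    (hφσ : ∀ j k, ∀ x ∈ U, ContinuousAt (fun x => φ k (σ j x)) x)
    (hdet : ∀ x ∈ U, (evM φ σ x).det ≠ 0)
    (hsec : ∀ y, Df y → π y ∈ U → ∃ τ : E → Y, τ (π y) = y ∧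
      (∀ᶠ x in 𝓝 (π y), Df (τ x) ∧ π (τ x) = x) ∧ ContinuousAt (fun x => f (τ x)) (π y) ∧
      ∀ k, ContinuousAt (fun x => φ k (τ x)) (π y))
    (hae : ∀ᵐ x ∂μ, x ∈ U → ∃ c : Fin ρ → ℂ, ∀ y, Df y → π y = x → f y = ∑ k, c k * φ k y) :
    ∀ x ∈ U, ∀ y, Df y → π y = x → f y = ∑ k, evC f φ σ x k * φ k y := by
  have hcc : ∀ x ∈ U, ∀ k, ContinuousAt (fun x => evC f φ σ x k) x := fun x hx k =>
    (cl_continuousAt x).evC (hdet x hx) (fun j k => hφσ j k x hx) (fun j => hfσ j x hx) k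
  rintro x hx y hDy rfl
  by_contra hne
  obtain ⟨τ, h0, h1, h2, h3⟩ := hsec y hDy hx
  have hF : ContinuousAt (fun x => f (τ x) - ∑ k, evC f φ σ x k * φ k (τ x)) (π y) := by
    refine h2.sub ?_
    exact tendsto_finsetSum _ fun k _ => (hcc _ hx k).mul (h3 k)
  have hF0 : f (τ (π y)) - ∑ k, evC f φ σ (π y) k * φ k (τ (π y)) ≠ 0 := by
    rw [h0]; exact sub_ne_zero.2 hne
  have hev : ∀ᶠ x in 𝓝 (π y), x ∈ U ∧ (Df (τ x) ∧ π (τ x) = x) ∧
      f (τ x) - ∑ k, evC f φ σ x k * φ k (τ x) ≠ 0 :=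
    (hU.eventually_mem hx).and (h1.and (hF.eventually_ne hF0))
  obtain ⟨W, hW, hWo, hW0⟩ := mem_nhds_iff.1 hev
  have hnull : μ W = 0 := by
    refine measure_mono_null ?_ hae
    intro x hxW hc
    obtain ⟨hxU, ⟨hD, hp⟩, hx0⟩ := hW hxW
    obtain ⟨c, hc⟩ := hc hxU
    apply hx0
    have h5 : evC f φ σ x = c := by
      have h6 : (fun j => f (σ j x)) = (evM φ σ x) *ᵥ c := by
        funext j
        rw [hc _ (hσ j x hxU).1 (hσ j x hxU).2]
        simp only [evM, Matrix.mulVec, dotProduct, Matrix.of_apply]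
        exact Finset.sum_congr rfl fun k _ => mul_comm _ _
      rw [evC, h6, Matrix.mulVec_mulVec,
        Matrix.nonsing_inv_mul _ (isUnit_iff_ne_zero.2 (hdet x hxU)), Matrix.one_mulVec]
    rw [h5, ← hc _ hD hp, sub_self]
  have := hWo.eq_empty_of_measure_zero hnull
  rw [this] at hW0
  exact hW0

end ep

end Crest.Agent.R276.Top8_815
end
end

-- ▼ part R276/Top8f_815

/-!
# Row 276, IPC step (8): sections of the top piece over a fibre (helper815)

* `PVHS.Top` is a vector space; `cl` is injective on it;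
* local sections of `Y` over the fibre; analyticity along the fibre.
-/

set_option autoImplicit false
set_option linter.unusedSectionVars false

noncomputable section

open Set Filter Topology MeasureTheory Matrix
open Crest.Agent.R271.Ho51 Crest.Agent.R276.Ipc735
open scoped ENNReal

namespace Crest.Agent.R276.Top8_815

/-! ### `PVHS` -/

section pvhs

variable {A : Finset ℂ} {N w : ℕ} (R : PVHS A N w)

/-- values in the top piece -/
def TopE (f : ℂ → Fin N → ℂ) : Prop := ∀ z ∉ A, IsTop w (R.E z) (f z)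

variable {R}

theorem nsq_eq {f : ℂ → Fin N → ℂ} (hf : TopE R f) {z : ℂ} (hz : z ∉ A) :
    R.nsq f z = (-1 : ℝ) ^ w * (star (f z) ⬝ᵥ R.S z *ᵥ f z).re :=
  re_hodge_top (hf z hz)

theorem nsq_nonneg {f : ℂ → Fin N → ℂ} (hf : TopE R f) {z : ℂ} (hz : z ∉ A) :
    0 ≤ R.nsq f z := by
  by_cases h0 : f z = 0
  · rw [PVHS.nsq, h0]; simp
  · exact (re_hodge_pos (R.hs z hz) (hf z hz) h0).le

theorem eq_zero_of_nsq {f : ℂ → Fin N → ℂ} (hf : TopE R f) {z : ℂ} (hz : z ∉ A)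
    (h : R.nsq f z = 0) : f z = 0 := by
  by_contra h0
  have := re_hodge_pos (R.hs z hz) (hf z hz) h0
  exact absurd h (ne_of_gt this)

theorem star_quad (C S : Matrix (Fin N) (Fin N) ℂ) (v : Fin N → ℂ) :
    star v ⬝ᵥ (Cᴴ * S * C) *ᵥ v = star (C *ᵥ v) ⬝ᵥ S *ᵥ (C *ᵥ v) := by
  rw [← mulVec_mulVec, ← mulVec_mulVec, dotProduct_mulVec (star v) Cᴴ, ← star_mulVec]

theorem continuous_quad (S : Matrix (Fin N) (Fin N) ℂ) :
    Continuous fun v : Fin N → ℂ => (star v ⬝ᵥ S *ᵥ v).re := by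
  refine Complex.continuous_re.comp ?_
  simp only [dotProduct, mulVec]
  fun_prop

theorem isOpen_compl (A : Finset ℂ) : IsOpen ((A : Set ℂ)ᶜ) := A.finite_toSet.isClosed.isOpen_compl

theorem eventually_not_mem (A : Finset ℂ) {z : ℂ} (hz : z ∉ A) : ∀ᶠ x in 𝓝 z, x ∉ A := by
  have := (isOpen_compl A).mem_nhds (show z ∈ ((A : Set ℂ)ᶜ) by simpa using hz)
  exact this

theorem continuousAt_nsq {f : ℂ → Fin N → ℂ} (hf : TopE R f) (hh : R.Ho f) {z : ℂ} (hz : z ∉ A) :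
    ContinuousAt (R.nsq f) z := by
  have h1 : R.nsq f =ᶠ[𝓝 z] fun y => (-1 : ℝ) ^ w *
      (star (lV R.P f z y) ⬝ᵥ R.S z *ᵥ lV R.P f z y).re := by
    filter_upwards [eventually_not_mem A hz, R.flatS z hz] with y hy hS
    rw [nsq_eq hf hy, hS, star_quad]
    rfl
  refine ContinuousAt.congr ?_ h1.symm
  have h2 : ContinuousAt (lV R.P f z) z := (hh z hz).continuousAt
  exact continuousAt_const.mul (ContinuousAt.comp (g := fun v : Fin N → ℂ =>
    (star v ⬝ᵥ R.S z *ᵥ v).re) (continuous_quad (R.S z)).continuousAt h2)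

theorem continuousOn_nsq {f : ℂ → Fin N → ℂ} (hf : TopE R f) (hh : R.Ho f) :
    ContinuousOn (R.nsq f) ((A : Set ℂ)ᶜ) := fun z hz =>
  (continuousAt_nsq hf hh (by simpa using hz)).continuousWithinAt

theorem TopE.add {f g : ℂ → Fin N → ℂ} (hf : TopE R f) (hg : TopE R g) : TopE R (f + g) :=
  fun z hz => isTop_add (hf z hz) (hg z hz)

theorem TopE.smul {f : ℂ → Fin N → ℂ} (c : ℂ) (hf : TopE R f) : TopE R (c • f) :=
  fun z hz => isTop_smul c (hf z hz)

theorem lV_add (P : ℂ → ℂ → GL (Fin N) ℤ) (f g : ℂ → Fin N → ℂ) (z : ℂ) :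
    lV P (f + g) z = fun y => lV P f z y + lV P g z y := by
  funext y
  simp only [lV, Pi.add_apply, mulVec_add]

theorem lV_smul (P : ℂ → ℂ → GL (Fin N) ℤ) (c : ℂ) (f : ℂ → Fin N → ℂ) (z : ℂ) :
    lV P (c • f) z = fun y => c • lV P f z y := by
  funext y
  simp only [lV, Pi.smul_apply, mulVec_smul]

theorem ho_add {f g : ℂ → Fin N → ℂ} (hf : R.Ho f) (hg : R.Ho g) : R.Ho (f + g) := by
  intro z hz
  rw [lV_add]
  exact (hf z hz).add (hg z hz)

theorem ho_smul {f : ℂ → Fin N → ℂ} (c : ℂ) (hf : R.Ho f) : R.Ho (c • f) := by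
  intro z hz
  rw [lV_smul]
  exact AnalyticAt.smul (f := fun _ : ℂ => c) analyticAt_const (hf z hz)

theorem nsq_smul (c : ℂ) (f : ℂ → Fin N → ℂ) (z : ℂ) :
    R.nsq (c • f) z = ‖c‖ ^ 2 * R.nsq f z := by
  simp only [PVHS.nsq, Pi.smul_apply, mulVec_smul, star_smul, smul_dotProduct, dotProduct_smul,
    smul_eq_mul]
  have : c * (star c * (star (f z) ⬝ᵥ R.H z *ᵥ f z)) = ((‖c‖ ^ 2 : ℝ) : ℂ) *
      (star (f z) ⬝ᵥ R.H z *ᵥ f z) := by
    rw [← mul_assoc]
    congr 1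
    rw [Complex.star_def, Complex.mul_conj, Complex.normSq_eq_norm_sq]
  rw [this, Complex.re_ofReal_mul]

theorem nsq_parallelogram (f g : ℂ → Fin N → ℂ) (z : ℂ) :
    R.nsq (f + g) z + R.nsq (f + (-1 : ℂ) • g) z = 2 * R.nsq f z + 2 * R.nsq g z := by
  simp only [PVHS.nsq, Pi.add_apply, Pi.smul_apply, star_add, star_smul, mulVec_add, mulVec_smul,
    add_dotProduct, dotProduct_add, smul_dotProduct, dotProduct_smul, Complex.add_re, smul_eq_mul]
  simp only [star_neg, star_one, neg_mul, one_mul, Complex.neg_re, Complex.add_re, neg_neg,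
    mul_add, mul_neg]
  ring

theorem nsq_add_le {f g : ℂ → Fin N → ℂ} (hf : TopE R f) (hg : TopE R g) {z : ℂ} (hz : z ∉ A) :
    R.nsq (f + g) z ≤ 2 * R.nsq f z + 2 * R.nsq g z := by
  rw [← nsq_parallelogram]
  have := nsq_nonneg (hf.add (hg.smul (-1 : ℂ))) hz
  linarith

theorem measurableSet_compl (A : Finset ℂ) : MeasurableSet ((A : Set ℂ)ᶜ) :=
  (isOpen_compl A).measurableSet

theorem top_add {f g : ℂ → Fin N → ℂ} (hf : R.Top f) (hg : R.Top g) : R.Top (f + g) where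
  zero z hz := by rw [Pi.add_apply, hf.zero z hz, hg.zero z hz, add_zero]
  eig := TopE.add (R := R) hf.eig hg.eig
  hol := ho_add hf.hol hg.hol
  int := by
    have h1 : TopE R (f + g) := TopE.add (R := R) hf.eig hg.eig
    refine Integrable.mono' ((hf.int.const_mul 2).add (hg.int.const_mul 2)) ?_ ?_
    · exact (continuousOn_nsq h1 (ho_add hf.hol hg.hol)).aestronglyMeasurable
        (measurableSet_compl A)
    · refine ae_restrict_of_forall_mem (measurableSet_compl A) fun z hz => ?_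
      have hz' : z ∉ A := by simpa using hz
      rw [Real.norm_of_nonneg (nsq_nonneg h1 hz')]
      exact nsq_add_le hf.eig hg.eig hz'

theorem top_smul {f : ℂ → Fin N → ℂ} (c : ℂ) (hf : R.Top f) : R.Top (c • f) where
  zero z hz := by rw [Pi.smul_apply, hf.zero z hz, smul_zero]
  eig := TopE.smul (R := R) c hf.eig
  hol := ho_smul c hf.hol
  int := by
    have h1 : R.nsq (c • f) = fun z => ‖c‖ ^ 2 * R.nsq f z := funext fun z => nsq_smul c f z
    rw [h1]
    exact hf.int.const_mul _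

/-- a top section of norm zero vanishes -/
theorem top_eq_zero {f : ℂ → Fin N → ℂ} (hf : R.Top f)
    (h : ∫ z in ((A : Set ℂ)ᶜ), R.nsq f z = 0) : f = 0 := by
  have hE : TopE R f := hf.eig
  have h0 : 0 ≤ᵐ[volume.restrict ((A : Set ℂ)ᶜ)] R.nsq f :=
    ae_restrict_of_forall_mem (measurableSet_compl A) fun z hz =>
      nsq_nonneg hE (by simpa using hz)
  have h1 := (integral_eq_zero_iff_of_nonneg_ae h0 hf.int).1 h
  have h2 : EqOn (R.nsq f) (fun _ => (0 : ℝ)) ((A : Set ℂ)ᶜ) :=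
    Measure.eqOn_open_of_ae_eq h1 (isOpen_compl A) (continuousOn_nsq hE hf.hol) continuousOn_const
  funext z
  by_cases hz : z ∈ A
  · exact hf.zero z hz
  · exact eq_zero_of_nsq hE hz (h2 (by simpa using hz))

end pvhs

/-! ### the fibre over `s` -/

section fib

variable {m k N N' w d : ℕ} {S Y : Type*} [TopologicalSpace S] [RDom m S] [TopologicalSpace Y]
  {Q : Punc S k} {V : VHS (m + 1) (Tot Q) N w} {W : VHS m S N' (w + 1)}
  {R : ∀ s : S, PVHS (Q.A s) N w} {cl : ∀ _ : S, (ℂ → Fin N → ℂ) → (Fin N' → ℂ)}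
  {F : FSp (m + 1) d (Tot Q) Y} {ι : Tot Q → (Fin N → ℂ) → Y → ℂ}

/-- `cl` is injective on the top sections -/
theorem cl_inj (hst : StepTop Q V W R cl) {s : S} {f g : ℂ → Fin N → ℂ} (hf : (R s).Top f)
    (hg : (R s).Top g) (h : cl s f = cl s g) : f = g := by
  have h1 : (R s).Top (f + (-1 : ℂ) • g) := top_add hf (top_smul _ hg)
  have h2 : cl s (f + (-1 : ℂ) • g) = 0 := by
    rw [hst.add s f _ hf (top_smul _ hg), hst.smul s _ g hg, h, neg_one_smul, add_neg_cancel]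
  have h3 := hst.norm s _ h1
  rw [h2, mulVec_zero, dotProduct_zero, Complex.zero_re] at h3
  have h4 := top_eq_zero h1 h3.symm
  have h5 : f + (-1 : ℂ) • g = 0 := h4
  rw [neg_one_smul, ← sub_eq_add_neg, sub_eq_zero] at h5
  exact h5

theorem exists_top_of (hst : StepTop Q V W R cl) {s : S} {v : Fin N' → ℂ}
    (hv : IsTop (w + 1) (W.E s) v) : ∃ f, (R s).Top f ∧ cl s f = v := hst.surj s v hv

theorem isTop_cl (hst : StepTop Q V W R cl) {s : S} {f : ℂ → Fin N → ℂ} (hf : (R s).Top f) :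
    IsTop (w + 1) (W.E s) (cl s f) := hst.eig s f hf

/-- the value of `down` -/
theorem down_eq (hst : StepTop Q V W R cl) {s : S} {f : ℂ → Fin N → ℂ} (hf : (R s).Top f)
    {v : Fin N' → ℂ} (hv : cl s f = v) (y : Y) :
    down R cl F ι s v y = ι (F.q y) (f (F.q y).1.2) y := by
  have h : ∃ f, (R s).Top f ∧ cl s f = v := ⟨f, hf, hv⟩
  rw [down, dif_pos h]
  have h1 := cl_inj hst h.choose_spec.1 hf (h.choose_spec.2.trans hv.symm)
  rw [h1]

theorem isTop_of_top (hst : StepTop Q V W R cl) {s : S} {f : ℂ → Fin N → ℂ} (hf : (R s).Top f)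
    {q : Tot Q} (hq : q.1.1 = s) : IsTop w (V.E q) (f q.1.2) := by
  subst hq
  have h1 := hf.eig q.1.2 q.2
  rw [(hst.res _).E, rM_of V.E q.2] at h1
  exact h1

theorem hnsq_eq (hst : StepTop Q V W R cl) {s : S} {x : ℂ} (hx : x ∉ Q.A s)
    (f : ℂ → Fin N → ℂ) : hnsq V (Tot.mk Q s x hx) (f x) = (R s).nsq f x := by
  rw [PVHS.nsq, PVHS.H, (hst.res s).E, (hst.res s).S, rM_of V.E hx, rM_of V.S hx]
  rfl

/-- transports of the restriction -/
theorem lV_res (hst : StepTop Q V W R cl) {s : S} {x₀ x : ℂ} (hx₀ : x₀ ∉ Q.A s) (hx : x ∉ Q.A s)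
    (f : ℂ → Fin N → ℂ) :
    lV (R s).P f x₀ x = cm (V.P (Tot.mk Q s x₀ hx₀) (Tot.mk Q s x hx)) *ᵥ f x := by
  rw [lV, (hst.res s).P, rP_of V.P hx₀ hx]

/-! ### realisations: uniqueness and sums -/

section rz

variable {n : ℕ} {X : Type*} [TopologicalSpace X] [RDom n X] {V₁ : VHS n X N w}
  {F₁ : FSp n d X Y} {ι₁ : X → (Fin N → ℂ) → Y → ℂ}

theorem Rz.zero (hR : Rz V₁ F₁ ι₁) {u : X} {y : Y} (hy : F₁.q y = u) : ι₁ u 0 y = 0 := by
  have := hR.smul u 0 0 isTop_zero y hy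
  rwa [zero_smul, zero_mul] at this

theorem Rz.sum (hR : Rz V₁ F₁ ι₁) {u : X} {κ : Type*} (s : Finset κ) {v : κ → Fin N → ℂ}
    (c : κ → ℂ) (hv : ∀ i ∈ s, IsTop w (V₁.E u) (v i)) {y : Y} (hy : F₁.q y = u) :
    ι₁ u (∑ i ∈ s, c i • v i) y = ∑ i ∈ s, c i * ι₁ u (v i) y := by
  classical
  induction s using Finset.induction_on with
  | empty => simpa using hR.zero hy
  | insert a s ha ih =>
      have h1 : ∀ i ∈ s, IsTop w (V₁.E u) (v i) := fun i hi => hv i (Finset.mem_insert_of_mem hi)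
      have h2 := hv a (Finset.mem_insert_self a s)
      rw [Finset.sum_insert ha, Finset.sum_insert ha, hR.add u _ _ (isTop_smul _ h2)
        (isTop_sum s fun i hi => isTop_smul _ (h1 i hi)) y hy, hR.smul u _ _ h2 y hy, ih h1]

/-- a top vector is determined by its realisation -/
theorem Rz.inj (hR : Rz V₁ F₁ ι₁) {u : X} {v v' : Fin N → ℂ} (hv : IsTop w (V₁.E u) v)
    (hv' : IsTop w (V₁.E u) v') (h : ∀ y, F₁.q y = u → ι₁ u v y = ι₁ u v' y) : v = v' := by
  have h1 : IsTop w (V₁.E u) (v + (-1 : ℂ) • v') := isTop_add hv (isTop_smul _ hv')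
  have h2 := hR.norm u _ h1
  rw [F₁.fnorm_zero] at h2
  · by_contra hne
    have h3 : v + (-1 : ℂ) • v' ≠ 0 := by
      rw [neg_one_smul, ← sub_eq_add_neg]
      exact sub_ne_zero.2 hne
    have h4 : 0 < hnsq V₁ u (v + (-1 : ℂ) • v') := re_hodge_pos (V₁.hs u) h1 h3
    have h5 := ENNReal.ofReal_pos.2 h4
    rw [← h2] at h5
    exact lt_irrefl _ h5
  · intro y hy
    rw [hR.add u _ _ hv (isTop_smul _ hv') y hy, hR.smul u _ _ hv' y hy, h y hy]
    ring

/-- frame functions are analytic -/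
theorem Rz.frame_pb (hR : Rz V₁ F₁ ι₁) {u₀ : X} {e : X → Fin N → ℂ}
    (he : HolAt (lV V₁.P e u₀) u₀) (ht : ∀ᶠ u in 𝓝 u₀, IsTop w (V₁.E u) (e u)) :
    ∀ᶠ u in 𝓝 u₀, ∀ y, F₁.q y = u → PB F₁.pc (fun y' => ι₁ (F₁.q y') (e (F₁.q y')) y') y := by
  filter_upwards [holAt_lV_eventually V₁.ndc he, ht.eventually_nhds] with u h1 h2 y hy
  exact hR.hol1 u e h1 h2 y hy

end rz

/-! ### sections and analyticity along the fibre -/

theorem acons {m : ℕ} (c : Fin m → ℂ) (x : ℂ) :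
    AnalyticAt ℂ (fun x : ℂ => (Fin.cons x c : Fin (m + 1) → ℂ)) x := by
  refine AnalyticAt.pi (Fin.cases ?_ fun i => ?_)
  · exact analyticAt_id
  · exact analyticAt_const

theorem continuousAt_fib {s : S} {x₀ x : ℂ} (hx₀ : x₀ ∉ Q.A s) (hx : x ∉ Q.A s) :
    ContinuousAt (fib Q s x₀ hx₀) x := by
  refine (fib_cont hx).congr ?_
  filter_upwards [eventually_not_mem _ hx] with y hy
  rw [fib_of hx hy, fib_of hx₀ hy]

theorem analyticAt_fib {G : Type*} [NormedAddCommGroup G] [NormedSpace ℂ G] {g : Tot Q → G}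
    {s : S} {x₀ : ℂ} (hx₀ : x₀ ∉ Q.A s) (hg : HolAt g (Tot.mk Q s x₀ hx₀)) :
    AnalyticAt ℂ (fun x => g (fib Q s x₀ hx₀ x)) x₀ := by
  obtain ⟨G', hG, h1⟩ := holAt_iff.1 hg
  have h2 : AnalyticAt ℂ (fun x : ℂ => G' (Fin.cons x (cp s))) x₀ :=
    AnalyticAt.comp (g := G') hG (acons (cp s) x₀)
  refine h2.congr ?_
  have h3 := fib_cont hx₀
  rw [ContinuousAt, fib_of hx₀ hx₀] at h3
  filter_upwards [h3.eventually h1, eventually_not_mem _ hx₀] with x hx hx2
  rw [hx, fib_of hx₀ hx2]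
  rfl

/-- a section of `Y` over the fibre over `s` with constant coordinates `t` -/
theorem exists_xsec (F : FSp (m + 1) d (Tot Q) Y) (y₀ : Y) : ∃ σ : ℂ → Y,
    σ (F.q y₀).1.2 = y₀ ∧ ∀ᶠ x in 𝓝 (F.q y₀).1.2, ContinuousAt σ x ∧
      (F.q (σ x)).1.1 = (F.q y₀).1.1 ∧ (F.q (σ x)).1.2 = x ∧ F.t (σ x) = F.t y₀ := by
  obtain ⟨τs, h0, h1⟩ := F.exists_sec y₀
  set s := (F.q y₀).1.1 with hs
  set x₀ := (F.q y₀).1.2 with hx
  have hx₀ : x₀ ∉ Q.A s := (F.q y₀).2
  have hf0 : fib Q s x₀ hx₀ x₀ = F.q y₀ := by rw [fib_of hx₀ hx₀]; rfl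
  have hc : Tendsto (fun x => (fib Q s x₀ hx₀ x, F.t y₀)) (𝓝 x₀) (𝓝 (F.q y₀, F.t y₀)) := by
    have h2 := fib_cont hx₀
    rw [ContinuousAt, hf0] at h2
    exact h2.prodMk_nhds tendsto_const_nhds
  refine ⟨fun x => τs (fib Q s x₀ hx₀ x, F.t y₀), ?_, ?_⟩
  · show τs (fib Q s x₀ hx₀ x₀, F.t y₀) = y₀
    rw [hf0]; exact h0
  · filter_upwards [hc.eventually h1, eventually_not_mem _ hx₀] with x h2 hxA
    obtain ⟨h3, h4, h5⟩ := h2
    refine ⟨?_, ?_, ?_, h5⟩
    · exact ContinuousAt.comp (g := τs) h3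
        ((continuousAt_fib hx₀ hxA).prodMk continuousAt_const)
    · rw [h4, fib_of hx₀ hxA]; rfl
    · rw [h4, fib_of hx₀ hxA]; rfl

theorem pc_over {s : S} {y : Y} (hy : (F.q y).1.1 = s) :
    F.pc y = (Fin.cons (F.q y).1.2 (cp s), F.t y) := by
  subst hy; rfl

theorem PB.continuousAt {E : Type*} [NormedAddCommGroup E] [NormedSpace ℂ E] {p : Y → E}
    (hp : Continuous p) {f : Y → ℂ} {y : Y} (h : PB p f y) : ContinuousAt f y := by
  obtain ⟨g, hg, h1⟩ := h
  have h2 : ContinuousAt (fun y' => g (p y')) y :=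
    ContinuousAt.comp (g := g) hg.continuousAt hp.continuousAt
  exact h2.congr (h1.mono fun _ h => h.symm)

/-- a `PB` function along a section -/
theorem PB.along {y₀ : Y} {σ : ℂ → Y} {φ : Y → ℂ} (hφ : PB F.pc φ y₀)
    (h0 : σ (F.q y₀).1.2 = y₀)
    (h1 : ∀ᶠ x in 𝓝 (F.q y₀).1.2, ContinuousAt σ x ∧
      (F.q (σ x)).1.1 = (F.q y₀).1.1 ∧ (F.q (σ x)).1.2 = x ∧ F.t (σ x) = F.t y₀) :
    AnalyticAt ℂ (fun x => φ (σ x)) (F.q y₀).1.2 := by
  obtain ⟨g, hg, h2⟩ := hφ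
  have hpc : F.pc y₀ = (Fin.cons (F.q y₀).1.2 (cp (F.q y₀).1.1), F.t y₀) := pc_over rfl
  rw [hpc] at hg
  have h3 : AnalyticAt ℂ (fun x : ℂ => g (Fin.cons x (cp (F.q y₀).1.1), F.t y₀))
      (F.q y₀).1.2 := AnalyticAt.comp (g := g) hg ((acons _ _).prod analyticAt_const)
  refine h3.congr ?_
  have h4 : Tendsto σ (𝓝 (F.q y₀).1.2) (𝓝 y₀) := by
    have := h1.self_of_nhds.1
    rwa [ContinuousAt, h0] at this
  filter_upwards [h1, h4.eventually h2] with x hx hx2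
  rw [hx2, pc_over hx.2.1, hx.2.2.1, hx.2.2.2]

/-- a function holomorphic on the fibre over `s` along a section -/
theorem fh_along {f : Y → ℂ} {y₀ : Y} {σ : ℂ → Y} (hf : F.down.FH (F.q y₀).1.1 f)
    (h0 : σ (F.q y₀).1.2 = y₀)
    (h1 : ∀ᶠ x in 𝓝 (F.q y₀).1.2, ContinuousAt σ x ∧
      (F.q (σ x)).1.1 = (F.q y₀).1.1 ∧ (F.q (σ x)).1.2 = x ∧ F.t (σ x) = F.t y₀) :
    AnalyticAt ℂ (fun x => f (σ x)) (F.q y₀).1.2 := by
  obtain ⟨g, hg, h2⟩ := hf y₀ rfl
  rw [down_t] at hg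
  have h3 : AnalyticAt ℂ (fun x : ℂ => g (Fin.cons x (F.t y₀))) (F.q y₀).1.2 :=
    AnalyticAt.comp (g := g) hg (acons _ _)
  refine h3.congr ?_
  have h4 : Tendsto σ (𝓝 (F.q y₀).1.2) (𝓝 y₀) := by
    have := h1.self_of_nhds.1
    rwa [ContinuousAt, h0] at this
  filter_upwards [h1, h4.eventually h2] with x hx hx2
  rw [hx2 hx.2.1, down_t, hx.2.2.1, hx.2.2.2]

/-- restriction to a fibre of the total space -/
theorem fh_of_down {f : Y → ℂ} {s : S} (hf : F.down.FH s f) {x : ℂ} (hx : x ∉ Q.A s) :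
    F.FH (Tot.mk Q s x hx) f := by
  intro y hy
  obtain ⟨g, hg, h2⟩ := hf y (by rw [down_q, hy]; rfl)
  rw [down_t, hy] at hg
  refine ⟨fun τ => g (Fin.cons x τ), ?_, ?_⟩
  · refine AnalyticAt.comp (g := g) hg ?_
    refine AnalyticAt.pi (Fin.cases ?_ fun i => ?_)
    · exact analyticAt_const
    · exact (ContinuousLinearMap.proj (R := ℂ) (φ := fun _ : Fin d => ℂ) i).analyticAt _
  · filter_upwards [h2] with y' h3 hy'
    rw [h3 (by rw [down_q, hy']; rfl), down_t, hy']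
    rfl

end fib

end Crest.Agent.R276.Top8_815
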