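import Crest.Agent.R276.Top8b_815
import Crest.Agent.R276.Rc_348

/-!
# Row 276 (S0419), GEO (helper519): fibre powers and root covers of a fibred space

`F : FSp m r X P` a space fibred over `X`, `ρ : S → X` continuous, `s : ℕ`, `g` a polynomial in the coordinates
`(z, x_1, …, x_s)`.

* `ZS F ρ s g` : the space of `(u, y_1, …, y_s)`, `q (y_j) = ρ u`, with `g(z, x_1, …, x_s) ≠ 0`;
* `ZF` : `ZS` as a space fibred over `S` (`FSp m (s * r) S (ZS …)`);
* `RF` : the root cover `η^N = δ` of a fibred space, as a fibred space;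
* `zs_compact`, `rf_compact` : properness over `{g ≠ 0}`.
-/

set_option autoImplicit false

noncomputable section

open Set Filter Topology MeasureTheory
open Crest.Agent.R271.Ho51 Crest.Agent.R276.Top8_815 Crest.Agent.R276.Rc_348
open scoped ENNReal

namespace Crest.Agent.R276.GeoY_519

section zs

variable {m r : ℕ} {S X P : Type*} [TopologicalSpace S] [RDom m S] [TopologicalSpace X] [RDom m X]
  [TopologicalSpace P] (F : FSp m r X P)

/-- the fibre coordinates of a tuple -/
def tt {s : ℕ} (y : Fin s → P) : Fin (s * r) → ℂ := fun k =>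
  F.t (y (finProdFinEquiv.symm k).1) (finProdFinEquiv.symm k).2

/-- the block number `j` of `τ ∈ ℂ^(s r)` -/
def blk {r s : ℕ} (τ : Fin (s * r) → ℂ) (j : Fin s) : Fin r → ℂ := fun k => τ (finProdFinEquiv (j, k))

lemma blk_tt {s : ℕ} (y : Fin s → P) (j : Fin s) : blk (tt F y) j = F.t (y j) := by
  funext k
  unfold blk tt
  rw [Equiv.symm_apply_apply]

lemma blk_ext {r s : ℕ} {τ τ' : Fin (s * r) → ℂ} (h : ∀ j, blk τ j = blk τ' j) : τ = τ' := by
  funext k
  have h1 := congrFun (h (finProdFinEquiv.symm k).1) (finProdFinEquiv.symm k).2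
  unfold blk at h1
  rwa [Prod.mk.eta, Equiv.apply_symm_apply] at h1

lemma continuous_blk {r s : ℕ} (j : Fin s) : Continuous fun τ : Fin (s * r) → ℂ => blk τ j :=
  continuous_pi fun _ => continuous_apply _

lemma continuous_q : Continuous F.q := continuous_fst.comp F.lh.continuous

lemma continuous_t : Continuous F.t := continuous_snd.comp F.lh.continuous

lemma continuous_tt {s : ℕ} : Continuous (tt F : (Fin s → P) → Fin (s * r) → ℂ) :=
  continuous_pi fun _ => (continuous_apply _).comp ((continuous_t F).comp (continuous_apply _))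

variable (ρ : S → X) (s : ℕ) (g : MvPolynomial (Fin (m + s * r)) ℂ)

/-- fibre power over `S`, without `{g = 0}` -/
def ZS : Type _ := {p : S × (Fin s → P) // (∀ j, F.q (p.2 j) = ρ p.1) ∧
  MvPolynomial.eval (Fin.append (cp p.1) (tt F p.2)) g ≠ 0}

instance : TopologicalSpace (ZS F ρ s g) :=
  inferInstanceAs (TopologicalSpace {p : S × (Fin s → P) // (∀ j, F.q (p.2 j) = ρ p.1) ∧
    MvPolynomial.eval (Fin.append (cp p.1) (tt F p.2)) g ≠ 0})

instance [T2Space S] [T2Space P] : T2Space (ZS F ρ s g) :=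
  inferInstanceAs (T2Space {p : S × (Fin s → P) // (∀ j, F.q (p.2 j) = ρ p.1) ∧
    MvPolynomial.eval (Fin.append (cp p.1) (tt F p.2)) g ≠ 0})

instance [SecondCountableTopology S] [SecondCountableTopology P] :
    SecondCountableTopology (ZS F ρ s g) :=
  (Topology.IsInducing.mk rfl : Topology.IsInducing (Subtype.val : {p : S × (Fin s → P) //
    (∀ j, F.q (p.2 j) = ρ p.1) ∧ MvPolynomial.eval (Fin.append (cp p.1) (tt F p.2)) g ≠ 0} →
      S × (Fin s → P))).secondCountableTopology

variable {F ρ s g}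

/-- the point of the base -/
def ZS.bs (p : ZS F ρ s g) : S := p.1.1

/-- the points of the tuple -/
def ZS.y (p : ZS F ρ s g) : Fin s → P := p.1.2

lemma ZS.q_y (p : ZS F ρ s g) (j : Fin s) : F.q (p.y j) = ρ p.bs := p.2.1 j


lemma ZS.ext {p p' : ZS F ρ s g} (h1 : p.bs = p'.bs) (h2 : p.y = p'.y) : p = p' :=
  Subtype.ext (Prod.ext h1 h2)

lemma ZS.isInducing : Topology.IsInducing (fun p : ZS F ρ s g => ((p.bs, p.y) : S × (Fin s → P))) :=
  Topology.IsInducing.subtypeVal

lemma ZS.continuous_bs : Continuous (ZS.bs : ZS F ρ s g → S) :=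
  continuous_fst.comp continuous_subtype_val

lemma ZS.continuous_y : Continuous (ZS.y : ZS F ρ s g → Fin s → P) :=
  continuous_snd.comp continuous_subtype_val

/-- constructor -/
def ZS.mk (u : S) (y : Fin s → P) (h1 : ∀ j, F.q (y j) = ρ u)
    (h2 : MvPolynomial.eval (Fin.append (cp u) (tt F y)) g ≠ 0) : ZS F ρ s g := ⟨(u, y), h1, h2⟩

variable (F ρ s g)





end zs

section rf

variable {m d : ℕ} {S Z : Type*} [TopologicalSpace S] [RDom m S] [TopologicalSpace Z]
  (F : FSp m d S Z) {δ : Z → ℂ} {N : ℕ}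

/-- the root cover as a fibred space -/
def RF (hN : N ≠ 0) (hδ : Continuous δ) (hne : ∀ z, δ z ≠ 0) : FSp m d S (RC δ N) where
  q := fun p => F.q p.pr
  t := fun p => F.t p.pr
  lh := F.lh.comp (rc_lh hN hδ hne)

/-- properness of the root cover -/
theorem rf_compact (hN : N ≠ 0) (hδ : Continuous δ) [T2Space S]
    {K : Set (S × (Fin d → ℂ))} (hK : IsCompact K)
    (hZ : IsCompact {z | (F.q z, F.t z) ∈ K}) :
    IsCompact {p : RC δ N | (F.q p.pr, F.t p.pr) ∈ K} :=
  rc_compact hN hδ hZ (hK.isClosed.preimage F.lh.continuous)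

end rf

end Crest.Agent.R276.GeoY_519
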