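import Crest.Agent.R276.IpcModel_244
import Crest.Agent.R276.Mod5_987
import Crest.Agent.R276.Mod6_987

-- ▼ part R276/IpcRel_244
section

/-!
# Row 276 (S0419), leaf IPC-MODEL (helper244), part 2: the geometric variation of a relative model

`ML` a model of `L`, `MK` a model of `K` (helper987), `f : MK.Pts → ML.Pts` continuous, compatible with the
first `m` coordinates.
-/

set_option autoImplicit false

noncomputable section

open Set Filter Topology MeasureTheory
open Crest.Agent.R271.Ho51 Crest.Agent.R276.Ipc735 Crest.Agent.R276.Top8_815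
open Crest.Agent.R276.Tow2_244 Crest.Agent.R276.Tow4_244 Crest.Agent.R276.Iter_840
open Crest.Agent.R276.IpcModel_244 Crest.Agent.R276.Mod1_987 Crest.Agent.R271.Rd692

namespace Crest.Agent.R276.IpcRel_244

variable {L K : Type} [Field L] [Field K] [Algebra ℂ L] [Algebra ℂ K] {m r : ℕ}
  (ML : Mdl L m) (MK : Mdl K (m + r))

/-- `(w, x) ↦ (z(w), x)` -/
def apc (p : ML.Pts × (Fin r → ℂ)) : Fin (m + r) → ℂ := Fin.append (cp p.1) p.2

lemma continuous_apc : Continuous (apc ML (r := r)) := by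
  have h1 : Continuous fun p : ML.Pts × (Fin r → ℂ) => ((cp p.1 : Fin m → ℂ), p.2) :=
    (cp_cont.comp continuous_fst).prodMk continuous_snd
  exact (Fin.appendHomeomorph (X := ℂ) m r).continuous.comp h1

lemma isLocalHomeomorph_apc : IsLocalHomeomorph (apc ML (r := r)) := by
  have h1 : IsLocalHomeomorph (fun p : ML.Pts × (Fin r → ℂ) => ((cp p.1 : Fin m → ℂ), p.2)) :=
    lh_prod_id cp_lh
  exact (Fin.appendHomeomorph (X := ℂ) m r).isLocalHomeomorph.comp h1

variable {f : MK.Pts → ML.Pts} (hf : Continuous f)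
  (hfz : ∀ (y : MK.Pts) (i : Fin m), ML.pz (f y) i = MK.pz y (Fin.castAdd r i))

include hfz in
lemma apc_eq (y : MK.Pts) : apc ML (f y, fun i => MK.pz y (Fin.natAdd m i)) = MK.pz y := by
  funext i
  refine Fin.addCases (fun i => ?_) (fun i => ?_) i
  · change Fin.append (cp (f y)) _ (Fin.castAdd r i) = _
    rw [Fin.append_left]
    exact hfz y i
  · change Fin.append (cp (f y)) _ (Fin.natAdd m i) = _
    rw [Fin.append_right]

/-- `MK.Pts` fibred over `ML.Pts`, with the last `r` coordinates as fibre coordinates -/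
def relF : FSp m r ML.Pts MK.Pts where
  q := f
  t := fun y i => MK.pz y (Fin.natAdd m i)
  lh := by
    have hc : Continuous fun y => (f y, fun i => MK.pz y (Fin.natAdd m i)) :=
      hf.prodMk (continuous_pi fun i => continuous_ev (MK.z (Fin.natAdd m i)))
    refine IsLocalHomeomorph.of_comp (g := apc ML) ?_ (isLocalHomeomorph_apc ML) hc
    have h1 : (apc ML ∘ fun y => (f y, fun i => MK.pz y (Fin.natAdd m i))) = MK.pz :=
      funext fun y => apc_eq ML MK hfz y
    rw [h1]
    exact isLocalHomeomorph_pr MK.hch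

@[simp] lemma relF_q (y : MK.Pts) : (relF ML MK hf hfz).q y = f y := rfl

@[simp] lemma relF_t (y : MK.Pts) (i : Fin r) :
    (relF ML MK hf hfz).t y i = MK.pz y (Fin.natAdd m i) := rfl

/-- properness -/
lemma rel_compact {g : MvPolynomial (Fin (m + r)) ℂ} {k : ℕ}
    (hk : MK.h ∣ (g * MvPolynomial.rename (Fin.castAdd r) ML.h) ^ k)
    (C : Set (ML.Pts × (Fin r → ℂ))) (hC : IsCompact C)
    (hg : ∀ p ∈ C, MvPolynomial.eval (Fin.append (cp p.1) p.2) g ≠ 0) :
    IsCompact {y : MK.Pts | ((relF ML MK hf hfz).q y, (relF ML MK hf hfz).t y) ∈ C} := by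
  have h1 : IsCompact (apc ML '' C) := hC.image (continuous_apc ML)
  have h2 : ∀ ζ ∈ apc ML '' C, MvPolynomial.eval ζ MK.h ≠ 0 := by
    rintro _ ⟨p, hp, rfl⟩ h0
    obtain ⟨e, he⟩ := hk
    have h3 := congrArg (MvPolynomial.eval (apc ML p)) he
    rw [map_mul, h0, zero_mul, map_pow, map_mul, MvPolynomial.eval_rename] at h3
    have h4 := eq_zero_of_pow_eq_zero h3
    rcases mul_eq_zero.mp h4 with h5 | h5
    · exact hg p hp h5
    · have h6 : (apc ML p ∘ Fin.castAdd r) = ML.pz p.1 := by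
        funext i
        exact Fin.append_left _ _ i
      rw [h6] at h5
      exact ML.eval_h_ne p.1 h5
  have h3 := MK.isCompact_preimage h1 h2
  refine h3.of_isClosed_subset (hC.isClosed.preimage (relF ML MK hf hfz).lh.continuous) ?_
  intro y hy
  exact ⟨_, hy, apc_eq ML MK hfz y⟩


end Crest.Agent.R276.IpcRel_244
end
end

-- ▼ part R276/IpcRMdl_244

/-!
# Row 276 (S0419), leaf IPC-MODEL (helper244), part 3: the geometric variation of 987's relative models

`R₀ : RMdl L K m r` is given, `s ≠ 0` any polynomial in `m + r` variables.  After shrinking the base by a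
multiple `p` of `c₀` and the total space by `p` and `g` (`s ∣ g`), the middle cohomology of the fibres of
`R.MK.Pts → R.ML.Pts` (after enough punctures: see `geoVHS`) is a polarised variation realised on `R.MK.Pts`,
with the action of the automorphisms of `K` over `L(x)`.
-/

set_option autoImplicit false

noncomputable section

open Set Filter Topology MeasureTheory
open Crest.Agent.R271.Ho51 Crest.Agent.R276.Ipc735 Crest.Agent.R276.Top8_815
open Crest.Agent.R276.Tow2_244 Crest.Agent.R276.Tow4_244 Crest.Agent.R276.Iter_840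
open Crest.Agent.R276.IpcModel_244 Crest.Agent.R276.IpcRel_244 Crest.Agent.R276.Mod1_987
open Crest.Agent.R271.Rd692

namespace Crest.Agent.R276.IpcRMdl_244

variable {L K : Type} [Field L] [Field K] [Algebra ℂ L] [Algebra ℂ K] [Algebra L K]
  [IsScalarTower ℂ L K] {m r : ℕ}

/-- the fibration of a relative model -/
def fF (R : RMdl L K m r) : FSp m r R.ML.Pts R.MK.Pts :=
  relF R.ML R.MK (f := R.q) R.continuous_q R.pz_q

@[simp] lemma fF_q (R : RMdl L K m r) (y : R.MK.Pts) : (fF R).q y = R.q y := rfl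

@[simp] lemma fF_t (R : RMdl L K m r) (y : R.MK.Pts) : (fF R).t y = R.x y := rfl

/-! ### automorphisms of `K` over `L(x)` act on the points -/

section act

variable (R : RMdl L K m r)

/-- automorphisms of `K` over `L` fixing the fibre coordinates -/
def AutX : Subgroup (K ≃ₐ[L] K) where
  carrier := {σ | ∀ j : Fin r, σ (R.MK.zK (Fin.natAdd m j)) = R.MK.zK (Fin.natAdd m j)}
  one_mem' := fun j => rfl
  mul_mem' := by
    intro a b ha hb j
    rw [AlgEquiv.mul_apply, hb j, ha j]
  inv_mem' := by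
    intro a ha j
    rw [← ha j]
    change a.symm (a (R.MK.zK (Fin.natAdd m j))) = a (R.MK.zK (Fin.natAdd m j))
    rw [AlgEquiv.symm_apply_apply, ha j]

variable {R}

lemma aut_zK (σ : AutX R) (i : Fin (m + r)) : (σ : K ≃ₐ[L] K) (R.MK.zK i) = R.MK.zK i := by
  refine Fin.addCases (fun i => ?_) (fun j => ?_) i
  · rw [R.z_eq, AlgEquiv.commutes]
  · exact σ.2 j

lemma aut_aK (σ : AutX R) (p : MvPolynomial (Fin (m + r)) ℂ) :
    (σ : K ≃ₐ[L] K) (R.MK.aK p) = R.MK.aK p := by
  change (((σ : K ≃ₐ[L] K) : K →ₐ[L] K).restrictScalars ℂ) (MvPolynomial.aeval R.MK.zK p) =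
    MvPolynomial.aeval R.MK.zK p
  rw [MvPolynomial.comp_aeval_apply]
  congr 2
  funext i
  exact aut_zK σ i

lemma aut_mem (σ : AutX R) {b : K} (hb : b ∈ R.MK.B) : (σ : K ≃ₐ[L] K) b ∈ R.MK.B := by
  obtain ⟨k, p, hp, h0⟩ := (R.MK.mem_B_iff b).mp hb
  refine (R.MK.mem_B_iff _).mpr ⟨k, p, hp, ?_⟩
  have h1 : R.MK.aK R.MK.h ^ k * (σ : K ≃ₐ[L] K) b =
      ((σ : K ≃ₐ[L] K) : K →+* K) (R.MK.aK R.MK.h ^ k * b) := by
    change _ = (σ : K ≃ₐ[L] K) (R.MK.aK R.MK.h ^ k * b)
    rw [map_mul, map_pow, aut_aK]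
  have h2 : R.MK.aK = (((σ : K ≃ₐ[L] K) : K →+* K)).comp R.MK.aK :=
    RingHom.ext fun q => (aut_aK σ q).symm
  rw [h1]
  have h3 := Polynomial.hom_eval₂ p R.MK.aK ((σ : K ≃ₐ[L] K) : K →+* K) (R.MK.aK R.MK.h ^ k * b)
  rw [← h2] at h3
  rw [← h3, h0, map_zero]

/-- the action on the coordinate ring -/
def autB (σ : AutX R) : R.MK.B →ₐ[ℂ] R.MK.B :=
  ((((σ : K ≃ₐ[L] K) : K →ₐ[L] K).restrictScalars ℂ).comp R.MK.B.val).codRestrict R.MK.B
    (fun b => aut_mem σ b.2)

@[simp] lemma autB_coe (σ : AutX R) (b : R.MK.B) : (autB σ b : K) = (σ : K ≃ₐ[L] K) b := rfl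





end act

/-! ### the geometric variation -/

lemma shrink_ML_h (R : RMdl L K m r) (p : MvPolynomial (Fin m) ℂ) (hp : p ≠ 0)
    (s : MvPolynomial (Fin (m + r)) ℂ) (hs : s ≠ 0) : (R.shrink p hp s hs).ML.h = R.ML.h * p := rfl

lemma shrink_MK_h (R : RMdl L K m r) (p : MvPolynomial (Fin m) ℂ) (hp : p ≠ 0)
    (s : MvPolynomial (Fin (m + r)) ℂ) (hs : s ≠ 0) :
    (R.shrink p hp s hs).MK.h = R.MK.h * (MvPolynomial.rename (Fin.castAdd r) p * s) := rfl


end Crest.Agent.R276.IpcRMdl_244
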