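import Mathlib
import Crest.Agent.R276.Mod7_987
import Crest.Agent.R276.GeoN_348
import Crest.Agent.R276.GeoY2_519
import Crest.Agent.R276.IpcRMdl_244
import Crest.Agent.R276.FlatDefs_236

-- ▼ part R276/FlatFam_793
section

/-!
# Row 276 (S0419): frozen structures `SatFam`, `FlatFam` (helper793; contents: 519 #2106)

Everything is stated for a relative model `R : RMdl L K m r` (987), `q : MK.Pts → ML.Pts`, and a
frame `σ : Fin s → R.MK.B`.

* `SatFam R N σ` = output of SAT (210): surjective `q`, connected fibres, fibrewise independence,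
  `Φ(w, a) = ∫_{M_w} |∑ aᵢ σᵢ|^{2/N}` finite and continuous, closure (Cl), `D(w)` finite, positive,
  continuous.
* `FlatFam R N σ k f` = `SatFam` + (FL): `|f|² = D^k`, `f` holomorphic without zeros (574).

RESTR: if `R` is a relative model and `G` a connected fibre of `M_L → M_T`, then `M_K|G → G` is again
a relative model `R'` (over the function field of `G`) and `SatFam R N σ → SatFam R' N σ'`; so the
cases `ρ = 0` and `ρ > 0` are the same.
-/

set_option autoImplicit false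

open Topology Filter MeasureTheory
open scoped ENNReal

noncomputable section

namespace Crest.Agent.R276.FlatFam_793

open Crest.Agent.R271.Defs710 Crest.Agent.R271.Ho51
open Crest.Agent.R276.Mod1_987

variable {L K : Type} [Field L] [Field K] [Algebra ℂ L] [Algebra ℂ K] [Algebra L K]
  [IsScalarTower ℂ L K] {m r : ℕ} (R : RMdl L K m r)

/-- `∑ aᵢ σᵢ(y)` -/
def lc {s : ℕ} (σ : Fin s → R.MK.B) (a : Fin s → ℂ) (y : R.MK.Pts) : ℂ := ∑ i, a i * y (σ i)

/-- `Φ(w, a) = ∫_{M_w} |∑ aᵢ σᵢ|^{2/N}` -/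
def Phi (N : ℕ) {s : ℕ} (σ : Fin s → R.MK.B) (w : R.ML.Pts) (a : Fin s → ℂ) : ℝ≥0∞ :=
  R.fint w fun y => ‖lc R σ a y‖ₑ ^ (2 / (N : ℝ))

/-- integral over the `s`-fold product of the fibre over `w` -/
def fintS (s : ℕ) (w : R.ML.Pts) (g : (Fin s → R.MK.Pts) → ℝ≥0∞) : ℝ≥0∞ :=
  ∫⁻ ξ : Fin s → Cn r,
    ∑' y : {y : Fin s → R.MK.Pts // (∀ i, R.q (y i) = w) ∧ ∀ i, R.x (y i) = ξ i}, g y.1

variable {R}

/-- `δ(y₁, …, y_s) = det σᵢ(yⱼ)` -/
def dl {s : ℕ} (σ : Fin s → R.MK.B) (y : Fin s → R.MK.Pts) : ℂ :=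
  (Matrix.of fun i j => y j (σ i)).det

variable (R)

/-- `D(w) = ∫_{M_w^s} |δ|^{2/N}` in `[0, ∞]` -/
def De (N : ℕ) {s : ℕ} (σ : Fin s → R.MK.B) (w : R.ML.Pts) : ℝ≥0∞ :=
  fintS R s w fun y => ‖dl σ y‖ₑ ^ (2 / (N : ℝ))

/-- `D(w) = ∫_{M_w^s} |δ|^{2/N}` -/
def D (N : ℕ) {s : ℕ} (σ : Fin s → R.MK.B) (w : R.ML.Pts) : ℝ := (De R N σ w).toReal

/-- the weight `(∑ |σᵢ|²)^{-(N-1)/N}` -/
def wK (N : ℕ) {s : ℕ} (σ : Fin s → R.MK.B) (y : R.MK.Pts) : ℝ≥0∞ :=
  (∑ i, ‖y (σ i)‖ₑ ^ 2) ^ (-((N - 1 : ℝ) / N))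

/-- output of SAT -/
structure SatFam (N : ℕ) {s : ℕ} (σ : Fin s → R.MK.B) : Prop where
  surj : Function.Surjective R.q
  conn : ∀ w : R.ML.Pts, PreconnectedSpace (R.Fib w)
  N_even : Even N
  N_ge : 4 ≤ N
  s_pos : 0 < s
  /-- the `σᵢ` are linearly independent on every fibre -/
  li : ∀ (w : R.ML.Pts) (a : Fin s → ℂ), (∀ y : R.Fib w, lc R σ a y.val = 0) → a = 0
  /-- `Φ < ∞` -/
  fin : ∀ (w : R.ML.Pts) (a : Fin s → ℂ), Phi R N σ w a ≠ ∞
  /-- `Φ` is continuous -/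
  cont : Continuous fun q : R.ML.Pts × (Fin s → ℂ) => (Phi R N σ q.1 q.2).toReal
  /-- (Cl) -/
  cl : ∀ (w : R.ML.Pts) (μ : Measure (R.Fib w)), IsLeb μ → ∀ f : R.Fib w → ℂ, Hol f →
    ∫⁻ y, ‖f y‖ₑ ^ 2 * wK R N σ y.val ∂μ ≠ ∞ → ∃ a : Fin s → ℂ, ∀ y, f y = lc R σ a y.val
  dfin : ∀ w, De R N σ w ≠ ∞
  dpos : ∀ w, 0 < D R N σ w
  dcont : Continuous (D R N σ)

/-- `SatFam` together with (FL) -/
structure FlatFam (N : ℕ) {s : ℕ} (σ : Fin s → R.MK.B) (k : ℕ) (f : R.ML.Pts → ℂ) : Prop extends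
    SatFam R N σ where
  k_pos : 0 < k
  hol : Hol f
  ne : ∀ w, f w ≠ 0
  eq : ∀ w, ‖f w‖ ^ 2 = D R N σ w ^ k

end Crest.Agent.R276.FlatFam_793
end
end

-- ▼ part R276/GeoN2_348

/-!
# R276, leaf GEO-NRM (helper348), part 2: the norm of the root on 519's root cover

* `fnorm_ZD` : `(RF (ZDF F ρ δ₀ …) …).fnorm u rt = N * ∫_{s-fold fibre over ρ u} |δ₀|^(2/N)`;
* `fnorm_RF` : the same for the part `{g ≠ 0}` of the fibre power (`ZF F ρ s g`);
* `fintS_pi`, `fintS_eq` : for a relative model the `s`-fold fibre integral is the integral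
  against `Measure.pi (nu R w)` and is 793's `fintS`;
* `fnorm_De`, `De_eq_DN` : the norm of the root of `dl σ` is `N * De R N σ (ρ u) = N * DN N σ (ρ u)`.
-/

set_option autoImplicit false

noncomputable section

open Set Filter Topology MeasureTheory
open Crest.Agent.R271.Ho51 Crest.Agent.R271.Rd692
open Crest.Agent.R276.Top8_815 Crest.Agent.R276.Rc_348 Crest.Agent.R276.Mod1_987
open Crest.Agent.R276.GeoY_519 Crest.Agent.R276.GeoY2_519 Crest.Agent.R276.GeoN_348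
open Crest.Agent.R276.IpcRMdl_244 (fF)
open scoped ENNReal

namespace Crest.Agent.R276.GeoN2_348

section gen

variable {m r : ℕ} {S X P : Type*} [TopologicalSpace S] [RDom m S] [TopologicalSpace X] [RDom m X]
  [TopologicalSpace P] (F : FSp m r X P)

/-- integral over the `s`-fold fibre -/
def fintS (s : ℕ) (x : X) (f : (Fin s → P) → ℝ≥0∞) : ℝ≥0∞ :=
  ∫⁻ τ : Fin (s * r) → ℂ, ∑' y : {y : Fin s → P // (∀ j, F.q (y j) = x) ∧ tt F y = τ}, f y.1

/-- change of variables from `Fin (s * r) → ℂ` to `Fin s → Fin r → ℂ`, no measurability needed -/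
theorem lintegral_blk {r s : ℕ} (G : (Fin s → Fin r → ℂ) → ℝ≥0∞) :
    ∫⁻ τ : Fin (s * r) → ℂ, G (fun j => blk τ j) = ∫⁻ x : Fin s → Fin r → ℂ, G x := by
  have h1 : MeasurableEmbedding (fun (τ : Fin (s * r) → ℂ) (j : Fin s) => (blk τ j : Fin r → ℂ)) :=
    (flatH r s).symm.measurableEmbedding
  exact (mp_blk r s).lintegral_comp_emb h1 G

/-- the `s`-fold fibre integral in unflattened coordinates -/
theorem fintS_eq' (s : ℕ) (x : X) (f : (Fin s → P) → ℝ≥0∞) :
    fintS F s x f = ∫⁻ ξ : Fin s → Fin r → ℂ,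
      ∑' y : {y : Fin s → P // (∀ j, F.q (y j) = x) ∧ ∀ j, F.t (y j) = ξ j}, f y.1 := by
  rw [← lintegral_blk]
  unfold fintS
  refine lintegral_congr fun τ => ?_
  have h1 : ∀ y : Fin s → P, ((∀ j, F.q (y j) = x) ∧ tt F y = τ) ↔
      ((∀ j, F.q (y j) = x) ∧ ∀ j, F.t (y j) = blk τ j) := by
    intro y
    refine and_congr_right fun _ => ⟨?_, ?_⟩
    · rintro rfl j
      exact (blk_tt F y j).symm
    · intro h
      apply blk_ext
      intro j
      rw [blk_tt, h j]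
  exact (Equiv.subtypeEquivRight h1).tsum_eq
    (fun y : {y : Fin s → P // (∀ j, F.q (y j) = x) ∧ ∀ j, F.t (y j) = blk τ j} => f y.1)

variable {F} {ρ : S → X} {s : ℕ} {g : MvPolynomial (Fin (m + s * r)) ℂ}


variable {δ₀ : (Fin s → P) → ℂ}


end gen


section rel

variable {L K : Type} [Field L] [Field K] [Algebra ℂ L] [Algebra ℂ K] [Algebra L K]
  [IsScalarTower ℂ L K] {m r : ℕ} (R : RMdl L K m r)

/-- The `s`-fold fibre integral on a relative model. -/
theorem fintS_pi {w : R.ML.Pts} {μ : Measure (R.Fib w)} (hμ : IsLeb μ) {s : ℕ}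
    {f : (Fin s → R.MK.Pts) → ℝ≥0∞} (hf : Measurable f) :
    fintS (fF R) s w f = ∫⁻ y, f (fun j => (y j).val) ∂(Measure.pi fun _ : Fin s => μ) := by
  have hm : Measurable fun y : Fin s → R.Fib w => f (fun j => (y j).val) := by
    refine hf.comp (measurable_pi_lambda _ fun j => ?_)
    exact ((RMdl.Fib.continuous_val w).measurable).comp (measurable_pi_apply j)
  rw [lintegral_pi_fibre hμ hm]
  unfold fintS
  refine lintegral_congr fun τ => ?_
  let e : {y : Fin s → R.MK.Pts // (∀ j, (fF R).q (y j) = w) ∧ tt (fF R) y = τ} ≃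
      {y : Fin s → R.Fib w // ∀ j, (cp (y j) : Fin r → ℂ) = blk τ j} :=
    { toFun := fun y => ⟨fun j => ⟨y.1 j, y.2.1 j⟩, fun j => by
        have h1 := blk_tt (fF R) y.1 j
        rw [y.2.2] at h1
        exact h1.symm⟩
      invFun := fun y => ⟨fun j => (y.1 j).val, fun j => (y.1 j).q_eq, by
        apply blk_ext
        intro j
        rw [blk_tt]
        exact y.2 j⟩
      left_inv := fun _ => rfl
      right_inv := fun _ => rfl }
  exact e.tsum_eq (fun y : {y : Fin s → R.Fib w // ∀ j, (cp (y j) : Fin r → ℂ) = blk τ j} =>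
    f (fun j => (y.1 j).val))

/-- It is 793's `fintS`. -/
theorem fintS_793 (s : ℕ) (w : R.ML.Pts) (f : (Fin s → R.MK.Pts) → ℝ≥0∞) :
    fintS (fF R) s w f = FlatFam_793.fintS R s w f := by
  rw [fintS_eq']
  rfl

/-- 793's `fintS` as an integral against the product measure -/
theorem fintS_793_pi {w : R.ML.Pts} {μ : Measure (R.Fib w)} (hμ : IsLeb μ) {s : ℕ}
    {f : (Fin s → R.MK.Pts) → ℝ≥0∞} (hf : Measurable f) :
    FlatFam_793.fintS R s w f = ∫⁻ y, f (fun j => (y j).val) ∂(Measure.pi fun _ : Fin s => μ) := by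
  rw [← fintS_793, fintS_pi R hμ hf]

theorem continuous_dl {s : ℕ} (σ : Fin s → R.MK.B) : Continuous (FlatFam_793.dl σ) := by
  refine Continuous.matrix_det ?_
  exact continuous_matrix fun i j => (continuous_ev (σ i)).comp (continuous_apply j)

/-- 793's `De` is 236's `DN`. -/
theorem De_eq_DN (N : ℕ) {s : ℕ} (σ : Fin s → R.MK.B) (w : R.ML.Pts) :
    FlatFam_793.De R N σ w = FlatDefs_236.DN N σ w := by
  unfold FlatFam_793.De
  rw [fintS_793_pi R (FlatDefs_236.nu_leb R w)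
    ((continuous_dl R σ).measurable.enorm.pow_const _)]
  unfold FlatDefs_236.DN FlatM_464.DD
  refine lintegral_congr fun y => ?_
  have hp : (0 : ℝ) ≤ 2 / (N : ℝ) := by positivity
  rw [← Real.enorm_eq_ofReal (Real.rpow_nonneg (norm_nonneg _) _),
    Real.enorm_rpow_of_nonneg (norm_nonneg _) hp, enorm_norm]
  congr 2
  unfold FlatFam_793.dl
  rw [← Matrix.det_transpose]
  rfl


end rel

end Crest.Agent.R276.GeoN2_348
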