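import Crest.Agent.R276.FK3A_595
import Crest.Prelude.Def_KodairaDim
import Crest.Agent.R276.FKD5_508
import Crest.Agent.R276.FKFin_849
import Crest.Agent.R276.UHon_845
import Crest.Agent.R276.Triv_63

-- ▼ part R276/FK3B_595
section

set_option autoImplicit false
set_option linter.all false

namespace Crest.Agent.R276.FK3B_595

open TensorProduct Crest.Agent.R276.FK3A_595

/-- `K'/M` is the free base extension of `K0/L0` for suitable embeddings `L0 → M`, `K0 → K'`. -/
def FreeOver (L0 K0 M K' : Type*) [Field L0] [Field K0] [Field M] [Field K'] [Algebra L0 K0]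
    [Algebra M K'] : Prop :=
  ∃ (_ : Algebra L0 M) (_ : Algebra K0 K') (_ : Algebra L0 K') (_ : IsScalarTower L0 K0 K')
    (_ : IsScalarTower L0 M K'), BaseUp L0 K0 M K'

section

variable {A B : Type*} [CommRing A] [IsDomain A] [CommRing B] [IsDomain B] [Algebra A B]

/-- the ring map `A0 → B0` -/
abbrev subMap (A0 : Subring A) (B0 : Subring B)
    (h : ∀ a ∈ A0, algebraMap A B a ∈ B0) : A0 →+* B0 :=
  ((algebraMap A B).comp A0.subtype).codRestrict B0 (fun a => h a a.2)

theorem subMap_injective (A0 : Subring A) (B0 : Subring B)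
    (h : ∀ a ∈ A0, algebraMap A B a ∈ B0) (hAB : Function.Injective (algebraMap A B)) :
    Function.Injective (subMap A0 B0 h) := by
  intro x y hxy
  have h1 := congrArg Subtype.val hxy
  exact Subtype.ext (hAB h1)

theorem fracMap_inj (A0 : Subring A) (B0 : Subring B)
    (h : ∀ a ∈ A0, algebraMap A B a ∈ B0) (hAB : Function.Injective (algebraMap A B)) :
    Function.Injective ((algebraMap B0 (FractionRing B0)).comp (subMap A0 B0 h)) :=
  (IsFractionRing.injective B0 (FractionRing B0)).comp (subMap_injective A0 B0 h hAB)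

/-- the field map `Frac A0 → Frac B0` -/
noncomputable def fracMap (A0 : Subring A) (B0 : Subring B)
    (h : ∀ a ∈ A0, algebraMap A B a ∈ B0) (hAB : Function.Injective (algebraMap A B)) :
    FractionRing A0 →+* FractionRing B0 :=
  IsFractionRing.lift (A := A0) (K := FractionRing A0) (L := FractionRing B0)
    (fracMap_inj A0 B0 h hAB)

theorem freeOver {M K' : Type*} [Field M] [Field K'] [Algebra M K'] [Algebra A M] [Algebra B K']
    [Algebra A K'] [IsScalarTower A B K'] [IsScalarTower A M K']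
    (A0 : Subring A) (B0 : Subring B) (hm : IsModel A0 B0)
    (hAB : Function.Injective (algebraMap A B))
    (hM : ∀ a ∈ A0, algebraMap A M a = 0 → a = 0)
    (hinj : Function.Injective (pm A B M K'))
    (hgen : ∀ x : K', ∃ s t : M ⊗[A] B, pm A B M K' t ≠ 0 ∧ x * pm A B M K' t = pm A B M K' s) :
    letI := (fracMap A0 B0 hm.map_mem hAB).toAlgebra
    FreeOver (FractionRing A0) (FractionRing B0) M K' := by
  letI iAB := subAlg A0 B0 hm.map_mem
  haveI tAB := subAlg_tower A0 B0 hm.map_mem
  letI iL := (fracMap A0 B0 hm.map_mem hAB).toAlgebra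
  haveI t1 : IsScalarTower A0 B0 (FractionRing B0) := inferInstance
  haveI t2 : IsScalarTower A0 (FractionRing A0) (FractionRing B0) := by
    refine IsScalarTower.of_algebraMap_eq' ?_
    refine RingHom.ext fun x => ?_
    have h := IsFractionRing.lift_algebraMap (K := FractionRing A0)
      (fracMap_inj A0 B0 hm.map_mem hAB) x
    exact h.symm
  haveI t3 : IsScalarTower A0 A M := inferInstance
  haveI t4 : IsScalarTower A0 A B := inferInstance
  haveI t5 : IsScalarTower B0 B K' := inferInstance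
  haveI t6 : IsScalarTower A0 B0 K' := by
    refine IsScalarTower.of_algebraMap_eq' ?_
    refine RingHom.ext fun x => ?_
    have h := IsScalarTower.algebraMap_apply A B K' x
    exact h
  haveI t7 : IsScalarTower A0 M K' := by
    refine IsScalarTower.of_algebraMap_eq' ?_
    refine RingHom.ext fun x => ?_
    have h := IsScalarTower.algebraMap_apply A M K' x
    exact h
  have hbij := hm.bij
  have hinj0 : Function.Injective (pm A0 B0 M K') := pm_injective_of hbij hinj
  have hgen0 := pm_gen_of (M := M) (K' := K') hbij hgen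
  have hAM : Function.Injective (algebraMap A0 M) := by
    rw [injective_iff_map_eq_zero]
    intro a ha
    exact Subtype.ext (hM a a.2 ha)
  have hBK : Function.Injective (algebraMap B0 K') := by
    rw [injective_iff_map_eq_zero]
    intro b hb
    by_contra hne
    have hli : LinearIndependent A0 (fun _ : Fin 1 => b) := by
      rw [Fintype.linearIndependent_iff]
      intro g hg i
      have h1 : g 0 • b = 0 := by rw [Fin.sum_univ_one] at hg; exact hg
      rw [Algebra.smul_def, mul_eq_zero] at h1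
      rcases h1 with h1 | h1
      · have h2 : g 0 = 0 := by
          apply subMap_injective A0 B0 hm.map_mem hAB
          rw [map_zero]; exact h1
        rw [Subsingleton.elim i 0]; exact h2
      · exact absurd h1 hne
    have h2 := (linInd_of_flat (K' := K') hAM hinj0 (fun _ : Fin 1 => b) hli).ne_zero 0
    exact h2 hb
  letI a1 : Algebra (FractionRing A0) M := (IsFractionRing.lift (K := FractionRing A0) hAM).toAlgebra
  letI a2 : Algebra (FractionRing B0) K' := (IsFractionRing.lift (K := FractionRing B0) hBK).toAlgebra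
  letI a3 : Algebra (FractionRing A0) K' :=
    ((algebraMap (FractionRing B0) K').comp (algebraMap (FractionRing A0) (FractionRing B0))).toAlgebra
  haveI t8 : IsScalarTower (FractionRing A0) (FractionRing B0) K' :=
    IsScalarTower.of_algebraMap_eq' rfl
  haveI t9 : IsScalarTower A0 (FractionRing A0) M := by
    refine IsScalarTower.of_algebraMap_eq' ?_
    refine RingHom.ext fun x => ?_
    exact (IsFractionRing.lift_algebraMap (K := FractionRing A0) hAM x).symm
  haveI t10 : IsScalarTower B0 (FractionRing B0) K' := by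
    refine IsScalarTower.of_algebraMap_eq' ?_
    refine RingHom.ext fun x => ?_
    exact (IsFractionRing.lift_algebraMap (K := FractionRing B0) hBK x).symm
  haveI t11 : IsScalarTower (FractionRing A0) M K' := by
    refine IsScalarTower.of_algebraMap_eq' ?_
    refine IsFractionRing.ringHom_ext (A := A0) (K := FractionRing A0) ?_
    intro x
    rw [RingHom.comp_apply, ← IsScalarTower.algebraMap_apply A0 (FractionRing A0) M,
      ← IsScalarTower.algebraMap_apply A0 M K']
    change (algebraMap (FractionRing B0) K') (algebraMap (FractionRing A0) (FractionRing B0)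
      (algebraMap A0 (FractionRing A0) x)) = _
    rw [← IsScalarTower.algebraMap_apply A0 (FractionRing A0) (FractionRing B0),
      IsScalarTower.algebraMap_apply A0 B0 (FractionRing B0),
      ← IsScalarTower.algebraMap_apply B0 (FractionRing B0) K',
      ← IsScalarTower.algebraMap_apply A0 B0 K']
  exact ⟨a1, a2, a3, t8, t11, baseUp (A := A0) (B := B0) hinj0 hgen0⟩

end

end Crest.Agent.R276.FK3B_595
end

-- ▼ part R276/FK3C_595
section

set_option autoImplicit false
set_option linter.all false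

universe u

open AlgebraicGeometry CategoryTheory TensorProduct

namespace Crest.Agent.R276.FK3C_595

section sec

variable {R : CommRingCat.{u}} {F : Scheme.{u}} [IrreducibleSpace F] (ι : Spec R ⟶ F)
  [IsOpenImmersion ι] [Nonempty (Spec R)]

instance : Nonempty (ι ''ᵁ (⊤ : (Spec R).Opens)) := by
  obtain ⟨x⟩ := ‹Nonempty (Spec R)›
  exact ⟨⟨ι x, ⟨x, trivial, rfl⟩⟩⟩

/-- the map from `R` to the function field of a scheme with open immersion from `Spec R` -/
noncomputable def sec : R ⟶ F.functionField :=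
  (Scheme.ΓSpecIso R).inv ≫ (ι.appIso ⊤).inv ≫ F.germToFunctionField (ι ''ᵁ ⊤)

theorem sec_injective [IsIntegral F] : Function.Injective (sec ι) := by
  unfold sec
  have h1 : Function.Injective ((Scheme.ΓSpecIso R).inv) :=
    (ConcreteCategory.bijective_of_isIso _).1
  have h2 : Function.Injective ((ι.appIso ⊤).inv) :=
    (ConcreteCategory.bijective_of_isIso _).1
  have h3 := F.germToFunctionField_injective (ι ''ᵁ ⊤)
  intro x y hxy
  simp only [CommRingCat.comp_apply] at hxy
  exact h1 (h2 (h3 hxy))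

theorem sec_gen [IsIntegral F] (x : F.functionField) :
    ∃ s t : R, sec ι t ≠ 0 ∧ x * sec ι t = sec ι s := by
  have hW : IsAffineOpen (ι ''ᵁ (⊤ : (Spec R).Opens)) :=
    (isAffineOpen_top _).image_of_isOpenImmersion ι
  haveI := functionField_isFractionRing_of_isAffineOpen F _ hW
  have h1 : Function.Surjective ((Scheme.ΓSpecIso R).inv) :=
    (ConcreteCategory.bijective_of_isIso _).2
  have h2 : Function.Surjective ((ι.appIso ⊤).inv) :=
    (ConcreteCategory.bijective_of_isIso _).2
  obtain ⟨a, b, hb, rfl⟩ := IsFractionRing.div_surjective (A := Γ(F, ι ''ᵁ ⊤)) x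
  have hb0 : algebraMap Γ(F, ι ''ᵁ ⊤) F.functionField b ≠ 0 := by
    simpa using nonZeroDivisors.ne_zero hb
  obtain ⟨a', rfl⟩ := h2 a
  obtain ⟨a'', rfl⟩ := h1 a'
  obtain ⟨b', rfl⟩ := h2 b
  obtain ⟨b'', rfl⟩ := h1 b'
  exact ⟨a'', b'', hb0, div_mul_cancel₀ _ hb0⟩

theorem appTop_appIso_inv :
    ι.appTop ≫ (ι.appIso ⊤).inv = F.presheaf.map (homOfLE le_top).op := by
  have h1 : ι.appTop = ι.appLE ⊤ ⊤ (by simp) := Scheme.Hom.app_eq_appLE ι
  rw [h1]
  exact Scheme.Hom.appLE_appIso_inv ι (U := ⊤) (V := ⊤) (by simp)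

theorem sec_comp {C : CommRingCat.{u}} (p : F ⟶ Spec C) (ψ : C ⟶ R) (h : ι ≫ p = Spec.map ψ) :
    ψ ≫ sec ι = (Scheme.ΓSpecIso C).inv ≫ p.appTop ≫
      F.presheaf.germ ⊤ (genericPoint F) trivial := by
  unfold sec
  rw [Scheme.ΓSpecIso_inv_naturality_assoc, ← h, Scheme.Hom.comp_appTop, Category.assoc]
  congr 2
  rw [← Category.assoc, appTop_appIso_inv]
  exact F.presheaf.germ_res _ _ _

end sec

section fibre

variable {X Z : Scheme.{u}} (f : X ⟶ Z) {V : Z.Opens} (hV : IsAffineOpen V) {U : X.Opens}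
  (hU : IsAffineOpen U) (e : U ≤ f ⁻¹ᵁ V)

include hU in
theorem exists_immersion {C P : CommRingCat.{u}} (ψ : Γ(Z, V) ⟶ C) (inl : Γ(X, U) ⟶ P)
    (inr : C ⟶ P) (h : IsPushout (f.appLE V U e) ψ inl inr) (z : Spec C ⟶ Z)
    (hz : Spec.map ψ ≫ hV.fromSpec = z) :
    ∃ ι : Spec P ⟶ Limits.pullback f z, IsOpenImmersion ι ∧
      ι ≫ Limits.pullback.snd f z = Spec.map inr := by
  have hp := isPullback_SpecMap_of_isPushout _ _ _ _ h
  let i : Limits.pullback (Spec.map (f.appLE V U e)) (Spec.map ψ) ⟶ Limits.pullback f z :=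
    Limits.pullback.map (Spec.map (f.appLE V U e)) (Spec.map ψ) f z
      hU.fromSpec (𝟙 _) hV.fromSpec (hV.SpecMap_appLE_fromSpec f hU e) (by rw [hz, Category.id_comp])
  have hi : i ≫ Limits.pullback.snd f z = Limits.pullback.snd _ _ ≫ 𝟙 _ :=
    Limits.pullback.lift_snd _ _ _
  refine ⟨hp.isoPullback.hom ≫ i, inferInstance, ?_⟩
  rw [Category.assoc, hi, Category.comp_id, IsPullback.isoPullback_hom_snd]

/-- a point `Spec C ⟶ Z` (`C` a field) with image in the affine open `V` comes from a ring map -/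
theorem exists_ringMap {C : Type u} [Field C] (z : Spec (CommRingCat.of C) ⟶ Z)
    (hz : z (IsLocalRing.closedPoint C) ∈ V) :
    ∃ ψ : Γ(Z, V) ⟶ CommRingCat.of C, Spec.map ψ ≫ hV.fromSpec = z := by
  have hr : Set.range z ⊆ Set.range hV.fromSpec := by
    rw [hV.range_fromSpec]
    rintro _ ⟨p, rfl⟩
    have : p = IsLocalRing.closedPoint C := Subsingleton.elim _ _
    rw [this]; exact hz
  obtain ⟨ψ, hψ⟩ := Spec.map_surjective (IsOpenImmersion.lift hV.fromSpec z hr)
  exact ⟨ψ, by rw [hψ, IsOpenImmersion.lift_fac]⟩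

theorem mem_basicOpen_iff {C : Type u} [Field C] (z : Spec (CommRingCat.of C) ⟶ Z)
    (ψ : Γ(Z, V) ⟶ CommRingCat.of C) (hz : Spec.map ψ ≫ hV.fromSpec = z) (a : Γ(Z, V)) :
    z (IsLocalRing.closedPoint C) ∈ Z.basicOpen a ↔ ψ a ≠ 0 := by
  subst hz
  have h1 : (Spec.map ψ ≫ hV.fromSpec) (IsLocalRing.closedPoint C) ∈ Z.basicOpen a ↔
      Spec.map ψ (IsLocalRing.closedPoint C) ∈ hV.fromSpec ⁻¹ᵁ Z.basicOpen a := Iff.rfl
  rw [h1, hV.fromSpec_preimage_basicOpen]
  change a ∉ (Ideal.comap ψ.hom (IsLocalRing.maximalIdeal C)) ↔ _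
  rw [Ideal.mem_comap, IsLocalRing.maximalIdeal_eq_bot, Ideal.mem_bot]

end fibre

end Crest.Agent.R276.FK3C_595
end

-- ▼ part R276/FK3D_595
section

set_option autoImplicit false
set_option linter.all false

universe u

open AlgebraicGeometry CategoryTheory TensorProduct Crest.AlgGeometry.Divisors

namespace Crest.Agent.R276.FK3D_595

/-- the ring map `k → Γ(X, U)` -/
noncomputable def resMap (k : Type u) [Field k] (X : Scheme.{u}) [Algebra k Γ(X, ⊤)] (U : X.Opens) :
    k →+* Γ(X, U) :=
  (X.presheaf.map (homOfLE (le_top : U ≤ ⊤)).op).hom.comp (algebraMap k Γ(X, ⊤))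

theorem structureMorphism_appTop (k : Type u) [Field k] (X : Scheme.{u}) [Algebra k Γ(X, ⊤)] :
    (Scheme.ΓSpecIso (CommRingCat.of k)).inv ≫ (structureMorphism k X).appTop =
      CommRingCat.ofHom (algebraMap k Γ(X, ⊤)) := by
  unfold structureMorphism
  rw [Scheme.Hom.comp_appTop, Scheme.toSpecΓ_appTop, ← Scheme.ΓSpecIso_inv_naturality_assoc]
  simp

theorem structureMorphism_appLE (k : Type u) [Field k] (X : Scheme.{u}) [Algebra k Γ(X, ⊤)]
    (U : X.Opens) (e : U ≤ (structureMorphism k X) ⁻¹ᵁ ⊤) :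
    ((structureMorphism k X).appLE ⊤ U e).hom.comp
      (Scheme.ΓSpecIso (CommRingCat.of k)).inv.hom = resMap k X U := by
  have h := structureMorphism_appTop k X
  have h2 : (structureMorphism k X).appLE ⊤ U e =
      (structureMorphism k X).appTop ≫ X.presheaf.map (homOfLE (le_top : U ≤ ⊤)).op := rfl
  rw [h2, ← CommRingCat.hom_comp, ← Category.assoc, h]
  rfl

theorem finitePresentation (k : Type u) [Field k] (X : Scheme.{u}) [Algebra k Γ(X, ⊤)]
    (hX : IsProper (structureMorphism k X)) (U : X.Opens) (hU : IsAffineOpen U) :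
    (resMap k X U).FinitePresentation := by
  have e : U ≤ (structureMorphism k X) ⁻¹ᵁ ⊤ := le_top
  rw [← structureMorphism_appLE k X U e]
  have h1 : ((structureMorphism k X).appLE ⊤ U e).hom.FiniteType :=
    (structureMorphism k X).finiteType_appLE (isAffineOpen_top _) hU e
  have h2 := h1.comp (RingHom.FiniteType.of_surjective _
    (Scheme.ΓSpecIso (CommRingCat.of k)).symm.commRingCatIsoToRingEquiv.surjective)
  exact RingHom.FinitePresentation.of_finiteType.mp h2

section map

variable (k : Type u) [Field k] {X Z : Scheme.{u}} [Algebra k Γ(X, ⊤)] [Algebra k Γ(Z, ⊤)]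
  (f : X ⟶ Z)

theorem algebraMap_comp (hf : f ≫ structureMorphism k Z = structureMorphism k X) :
    CommRingCat.ofHom (algebraMap k Γ(Z, ⊤)) ≫ f.appTop =
      CommRingCat.ofHom (algebraMap k Γ(X, ⊤)) := by
  rw [← structureMorphism_appTop, ← structureMorphism_appTop k X, ← hf, Scheme.Hom.comp_appTop,
    Category.assoc]

theorem resMap_comp (hf : f ≫ structureMorphism k Z = structureMorphism k X)
    {V : Z.Opens} {U : X.Opens} (e : U ≤ f ⁻¹ᵁ V) :
    (f.appLE V U e).hom.comp (resMap k Z V) = resMap k X U := by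
  have h := algebraMap_comp k f hf
  have h1 : Z.presheaf.map (homOfLE (le_top : V ≤ ⊤)).op ≫ f.appLE V U e =
      f.appTop ≫ X.presheaf.map (homOfLE (le_top : U ≤ ⊤)).op := by
    rw [Scheme.Hom.map_appLE]; rfl
  have h2 : CommRingCat.ofHom (resMap k X U) =
      CommRingCat.ofHom (algebraMap k Γ(X, ⊤)) ≫ X.presheaf.map (homOfLE (le_top : U ≤ ⊤)).op := rfl
  have h3 : CommRingCat.ofHom (resMap k Z V) =
      CommRingCat.ofHom (algebraMap k Γ(Z, ⊤)) ≫ Z.presheaf.map (homOfLE (le_top : V ≤ ⊤)).op := rfl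
  have h4 : CommRingCat.ofHom (resMap k Z V) ≫ f.appLE V U e = CommRingCat.ofHom (resMap k X U) := by
    rw [h2, h3, ← h, Category.assoc, Category.assoc, h1]
  exact congrArg CommRingCat.Hom.hom h4

end map

section fn

variable {X Z : Scheme.{u}} (f : X ⟶ Z)

/-- the map of function fields of a morphism that maps the generic point to the generic point -/
noncomputable def fnMap [IrreducibleSpace X] [IrreducibleSpace Z]
    (h : f (genericPoint X) ⤳ genericPoint Z) : Z.functionField ⟶ X.functionField :=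
  Z.presheaf.stalkSpecializes h ≫ f.stalkMap (genericPoint X)

theorem specializes_of_surjective [IrreducibleSpace X] [IrreducibleSpace Z]
    (hs : Function.Surjective f) : f (genericPoint X) ⤳ genericPoint Z := by
  obtain ⟨x, hx⟩ := hs (genericPoint Z)
  rw [← hx]
  exact (genericPoint_specializes x).map f.continuous

theorem germ_fnMap' [IrreducibleSpace X] [IrreducibleSpace Z]
    (h : f (genericPoint X) ⤳ genericPoint Z) (V : Z.Opens) (hV : genericPoint Z ∈ V)
    (hV' : genericPoint X ∈ f ⁻¹ᵁ V) :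
    Z.presheaf.germ V (genericPoint Z) hV ≫ fnMap f h =
      f.app V ≫ X.presheaf.germ (f ⁻¹ᵁ V) (genericPoint X) hV' := by
  unfold fnMap
  rw [TopCat.Presheaf.germ_stalkSpecializes_assoc, Scheme.Hom.germ_stalkMap]

theorem germ_fnMap [IrreducibleSpace X] [IrreducibleSpace Z]
    (h : f (genericPoint X) ⤳ genericPoint Z) {V : Z.Opens} {U : X.Opens} (e : U ≤ f ⁻¹ᵁ V)
    [Nonempty V] [Nonempty U] :
    Z.germToFunctionField V ≫ fnMap f h = f.appLE V U e ≫ X.germToFunctionField U := by
  have hU : genericPoint X ∈ U :=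
    ((genericPoint_spec X).mem_open_set_iff U.isOpen).mpr (by simpa using ‹Nonempty U›)
  unfold Scheme.germToFunctionField
  rw [germ_fnMap' f h V _ (e hU), Scheme.Hom.appLE, Category.assoc]
  congr 1
  exact (X.presheaf.germ_res _ _ _).symm

/-- compatibility of the structure maps from `k` -/
theorem const_fnMap (k : Type u) [Field k] [Algebra k Γ(X, ⊤)] [Algebra k Γ(Z, ⊤)]
    [IrreducibleSpace X] [IrreducibleSpace Z]
    (hf : f ≫ structureMorphism k Z = structureMorphism k X)
    (h : f (genericPoint X) ⤳ genericPoint Z) (c : k) :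
    fnMap f h (Z.presheaf.germ ⊤ (genericPoint Z) trivial (algebraMap k Γ(Z, ⊤) c)) =
      X.presheaf.germ ⊤ (genericPoint X) trivial (algebraMap k Γ(X, ⊤) c) := by
  have h1 := algebraMap_comp k f hf
  have h2 : Z.presheaf.germ ⊤ (genericPoint Z) trivial ≫ fnMap f h =
      f.appTop ≫ X.presheaf.germ ⊤ (genericPoint X) trivial := germ_fnMap' f h ⊤ trivial trivial
  have h3 : CommRingCat.ofHom (algebraMap k Γ(Z, ⊤)) ≫
      Z.presheaf.germ ⊤ (genericPoint Z) trivial ≫ fnMap f h =
      CommRingCat.ofHom (algebraMap k Γ(X, ⊤)) ≫ X.presheaf.germ ⊤ (genericPoint X) trivial := by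
    rw [h2, ← h1, Category.assoc]
  exact congrArg (fun φ : CommRingCat.of k ⟶ X.functionField => φ.hom c) h3

end fn

end Crest.Agent.R276.FK3D_595
end

-- ▼ part R276/FK3E_595
section

set_option autoImplicit false
set_option linter.all false

namespace Crest.Agent.R276.FK3E_595

open TensorProduct Crest.Agent.R276.FK3A_595 Crest.Agent.R276.FK3B_595

section

variable {A B : Type*} [CommRing A] [IsDomain A] [CommRing B] [IsDomain B] [Algebra A B]

theorem freeOver' {M K' : Type*} [Field M] [Field K'] [Algebra M K'] [Algebra A M]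
    (A0 : Subring A) (B0 : Subring B) (hm : IsModel A0 B0)
    (hAB : Function.Injective (algebraMap A B))
    (hM : ∀ a ∈ A0, algebraMap A M a = 0 → a = 0)
    (σ : M ⊗[A] B →+* K') (hσ : ∀ m : M, σ (m ⊗ₜ 1) = algebraMap M K' m)
    (hinj : Function.Injective σ)
    (hgen : ∀ x : K', ∃ s t : M ⊗[A] B, σ t ≠ 0 ∧ x * σ t = σ s) :
    letI := (fracMap A0 B0 hm.map_mem hAB).toAlgebra
    FreeOver (FractionRing A0) (FractionRing B0) M K' := by
  letI a1 : Algebra B K' := (σ.comp Algebra.TensorProduct.includeRight.toRingHom).toAlgebra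
  letI a2 : Algebra A K' := ((algebraMap B K').comp (algebraMap A B)).toAlgebra
  haveI t1 : IsScalarTower A B K' := IsScalarTower.of_algebraMap_eq' rfl
  haveI t2 : IsScalarTower A M K' := by
    refine IsScalarTower.of_algebraMap_eq' ?_
    refine RingHom.ext fun x => ?_
    change σ (1 ⊗ₜ (algebraMap A B x)) = algebraMap M K' (algebraMap A M x)
    rw [← hσ, Algebra.algebraMap_eq_smul_one, ← TensorProduct.smul_tmul,
      ← Algebra.algebraMap_eq_smul_one]
  have h : ∀ t, pm A B M K' t = σ t := by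
    intro t
    induction t using TensorProduct.induction_on with
    | zero => simp
    | tmul m b =>
      rw [pm_tmul, ← hσ]
      change σ (m ⊗ₜ 1) * σ (1 ⊗ₜ b) = _
      rw [← map_mul, Algebra.TensorProduct.tmul_mul_tmul, mul_one, one_mul]
    | add x y hx hy => rw [map_add, map_add, hx, hy]
  refine freeOver A0 B0 hm hAB hM ?_ ?_
  · intro x y hxy
    rw [h, h] at hxy
    exact hinj hxy
  · intro x
    obtain ⟨s, t, ht, hx⟩ := hgen x
    exact ⟨s, t, by rw [h]; exact ht, by rw [h, h]; exact hx⟩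

theorem nontrivial_tensor {M : Type*} [Field M] [Algebra A M]
    (A0 : Subring A) (B0 : Subring B) (hm : IsModel A0 B0)
    (hAB : Function.Injective (algebraMap A B))
    (hM : ∀ a ∈ A0, algebraMap A M a = 0 → a = 0) :
    Nontrivial (M ⊗[A] B) := by
  letI iAB := subAlg A0 B0 hm.map_mem
  haveI tAB := subAlg_tower A0 B0 hm.map_mem
  have hAM : Function.Injective (algebraMap A0 M) := by
    rw [injective_iff_map_eq_zero]
    intro a ha
    exact Subtype.ext (hM a a.2 ha)
  haveI := flat_of_injective (A := A0) (M := M) hAM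
  -- the isomorphism
  let f : A ⊗[A0] B0 →ₗ[A] B :=
    (Algebra.TensorProduct.lift (Algebra.ofId A B) (IsScalarTower.toAlgHom A0 B0 B)
      (fun _ _ => Commute.all _ _)).toLinearMap
  have hf : ∀ t, f t = Algebra.TensorProduct.productMap
      (IsScalarTower.toAlgHom A0 A B) (IsScalarTower.toAlgHom A0 B0 B) t := by
    intro t
    induction t using TensorProduct.induction_on with
    | zero => simp
    | tmul x y => simp [f, Algebra.ofId_apply]
    | add x y hx hy => rw [map_add, map_add, hx, hy]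
  have hfb : Function.Bijective f := by
    have : (f : A ⊗[A0] B0 → B) = Algebra.TensorProduct.productMap
      (IsScalarTower.toAlgHom A0 A B) (IsScalarTower.toAlgHom A0 B0 B) := funext hf
    rw [this]; exact hm.bij
  let fe : A ⊗[A0] B0 ≃ₗ[A] B := LinearEquiv.ofBijective f hfb
  let e1 : M ⊗[A] (A ⊗[A0] B0) ≃ₗ[A] M ⊗[A0] B0 :=
    TensorProduct.AlgebraTensorModule.cancelBaseChange A0 A A M B0
  let e2 : M ⊗[A] (A ⊗[A0] B0) ≃ₗ[A] M ⊗[A] B := LinearEquiv.lTensor M fe
  have hinj : Function.Injective (Algebra.linearMap A0 B0) := subMap_injective A0 B0 hm.map_mem hAB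
  have hinj' : Function.Injective ((Algebra.linearMap A0 B0).lTensor M) :=
    Module.Flat.lTensor_preserves_injective_linearMap _ hinj
  haveI : Nontrivial (M ⊗[A0] A0) := (TensorProduct.rid A0 M).toEquiv.nontrivial
  haveI : Nontrivial (M ⊗[A0] B0) := hinj'.nontrivial
  exact (e1.symm.trans e2).symm.toEquiv.nontrivial

end

end Crest.Agent.R276.FK3E_595
end

-- ▼ part R276/FK3F_595
section

set_option autoImplicit false
set_option linter.all false

universe u

open AlgebraicGeometry CategoryTheory TensorProduct Crest.AlgGeometry.Divisors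
open Crest.Agent.R276.FK3A_595 Crest.Agent.R276.FK3B_595 Crest.Agent.R276.FK3C_595
open Crest.Agent.R276.FK3D_595 Crest.Agent.R276.FK3E_595

namespace Crest.Agent.R276.FK3F_595

theorem fk3 (k : Type u) [Field k] {X Z : Scheme.{u}} [Algebra k Γ(X, ⊤)] [Algebra k Γ(Z, ⊤)]
    [IsIntegral X] [IsIntegral Z] (hX : IsProper (structureMorphism k X))
    (hZ : IsProper (structureMorphism k Z)) (f : X ⟶ Z)
    (hf : f ≫ structureMorphism k Z = structureMorphism k X)
    (h : f (genericPoint X) ⤳ genericPoint Z) :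
    ∃ (L0 K0 : Type u) (_ : Field L0) (_ : Field K0) (_ : Algebra L0 K0),
      Countable L0 ∧ Countable K0 ∧
      (letI : Algebra Z.functionField X.functionField := (fnMap f h).hom.toAlgebra;
        FreeOver L0 K0 Z.functionField X.functionField) ∧
      ∃ Cc : ℕ → Set Z, (∀ i, IsClosed (Cc i) ∧ Cc i ≠ Set.univ) ∧
        ∀ z : Spec (CommRingCat.of k) ⟶ Z, (∀ i, z (IsLocalRing.closedPoint k) ∉ Cc i) →
          ∀ (_ : IsIntegral (Limits.pullback f z)),
            letI : Algebra k Γ(Limits.pullback f z, ⊤) := fibreAlgebra k f z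
            letI : Algebra k (Limits.pullback f z).functionField :=
              fnFieldAlgebra k (Limits.pullback f z)
            FreeOver L0 K0 k (Limits.pullback f z).functionField := by
  classical
  -- the affine opens
  obtain ⟨V, hV, hzV, -⟩ := exists_isAffineOpen_mem_and_subset (X := Z) (U := ⊤)
    (x := genericPoint Z) trivial
  have hxV : genericPoint X ∈ f ⁻¹ᵁ V := h.mem_open V.isOpen hzV
  obtain ⟨U, hU, hxU, hUV⟩ := exists_isAffineOpen_mem_and_subset (X := X) (U := f ⁻¹ᵁ V) hxV
  have e : U ≤ f ⁻¹ᵁ V := hUV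
  haveI : Nonempty V := ⟨⟨_, hzV⟩⟩
  haveI : Nonempty U := ⟨⟨_, hxU⟩⟩
  -- the algebras
  letI iA : Algebra k Γ(Z, V) := (resMap k Z V).toAlgebra
  letI iB : Algebra k Γ(X, U) := (resMap k X U).toAlgebra
  letI iAB : Algebra Γ(Z, V) Γ(X, U) := (f.appLE V U e).hom.toAlgebra
  haveI tAB : IsScalarTower k Γ(Z, V) Γ(X, U) :=
    IsScalarTower.of_algebraMap_eq' (resMap_comp k f hf e).symm
  haveI fpA : Algebra.FinitePresentation k Γ(Z, V) := finitePresentation k Z hZ V hV
  haveI fpB : Algebra.FinitePresentation k Γ(X, U) := finitePresentation k X hX U hU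
  letI iLK : Algebra Z.functionField X.functionField := (fnMap f h).hom.toAlgebra
  haveI fracA : IsFractionRing Γ(Z, V) Z.functionField :=
    functionField_isFractionRing_of_isAffineOpen Z V hV
  haveI fracB : IsFractionRing Γ(X, U) X.functionField :=
    functionField_isFractionRing_of_isAffineOpen X U hU
  letI iAK : Algebra Γ(Z, V) X.functionField :=
    ((algebraMap Γ(X, U) X.functionField).comp (algebraMap Γ(Z, V) Γ(X, U))).toAlgebra
  haveI tABK : IsScalarTower Γ(Z, V) Γ(X, U) X.functionField := IsScalarTower.of_algebraMap_eq' rfl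
  haveI tALK : IsScalarTower Γ(Z, V) Z.functionField X.functionField :=
    IsScalarTower.of_algebraMap_eq' (congrArg CommRingCat.Hom.hom (germ_fnMap f h e)).symm
  have hAL : Function.Injective (algebraMap Γ(Z, V) Z.functionField) :=
    IsFractionRing.injective _ _
  have hAB : Function.Injective (algebraMap Γ(Z, V) Γ(X, U)) := by
    have h1 : Function.Injective (algebraMap Γ(Z, V) X.functionField) := by
      rw [IsScalarTower.algebraMap_eq Γ(Z, V) Z.functionField X.functionField]
      exact (algebraMap Z.functionField X.functionField).injective.comp hAL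
    rw [IsScalarTower.algebraMap_eq Γ(Z, V) Γ(X, U) X.functionField] at h1
    exact Function.Injective.of_comp h1
  obtain ⟨A0, B0, hA0, hB0, hm⟩ := exists_model (k := k) (A := Γ(Z, V)) (B := Γ(X, U))
  letI iL0K0 : Algebra (FractionRing A0) (FractionRing B0) := (fracMap A0 B0 hm.map_mem hAB).toAlgebra
  have hcA : Countable (FractionRing A0) := by
    exact (IsLocalization.mk'_surjective (M := nonZeroDivisors A0) (S := FractionRing A0)).countable
  have hcB : Countable (FractionRing B0) := by
    exact (IsLocalization.mk'_surjective (M := nonZeroDivisors B0) (S := FractionRing B0)).countable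
  -- the closed subsets
  haveI : Nonempty {a : A0 // a ≠ 0} := ⟨⟨1, one_ne_zero⟩⟩
  obtain ⟨en, hen⟩ := exists_surjective_nat {a : A0 // a ≠ 0}
  refine ⟨FractionRing A0, FractionRing B0, inferInstance, inferInstance, iL0K0, hcA, hcB, ?_, ?_⟩
  · exact freeOver A0 B0 hm hAB (fun a _ ha => hAL (by rw [ha, map_zero])) pm_generic_injective
      pm_generic_gen
  refine ⟨fun i => (Z.basicOpen ((en i).1 : Γ(Z, V)) : Set Z)ᶜ, fun i => ⟨?_, ?_⟩, ?_⟩
  · exact (Z.basicOpen ((en i).1 : Γ(Z, V))).isOpen.isClosed_compl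
  · intro hu
    rw [Set.compl_univ_iff] at hu
    have h1 : Z.basicOpen ((en i).1 : Γ(Z, V)) = ⊥ := TopologicalSpace.Opens.ext hu
    rw [basicOpen_eq_bot_iff] at h1
    exact (en i).2 (Subtype.ext h1)
  intro z hz hint
  have hz' : ∀ a : Γ(Z, V), a ∈ A0 → a ≠ 0 → z (IsLocalRing.closedPoint k) ∈ Z.basicOpen a := by
    intro a ha ha0
    obtain ⟨i, hi⟩ := hen ⟨⟨a, ha⟩, fun h0 => ha0 (congrArg Subtype.val h0)⟩
    have h1 : z (IsLocalRing.closedPoint k) ∈ (Z.basicOpen ((en i).1 : Γ(Z, V)) : Set Z) :=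
      not_not.mp (hz i)
    rw [hi] at h1
    exact h1
  have hzV : z (IsLocalRing.closedPoint k) ∈ V :=
    Z.basicOpen_le _ (hz' 1 A0.one_mem one_ne_zero)
  obtain ⟨ψ, hψ⟩ := exists_ringMap hV z hzV
  letI iAk : Algebra Γ(Z, V) k := ψ.hom.toAlgebra
  have hM : ∀ a ∈ A0, algebraMap Γ(Z, V) k a = 0 → a = 0 := by
    intro a ha h0
    by_contra hne
    exact (mem_basicOpen_iff hV z ψ hψ a).mp (hz' a ha hne) h0
  have hpo : IsPushout (f.appLE V U e) ψ
      (CommRingCat.ofHom (S := k ⊗[Γ(Z, V)] Γ(X, U)) Algebra.TensorProduct.includeRight.toRingHom)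
      (CommRingCat.ofHom (S := k ⊗[Γ(Z, V)] Γ(X, U)) Algebra.TensorProduct.includeLeftRingHom) :=
    (CommRingCat.isPushout_tensorProduct Γ(Z, V) k Γ(X, U)).flip
  obtain ⟨ι, hι, hs⟩ := exists_immersion f hV hU e ψ _ _ hpo z hψ
  haveI hnt := nontrivial_tensor (M := k) A0 B0 hm hAB hM
  haveI hne : Nonempty (Spec (CommRingCat.of (k ⊗[Γ(Z, V)] Γ(X, U)))) :=
    inferInstanceAs (Nonempty (PrimeSpectrum (k ⊗[Γ(Z, V)] Γ(X, U))))
  letI iF : Algebra k Γ(Limits.pullback f z, ⊤) := fibreAlgebra k f z
  letI iF' : Algebra k (Limits.pullback f z).functionField :=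
    fnFieldAlgebra k (Limits.pullback f z)
  refine freeOver' A0 B0 hm hAB hM (sec ι).hom ?_ (sec_injective ι) (sec_gen ι)
  intro m
  have h1 := sec_comp ι (Limits.pullback.snd f z) _ hs
  exact congrArg (fun φ : CommRingCat.of k ⟶ (Limits.pullback f z).functionField => φ.hom m) h1

end Crest.Agent.R276.FK3F_595
end

-- ▼ part R276/FKS_508
section

/-!
# R276, leaf FK4 (helper508), Steinitz step

`L0` countable, `BaseUp L0 K0 C K1`, `BaseUp L0 K0 L K2`, `C` algebraically closed, `#L = #C`:
`KapGeS C K1 d → KapGeS L K2 d`, `KapGe C K1 d → KapGe L K2 d`.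
-/

set_option autoImplicit false
set_option linter.unusedSectionVars false

open TensorProduct Cardinal

namespace Crest.Agent.R276.FKS_508

open Crest.Agent.R276.FK3A_595 (BaseUp)
open Crest.Agent.R276.FKDefs_779 (KapGe KapGeS)

noncomputable section

section Steinitz

universe u v

/-- `L` embeds into the algebraically closed field `C` of the same (uncountable) cardinality over
a countable common subfield, such that `C` becomes algebraic over `L`. -/
theorem exists_embedding (L0 : Type v) (L C : Type u) [Field L0] [Field L] [Field C] [Algebra L0 L]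
    [Algebra L0 C] [IsAlgClosed C] (h0 : Cardinal.mk L0 ≤ ℵ₀) (hcard : Cardinal.mk L = Cardinal.mk C)
    (hC : ℵ₀ < Cardinal.mk C) :
    ∃ ι : L →ₐ[L0] C, ∀ x : C, IsAlgebraic ι.range x := by
  have hinf : Infinite L := by rw [Cardinal.infinite_iff, hcard]; exact hC.le
  have hΩ : Cardinal.mk (AlgebraicClosure L) = Cardinal.mk C := by
    rw [← hcard]
    apply le_antisymm
    · exact (Algebra.IsAlgebraic.cardinalMk_le_max L (AlgebraicClosure L)).trans
        (by rw [max_eq_left]; exact Cardinal.infinite_iff.1 hinf)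
    · exact Cardinal.mk_le_of_injective (algebraMap L (AlgebraicClosure L)).injective
  have i1 : FaithfulSMul L0 (AlgebraicClosure L) :=
    (faithfulSMul_iff_algebraMap_injective _ _).2 (algebraMap L0 _).injective
  have i2 : FaithfulSMul L0 C :=
    (faithfulSMul_iff_algebraMap_injective _ _).2 (algebraMap L0 _).injective
  obtain ⟨s, hs⟩ := exists_isTranscendenceBasis L0 (AlgebraicClosure L)
  obtain ⟨t, ht⟩ := exists_isTranscendenceBasis L0 C
  have e1 := IsAlgClosed.cardinal_eq_cardinal_transcendence_basis_of_aleph0_lt _ hs h0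
    (by rw [hΩ]; exact hC)
  have e2 := IsAlgClosed.cardinal_eq_cardinal_transcendence_basis_of_aleph0_lt _ ht h0 hC
  have e3 : Cardinal.mk s = Cardinal.mk t := by
    simp only [Cardinal.lift_id] at e1 e2
    rw [← e1, ← e2, hΩ]
  obtain ⟨e⟩ := Cardinal.eq.1 e3
  have j1 := IsAlgClosed.isAlgClosure_of_transcendence_basis _ hs
  have j2 := IsAlgClosed.isAlgClosure_of_transcendence_basis _ ht
  let e' : Algebra.adjoin L0 (Set.range ((↑) : s → AlgebraicClosure L)) ≃ₐ[L0]
      Algebra.adjoin L0 (Set.range ((↑) : t → C)) :=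
    (hs.1.aevalEquiv.symm.trans (MvPolynomial.renameEquiv L0 e)).trans ht.1.aevalEquiv
  let E : AlgebraicClosure L ≃+* C := IsAlgClosure.equivOfEquiv (AlgebraicClosure L) C e'.toRingEquiv
  have hE : ∀ c : L0, E (algebraMap L0 (AlgebraicClosure L) c) = algebraMap L0 C c := by
    intro c
    have h1 : algebraMap L0 (AlgebraicClosure L) c =
        algebraMap (Algebra.adjoin L0 (Set.range ((↑) : s → AlgebraicClosure L)))
          (AlgebraicClosure L) (algebraMap L0 _ c) := rfl
    rw [h1]
    simp only [E]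
    rw [IsAlgClosure.equivOfEquiv_algebraMap]
    have h2 : e'.toRingEquiv (algebraMap L0 _ c) = algebraMap L0 _ c := e'.commutes c
    rw [h2]
    rfl
  let ι : L →ₐ[L0] C :=
    { toRingHom := (E : AlgebraicClosure L →+* C).comp (algebraMap L (AlgebraicClosure L))
      commutes' := fun c => by
        change E (algebraMap L (AlgebraicClosure L) (algebraMap L0 L c)) = _
        rw [← IsScalarTower.algebraMap_apply, hE] }
  refine ⟨ι, fun x => ?_⟩
  obtain ⟨y, rfl⟩ := E.surjective x
  obtain ⟨p, hp0, hp⟩ := Algebra.IsAlgebraic.isAlgebraic (R := L) y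
  let ι' : L →+* ι.range := ι.rangeRestrict
  refine ⟨p.map ι', ?_, ?_⟩
  · rwa [Ne, Polynomial.map_eq_zero_iff]
    exact ι'.injective
  · have h3 := Polynomial.map_aeval_eq_aeval_map (φ := ι') (ψ := (E : AlgebraicClosure L →+* C))
      (by ext c; rfl) p y
    rw [hp, map_zero] at h3
    exact h3.symm

end Steinitz

section Glue

/-- linear disjointness for arbitrary families -/
theorem ld_family {k K C K1 : Type*} [Field k] [Field K] [Field C] [Field K1]
    [Algebra k K] [Algebra k C] [Algebra K K1] [Algebra C K1] [Algebra k K1]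
    [IsScalarTower k K K1] [IsScalarTower k C K1] (h : BaseUp k K C K1) {ι : Type*} (v : ι → K)
    (hv : LinearIndependent k v) : LinearIndependent C (fun i => algebraMap K K1 (v i)) := by
  classical
  rw [linearIndependent_iff']
  intro s g hg i hi
  let e : Fin s.card ≃ s := s.equivFin.symm
  have h1 : LinearIndependent k (fun j : Fin s.card => v (e j)) :=
    hv.comp (fun j : Fin s.card => ((e j : s) : ι)) (fun a b hab => e.injective (Subtype.ext hab))
  have h2 := h.ld _ _ h1
  rw [Fintype.linearIndependent_iff] at h2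
  have h3 := h2 (fun j => g (e j)) (by
    rw [← hg, ← Finset.sum_coe_sort s, ← e.sum_comp]) (e.symm ⟨i, hi⟩)
  simpa using h3

/-- `C ⊗ K → K1` is injective -/
theorem prod_injective {k K C K1 : Type*} [Field k] [Field K] [Field C] [Field K1]
    [Algebra k K] [Algebra k C] [Algebra K K1] [Algebra C K1] [Algebra k K1]
    [IsScalarTower k K K1] [IsScalarTower k C K1] {ι : Type*} (β : Module.Basis ι k K)
    (hβ : LinearIndependent C (fun i => algebraMap K K1 (β i))) :
    Function.Injective (Algebra.TensorProduct.productMap (IsScalarTower.toAlgHom k C K1)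
      (IsScalarTower.toAlgHom k K K1)) := by
  let b := β.baseChange C
  rw [injective_iff_map_eq_zero]
  intro x hx
  have h1 : Algebra.TensorProduct.productMap (IsScalarTower.toAlgHom k C K1)
      (IsScalarTower.toAlgHom k K K1) x =
      Finsupp.linearCombination C (fun i => algebraMap K K1 (β i)) (b.repr x) := by
    conv_lhs => rw [← b.linearCombination_repr x, Finsupp.linearCombination_apply, Finsupp.sum,
      map_sum]
    rw [Finsupp.linearCombination_apply, Finsupp.sum]
    refine Finset.sum_congr rfl fun i _ => ?_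
    simp [b, Module.Basis.baseChange_apply, Algebra.smul_def]
  rw [h1] at hx
  have h2 := (linearIndependent_iff.1 hβ) _ hx
  simpa using h2

/-- the image of `C ⊗ K → K1` is the `C`-span of `K` -/
theorem mem_range_prod {k K C K1 : Type*} [Field k] [Field K] [Field C] [Field K1]
    [Algebra k K] [Algebra k C] [Algebra K K1] [Algebra C K1] [Algebra k K1]
    [IsScalarTower k K K1] [IsScalarTower k C K1] (x : K1) :
    x ∈ Submodule.span C (Set.range (algebraMap K K1)) ↔
      ∃ t, Algebra.TensorProduct.productMap (IsScalarTower.toAlgHom k C K1)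
        (IsScalarTower.toAlgHom k K K1) t = x := by
  constructor
  · intro hx
    induction hx using Submodule.span_induction with
    | mem x hx => obtain ⟨a, rfl⟩ := hx; exact ⟨1 ⊗ₜ a, by simp⟩
    | zero => exact ⟨0, map_zero _⟩
    | add x y _ _ h1 h2 =>
      obtain ⟨s, rfl⟩ := h1; obtain ⟨t, rfl⟩ := h2
      exact ⟨s + t, map_add _ _ _⟩
    | smul c x _ h1 =>
      obtain ⟨s, rfl⟩ := h1
      exact ⟨(c ⊗ₜ 1) * s, by simp [Algebra.smul_def]⟩
  · rintro ⟨t, rfl⟩
    induction t using TensorProduct.induction_on with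
    | zero => rw [map_zero]; exact Submodule.zero_mem _
    | tmul c a =>
      simp only [Algebra.TensorProduct.productMap_apply_tmul, IsScalarTower.coe_toAlgHom']
      rw [← Algebra.smul_def]
      exact Submodule.smul_mem _ _ (Submodule.subset_span ⟨a, rfl⟩)
    | add s t h1 h2 => rw [map_add]; exact Submodule.add_mem _ h1 h2

variable {k K L C K1 K2 : Type*} [Field k] [Field K] [Field L] [Field C] [Field K1] [Field K2]
  [Algebra k K] [Algebra k L] [Algebra k C]
  [Algebra K K1] [Algebra C K1] [Algebra k K1] [IsScalarTower k K K1] [IsScalarTower k C K1]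
  [Algebra K K2] [Algebra L K2] [Algebra k K2] [IsScalarTower k K K2] [IsScalarTower k L K2]

/-- `K2 = Frac (L ⊗ K)` maps to `K1 ⊇ C ⊗ K` -/
theorem exists_hom (h1 : BaseUp k K C K1) (h2 : BaseUp k K L K2) (ι : L →ₐ[k] C) :
    ∃ φ : K2 →+* K1, (∀ a : K, φ (algebraMap K K2 a) = algebraMap K K1 a) ∧
      ∀ l : L, φ (algebraMap L K2 l) = algebraMap C K1 (ι l) := by
  classical
  let β := Module.Basis.ofVectorSpace k K
  let m2 : L ⊗[k] K →ₐ[k] K2 := Algebra.TensorProduct.productMap (IsScalarTower.toAlgHom k L K2)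
      (IsScalarTower.toAlgHom k K K2)
  have hm2 : Function.Injective m2 := prod_injective β (ld_family h2 β β.linearIndependent)
  let m1 : C ⊗[k] K →ₐ[k] K1 := Algebra.TensorProduct.productMap (IsScalarTower.toAlgHom k C K1)
      (IsScalarTower.toAlgHom k K K1)
  have hm1 : Function.Injective m1 := prod_injective β (ld_family h1 β β.linearIndependent)
  let u : L ⊗[k] K →ₐ[k] C ⊗[k] K := Algebra.TensorProduct.map ι (AlgHom.id k K)
  have hu : Function.Injective u := by
    have : Function.Injective (ι.toLinearMap.rTensor K) :=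
      Module.Flat.rTensor_preserves_injective_linearMap _ ι.toRingHom.injective
    exact this
  have hdom : IsDomain (L ⊗[k] K) := hm2.isDomain m2.toRingHom
  let : Algebra (L ⊗[k] K) K2 := m2.toRingHom.toAlgebra
  have : FaithfulSMul (L ⊗[k] K) K2 := (faithfulSMul_iff_algebraMap_injective _ _).2 hm2
  have hfr : IsFractionRing (L ⊗[k] K) K2 := by
    refine IsFractionRing.of_field (L ⊗[k] K) K2 (fun z => ?_)
    obtain ⟨a, ha, b, hb, hb0, hab⟩ := h2.gen z
    obtain ⟨s, hs⟩ := (mem_range_prod (k := k) a).1 ha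
    obtain ⟨t, ht⟩ := (mem_range_prod (k := k) b).1 hb
    refine ⟨s, t, ?_⟩
    have e1 : algebraMap (L ⊗[k] K) K2 s = a := hs
    have e2 : algebraMap (L ⊗[k] K) K2 t = b := ht
    rw [e1, e2, ← hab, mul_div_cancel_right₀ _ hb0]
  let φ : K2 →+* K1 := IsFractionRing.lift (A := L ⊗[k] K) (g := (m1.comp u).toRingHom)
    (hm1.comp hu)
  have hφ : ∀ t : L ⊗[k] K, φ (m2 t) = m1 (u t) := fun t =>
    IsFractionRing.lift_algebraMap (A := L ⊗[k] K) (K := K2) _ t
  refine ⟨φ, fun a => ?_, fun l => ?_⟩
  · have := hφ (1 ⊗ₜ a)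
    simpa [m1, m2, u] using this
  · have := hφ (l ⊗ₜ 1)
    simpa [m1, m2, u] using this

theorem repr_map {J : Type*} (β : Module.Basis J k K) (ι : L →ₐ[k] C) (t : L ⊗[k] K) (i : J) :
    (β.baseChange C).repr (Algebra.TensorProduct.map ι (AlgHom.id k K) t) i =
      ι ((β.baseChange L).repr t i) := by
  induction t using TensorProduct.induction_on with
  | zero => simp
  | tmul l a => simp [Module.Basis.baseChange_repr_tmul]
  | add s t h1 h2 => simp only [map_add, Finsupp.add_apply, h1, h2]

variable [Algebra L C] [IsScalarTower k L C] [Algebra K2 K1] [IsScalarTower K K2 K1]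
  [Algebra L K1] [IsScalarTower L C K1] [IsScalarTower L K2 K1]

/-- a basis of `C/L` stays linearly independent over `K2` -/
theorem linInd_K2 (h1 : BaseUp k K C K1) (h2 : BaseUp k K L K2) {J : Type*} (γ : J → C)
    (hγ : LinearIndependent L γ) : LinearIndependent K2 (fun j => algebraMap C K1 (γ j)) := by
  classical
  let β := Module.Basis.ofVectorSpace k K
  let m2 : L ⊗[k] K →ₐ[k] K2 := Algebra.TensorProduct.productMap (IsScalarTower.toAlgHom k L K2)
      (IsScalarTower.toAlgHom k K K2)
  have hm2 : Function.Injective m2 := prod_injective β (ld_family h2 β β.linearIndependent)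
  let m1 : C ⊗[k] K →ₐ[k] K1 := Algebra.TensorProduct.productMap (IsScalarTower.toAlgHom k C K1)
      (IsScalarTower.toAlgHom k K K1)
  have hm1 : Function.Injective m1 := prod_injective β (ld_family h1 β β.linearIndependent)
  let u : L ⊗[k] K →ₐ[k] C ⊗[k] K :=
    Algebra.TensorProduct.map (IsScalarTower.toAlgHom k L C) (AlgHom.id k K)
  have hφ : ∀ t : L ⊗[k] K, algebraMap K2 K1 (m2 t) = m1 (u t) := by
    intro t
    induction t using TensorProduct.induction_on with
    | zero => simp
    | tmul l a =>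
      simp only [m1, m2, u, Algebra.TensorProduct.productMap_apply_tmul,
        IsScalarTower.coe_toAlgHom', Algebra.TensorProduct.map_tmul, AlgHom.id_apply, map_mul]
      rw [← IsScalarTower.algebraMap_apply L K2 K1, ← IsScalarTower.algebraMap_apply K K2 K1,
        ← IsScalarTower.algebraMap_apply L C K1]
    | add s t h1 h2 => simp only [map_add, h1, h2]
  rw [linearIndependent_iff']
  intro s g hg j hj
  -- common denominator
  have hden : ∀ s : Finset J, ∃ b : K2, b ≠ 0 ∧ (∃ t, m2 t = b) ∧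
      ∀ j ∈ s, ∃ t, m2 t = b * g j := by
    intro s
    induction s using Finset.induction_on with
    | empty => exact ⟨1, one_ne_zero, ⟨1, map_one _⟩, by simp⟩
    | insert a s _ ih =>
      obtain ⟨b, hb0, ⟨tb, htb⟩, hb⟩ := ih
      obtain ⟨x, hx, y, hy, hy0, hxy⟩ := h2.gen (g a)
      obtain ⟨tx, htx⟩ := (mem_range_prod (k := k) x).1 hx
      obtain ⟨ty, hty⟩ := (mem_range_prod (k := k) y).1 hy
      have htx' : m2 tx = x := htx
      have hty' : m2 ty = y := hty
      refine ⟨b * y, mul_ne_zero hb0 hy0, ⟨tb * ty, by rw [map_mul, htb, hty']⟩, fun j hj => ?_⟩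
      rcases Finset.mem_insert.1 hj with rfl | hj
      · exact ⟨tb * tx, by rw [map_mul, htb, htx', ← hxy]; ring⟩
      · obtain ⟨t, ht⟩ := hb j hj
        exact ⟨t * ty, by rw [map_mul, ht, hty']; ring⟩
  obtain ⟨b, hb0, -, hb⟩ := hden s
  choose! t ht using hb
  -- the relation upstairs
  have h3 : ∑ j ∈ s, γ j • u (t j) = 0 := by
    apply hm1
    rw [map_zero, map_sum]
    have h4 : ∑ j ∈ s, algebraMap K2 K1 b * (g j • algebraMap C K1 (γ j)) = 0 := by
      rw [← Finset.mul_sum, hg, mul_zero]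
    rw [← h4]
    refine Finset.sum_congr rfl fun j hj => ?_
    have h5 : m1 (γ j • u (t j)) = algebraMap C K1 (γ j) * m1 (u (t j)) := by
      have : γ j • u (t j) = (γ j ⊗ₜ[k] (1 : K)) * u (t j) := by
        rw [Algebra.smul_def]; rfl
      rw [this, map_mul]
      simp [m1]
    rw [h5, ← hφ, ht j hj, map_mul, Algebra.smul_def]
    ring
  -- coordinates
  have h6 : ∀ i, ∑ j ∈ s, (β.baseChange L).repr (t j) i • γ j = 0 := by
    intro i
    have h7 := congrArg (fun x => (β.baseChange C).repr x i) h3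
    simp only [map_sum, map_smul, Finsupp.coe_finsetSum, Finset.sum_apply, Finsupp.smul_apply,
      map_zero, Finsupp.coe_zero, Pi.zero_apply] at h7
    rw [← h7]
    refine Finset.sum_congr rfl fun j _ => ?_
    rw [repr_map, Algebra.smul_def, smul_eq_mul, mul_comm]
    rfl
  have h8 : ∀ i, (β.baseChange L).repr (t j) i = 0 := fun i =>
    (linearIndependent_iff'.1 hγ) s _ (h6 i) j hj
  have h9 : t j = 0 := by
    rw [← (β.baseChange L).repr.map_eq_zero_iff]
    ext i
    exact h8 i
  have h10 := ht j hj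
  rw [h9, map_zero] at h10
  exact (mul_eq_zero.1 h10.symm).resolve_left hb0

/-- `K1 = K2 ⊗_L C` -/
theorem isPushout (h1 : BaseUp k K C K1) (h2 : BaseUp k K L K2) [Algebra.IsAlgebraic L C] :
    Algebra.IsPushout L K2 C K1 := by
  let γ := Module.Basis.ofVectorSpace L C
  let p : K2 ⊗[L] C →ₐ[L] K1 := Algebra.TensorProduct.productMap (IsScalarTower.toAlgHom L K2 K1)
      (IsScalarTower.toAlgHom L C K1)
  have hp : Function.Injective p := prod_injective γ (linInd_K2 h1 h2 γ γ.linearIndependent)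
  let q : K2 ⊗[L] C →ₐ[K2] K1 :=
    { toRingHom := p.toRingHom
      commutes' := fun a => by
        change p (a ⊗ₜ 1) = _
        simp [p] }
  have hq : Function.Injective q := hp
  have hsurj : Function.Surjective q := by
    have hC : ∀ c : C, algebraMap C K1 c ∈ q.range := fun c => ⟨1 ⊗ₜ c, by
      change p (1 ⊗ₜ c) = _
      simp [p]⟩
    have hK : ∀ a : K, algebraMap K K1 a ∈ q.range := fun a => ⟨algebraMap K K2 a ⊗ₜ 1, by
      change p (algebraMap K K2 a ⊗ₜ 1) = _
      simp only [p, Algebra.TensorProduct.productMap_apply_tmul, map_one, mul_one,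
        IsScalarTower.coe_toAlgHom']
      rw [← IsScalarTower.algebraMap_apply K K2 K1]⟩
    have hspan : ∀ x ∈ Submodule.span C (Set.range (algebraMap K K1)), x ∈ q.range := by
      intro x hx
      induction hx using Submodule.span_induction with
      | mem x hx => obtain ⟨a, rfl⟩ := hx; exact hK a
      | zero => exact Subalgebra.zero_mem _
      | add x y _ _ h1 h2 => exact Subalgebra.add_mem _ h1 h2
      | smul c x _ h1 => rw [Algebra.smul_def]; exact Subalgebra.mul_mem _ (hC c) h1
    have halg : ∀ x : q.range, IsAlgebraic K2 (x : K1) := by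
      rintro ⟨_, t, rfl⟩
      change IsAlgebraic K2 (q t)
      induction t using TensorProduct.induction_on with
      | zero => rw [map_zero]; exact isAlgebraic_zero
      | tmul a c =>
        change IsAlgebraic K2 (p (a ⊗ₜ c))
        simp only [p, Algebra.TensorProduct.productMap_apply_tmul, IsScalarTower.coe_toAlgHom']
        refine IsAlgebraic.mul (isAlgebraic_algebraMap a) ?_
        exact ((Algebra.IsAlgebraic.isAlgebraic (R := L) c).algebraMap (A := K1)).tower_top K2
      | add s t h1 h2 => rw [map_add]; exact h1.add h2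
    intro x
    obtain ⟨a, ha, b, hb, hb0, hab⟩ := h1.gen x
    have e : x = a * b⁻¹ := by rw [← hab, mul_assoc, mul_inv_cancel₀ hb0, mul_one]
    have hb' : b⁻¹ ∈ q.range := q.range.inv_mem_of_algebraic (x := ⟨b, hspan b hb⟩) (halg _)
    rw [e]
    exact q.range.mul_mem (hspan a ha) hb'
  let E : K2 ⊗[L] C ≃ₐ[K2] K1 := AlgEquiv.ofBijective q ⟨hq, hsurj⟩
  refine ⟨IsBaseChange.of_equiv E.toLinearEquiv fun x => ?_⟩
  change p (1 ⊗ₜ x) = _
  simp [p]

end Glue

section Final

open Crest.Agent.R276.FKD1_508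

theorem kap_of_baseUp {k K C K1 K2 : Type*} {L : Type*} [Field k] [Field K] [Field L] [Field C]
    [Field K1] [Field K2]
    [Algebra k K] [Algebra k L] [Algebra k C]
    [Algebra K K1] [Algebra C K1] [Algebra k K1] [IsScalarTower k K K1] [IsScalarTower k C K1]
    [Algebra K K2] [Algebra L K2] [Algebra k K2] [IsScalarTower k K K2] [IsScalarTower k L K2]
    [CharZero k] [IsAlgClosed C]
    (h1 : BaseUp k K C K1) (h2 : BaseUp k K L K2) (ι : L →ₐ[k] C)
    (hι : ∀ x : C, IsAlgebraic ι.range x) (d : ℕ) :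
    (KapGeS C K1 d ↔ KapGeS L K2 d) ∧ (KapGe C K1 d ↔ KapGe L K2 d) := by
  obtain ⟨φ, hφK, hφL⟩ := exists_hom h1 h2 ι
  let a1 : Algebra L C := ι.toRingHom.toAlgebra
  have t1 : IsScalarTower k L C := IsScalarTower.of_algebraMap_eq fun c => (ι.commutes c).symm
  let a2 : Algebra K2 K1 := φ.toAlgebra
  have t2 : IsScalarTower K K2 K1 := IsScalarTower.of_algebraMap_eq fun c => (hφK c).symm
  let a3 : Algebra L K1 := ((algebraMap C K1).comp (algebraMap L C)).toAlgebra
  have t3 : IsScalarTower L C K1 := IsScalarTower.of_algebraMap_eq fun c => rfl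
  have t4 : IsScalarTower L K2 K1 := IsScalarTower.of_algebraMap_eq fun c => (hφL c).symm
  have c0 : CharZero L := charZero_of_injective_algebraMap (algebraMap k L).injective
  have halg : Algebra.IsAlgebraic L C := by
    refine ⟨fun x => ?_⟩
    obtain ⟨p, hp0, hp⟩ := hι x
    -- coefficients of `p` come from `L`
    have hsurj : Function.Surjective (ι.rangeRestrict : L →+* ι.range) :=
      ι.rangeRestrict_surjective
    obtain ⟨q, rfl⟩ := Polynomial.map_surjective _ hsurj p
    refine ⟨q, fun h => hp0 (by rw [h, Polynomial.map_zero]), ?_⟩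
    rw [← Polynomial.aeval_eq_aeval_map] at hp
    · exact hp
    · ext c; rfl
  have hpo : Algebra.IsPushout L K2 C K1 := isPushout h1 h2
  have hcl : IsAlgClosure L C := ⟨inferInstance, halg⟩
  have hn : Normal L C := IsAlgClosure.normal L C
  have hg : IsGalois L C := ⟨⟩
  exact ⟨⟨kapGeS_down, kapGeS_up⟩, ⟨kapGe_down, kapGe_up⟩⟩

/-- **Steinitz step**: very general fibre versus generic fibre -/
theorem kap_iff {k : Type*} {K K1 K2 : Type*} {L C : Type} [Field k] [Field K] [Field L] [Field C]
    [Field K1] [Field K2]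
    [Algebra k K] [Algebra k L] [Algebra k C]
    [Algebra K K1] [Algebra C K1] [Algebra k K1] [IsScalarTower k K K1] [IsScalarTower k C K1]
    [Algebra K K2] [Algebra L K2] [Algebra k K2] [IsScalarTower k K K2] [IsScalarTower k L K2]
    [CharZero k] [IsAlgClosed C] (h0 : Cardinal.mk k ≤ ℵ₀) (hcard : Cardinal.mk L = Cardinal.mk C)
    (hC : ℵ₀ < Cardinal.mk C)
    (h1 : BaseUp k K C K1) (h2 : BaseUp k K L K2) (d : ℕ) :
    (KapGeS C K1 d ↔ KapGeS L K2 d) ∧ (KapGe C K1 d ↔ KapGe L K2 d) := by
  obtain ⟨ι, hι⟩ := exists_embedding k L C h0 hcard hC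
  exact kap_of_baseUp h1 h2 ι hι d

/-- a field with a countable transcendence basis over an uncountable subfield `C` has the
cardinality of `C` -/
theorem card_eq {C L : Type} [Field C] [Field L] [Algebra C L] (hC : ℵ₀ < Cardinal.mk C)
    {s : Set L} (hs : IsTranscendenceBasis C ((↑) : s → L)) (hsc : s.Countable) :
    Cardinal.mk L = Cardinal.mk C := by
  apply le_antisymm
  · have h1 : Algebra.IsAlgebraic (Algebra.adjoin C (Set.range ((↑) : s → L))) L := hs.isAlgebraic
    have h2 := Algebra.IsAlgebraic.cardinalMk_le_max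
      (Algebra.adjoin C (Set.range ((↑) : s → L))) L
    have h3 : Cardinal.mk (Algebra.adjoin C (Set.range ((↑) : s → L))) =
        Cardinal.mk (MvPolynomial s C) :=
      (Cardinal.eq.2 ⟨hs.1.aevalEquiv.toEquiv⟩).symm
    rw [h3] at h2
    have h4 := MvPolynomial.cardinalMk_le_max (σ := s) (R := C)
    refine h2.trans (max_le (h4.trans ?_) hC.le)
    refine max_le (max_le le_rfl ?_) hC.le
    exact (Cardinal.mk_le_aleph0_iff.2 hsc.to_subtype).trans hC.le
  · exact Cardinal.mk_le_of_injective (algebraMap C L).injective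

/-- the same for a finitely generated field extension -/
theorem card_eq_of_fg {C L : Type} [Field C] [Field L] [Algebra C L] (hC : ℵ₀ < Cardinal.mk C)
    (h : (⊤ : IntermediateField C L).FG) : Cardinal.mk L = Cardinal.mk C := by
  obtain ⟨t, ht⟩ := h
  have halg : Algebra.IsAlgebraic (Algebra.adjoin C (t : Set L)) L := by
    refine ⟨fun x => ?_⟩
    have hx : x ∈ IntermediateField.adjoin C (t : Set L) := by rw [ht]; trivial
    rw [IntermediateField.mem_adjoin_iff_div] at hx
    obtain ⟨r, hr, s, hs, rfl⟩ := hx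
    rw [div_eq_mul_inv]
    exact (isAlgebraic_algebraMap (⟨r, hr⟩ : Algebra.adjoin C (t : Set L))).mul
      (isAlgebraic_algebraMap (⟨s, hs⟩ : Algebra.adjoin C (t : Set L))).inv
  have i2 : FaithfulSMul C L :=
    (faithfulSMul_iff_algebraMap_injective _ _).2 (algebraMap C L).injective
  obtain ⟨s, hst, hs⟩ := exists_isTranscendenceBasis_subset (R := C) (t : Set L)
  exact card_eq hC hs ((t.finite_toSet.subset hst).countable)

theorem card_complex : ℵ₀ < Cardinal.mk ℂ := by
  rw [Cardinal.mk_complex]; exact Cardinal.aleph0_lt_continuum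

end Final

end

end Crest.Agent.R276.FKS_508
end

-- ▼ part R276/FK3G_595
section

/-!
# Row 276, FK3: very general fibre => generic fibre (helper595)

`vgf : VGF` (849's interface), and the same statement in the form consumed by `mainBeta`
(`vgfBeta`), with `φ = fnHom`, the `ℂ`-algebra map of function fields defined by `f`.
-/

set_option autoImplicit false
set_option linter.all false

open AlgebraicGeometry CategoryTheory Crest.AlgGeometry.Divisors
open Crest.Agent.R276.FK3A_595 Crest.Agent.R276.FK3B_595 Crest.Agent.R276.FK3D_595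
open Crest.Agent.R276.FKDefs_779 Crest.Agent.R276.FKFin_849 Crest.Agent.R276.FKB4_594

namespace Crest.Agent.R276.FK3G_595

/-- the countable family of closed sets and the comparison of `κ` of the very general fibre and of
the generic fibre -/
theorem compare (X Z : Scheme.{0}) [Algebra ℂ Γ(X, ⊤)] [Algebra ℂ Γ(Z, ⊤)]
    [IsIntegral X] [IsLocallyNoetherian X] [IsIntegral Z] [IsLocallyNoetherian Z] (n m : ℕ)
    (hX : IsSmoothProperVariety ℂ X n) (hZ : IsSmoothProperVariety ℂ Z m)
    (f : X ⟶ Z) (hf : f ≫ structureMorphism ℂ Z = structureMorphism ℂ X)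
    (h : f (genericPoint X) ⤳ genericPoint Z) :
    ∃ C : ℕ → Set Z, (∀ i, IsClosed (C i) ∧ C i ≠ Set.univ) ∧
      ∀ z : Spec (CommRingCat.of ℂ) ⟶ Z, (∀ i, z (IsLocalRing.closedPoint ℂ) ∉ C i) →
        ∀ (_ : IsIntegral (Limits.pullback f z)) (d : ℕ),
          letI : Algebra ℂ Γ(Limits.pullback f z, ⊤) := fibreAlgebra ℂ f z
          letI : Algebra ℂ (Limits.pullback f z).functionField :=
            fnFieldAlgebra ℂ (Limits.pullback f z)
          letI : Algebra Z.functionField X.functionField := (fnMap f h).hom.toAlgebra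
          (KapGeS ℂ (Limits.pullback f z).functionField d ↔
            KapGeS Z.functionField X.functionField d) ∧
          (KapGe ℂ (Limits.pullback f z).functionField d ↔
            KapGe Z.functionField X.functionField d) := by
  obtain ⟨L0, K0, iL0, iK0, iLK, hL0, hK0, hgen, Cc, hCc, hfib⟩ :=
    Crest.Agent.R276.FK3F_595.fk3 ℂ hX.2.1 hZ.2.1 f hf h
  refine ⟨Cc, hCc, fun z hz hint d => ?_⟩
  letI : Algebra ℂ Γ(Limits.pullback f z, ⊤) := fibreAlgebra ℂ f z
  letI : Algebra ℂ (Limits.pullback f z).functionField :=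
    fnFieldAlgebra ℂ (Limits.pullback f z)
  letI : Algebra Z.functionField X.functionField := (fnMap f h).hom.toAlgebra
  obtain ⟨a1, a2, a3, t1, t2, hb⟩ := hfib z hz hint
  obtain ⟨b1, b2, b3, s1, s2, hb'⟩ := hgen
  haveI : CharZero L0 := RingHom.charZero (algebraMap L0 ℂ)
  have hcard : Cardinal.mk Z.functionField = Cardinal.mk ℂ := by
    letI : Algebra ℂ Z.functionField := fnFieldAlgebra ℂ Z
    exact Crest.Agent.R276.FKS_508.card_eq_of_fg Crest.Agent.R276.FKS_508.card_complex
      (fgf_functionField Z hZ)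
  exact Crest.Agent.R276.FKS_508.kap_iff (Cardinal.mk_le_aleph0_iff.mpr hL0) hcard
    Crest.Agent.R276.FKS_508.card_complex hb hb' d

/-- the same, in terms of the Kodaira dimension of the fibre as defined in the statement -/
theorem kapGeS_of_fibre (X Z : Scheme.{0}) [Algebra ℂ Γ(X, ⊤)] [Algebra ℂ Γ(Z, ⊤)]
    [IsIntegral X] [IsLocallyNoetherian X] [IsIntegral Z] [IsLocallyNoetherian Z] (n m : ℕ)
    (hX : IsSmoothProperVariety ℂ X n) (hZ : IsSmoothProperVariety ℂ Z m)
    (f : X ⟶ Z) (hf : f ≫ structureMorphism ℂ Z = structureMorphism ℂ X)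
    (h : f (genericPoint X) ⤳ genericPoint Z) :
    ∃ C : ℕ → Set Z, (∀ i, IsClosed (C i) ∧ C i ≠ Set.univ) ∧
      ∀ z : Spec (CommRingCat.of ℂ) ⟶ Z, (∀ i, z (IsLocalRing.closedPoint ℂ) ∉ C i) →
        ∀ r d : ℕ, FibreKodairaDimGe ℂ f z r d →
          letI : Algebra Z.functionField X.functionField := (fnMap f h).hom.toAlgebra
          KapGeS Z.functionField X.functionField d := by
  obtain ⟨Cc, hCc, H⟩ := compare X Z n m hX hZ f hf h
  refine ⟨Cc, hCc, fun z hz r d hd => ?_⟩
  letI : Algebra ℂ Γ(Limits.pullback f z, ⊤) := fibreAlgebra ℂ f z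
  obtain ⟨hint, hnoe, hsm, K, hK, hkd⟩ := hd
  letI : Algebra ℂ (Limits.pullback f z).functionField :=
    fnFieldAlgebra ℂ (Limits.pullback f z)
  exact ((H z hz hint d).1).mp ((kodairaDimGe_iffS hsm hK d).1 hkd)


/-- the `ℂ`-algebra homomorphism of function fields -/
noncomputable def fnHom (X Z : Scheme.{0}) [Algebra ℂ Γ(X, ⊤)] [Algebra ℂ Γ(Z, ⊤)]
    [IsIntegral X] [IsIntegral Z] (f : X ⟶ Z)
    (hf : f ≫ structureMorphism ℂ Z = structureMorphism ℂ X)
    (h : f (genericPoint X) ⤳ genericPoint Z) :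
    letI := fnFieldAlgebra ℂ X; letI := fnFieldAlgebra ℂ Z;
    Z.functionField →ₐ[ℂ] X.functionField :=
  letI := fnFieldAlgebra ℂ X; letI := fnFieldAlgebra ℂ Z;
  { (fnMap f h).hom with
    commutes' := fun c => const_fnMap f ℂ hf h c }

theorem fnHom_germ (X Z : Scheme.{0}) [Algebra ℂ Γ(X, ⊤)] [Algebra ℂ Γ(Z, ⊤)]
    [IsIntegral X] [IsIntegral Z] (f : X ⟶ Z)
    (hf : f ≫ structureMorphism ℂ Z = structureMorphism ℂ X)
    (h : f (genericPoint X) ⤳ genericPoint Z)
    (V : Z.Opens) [Nonempty V] [Nonempty (f ⁻¹ᵁ V : X.Opens)] (s : Γ(Z, V)) :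
      fnHom X Z f hf h (Z.germToFunctionField V s) =
        X.germToFunctionField (f ⁻¹ᵁ V) (f.app V s) := by
  have h1 := germ_fnMap f h (V := V) (U := f ⁻¹ᵁ V) le_rfl
  have h2 : f.appLE V (f ⁻¹ᵁ V) le_rfl = f.app V := (Scheme.Hom.app_eq_appLE f).symm
  rw [h2] at h1
  exact congrArg (fun φ : Γ(Z, V) ⟶ X.functionField => φ.hom s) h1

/-- transport along a bijection of base fields -/
theorem kapGeS_of_bijective {k k' K : Type*} [Field k] [Field k'] [Field K] [Algebra k k']
    [Algebra k K] [Algebra k' K] [IsScalarTower k k' K]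
    (hb : Function.Bijective (algebraMap k k')) {d : ℕ} (h : KapGeS k K d) : KapGeS k' K d := by
  haveI : Algebra.IsAlgebraic k k' := by
    refine ⟨fun x => ?_⟩
    obtain ⟨y, rfl⟩ := hb.2 x
    exact isAlgebraic_algebraMap y
  let e0 : k ≃ₗ[k] k' := LinearEquiv.ofBijective (Algebra.linearMap k k') hb
  let e : TensorProduct k K k' ≃ₗ[K] K :=
    (TensorProduct.AlgebraTensorModule.congr (LinearEquiv.refl K K) e0.symm).trans
      (TensorProduct.AlgebraTensorModule.rid k K K)
  haveI : Algebra.IsPushout k K k' K := by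
    refine ⟨IsBaseChange.of_equiv e fun x => ?_⟩
    obtain ⟨y, rfl⟩ := hb.2 x
    have h1 : e0.symm (algebraMap k k' y) = y := by
      rw [LinearEquiv.symm_apply_eq]; rfl
    have h2 : e ((1 : K) ⊗ₜ[k] (algebraMap k k' y)) = y • (1 : K) := by
      change (TensorProduct.AlgebraTensorModule.rid k K K) ((1 : K) ⊗ₜ (e0.symm (algebraMap k k' y))) = _
      rw [h1]; rfl
    rw [h2, ← Algebra.algebraMap_eq_smul_one, IsScalarTower.algebraMap_apply k k' K]
    rfl
  exact Crest.Agent.R276.FKD1_508.kapGeS_up (k := k) (k' := k') (K := K) (K' := K) h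

/-- very general fibre ⇒ generic fibre, in the form consumed by `mainBeta` -/
theorem vgfBeta (X Z : Scheme.{0}) [Algebra ℂ Γ(X, ⊤)] [Algebra ℂ Γ(Z, ⊤)]
    [IsIntegral X] [IsLocallyNoetherian X] [IsIntegral Z] [IsLocallyNoetherian Z] (n m : ℕ)
    (hX : IsSmoothProperVariety ℂ X n) (hZ : IsSmoothProperVariety ℂ Z m)
    (f : X ⟶ Z) (hf : f ≫ structureMorphism ℂ Z = structureMorphism ℂ X)
    (h : f (genericPoint X) ⤳ genericPoint Z) :
    letI := fnFieldAlgebra ℂ X; letI := fnFieldAlgebra ℂ Z;
      ∃ C : ℕ → Set Z, (∀ i, IsClosed (C i) ∧ C i ≠ Set.univ) ∧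
        ∀ z : Spec (CommRingCat.of ℂ) ⟶ Z, z ≫ structureMorphism ℂ Z = 𝟙 _ →
          (∀ i, z.base (IsLocalRing.closedPoint ℂ) ∉ C i) →
          ∀ d : ℕ, FibreKodairaDimGe ℂ f z (n - m) d →
            KapGeS (fnHom X Z f hf h).fieldRange X.functionField d := by
  obtain ⟨Cc, hCc, H⟩ := kapGeS_of_fibre X Z n m hX hZ f hf h
  refine ⟨Cc, hCc, fun z _ hz d hd => ?_⟩
  letI : Algebra ℂ X.functionField := fnFieldAlgebra ℂ X
  letI : Algebra ℂ Z.functionField := fnFieldAlgebra ℂ Z
  have h1 := H z hz (n - m) d hd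
  letI i1 : Algebra Z.functionField X.functionField := (fnMap f h).hom.toAlgebra
  let eZ : Z.functionField ≃ₐ[ℂ] (fnHom X Z f hf h).fieldRange :=
    AlgEquiv.ofInjectiveField (fnHom X Z f hf h)
  letI i2 : Algebra Z.functionField (fnHom X Z f hf h).fieldRange :=
    eZ.toRingEquiv.toRingHom.toAlgebra
  haveI : IsScalarTower Z.functionField (fnHom X Z f hf h).fieldRange X.functionField :=
    IsScalarTower.of_algebraMap_eq' rfl

  exact kapGeS_of_bijective (k := Z.functionField) (k' := (fnHom X Z f hf h).fieldRange)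
    eZ.bijective h1

end Crest.Agent.R276.FK3G_595
end

-- ▼ part R276/GoalU_845

/-!
# Row 276: S0419 from `CoreBetaPosU` (helper845)

`CoreBetaPosU` is helper63's `CoreBetaPos` with the additional hypothesis `UHon L K` (uniform honesty of `K/L`).
The proofs are those of helper849 (`mainBeta`), helper63 (`coreBeta_of_pos`, `goal`).
-/

set_option autoImplicit false
set_option linter.style.haveILetI false
set_option linter.unusedSectionVars false

open AlgebraicGeometry CategoryTheory Crest.AlgGeometry.Divisors TopologicalSpace Order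
open Crest Crest.AlgGeometry Crest.AlgGeometry.Divisors
open Crest.Agent.R276.FKDefs_779 Crest.Agent.R276.BetaDefs_231 Crest.Agent.R276.Triv_63
open Crest.Agent.R276.FK3G_595 Crest.Agent.R276.UHon_845 Crest.Agent.R276.FKFin_849
open Crest.Agent.R276.FKB4_594 Crest.Agent.R276.ConnC_617 Crest.Agent.R271.Bs960 Crest.Agent.R271.Kx735

noncomputable section

namespace Crest.Agent.R276.GoalU_845

/-- `CoreBeta` with the additional hypothesis `UHon L K` -/
def CoreBetaU : Prop :=
  ∀ (K : Type) [Field K] [Algebra ℂ K] (L : IntermediateField ℂ K), FGF ℂ K →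
    (∀ a : K, IsAlgebraic L a → a ∈ L) →
    Honest ℂ K → Honest ℂ L → UHon L K →
    ∀ d e : ℕ, KapGeS L K d → KapGeS ℂ L e → KapGeF ℂ K (d + e)

/-- `CoreBetaPos` with the additional hypothesis `UHon L K` -/
def CoreBetaPosU : Prop :=
  ∀ (K : Type) [Field K] [Algebra ℂ K] (L : IntermediateField ℂ K), FGF ℂ K →
    (∀ a : K, IsAlgebraic L a → a ∈ L) →
    Honest ℂ K → Honest ℂ L → UHon L K →
    ∀ (r m : ℕ), 0 < r → 0 < m → ∀ (_ : Module.Basis (Fin r) K (Ω[K⁄L]))
      (_ : Module.Basis (Fin m) L (Ω[L⁄ℂ])),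
    ∀ d e : ℕ, KapGeS L K d → KapGeS ℂ L e → KapGeF ℂ K (d + e)

/-- it is enough to treat the non degenerate case -/
theorem coreBetaU_of_pos (h : CoreBetaPosU) : CoreBetaU := by
  intro K _ _ L hK hL h1 h2 h3 d e hd he
  have hd' := hd
  have he' := he
  obtain ⟨r, b, m1, hm1, f, hf, hfi⟩ := hd'
  obtain ⟨m, b', m2, hm2, g, hg, hgi⟩ := he'
  rcases Nat.eq_zero_or_pos r with rfl | hr
  · -- `K = L`
    haveI := isAlgebraic_of_basis_zero b
    obtain rfl := eq_zero_of_isAlgebraic hfi
    have htop : L = ⊤ := by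
      rw [eq_top_iff]
      intro a _
      exact hL a (Algebra.IsAlgebraic.isAlgebraic a)
    subst htop
    rw [zero_add]
    exact kapGeF_of_kapGeS hK (kapGeS_equiv IntermediateField.topEquiv he)
  rcases Nat.eq_zero_or_pos m with rfl | hm
  · -- `L = ℂ`
    haveI := isAlgebraic_of_basis_zero b'
    obtain rfl := eq_zero_of_isAlgebraic hgi
    have hbot : L = ⊥ := by
      rw [eq_bot_iff]
      intro a ha
      haveI : Algebra.IsIntegral ℂ L := Algebra.isAlgebraic_iff_isIntegral.1 inferInstance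
      obtain ⟨c, hc⟩ := (IsAlgClosed.algebraMap_bijective_of_isIntegral (k := ℂ) (K := L)).2 ⟨a, ha⟩
      rw [IntermediateField.mem_bot]
      exact ⟨c, congrArg Subtype.val hc⟩
    subst hbot
    rw [add_zero]
    exact kapGeF_of_kapGeS hK (kapGeS_bot hd)
  exact h K L hK hL h1 h2 h3 r m hr hm b b' d e hd he

/-- **Final assembly from `CoreBetaU`** (849's `mainBeta`), for given `f`: `φ` is the homomorphism of function fields,
`C` the exceptional sets of FK3. -/
theorem mainBetaU (hcore : CoreBetaU)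
    (X Z : Scheme.{0}) [Algebra ℂ Γ(X, ⊤)] [Algebra ℂ Γ(Z, ⊤)]
    [IsIntegral X] [IsLocallyNoetherian X] [IsIntegral Z] [IsLocallyNoetherian Z] (n m : ℕ)
    (hX : IsSmoothProperVariety ℂ X n) (hZ : IsSmoothProperVariety ℂ Z m)
    (f : X ⟶ Z) (hf : f ≫ structureMorphism ℂ Z = structureMorphism ℂ X)
    (hsurj : Function.Surjective f.base)
    (hconn : ∀ z : Spec (CommRingCat.of ℂ) ⟶ Z, z ≫ structureMorphism ℂ Z = 𝟙 _ →
      PreconnectedSpace ↥(Limits.pullback f z))
    (KX : WeilDiv X) (hKX : IsCanonicalDivisor ℂ X n KX)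
    (KZ : WeilDiv Z) (hKZ : IsCanonicalDivisor ℂ Z m KZ)
    (φ : letI := fnFieldAlgebra ℂ X; letI := fnFieldAlgebra ℂ Z;
      Z.functionField →ₐ[ℂ] X.functionField)
    (hφ : ∀ (V : Z.Opens) [Nonempty V] [Nonempty (f ⁻¹ᵁ V : X.Opens)] (s : Γ(Z, V)),
      φ (Z.germToFunctionField V s) = X.germToFunctionField (f ⁻¹ᵁ V) (f.app V s))
    (hrel : letI := fnFieldAlgebra ℂ X; letI := fnFieldAlgebra ℂ Z;
      UHon φ.fieldRange X.functionField)
    (hvgf : letI := fnFieldAlgebra ℂ X; letI := fnFieldAlgebra ℂ Z;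
      ∃ C : ℕ → Set Z, (∀ i, IsClosed (C i) ∧ C i ≠ Set.univ) ∧
        ∀ z : Spec (CommRingCat.of ℂ) ⟶ Z, z ≫ structureMorphism ℂ Z = 𝟙 _ →
          (∀ i, z.base (IsLocalRing.closedPoint ℂ) ∉ C i) →
          ∀ d : ℕ, FibreKodairaDimGe ℂ f z (n - m) d → KapGeS φ.fieldRange X.functionField d) :
    ∃ C : ℕ → Set Z, (∀ i, IsClosed (C i) ∧ C i ≠ Set.univ) ∧
      ∀ z : Spec (CommRingCat.of ℂ) ⟶ Z, z ≫ structureMorphism ℂ Z = 𝟙 _ →
        (∀ i, z.base (IsLocalRing.closedPoint ℂ) ∉ C i) →
        ∀ d e : ℕ, FibreKodairaDimGe ℂ f z (n - m) d → KodairaDimGe ℂ Z KZ e →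
          KodairaDimGe ℂ X KX (d + e) := by
  letI : Algebra ℂ X.functionField := fnFieldAlgebra ℂ X
  letI : Algebra ℂ Z.functionField := fnFieldAlgebra ℂ Z
  obtain ⟨C, hC, h⟩ := hvgf
  refine ⟨C, hC, fun z hz hzC d e hd he => ?_⟩
  let eZ : Z.functionField ≃ₐ[ℂ] φ.fieldRange := AlgEquiv.ofInjectiveField φ
  have h2 : KapGeS ℂ φ.fieldRange e := kapGeS_equiv eZ ((kodairaDimGe_iffS hZ hKZ e).1 he)
  refine kodairaDimGe_of_kapGeF hX hKX (hcore _ φ.fieldRange (fgf_functionField X hX) ?_
    (honest_functionField X hX hKX) (honest_equiv eZ (honest_functionField Z hZ hKZ)) hrel d e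
    (h z hz hzC d hd) h2)
  rintro a ⟨p, hp, hpa⟩
  -- transport the polynomial to `Z.functionField`
  have h3 := algClosed_of_connected X Z f hX hZ hf hsurj hconn φ.toRingHom hφ a
    (p.map eZ.symm.toRingEquiv.toRingHom) (by
      rwa [Ne, Polynomial.map_eq_zero_iff eZ.symm.injective]) (by
      rw [Polynomial.eval₂_map]
      have : φ.toRingHom.comp eZ.symm.toRingEquiv.toRingHom =
          algebraMap φ.fieldRange X.functionField := by
        ext x
        have := congrArg Subtype.val (eZ.apply_symm_apply x)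
        exact this
      rw [this]
      exact hpa)
  obtain ⟨y, hy⟩ := h3
  exact ⟨y, hy⟩

/-- S0419 from the geometric core in the non degenerate case. -/
theorem goalU (hcore : CoreBetaPosU)
    (X Z : Scheme.{0}) [Algebra ℂ Γ(X, ⊤)] [Algebra ℂ Γ(Z, ⊤)]
    [IsIntegral X] [IsLocallyNoetherian X] [IsIntegral Z] [IsLocallyNoetherian Z] (n m : ℕ)
    (hX : IsSmoothProperVariety ℂ X n) (hZ : IsSmoothProperVariety ℂ Z m)
    (_hXp : ∃ A : WeilDiv X, IsAmple A) (_hZp : ∃ A : WeilDiv Z, IsAmple A)
    (f : X ⟶ Z) (hf : f ≫ structureMorphism ℂ Z = structureMorphism ℂ X)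
    (hsurj : Function.Surjective f.base)
    (hconn : ∀ z : Spec (CommRingCat.of ℂ) ⟶ Z, z ≫ structureMorphism ℂ Z = 𝟙 _ →
      PreconnectedSpace ↥(Limits.pullback f z))
    (KX : WeilDiv X) (hKX : IsCanonicalDivisor ℂ X n KX)
    (KZ : WeilDiv Z) (hKZ : IsCanonicalDivisor ℂ Z m KZ) :
    ∃ C : ℕ → Set Z, (∀ i, IsClosed (C i) ∧ C i ≠ Set.univ) ∧
      ∀ z : Spec (CommRingCat.of ℂ) ⟶ Z, z ≫ structureMorphism ℂ Z = 𝟙 _ →
        (∀ i, z.base (IsLocalRing.closedPoint ℂ) ∉ C i) →
        ∀ d e : ℕ, FibreKodairaDimGe ℂ f z (n - m) d → KodairaDimGe ℂ Z KZ e →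
          KodairaDimGe ℂ X KX (d + e) :=
  have h : f (genericPoint X) ⤳ genericPoint Z :=
    Crest.Agent.R276.FK3D_595.specializes_of_surjective f hsurj
  mainBetaU (coreBetaU_of_pos hcore) X Z n m hX hZ f hf hsurj hconn
    KX hKX KZ hKZ (fnHom X Z f hf h) (fnHom_germ X Z f hf h)
    (Crest.Agent.R276.UHon_845.uhon_rel hX f (fnHom X Z f hf h) (fnHom_germ X Z f hf h))
    (vgfBeta X Z n m hX hZ f hf h)

end Crest.Agent.R276.GoalU_845
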