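import Crest.Agent.R276.BndA_563
import Crest.Agent.R276.VCalcI_442
import Mathlib
import Crest.Agent.R276.VCalcK_442
import Crest.Agent.R276.EndTh_659

-- ▼ part R276/GrD_606
section

/-!
# R276, leaf GEN0 (helper606), part D: graph coordinates for a holomorphic family of subspaces

`gr Q p = p (Q p Q + 1 - Q)⁻¹ Q` : the range of `p` as a graph over the range of `Q` (`p` near `Q`).
If `∂̄ p · p = 0` (holomorphic family) then `gr Q p` is holomorphic.
-/

set_option autoImplicit false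
set_option linter.unusedSectionVars false

open Set Filter Topology
open scoped ContDiff

namespace Crest.Agent.R276.GrD_606

open Crest.Agent.R276.VCalc_442

section alg

variable {R : Type*} [NormedRing R] [NormedAlgebra ℂ R] [CompleteSpace R]

/-- graph coordinate -/
noncomputable def gr (Q p : R) : R := p * Ring.inverse (Q * p * Q + (1 - Q)) * Q

theorem G_eq {Q : R} (hQ : Q * Q = Q) (p : R) :
    Q * p * Q + (1 - Q) = 1 - Q * (Q - p) * Q := by
  have h1 : Q * (Q - p) * Q = Q - Q * p * Q := by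
    rw [mul_sub, sub_mul, hQ, hQ]
  rw [h1]; abel

theorem G_unit {Q : R} (hQ : Q * Q = Q) {p : R} (h : ‖Q‖ * ‖p - Q‖ * ‖Q‖ < 1) :
    IsUnit (Q * p * Q + (1 - Q)) := by
  rw [G_eq hQ]
  refine isUnit_one_sub_of_norm_lt_one (lt_of_le_of_lt ?_ h)
  rw [norm_sub_rev p Q]
  exact (norm_mul_le _ _).trans (mul_le_mul_of_nonneg_right (norm_mul_le _ _) (norm_nonneg _))

theorem G_comm {Q : R} (hQ : Q * Q = Q) (p : R) :
    Q * (Q * p * Q + (1 - Q)) = (Q * p * Q + (1 - Q)) * Q := by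
  have h1 : Q * (Q * p * Q) = Q * p * Q := by rw [← mul_assoc, ← mul_assoc, hQ]
  have h2 : Q * p * Q * Q = Q * p * Q := by rw [mul_assoc, hQ]
  rw [mul_add, add_mul, h1, h2, mul_sub, sub_mul, hQ]
  simp

theorem inv_comm {Q : R} (hQ : Q * Q = Q) {p : R} (hu : IsUnit (Q * p * Q + (1 - Q))) :
    Q * Ring.inverse (Q * p * Q + (1 - Q)) = Ring.inverse (Q * p * Q + (1 - Q)) * Q := by
  have h1 := G_comm hQ p
  set G := Q * p * Q + (1 - Q) with hG
  have h2 : Ring.inverse G * G = 1 := Ring.inverse_mul_cancel _ hu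
  have h3 : G * Ring.inverse G = 1 := Ring.mul_inverse_cancel _ hu
  calc Q * Ring.inverse G = (Ring.inverse G * G) * (Q * Ring.inverse G) := by rw [h2, one_mul]
    _ = Ring.inverse G * (G * Q) * Ring.inverse G := by noncomm_ring
    _ = Ring.inverse G * (Q * G) * Ring.inverse G := by rw [h1]
    _ = Ring.inverse G * Q * (G * Ring.inverse G) := by noncomm_ring
    _ = _ := by rw [h3, mul_one]

theorem p_gr {Q p : R} (hp : p * p = p) : p * gr Q p = gr Q p := by
  unfold gr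
  rw [← mul_assoc, ← mul_assoc, hp]


theorem Q_gr {Q : R} (hQ : Q * Q = Q) {p : R} (hu : IsUnit (Q * p * Q + (1 - Q))) :
    Q * gr Q p = Q := by
  have h1 := inv_comm hQ hu
  have h3 : (Q * p * Q + (1 - Q)) * Ring.inverse (Q * p * Q + (1 - Q)) = 1 :=
    Ring.mul_inverse_cancel _ hu
  have h4 : Q * p * Q = Q * (Q * p * Q + (1 - Q)) := by
    rw [mul_add, mul_sub, hQ, ← mul_assoc, ← mul_assoc, hQ]; simp
  unfold gr
  calc Q * (p * Ring.inverse (Q * p * Q + (1 - Q)) * Q)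
      = Q * p * (Ring.inverse (Q * p * Q + (1 - Q)) * Q) := by noncomm_ring
    _ = Q * p * Q * Ring.inverse (Q * p * Q + (1 - Q)) := by rw [← h1, ← mul_assoc]
    _ = Q * (Q * p * Q + (1 - Q)) * Ring.inverse (Q * p * Q + (1 - Q)) :=
        congrArg (fun t => t * Ring.inverse (Q * p * Q + (1 - Q))) h4
    _ = Q := by rw [mul_assoc, h3, mul_one]

theorem eq_zero_of {p Q z : R} (h : ‖p - Q‖ < 1) (h1 : p * z = z) (h2 : Q * z = 0) : z = 0 := by
  have h3 : (p - Q) * z = z := by rw [sub_mul, h1, h2, sub_zero]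
  have h4 : ‖z‖ ≤ ‖p - Q‖ * ‖z‖ := by
    conv_lhs => rw [← h3]
    exact norm_mul_le _ _
  by_contra hz
  have h5 : 0 < ‖z‖ := norm_pos_iff.2 hz
  nlinarith

theorem gr_Q_p {Q : R} (hQ : Q * Q = Q) {p : R} (hp : p * p = p)
    (hu : IsUnit (Q * p * Q + (1 - Q))) (h : ‖p - Q‖ < 1) : gr Q p * (Q * p) = p := by
  rw [← sub_eq_zero]
  refine eq_zero_of h ?_ ?_
  · rw [mul_sub, ← mul_assoc, p_gr hp, hp]
  · rw [mul_sub, ← mul_assoc, Q_gr hQ hu, ← mul_assoc, hQ, sub_self]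

theorem norm_gr_le {Q : R} (hQ : Q * Q = Q) {p : R} (h : ‖Q‖ * ‖p - Q‖ * ‖Q‖ ≤ 1 / 2) :
    ‖gr Q p‖ ≤ ‖p‖ * (2 * ‖(1 : R)‖) * ‖Q‖ := by
  have hu : IsUnit (Q * p * Q + (1 - Q)) := G_unit hQ (by linarith)
  have h3 : (Q * p * Q + (1 - Q)) * Ring.inverse (Q * p * Q + (1 - Q)) = 1 :=
    Ring.mul_inverse_cancel _ hu
  have h4 : ‖Ring.inverse (Q * p * Q + (1 - Q))‖ ≤ 2 * ‖(1 : R)‖ := by
    set G := Q * p * Q + (1 - Q) with hG
    have h5 : Ring.inverse G = 1 + Q * (Q - p) * Q * Ring.inverse G := by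
      have h6 : (1 - Q * (Q - p) * Q) * Ring.inverse G = 1 := by rw [← G_eq hQ]; exact h3
      rw [sub_mul, one_mul] at h6
      rw [← h6]; abel
    have h7 : ‖Q * (Q - p) * Q‖ ≤ 1 / 2 := by
      refine le_trans ?_ h
      rw [norm_sub_rev p Q]
      exact (norm_mul_le _ _).trans (mul_le_mul_of_nonneg_right (norm_mul_le _ _) (norm_nonneg _))
    have h8 : ‖Ring.inverse G‖ ≤ ‖(1 : R)‖ + 1 / 2 * ‖Ring.inverse G‖ := by
      conv_lhs => rw [h5]
      refine (norm_add_le _ _).trans (add_le_add le_rfl ?_)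
      exact (norm_mul_le _ _).trans (mul_le_mul_of_nonneg_right h7 (norm_nonneg _))
    linarith
  unfold gr
  refine (norm_mul_le _ _).trans (mul_le_mul_of_nonneg_right ?_ (norm_nonneg _))
  exact (norm_mul_le _ _).trans (mul_le_mul_of_nonneg_left h4 (norm_nonneg _))

end alg

section hol

variable {R : Type*} [NormedRing R] [NormedAlgebra ℂ R] [CompleteSpace R]
variable {X : Type*} [NormedAddCommGroup X] [NormedSpace ℂ X]

theorem diff_gr {Q : R} (hQ : Q * Q = Q) {π : X → R} {x : X} (hd : DifferentiableAt ℝ π x)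
    (h1 : ‖Q‖ * ‖π x - Q‖ * ‖Q‖ < 1) : DifferentiableAt ℝ (fun y => gr Q (π y)) x := by
  unfold gr
  obtain ⟨u, hu⟩ := G_unit hQ h1
  have h2 : DifferentiableAt ℝ (fun y => Q * π y * Q + (1 - Q)) x :=
    ((hd.const_mul Q).mul_const Q).add_const (1 - Q)
  have h3 : DifferentiableAt ℝ (fun y => Ring.inverse (Q * π y * Q + (1 - Q))) x := by
    have h4 : DifferentiableAt ℝ (Ring.inverse : R → R) (Q * π x * Q + (1 - Q)) := by
      exact differentiableAt_inverse (hu ▸ u.isUnit)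
    exact DifferentiableAt.comp x h4 h2
  exact (hd.mul h3).mul_const Q

theorem unit_ev {Q : R} (hQ : Q * Q = Q) {π : X → R} {x : X} (hd : ContinuousAt π x)
    (h1 : ‖Q‖ * ‖π x - Q‖ * ‖Q‖ < 1) : ∀ᶠ y in 𝓝 x, IsUnit (Q * π y * Q + (1 - Q)) := by
  have h2 : ContinuousAt (fun y => ‖Q‖ * ‖π y - Q‖ * ‖Q‖) x :=
    ((continuousAt_const.mul (hd.sub continuousAt_const).norm).mul continuousAt_const)
  filter_upwards [h2.eventually (gt_mem_nhds h1)] with y hy
  exact G_unit hQ hy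

/-- **graph coordinates are holomorphic** -/
theorem hol_gr {Q : R} (hQ : Q * Q = Q) {π : X → R} {x : X} (hd : DifferentiableAt ℝ π x)
    (hid : ∀ᶠ y in 𝓝 x, π y * π y = π y) (hB : ∀ v, dB π v x * π x = 0)
    (h1 : ‖Q‖ * ‖π x - Q‖ * ‖Q‖ < 1) (h2 : ‖π x - Q‖ < 1) :
    DifferentiableAt ℂ (fun y => gr Q (π y)) x ∧
      ∀ v, (1 - π x) * dW (fun y => gr Q (π y)) v x = dW π v x * gr Q (π x) := by
  have hΨ := diff_gr hQ hd h1
  have hu := unit_ev hQ hd.continuousAt h1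
  have e1 : (fun y => π y * gr Q (π y)) =ᶠ[𝓝 x] fun y => gr Q (π y) := by
    filter_upwards [hid] with y hy using p_gr hy
  have e2 : (fun y => Q * gr Q (π y)) =ᶠ[𝓝 x] fun _ => Q := by
    filter_upwards [hu] with y hy using Q_gr hQ hy
  refine ⟨diff_of_dB hΨ fun v => ?_, fun v => ?_⟩
  · refine eq_zero_of h2 ?_ ?_
    · have h3 := dB_congr e1 v
      rw [dB_mul hd hΨ] at h3
      have h4 : dB π v x * gr Q (π x) = 0 := by
        rw [← p_gr (hid.self_of_nhds) (Q := Q), ← mul_assoc, hB v, zero_mul]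
      rw [h4, zero_add] at h3
      exact h3
    · have h3 := dB_congr e2 v
      rw [dB_const, dB_mul (differentiableAt_const Q) hΨ, dB_const, zero_mul, zero_add] at h3
      exact h3
  · have h3 := dW_congr e1 v
    rw [dW_mul hd hΨ] at h3
    rw [sub_mul, one_mul]
    exact sub_eq_iff_eq_add.2 h3.symm

end hol

end Crest.Agent.R276.GrD_606
end

-- ▼ part R276/GrC_606
section

/-!
# R276, leaf GEN0 (helper606), part C: derivative estimate on an annulus

A holomorphic function on `a < ‖x‖ < b` bounded by `M` satisfies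
`‖x‖ ‖G' x‖ ≤ 8 M (‖x‖ / b + a / ‖x‖)` for `4 a ≤ ‖x‖ ≤ b / 4`;
the same for `2πi`-periodic functions on a strip.
-/

set_option autoImplicit false
set_option linter.unusedSectionVars false

open Set Filter Topology Metric Complex
open scoped Real

namespace Crest.Agent.R276.GrC_606

variable {E : Type*} [NormedAddCommGroup E] [NormedSpace ℂ E] [CompleteSpace E]

theorem annulus {G : ℂ → E} {a b M : ℝ} (ha : 0 < a)
    (hG : DifferentiableOn ℂ G {x | a < ‖x‖ ∧ ‖x‖ < b}) (hM : ∀ x, a < ‖x‖ → ‖x‖ < b → ‖G x‖ ≤ M)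
    {x : ℂ} (h1 : 4 * a ≤ ‖x‖) (h2 : ‖x‖ ≤ b / 4) :
    ‖x‖ * ‖deriv G x‖ ≤ 8 * M * (‖x‖ / b + a / ‖x‖) := by
  have hx0 : 0 < ‖x‖ := by linarith
  have hb : 0 < b := by linarith
  have hM0 : 0 ≤ M := (norm_nonneg _).trans (hM x (by linarith) (by linarith))
  set Ω : Set ℂ := {x | a < ‖x‖ ∧ ‖x‖ < b} with hΩ
  have hop : IsOpen Ω := (isOpen_lt continuous_const continuous_norm).inter
    (isOpen_lt continuous_norm continuous_const)
  have hxΩ : x ∈ Ω := ⟨by linarith, by linarith⟩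
  have hnx : Ω ∈ 𝓝 x := hop.mem_nhds hxΩ
  set K : ℂ → E := dslope (dslope G x) x with hK
  have hKd : DifferentiableOn ℂ K Ω := by
    rw [hK, differentiableOn_dslope hnx, differentiableOn_dslope hnx]
    exact hG
  -- the two radii
  have hsub : closedBall (0:ℂ) (b / 2) \ ball 0 (2 * a) ⊆ Ω := by
    rintro z ⟨hz1, hz2⟩
    rw [mem_closedBall_zero_iff] at hz1
    rw [mem_ball_zero_iff, not_lt] at hz2
    exact ⟨by linarith, by linarith⟩
  have key : (∮ z in C(0, b / 2), K z) = ∮ z in C(0, 2 * a), K z := by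
    refine circleIntegral_eq_of_differentiable_on_annulus_off_countable (by linarith) (by linarith)
      countable_empty (hKd.continuousOn.mono hsub) ?_
    rintro z ⟨⟨hz1, hz2⟩, -⟩
    rw [mem_ball_zero_iff] at hz1
    rw [mem_closedBall_zero_iff, not_le] at hz2
    have hz : z ∈ Ω := ⟨by linarith, by linarith⟩
    exact (hKd z hz).differentiableAt (hop.mem_nhds hz)
  have hKne : ∀ z, z ≠ x → K z = (z - x)⁻¹ ^ 2 • G z - (z - x)⁻¹ ^ 2 • G x - (z - x)⁻¹ • deriv G x := by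
    intro z hz
    rw [hK, dslope_of_ne _ hz, slope_def_module, dslope_same, dslope_of_ne _ hz, slope_def_module]
    rw [smul_sub, smul_smul, smul_sub, pow_two]
  have hcont : ∀ {ρ : ℝ}, 0 < ρ → 2 * a ≤ ρ → ρ ≤ b / 2 → ρ ≠ ‖x‖ →
      (∮ z in C(0, ρ), K z) = (∮ z in C(0, ρ), (z - x)⁻¹ ^ 2 • G z) -
        (∮ z in C(0, ρ), (z - x)⁻¹ ^ 2) • G x - (∮ z in C(0, ρ), (z - x)⁻¹) • deriv G x := by
    intro ρ hρ hρa hρb hρx
    have hne : ∀ z ∈ sphere (0:ℂ) ρ, z - x ≠ 0 := by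
      intro z hz h0
      rw [sub_eq_zero] at h0
      rw [mem_sphere_zero_iff_norm, h0] at hz
      exact hρx hz.symm
    have hci : ContinuousOn (fun z : ℂ => (z - x)⁻¹) (sphere 0 ρ) :=
      (continuousOn_id.sub continuousOn_const).inv₀ hne
    have hGc : ContinuousOn G (sphere 0 ρ) := by
      refine hG.continuousOn.mono fun z hz => ?_
      rw [mem_sphere_zero_iff_norm] at hz
      exact ⟨by linarith, by linarith⟩
    have e1 : (∮ z in C(0, ρ), K z) = ∮ z in C(0, ρ), ((z - x)⁻¹ ^ 2 • G z -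
        (z - x)⁻¹ ^ 2 • G x - (z - x)⁻¹ • deriv G x) := by
      refine circleIntegral.integral_congr hρ.le fun z hz => hKne z ?_
      intro h0
      exact hne z hz (by rw [h0, sub_self])
    rw [e1, circleIntegral.integral_sub, circleIntegral.integral_sub,
      circleIntegral.integral_smul_const, circleIntegral.integral_smul_const]
    · exact ((hci.pow 2).smul hGc).circleIntegrable hρ.le
    · exact ((hci.pow 2).smul continuousOn_const).circleIntegrable hρ.le
    · exact (((hci.pow 2).smul hGc).sub ((hci.pow 2).smul continuousOn_const)).circleIntegrable hρ.le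
    · exact (hci.smul continuousOn_const).circleIntegrable hρ.le
  have hsq : ∀ ρ : ℝ, (∮ z in C(0, ρ), (z - x)⁻¹ ^ 2) = 0 := by
    intro ρ
    have := circleIntegral.integral_sub_zpow_of_ne (by decide : (-2 : ℤ) ≠ -1) 0 x ρ
    rw [← this]
    congr 1
    funext z
    rw [zpow_neg, inv_pow]
    rfl
  have hb1 := hcont (ρ := b / 2) (by linarith) (by linarith) le_rfl (by linarith)
  have ha1 := hcont (ρ := 2 * a) (by linarith) le_rfl (by linarith) (by linarith)
  have hin : (∮ z in C(0, b / 2), (z - x)⁻¹) = 2 * π * I :=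
    circleIntegral.integral_sub_inv_of_mem_ball (by rw [mem_ball_zero_iff]; linarith)
  have hout : (∮ z in C(0, 2 * a), (z - x)⁻¹) = 0 := by
    refine circleIntegral_eq_zero_of_differentiable_on_off_countable (by linarith) countable_empty
      ?_ ?_
    · refine (continuousOn_id.sub continuousOn_const).inv₀ fun z hz h0 => ?_
      rw [mem_closedBall_zero_iff] at hz
      have : z = x := sub_eq_zero.1 h0
      rw [this] at hz
      linarith
    · rintro z ⟨hz, -⟩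
      rw [mem_ball_zero_iff] at hz
      refine (differentiableAt_id.sub_const x).inv fun h0 => ?_
      have : z = x := sub_eq_zero.1 h0
      rw [this] at hz
      linarith
  rw [hsq, hin, zero_smul, sub_zero] at hb1
  rw [hsq, hout, zero_smul, sub_zero, zero_smul, sub_zero] at ha1
  rw [hb1, ha1] at key
  have key2 : (2 * π * I : ℂ) • deriv G x = (∮ z in C(0, b / 2), (z - x)⁻¹ ^ 2 • G z) -
      ∮ z in C(0, 2 * a), (z - x)⁻¹ ^ 2 • G z := by
    rw [← key]; abel
  -- bounds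
  have nb : ‖∮ z in C(0, b / 2), (z - x)⁻¹ ^ 2 • G z‖ ≤ 2 * π * (b / 2) * (16 * M / b ^ 2) := by
    refine circleIntegral.norm_integral_le_of_norm_le_const (by linarith) fun z hz => ?_
    rw [mem_sphere_zero_iff_norm] at hz
    have h3 : b / 4 ≤ ‖z - x‖ := by
      have := norm_sub_norm_le z x
      linarith
    have h4 : ‖G z‖ ≤ M := hM z (by linarith) (by linarith)
    rw [norm_smul, norm_pow, norm_inv]
    calc ‖z - x‖⁻¹ ^ 2 * ‖G z‖ ≤ (b / 4)⁻¹ ^ 2 * M := by gcongr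
      _ = 16 * M / b ^ 2 := by field_simp; ring
  have na : ‖∮ z in C(0, 2 * a), (z - x)⁻¹ ^ 2 • G z‖ ≤ 2 * π * (2 * a) * (4 * M / ‖x‖ ^ 2) := by
    refine circleIntegral.norm_integral_le_of_norm_le_const (by linarith) fun z hz => ?_
    rw [mem_sphere_zero_iff_norm] at hz
    have h3 : ‖x‖ / 2 ≤ ‖z - x‖ := by
      have := norm_sub_norm_le x z
      rw [norm_sub_rev] at this
      linarith
    have h4 : ‖G z‖ ≤ M := hM z (by linarith) (by linarith)
    rw [norm_smul, norm_pow, norm_inv]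
    calc ‖z - x‖⁻¹ ^ 2 * ‖G z‖ ≤ (‖x‖ / 2)⁻¹ ^ 2 * M := by gcongr
      _ = 4 * M / ‖x‖ ^ 2 := by field_simp; ring
  have h5 : 2 * π * ‖deriv G x‖ ≤ 2 * π * (b / 2) * (16 * M / b ^ 2) +
      2 * π * (2 * a) * (4 * M / ‖x‖ ^ 2) := by
    have h6 : ‖(2 * π * I : ℂ) • deriv G x‖ = 2 * π * ‖deriv G x‖ := by
      rw [norm_smul]
      simp [abs_of_pos Real.pi_pos]
    rw [← h6, key2]
    exact (norm_sub_le _ _).trans (add_le_add nb na)
  have hpi := Real.pi_pos
  have h7 : ‖deriv G x‖ ≤ (b / 2) * (16 * M / b ^ 2) + (2 * a) * (4 * M / ‖x‖ ^ 2) := by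
    have : 2 * π * ‖deriv G x‖ ≤ 2 * π * ((b / 2) * (16 * M / b ^ 2) +
      (2 * a) * (4 * M / ‖x‖ ^ 2)) := by linarith
    exact le_of_mul_le_mul_left this (by positivity)
  calc ‖x‖ * ‖deriv G x‖ ≤ ‖x‖ * ((b / 2) * (16 * M / b ^ 2) + (2 * a) * (4 * M / ‖x‖ ^ 2)) := by
        gcongr
    _ = 8 * M * (‖x‖ / b + a / ‖x‖) := by field_simp; ring

/-- integer translations -/
theorem periodic_int {F : ℂ → E} {p : ℝ → Prop}
    (hper : ∀ z : ℂ, p z.re → F (z + 2 * π * I) = F z) (n : ℤ) {z : ℂ} (hz : p z.re) :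
    F (z + n * (2 * π * I)) = F z := by
  have hre : ∀ m : ℤ, (z + m * (2 * π * I)).re = z.re := by intro m; simp
  induction n using Int.induction_on with
  | zero => simp
  | succ k ih =>
    have h1 : z + ((k + 1 : ℤ) : ℂ) * (2 * π * I) = (z + (k : ℤ) * (2 * π * I)) + 2 * π * I := by
      push_cast; ring
    rw [h1, hper _ (by rw [hre]; exact hz), ih]
  | pred k ih =>
    have h1 : z + ((-(k : ℤ) : ℤ) : ℂ) * (2 * π * I) =
        (z + ((-(k : ℤ) - 1 : ℤ) : ℂ) * (2 * π * I)) + 2 * π * I := by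
      push_cast; ring
    rw [h1, hper _ (by rw [hre]; exact hz)] at ih
    exact ih

theorem eq_of_exp_eq {F : ℂ → E} {p : ℝ → Prop}
    (hper : ∀ z : ℂ, p z.re → F (z + 2 * π * I) = F z) {z w : ℂ} (hz : p z.re)
    (h : exp z = exp w) : F w = F z := by
  obtain ⟨n, hn⟩ := exp_eq_exp_iff_exists_int.1 h.symm
  rw [hn]
  exact periodic_int hper n hz

/-- **periodic functions on a strip** -/
theorem strip {F : ℂ → E} {A1 A2 M : ℝ}
    (hF : DifferentiableOn ℂ F {z | A1 < z.re ∧ z.re < A2})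
    (hper : ∀ z : ℂ, A1 < z.re → z.re < A2 → F (z + 2 * π * I) = F z)
    (hM : ∀ z : ℂ, A1 < z.re → z.re < A2 → ‖F z‖ ≤ M) {z : ℂ}
    (h1 : A1 + Real.log 4 ≤ z.re) (h2 : z.re ≤ A2 - Real.log 4) :
    ‖deriv F z‖ ≤ 8 * M * (Real.exp (z.re - A2) + Real.exp (A1 - z.re)) := by
  have hlog4 : 0 < Real.log 4 := Real.log_pos (by norm_num)
  set p : ℝ → Prop := fun t => A1 < t ∧ t < A2 with hp
  have hper' : ∀ z : ℂ, p z.re → F (z + 2 * π * I) = F z := fun z hz => hper z hz.1 hz.2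
  have hop : IsOpen {z : ℂ | A1 < z.re ∧ z.re < A2} :=
    (isOpen_lt continuous_const continuous_re).inter (isOpen_lt continuous_re continuous_const)
  set G : ℂ → E := fun x => F (log x) with hG
  have hrelog : ∀ x : ℂ, (log x).re = Real.log ‖x‖ := log_re
  have hmem : ∀ x : ℂ, Real.exp A1 < ‖x‖ → ‖x‖ < Real.exp A2 → p (log x).re := by
    intro x hx1 hx2
    rw [hrelog]
    have hx : 0 < ‖x‖ := (Real.exp_pos _).trans hx1
    exact ⟨(Real.lt_log_iff_exp_lt hx).2 hx1, (Real.log_lt_iff_lt_exp hx).2 hx2⟩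
  have hGd : DifferentiableOn ℂ G {x | Real.exp A1 < ‖x‖ ∧ ‖x‖ < Real.exp A2} := by
    rintro x0 ⟨hx1, hx2⟩
    have hx0 : x0 ≠ 0 := by
      intro h; rw [h, norm_zero] at hx1; exact absurd hx1 (not_lt.2 (Real.exp_pos _).le)
    refine DifferentiableAt.differentiableWithinAt ?_
    set ψ : ℂ → ℂ := fun x => log x0 + log (x / x0) with hψ
    have hψd : DifferentiableAt ℂ ψ x0 := by
      refine (differentiableAt_const _).add ?_
      refine (differentiableAt_id.div_const x0).clog ?_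
      simp [hx0]
    have hψ0 : ψ x0 = log x0 := by simp [hψ, hx0]
    have hψe : ∀ x : ℂ, x ≠ 0 → exp (ψ x) = x := by
      intro x hx
      rw [hψ]
      simp only
      rw [exp_add, exp_log hx0, exp_log (div_ne_zero hx hx0)]
      field_simp
    have hev : G =ᶠ[𝓝 x0] fun x => F (ψ x) := by
      have hopx : {x : ℂ | Real.exp A1 < ‖x‖ ∧ ‖x‖ < Real.exp A2} ∈ 𝓝 x0 :=
        ((isOpen_lt continuous_const continuous_norm).inter
          (isOpen_lt continuous_norm continuous_const)).mem_nhds ⟨hx1, hx2⟩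
      filter_upwards [hopx] with x hx
      have hxne : x ≠ 0 := by
        intro h; rw [h] at hx
        have hx1 : Real.exp A1 < ‖(0:ℂ)‖ := hx.1
        rw [norm_zero] at hx1
        exact absurd hx1 (not_lt.2 (Real.exp_pos _).le)
      refine (eq_of_exp_eq hper' (z := log x) (w := ψ x) (hmem x hx.1 hx.2) ?_).symm
      rw [exp_log hxne, hψe x hxne]
    refine DifferentiableAt.congr_of_eventuallyEq ?_ hev
    have h3 : DifferentiableAt ℂ F (ψ x0) := by
      rw [hψ0]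
      exact (hF _ (hmem x0 hx1 hx2)).differentiableAt (hop.mem_nhds (hmem x0 hx1 hx2))
    exact h3.comp x0 hψd
  have hGM : ∀ x, Real.exp A1 < ‖x‖ → ‖x‖ < Real.exp A2 → ‖G x‖ ≤ M := by
    intro x hx1 hx2
    exact hM _ (hmem x hx1 hx2).1 (hmem x hx1 hx2).2
  have hnz : ‖exp z‖ = Real.exp z.re := norm_exp z
  have hz1 : A1 < z.re := by linarith
  have hz2 : z.re < A2 := by linarith
  have hxe1 : Real.exp A1 < ‖exp z‖ := by rw [hnz]; exact Real.exp_lt_exp.2 hz1
  have hxe2 : ‖exp z‖ < Real.exp A2 := by rw [hnz]; exact Real.exp_lt_exp.2 hz2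
  have h3 := annulus (Real.exp_pos A1) hGd hGM (x := exp z) (by
    rw [hnz, show (4:ℝ) = Real.exp (Real.log 4) from (Real.exp_log (by norm_num)).symm,
      ← Real.exp_add]
    exact Real.exp_le_exp.2 (by linarith)) (by
    rw [hnz, le_div_iff₀ (by norm_num), show (4:ℝ) = Real.exp (Real.log 4) from
      (Real.exp_log (by norm_num)).symm, ← Real.exp_add]
    exact Real.exp_le_exp.2 (by linarith))
  -- relation between the derivatives
  have hFG : F =ᶠ[𝓝 z] fun w => G (exp w) := by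
    filter_upwards [hop.mem_nhds (show z ∈ {z : ℂ | A1 < z.re ∧ z.re < A2} from ⟨hz1, hz2⟩)]
      with w hw
    refine (eq_of_exp_eq hper' (z := w) (w := log (exp w)) hw ?_).symm
    rw [exp_log (exp_ne_zero w)]
  have hGz : DifferentiableAt ℂ G (exp z) :=
    (hGd _ ⟨hxe1, hxe2⟩).differentiableAt (((isOpen_lt continuous_const continuous_norm).inter
          (isOpen_lt continuous_norm continuous_const)).mem_nhds ⟨hxe1, hxe2⟩)
  have h4 : deriv F z = exp z • deriv G (exp z) := by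
    rw [hFG.deriv_eq]
    exact (hGz.hasDerivAt.scomp z (hasDerivAt_exp z)).deriv
  rw [h4, norm_smul]
  refine h3.trans (le_of_eq ?_)
  rw [hnz, ← Real.exp_sub, ← Real.exp_sub]

end Crest.Agent.R276.GrC_606
end

-- ▼ part R276/GrE_606
section

/-!
# R276, leaf GEN0 (helper606), part E: bounds in a fixed norm

`nc_up`, `nc_low` : for a positive definite `K` with `‖K‖ ≤ B1`, `‖K⁻¹‖ ≤ B2` the norm `tr (a a*)` is
comparable with the matrix norm.
`Bds` : the resulting bounds for the projectors and the Higgs field of a one-parameter variation.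
-/

set_option autoImplicit false
set_option linter.unusedSectionVars false

open Set Filter Topology Matrix
open scoped ContDiff ComplexConjugate ComplexOrder

namespace Crest.Agent.R276.GrE_606

open Crest.Agent.R276.VCalc_442 Crest.Agent.R276.BndA_563 Crest.Agent.R276.GrD_606

attribute [local instance] Matrix.linftyOpNormedRing Matrix.linftyOpNormedAlgebra

section nc

variable {ι : Type*} [Fintype ι] [DecidableEq ι]

theorem entry_le (a : Matrix ι ι ℂ) (i j : ι) : ‖a i j‖ ≤ ‖a‖ := by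
  rw [Matrix.linfty_opNorm_def]
  have h1 : ‖a i j‖₊ ≤ ∑ j, ‖a i j‖₊ := Finset.single_le_sum (f := fun j => ‖a i j‖₊) (fun _ _ => zero_le) (Finset.mem_univ j)
  have h2 : (∑ j, ‖a i j‖₊) ≤ Finset.univ.sup fun i => ∑ j, ‖a i j‖₊ :=
    Finset.le_sup (f := fun i => ∑ j, ‖a i j‖₊) (Finset.mem_univ i)
  exact_mod_cast h1.trans h2

theorem norm_le_of_entry {a : Matrix ι ι ℂ} {c : ℝ} (hc : 0 ≤ c) (h : ∀ i j, ‖a i j‖ ≤ c) :
    ‖a‖ ≤ Fintype.card ι * c := by
  rw [Matrix.linfty_opNorm_def]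
  obtain ⟨c', rfl⟩ : ∃ c' : NNReal, c = c' := ⟨⟨c, hc⟩, rfl⟩
  have h1 : (Finset.univ.sup fun i => ∑ j, ‖a i j‖₊) ≤ Fintype.card ι * c' := by
    refine Finset.sup_le fun i _ => ?_
    refine (Finset.sum_le_card_nsmul _ _ c' fun j _ => ?_).trans ?_
    · exact_mod_cast h i j
    · rw [nsmul_eq_mul, Finset.card_univ]
  exact_mod_cast h1

theorem norm_ct_le (a : Matrix ι ι ℂ) : ‖aᴴ‖ ≤ Fintype.card ι * ‖a‖ := by
  refine norm_le_of_entry (norm_nonneg _) fun i j => ?_
  rw [Matrix.conjTranspose_apply, norm_star]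
  exact entry_le a j i

theorem trace_re_le (a : Matrix ι ι ℂ) : a.trace.re ≤ Fintype.card ι * ‖a‖ := by
  refine (Complex.re_le_norm _).trans ?_
  unfold Matrix.trace
  refine (norm_sum_le _ _).trans ?_
  refine (Finset.sum_le_card_nsmul _ _ ‖a‖ fun i _ => entry_le a i i).trans ?_
  rw [nsmul_eq_mul, Finset.card_univ]

theorem nc_up {K a a' : Matrix ι ι ℂ} (hK : K.PosDef) {B1 B2 : ℝ} (h1 : ‖K‖ ≤ B1)
    (h2 : ‖K⁻¹‖ ≤ B2) (h : Adj K a a') :
    (a * a').trace.re ≤ (Fintype.card ι : ℝ) ^ 2 * (B1 * B2) * ‖a‖ ^ 2 := by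
  have hu : IsUnit K.det := (Matrix.isUnit_iff_isUnit_det K).1 hK.isUnit
  have e1 : a' = K⁻¹ * (aᴴ * K) := by
    have : aᴴ * K = K * a' := h
    rw [this, ← mul_assoc, Matrix.nonsing_inv_mul K hu, one_mul]
  have hB1 : 0 ≤ B1 := (norm_nonneg _).trans h1
  have hB2 : 0 ≤ B2 := (norm_nonneg _).trans h2
  have h3 : ‖a'‖ ≤ B2 * ((Fintype.card ι * ‖a‖) * B1) := by
    rw [e1]
    refine (norm_mul_le _ _).trans (mul_le_mul h2 ((norm_mul_le _ _).trans
      (mul_le_mul (norm_ct_le a) h1 (norm_nonneg _) (by positivity))) (norm_nonneg _) hB2)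
  refine (trace_re_le _).trans ?_
  calc (Fintype.card ι : ℝ) * ‖a * a'‖ ≤ Fintype.card ι * (‖a‖ * ‖a'‖) := by
        gcongr; exact norm_mul_le _ _
    _ ≤ Fintype.card ι * (‖a‖ * (B2 * ((Fintype.card ι * ‖a‖) * B1))) := by gcongr
    _ = _ := by ring

theorem coord_le {K : Matrix ι ι ℂ} (hK : K.PosDef) {B2 : ℝ} (h2 : ‖K⁻¹‖ ≤ B2) (v : ι → ℂ)
    (i : ι) : ‖v i‖ ^ 2 ≤ B2 * (sf K v v).re := by
  have hu : IsUnit K.det := (Matrix.isUnit_iff_isUnit_det K).1 hK.isUnit
  set e : ι → ℂ := Pi.single i 1 with he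
  have h3 := sf_cs hK (K⁻¹ *ᵥ e) v
  have hKe : K *ᵥ (K⁻¹ *ᵥ e) = e := by
    rw [Matrix.mulVec_mulVec, Matrix.mul_nonsing_inv K hu, Matrix.one_mulVec]
  have hinvH : (K⁻¹)ᴴ = K⁻¹ := by
    rw [Matrix.conjTranspose_nonsing_inv, hK.1]
  have e1 : sf K (K⁻¹ *ᵥ e) v = v i := by
    unfold sf
    rw [Matrix.star_mulVec, hinvH, ← Matrix.dotProduct_mulVec, Matrix.mulVec_mulVec,
      Matrix.nonsing_inv_mul K hu, Matrix.one_mulVec]
    rw [he]
    simp [dotProduct, Pi.single_apply, apply_ite]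
  have e2 : (sf K (K⁻¹ *ᵥ e) (K⁻¹ *ᵥ e)).re ≤ B2 := by
    have e3 : sf K (K⁻¹ *ᵥ e) (K⁻¹ *ᵥ e) = K⁻¹ i i := by
      unfold sf
      rw [hKe, Matrix.star_mulVec, hinvH, ← Matrix.dotProduct_mulVec]
      rw [he]
      simp [dotProduct, Pi.single_apply, apply_ite, Matrix.mulVec]
    rw [e3]
    exact (Complex.re_le_norm _).trans ((entry_le _ i i).trans h2)
  rw [e1] at h3
  exact h3.trans (mul_le_mul_of_nonneg_right e2 (sf_self_nonneg hK v))

theorem nc_low {K a a' : Matrix ι ι ℂ} (hK : K.PosDef) {B1 B2 : ℝ} (h1 : ‖K‖ ≤ B1)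
    (h2 : ‖K⁻¹‖ ≤ B2) (h : Adj K a a') :
    ‖a‖ ^ 2 ≤ (Fintype.card ι : ℝ) ^ 2 * (B1 * B2) * (a * a').trace.re := by
  have hB1 : 0 ≤ B1 := (norm_nonneg _).trans h1
  have hB2 : 0 ≤ B2 := (norm_nonneg _).trans h2
  have ht : 0 ≤ (a * a').trace.re := h.trace_re_nonneg hK
  have h3 : ∀ i j, ‖a i j‖ ≤ Real.sqrt (B2 * (a * a').trace.re * B1) := by
    intro i j
    refine Real.le_sqrt_of_sq_le ?_
    have h4 := coord_le hK h2 (a *ᵥ Pi.single j 1) i
    have h5 : (a *ᵥ Pi.single j (1:ℂ)) i = a i j := by simp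
    rw [h5] at h4
    have h6 := h.sf_bound hK (Pi.single j 1)
    have h7 : (sf K (Pi.single j 1) (Pi.single j 1)).re ≤ B1 := by
      have : sf K (Pi.single j 1) (Pi.single j 1) = K j j := by
        unfold sf
        simp [dotProduct, Pi.single_apply, apply_ite]
      rw [this]
      exact (Complex.re_le_norm _).trans ((entry_le _ j j).trans h1)
    calc ‖a i j‖ ^ 2 ≤ B2 * (sf K (a *ᵥ Pi.single j 1) (a *ᵥ Pi.single j 1)).re := h4
      _ ≤ B2 * ((a * a').trace.re * (sf K (Pi.single j 1) (Pi.single j 1)).re) := by gcongr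
      _ ≤ B2 * ((a * a').trace.re * B1) := by gcongr
      _ = _ := by ring
  have h4 := norm_le_of_entry (Real.sqrt_nonneg _) h3
  calc ‖a‖ ^ 2 ≤ (Fintype.card ι * Real.sqrt (B2 * (a * a').trace.re * B1)) ^ 2 := by gcongr
    _ = (Fintype.card ι : ℝ) ^ 2 * (B2 * (a * a').trace.re * B1) := by
        rw [mul_pow, Real.sq_sqrt (by positivity)]
    _ = _ := by ring

end nc

end Crest.Agent.R276.GrE_606
end

-- ▼ part R276/GrF_606

/-!
# R276, leaf GEN0 (helper606), part F: the Higgs field on a strip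

`Bds` : bounds in a fixed norm of a `2πi`-periodic one-parameter variation on a half plane.
`step` : if the Hodge filtration stays in one graph chart on the strip `A1 < re z < A2` then
`‖θ z‖ ≤ C (exp (re z - A2) + exp (A1 - re z))`.
-/

set_option autoImplicit false
set_option linter.unusedSectionVars false

open Set Filter Topology Matrix
open scoped ContDiff ComplexConjugate ComplexOrder

namespace Crest.Agent.R276.GrF_606

open Crest.Agent.R276.VCalc_442 Crest.Agent.R276.BndA_563 Crest.Agent.R276.GrD_606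
open Crest.Agent.R276.GrE_606

attribute [local instance] Matrix.linftyOpNormedRing Matrix.linftyOpNormedAlgebra

variable {ι : Type*} [Fintype ι] [DecidableEq ι]

/-- bounds in a fixed norm of a periodic one-parameter variation on `re z < a` -/
structure Bds (w : ℕ) (S : Matrix ι ι ℂ) (P : ℕ → ℂ → Matrix ι ι ℂ) (a b C : ℝ) : Prop where
  vhs : VHS w {z : ℂ | z.re < a} S P
  per : ∀ z : ℂ, z.re < a → ∀ p, P p (z + 2 * Real.pi * Complex.I) = P p z
  hab : b < a
  C1 : 1 ≤ C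
  nP : ∀ z : ℂ, z.re ≤ b → ∀ p, ‖P p z‖ ≤ C
  nF : ∀ z : ℂ, z.re ≤ b → ∀ p, ‖Fp w P p z‖ ≤ C
  up : ∀ z : ℂ, z.re ≤ b → gden w P 1 z ≤ C * ‖dW (grOp w P) 1 z‖ ^ 2
  lo : ∀ z : ℂ, z.re ≤ b → ‖dW (grOp w P) 1 z‖ ^ 2 ≤ C * gden w P 1 z
  lo' : ∀ z : ℂ, z.re ≤ b → ‖tb (grOp w P) 1 z‖ ^ 2 ≤ C * gden w P 1 z

section gen

variable {X : Type*} [NormedAddCommGroup X] [NormedSpace ℂ X]
variable {w : ℕ} {U : Set X} {S : Matrix ι ι ℂ} {P : ℕ → X → Matrix ι ι ℂ} {x : X}

theorem gden_trace (h : VHS w U S P) (hx : x ∈ U) (v : X) :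
    (dW (grOp w P) v x * tb (grOp w P) v x).trace.re = gden w P v x := by
  unfold gden
  rw [h.gg_eq hx]
  rfl

/-- the inverse of the Hodge metric -/
theorem norm_inv_le (h : VHS w U S P) (hx : x ∈ U) {B : ℝ} (hB : ‖hm w S P x‖ ≤ B) :
    ‖(hm w S P x)⁻¹‖ ≤ ‖S⁻¹‖ * B * ‖S⁻¹‖ := by
  have hu : IsUnit S.det := (Matrix.isUnit_iff_isUnit_det S).1 (h.S_unit hx)
  have h1 : hm w S P x * (S⁻¹ * hm w S P x * S⁻¹) = 1 := by
    unfold hm
    rw [show S⁻¹ * (S * sgOp w P x) = sgOp w P x by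
      rw [← mul_assoc, Matrix.nonsing_inv_mul S hu, one_mul]]
    rw [mul_assoc S, ← mul_assoc (sgOp w P x), h.C_mul_C hx, one_mul, Matrix.mul_nonsing_inv S hu]
  rw [Matrix.inv_eq_right_inv h1]
  have hB0 : 0 ≤ B := (norm_nonneg _).trans hB
  exact (norm_mul_le _ _).trans (mul_le_mul_of_nonneg_right ((norm_mul_le _ _).trans
    (mul_le_mul_of_nonneg_left hB (norm_nonneg _))) (norm_nonneg _))

/-- the projectors have trace at most the rank -/
theorem trace_P_le (h : VHS w U S P) (hx : x ∈ U) (p : ℕ) :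
    (P p x * P p x).trace.re ≤ Fintype.card ι := by
  have hpos : ∀ q, 0 ≤ (P q x).trace.re := by
    intro q
    have := (BndA_563.adj_P h hx q).trace_re_nonneg (h.hmPos hx)
    rwa [h.idem x hx q] at this
  rw [h.idem x hx p]
  by_cases hp : w < p
  · rw [h.top x hx p hp]; simp
  have h1 : ∑ q ∈ Finset.range (w + 1), (P q x).trace.re = Fintype.card ι := by
    have h2 := congrArg (fun M => (Matrix.trace M).re) (h.sum x hx)
    simp only [Matrix.trace_sum, Complex.re_sum, Matrix.trace_one] at h2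
    rw [h2]; simp
  rw [← h1]
  exact Finset.single_le_sum (f := fun q => (P q x).trace.re) (fun q _ => hpos q)
    (Finset.mem_range.2 (by omega))

end gen

/-- all the bounds follow from an upper bound of the Hodge metric -/
theorem exists_bds (w : ℕ) (S : Matrix ι ι ℂ) (a b B : ℝ) (hab : b < a) :
    ∃ C : ℝ, ∀ P : ℕ → ℂ → Matrix ι ι ℂ, VHS w {z : ℂ | z.re < a} S P →
      (∀ z : ℂ, z.re < a → ∀ p, P p (z + 2 * Real.pi * Complex.I) = P p z) →
      (∀ z : ℂ, z.re ≤ b → ‖hm w S P z‖ ≤ B) → Bds w S P a b C := by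
  set B2 : ℝ := ‖S⁻¹‖ * B * ‖S⁻¹‖ with hB2
  set c : ℝ := (Fintype.card ι : ℝ) ^ 2 * (B * B2) with hc
  set D : ℝ := Real.sqrt (c * Fintype.card ι) with hD
  refine ⟨1 + |c| + D + (w + 1) * D, fun P h hper hK => ?_⟩
  have hD0 : 0 ≤ D := Real.sqrt_nonneg _
  have hw0 : (0:ℝ) ≤ (w + 1) * D := by positivity
  have hx : ∀ z : ℂ, z.re ≤ b → z ∈ {z : ℂ | z.re < a} := fun z hz => lt_of_le_of_lt hz hab
  have hnP : ∀ z : ℂ, z.re ≤ b → ∀ p, ‖P p z‖ ≤ D := by
    intro z hz p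
    have h1 := nc_low (h.hmPos (hx z hz)) (hK z hz) (norm_inv_le h (hx z hz) (hK z hz))
      (BndA_563.adj_P h (hx z hz) p)
    refine Real.le_sqrt_of_sq_le (h1.trans ?_)
    have hB0 : 0 ≤ B := (norm_nonneg _).trans (hK z hz)
    have hc0 : 0 ≤ c := by rw [hc, hB2]; positivity
    exact mul_le_mul_of_nonneg_left (trace_P_le h (hx z hz) p) hc0
  refine ⟨h, hper, hab, by linarith [abs_nonneg c], ?_, ?_, ?_, ?_, ?_⟩
  · intro z hz p
    linarith [hnP z hz p, abs_nonneg c]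
  · intro z hz p
    have h1 : ‖Fp w P p z‖ ≤ (w + 1) * D := by
      unfold Fp
      refine (norm_sum_le _ _).trans ?_
      refine (Finset.sum_le_card_nsmul _ _ D fun q _ => hnP z hz q).trans ?_
      rw [nsmul_eq_mul, Nat.card_Icc]
      refine mul_le_mul_of_nonneg_right ?_ hD0
      have : (w + 1 - p : ℕ) ≤ w + 1 := Nat.sub_le _ _
      exact_mod_cast this
    linarith [abs_nonneg c]
  · intro z hz
    have h1 := nc_up (h.hmPos (hx z hz)) (hK z hz) (norm_inv_le h (hx z hz) (hK z hz))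
      (h.adj_th_tb (hx z hz) 1)
    rw [gden_trace h (hx z hz)] at h1
    refine h1.trans (mul_le_mul_of_nonneg_right ?_ (sq_nonneg _))
    linarith [le_abs_self c]
  · intro z hz
    have h1 := nc_low (h.hmPos (hx z hz)) (hK z hz) (norm_inv_le h (hx z hz) (hK z hz))
      (h.adj_th_tb (hx z hz) 1)
    rw [gden_trace h (hx z hz)] at h1
    refine h1.trans (mul_le_mul_of_nonneg_right ?_ (h.gden_nonneg (hx z hz) 1))
    linarith [le_abs_self c]
  · intro z hz
    have h1 := nc_low (h.hmPos (hx z hz)) (hK z hz) (norm_inv_le h (hx z hz) (hK z hz))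
      ((h.adj_th_tb (hx z hz) 1).symm (h.hmPos (hx z hz)).1)
    rw [Matrix.trace_mul_comm, gden_trace h (hx z hz)] at h1
    refine h1.trans (mul_le_mul_of_nonneg_right ?_ (h.gden_nonneg (hx z hz) 1))
    linarith [le_abs_self c]

section step

variable {w : ℕ} {S : Matrix ι ι ℂ} {P : ℕ → ℂ → Matrix ι ι ℂ} {a b C : ℝ}

/-- `θ P_p` from the second fundamental form of `F^p` -/
theorem th_P_eq {X : Type*} [NormedAddCommGroup X] [NormedSpace ℂ X] {U : Set X}
    {P : ℕ → X → Matrix ι ι ℂ} {x : X} (h : VHS w U S P) (hx : x ∈ U) (v : X) (p : ℕ) :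
    dW (grOp w P) v x * P p x =
      (1 - Fp w P p x) * dW (grOp w P) v x * Fp w P p x * P p x := by
  have h1 : Fp w P p x * P p x = P p x := by rw [Fp_mul_P h hx, if_pos le_rfl]
  rw [mul_assoc _ (Fp w P p x), h1, sub_mul, one_mul, sub_mul]
  have h2 : Fp w P p x * dW (grOp w P) v x * P p x = 0 := by
    rw [mul_assoc]
    rcases p with _ | p
    · rw [h.low_P_zero hx (h.low_th hx v), mul_zero]
    · rw [← h.low_P hx (h.low_th hx v), ← mul_assoc, Fp_mul_P h hx, if_neg (by omega), zero_mul]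
  rw [h2, sub_zero]

theorem Fp_idem {X : Type*} [NormedAddCommGroup X] [NormedSpace ℂ X] {U : Set X}
    {P : ℕ → X → Matrix ι ι ℂ} {x : X} (h : VHS w U S P) (hx : x ∈ U) (p : ℕ) :
    Fp w P p x * Fp w P p x = Fp w P p x := Fp_mul_Fp h hx le_rfl

theorem dB_Fp_mul {X : Type*} [NormedAddCommGroup X] [NormedSpace ℂ X] {U : Set X}
    {P : ℕ → X → Matrix ι ι ℂ} {x : X} (h : VHS w U S P) (hx : x ∈ U) (p : ℕ) (v : X) :
    dB (Fp w P p) v x * Fp w P p x = 0 := by
  rw [dB_Fp h hx, sub_mul, mul_assoc, Fp_idem h hx, mul_assoc, Fp_tb_Fp h hx, sub_self]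

/-- **strip estimate** -/
theorem step (D : Bds w S P a b C) {A1 A2 : ℝ} (hA : A2 ≤ b) {z₀ : ℂ} (h01 : A1 < z₀.re)
    (h02 : z₀.re < A2)
    (hosc : ∀ p, ∀ z : ℂ, A1 < z.re → z.re < A2 →
      ‖Fp w P p z - Fp w P p z₀‖ ≤ 1 / (2 * C ^ 2)) {z : ℂ}
    (h1 : A1 + Real.log 4 ≤ z.re) (h2 : z.re ≤ A2 - Real.log 4) :
    ‖dW (grOp w P) 1 z‖ ≤ ((w + 1 : ℕ) : ℝ) * ((‖(1 : Matrix ι ι ℂ)‖ + C) *
      (8 * (C * (2 * ‖(1 : Matrix ι ι ℂ)‖) * C)) * (C * C) * C) *
      (Real.exp (z.re - A2) + Real.exp (A1 - z.re)) := by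
  have hC0 : 0 < C := lt_of_lt_of_le one_pos D.C1
  have hlog4 : 0 < Real.log 4 := Real.log_pos (by norm_num)
  have hmem : ∀ z : ℂ, z.re < A2 → z ∈ {z : ℂ | z.re < a} := fun z hz => by
    show z.re < a
    linarith [D.hab]
  have h := D.vhs
  have hzm := hmem z (by linarith)
  have hC2 : 1 ≤ C ^ 2 := one_le_pow₀ D.C1
  have hsm : ∀ p, ∀ z : ℂ, A1 < z.re → z.re < A2 →
      ‖Fp w P p z₀‖ * ‖Fp w P p z - Fp w P p z₀‖ * ‖Fp w P p z₀‖ ≤ 1 / 2 := by
    intro p z hz1 hz2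
    have h3 := D.nF z₀ (by linarith) p
    have h4 := hosc p z hz1 hz2
    calc ‖Fp w P p z₀‖ * ‖Fp w P p z - Fp w P p z₀‖ * ‖Fp w P p z₀‖
        ≤ C * (1 / (2 * C ^ 2)) * C := by gcongr
      _ = 1 / 2 := by field_simp
  have hlt1 : ∀ p, ∀ z : ℂ, A1 < z.re → z.re < A2 → ‖Fp w P p z - Fp w P p z₀‖ < 1 := by
    intro p z hz1 hz2
    refine (hosc p z hz1 hz2).trans_lt ?_
    rw [div_lt_one (by positivity)]
    linarith
  have hQ : ∀ p, Fp w P p z₀ * Fp w P p z₀ = Fp w P p z₀ := fun p => Fp_idem h (hmem z₀ h02) p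
  have hop : IsOpen {z : ℂ | A1 < z.re ∧ z.re < A2} :=
    (isOpen_lt continuous_const Complex.continuous_re).inter
      (isOpen_lt Complex.continuous_re continuous_const)
  -- the graph coordinates
  have hhol : ∀ p, ∀ z : ℂ, A1 < z.re → z.re < A2 →
      DifferentiableAt ℂ (fun y => gr (Fp w P p z₀) (Fp w P p y)) z ∧
      ∀ v, (1 - Fp w P p z) * dW (fun y => gr (Fp w P p z₀) (Fp w P p y)) v z =
        dW (Fp w P p) v z * gr (Fp w P p z₀) (Fp w P p z) := by
    intro p z hz1 hz2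
    have hz := hmem z hz2
    refine hol_gr (hQ p) (diff_Fp h hz p) ?_ (fun v => dB_Fp_mul h hz p v)
      (by linarith [hsm p z hz1 hz2]) (hlt1 p z hz1 hz2)
    filter_upwards [h.op.mem_nhds hz] with y hy using Fp_idem h hy p
  have hbd : ∀ p, ∀ z : ℂ, A1 < z.re → z.re < A2 →
      ‖gr (Fp w P p z₀) (Fp w P p z)‖ ≤ C * (2 * ‖(1 : Matrix ι ι ℂ)‖) * C := by
    intro p z hz1 hz2
    refine (norm_gr_le (hQ p) (hsm p z hz1 hz2)).trans ?_
    have h3 := D.nF z₀ (by linarith) p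
    have h4 := D.nF z (by linarith) p
    gcongr
  have hper : ∀ p, ∀ z : ℂ, z.re < a → Fp w P p (z + 2 * Real.pi * Complex.I) = Fp w P p z := by
    intro p z hz
    unfold Fp
    exact Finset.sum_congr rfl fun q _ => D.per z hz q
  have hder : ∀ p, ‖deriv (fun y => gr (Fp w P p z₀) (Fp w P p y)) z‖ ≤
      8 * (C * (2 * ‖(1 : Matrix ι ι ℂ)‖) * C) *
        (Real.exp (z.re - A2) + Real.exp (A1 - z.re)) := by
    intro p
    refine GrC_606.strip (F := fun y => gr (Fp w P p z₀) (Fp w P p y)) (A1 := A1) (A2 := A2)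
      (fun y hy => (hhol p y hy.1 hy.2).1.differentiableWithinAt) ?_
      (fun y hy1 hy2 => hbd p y hy1 hy2) h1 h2
    intro y hy1 hy2
    show gr _ (Fp w P p (y + 2 * Real.pi * Complex.I)) = gr _ (Fp w P p y)
    rw [hper p y (hmem y hy2)]
  set ε : ℝ := Real.exp (z.re - A2) + Real.exp (A1 - z.re) with hε
  have hε0 : 0 < ε := by positivity
  have hz1 : A1 < z.re := by linarith
  have hz2 : z.re < A2 := by linarith
  set N1 : ℝ := ‖(1 : Matrix ι ι ℂ)‖ with hN1
  have hN0 : 0 ≤ N1 := norm_nonneg _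
  -- each block
  have hblock : ∀ p, ‖dW (grOp w P) 1 z * P p z‖ ≤
      (N1 + C) * (8 * (C * (2 * N1) * C)) * (C * C) * C * ε := by
    intro p
    have hnF := D.nF z (by linarith) p
    have hnF0 := D.nF z₀ (by linarith) p
    have hnP := D.nP z (by linarith) p
    set θ := dW (grOp w P) 1 z with hθ
    set π := Fp w P p z with hπ
    set Q := Fp w P p z₀ with hQd
    set Ψ := gr Q π with hΨ
    have hu : IsUnit (Q * π * Q + (1 - Q)) := G_unit (hQ p) (by linarith [hsm p z hz1 hz2])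
    have e1 : (1 - π) * dW (fun y => gr Q (Fp w P p y)) 1 z = (1 - π) * θ * Ψ := by
      rw [(hhol p z hz1 hz2).2 1, dW_Fp h hzm, ← hθ, ← hπ, ← hΨ]
      have h3 : π * Ψ = Ψ := p_gr (Fp_idem h hzm p)
      rw [sub_mul, mul_assoc θ, h3, sub_mul, one_mul, sub_mul]
    have e2 : (1 - π) * θ * π = (1 - π) * dW (fun y => gr Q (Fp w P p y)) 1 z * (Q * π) := by
      rw [e1, mul_assoc _ Ψ, gr_Q_p (hQ p) (Fp_idem h hzm p) hu (hlt1 p z hz1 hz2)]
    have e3 : dW (fun y => gr Q (Fp w P p y)) 1 z =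
        deriv (fun y => gr Q (Fp w P p y)) z := by
      rw [dW_of_diff (hhol p z hz1 hz2).1]
      exact fderiv_apply_one_eq_deriv
    have h4 : ‖(1 - π)‖ ≤ N1 + C := (norm_sub_le _ _).trans (add_le_add le_rfl hnF)
    have h5 : ‖Q * π‖ ≤ C * C := (norm_mul_le _ _).trans (by gcongr)
    have h6 := hder p
    rw [th_P_eq h hzm, ← hθ, ← hπ, e2, e3]
    calc ‖(1 - π) * deriv (fun y => gr Q (Fp w P p y)) z * (Q * π) * P p z‖
        ≤ ‖(1 - π)‖ * ‖deriv (fun y => gr Q (Fp w P p y)) z‖ * ‖Q * π‖ * ‖P p z‖ := by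
          refine (norm_mul_le _ _).trans (mul_le_mul_of_nonneg_right ?_ (norm_nonneg _))
          refine (norm_mul_le _ _).trans (mul_le_mul_of_nonneg_right ?_ (norm_nonneg _))
          exact norm_mul_le _ _
      _ ≤ (N1 + C) * (8 * (C * (2 * N1) * C) * ε) * (C * C) * C := by gcongr
      _ = _ := by ring
  have hsum : dW (grOp w P) 1 z = ∑ p ∈ Finset.range (w + 1), dW (grOp w P) 1 z * P p z := by
    rw [← Finset.mul_sum, h.sum z hzm, mul_one]
  rw [hsum]
  refine (norm_sum_le _ _).trans ?_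
  refine (Finset.sum_le_card_nsmul _ _ _ fun p _ => hblock p).trans (le_of_eq ?_)
  rw [Finset.card_range, nsmul_eq_mul]
  ring

end step

end Crest.Agent.R276.GrF_606
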