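import Crest.Agent.R276.BdyL_767
import Crest.Agent.R275.FLSubA_884

/-!
# R276, leaf POSK (helper767): the limit metric is positive at every point of the divisor, the
twisted section does not vanish at `u = 0`, the exponent `k` is constant

Input (`YD`): moderate growth `c |om|² ≤ s ^ A S(om, om)` on compact sets, and along complex discs in
the divisor direction the function `- log S(om, om)` is subharmonic with circle mean exceeding the
centre value by a bounded amount, uniformly in `s = - Re w`.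
-/

set_option autoImplicit false
set_option linter.unusedSectionVars false

open Set Filter Topology Metric Complex MeasureTheory
open scoped Real ContDiff ComplexConjugate Nat

noncomputable section

namespace Crest.Agent.R276.Bdy_767

open Div_767 Real

variable {V : Type*} [NormedAddCommGroup V] [NormedSpace ℂ V]
variable {E : Type*} [NormedAddCommGroup E] [NormedSpace ℂ E]

section defs

variable [CompleteSpace V]

/-- the norm `S (om) (om)` at `w = - s` -/
def hh (S : V →L⋆[ℂ] V →L[ℂ] ℂ) (N : V →L[ℂ] V) (f : ℂ × E → V) (s : ℝ) (y : E) : ℝ :=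
  (S (om N f (-(s : ℂ), y)) (om N f (-(s : ℂ), y))).re

/-- moderate growth and the estimates along discs in the divisor direction -/
structure YD (S : V →L⋆[ℂ] V →L[ℂ] ℂ) (N : V →L[ℂ] V) (U : Set E) (f : ℂ × E → V) : Prop where
  mg : ∀ Q ⊆ U, IsCompact Q → ∃ c > 0, ∃ A : ℕ, ∃ s0 : ℝ, ∀ s ≥ s0, ∀ y ∈ Q,
    0 < hh S N f s y ∧ c * ‖om N f (-(s : ℂ), y)‖ ^ 2 ≤ s ^ A * hh S N f s y
  disc : ∀ y0 v : E, (∀ ζ ∈ closedBall (0 : ℂ) 1, y0 + ζ • v ∈ U) → ∃ C s0 : ℝ, ∀ s ≥ s0,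
    circleAverage (fun ζ => Real.log (hh S N f s (y0 + ζ • v))) 0 1 ≤
      Real.log (hh S N f s y0) ∧
    Real.log (hh S N f s y0) ≤
      circleAverage (fun ζ => Real.log (hh S N f s (y0 + ζ • v))) 0 1 + C

end defs

section basic

variable [CompleteSpace V]
variable {S : V →L⋆[ℂ] V →L[ℂ] ℂ} {N : V →L[ℂ] V} {r : ℝ} {U : Set E} {f : ℂ × E → V}

theorem neg_re (s : ℝ) : -(-(s : ℂ)).re = s := by simp

theorem exp_small (h : Bd S N r U f) : ∃ s0 : ℝ, 1 ≤ s0 ∧ ∀ s ≥ s0,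
    ‖Complex.exp (-(s : ℂ))‖ = Real.exp (-s) ∧ ‖Complex.exp (-(s : ℂ))‖ ≤ r / 2 := by
  refine ⟨max 1 (-Real.log (r / 2)), le_max_left _ _, fun s hs => ?_⟩
  have h1 : -Real.log (r / 2) ≤ s := (le_max_right _ _).trans hs
  have hu : ‖Complex.exp (-(s : ℂ))‖ = Real.exp (-s) := by rw [Complex.norm_exp]; simp
  refine ⟨hu, ?_⟩
  rw [hu]
  have hr2 : 0 < r / 2 := by have := h.hr; positivity
  calc Real.exp (-s) ≤ Real.exp (Real.log (r / 2)) := Real.exp_le_exp.2 (by linarith)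
    _ = r / 2 := Real.exp_log hr2

/-- `‖f‖ ≤ C s ^ n ‖om‖` for `s ≥ 1` -/
theorem f_le_om {n : ℕ} (hn : N ^ n = 0) {s : ℝ} (hs : 1 ≤ s) (y : E) :
    ‖f (Complex.exp (-(s : ℂ)), y)‖ ≤
      (∑ j ∈ Finset.range n, ‖N ^ j‖) * s ^ n * ‖om N f (-(s : ℂ), y)‖ := by
  have hs0 : 0 < s := by linarith
  set w : ℂ := -(s : ℂ) with hw
  set d : ℂ := w / (2 * π * I) with hd
  have hdn : ‖-d‖ ≤ s := by
    rw [norm_neg, hd, norm_div, norm_mul, norm_mul, Complex.norm_I, mul_one, Complex.norm_real,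
      Real.norm_eq_abs, abs_of_pos Real.pi_pos, hw, norm_neg, Complex.norm_real,
      Real.norm_eq_abs, abs_of_pos hs0]
    have h2 : ‖(2 : ℂ)‖ = 2 := by simp
    rw [h2]
    refine div_le_self hs0.le ?_
    nlinarith [Real.pi_gt_three]
  have hfom : f (Complex.exp w, y) = ex N (-d) (om N f (w, y)) := by
    rw [om, ex_neg_apply]
  rw [hfom]
  refine ((ex N (-d)).le_opNorm _).trans (mul_le_mul_of_nonneg_right ?_ (norm_nonneg _))
  refine (norm_ex_le hn _).trans ?_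
  rw [Finset.sum_mul]
  refine Finset.sum_le_sum fun j hj => ?_
  rw [mul_comm]
  refine mul_le_mul_of_nonneg_left ?_ (norm_nonneg _)
  calc ‖-d‖ ^ j ≤ s ^ j := pow_le_pow_left₀ (norm_nonneg _) hdn j
    _ ≤ s ^ n := pow_le_pow_right₀ hs (Finset.mem_range.1 hj).le

/-- lower bound of `hh` on compact sets -/
theorem lower (h : Bd S N r U f) (hY : YD S N U f) {Q : Set E} (hQ : IsCompact Q) (hQU : Q ⊆ U) :
    ∃ c > 0, ∃ A : ℕ, ∃ s0 : ℝ, 1 ≤ s0 ∧ ∀ s ≥ s0, ∀ y ∈ Q,
      0 < hh S N f s y ∧ c * ‖f (Complex.exp (-(s : ℂ)), y)‖ ^ 2 ≤ s ^ A * hh S N f s y := by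
  obtain ⟨n, hn⟩ := h.nil
  obtain ⟨c, hc, A, s0, hs0⟩ := hY.mg Q hQU hQ
  set B : ℝ := (∑ j ∈ Finset.range n, ‖N ^ j‖) + 1 with hB
  have hB0 : 0 ≤ ∑ j ∈ Finset.range n, ‖N ^ j‖ := Finset.sum_nonneg fun j _ => norm_nonneg _
  have hBpos : 0 < B := by positivity
  refine ⟨c / B ^ 2, by positivity, A + 2 * n, max 1 s0, le_max_left _ _, fun s hs y hy => ?_⟩
  have hs1 : 1 ≤ s := (le_max_left _ _).trans hs
  obtain ⟨h1, h2⟩ := hs0 s ((le_max_right _ _).trans hs) y hy
  refine ⟨h1, ?_⟩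
  have h3 := f_le_om (f := f) hn hs1 y
  have h4 : ‖f (Complex.exp (-(s : ℂ)), y)‖ ≤ B * s ^ n * ‖om N f (-(s : ℂ), y)‖ := by
    refine h3.trans ?_
    have : 0 ≤ s := by linarith
    gcongr
    linarith
  have h5 : ‖f (Complex.exp (-(s : ℂ)), y)‖ ^ 2 ≤ B ^ 2 * s ^ (2 * n) *
      ‖om N f (-(s : ℂ), y)‖ ^ 2 := by
    calc ‖f (Complex.exp (-(s : ℂ)), y)‖ ^ 2 ≤ (B * s ^ n * ‖om N f (-(s : ℂ), y)‖) ^ 2 :=
          pow_le_pow_left₀ (norm_nonneg _) h4 2
      _ = _ := by ring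
  calc c / B ^ 2 * ‖f (Complex.exp (-(s : ℂ)), y)‖ ^ 2
      ≤ c / B ^ 2 * (B ^ 2 * s ^ (2 * n) * ‖om N f (-(s : ℂ), y)‖ ^ 2) := by gcongr
    _ = s ^ (2 * n) * (c * ‖om N f (-(s : ℂ), y)‖ ^ 2) := by field_simp
    _ ≤ s ^ (2 * n) * (s ^ A * hh S N f s y) := by
        have : 0 ≤ s := by linarith
        gcongr
    _ = _ := by rw [pow_add]; ring

theorem cc_le (j : ℕ) (p : ℂ × E) : |cc S N f j p| ≤ ‖S‖ * ‖KK N ^ j‖ * ‖f p‖ ^ 2 := by
  have h1 : |(S (f p) ((KK N ^ j) (f p))).re| ≤ ‖S‖ * ‖KK N ^ j‖ * ‖f p‖ ^ 2 := by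
    refine (Complex.abs_re_le_norm _).trans ((S.le_opNorm₂ _ _).trans ?_)
    calc ‖S‖ * ‖f p‖ * ‖(KK N ^ j) (f p)‖ ≤ ‖S‖ * ‖f p‖ * (‖KK N ^ j‖ * ‖f p‖) := by
          gcongr
          exact (KK N ^ j).le_opNorm _
      _ = _ := by ring
  have h2 : |(π ^ j * (j ! : ℝ))⁻¹| ≤ 1 := by
    rw [abs_inv, abs_of_nonneg (by positivity)]
    refine inv_le_one_of_one_le₀ ?_
    have h3 : 1 ≤ π ^ j := one_le_pow₀ (by linarith [Real.pi_gt_three])
    have h4 : (1 : ℝ) ≤ (j ! : ℝ) := by exact_mod_cast Nat.factorial_pos j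
    calc (1 : ℝ) = 1 * 1 := by ring
      _ ≤ π ^ j * (j ! : ℝ) := mul_le_mul h3 h4 zero_le_one (by positivity)
  rw [cc, abs_mul]
  calc |(π ^ j * (j ! : ℝ))⁻¹| * |(S (f p) ((KK N ^ j) (f p))).re|
      ≤ 1 * (‖S‖ * ‖KK N ^ j‖ * ‖f p‖ ^ 2) :=
        mul_le_mul h2 h1 (abs_nonneg _) zero_le_one
    _ = _ := one_mul _

/-- upper bound of `hh` -/
theorem upper (h : Bd S N r U f) {n : ℕ} (hn : N ^ n = 0) {s : ℝ} (hs : 1 ≤ s) (y : E) :
    hh S N f s y ≤ (∑ j ∈ Finset.range n, ‖S‖ * ‖KK N ^ j‖) * s ^ n *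
      ‖f (Complex.exp (-(s : ℂ)), y)‖ ^ 2 := by
  have hs0 : 0 ≤ s := by linarith
  rw [hh, S_om h.herm h.skew hn, Complex.ofReal_re]
  simp only [neg_re]
  rw [Finset.sum_mul, Finset.sum_mul]
  refine Finset.sum_le_sum fun j hj => ?_
  calc s ^ j * cc S N f j (Complex.exp (-(s : ℂ)), y)
      ≤ s ^ j * (‖S‖ * ‖KK N ^ j‖ * ‖f (Complex.exp (-(s : ℂ)), y)‖ ^ 2) :=
        mul_le_mul_of_nonneg_left ((le_abs_self _).trans (cc_le j _)) (pow_nonneg hs0 j)
    _ ≤ s ^ n * (‖S‖ * ‖KK N ^ j‖ * ‖f (Complex.exp (-(s : ℂ)), y)‖ ^ 2) := by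
        refine mul_le_mul_of_nonneg_right ?_ (by positivity)
        exact pow_le_pow_right₀ hs (Finset.mem_range.1 hj).le
    _ = _ := by ring

/-- continuity of `hh` in `y` -/
theorem hh_continuousOn (h : Bd S N r U f) {s : ℝ} (hs : ‖Complex.exp (-(s : ℂ))‖ < r) :
    ContinuousOn (fun y => hh S N f s y) U := by
  have h1 : ContinuousOn (fun y : E => f (Complex.exp (-(s : ℂ)), y)) U := by
    refine h.an.continuousOn.comp (by fun_prop) ?_
    intro y hy
    exact ⟨mem_ball_zero_iff.2 hs, hy⟩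
  have h2 : ContinuousOn (fun y : E => om N f (-(s : ℂ), y)) U :=
    (ex N (-(s : ℂ) / (2 * π * I))).continuous.comp_continuousOn h1
  have h3 : ContinuousOn (fun y => S (om N f (-(s : ℂ), y)) (om N f (-(s : ℂ), y))) U :=
    (S.continuous.comp_continuousOn h2).clm_apply h2
  exact Complex.continuous_re.comp_continuousOn h3

/-- the norm of `f` stays bounded below on compact sets where `f (0, ·)` does not vanish -/
theorem f_lower (h : Bd S N r U f) {Q : Set E} (hQ : IsCompact Q) (hQU : Q ⊆ U)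
    (hne : ∀ y ∈ Q, f (0, y) ≠ 0) :
    ∃ m > 0, ∃ s0 : ℝ, ∀ s ≥ s0, ∀ y ∈ Q, m ≤ ‖f (Complex.exp (-(s : ℂ)), y)‖ := by
  rcases Q.eq_empty_or_nonempty with rfl | hQne
  · exact ⟨1, one_pos, 0, fun s _ y hy => hy.elim⟩
  have hc0 : ContinuousOn (fun y : E => ‖f (0, y)‖) Q := by
    refine (h.an.continuousOn.comp (by fun_prop) ?_).norm
    intro y hy
    exact ⟨mem_ball_self h.hr, hQU hy⟩
  obtain ⟨y1, hy1, hmin⟩ := hQ.exists_isMinOn hQne hc0
  set m : ℝ := ‖f (0, y1)‖ with hm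
  have hm0 : 0 < m := norm_pos_iff.2 (hne y1 hy1)
  have h1 : ∀ᶠ u : ℂ in 𝓝 0, ∀ y ∈ Q, m / 2 < ‖f (u, y)‖ := by
    refine hQ.eventually_forall_of_forall_eventually (P := fun (u : ℂ) (y : E) =>
      m / 2 < ‖f (u, y)‖) fun y hy => ?_
    have h2 : ContinuousAt (fun p : ℂ × E => ‖f p‖) (0, y) :=
      (h.an _ ⟨mem_ball_self h.hr, hQU hy⟩).continuousAt.norm
    have h3 : m / 2 < ‖f (0, y)‖ := by
      have := hmin hy
      simp only [mem_ofPred_eq] at this
      linarith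
    exact h2.eventually (lt_mem_nhds h3)
  have hexp : Tendsto (fun s : ℝ => Complex.exp (-(s : ℂ))) atTop (𝓝 0) := by
    rw [tendsto_zero_iff_norm_tendsto_zero]
    have : (fun s : ℝ => ‖Complex.exp (-(s : ℂ))‖) = fun s => Real.exp (-s) := by
      ext s
      rw [Complex.norm_exp]
      simp
    rw [this]
    exact Real.tendsto_exp_neg_atTop_nhds_zero
  obtain ⟨s0, hs0⟩ := eventually_atTop.1 (hexp.eventually h1)
  exact ⟨m / 2, by positivity, s0, fun s hs y hy => (hs0 s hs y hy).le⟩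

theorem circle_ci {g : ℂ → ℝ} (hg : ContinuousOn g (sphere 0 1)) : CircleIntegrable g 0 1 :=
  ContinuousOn.circleIntegrable zero_le_one hg

end basic

/-! ### the twisted section does not vanish on the divisor -/

section nonvan

variable [CompleteSpace V] [FiniteDimensional ℂ E]
variable {S : V →L⋆[ℂ] V →L[ℂ] ℂ} {N : V →L[ℂ] V} {r : ℝ} {U : Set E} {f : ℂ × E → V}

theorem ne_zero (h : Bd S N r U f) (hY : YD S N U f) (hUc : IsPreconnected U)
    (hne : ∃ y ∈ U, f (0, y) ≠ 0) : ∀ y ∈ U, f (0, y) ≠ 0 := by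
  intro y0 hy0 hzero
  -- not identically zero near `y0`
  have hfa : AnalyticOnNhd ℂ (fun y : E => f (0, y)) U := fun y hy => an_f0 h hy
  have hnev : ¬ ∀ᶠ y in 𝓝 y0, f (0, y) = 0 := by
    intro hev
    obtain ⟨y1, hy1, hy1'⟩ := hne
    exact hy1' (hfa.eqOn_zero_of_preconnected_of_eventuallyEq_zero hUc hy0 hev hy1)
  obtain ⟨ρ, hρ, hρU⟩ := Metric.nhds_basis_closedBall.mem_iff.1 (h.hU.mem_nhds hy0)
  obtain ⟨y1, hy1, hy1ρ⟩ := ((not_eventually.1 hnev).and_eventually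
    (Metric.closedBall_mem_nhds y0 hρ)).exists
  set v0 : E := y1 - y0 with hv0
  have hv0n : ‖v0‖ ≤ ρ := by rw [hv0, ← dist_eq_norm]; exact hy1ρ
  have hdisc0 : ∀ ζ ∈ closedBall (0 : ℂ) 1, y0 + ζ • v0 ∈ U := by
    intro ζ hζ
    apply hρU
    rw [mem_closedBall, dist_eq_norm, add_sub_cancel_left, norm_smul]
    have : ‖ζ‖ ≤ 1 := by simpa using hζ
    calc ‖ζ‖ * ‖v0‖ ≤ 1 * ρ := mul_le_mul this hv0n (norm_nonneg _) zero_le_one
      _ = ρ := one_mul _
  -- one variable function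
  set g : ℂ → V := fun ζ => f (0, y0 + ζ • v0) with hg
  have hga : AnalyticOnNhd ℂ g (closedBall (0 : ℂ) 1) := by
    intro ζ hζ
    have h1 : AnalyticAt ℂ (fun ζ : ℂ => y0 + ζ • v0) ζ :=
      analyticAt_const.add (analyticAt_id.smul analyticAt_const)
    exact (hfa _ (hdisc0 ζ hζ)).comp_of_eq h1 rfl
  have hg0 : g 0 = 0 := by simp [hg, hzero]
  have hg1 : g 1 ≠ 0 := by
    have h1 : g 1 = f (0, y1) := by simp [hg, hv0]
    rw [h1]
    exact hy1
  have hiso : ∀ᶠ ζ in 𝓝[≠] (0 : ℂ), g ζ ≠ 0 := by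
    rcases (hga 0 (mem_closedBall_self zero_le_one)).eventually_eq_zero_or_eventually_ne_zero with
      h1 | h1
    · exfalso
      apply hg1
      exact hga.eqOn_zero_of_preconnected_of_eventuallyEq_zero
        (convex_closedBall (0 : ℂ) 1).isPreconnected (mem_closedBall_self zero_le_one) h1
        (by simp)
    · exact h1
  obtain ⟨t0, ht0, ht0g⟩ := Metric.eventually_nhds_iff_ball.1 (eventually_nhdsWithin_iff.1 hiso)
  set t : ℝ := min (t0 / 2) 1 with ht
  have ht_pos : 0 < t := lt_min (by positivity) one_pos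
  have ht_lt : t < t0 := lt_of_le_of_lt (min_le_left _ _) (by linarith)
  set v : E := (t : ℂ) • v0 with hv
  have hdisc : ∀ ζ ∈ closedBall (0 : ℂ) 1, y0 + ζ • v ∈ U := by
    intro ζ hζ
    have h1 : y0 + ζ • v = y0 + (ζ * t) • v0 := by rw [hv, smul_smul]
    rw [h1]
    apply hdisc0
    rw [mem_closedBall_zero_iff, norm_mul, Complex.norm_real, Real.norm_eq_abs,
      abs_of_pos ht_pos]
    have h2 : ‖ζ‖ ≤ 1 := by simpa using hζ
    calc ‖ζ‖ * t ≤ 1 * 1 := mul_le_mul h2 (min_le_right _ _) ht_pos.le zero_le_one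
      _ = 1 := one_mul _
  set Q : Set E := (fun ζ : ℂ => y0 + ζ • v) '' sphere 0 1 with hQ
  have hQc : IsCompact Q := (isCompact_sphere 0 1).image (by fun_prop)
  have hQU : Q ⊆ U := by
    rintro _ ⟨ζ, hζ, rfl⟩
    exact hdisc ζ (sphere_subset_closedBall hζ)
  have hQne : ∀ y ∈ Q, f (0, y) ≠ 0 := by
    rintro _ ⟨ζ, hζ, rfl⟩
    have hζ1 : ‖ζ‖ = 1 := by simpa using hζ
    have h1 : y0 + ζ • v = y0 + (ζ * t) • v0 := by rw [hv, smul_smul]
    have h2 : ‖ζ * t‖ = t := by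
      rw [norm_mul, hζ1, one_mul, Complex.norm_real, Real.norm_eq_abs, abs_of_pos ht_pos]
    have h3 := ht0g (ζ * t) (by rw [mem_ball_zero_iff, h2]; exact ht_lt) (by
      intro h0
      rw [mem_singleton_iff] at h0
      rw [h0, norm_zero] at h2
      exact ht_pos.ne h2)
    simp only [h1]
    exact h3
  -- estimates
  obtain ⟨n, hn⟩ := h.nil
  obtain ⟨m, hm, s1, hs1⟩ := f_lower h hQc hQU hQne
  obtain ⟨c, hc, A, s2, hs2, hlow⟩ := lower h hY hQc hQU
  obtain ⟨C, s3, hs3⟩ := hY.disc y0 v hdisc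
  obtain ⟨s4, hs4, hexp⟩ := exp_small h
  -- Lipschitz at `0`
  obtain ⟨M, hM⟩ : ∃ M : ℝ, ∀ᶠ u : ℂ in 𝓝 0, ‖f (u, y0)‖ ≤ M * ‖u‖ := by
    have h1 : DifferentiableAt ℂ (fun u : ℂ => f (u, y0)) 0 := by
      have h2 : AnalyticAt ℂ (fun u : ℂ => f (u, y0)) 0 :=
        (h.an (0, y0) ⟨mem_ball_self h.hr, hy0⟩).comp_of_eq
          (analyticAt_id.prod analyticAt_const) rfl
      exact h2.differentiableAt
    obtain ⟨M, hM⟩ := h1.hasDerivAt.hasFDerivAt.isBigO_sub.bound
    refine ⟨M, ?_⟩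
    filter_upwards [hM] with u hu
    simpa [hzero] using hu
  have hexp0 : Tendsto (fun s : ℝ => Complex.exp (-(s : ℂ))) atTop (𝓝 0) := by
    rw [tendsto_zero_iff_norm_tendsto_zero]
    have : (fun s : ℝ => ‖Complex.exp (-(s : ℂ))‖) = fun s => Real.exp (-s) := by
      ext s
      rw [Complex.norm_exp]
      simp
    rw [this]
    exact Real.tendsto_exp_neg_atTop_nhds_zero
  set D : ℝ := ∑ j ∈ Finset.range n, ‖S‖ * ‖KK N ^ j‖ with hD
  have hD0 : 0 ≤ D := Finset.sum_nonneg fun j _ => by positivity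
  -- the two bounds at the centre
  have hcentre : ∀ᶠ s : ℝ in atTop, c * m ^ 2 ≤ D * M ^ 2 * (s ^ (n + A) * Real.exp (-s)) := by
    obtain ⟨c', _, A', s5, h5⟩ := hY.mg {y0} (singleton_subset_iff.2 hy0) isCompact_singleton
    filter_upwards [eventually_ge_atTop s1, eventually_ge_atTop s2, eventually_ge_atTop s3,
      eventually_ge_atTop s4, hexp0.eventually hM, eventually_ge_atTop s5] with s e1 e2 e3 e4 e5 e6
    have hs1' : 1 ≤ s := hs4.trans e4
    have hspos : 0 < s := by linarith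
    obtain ⟨hnorm, hle⟩ := hexp s e4
    have hltr : ‖Complex.exp (-(s : ℂ))‖ < r := lt_of_le_of_lt hle (by linarith [h.hr])
    -- lower bound on the circle
    have hcirc : ∀ ζ ∈ sphere (0 : ℂ) |1|, Real.log (c * m ^ 2 / s ^ A) ≤
        Real.log (hh S N f s (y0 + ζ • v)) := by
      intro ζ hζ
      rw [abs_one] at hζ
      have hyQ : y0 + ζ • v ∈ Q := ⟨ζ, hζ, rfl⟩
      obtain ⟨hp, hl⟩ := hlow s e2 _ hyQ
      have hfm := hs1 s e1 _ hyQ
      refine Real.log_le_log (by positivity) ?_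
      rw [div_le_iff₀ (by positivity)]
      calc c * m ^ 2 ≤ c * ‖f (Complex.exp (-(s : ℂ)), y0 + ζ • v)‖ ^ 2 := by gcongr
        _ ≤ s ^ A * hh S N f s (y0 + ζ • v) := hl
        _ = _ := by ring
    have hcont : ContinuousOn (fun ζ : ℂ => Real.log (hh S N f s (y0 + ζ • v))) (sphere 0 1) := by
      have h1 : ContinuousOn (fun ζ : ℂ => hh S N f s (y0 + ζ • v)) (sphere 0 1) := by
        refine (hh_continuousOn h hltr).comp (by fun_prop) ?_
        intro ζ hζ
        exact hdisc ζ (sphere_subset_closedBall hζ)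
      refine h1.log ?_
      intro ζ hζ
      exact (hlow s e2 _ ⟨ζ, hζ, rfl⟩).1.ne'
    have havg : Real.log (c * m ^ 2 / s ^ A) ≤
        circleAverage (fun ζ => Real.log (hh S N f s (y0 + ζ • v))) 0 1 := by
      have h1 := circleAverage_mono (c := (0 : ℂ)) (R := 1)
        (f₁ := fun _ : ℂ => Real.log (c * m ^ 2 / s ^ A))
        (f₂ := fun ζ => Real.log (hh S N f s (y0 + ζ • v)))
        (circle_ci continuousOn_const) (circle_ci hcont) hcirc
      rwa [circleAverage_const] at h1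
    have hL := havg.trans (hs3 s e3).1
    -- positivity at the centre
    have hcpos : 0 < hh S N f s y0 := (h5 s e6 y0 rfl).1
    have hcm : c * m ^ 2 / s ^ A ≤ hh S N f s y0 := by
      have h1 := Real.exp_le_exp.2 hL
      rwa [Real.exp_log (by positivity), Real.exp_log hcpos] at h1
    have hup := upper h hn hs1' y0
    rw [← hD] at hup
    rw [div_le_iff₀ (by positivity)] at hcm
    have hfu : ‖f (Complex.exp (-(s : ℂ)), y0)‖ ^ 2 ≤ M ^ 2 * Real.exp (-s) := by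
      rw [hnorm] at e5
      calc ‖f (Complex.exp (-(s : ℂ)), y0)‖ ^ 2 ≤ (M * Real.exp (-s)) ^ 2 :=
            pow_le_pow_left₀ (norm_nonneg _) e5 2
        _ = M ^ 2 * (Real.exp (-s) * Real.exp (-s)) := by ring
        _ ≤ M ^ 2 * (Real.exp (-s) * 1) := by
            have : Real.exp (-s) ≤ 1 := Real.exp_le_one_iff.2 (by linarith)
            gcongr
        _ = _ := by ring
    calc c * m ^ 2 ≤ hh S N f s y0 * s ^ A := hcm
      _ ≤ (D * s ^ n * ‖f (Complex.exp (-(s : ℂ)), y0)‖ ^ 2) * s ^ A := by gcongr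
      _ ≤ (D * s ^ n * (M ^ 2 * Real.exp (-s))) * s ^ A := by gcongr
      _ = _ := by rw [pow_add]; ring
  have hlim : Tendsto (fun s : ℝ => D * M ^ 2 * (s ^ (n + A) * Real.exp (-s))) atTop (𝓝 0) := by
    simpa using (Real.tendsto_pow_mul_exp_neg_atTop_nhds_zero (n + A)).const_mul (D * M ^ 2)
  have h1 := ge_of_tendsto hlim hcentre
  have h2 : 0 < c * m ^ 2 := by positivity
  linarith

end nonvan

/-! ### the exponent is constant -/

section index

variable [CompleteSpace V] [FiniteDimensional ℂ E]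
variable {S : V →L⋆[ℂ] V →L[ℂ] ℂ} {N : V →L[ℂ] V} {r : ℝ} {U : Set E} {f : ℂ × E → V}

/-- the degree of `∑ s ^ j c_j (0, y)` -/
def kap (S : V →L⋆[ℂ] V →L[ℂ] ℂ) (N : V →L[ℂ] V) (f : ℂ × E → V) (n : ℕ) (y : E) : ℕ :=
  open Classical in Nat.findGreatest (fun j => S (f (0, y)) ((KK N ^ j) (f (0, y))) ≠ 0) n

theorem kap_zero {n : ℕ} (hn : KK N ^ n = 0) {y : E} {j : ℕ} (hj : kap S N f n y < j) :
    S (f (0, y)) ((KK N ^ j) (f (0, y))) = 0 := by
  classical
  rcases lt_or_ge n j with h | h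
  · obtain ⟨m, rfl⟩ := Nat.exists_eq_add_of_le h.le
    have h0 : KK N ^ (n + m) = 0 := by rw [pow_add, hn, zero_mul]
    rw [h0]
    simp
  · by_contra hne
    have := Nat.le_findGreatest (P := fun j => S (f (0, y)) ((KK N ^ j) (f (0, y))) ≠ 0) h hne
    exact absurd this (not_le.2 hj)

theorem kap_ge {n : ℕ} (hn : KK N ^ n = 0) {y : E} {j : ℕ}
    (hj : S (f (0, y)) ((KK N ^ j) (f (0, y))) ≠ 0) : j ≤ kap S N f n y := by
  by_contra hcon
  exact hj (kap_zero hn (not_le.1 hcon))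

theorem kap_ne {n : ℕ} (hn : KK N ^ n = 0) {y : E}
    (h : ∃ j, S (f (0, y)) ((KK N ^ j) (f (0, y))) ≠ 0) :
    S (f (0, y)) ((KK N ^ (kap S N f n y)) (f (0, y))) ≠ 0 := by
  classical
  obtain ⟨j, hj⟩ := h
  have hjn : j ≤ n := by
    by_contra hcon
    push Not at hcon
    obtain ⟨m, rfl⟩ := Nat.exists_eq_add_of_le hcon.le
    have h0 : KK N ^ (n + m) = 0 := by rw [pow_add, hn, zero_mul]
    apply hj
    rw [h0]
    simp
  exact Nat.findGreatest_spec (P := fun j => S (f (0, y)) ((KK N ^ j) (f (0, y))) ≠ 0) hjn hj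

/-- pointwise limit -/
theorem tendsto_at (h : Bd S N r U f) {y : E} (hy : y ∈ U) {k : ℕ}
    (hk : ∀ j, k < j → S (f (0, y)) ((KK N ^ j) (f (0, y))) = 0) :
    Tendsto (fun s : ℝ => hh S N f s y / s ^ k) atTop (𝓝 (cc S N f k (0, y))) := by
  rw [Metric.tendsto_atTop]
  intro ε hε
  obtain ⟨A, hA⟩ := tendsto_unifQ h (Q := {y}) (k := k)
    (fun j hj z hz => by rw [mem_singleton_iff.1 hz]; exact hk j hj)
    isCompact_singleton (singleton_subset_iff.2 hy) (half_pos hε)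
  refine ⟨-A + 1, fun s hs => ?_⟩
  have h1 := hA (-(s : ℂ)) (by simp; linarith) y rfl
  rw [neg_re] at h1
  rw [Real.dist_eq]
  exact lt_of_le_of_lt h1 (by linarith)

theorem log_tendsto (h : Bd S N r U f) (hY : YD S N U f) {y : E} (hy : y ∈ U) {k : ℕ}
    (hk : ∀ j, k < j → S (f (0, y)) ((KK N ^ j) (f (0, y))) = 0)
    (hne : S (f (0, y)) ((KK N ^ k) (f (0, y))) ≠ 0) :
    0 < cc S N f k (0, y) ∧
    Tendsto (fun s : ℝ => Real.log (hh S N f s y) / Real.log s) atTop (𝓝 (k : ℝ)) := by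
  obtain ⟨c', _, A', s5, h5⟩ := hY.mg {y} (singleton_subset_iff.2 hy) isCompact_singleton
  have h1 := tendsto_at h hy hk
  have hcne := cc_ne_zero (S := S) (N := N) h.herm h.skew hne
  have hpos : 0 < cc S N f k (0, y) := by
    refine lt_of_le_of_ne ?_ (Ne.symm hcne)
    refine ge_of_tendsto h1 ?_
    filter_upwards [eventually_ge_atTop s5, eventually_ge_atTop (0 : ℝ)] with s hs hs0
    exact div_nonneg (h5 s hs y rfl).1.le (pow_nonneg hs0 k)
  refine ⟨hpos, ?_⟩
  have h2 : Tendsto (fun s : ℝ => Real.log (hh S N f s y / s ^ k) / Real.log s) atTop (𝓝 0) :=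
    ((Real.continuousAt_log hpos.ne').tendsto.comp h1).div_atTop Real.tendsto_log_atTop
  have h3 := h2.add_const (k : ℝ)
  rw [zero_add] at h3
  refine h3.congr' ?_
  filter_upwards [eventually_ge_atTop s5, eventually_gt_atTop (1 : ℝ)] with s hs hs1
  have hs0 : 0 < s := by linarith
  have hl : 0 < Real.log s := Real.log_pos hs1
  rw [Real.log_div (h5 s hs y rfl).1.ne' (pow_pos hs0 k).ne', Real.log_pow]
  field_simp
  ring

/-- **mean value property of the exponent** -/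
theorem kap_mean (h : Bd S N r U f) (hY : YD S N U f) {n : ℕ} (hn : KK N ^ n = 0)
    (hf0 : ∀ y ∈ U, f (0, y) ≠ 0)
    (hex : ∀ y ∈ U, ∃ j, S (f (0, y)) ((KK N ^ j) (f (0, y))) ≠ 0)
    {y0 v : E} (hdisc : ∀ ζ ∈ closedBall (0 : ℂ) 1, y0 + ζ • v ∈ U) :
    CircleIntegrable (fun ζ => (kap S N f n (y0 + ζ • v) : ℝ)) 0 1 ∧
    circleAverage (fun ζ => (kap S N f n (y0 + ζ • v) : ℝ)) 0 1 = kap S N f n y0 := by
  have hy0 : y0 ∈ U := by simpa using hdisc 0 (mem_closedBall_self zero_le_one)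
  have hlim : ∀ y ∈ U, Tendsto (fun s : ℝ => Real.log (hh S N f s y) / Real.log s) atTop
      (𝓝 (kap S N f n y : ℝ)) := fun y hy =>
    (log_tendsto h hY hy (fun j hj => kap_zero hn hj) (kap_ne hn (hex y hy))).2
  set Q : Set E := (fun ζ : ℂ => y0 + ζ • v) '' sphere 0 1 with hQ
  have hQc : IsCompact Q := (isCompact_sphere 0 1).image (by fun_prop)
  have hQU : Q ⊆ U := by
    rintro _ ⟨ζ, hζ, rfl⟩
    exact hdisc ζ (sphere_subset_closedBall hζ)
  obtain ⟨n', hn'⟩ := h.nil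
  obtain ⟨m, hm, s1, hs1⟩ := f_lower h hQc hQU (fun y hy => hf0 y (hQU hy))
  obtain ⟨c, hc, A, s2, hs2, hlow⟩ := lower h hY hQc hQU
  obtain ⟨C, s3, hs3⟩ := hY.disc y0 v hdisc
  obtain ⟨s4, hs4, hexp⟩ := exp_small h
  -- upper bound of `f` on the compact set
  obtain ⟨M, hM⟩ : ∃ M : ℝ, ∀ u : ℂ, ‖u‖ ≤ r / 2 → ∀ y ∈ Q, ‖f (u, y)‖ ≤ M := by
    have hcomp : IsCompact (closedBall (0 : ℂ) (r / 2) ×ˢ Q) :=
      (isCompact_closedBall 0 (r / 2)).prod hQc
    have hsub : closedBall (0 : ℂ) (r / 2) ×ˢ Q ⊆ ball 0 r ×ˢ U :=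
      prod_mono (closedBall_subset_ball (by linarith [h.hr])) hQU
    obtain ⟨M, hM⟩ := hcomp.exists_bound_of_continuousOn (h.an.continuousOn.mono hsub)
    exact ⟨M, fun u hu y hy => hM (u, y) ⟨mem_closedBall_zero_iff.2 hu, hy⟩⟩
  set D : ℝ := ∑ j ∈ Finset.range n', ‖S‖ * ‖KK N ^ j‖ with hD
  have hD0 : 0 ≤ D := Finset.sum_nonneg fun j _ => by positivity
  set B : ℝ := A + n' + |Real.log (c * m ^ 2)| + |Real.log (D * M ^ 2 + 1)| with hB
  -- the functions on the circle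
  set F : ℝ → ℝ → ℝ := fun s θ =>
    Real.log (hh S N f s (y0 + circleMap 0 1 θ • v)) / Real.log s with hF
  have hmem : ∀ θ : ℝ, y0 + circleMap 0 1 θ • v ∈ Q := fun θ =>
    ⟨circleMap 0 1 θ, circleMap_mem_sphere 0 zero_le_one θ, rfl⟩
  have hFcont : ∀ᶠ s in atTop, Continuous (F s) := by
    filter_upwards [eventually_ge_atTop s2, eventually_ge_atTop s4] with s e2 e4
    obtain ⟨hnorm, hle⟩ := hexp s e4
    have hltr : ‖Complex.exp (-(s : ℂ))‖ < r := lt_of_le_of_lt hle (by linarith [h.hr])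
    have h1 : Continuous fun θ : ℝ => hh S N f s (y0 + circleMap 0 1 θ • v) := by
      rw [← continuousOn_univ]
      refine (hh_continuousOn h hltr).comp (Continuous.continuousOn (by fun_prop)) ?_
      intro θ _
      exact hQU (hmem θ)
    exact (h1.log fun θ => (hlow s e2 _ (hmem θ)).1.ne').div_const _
  have hFbound : ∀ᶠ s in atTop, ∀ θ : ℝ, ‖F s θ‖ ≤ B := by
    filter_upwards [eventually_ge_atTop s1, eventually_ge_atTop s2, eventually_ge_atTop s4,
      eventually_ge_atTop (Real.exp 1)] with s e1 e2 e4 e5 θ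
    have hs1' : 1 ≤ s := hs4.trans e4
    have hspos : 0 < s := by linarith
    have hlog : 1 ≤ Real.log s := by
      rw [Real.le_log_iff_exp_le hspos]; exact e5
    have hlog0 : 0 < Real.log s := by linarith
    obtain ⟨hnorm, hle⟩ := hexp s e4
    obtain ⟨hp, hl⟩ := hlow s e2 _ (hmem θ)
    have hfm := hs1 s e1 _ (hmem θ)
    have hup := upper h hn' hs1' (y0 + circleMap 0 1 θ • v)
    rw [← hD] at hup
    have hfM := hM _ hle _ (hmem θ)
    have hlow' : Real.log (c * m ^ 2) - A * Real.log s ≤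
        Real.log (hh S N f s (y0 + circleMap 0 1 θ • v)) := by
      have h1 : c * m ^ 2 / s ^ A ≤ hh S N f s (y0 + circleMap 0 1 θ • v) := by
        rw [div_le_iff₀ (by positivity)]
        calc c * m ^ 2 ≤ c * ‖f (Complex.exp (-(s : ℂ)), y0 + circleMap 0 1 θ • v)‖ ^ 2 := by
              gcongr
          _ ≤ s ^ A * hh S N f s (y0 + circleMap 0 1 θ • v) := hl
          _ = _ := by ring
      have h2 := Real.log_le_log (by positivity) h1
      rwa [Real.log_div (by positivity) (by positivity), Real.log_pow] at h2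
    have hup' : Real.log (hh S N f s (y0 + circleMap 0 1 θ • v)) ≤
        Real.log (D * M ^ 2 + 1) + n' * Real.log s := by
      have hM2 : ‖f (Complex.exp (-(s : ℂ)), y0 + circleMap 0 1 θ • v)‖ ^ 2 ≤ M ^ 2 :=
        pow_le_pow_left₀ (norm_nonneg _) hfM 2
      have h1 : hh S N f s (y0 + circleMap 0 1 θ • v) ≤ (D * M ^ 2 + 1) * s ^ n' := by
        refine hup.trans ?_
        calc D * s ^ n' * ‖f (Complex.exp (-(s : ℂ)), y0 + circleMap 0 1 θ • v)‖ ^ 2
            ≤ D * s ^ n' * M ^ 2 := by gcongr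
          _ = (D * M ^ 2) * s ^ n' := by ring
          _ ≤ (D * M ^ 2 + 1) * s ^ n' := by gcongr; linarith
      have h2 := Real.log_le_log hp h1
      rwa [Real.log_mul (by positivity) (by positivity), Real.log_pow] at h2
    rw [hF]
    simp only
    rw [Real.norm_eq_abs, abs_div, abs_of_pos hlog0, div_le_iff₀ hlog0, abs_le]
    have e6 := abs_nonneg (Real.log (c * m ^ 2))
    have e7 := abs_nonneg (Real.log (D * M ^ 2 + 1))
    have e8 := neg_abs_le (Real.log (c * m ^ 2))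
    have e9 := le_abs_self (Real.log (D * M ^ 2 + 1))
    have e10 : (0 : ℝ) ≤ A := Nat.cast_nonneg A
    have e11 : (0 : ℝ) ≤ n' := Nat.cast_nonneg n'
    constructor
    · rw [hB]
      nlinarith
    · rw [hB]
      nlinarith
  have hFlim : ∀ θ : ℝ, Tendsto (fun s => F s θ) atTop
      (𝓝 (kap S N f n (y0 + circleMap 0 1 θ • v) : ℝ)) := fun θ => hlim _ (hQU (hmem θ))
  -- dominated convergence
  have hDC := intervalIntegral.tendsto_integral_filter_of_dominated_convergence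
    (μ := volume) (a := 0) (b := 2 * π) (F := F)
    (f := fun θ : ℝ => (kap S N f n (y0 + circleMap 0 1 θ • v) : ℝ)) (fun _ => B)
    (hFcont.mono fun s hs => hs.aestronglyMeasurable)
    (hFbound.mono fun s hs => Eventually.of_forall fun θ _ => hs θ)
    intervalIntegrable_const (Eventually.of_forall fun θ _ => hFlim θ)
  -- integrability of the limit
  have hInt : CircleIntegrable (fun ζ => (kap S N f n (y0 + ζ • v) : ℝ)) 0 1 := by
    have hmeas : AEStronglyMeasurable (fun θ : ℝ => (kap S N f n (y0 + circleMap 0 1 θ • v) : ℝ))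
        volume := by
      obtain ⟨s5, hs5⟩ := eventually_atTop.1 hFcont
      have hseq : Tendsto (fun i : ℕ => s5 + (i : ℝ)) atTop atTop :=
        tendsto_atTop_add_const_left _ _ tendsto_natCast_atTop_atTop
      refine aestronglyMeasurable_of_tendsto_ae atTop (f := fun (i : ℕ) θ => F (s5 + i) θ)
        (fun i => (hs5 _ (by have : (0:ℝ) ≤ i := Nat.cast_nonneg i; linarith)).aestronglyMeasurable) ?_
      exact Eventually.of_forall fun θ => (hFlim θ).comp hseq
    have hbd : ∀ θ : ℝ, ‖(kap S N f n (y0 + circleMap 0 1 θ • v) : ℝ)‖ ≤ B := fun θ =>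
      le_of_tendsto (hFlim θ).norm (hFbound.mono fun s hs => hs θ)
    exact (intervalIntegrable_const (c := B)).mono_fun hmeas.restrict
      (Eventually.of_forall fun θ => (hbd θ).trans (le_abs_self B))
  refine ⟨hInt, ?_⟩
  have hDC' : Tendsto (fun s => circleAverage (fun ζ => Real.log (hh S N f s (y0 + ζ • v))) 0 1 /
      Real.log s) atTop
      (𝓝 (circleAverage (fun ζ => (kap S N f n (y0 + ζ • v) : ℝ)) 0 1)) := by
    have h1 := hDC.const_mul ((2 * π)⁻¹)
    refine h1.congr fun s => ?_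
    rw [Real.circleAverage_def, smul_eq_mul, mul_div_assoc, ← intervalIntegral.integral_div]
  have hc := hlim y0 hy0
  apply le_antisymm
  · refine le_of_tendsto_of_tendsto hDC' hc ?_
    filter_upwards [eventually_ge_atTop s3, eventually_gt_atTop (1 : ℝ)] with s e3 e5
    exact div_le_div_of_nonneg_right (hs3 s e3).1 (Real.log_pos e5).le
  · have hC0 : Tendsto (fun s : ℝ => C / Real.log s) atTop (𝓝 0) :=
      tendsto_const_nhds.div_atTop Real.tendsto_log_atTop
    have h1 := hDC'.add hC0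
    rw [add_zero] at h1
    refine le_of_tendsto_of_tendsto hc h1 ?_
    filter_upwards [eventually_ge_atTop s3, eventually_gt_atTop (1 : ℝ)] with s e3 e5
    rw [← add_div]
    exact div_le_div_of_nonneg_right (hs3 s e3).2 (Real.log_pos e5).le

/-- local constancy of the exponent -/
theorem kap_loc (h : Bd S N r U f) (hY : YD S N U f) {n : ℕ} (hn : KK N ^ n = 0)
    (hf0 : ∀ y ∈ U, f (0, y) ≠ 0)
    (hex : ∀ y ∈ U, ∃ j, S (f (0, y)) ((KK N ^ j) (f (0, y))) ≠ 0) {y0 : E} (hy0 : y0 ∈ U) :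
    ∀ᶠ y in 𝓝 y0, kap S N f n y = kap S N f n y0 := by
  set k0 := kap S N f n y0 with hk0
  have hcontj : ∀ j, ContinuousOn (fun y : E => S (f (0, y)) ((KK N ^ j) (f (0, y)))) U := by
    intro j
    have h1 : ContinuousOn (fun y : E => f (0, y)) U :=
      h.an.continuousOn.comp (by fun_prop) fun y hy => ⟨mem_ball_self h.hr, hy⟩
    exact (S.continuous.comp_continuousOn h1).clm_apply ((KK N ^ j).continuous.comp_continuousOn h1)
  have hk0ne := kap_ne (S := S) (N := N) hn (hex y0 hy0)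
  have h1 : ∀ᶠ y in 𝓝 y0, S (f (0, y)) ((KK N ^ k0) (f (0, y))) ≠ 0 :=
    ((hcontj k0).continuousAt (h.hU.mem_nhds hy0)).eventually_ne hk0ne
  obtain ⟨ρ, hρ, hball⟩ := Metric.eventually_nhds_iff_ball.1 (h1.and (h.hU.mem_nhds hy0))
  refine Metric.eventually_nhds_iff_ball.2 ⟨ρ, hρ, fun y1 hy1 => ?_⟩
  have hge : ∀ y ∈ ball y0 ρ, k0 ≤ kap S N f n y := fun y hy => kap_ge hn (hball y hy).1
  apply le_antisymm _ (hge y1 hy1)
  by_contra hcon
  push Not at hcon
  set v : E := y1 - y0 with hv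
  have hvn : ‖v‖ < ρ := by rw [hv, ← dist_eq_norm]; exact hy1
  have hin : ∀ ζ ∈ closedBall (0 : ℂ) 1, y0 + ζ • v ∈ ball y0 ρ := by
    intro ζ hζ
    rw [mem_ball, dist_eq_norm, add_sub_cancel_left, norm_smul]
    have : ‖ζ‖ ≤ 1 := by simpa using hζ
    calc ‖ζ‖ * ‖v‖ ≤ 1 * ‖v‖ := mul_le_mul_of_nonneg_right this (norm_nonneg _)
      _ < ρ := by rw [one_mul]; exact hvn
  obtain ⟨hint, havg⟩ := kap_mean h hY hn hf0 hex (v := v) (fun ζ hζ => (hball _ (hin ζ hζ)).2)
  set i := kap S N f n y1 with hi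
  have hine := kap_ne (S := S) (N := N) hn (hex y1 (hball y1 hy1).2)
  rw [← hi] at hine
  -- continuous minorant
  set χ : ℂ → ℝ := fun ζ => min 1 ‖S (f (0, y0 + ζ • v)) ((KK N ^ i) (f (0, y0 + ζ • v)))‖ with hχ
  have hχc : ContinuousOn χ (sphere 0 1) := by
    refine continuousOn_const.inf ?_
    refine (ContinuousOn.comp (hcontj i) (by fun_prop) ?_).norm
    intro ζ hζ
    exact (hball _ (hin ζ (sphere_subset_closedBall hζ))).2
  have hχle : ∀ ζ ∈ sphere (0 : ℂ) |1|, χ ζ ≤ (kap S N f n (y0 + ζ • v) : ℝ) - k0 := by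
    intro ζ hζ
    rw [abs_one] at hζ
    have hb := hin ζ (sphere_subset_closedBall hζ)
    have h2 := hge _ hb
    rcases eq_or_ne (S (f (0, y0 + ζ • v)) ((KK N ^ i) (f (0, y0 + ζ • v)))) 0 with h3 | h3
    · simp only [hχ, h3, norm_zero]
      rw [min_eq_right zero_le_one, sub_nonneg]
      exact_mod_cast h2
    · have h4 := kap_ge (S := S) (N := N) hn h3
      have h5 : k0 + 1 ≤ kap S N f n (y0 + ζ • v) := by omega
      have h6 : (k0 : ℝ) + 1 ≤ kap S N f n (y0 + ζ • v) := by exact_mod_cast h5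
      have h7 : χ ζ ≤ 1 := min_le_left _ _
      linarith
  have h2 := circleAverage_mono (c := (0 : ℂ)) (R := 1) (circle_ci hχc)
    (hint.sub (circle_ci (g := fun _ => (k0 : ℝ)) continuousOn_const)) hχle
  have h3 : circleAverage (fun ζ => (kap S N f n (y0 + ζ • v) : ℝ) - k0) 0 1 = 0 := by
    rw [circleAverage_fun_sub hint (circle_ci continuousOn_const), havg, circleAverage_const,
      sub_self]
  have h4 : circleAverage χ 0 1 ≤ 0 := by
    refine h2.trans (le_of_eq ?_)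
    exact h3
  -- positivity
  have h5 : 0 < ∫ θ in (0 : ℝ)..(2 * π), χ (circleMap 0 1 θ) := by
    refine intervalIntegral.integral_pos (by positivity) ?_ ?_ ?_
    · refine hχc.comp (continuous_circleMap 0 1).continuousOn ?_
      intro θ _
      exact circleMap_mem_sphere 0 zero_le_one θ
    · intro θ _
      exact le_min zero_le_one (norm_nonneg _)
    · refine ⟨0, ⟨le_rfl, by positivity⟩, ?_⟩
      have h6 : circleMap 0 1 0 = (1 : ℂ) := by simp [circleMap]
      rw [h6]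
      refine lt_min one_pos (norm_pos_iff.2 ?_)
      have h7 : y0 + (1 : ℂ) • v = y1 := by rw [hv]; simp
      rw [h7]
      exact hine
  rw [Real.circleAverage_def, smul_eq_mul] at h4
  have h8 : 0 < (2 * π)⁻¹ * ∫ θ in (0 : ℝ)..(2 * π), χ (circleMap 0 1 θ) := by positivity
  linarith

/-- **the limit metric exists and is positive at every point of the divisor**: one exponent `k` for
all points, `c_k (0, y) > 0` and `f (0, y) ≠ 0` everywhere. -/
theorem pos_everywhere (h : Bd S N r U f) (hY : YD S N U f) (hUc : IsPreconnected U)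
    (hne : ∃ y ∈ U, f (0, y) ≠ 0) :
    ∃ k : ℕ, (∀ j, k < j → ∀ y ∈ U, S (f (0, y)) ((KK N ^ j) (f (0, y))) = 0) ∧
      (∀ y ∈ U, 0 < cc S N f k (0, y)) ∧ ∀ y ∈ U, f (0, y) ≠ 0 := by
  obtain ⟨n, hn⟩ := KK_nil h.nil
  have hf0 := ne_zero h hY hUc hne
  have hex : ∀ y ∈ U, ∃ j, S (f (0, y)) ((KK N ^ j) (f (0, y))) ≠ 0 := by
    intro y hy
    obtain ⟨c, hc, A, s0, hs0⟩ := hY.mg {y} (singleton_subset_iff.2 hy) isCompact_singleton
    refine exists_ne_of_growth h hy (hf0 y hy) hc (A := A) ?_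
    filter_upwards [eventually_ge_atTop s0] with s hs
    exact (hs0 s hs y rfl).2
  obtain ⟨y1, hy1, -⟩ := hne
  have hconst : ∀ y ∈ U, kap S N f n y = kap S N f n y1 := by
    intro y hy
    refine hUc.constant (f := kap S N f n) ?_ hy hy1
    intro y0 hy0
    refine ContinuousAt.continuousWithinAt ?_
    have h1 := kap_loc h hY hn hf0 hex hy0
    exact (continuousAt_const (y := kap S N f n y0)).congr (h1.mono fun y hy => hy.symm)
  refine ⟨kap S N f n y1, ?_, ?_, hf0⟩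
  · intro j hj y hy
    rw [← hconst y hy] at hj
    exact kap_zero hn hj
  · intro y hy
    rw [← hconst y hy]
    exact (log_tendsto h hY hy (fun j hj => kap_zero hn hj) (kap_ne hn (hex y hy))).1

end index

/-! ### the disc estimates from Laplacian bounds -/

section lap


end lap

end Crest.Agent.R276.Bdy_767
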