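import Mathlib

/-!
# R276 (helper25): logarithm of a unipotent element

`lg n x` is a polynomial in `x` with rational coefficients; if `x ^ n = 0` then `lg n x` is nilpotent and
`exp (lg n x) = 1 + x`.  If `U` is a unipotent isometry of the Hermitian form `S` then
`L = lg n (U - 1)` satisfies `Lᴴ S = - S L`.
-/

set_option autoImplicit false

open Polynomial

namespace Crest.Agent.R276.Log_25

section comm

variable {R : Type*} [CommRing R] [Algebra ℚ R]

theorem exp_two {y : R} (hy : IsNilpotent y) : ∃ q, IsNilpotent.exp y = 1 + y + y ^ 2 * q := by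
  obtain ⟨k, hk⟩ := hy
  have hk' : y ^ (k + 2) = 0 := pow_eq_zero_of_le (by omega) hk
  refine ⟨∑ i ∈ Finset.range k, ((i + 2).factorial : ℚ)⁻¹ • y ^ i, ?_⟩
  rw [IsNilpotent.exp_eq_sum hk', Finset.sum_range_succ', Finset.sum_range_succ', Finset.mul_sum]
  have h1 : ∑ i ∈ Finset.range k, (((i + 1 + 1).factorial : ℚ))⁻¹ • y ^ (i + 1 + 1) =
      ∑ i ∈ Finset.range k, y ^ 2 * ((((i + 2).factorial : ℚ))⁻¹ • y ^ i) := by
    refine Finset.sum_congr rfl fun i _ => ?_
    rw [mul_smul_comm, ← pow_add]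
    congr 2
    ring
  rw [h1]
  simp
  ring

theorem exists_log_aux {x : R} (hx : IsNilpotent x) (k : ℕ) :
    ∃ l : R, x ∣ l ∧ x ^ (k + 1) ∣ IsNilpotent.exp (-l) * (1 + x) - 1 := by
  induction k with
  | zero =>
    refine ⟨0, dvd_zero x, ?_⟩
    simp
  | succ k ih =>
    obtain ⟨l, hl, hk⟩ := ih
    have hln : IsNilpotent l := by
      obtain ⟨c, rfl⟩ := hl
      exact (Commute.all x c).isNilpotent_mul_right hx
    set y : R := IsNilpotent.exp (-l) * (1 + x) - 1 with hy
    have hyx : x ∣ y := (dvd_pow_self x (Nat.succ_ne_zero k)).trans hk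
    have hyn : IsNilpotent y := by
      obtain ⟨c, hc⟩ := hyx
      rw [hc]
      exact (Commute.all x c).isNilpotent_mul_right hx
    refine ⟨l + y, dvd_add hl hyx, ?_⟩
    have h1 : IsNilpotent.exp (-(l + y)) = IsNilpotent.exp (-y) * IsNilpotent.exp (-l) := by
      rw [← IsNilpotent.exp_add_of_commute (Commute.all _ _) hyn.neg hln.neg]
      congr 1
      ring
    obtain ⟨q, hq⟩ := exp_two hyn.neg
    have h2 : IsNilpotent.exp (-(l + y)) * (1 + x) - 1 = y ^ 2 * (q * (1 + y) - 1) := by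
      rw [h1, mul_assoc]
      have h3 : IsNilpotent.exp (-l) * (1 + x) = 1 + y := by rw [hy]; ring
      rw [h3, hq]
      ring
    rw [h2]
    refine Dvd.dvd.mul_right ?_ _
    obtain ⟨c, hc⟩ := hk
    refine ⟨x ^ k * c ^ 2, ?_⟩
    rw [hc]
    ring

theorem exists_log {x : R} (hx : IsNilpotent x) : ∃ l : R, x ∣ l ∧ IsNilpotent.exp l = 1 + x := by
  obtain ⟨n, hn⟩ := hx
  obtain ⟨l, hl, hk⟩ := exists_log_aux ⟨n, hn⟩ n
  have hln : IsNilpotent l := by
    obtain ⟨c, rfl⟩ := hl
    exact (Commute.all x c).isNilpotent_mul_right ⟨n, hn⟩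
  refine ⟨l, hl, ?_⟩
  have h0 : x ^ (n + 1) = 0 := pow_eq_zero_of_le (by omega) hn
  rw [h0, zero_dvd_iff, sub_eq_zero] at hk
  calc IsNilpotent.exp l = IsNilpotent.exp l * (IsNilpotent.exp (-l) * (1 + x)) := by
        rw [hk, mul_one]
    _ = 1 + x := by rw [← mul_assoc, IsNilpotent.exp_mul_exp_neg_self hln, one_mul]

end comm

/-- the truncated polynomial ring -/
abbrev Rn (n : ℕ) : Type := ℚ[X] ⧸ Ideal.span {(X : ℚ[X]) ^ n}

theorem tn_pow (n : ℕ) : (Ideal.Quotient.mk (Ideal.span {(X : ℚ[X]) ^ n}) X) ^ n = 0 := by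
  rw [← map_pow, Ideal.Quotient.eq_zero_iff_mem]
  exact Ideal.mem_span_singleton_self _

theorem exists_logPoly (n : ℕ) : ∃ p : ℚ[X],
    (Ideal.Quotient.mk (Ideal.span {(X : ℚ[X]) ^ n}) X) ∣
      (Ideal.Quotient.mk (Ideal.span {(X : ℚ[X]) ^ n}) p) ∧
    IsNilpotent.exp (Ideal.Quotient.mk (Ideal.span {(X : ℚ[X]) ^ n}) p) =
      1 + Ideal.Quotient.mk (Ideal.span {(X : ℚ[X]) ^ n}) X := by
  obtain ⟨l, hl, hl'⟩ := exists_log (R := Rn n) ⟨n, tn_pow n⟩
  obtain ⟨p, rfl⟩ := Ideal.Quotient.mk_surjective l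
  exact ⟨p, hl, hl'⟩

/-- the truncated logarithm polynomial `log (1 + X)` modulo `X ^ n` -/
noncomputable def logPoly (n : ℕ) : ℚ[X] := (exists_logPoly n).choose

section ring

variable {A : Type*} [Ring A] [Algebra ℚ A]

/-- `log (1 + x)` -/
noncomputable def lg (n : ℕ) (x : A) : A := aeval x (logPoly n)

variable {n : ℕ} {x : A}

/-- evaluation at a nilpotent element -/
noncomputable def ev (hx : x ^ n = 0) : Rn n →+* A :=
  Ideal.Quotient.lift (Ideal.span {(X : ℚ[X]) ^ n}) (aeval x).toRingHom (by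
    intro a ha
    obtain ⟨c, rfl⟩ := Ideal.mem_span_singleton.1 ha
    simp [hx])

theorem ev_mk (hx : x ^ n = 0) (p : ℚ[X]) :
    ev hx (Ideal.Quotient.mk (Ideal.span {(X : ℚ[X]) ^ n}) p) = aeval x p := rfl

theorem lg_pow (hx : x ^ n = 0) : (lg n x) ^ n = 0 := by
  obtain ⟨c, hc⟩ := (exists_logPoly n).choose_spec.1
  have h1 : (Ideal.Quotient.mk (Ideal.span {(X : ℚ[X]) ^ n}) (logPoly n)) ^ n = 0 := by
    unfold logPoly
    rw [hc, mul_pow, tn_pow, zero_mul]
  have h2 := congrArg (ev hx) h1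
  rwa [map_pow, ev_mk, map_zero] at h2


theorem exp_lg (hx : x ^ n = 0) : IsNilpotent.exp (lg n x) = 1 + x := by
  obtain ⟨c, hc⟩ := (exists_logPoly n).choose_spec.1
  have h0 : IsNilpotent (Ideal.Quotient.mk (Ideal.span {(X : ℚ[X]) ^ n}) (logPoly n)) := by
    refine ⟨n, ?_⟩
    unfold logPoly
    rw [hc, mul_pow, tn_pow, zero_mul]
  have h2 := congrArg (ev hx) (exists_logPoly n).choose_spec.2
  have h3 := IsNilpotent.map_exp h0 (ev hx)
  have h4 : ev hx (IsNilpotent.exp (Ideal.Quotient.mk (Ideal.span {(X : ℚ[X]) ^ n}) (logPoly n))) =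
      ev hx (1 + Ideal.Quotient.mk (Ideal.span {(X : ℚ[X]) ^ n}) X) := h2
  rw [h3, ev_mk, map_add, map_one, ev_mk, aeval_X] at h4
  exact h4

theorem commute_lg {y : A} (h : Commute y x) (n : ℕ) : Commute y (lg n x) := by
  unfold lg
  induction logPoly n using Polynomial.induction_on' with
  | add p q hp hq => rw [map_add]; exact hp.add_right hq
  | monomial m a =>
    rw [aeval_monomial]
    refine Commute.mul_right ?_ (h.pow_right m)
    exact (Algebra.commutes a y).symm

/-- injectivity of the exponential on commuting nilpotent elements -/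
theorem exp_inj {a b : A} (hab : Commute a b) (ha : IsNilpotent a) (hb : IsNilpotent b)
    (h : IsNilpotent.exp a = IsNilpotent.exp b) : a = b := by
  have hc : IsNilpotent (a - b) := hab.isNilpotent_sub ha hb
  have h1 : IsNilpotent.exp (a - b) = 1 := by
    rw [sub_eq_add_neg, IsNilpotent.exp_add_of_commute hab.neg_right ha hb.neg, h,
      IsNilpotent.exp_mul_exp_neg_self hb]
  -- `exp c = 1 + c u` with `u` a unit
  obtain ⟨k, hk⟩ := hc
  set c := a - b with hcdef
  rw [← sub_eq_zero]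
  have hk' : c ^ (k + 1) = 0 := pow_eq_zero_of_le (by omega) hk
  rw [IsNilpotent.exp_eq_sum hk', Finset.sum_range_succ'] at h1
  have h2 : ∑ i ∈ Finset.range k, (((i + 1).factorial : ℚ))⁻¹ • c ^ (i + 1) = 0 := by
    simpa using h1
  by_contra hne
  -- minimal power
  obtain ⟨m, hm, hm'⟩ : ∃ m, c ^ (m + 1) = 0 ∧ c ^ m ≠ 0 := by
    by_contra hno
    push Not at hno
    have hall : ∀ j, j ≤ k → c ^ (k - j) = 0 := by
      intro j
      induction j with
      | zero => intro _; simpa using hk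
      | succ j ih =>
        intro hj
        refine hno _ ?_
        have : k - (j + 1) + 1 = k - j := by omega
        rw [this]; exact ih (by omega)
    have h0 := hall k le_rfl
    rw [Nat.sub_self, pow_zero] at h0
    exact hne (by rw [← mul_one (a - b), h0, mul_zero])
  rcases Nat.eq_zero_or_pos m with rfl | hmpos
  · rw [zero_add, pow_one] at hm
    exact hne hm
  · have h3 : c ^ (m - 1) * ∑ i ∈ Finset.range k, (((i + 1).factorial : ℚ))⁻¹ • c ^ (i + 1) = c ^ m := by
      have hk0 : 0 < k := by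
        rcases Nat.eq_zero_or_pos k with rfl | h
        · exfalso
          rw [pow_zero] at hk
          exact hm' (by rw [← mul_one (c ^ m), hk, mul_zero])
        · exact h
      obtain ⟨k', rfl⟩ := Nat.exists_eq_succ_of_ne_zero hk0.ne'
      rw [Finset.sum_range_succ', mul_add, Finset.mul_sum, Finset.sum_eq_zero]
      · simp only [zero_add, Nat.factorial_one, Nat.cast_one, inv_one, one_smul, pow_one]
        rw [← pow_succ, Nat.sub_add_cancel hmpos]
      · intro i _
        rw [mul_smul_comm, ← pow_add]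
        have h4 : c ^ (m - 1 + (i + 1 + 1)) = 0 := pow_eq_zero_of_le (by omega) hm
        rw [h4, smul_zero]
    rw [h2, mul_zero] at h3
    exact hm' h3.symm

end ring

/-! ### isometries of a Hermitian form -/

open Matrix

variable {ι : Type*} [Fintype ι] [DecidableEq ι]

theorem aeval_adj {S X Y : Matrix ι ι ℂ} (h : Xᴴ * S = S * Y) (p : ℚ[X]) :
    (aeval X p)ᴴ * S = S * aeval Y p := by
  have hpow : ∀ m : ℕ, (X ^ m)ᴴ * S = S * Y ^ m := by
    intro m
    induction m with
    | zero => simp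
    | succ m ih =>
      rw [pow_succ', conjTranspose_mul, pow_succ, Matrix.mul_assoc, h, ← Matrix.mul_assoc, ih,
        Matrix.mul_assoc]
  induction p using Polynomial.induction_on' with
  | add p q hp hq => rw [map_add, map_add, conjTranspose_add, Matrix.add_mul, hp, hq, Matrix.mul_add]
  | monomial m a =>
    rw [aeval_monomial, aeval_monomial, ← Algebra.smul_def, ← Algebra.smul_def]
    have h1 : ∀ (q : ℚ) (M : Matrix ι ι ℂ), q • M = ((q : ℝ) : ℂ) • M := by
      intro q M
      ext i k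
      simp [Rat.smul_def]
    rw [h1, h1, conjTranspose_smul, Matrix.smul_mul, Matrix.mul_smul, hpow]
    simp

/-- **the logarithm of a unipotent isometry is skew** -/
theorem lg_skew {S U : Matrix ι ι ℂ} {n : ℕ} (hU : (U - 1) ^ n = 0) (hS : Uᴴ * S * U = S) :
    (lg n (U - 1))ᴴ * S = - (S * lg n (U - 1)) := by
  set L := lg n (U - 1) with hL
  have hLn : L ^ n = 0 := lg_pow hU
  have hexp : IsNilpotent.exp L = U := by rw [hL, exp_lg hU]; abel
  set V := IsNilpotent.exp (-L) with hV
  have hUV : U * V = 1 := by rw [← hexp, hV, IsNilpotent.exp_mul_exp_neg_self ⟨n, hLn⟩]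
  have hVU : V * U = 1 := by rw [← hexp, hV, IsNilpotent.exp_neg_mul_exp_self ⟨n, hLn⟩]
  have h1 : Uᴴ * S = S * V := by
    calc Uᴴ * S = Uᴴ * S * (U * V) := by rw [hUV, Matrix.mul_one]
      _ = (Uᴴ * S * U) * V := by simp only [Matrix.mul_assoc]
      _ = S * V := by rw [hS]
  have h2 : (U - 1)ᴴ * S = S * (V - 1) := by
    rw [conjTranspose_sub, conjTranspose_one, Matrix.sub_mul, Matrix.mul_sub, h1, Matrix.one_mul,
      Matrix.mul_one]
  have h3 := aeval_adj h2 (logPoly n)
  have h4 : (V - 1) ^ n = 0 := by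
    have h5 : V - 1 = (-V) * (U - 1) := by rw [mul_sub, neg_mul, hVU, mul_one]; abel
    have h6 : Commute (-V) (U - 1) := by
      refine Commute.sub_right ?_ (Commute.one_right _)
      refine Commute.neg_left ?_
      show V * U = U * V
      rw [hUV, hVU]
    rw [h5, h6.mul_pow, hU, mul_zero]
  have h5 : lg n (V - 1) = - L := by
    refine exp_inj ?_ ⟨n, lg_pow h4⟩ (IsNilpotent.neg ⟨n, hLn⟩) ?_
    · refine Commute.neg_right (Commute.symm ?_)
      refine commute_lg ?_ n
      have h6 : Commute V U := by show V * U = U * V; rw [hUV, hVU]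
      have h7 : Commute V L := commute_lg (h6.sub_right (Commute.one_right _)) n
      exact (h7.symm).sub_right (Commute.one_right _)
    · rw [exp_lg h4]; rw [← hV]; abel
  have h6 : (lg n (U - 1))ᴴ * S = S * lg n (V - 1) := h3
  rw [h6, h5, Matrix.mul_neg]

end Crest.Agent.R276.Log_25
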