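import Mathlib
import Crest.Agent.R276.Grow_25
import Crest.Agent.R276.VCalcI_442
import Crest.Agent.R276.EndTh_659

/-!
# R276 (helper25): boundary normal form of a VHS, part A: growth of flat sections, quasi-unipotence

`HB c ρ` = (half plane `Re z₀ < 0`) × (polydisc of radius `ρ` around `c`): universal cover of the punctured
polydisc.  A polarised VHS on `HB c ρ` in a flat frame (442's structure).
-/

set_option autoImplicit false

open Set Filter Topology Metric Matrix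
open scoped ContDiff ComplexOrder

namespace Crest.Agent.R276.NfA_25

open Crest.Agent.R276.VCalc_442 (VHS dW dB hn gden cx th thb grOp hm)

variable {d : ℕ} {ι : Type*} [Fintype ι] [DecidableEq ι]

/-- half plane × polydisc -/
def HB (c : Fin d → ℂ) (ρ : ℝ) : Set (Fin (d + 1) → ℂ) :=
  {z | (z 0).re < 0 ∧ ∀ j : Fin d, ‖z j.succ - c j‖ < ρ}

theorem isOpen_HB (c : Fin d → ℂ) (ρ : ℝ) : IsOpen (HB c ρ) := by
  have h1 : IsOpen {z : Fin (d + 1) → ℂ | (z 0).re < 0} :=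
    isOpen_lt (Complex.continuous_re.comp (continuous_apply 0)) continuous_const
  have h2 : IsOpen (⋂ j : Fin d, {z : Fin (d + 1) → ℂ | ‖z j.succ - c j‖ < ρ}) :=
    isOpen_iInter_of_finite fun j =>
      isOpen_lt ((continuous_apply j.succ).sub continuous_const).norm continuous_const
  have h3 : HB c ρ = {z : Fin (d + 1) → ℂ | (z 0).re < 0} ∩
      ⋂ j : Fin d, {z : Fin (d + 1) → ℂ | ‖z j.succ - c j‖ < ρ} := by
    ext z
    simp [HB]
  rw [h3]
  exact h1.inter h2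

/-- `2 π i e₀` -/
noncomputable def tau (d : ℕ) : Fin (d + 1) → ℂ := Pi.single 0 (2 * Real.pi * Complex.I)




theorem cons_mem {c : Fin d → ℂ} {ρ : ℝ} {y : Fin d → ℂ} (hy : ∀ j, ‖y j - c j‖ < ρ) {a : ℂ}
    (ha : a.re < 0) : (Fin.cons a y : Fin (d + 1) → ℂ) ∈ HB c ρ :=
  ⟨by simpa using ha, fun j => by simpa using hy j⟩

theorem contDiff_cons (y : Fin d → ℂ) :
    ContDiff ℂ ∞ (fun a : ℂ => (Fin.cons a y : Fin (d + 1) → ℂ)) := by
  refine contDiff_pi.2 fun i => ?_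
  refine Fin.cases ?_ (fun j => ?_) i
  · exact contDiff_id
  · exact contDiff_const


/-- the norm of the real derivative from the Wirtinger derivative -/
theorem norm_fderiv_le {u : ℂ → ℝ} {z : ℂ} (hu : DifferentiableAt ℝ u z) :
    ‖fderiv ℝ u z‖ ≤ 2 * ‖dW (cx u) 1 z‖ := by
  have h1 := EndTh_659.norm_dW_sq hu
  refine ContinuousLinearMap.opNorm_le_bound _ (by positivity) fun v => ?_
  have h2 : fderiv ℝ u z v = v.re * fderiv ℝ u z 1 + v.im * fderiv ℝ u z Complex.I := by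
    have h3 : v = v.re • (1 : ℂ) + v.im • Complex.I := by
      apply Complex.ext <;> simp
    conv_lhs => rw [h3]
    rw [map_add, map_smul, map_smul]
    simp
  have h4 : (fderiv ℝ u z v) ^ 2 ≤ (2 * ‖dW (cx u) 1 z‖ * ‖v‖) ^ 2 := by
    have h5 : ‖v‖ ^ 2 = v.re ^ 2 + v.im ^ 2 := by
      rw [← Complex.normSq_eq_norm_sq, Complex.normSq_apply]; ring
    have h6 : (2 * ‖dW (cx u) 1 z‖ * ‖v‖) ^ 2 =
        ((fderiv ℝ u z 1) ^ 2 + (fderiv ℝ u z Complex.I) ^ 2) * (v.re ^ 2 + v.im ^ 2) := by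
      rw [← h1, ← h5]
      have : (cx u) = fun y => (u y : ℂ) := rfl
      rw [this]
      ring
    rw [h6, h2]
    nlinarith [sq_nonneg (v.re * fderiv ℝ u z Complex.I - v.im * fderiv ℝ u z 1)]
  rw [Real.norm_eq_abs]
  exact abs_le_of_sq_le_sq h4 (by positivity)

section VHS

variable {w : ℕ} {c : Fin d → ℂ} {ρ : ℝ} {S : Matrix ι ι ℂ} {P : ℕ → (Fin (d + 1) → ℂ) → Matrix ι ι ℂ}

/-- restriction to a line -/
theorem line (h : VHS w (HB c ρ) S P) {y : Fin d → ℂ} (hy : ∀ j, ‖y j - c j‖ < ρ) :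
    VHS w {a : ℂ | a.re < 0} S (fun p a => P p (Fin.cons a y : Fin (d + 1) → ℂ)) :=
  EndTh_659.pull h (isOpen_lt Complex.continuous_re continuous_const)
    (contDiff_cons y).contDiffOn (fun _ ha => cons_mem hy ha)

/-- the growth constant -/
noncomputable def KK (ι : Type*) [Fintype ι] [DecidableEq ι] : ℝ := 4 * Real.sqrt (EndTh_659.cst ι)

theorem KK_nonneg : 0 ≤ KK ι := by unfold KK; positivity

theorem hn_bound {P : ℕ → ℂ → Matrix ι ι ℂ} (h : VHS w {a : ℂ | a.re < 0} S P) (u : ι → ℂ) {a : ℂ}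
    (ha : a.re < 0) : ‖fderiv ℝ (hn w S P u) a‖ ≤ KK ι / |a.re| * hn w S P u a := by
  have hd : DifferentiableAt ℝ (hn w S P u) a :=
    ((h.sm_hn u).contDiffAt (h.op.mem_nhds ha)).differentiableAt (by simp)
  refine (norm_fderiv_le hd).trans ?_
  have h1 := h.growth_hn (x := a) ha u 1
  have h2 : gden w P 1 a ≤ EndTh_659.cst ι / (0 - a.re) ^ 2 :=
    EndTh_659.gg_le_halfplane h ha
  have h3 : Real.sqrt (gden w P 1 a) ≤ Real.sqrt (EndTh_659.cst ι) / |a.re| := by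
    have h4 := Real.sqrt_le_sqrt h2
    rwa [Real.sqrt_div (EndTh_659.cst_pos ι).le, zero_sub, neg_sq, Real.sqrt_sq_eq_abs] at h4
  have h5 := h.hn_nonneg (x := a) ha u
  calc 2 * ‖dW (cx (hn w S P u)) 1 a‖ ≤ 2 * (2 * Real.sqrt (gden w P 1 a) * hn w S P u a) := by
        gcongr
    _ ≤ 2 * (2 * (Real.sqrt (EndTh_659.cst ι) / |a.re|) * hn w S P u a) := by gcongr
    _ = KK ι / |a.re| * hn w S P u a := by unfold KK; ring

theorem hn_smul (S : Matrix ι ι ℂ) {X : Type*} (P : ℕ → X → Matrix ι ι ℂ) (x : X) (μ : ℂ)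
    (u : ι → ℂ) : hn w S P (μ • u) x = ‖μ‖ ^ 2 * hn w S P u x := by
  unfold hn
  rw [VCalc_442.sf_smul_left, VCalc_442.sf_smul_right, ← mul_assoc, Complex.star_def,
    Complex.conj_mul']
  have : ((‖μ‖ : ℂ) ^ 2) = ((‖μ‖ ^ 2 : ℝ) : ℂ) := by push_cast; rfl
  rw [this, Complex.re_ofReal_mul]



/-- compactness at `Re z₀ = -1` -/
theorem hn_base (h : VHS w (HB c ρ) S P) {ρ' : ℝ} (hρ : ρ' < ρ) : ∃ C : ℝ, 0 < C ∧
    ∀ y : Fin d → ℂ, (∀ j, ‖y j - c j‖ ≤ ρ') → ∀ u : ι → ℂ,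
      hn w S P u (Fin.cons (-1) y : Fin (d + 1) → ℂ) ≤ C * ‖u‖ ^ 2 ∧
      ‖u‖ ^ 2 ≤ C * hn w S P u (Fin.cons (-1) y : Fin (d + 1) → ℂ) := by
  set K₁ : Set (Fin d → ℂ) := Set.pi univ fun j => closedBall (c j) ρ' with hK₁
  have hK₁c : IsCompact K₁ := isCompact_univ_pi fun j => isCompact_closedBall _ _
  have hmem : ∀ y, y ∈ K₁ ↔ ∀ j, ‖y j - c j‖ ≤ ρ' := by
    intro y; simp [hK₁, dist_eq_norm]
  have hKc : IsCompact (K₁ ×ˢ sphere (0 : ι → ℂ) 1) := hK₁c.prod (isCompact_sphere _ _)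
  have hin : ∀ y ∈ K₁, (Fin.cons (-1) y : Fin (d + 1) → ℂ) ∈ HB c ρ := fun y hy =>
    cons_mem (fun j => ((hmem y).1 hy j).trans_lt hρ) (by simp)
  have hcont : ContinuousOn (fun q : (Fin d → ℂ) × (ι → ℂ) =>
      hn w S P q.2 (Fin.cons (-1) q.1 : Fin (d + 1) → ℂ)) (K₁ ×ˢ sphere (0 : ι → ℂ) 1) := by
    have h1 : ∀ i j, ContinuousOn (fun q : (Fin d → ℂ) × (ι → ℂ) =>
        hm w S P (Fin.cons (-1) q.1 : Fin (d + 1) → ℂ) i j) (K₁ ×ˢ sphere (0 : ι → ℂ) 1) := by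
      intro i j
      have h2 : ContinuousOn (fun z => hm w S P z i j) (HB c ρ) :=
        ((VCalc_442.contDiffOn_matrix.1 h.sm_hm) i j).continuousOn
      have h3 : Continuous (fun q : (Fin d → ℂ) × (ι → ℂ) =>
          (Fin.cons (-1) q.1 : Fin (d + 1) → ℂ)) := by
        refine continuous_pi fun i => ?_
        refine Fin.cases ?_ (fun j => ?_) i
        · exact continuous_const
        · exact (continuous_apply j).comp continuous_fst
      exact h2.comp h3.continuousOn fun q hq => hin q.1 hq.1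
    have h2 : (fun q : (Fin d → ℂ) × (ι → ℂ) =>
        hn w S P q.2 (Fin.cons (-1) q.1 : Fin (d + 1) → ℂ)) = fun q =>
        (∑ i, star (q.2 i) * ∑ j, hm w S P (Fin.cons (-1) q.1 : Fin (d + 1) → ℂ) i j * q.2 j).re := by
      funext q
      rfl
    rw [h2]
    refine Complex.continuous_re.comp_continuousOn ?_
    refine continuousOn_finsetSum _ fun i _ => ContinuousOn.mul ?_ ?_
    · exact (Complex.continuous_conj.comp ((continuous_apply i).comp continuous_snd)).continuousOn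
    · refine continuousOn_finsetSum _ fun j _ => (h1 i j).mul ?_
      exact ((continuous_apply j).comp continuous_snd).continuousOn
  obtain ⟨δ, hδ, hδ'⟩ := hKc.exists_forall_le' hcont (a := 0) (by
    rintro ⟨y, u⟩ ⟨hy, hu⟩
    refine h.hn_pos (hin y hy) ?_
    intro hu0
    simp only at hu0
    rw [hu0] at hu
    simp at hu)
  obtain ⟨B, hB⟩ := hKc.exists_bound_of_continuousOn hcont
  refine ⟨max (max B 1) (1 / δ), lt_of_lt_of_le one_pos ((le_max_right _ _).trans (le_max_left _ _)), ?_⟩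
  intro y hy u
  have hyK : y ∈ K₁ := (hmem y).2 hy
  have hpos := h.hn_nonneg (hin y hyK) u
  rcases eq_or_ne u 0 with rfl | hu
  · have h0 : hn w S P (0 : ι → ℂ) (Fin.cons (-1) y : Fin (d + 1) → ℂ) = 0 := by
      unfold hn; rw [VCalc_442.sf_zero_left]; simp
    rw [h0]; simp
  · have hun : 0 < ‖u‖ := norm_pos_iff.2 hu
    set v : ι → ℂ := ((‖u‖⁻¹ : ℝ) : ℂ) • u with hv
    have hvn : ‖v‖ = 1 := by
      rw [hv, norm_smul, Complex.norm_real, norm_inv, norm_norm, inv_mul_cancel₀ hun.ne']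
    have hvs : v ∈ sphere (0 : ι → ℂ) 1 := by simpa using hvn
    have hhn : hn w S P v (Fin.cons (-1) y : Fin (d + 1) → ℂ) =
        (‖u‖⁻¹) ^ 2 * hn w S P u (Fin.cons (-1) y : Fin (d + 1) → ℂ) := by
      rw [hv, hn_smul, Complex.norm_real, norm_inv, norm_norm]
    have h1 := hδ' (y, v) ⟨hyK, hvs⟩
    have h2 := hB (y, v) ⟨hyK, hvs⟩
    simp only at h1 h2
    rw [hhn] at h1 h2
    rw [Real.norm_eq_abs] at h2
    have h2' := (le_abs_self _).trans h2
    have h3 : hn w S P u (Fin.cons (-1) y : Fin (d + 1) → ℂ) = ‖u‖ ^ 2 * ((‖u‖⁻¹) ^ 2 *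
        hn w S P u (Fin.cons (-1) y : Fin (d + 1) → ℂ)) := by
      field_simp
    constructor
    · rw [h3, mul_comm (max _ _) (‖u‖ ^ 2)]
      refine mul_le_mul_of_nonneg_left (h2'.trans ((le_max_left _ _).trans (le_max_left _ _)))
        (by positivity)
    · have h4 : 1 ≤ (1 / δ) * ((‖u‖⁻¹) ^ 2 * hn w S P u (Fin.cons (-1) y : Fin (d + 1) → ℂ)) := by
        rw [one_div, ← div_eq_inv_mul, le_div_iff₀ hδ, one_mul]; exact h1
      have h5 : (1 / δ) ≤ max (max B 1) (1 / δ) := le_max_right _ _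
      calc ‖u‖ ^ 2 = ‖u‖ ^ 2 * 1 := (mul_one _).symm
        _ ≤ ‖u‖ ^ 2 * ((1 / δ) * ((‖u‖⁻¹) ^ 2 * hn w S P u (Fin.cons (-1) y : Fin (d + 1) → ℂ))) :=
            mul_le_mul_of_nonneg_left h4 (by positivity)
        _ = (1 / δ) * hn w S P u (Fin.cons (-1) y : Fin (d + 1) → ℂ) := by
            field_simp
        _ ≤ _ := mul_le_mul_of_nonneg_right h5 hpos

/-- **two sided growth of flat sections**, uniform on compact subsets of the divisor -/
theorem hn_growth (h : VHS w (HB c ρ) S P) {ρ' : ℝ} (hρ : ρ' < ρ) (M : ℝ) : ∃ (C : ℝ) (m : ℕ),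
    0 < C ∧ ∀ z : Fin (d + 1) → ℂ, (z 0).re ≤ -1 → |(z 0).im| ≤ M → (∀ j : Fin d, ‖z j.succ - c j‖ ≤ ρ') →
      ∀ u : ι → ℂ, hn w S P u z ≤ C * (- (z 0).re) ^ m * ‖u‖ ^ 2 ∧
        ‖u‖ ^ 2 ≤ C * (- (z 0).re) ^ m * hn w S P u z := by
  obtain ⟨C₀, hC₀, hbase⟩ := hn_base h hρ
  refine ⟨C₀ * Real.exp (KK ι * M), ⌈KK ι⌉₊, by positivity, ?_⟩
  intro z hz1 hzM hzy u
  have hy : ∀ j, ‖(Fin.tail z) j - c j‖ < ρ := fun j => (hzy j).trans_lt hρ
  have hz0 : z = Fin.cons (z 0) (Fin.tail z) := (Fin.cons_self_tail z).symm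
  have hl := line h hy
  have hzmem : z ∈ HB c ρ := ⟨by linarith, hy⟩
  rcases eq_or_ne u 0 with rfl | hu
  · have h0 : hn w S P (0 : ι → ℂ) z = 0 := by
      unfold hn; rw [VCalc_442.sf_zero_left]; simp
    rw [h0]; simp
  have hs1 : 1 ≤ - (z 0).re := by linarith
  have hpow : |(z 0).re| ^ (KK ι) ≤ (- (z 0).re) ^ (⌈KK ι⌉₊) := by
    rw [abs_of_nonpos (by linarith), ← Real.rpow_natCast]
    exact Real.rpow_le_rpow_of_exponent_le hs1 (Nat.le_ceil _)
  have hg := Grow_25.growth (f := hn w S (fun p a => P p (Fin.cons a (Fin.tail z) : Fin (d + 1) → ℂ)) u)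
    (K := KK ι) (M := M) KK_nonneg (fun a ha => hl.hn_pos ha hu)
    (fun a ha => ((hl.sm_hn u).contDiffAt (hl.op.mem_nhds ha)).differentiableAt (by simp))
    (fun a ha => hn_bound hl u ha) hz1 hzM
  have e1 : hn w S (fun p a => P p (Fin.cons a (Fin.tail z) : Fin (d + 1) → ℂ)) u (z 0) =
      hn w S P u z := by
    conv_rhs => rw [hz0]
    rfl
  have e2 : hn w S (fun p a => P p (Fin.cons a (Fin.tail z) : Fin (d + 1) → ℂ)) u (-1) =
      hn w S P u (Fin.cons (-1) (Fin.tail z) : Fin (d + 1) → ℂ) := rfl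
  rw [e1, e2] at hg
  obtain ⟨hb1, hb2⟩ := hbase (Fin.tail z) (fun j => hzy j) u
  have hz' := h.hn_nonneg hzmem u
  have hexp : 0 < Real.exp (KK ι * M) := Real.exp_pos _
  have hsm : 0 ≤ (- (z 0).re) ^ (⌈KK ι⌉₊) := by positivity
  constructor
  · calc hn w S P u z ≤ _ := hg.1
      _ ≤ (C₀ * ‖u‖ ^ 2) * (Real.exp (KK ι * M) * (- (z 0).re) ^ (⌈KK ι⌉₊)) := by
          refine mul_le_mul hb1 (mul_le_mul_of_nonneg_left hpow hexp.le) (by positivity) (by positivity)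
      _ = _ := by ring
  · calc ‖u‖ ^ 2 ≤ _ := hb2
      _ ≤ C₀ * (hn w S P u z * (Real.exp (KK ι * M) * (- (z 0).re) ^ (⌈KK ι⌉₊))) := by
          refine mul_le_mul_of_nonneg_left (hg.2.trans ?_) hC₀.le
          refine mul_le_mul_of_nonneg_left (mul_le_mul_of_nonneg_left hpow hexp.le) hz'
      _ = _ := by ring


end VHS

end Crest.Agent.R276.NfA_25
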