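import Mathlib
import Crest.Agent.R276.GrH_217
import Crest.Agent.R276.PosK_767
import Crest.Agent.R276.VCalcD_442
import Crest.Agent.R276.RkB_25
import Crest.Agent.R276.LevB_442
import Crest.Agent.R276.BdNf8_651
import Crest.Agent.R276.DescG_327
import Crest.Agent.R276.GrAs2_857

-- ▼ part R276/GrI_217
section

/-!
# R276, leaf COUNT-GR, part I (helper217)

`Full` from a family of normal forms, the growth bounds `g1`, `g2` and the limit metric `ψ'`.
-/

set_option autoImplicit false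
set_option linter.unusedSectionVars false

open Set Filter Topology Matrix Metric MeasureTheory
open scoped ComplexOrder ContDiff

namespace Crest.Agent.R276.GrI_217

open Crest.Agent.R271.Ho51
open Crest.Agent.R276.CntDefs_857 Crest.Agent.R276.GrF_217 Crest.Agent.R276.GrH_217

variable {ι : Type*} [Fintype ι] [DecidableEq ι] {d : ℕ}
variable {M E : Type*} [TopologicalSpace M] [RDom (d + 1) M] [MeasurableSpace M]
    {μ : Measure M} [TopologicalSpace E] [RDom d E]
variable {D : DChart M E μ} {w e : ℕ} {k : ℤ} {ψ₀ : M → ℝ}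

theorem log_inv_nonneg (D : DChart M E μ) (y : E) : 0 ≤ 1 + Real.log (1 / D.r y) := by
  have h1 : D.r y ≤ 1 := radf_le_one D.hc0 D.hc1
  have h2 : 0 ≤ Real.log (1 / D.r y) := Real.log_nonneg (by
    rw [le_div_iff₀ (r_pos D y)]
    linarith)
  linarith

/-- **assembly of `Full`** -/
theorem full_of (F : LFam ι D w e k ψ₀) (n : ℕ) {φ : M → ℝ} {ρ : ℕ} (C0 : ℝ) (ψ' : E → ℝ)
    (g1 : ∀ y, ∀ q ∈ Sh d (D.r y), D.phW φ y q ≤ C0 * (1 + Real.log (1 / D.r y)))
    (g2 : ∀ y, ∀ q ∈ Sh d (D.r y), D.psI (fun x => ((e * n : ℕ) : ℝ) * ψ₀ x) (n * k) y q ≤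
      C0 * (1 + Real.log (1 / D.r y)))
    (sm : Sm ψ') (psh : ∀ y w, 0 ≤ Levi ψ' y w)
    (rank : ∀ y : E, ∃ S : Submodule ℂ (Fin d → ℂ), d ≤ Module.finrank ℂ S + ρ ∧
      ∀ w ∈ S, Levi ψ' y w = 0)
    (tau_le : ∀ y, F.tau n y ≤ ψ' y + C0) :
    Nonempty (Full D φ (fun x => ((e * n : ℕ) : ℝ) * ψ₀ x) (n * k) ρ) := by
  set C : ℝ := max (max 1 C0) (max (LFam.CL ι e n) (LFam.Cl ι D e n)) with hC
  have hC1 : 1 ≤ C := (le_max_left _ _).trans (le_max_left _ _)
  have hC0 : C0 ≤ C := (le_max_right _ _).trans (le_max_left _ _)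
  have hCL : LFam.CL ι e n ≤ C := (le_max_left _ _).trans (le_max_right _ _)
  have hCl : LFam.Cl ι D e n ≤ C := (le_max_right _ _).trans (le_max_right _ _)
  refine ⟨⟨C, hC1, F.tau n, ψ', ?_, ?_, ?_, ?_, sm, psh, rank, ?_⟩⟩
  · intro y q hq
    exact (g1 y q hq).trans (mul_le_mul_of_nonneg_right hC0 (log_inv_nonneg D y))
  · intro y q hq
    exact (g2 y q hq).trans (mul_le_mul_of_nonneg_right hC0 (log_inv_nonneg D y))
  · intro y
    obtain ⟨Λ, h1, h2, h3⟩ := F.Lam n y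
    refine ⟨Λ, h1, fun q hq => (h2 q hq).trans ?_, h3.trans ?_⟩
    · exact mul_le_mul_of_nonneg_right hCL (Real.exp_pos _).le
    · exact mul_le_mul_of_nonneg_right hC1 (sq_nonneg _)
  · intro y
    obtain ⟨l, h1, h2, h3⟩ := F.lam n y
    refine ⟨l, h1, fun g hg hy hgt y' hy' hd => (h2 g hg hy hgt y' hy' hd).trans ?_, h3.trans ?_⟩
    · exact mul_le_mul_of_nonneg_right hCl (Real.exp_pos _).le
    · exact mul_le_mul_of_nonneg_right hC1 (sq_nonneg _)
  · intro y
    exact (tau_le y).trans (by linarith)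

end Crest.Agent.R276.GrI_217
end

-- ▼ part R276/GrJ_217
section

/-!
# R276, leaf COUNT-GR, part J (helper217)

The logarithm of the limit metric is superharmonic on discs in the divisor, hence `-log c_k` is
plurisubharmonic.
-/

set_option autoImplicit false
set_option linter.unusedSectionVars false

open Set Filter Topology Metric Complex MeasureTheory Real
open scoped ContDiff ComplexConjugate Nat

noncomputable section

namespace Crest.Agent.R276.GrJ_217

open Crest.Agent.R276.Bdy_767 Crest.Agent.R276.VCalc_442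

/-- elementary -/
theorem abs_log_sub_le {x c ε : ℝ} (hc : 0 < c) (hε : 0 < ε) (hε1 : ε ≤ 1)
    (h : |x - c| ≤ c * (ε / 2)) : |Real.log x - Real.log c| ≤ ε := by
  obtain ⟨h1, h2⟩ := abs_le.1 h
  have hx : 0 < x := by nlinarith
  have a1 : Real.log x - Real.log c ≤ ε := by
    rw [← Real.log_div hx.ne' hc.ne']
    refine (Real.log_le_sub_one_of_pos (div_pos hx hc)).trans ?_
    rw [div_sub_one hc.ne', div_le_iff₀ hc]
    nlinarith
  have a2 : Real.log c - Real.log x ≤ ε := by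
    rw [← Real.log_div hc.ne' hx.ne']
    refine (Real.log_le_sub_one_of_pos (div_pos hc hx)).trans ?_
    rw [div_sub_one hx.ne', div_le_iff₀ hx]
    nlinarith
  rw [abs_le]
  constructor <;> linarith

section super

variable {V : Type*} [NormedAddCommGroup V] [NormedSpace ℂ V] [CompleteSpace V]
variable {E : Type*} [NormedAddCommGroup E] [NormedSpace ℂ E]
variable {S : V →L⋆[ℂ] V →L[ℂ] ℂ} {N : V →L[ℂ] V} {r : ℝ} {U : Set E} {f : ℂ × E → V}

/-- **the logarithm of the limit metric is superharmonic** -/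
theorem log_cc_super (h : Bd S N r U f) (hY : YD S N U f) {k : ℕ}
    (hk : ∀ j, k < j → ∀ y ∈ U, S (f (0, y)) ((KK N ^ j) (f (0, y))) = 0)
    (hpos : ∀ y ∈ U, 0 < cc S N f k (0, y)) {y0 v : E}
    (hd : ∀ ζ ∈ closedBall (0 : ℂ) 1, y0 + ζ • v ∈ U) :
    circleAverage (fun ζ => Real.log (cc S N f k (0, y0 + ζ • v))) 0 1 ≤
      Real.log (cc S N f k (0, y0)) := by
  set γ : ℂ → E := fun ζ => y0 + ζ • v with hγ
  have hγc : Continuous γ := by fun_prop
  set Q : Set E := γ '' closedBall (0 : ℂ) 1 with hQ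
  have hQc : IsCompact Q := (isCompact_closedBall 0 1).image hγc
  have hQU : Q ⊆ U := by
    rintro _ ⟨ζ, hζ, rfl⟩
    exact hd ζ hζ
  have hy0 : y0 ∈ U := by
    have := hd 0 (mem_closedBall_self zero_le_one)
    simpa using this
  have hccc : ContinuousOn (fun y : E => cc S N f k (0, y)) U := by
    refine (cc_continuousOn h.an.continuousOn k).comp (by fun_prop) ?_
    intro y hy
    exact ⟨mem_ball_self h.hr, hy⟩
  obtain ⟨m, hm0, hm⟩ : ∃ m > 0, ∀ y ∈ Q, m ≤ cc S N f k (0, y) := by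
    obtain ⟨y1, hy1, hmin⟩ := hQc.exists_isMinOn ⟨y0, 0, mem_closedBall_self zero_le_one, by
      simp [hγ]⟩ (hccc.mono hQU)
    exact ⟨_, hpos y1 (hQU hy1), fun y hy => hmin hy⟩
  have hball : ∀ ζ ∈ sphere (0 : ℂ) |1|, γ ζ ∈ Q := fun ζ hζ => by
    rw [abs_one] at hζ
    exact ⟨ζ, sphere_subset_closedBall hζ, rfl⟩
  have hcont1 : ContinuousOn (fun ζ : ℂ => Real.log (cc S N f k (0, γ ζ))) (sphere 0 |1|) := by
    refine ContinuousOn.log ?_ (fun ζ hζ => (hpos _ (hQU (hball ζ hζ))).ne')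
    exact hccc.comp hγc.continuousOn fun ζ hζ => hQU (hball ζ hζ)
  have hint1 : CircleIntegrable (fun ζ : ℂ => Real.log (cc S N f k (0, γ ζ))) 0 1 :=
    hcont1.circleIntegrable'
  refine le_of_forall_pos_le_add fun δ hδ => ?_
  set ε : ℝ := min 1 (δ / 2) with hε
  have hε0 : 0 < ε := lt_min one_pos (by linarith)
  have hε1 : ε ≤ 1 := min_le_left _ _
  have hε2 : ε ≤ δ / 2 := min_le_right _ _
  obtain ⟨A, hA⟩ := tendsto_unif h hk hQc hQU (ε := m * (ε / 2)) (by positivity)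
  obtain ⟨c', -, A', s0, hs0⟩ := hY.mg Q hQU hQc
  obtain ⟨s1, -, hs1⟩ := exp_small h
  obtain ⟨C, s2, hs2⟩ := hY.disc y0 v hd
  set s : ℝ := max (max 1 (-A + 1)) (max s0 (max s1 s2)) with hs
  have e1 : 1 ≤ s := (le_max_left _ _).trans (le_max_left _ _)
  have e2 : -A + 1 ≤ s := (le_max_right _ _).trans (le_max_left _ _)
  have e3 : s0 ≤ s := (le_max_left _ _).trans (le_max_right _ _)
  have e4 : s1 ≤ s := (le_max_left _ _).trans ((le_max_right _ _).trans (le_max_right _ _))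
  have e5 : s2 ≤ s := (le_max_right _ _).trans ((le_max_right _ _).trans (le_max_right _ _))
  have hsp : 0 < s := by linarith
  have key : ∀ y ∈ Q, |(Real.log (hh S N f s y) - k * Real.log s) -
      Real.log (cc S N f k (0, y))| ≤ ε := by
    intro y hy
    have h1 := hA (-(s : ℂ)) (by simp; linarith) y hy
    rw [Bdy_767.neg_re] at h1
    have h2 : |hh S N f s y / s ^ k - cc S N f k (0, y)| ≤ cc S N f k (0, y) * (ε / 2) := by
      refine le_trans h1 ?_
      have := hm y hy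
      gcongr
    have h3 := abs_log_sub_le (hpos y (hQU hy)) hε0 hε1 h2
    rw [Real.log_div (hs0 s e3 y hy).1.ne' (pow_pos hsp k).ne', Real.log_pow] at h3
    exact h3
  have hexp := (hs1 s e4)
  have hcont2 : ContinuousOn (fun ζ : ℂ => Real.log (hh S N f s (γ ζ)) - k * Real.log s)
      (sphere 0 |1|) := by
    refine ContinuousOn.sub ?_ continuousOn_const
    refine ContinuousOn.log ?_ (fun ζ hζ => (hs0 s e3 _ (hball ζ hζ)).1.ne')
    refine (hh_continuousOn h (s := s) ?_).comp hγc.continuousOn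
      fun ζ hζ => hQU (hball ζ hζ)
    have := h.hr
    linarith [hexp.2]
  have hint2 : CircleIntegrable (fun ζ : ℂ => Real.log (hh S N f s (γ ζ)) - k * Real.log s) 0 1 :=
    hcont2.circleIntegrable'
  have hint3 : CircleIntegrable (fun ζ : ℂ => Real.log (hh S N f s (γ ζ))) 0 1 := by
    refine ContinuousOn.circleIntegrable' ?_
    have := hcont2.add (continuousOn_const (c := k * Real.log s))
    refine this.congr fun ζ _ => ?_
    simp
  have m1 : circleAverage (fun ζ => Real.log (cc S N f k (0, γ ζ))) 0 1 ≤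
      circleAverage (fun ζ => (Real.log (hh S N f s (γ ζ)) - k * Real.log s) + ε) 0 1 := by
    refine Real.circleAverage_mono hint1 (hint2.add (circleIntegrable_const ε 0 1)) ?_
    intro ζ hζ
    have := (abs_le.1 (key _ (hball ζ hζ))).1
    linarith
  have m2 : circleAverage (fun ζ => (Real.log (hh S N f s (γ ζ)) - k * Real.log s) + ε) 0 1 =
      circleAverage (fun ζ => Real.log (hh S N f s (γ ζ))) 0 1 + (ε - k * Real.log s) := by
    have h1 : (fun ζ => (Real.log (hh S N f s (γ ζ)) - k * Real.log s) + ε) =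
        fun ζ => Real.log (hh S N f s (γ ζ)) + (ε - k * Real.log s) := by
      funext ζ; ring
    rw [h1, Real.circleAverage_fun_add hint3 (circleIntegrable_const _ 0 1),
      Real.circleAverage_const]
  have m3 := (hs2 s e5).1
  have m4 := (abs_le.1 (key y0 ⟨0, mem_closedBall_self zero_le_one, by simp [hγ]⟩)).2
  have m5 : circleAverage (fun ζ => Real.log (hh S N f s (γ ζ))) 0 1 ≤ Real.log (hh S N f s y0) := m3
  linarith

end super

section lap

variable {X : Type*} [NormedAddCommGroup X] [NormedSpace ℂ X]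

/-- `C²` and superharmonic on small discs ==> the Levi form is nonpositive -/
theorem levi_nonpos {f : X → ℝ} {U : Set X} (hU : IsOpen U) (hf : ContDiffOn ℝ ∞ f U) {x : X}
    (hx : x ∈ U) (v : X)
    (hs : ∀ w : X, (∀ ζ ∈ closedBall (0 : ℂ) 1, x + ζ • w ∈ U) →
      circleAverage (fun ζ => f (x + ζ • w)) 0 1 ≤ f x) :
    (dB (dW (cx f) v) v x).re ≤ 0 := by
  by_contra hpos
  rw [not_le] at hpos
  set δ : ℝ := (dB (dW (cx f) v) v x).re / 2 with hδ
  have hδ0 : 0 < δ := by positivity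
  have hcf : ContDiffOn ℝ ∞ (cx f) U := Complex.ofRealCLM.contDiff.comp_contDiffOn hf
  have h1 := contDiffOn_dB hU (contDiffOn_dW hU hcf v) v
  have h2 : ContinuousAt (fun y => (dB (dW (cx f) v) v y).re) x :=
    Complex.continuous_re.continuousAt.comp (h1.continuousOn.continuousAt (hU.mem_nhds hx))
  have h3 : ∀ᶠ y in 𝓝 x, y ∈ U ∧ δ ≤ (dB (dW (cx f) v) v y).re := by
    have a1 : ∀ᶠ y in 𝓝 x, y ∈ U := hU.mem_nhds hx
    have a2 : ∀ᶠ y in 𝓝 x, δ < (dB (dW (cx f) v) v y).re :=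
      h2.eventually (lt_mem_nhds (by rw [hδ]; linarith))
    filter_upwards [a1, a2] with y h1 h2
    exact ⟨h1, h2.le⟩
  have hc : Continuous fun p : ℝ × ℂ => x + p.2 • ((p.1 : ℂ) • v) := by fun_prop
  -- a uniform radius
  obtain ⟨η, hη, hηb⟩ := Metric.eventually_nhds_iff_ball.1 h3
  obtain ⟨ρ, hρ0, hρ⟩ : ∃ ρ : ℝ, 0 < ρ ∧ ρ * ‖v‖ < η := by
    refine ⟨η / (2 * (‖v‖ + 1)), by positivity, ?_⟩
    rw [div_mul_eq_mul_div, div_lt_iff₀ (by positivity)]
    have := norm_nonneg v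
    nlinarith
  have hmem : ∀ ζ ∈ closedBall (0 : ℂ) 1, x + ζ • ((ρ : ℂ) • v) ∈ ball x η := by
    intro ζ hζ
    rw [mem_closedBall_zero_iff] at hζ
    rw [mem_ball, dist_eq_norm, add_sub_cancel_left, norm_smul, norm_smul, Complex.norm_real,
      Real.norm_of_nonneg hρ0.le]
    calc ‖ζ‖ * (ρ * ‖v‖) ≤ 1 * (ρ * ‖v‖) := by gcongr
      _ = ρ * ‖v‖ := one_mul _
      _ < η := hρ
  have h4 := hs ((ρ : ℂ) • v) fun ζ hζ => (hηb _ (hmem ζ hζ)).1
  have hC2 : ∀ y ∈ U, ContDiffAt ℝ 2 f y := fun y hy =>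
    (hf.contDiffAt (hU.mem_nhds hy)).of_le ENat.LEInfty.out
  have h5 := Crest.Agent.R275.FL884.le_circleAverage_of_contDiffAt
    (ψ := fun ζ : ℂ => f (x + ζ • ((ρ : ℂ) • v))) (c := -(ρ ^ 2 * δ)) (by
      intro ζ hζ
      have h6 : ContDiffAt ℝ 2 f (x + ζ • ((ρ : ℂ) • v)) := hC2 _ (hηb _ (hmem ζ hζ)).1
      have h7 : ContDiff ℝ 2 (fun ζ : ℂ => x + ζ • ((ρ : ℂ) • v)) := by
        refine contDiff_const.add (contDiff_id.smul contDiff_const)
      exact h6.comp ζ h7.contDiffAt) (by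
      intro ζ hζ
      have h6 : ContDiffAt ℝ 2 f (x + ζ • ((ρ : ℂ) • v)) := hC2 _ (hηb _ (hmem ζ hζ)).1
      have h7 := lap_line (f := f) (z := x) (v := (ρ : ℂ) • v) (ζ := ζ) h6
      rw [Ahl_25.lap_eq] at h7
      rw [h7]
      have h8 : (dB (dW (cx f) ((ρ : ℂ) • v)) ((ρ : ℂ) • v) (x + ζ • ((ρ : ℂ) • v))).re =
          ρ ^ 2 * (dB (dW (cx f) v) v (x + ζ • ((ρ : ℂ) • v))).re := by
        have e1 : dW (cx f) ((ρ : ℂ) • v) = fun y => (ρ : ℂ) • dW (cx f) v y := by
          funext y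
          exact dW_smul_dir _ _ _ _
        have e2 : DifferentiableAt ℝ (dW (cx f) v) (x + ζ • ((ρ : ℂ) • v)) :=
          diffAt hU (contDiffOn_dW hU hcf v) (hηb _ (hmem ζ hζ)).1
        rw [e1, dB_const_smul _ e2, dB_smul_dir]
        simp only [smul_eq_mul, Complex.conj_ofReal]
        rw [← mul_assoc, ← Complex.ofReal_mul, Complex.re_ofReal_mul]
        ring
      rw [h8]
      have h9 := (hηb _ (hmem ζ hζ)).2
      have h10 : ρ ^ 2 * δ ≤ ρ ^ 2 * (dB (dW (cx f) v) v (x + ζ • ((ρ : ℂ) • v))).re := by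
        gcongr
      linarith)
  have h6 : 0 < ρ ^ 2 * δ := by positivity
  simp only [zero_smul, add_zero] at h5
  linarith

end lap

end Crest.Agent.R276.GrJ_217
end
end

-- ▼ part R276/GrK_217
section

/-!
# R276, leaf COUNT-GR, part K (helper217)

The limit metric `ψ'` on the divisor (smooth, plurisubharmonic, rank, `τ ≤ ψ' + C`) from a family of
normal forms; `Full`.
-/

set_option autoImplicit false
set_option linter.unusedSectionVars false

open Set Filter Topology Matrix Metric MeasureTheory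
open scoped ComplexOrder ContDiff ComplexConjugate Nat

noncomputable section

namespace Crest.Agent.R276.GrK_217

open Crest.Agent.R271.Ho51
open Crest.Agent.R276.VCalc_442 Crest.Agent.R276.GrA_217
open Crest.Agent.R276.GrB_217 Crest.Agent.R276.GrC_217 Crest.Agent.R276.GrC_217.LCh
open Crest.Agent.R276.GrE_217 Crest.Agent.R276.GrG_217
open Crest.Agent.R276.CntDefs_857 Crest.Agent.R276.GrF_217 Crest.Agent.R276.GrH_217
open Crest.Agent.R276.Bdy_767 Crest.Agent.R276.RkA_25 Crest.Agent.R276.BdNf4_651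

variable {ι : Type*} [Fintype ι] [DecidableEq ι] {d : ℕ}

theorem sf_smul_smul (S : Matrix ι ι ℂ) (c : ℂ) (hc : ‖c‖ = 1) (u v : ι → ℂ) :
    VCalc_442.sf S (c • u) (c • v) = VCalc_442.sf S u v := by
  unfold VCalc_442.sf
  rw [Matrix.mulVec_smul, star_smul, smul_dotProduct, dotProduct_smul, smul_smul]
  have h1 : star c * c = 1 := by
    rw [Complex.star_def, Complex.conj_mul', hc]
    norm_num
  rw [h1, one_smul]

theorem KK_Nm (L : Matrix ι ι ℂ) (j : ℕ) (u : ι → ℂ) :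
    (KK (Nm L) ^ j) u = Complex.I ^ j • (L ^ j *ᵥ u) := by
  rw [KK, smul_pow]
  show Complex.I ^ j • ((Nm L) ^ j) u = _
  rw [Nm_pow]

theorem SS_KK (w : ℕ) (S L : Matrix ι ι ℂ) (j : ℕ) (u : ι → ℂ) :
    SS w S u ((KK (Nm L) ^ j) u) = Complex.I ^ j * ((-1 : ℂ) ^ w * VCalc_442.sf S u (L ^ j *ᵥ u)) := by
  rw [KK_Nm, map_smul, SS_apply, smul_eq_mul]

theorem pow_comm' {L L' A : Matrix ι ι ℂ} (h : L' * A = A * L) (j : ℕ) :
    L' ^ j * A = A * L ^ j := by
  induction j with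
  | zero => simp
  | succ n ih => rw [pow_succ, mul_assoc, h, ← mul_assoc, ih, mul_assoc, pow_succ]

/-- invariance of the coefficients under the transition -/
theorem sf_trans {S S' L L' A : Matrix ι ι ℂ} {c : ℂ} (hc : ‖c‖ = 1) (hS : Aᴴ * S' * A = S)
    (hL : L' * A = A * L) (j : ℕ) (g : ι → ℂ) :
    VCalc_442.sf S' (c • (A *ᵥ g)) (L' ^ j *ᵥ (c • (A *ᵥ g))) =
      VCalc_442.sf S g (L ^ j *ᵥ g) := by
  have h1 : L' ^ j *ᵥ (A *ᵥ g) = A *ᵥ (L ^ j *ᵥ g) := by
    rw [Matrix.mulVec_mulVec, pow_comm' hL, ← Matrix.mulVec_mulVec]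
  rw [Matrix.mulVec_smul, sf_smul_smul S' c hc, h1]
  unfold VCalc_442.sf
  rw [Matrix.star_mulVec, ← Matrix.dotProduct_mulVec, Matrix.mulVec_mulVec _ S' A,
    Matrix.mulVec_mulVec _ Aᴴ, ← Matrix.mul_assoc, hS]

variable {M E : Type*} [TopologicalSpace M] [RDom (d + 1) M] [MeasurableSpace M]
    {μ : Measure M} [TopologicalSpace E] [RDom d E]
variable {D : DChart M E μ} {w e : ℕ} {k : ℤ} {ψ₀ : M → ℝ}

/-- the chart of `E` over the ball of radius `D.r y` -/
theorem exists_ev (D : DChart M E μ) (y : E) : ∃ g : OpenPartialHomeomorph E (Fin d → ℂ),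
    IsCh g ∧ y ∈ g.source ∧ g.target = ball (cp y) (D.r y) := by
  have hr := r_pos D y
  obtain ⟨s, hs1, -, hs3⟩ := D.cov.ev (cp y) (D.r y) hr (D.hball y)
  have h1 : y ∈ (cp ⁻¹' ball (cp y) (D.r y) : Set E) := mem_ball_self hr
  rw [hs3, mem_iUnion] at h1
  obtain ⟨i, hi⟩ := h1
  exact ⟨s i, (hs1 i).1, hi, (hs1 i).2⟩

/-- abbreviation: the limit coefficient at the point `v` of the chart at `y` -/
def cy' (F : LFam ι D w e k ψ₀) (y : E) (m : ℕ) (v : Fin d → ℂ) : ℝ :=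
  cc (SS w (F.S y)) (Nm (F.L y)) (fr (F.f y)) m (0, v)

/-- the forms at `v` -/
def sy (F : LFam ι D w e k ψ₀) (y : E) (j : ℕ) (v : Fin d → ℂ) : ℂ :=
  SS w (F.S y) (fr (F.f y) (0, v)) ((KK (Nm (F.L y)) ^ j) (fr (F.f y) (0, v)))

theorem cy_eq (F : LFam ι D w e k ψ₀) (y : E) (m : ℕ) (v : Fin d → ℂ) :
    cy' F y m v = (Real.pi ^ m * (m ! : ℝ))⁻¹ * (sy F y m v).re := rfl

theorem fr_zero (F : LFam ι D w e k ψ₀) (y : E) : fr (F.f y) (0, 0) = F.f y 0 := by
  unfold fr
  rw [LFam.cons_zero_zero]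

section main

variable (F : LFam ι D w e k ψ₀)
  (hcy : ∀ y, Cy w (GrB_217.HB d (Real.log (D.r y)) (D.r y)) (F.P y) (F.Om y))

include hcy in
theorem exists_kap (y : E) : ∃ m : ℕ,
    (∀ j, m < j → ∀ v ∈ ball (0 : Fin d → ℂ) (D.r y), sy F y j v = 0) ∧
    ∀ v ∈ ball (0 : Fin d → ℂ) (D.r y), 0 < cy' F y m v := by
  obtain ⟨m, h1, h2, -⟩ := RkB_25.main (F.lch y) (hcy y) ⟨0, fun j => by
    simpa using r_pos D y, by rw [LFam.cons_zero_zero]; exact F.f0 y⟩
  exact ⟨m, h1, h2⟩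

/-- the exponent -/
def kap (y : E) : ℕ := (exists_kap F hcy y).choose

theorem kap_zero (y : E) {j : ℕ} (hj : kap F hcy y < j) {v : Fin d → ℂ}
    (hv : v ∈ ball (0 : Fin d → ℂ) (D.r y)) : sy F y j v = 0 :=
  (exists_kap F hcy y).choose_spec.1 j hj v hv

theorem kap_pos (y : E) {v : Fin d → ℂ} (hv : v ∈ ball (0 : Fin d → ℂ) (D.r y)) :
    0 < cy' F y (kap F hcy y) v :=
  (exists_kap F hcy y).choose_spec.2 v hv

theorem kap_ne (y : E) {v : Fin d → ℂ} (hv : v ∈ ball (0 : Fin d → ℂ) (D.r y)) :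
    sy F y (kap F hcy y) v ≠ 0 := by
  intro h0
  have := kap_pos F hcy y hv
  rw [cy_eq, h0, Complex.zero_re, mul_zero] at this
  exact lt_irrefl _ this

theorem zero_mem (y : E) : (0 : Fin d → ℂ) ∈ ball (0 : Fin d → ℂ) (D.r y) :=
  mem_ball_self (r_pos D y)

/-- transition of the coefficients -/
theorem sy_trans {y y' : E} {g : OpenPartialHomeomorph E (Fin d → ℂ)} (hg : IsCh g)
    (hy : y ∈ g.source) (hgt : g.target = ball (cp y) (D.r y)) (hy' : y' ∈ g.source)
    (hd : ‖(cp y' : Fin d → ℂ) - cp y‖ < D.r y / 2) (j : ℕ) :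
    sy F y' j 0 = sy F y j (cp y' - cp y) := by
  obtain ⟨A, c, ht⟩ := F.tr y g hg hy hgt y' hy' hd
  have hr := r_pos D y
  have hv : ∀ i, ‖((cp y' : Fin d → ℂ) - cp y) i‖ < D.r y := fun i =>
    (norm_le_pi_norm ((cp y' : Fin d → ℂ) - cp y) i).trans_lt (by linarith)
  have h1 := ht.f_eq (F.lch y) (F.lch y') hv
  unfold sy
  rw [SS_KK, SS_KK, fr_zero, h1, sf_trans ht.hc ht.S_eq ht.L_eq]
  rfl

theorem kap_eq {y y' : E} {g : OpenPartialHomeomorph E (Fin d → ℂ)} (hg : IsCh g)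
    (hy : y ∈ g.source) (hgt : g.target = ball (cp y) (D.r y)) (hy' : y' ∈ g.source)
    (hd : ‖(cp y' : Fin d → ℂ) - cp y‖ < D.r y / 2) : kap F hcy y' = kap F hcy y := by
  have hr := r_pos D y
  have hv : (cp y' : Fin d → ℂ) - cp y ∈ ball (0 : Fin d → ℂ) (D.r y) := by
    rw [mem_ball_zero_iff]
    linarith
  rcases lt_trichotomy (kap F hcy y') (kap F hcy y) with h | h | h
  · exfalso
    have h1 := kap_zero F hcy y' h (zero_mem y')
    rw [sy_trans F hg hy hgt hy' hd] at h1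
    exact kap_ne F hcy y hv h1
  · exact h
  · exfalso
    have h1 := kap_zero F hcy y h hv
    rw [← sy_trans F hg hy hgt hy' hd] at h1
    exact kap_ne F hcy y' (zero_mem y') h1

/-- **the limit weight** -/
def psi' (n : ℕ) (y : E) : ℝ := -(((e * n : ℕ) : ℝ) * Real.log (cy' F y (kap F hcy y) 0))

/-- local formula -/
theorem psi'_loc (n : ℕ) {y y' : E} {g : OpenPartialHomeomorph E (Fin d → ℂ)} (hg : IsCh g)
    (hy : y ∈ g.source) (hgt : g.target = ball (cp y) (D.r y)) (hy' : y' ∈ g.source)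
    (hd : ‖(cp y' : Fin d → ℂ) - cp y‖ < D.r y / 2) :
    psi' F hcy n y' = -(((e * n : ℕ) : ℝ) *
      Real.log (cy' F y (kap F hcy y) (cp y' - cp y))) := by
  unfold psi'
  rw [kap_eq F hcy hg hy hgt hy' hd, cy_eq, cy_eq, sy_trans F hg hy hgt hy' hd]

/-- the function `log c_k` in the coordinates of the chart -/
def lc (y : E) (z : Fin d → ℂ) : ℝ := Real.log (cy' F y (kap F hcy y) (z - cp y))

/-- smoothness of the coefficients -/
theorem cc_smooth {V X : Type*} [NormedAddCommGroup V] [NormedSpace ℂ V] [CompleteSpace V]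
    [NormedAddCommGroup X] [NormedSpace ℂ X] [FiniteDimensional ℂ X]
    {S : V →L⋆[ℂ] V →L[ℂ] ℂ} {N : V →L[ℂ] V} {r : ℝ} {U : Set X} {f : ℂ × X → V}
    (h : Bd S N r U f) (m : ℕ) :
    ContDiffOn ℝ ∞ (fun v : X => cc S N f m (0, v)) U := by
  intro v hv
  refine ContDiffAt.contDiffWithinAt ?_
  have h1 : ContDiffAt ℝ ∞ (fun v : X => f (0, v)) v :=
    ((an_f0 h hv).contDiffAt (n := ∞)).restrict_scalars ℝ
  have h2 : ContDiffAt ℝ ∞ (fun v : X => (KK N ^ m) (f (0, v))) v :=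
    ((KK N ^ m).restrictScalars ℝ).contDiff.contDiffAt.comp v h1
  have h3 : ContDiffAt ℝ ∞ (fun v : X => (SR S (f (0, v))) ((KK N ^ m) (f (0, v)))) v :=
    ((SR S).contDiff.contDiffAt.comp v h1).clm_apply h2
  have h4 : ContDiffAt ℝ ∞ (fun v : X => (SR S (f (0, v)) ((KK N ^ m) (f (0, v)))).re) v :=
    Complex.reCLM.contDiff.contDiffAt.comp v h3
  exact contDiffAt_const.mul h4

theorem lc_smooth (y : E) : ContDiffOn ℝ ∞ (lc F hcy y) (ball (cp y) (D.r y)) := by
  have h1 := cc_smooth (bd (F.lch y)) (kap F hcy y)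
  have h2 : ContDiffOn ℝ ∞ (fun z : Fin d → ℂ => cy' F y (kap F hcy y) (z - cp y))
      (ball (cp y) (D.r y)) := by
    refine h1.comp (t := ball 0 (D.r y)) (g := fun v => cc (SS w (F.S y)) (Nm (F.L y)) (fr (F.f y))
      (kap F hcy y) (0, v)) (f := fun z => z - cp y)
      (contDiff_id.sub contDiff_const).contDiffOn ?_
    intro z hz
    rwa [mem_ball_zero_iff, ← dist_eq_norm]
  refine ContDiffOn.log h2 fun z hz => ?_
  refine (kap_pos F hcy y (v := z - cp y) ?_).ne'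
  rwa [mem_ball_zero_iff, ← dist_eq_norm]

theorem germ (n : ℕ) (y : E) {g : OpenPartialHomeomorph E (Fin d → ℂ)} (hg : IsCh g)
    (hy : y ∈ g.source) (hgt : g.target = ball (cp y) (D.r y)) :
    psi' F hcy n ∘ g.symm =ᶠ[𝓝 (cp y)] fun z => -(((e * n : ℕ) : ℝ) * lc F hcy y z) := by
  have hr := r_pos D y
  filter_upwards [ball_mem_nhds (cp y : Fin d → ℂ) (half_pos hr)] with z hz
  have hz' : z ∈ g.target := by
    rw [hgt]
    exact ball_subset_ball (by linarith) hz
  have h1 : (cp (g.symm z) : Fin d → ℂ) = z := hg.cp_symm hz'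
  have h2 : g.symm z ∈ g.source := g.map_target hz'
  rw [Function.comp_apply, psi'_loc F hcy n hg hy hgt h2 (by
    rw [h1, ← dist_eq_norm]; exact hz), h1]
  rfl

/-- **`Full.sm`** -/
theorem psi'_sm (n : ℕ) : Sm (psi' F hcy n) := by
  intro y
  obtain ⟨g, hg, hy, hgt⟩ := exists_ev D y
  have h1 := germ F hcy n y hg hy hgt
  have h2 := comp_germ (isCh_ch y) hg (mem_ch y) hy (psi' F hcy n)
  have h3 : ContDiffAt ℝ ∞ (fun z => -(((e * n : ℕ) : ℝ) * lc F hcy y z)) (cp y) :=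
    (contDiffAt_const.mul ((lc_smooth F hcy y).contDiffAt
      (ball_mem_nhds _ (r_pos D y)))).neg
  exact h3.congr_of_eventuallyEq (h2.trans h1)

theorem levi_psi' (n : ℕ) (y : E) (v : Fin d → ℂ) :
    Levi (psi' F hcy n) y v = -(((e * n : ℕ) : ℝ) *
      (dB (dW (cx (lc F hcy y)) v) v (cp y)).re) := by
  obtain ⟨g, hg, hy, hgt⟩ := exists_ev D y
  have h1 := germ F hcy n y hg hy hgt
  have hU : IsOpen (ball (cp y : Fin d → ℂ) (D.r y)) := isOpen_ball
  have hm : (cp y : Fin d → ℂ) ∈ ball (cp y : Fin d → ℂ) (D.r y) := mem_ball_self (r_pos D y)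
  have h3 : ContDiffAt ℝ ∞ (fun z => -(((e * n : ℕ) : ℝ) * lc F hcy y z)) (cp y) :=
    (contDiffAt_const.mul ((lc_smooth F hcy y).contDiffAt (hU.mem_nhds hm))).neg
  have h4 : ContDiffAt ℝ 2 (psi' F hcy n ∘ g.symm) (cp y) :=
    (h3.congr_of_eventuallyEq h1).of_le ENat.LEInfty.out
  rw [LevB_442.levi_eq hg hy h4]
  have hcx : ContDiffOn ℝ ∞ (cx (lc F hcy y)) (ball (cp y : Fin d → ℂ) (D.r y)) :=
    Complex.ofRealCLM.contDiff.comp_contDiffOn (lc_smooth F hcy y)
  have e1 : cx (psi' F hcy n ∘ g.symm) =ᶠ[𝓝 (cp y)]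
      fun z => (-((e * n : ℕ) : ℂ)) • cx (lc F hcy y) z := by
    filter_upwards [h1] with z hz
    unfold cx
    rw [hz]
    push_cast
    simp only [smul_eq_mul]
    ring
  have e2 : dW (cx (psi' F hcy n ∘ g.symm)) v =ᶠ[𝓝 (cp y)]
      fun z => (-((e * n : ℕ) : ℂ)) • dW (cx (lc F hcy y)) v z := by
    filter_upwards [e1.eventuallyEq_nhds, hU.mem_nhds hm] with z hz hzU
    rw [dW_congr hz, dW_const_smul _ (diffAt hU hcx hzU)]
  rw [dB_congr e2, dB_const_smul _ (diffAt hU (contDiffOn_dW hU hcx v) hm), smul_eq_mul]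
  have : (-((e * n : ℕ) : ℂ)) = ((-((e * n : ℕ) : ℝ) : ℝ) : ℂ) := by push_cast; ring
  rw [this, Complex.re_ofReal_mul]
  ring

/-- **`Full.psh`** -/
theorem psi'_psh (n : ℕ) (y : E) (v : Fin d → ℂ) : 0 ≤ Levi (psi' F hcy n) y v := by
  rw [levi_psi']
  have hm : (cp y : Fin d → ℂ) ∈ ball (cp y : Fin d → ℂ) (D.r y) := mem_ball_self (r_pos D y)
  have h1 := GrJ_217.levi_nonpos isOpen_ball (lc_smooth F hcy y) hm v (by
    intro v' hv'
    have h2 := GrJ_217.log_cc_super (bd (F.lch y)) (RkB_25.yd (F.lch y) (hcy y))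
      (k := kap F hcy y) (fun j hj v hv => kap_zero F hcy y hj hv)
      (fun v hv => kap_pos F hcy y hv) (y0 := 0) (v := v') (by
        intro ζ hζ
        have := hv' ζ hζ
        rw [mem_ball, dist_eq_norm, add_sub_cancel_left] at this
        rwa [mem_ball_zero_iff, zero_add])
    have h3 : (fun ζ : ℂ => lc F hcy y (cp y + ζ • v')) =
        fun ζ => Real.log (cc (SS w (F.S y)) (Nm (F.L y)) (fr (F.f y)) (kap F hcy y)
          (0, 0 + ζ • v')) := by
      funext ζ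
      unfold lc cy'
      rw [add_sub_cancel_left, zero_add]
    have h4 : lc F hcy y (cp y) = Real.log (cc (SS w (F.S y)) (Nm (F.L y)) (fr (F.f y))
        (kap F hcy y) (0, 0)) := by
      unfold lc cy'
      rw [sub_self]
    rw [h3, h4]
    exact h2)
  have h5 : (0 : ℝ) ≤ ((e * n : ℕ) : ℝ) := Nat.cast_nonneg _
  nlinarith [mul_le_mul_of_nonneg_left h1 h5]

/-- the exponent is bounded -/
theorem kap_lt (y : E) : kap F hcy y ≤ Fintype.card ι := by
  by_contra hlt
  push Not at hlt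
  have h1 := kap_ne F hcy y (zero_mem y)
  unfold sy at h1
  rw [SS_KK] at h1
  rw [pow_zero' (F.lch y).nil hlt.le, Matrix.zero_mulVec] at h1
  apply h1
  unfold VCalc_442.sf
  rw [Matrix.mulVec_zero, dotProduct_zero]
  simp

/-- the constant of `tau_le` -/
def Ct (ι : Type*) [Fintype ι] [DecidableEq ι] (e n : ℕ) : ℝ :=
  ((e * n : ℕ) : ℝ) * (Fintype.card ι * Real.log (cL ι e + 1))

/-- **`Full.tau_le`** -/
theorem psi'_tau (n : ℕ) (y : E) : F.tau n y ≤ psi' F hcy n y + Ct ι e n := by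
  have hz := zero_mem (D := D) y
  have hsf : ∀ j, sy F y j 0 = Complex.I ^ j * ((-1 : ℂ) ^ w *
      VCalc_442.sf (F.S y) (F.f y 0) (F.L y ^ j *ᵥ F.f y 0)) := by
    intro j
    unfold sy
    rw [SS_KK, fr_zero]
  have hvan : ∀ j, kap F hcy y < j →
      VCalc_442.sf (F.S y) (F.f y 0) (F.L y ^ j *ᵥ F.f y 0) = 0 := by
    intro j hj
    have h1 := kap_zero F hcy y hj hz
    rw [hsf] at h1
    rcases mul_eq_zero.1 h1 with h2 | h2
    · exact absurd h2 (pow_ne_zero _ Complex.I_ne_zero)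
    · rcases mul_eq_zero.1 h2 with h3 | h3
      · exact absurd h3 (pow_ne_zero _ (neg_ne_zero.2 one_ne_zero))
      · exact h3
  have hne : VCalc_442.sf (F.S y) (F.f y 0) (F.L y ^ kap F hcy y *ᵥ F.f y 0) ≠ 0 := by
    intro h0
    apply kap_ne F hcy y hz
    rw [hsf, h0, mul_zero, mul_zero]
  have h1 := F.tau_le n y hvan hne
  have hnorm : ‖sy F y (kap F hcy y) 0‖ =
      ‖VCalc_442.sf (F.S y) (F.f y 0) (F.L y ^ kap F hcy y *ᵥ F.f y 0)‖ := by
    rw [hsf, norm_mul, norm_mul, norm_pow, norm_pow, Complex.norm_I, norm_neg, norm_one]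
    simp
  have hpos := kap_pos F hcy y hz
  have hle : cy' F y (kap F hcy y) 0 ≤ ‖sy F y (kap F hcy y) 0‖ := by
    rw [cy_eq]
    have h2 : (1 : ℝ) ≤ Real.pi ^ kap F hcy y * ((kap F hcy y)! : ℝ) := by
      have h3 : (1 : ℝ) ≤ Real.pi ^ kap F hcy y :=
        one_le_pow₀ (by linarith [Real.pi_gt_three])
      have h4 : (1 : ℝ) ≤ ((kap F hcy y)! : ℝ) := by
        exact_mod_cast Nat.one_le_iff_ne_zero.2 (Nat.factorial_ne_zero _)
      nlinarith
    rw [cy_eq] at hpos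
    have h5 : (sy F y (kap F hcy y) 0).re ≤ ‖sy F y (kap F hcy y) 0‖ := Complex.re_le_norm _
    have h6 : 0 < (sy F y (kap F hcy y) 0).re := by
      by_contra hcon
      have := mul_nonpos_of_nonneg_of_nonpos (inv_nonneg.2 (zero_le_one.trans h2))
        (not_lt.1 hcon)
      linarith
    calc (Real.pi ^ kap F hcy y * ((kap F hcy y)! : ℝ))⁻¹ * (sy F y (kap F hcy y) 0).re
        ≤ 1 * (sy F y (kap F hcy y) 0).re := by
          gcongr
          exact inv_le_one_of_one_le₀ h2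
      _ ≤ _ := by rw [one_mul]; exact h5
  have h7 := Real.log_le_log hpos hle
  rw [hnorm] at h7
  have hc := cL_nonneg ι e
  have h8 : 0 ≤ Real.log (cL ι e + 1) := Real.log_nonneg (by linarith)
  have h9 : (kap F hcy y : ℝ) ≤ Fintype.card ι := by exact_mod_cast kap_lt F hcy y
  have h10 : (0 : ℝ) ≤ ((e * n : ℕ) : ℝ) := Nat.cast_nonneg _
  have h11 : ((e * n : ℕ) : ℝ) * (kap F hcy y * Real.log (cL ι e + 1)) ≤ Ct ι e n := by
    unfold Ct
    gcongr
  have h12 := mul_le_mul_of_nonneg_left h7 h10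
  unfold psi'
  linarith

/-- **`Full.rank`** -/
theorem psi'_rank (n : ℕ) {ν : ℕ} (hν : 0 < ν)
    (hrk : ∀ y, ∀ q ∈ GrB_217.HB d (Real.log (D.r y)) (D.r y), Module.finrank ℂ
      (Submodule.span ℂ ({F.Om y q} ∪ range (fderiv ℂ (F.Om y) q))) ≤ ν + 1)
    (hT : ∀ y, ¬ ∃ ζ : ℂ, ∀ q ∈ GrB_217.HB d (Real.log (D.r y)) (D.r y),
      F.T y *ᵥ F.Om y q = ζ • F.Om y q) (y : E) :
    ∃ S : Submodule ℂ (Fin d → ℂ), d ≤ Module.finrank ℂ S + (ν - 1) ∧
      ∀ v ∈ S, Levi (psi' F hcy n) y v = 0 := by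
  have hz := zero_mem (D := D) y
  have hrank := RkA_25.rank (F.lch y) (hcy y).bot.hol (hrk y) (hT y) (m := kap F hcy y)
    (fun v hv => kap_zero F hcy y (Nat.lt_succ_self _) hv) hz (kap_ne F hcy y hz)
  refine ⟨nul (SS w (F.S y)) (KK (Nm (F.L y)) ^ kap F hcy y) (fr (F.f y) (0, 0))
      (D0 (fr (F.f y)) (0, 0)), ?_, fun v hv => ?_⟩
  · omega
  · have h1 := (levi_cc_null (bd (F.lch y)) hz (kap_ne F hcy y hz) hv v).1
    rw [levi_psi']
    -- translate
    set u : (Fin d → ℂ) → ℝ := fun v => Real.log (cc (SS w (F.S y)) (Nm (F.L y)) (fr (F.f y))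
      (kap F hcy y) (0, v)) with hu
    have hus : ContDiffOn ℝ ∞ u (ball 0 (D.r y)) :=
      ContDiffOn.log (cc_smooth (bd (F.lch y)) (kap F hcy y)) fun v hv =>
        (kap_pos F hcy y hv).ne'
    have hcu : ContDiffOn ℝ ∞ (cx u) (ball 0 (D.r y)) :=
      Complex.ofRealCLM.contDiff.comp_contDiffOn hus
    have h2 : dW (dB (cx u) v) v 0 = 0 := h1
    rw [dW_dB (((hcu.contDiffAt (isOpen_ball.mem_nhds hz))).of_le ENat.LEInfty.out)] at h2
    have htr : cx (lc F hcy y) = fun z => cx u (z - cp y) := rfl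
    have e1 : ∀ (G : (Fin d → ℂ) → ℂ) (x : Fin d → ℂ),
        dW (fun z => G (z - cp y)) v x = dW G v (x - cp y) := by
      intro G x
      unfold dW
      rw [fderiv_comp_sub]
    have e2 : ∀ (G : (Fin d → ℂ) → ℂ) (x : Fin d → ℂ),
        dB (fun z => G (z - cp y)) v x = dB G v (x - cp y) := by
      intro G x
      unfold dB
      rw [fderiv_comp_sub]
    have e3 : dW (cx (lc F hcy y)) v = fun z => dW (cx u) v (z - cp y) := by
      rw [htr]
      funext z
      exact e1 _ _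
    rw [e3, e2, sub_self, h2, Complex.zero_re, mul_zero, neg_zero]

include hcy in
/-- **`Full`** -/
theorem full (n : ℕ) {Φ : M → ℝ} {ν : ℕ} (hν : 0 < ν) (C0 : ℝ)
    (g1 : ∀ y, ∀ q ∈ Sh d (D.r y), D.phW Φ y q ≤ C0 * (1 + Real.log (1 / D.r y)))
    (g2 : ∀ y, ∀ q ∈ Sh d (D.r y), D.psI (fun x => ((e * n : ℕ) : ℝ) * ψ₀ x) (n * k) y q ≤
      C0 * (1 + Real.log (1 / D.r y)))
    (hrk : ∀ y, ∀ q ∈ GrB_217.HB d (Real.log (D.r y)) (D.r y), Module.finrank ℂ
      (Submodule.span ℂ ({F.Om y q} ∪ range (fderiv ℂ (F.Om y) q))) ≤ ν + 1)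
    (hT : ∀ y, ¬ ∃ ζ : ℂ, ∀ q ∈ GrB_217.HB d (Real.log (D.r y)) (D.r y),
      F.T y *ᵥ F.Om y q = ζ • F.Om y q) :
    Nonempty (Full D Φ (fun x => ((e * n : ℕ) : ℝ) * ψ₀ x) (n * k) (ν - 1)) := by
  refine GrI_217.full_of F n (max C0 (Ct ι e n)) (psi' F hcy n) ?_ ?_ (psi'_sm F hcy n)
    (psi'_psh F hcy n) (psi'_rank F hcy n hν hrk hT) ?_
  · intro y q hq
    exact (g1 y q hq).trans (mul_le_mul_of_nonneg_right (le_max_left _ _)
      (GrI_217.log_inv_nonneg D y))
  · intro y q hq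
    exact (g2 y q hq).trans (mul_le_mul_of_nonneg_right (le_max_left _ _)
      (GrI_217.log_inv_nonneg D y))
  · intro y
    exact (psi'_tau F hcy n y).trans (by linarith [le_max_right C0 (Ct ι e n)])

end main

end Crest.Agent.R276.GrK_217
end
end

-- ▼ part R276/GrL_217
section

/-!
# R276, leaf COUNT-GR, part L (helper217): the rank of the twisted section

For the family of normal forms `BFam` (651) the span of `Om` and its derivatives has dimension at most
`ν + 1`, where `ν` is the maximal rank of the Levi form of `ψ`; hence `Full` from `WD`, `LD`, `BFam`.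
-/

set_option autoImplicit false
set_option linter.unusedSectionVars false

open Set Filter Topology Matrix Metric MeasureTheory
open scoped ComplexOrder ContDiff ComplexConjugate

noncomputable section

namespace Crest.Agent.R276.GrL_217

open Crest.Agent.R271.Ho51
open Crest.Agent.R276.VCalc_442

/-! ### the chain rule for `∂̄_v ∂_v` -/

section chain

variable {m : ℕ} {E : Type*} [NormedAddCommGroup E] [NormedSpace ℂ E]

theorem diff_dW {F : (Fin m → ℂ) → ℂ} {z : Fin m → ℂ} (hF : ContDiffAt ℝ 2 F z) (w : Fin m → ℂ) :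
    DifferentiableAt ℝ (dW F w) z := by
  have h : DifferentiableAt ℝ (fderiv ℝ F) z :=
    (hF.fderiv_right (m := 1) (by norm_num)).differentiableAt (by simp)
  have h2 : ∀ u : Fin m → ℂ, DifferentiableAt ℝ (fun y => fderiv ℝ F y u) z :=
    fun u => h.clm_apply (differentiableAt_const u)
  exact ((h2 _).sub ((h2 _).const_smul Complex.I)).const_smul (1 / 2 : ℂ)

theorem dB_dW_comp {F : (Fin m → ℂ) → ℂ} {G : E → Fin m → ℂ} {q : E}
    (hF : ContDiffAt ℝ 2 F (G q)) (hG : AnalyticAt ℂ G q) (v : E) :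
    dB (dW (fun y => F (G y)) v) v q = dB (dW F (fderiv ℂ G q v)) (fderiv ℂ G q v) (G q) := by
  have hGc : ContinuousAt G q := hG.continuousAt
  -- the first derivative near `q`
  have h1 : dW (fun y => F (G y)) v =ᶠ[𝓝 q] fun y =>
      ∑ j, (fderiv ℂ G y v) j * dW F (Pi.single j 1) (G y) := by
    have hF1 : ∀ᶠ x in 𝓝 (G q), ContDiffAt ℝ 2 F x := hF.eventually (by simp)
    filter_upwards [hGc.eventually hF1, hG.eventually_analyticAt] with y hy hy2
    rw [EndTh_659.dW_comp (hy.differentiableAt (by simp)) hy2.differentiableAt, Ipc735.dW_sum_dir]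
  have hd : ∀ j : Fin m, DifferentiableAt ℂ (fun y => (fderiv ℂ G y v) j) q := by
    intro j
    have h2 : DifferentiableAt ℂ (fun y => fderiv ℂ G y v) q :=
      (hG.fderiv.differentiableAt).clm_apply (differentiableAt_const v)
    exact differentiableAt_pi.1 h2 j
  have hd2 : ∀ j : Fin m, DifferentiableAt ℝ (dW F (Pi.single j 1)) (G q) := fun j => diff_dW hF _
  have hGr : DifferentiableAt ℝ G q := hG.differentiableAt.restrictScalars ℝ
  have hd3 : ∀ j : Fin m, DifferentiableAt ℝ (fun y => dW F (Pi.single j 1) (G y)) q := fun j =>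
    (hd2 j).comp q hGr
  rw [dB_congr h1, dB_sum (f := fun j y => (fderiv ℂ G y v) j * dW F (Pi.single j 1) (G y)) _
    (fun j _ => ((hd j).restrictScalars ℝ).mul (hd3 j))]
  have h4 : dW F (fderiv ℂ G q v) = fun x => ∑ j, (fderiv ℂ G q v) j * dW F (Pi.single j 1) x := by
    funext x
    rw [Ipc735.dW_sum_dir]
  rw [h4, dB_sum (f := fun j x => (fderiv ℂ G q v) j * dW F (Pi.single j 1) x) _
    (fun j _ => (hd2 j).const_mul _)]
  refine Finset.sum_congr rfl fun j _ => ?_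
  rw [dB_mul ((hd j).restrictScalars ℝ) (hd3 j), dB_of_diff (hd j), zero_mul, zero_add,
    EndTh_659.dB_comp (hd2 j) hG.differentiableAt]
  rw [dB_mul (differentiableAt_const _) (hd2 j)]
  have h5 : dB (fun _ : Fin m → ℂ => (fderiv ℂ G q v) j) (fderiv ℂ G q v) (G q) = 0 :=
    dB_of_diff (differentiableAt_const _) _
  rw [h5, zero_mul, zero_add]

end chain

/-! ### the boundary charts -/

open Crest.Agent.R276.Ipc735
open Crest.Agent.R276.BdNf1_651
open Crest.Agent.R276.BdNf2_651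
open Crest.Agent.R276.BdNf3_651
open Crest.Agent.R276.BdNf4_651
open Crest.Agent.R276.BdNf5_651
open Crest.Agent.R276.BdNf7_651
open Crest.Agent.R276.BdNf8_651
open Crest.Agent.R276.CntDefs_857
open Crest.Agent.R276.LftDefs_327 (WD LD)
open Crest.Agent.R276.VLevi_327 (CYL)

section chart

variable {d : ℕ} {M E : Type*} [TopologicalSpace M] [RDom (d + 1) M] [MeasurableSpace M]
    {μ : Measure M} [TopologicalSpace E] [RDom d E]

/-- the derivative of the chart over the half space is an isomorphism -/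
theorem det_lift (D : DChart M E μ) (y : E) {z : Fin (d + 1) → ℂ} (hz : z ∈ HS d (D.r y)) :
    LinearMap.det (fderiv ℂ (fun y' => (cp (lift (D.σ y) y') : Fin (d + 1) → ℂ)) z).toLinearMap
      ≠ 0 := by
  have hex := ex_mem (GrH_217.r_pos D y) hz
  have hFd : DifferentiableAt ℂ (fun q => (cp (D.σ y q) : Fin (d + 1) → ℂ)) (ex z) :=
    ((D.hol y) _ hex).differentiableAt ((isOpen_PS d _).mem_nhds hex)
  have h1 := GrAs1_857.det_comp_ex hFd
  have h2 : (Matrix.of fun i k => (fderiv ℂ (fun y' => (cp (lift (D.σ y) y') :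
      Fin (d + 1) → ℂ)) z (GrB_606.fr d i)) k) =
      (LinearMap.toMatrix' (fderiv ℂ (fun y' => (cp (lift (D.σ y) y') :
        Fin (d + 1) → ℂ)) z).toLinearMap)ᵀ := by
    ext i k
    rw [Matrix.of_apply, Matrix.transpose_apply, LinearMap.toMatrix'_apply]
    rfl
  have h3 : (Matrix.of fun i k => (fderiv ℂ (fun y' => (cp (lift (D.σ y) y') :
      Fin (d + 1) → ℂ)) z (GrB_606.fr d i)) k).det = (fderiv ℂ (fun q => (cp (D.σ y q) :
        Fin (d + 1) → ℂ)) (ex z)).det * ex z 0 := h1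
  rw [h2, Matrix.det_transpose, LinearMap.det_toMatrix'] at h3
  rw [h3]
  refine mul_ne_zero (D.jac y _ hex) hex.1

/-- the pull back of a subspace under the derivative of the chart -/
theorem finrank_comap {A : (Fin (d + 1) → ℂ) →ₗ[ℂ] (Fin (d + 1) → ℂ)} (hA : LinearMap.det A ≠ 0)
    (W : Submodule ℂ (Fin (d + 1) → ℂ)) :
    Module.finrank ℂ (W.comap A) = Module.finrank ℂ W := by
  set e := LinearMap.equivOfDetNeZero A hA with he
  have h1 : W.comap A = W.map e.symm.toLinearMap := by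
    rw [← Submodule.comap_equiv_eq_map_symm]
    rfl
  rw [h1]
  exact LinearEquiv.finrank_map_eq e.symm W

end chart

section main

variable {d m N w : ℕ} {M E X : Type*} [TopologicalSpace M] [RDom (d + 1) M]
    [MeasurableSpace M] {μ : Measure M} [TopologicalSpace E] [RDom d E] [TopologicalSpace X]
    [RDom m X] {D : DChart M E μ} {V : VHS m X N w} {om : X → Fin N → ℂ} {u : X → ℂ}
    {f : X → M} {M0 : ℕ} {ι : Fin (d + 1) → Fin m} {φ ψ : M → ℝ}

/-- the weight of the twisted section is `ψ` in the chart -/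
theorem pp_eq {l : LD D V om u f} (B : BFam l M0 ψ) (y : E) {q : Fin (d + 1) → ℂ}
    (hq : q ∈ HS d (D.r y)) :
    pp w (B.n y).fr.S (Om (B.n y) om l.ku M0 (B.g y)) q = ψ (lift (D.σ y) q) := by
  have h1 := B.psi y q hq
  rw [H_eq] at h1
  have hb := (vhs (B.n y) (hp l y)).bn_eq (B.cy y).bot hq
  unfold pp
  rw [hb]
  have h2 : (VCalc_442.sf (VCalc_442.hm w (B.n y).fr.S (PP (B.n y)) q)
      (Om (B.n y) om l.ku M0 (B.g y) q) (Om (B.n y) om l.ku M0 (B.g y) q)).re =
      BndA_563.hn (VCalc_442.hm w (B.n y).fr.S (PP (B.n y)) q)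
        (Om (B.n y) om l.ku M0 (B.g y) q) := rfl
  rw [h2, h1, Real.log_exp, neg_neg]
  rfl

/-- the Laplacian of the weight along a line is the Levi form of `ψ` -/
theorem lap_eq (hw : WD V om u M0 f ι φ ψ) {l : LD D V om u f} (B : BFam l M0 ψ) (y : E)
    {q : Fin (d + 1) → ℂ} (hq : q ∈ HS d (D.r y)) (v : Fin (d + 1) → ℂ) :
    (Laplacian.laplacian (fun ξ : ℂ => pp w (B.n y).fr.S (Om (B.n y) om l.ku M0 (B.g y))
      (q + ξ • v))) 0 = 4 * Levi ψ (lift (D.σ y) q)
        (fderiv ℂ (fun y' => (cp (lift (D.σ y) y') : Fin (d + 1) → ℂ)) q v) := by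
  set χ : (Fin (d + 1) → ℂ) → M := lift (D.σ y) with hχ
  have hHM : HM (HS d (D.r y)) χ := HP.hm ⟨GrH_217.r_pos D y, D.cont y, D.hol y⟩
  set τ : M := χ q with hτ
  set F : (Fin (d + 1) → ℂ) → ℝ := ψ ∘ (ch τ).symm with hF
  set G : (Fin (d + 1) → ℂ) → (Fin (d + 1) → ℂ) := fun y' => cp (χ y') with hG
  have hFs : ContDiffAt ℝ 2 F (G q) := DescG_327.SmAt.two (DescG_327.WD.psi_Sm hw τ)
  have hGa : AnalyticAt ℂ G q := Fr.analyticAt_cp hHM hq
  have hsm : ContDiffAt ℝ 2 (pp w (B.n y).fr.S (Om (B.n y) om l.ku M0 (B.g y))) q :=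
    ((sm_pp (B.lch y).vhs (B.cy y)).contDiffAt ((isOpen_HS d _).mem_nhds hq)).of_le
      ENat.LEInfty.out
  have h1 : cx (pp w (B.n y).fr.S (Om (B.n y) om l.ku M0 (B.g y))) =ᶠ[𝓝 q]
      fun z => cx F (G z) := by
    filter_upwards [Fr.chart_ev hHM hq] with z hz
    show ((pp w (B.n y).fr.S (Om (B.n y) om l.ku M0 (B.g y)) z : ℝ) : ℂ) =
      ((ψ ((ch τ).symm (cp (χ z))) : ℝ) : ℂ)
    rw [hz.2.2, pp_eq B y hz.1]
  have h2 : dW (cx (pp w (B.n y).fr.S (Om (B.n y) om l.ku M0 (B.g y)))) v =ᶠ[𝓝 q]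
      dW (fun z => cx F (G z)) v := by
    filter_upwards [h1.eventually_nhds] with z hz
    exact dW_congr hz v
  have h3 := lap_line (z := q) (v := v) (ζ := 0) (by simpa using hsm)
  rw [zero_smul, add_zero] at h3
  rw [h3, dB_congr h2 v, dB_dW_comp (contDiffAt_cx hFs) hGa,
    LevB_442.levi_eq (isCh_ch τ) (mem_ch τ) hFs]

/-- **the rank of the twisted section** -/
theorem hrk_of (hw : WD V om u M0 f ι φ ψ) (l : LD D V om u f) (B : BFam l M0 ψ) {ν : ℕ}
    (hν : ∀ τ : M, ∃ W : Submodule ℂ (Fin (d + 1) → ℂ), d + 1 ≤ Module.finrank ℂ W + ν ∧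
      ∀ v ∈ W, Levi ψ τ v = 0) (y : E) (q : Fin (d + 1) → ℂ)
    (hq : q ∈ GrB_217.HB d (Real.log (D.r y)) (D.r y)) :
    Module.finrank ℂ (Submodule.span ℂ ({Om (B.n y) om l.ku M0 (B.g y) q} ∪
      range (fderiv ℂ (Om (B.n y) om l.ku M0 (B.g y)) q))) ≤ ν + 1 := by
  refine RkA_25.rk_of_lap (B.lch y).vhs (B.cy y) hq ?_
  obtain ⟨W, hW, hW0⟩ := hν (lift (D.σ y) q)
  refine ⟨W.comap (fderiv ℂ (fun y' => (cp (lift (D.σ y) y') : Fin (d + 1) → ℂ)) q).toLinearMap,
    ?_, fun v hv => ?_⟩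
  · rwa [finrank_comap (det_lift D y hq)]
  · have h1 : Levi ψ (lift (D.σ y) q)
        (fderiv ℂ (fun y' => (cp (lift (D.σ y) y') : Fin (d + 1) → ℂ)) q v) = 0 :=
      hW0 _ (Submodule.mem_comap.1 hv)
    rw [lap_eq hw B y hq v, h1, mul_zero]

/-- the normal form has no zeros on the divisor -/
theorem f0 {l : LD D V om u f} (B : BFam l M0 ψ) (y : E) : B.F y 0 ≠ 0 := by
  obtain ⟨m, -, -, h3, -⟩ := RkB_25.main (B.lch y) (B.cy y) (B.ne y)
  have h4 := h3 0 (mem_ball_self (GrH_217.r_pos D y))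
  rwa [GrH_217.LFam.cons_zero_zero] at h4

/-- the family of normal forms -/
def fam {l : LD D V om u f} (B : BFam l M0 ψ) :
    GrH_217.LFam (Fin N) D w (eN N * M0) B.k ψ := B.toLFam (f0 B)

/-- the monodromy acts on the twisted section by a scalar -/
def Scal {l : LD D V om u f} (B : BFam l M0 ψ) (y : E) : Prop :=
  ∃ ζ : ℂ, ∀ q ∈ HS d (D.r y), cm (B.n y).T *ᵥ Om (B.n y) om l.ku M0 (B.g y) q =
    ζ • Om (B.n y) om l.ku M0 (B.g y) q

/-- a relation between holomorphic vector functions propagates from an open subset of the half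
space -/
theorem ident {r : ℝ} {O : Set (Fin (d + 1) → ℂ)} (hO : IsOpen O) (hne : O.Nonempty)
    (hsub : O ⊆ HS d r) {Q : (Fin (d + 1) → ℂ) → Fin N → ℂ} (hQ : DifferentiableOn ℂ Q (HS d r))
    {A : Matrix (Fin N) (Fin N) ℂ} {ζ : ℂ} (h : ∀ q ∈ O, A *ᵥ Q q = ζ • Q q) :
    ∀ q ∈ HS d r, A *ᵥ Q q = ζ • Q q := by
  have hA : AnalyticOnNhd ℂ Q (HS d r) :=
    R266.SCV.analyticOnNhd_of_differentiableOn (isOpen_HS d r) hQ
  set L : (Fin N → ℂ) →L[ℂ] (Fin N → ℂ) := (Matrix.mulVecLin A).toContinuousLinearMap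
  have h1 : AnalyticOnNhd ℂ (fun q => A *ᵥ Q q) (HS d r) := fun q hq =>
    (L.analyticAt _).comp (hA q hq)
  have h2 : AnalyticOnNhd ℂ (fun q => ζ • Q q) (HS d r) := fun q hq =>
    AnalyticAt.fun_smul analyticAt_const (hA q hq)
  obtain ⟨b, hb⟩ := hne
  have h3 := h1.eqOn_of_preconnected_of_eventuallyEq h2 (convex_HS d r).isPreconnected (hsub hb)
    (by filter_upwards [hO.mem_nhds hb] with q hq using h q hq)
  exact fun q hq => h3 hq

/-- transport of `Scal` under the transitions -/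
theorem scal_tr {l : LD D V om u f} (B : BFam l M0 ψ) {y y' : E} {a : Fin d → ℂ}
    {A : GL (Fin N) ℤ} {c : ℂ} (hA : Fc (B.n y) (B.n y') a A)
    (hne : (Ov d (D.r y) (D.r y') a).Nonempty)
    (hQ : ∀ q ∈ Ov d (D.r y) (D.r y') a, Om (B.n y') om l.ku M0 (B.g y') q =
      c • (cm A *ᵥ Om (B.n y) om l.ku M0 (B.g y) (q + ca a))) (h : Scal B y) : Scal B y' := by
  obtain ⟨ζ, hζ⟩ := h
  refine ⟨ζ, ident (isOpen_Ov _ _ _) hne (fun q hq => hq.1) (B.cy y').bot.hol fun q hq => ?_⟩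
  rw [hQ q hq, Matrix.mulVec_smul, Matrix.mulVec_mulVec, hA.cmT_eq hne, ← Matrix.mulVec_mulVec,
    hζ _ hq.2, Matrix.mulVec_smul, smul_comm]

/-- `Scal` is a locally constant property -/
theorem scal_loc {l : LD D V om u f} (B : BFam l M0 ψ) (y : E) :
    ∀ᶠ y' in 𝓝 y, (Scal B y' ↔ Scal B y) := by
  obtain ⟨ε, hε, hy, ht⟩ := exists_chart D y
  filter_upwards [ε.open_source.mem_nhds hy] with y' hy'
  obtain ⟨A, c, hA, hc1, -, hne, hQ⟩ := B.tr y ε hε hy ht y' hy'
  set a : Fin d → ℂ := cp y' - cp y with ha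
  have hc0 : c ≠ 0 := by rintro rfl; simp at hc1
  constructor
  · refine scal_tr B (c := c⁻¹) hA.symm ?_ ?_
    · obtain ⟨q, hq⟩ := hne
      refine ⟨q + ca a, hq.2, ?_⟩
      have : q + ca a + ca (-a) = q := by rw [ca_neg]; abel
      rw [this]; exact hq.1
    · intro q hq
      have hq' : q + ca (-a) ∈ Ov d (D.r y) (D.r y') a := by
        refine ⟨hq.2, ?_⟩
        have : q + ca (-a) + ca a = q := by rw [ca_neg]; abel
        rw [this]; exact hq.1
      have h1 := hQ _ hq'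
      have h2 : q + ca (-a) + ca a = q := by rw [ca_neg]; abel
      rw [h2] at h1
      rw [h1, Matrix.mulVec_smul, Matrix.mulVec_mulVec, cm_inv_mul_cm, Matrix.one_mulVec,
        smul_smul, inv_mul_cancel₀ hc0, one_smul]
  · exact scal_tr B hA hne hQ

/-- **dichotomy**: the monodromy acts on the twisted section by a scalar at every point of the
divisor or at no point -/
theorem scal_all {l : LD D V om u f} (B : BFam l M0 ψ) :
    (∀ y, Scal B y) ∨ ∀ y, ¬ Scal B y := by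
  by_cases h : ∃ y0, Scal B y0
  · obtain ⟨y0, h0⟩ := h
    left
    intro y
    refine Top1_358.prop_of_isPreconnected (X := E) D.conn (P := fun y => Scal B y) ?_
      (mem_univ y0) h0 (mem_univ y)
    intro z _
    refine ⟨{z' | Scal B z' ↔ Scal B z}, mem_nhdsWithin_of_mem_nhds (scal_loc B z), ?_⟩
    intro z' hz'
    first
      | exact hz'
      | exact hz'.symm
  · right
    push Not at h
    exact h

/-- **`Full`** from `WD`, `LD`, `BFam` -/
theorem full_fam (hw : WD V om u M0 f ι φ ψ) (l : LD D V om u f) (B : BFam l M0 ψ) (n : ℕ) {ν : ℕ}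
    (hν0 : 0 < ν)
    (hν : ∀ τ : M, ∃ W : Submodule ℂ (Fin (d + 1) → ℂ), d + 1 ≤ Module.finrank ℂ W + ν ∧
      ∀ v ∈ W, Levi ψ τ v = 0)
    (hT : ∀ y, ¬ Scal B y) :
    Nonempty (Full D φ (fun x => ((eN N * M0 * n : ℕ) : ℝ) * ψ x) (n * B.k) (ν - 1)) := by
  obtain ⟨C1, -, h1⟩ := GrAs2_857.g1 hw l
  obtain ⟨C2, -, h2⟩ := GrAs2_857.g2 hw l ((eN N * M0 * n : ℕ) : ℝ) (n * B.k)
  refine GrK_217.full (fam B) B.cy n hν0 (max C1 C2) (fun y q hq => ?_) (fun y q hq => ?_)
    (fun y q hq => hrk_of hw l B hν y q hq) (fun y h => hT y h)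
  · exact (h1 y q hq).trans (mul_le_mul_of_nonneg_right (le_max_left _ _)
      (GrI_217.log_inv_nonneg D y))
  · exact (h2 y q hq).trans (mul_le_mul_of_nonneg_right (le_max_right _ _)
      (GrI_217.log_inv_nonneg D y))

end main

end Crest.Agent.R276.GrL_217
end
end

-- ▼ part R276/GrM_217

/-!
# R276, leaf COUNT-GR, part M (helper217): the case `ν = 0`

If the Levi form of `ψ` vanishes identically then the twisted section stays in a line, so the monodromy
acts on it by a scalar.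
-/

set_option autoImplicit false
set_option linter.unusedSectionVars false

open Set Filter Topology Matrix Metric MeasureTheory
open scoped ComplexOrder ContDiff ComplexConjugate

noncomputable section

namespace Crest.Agent.R276.GrM_217

open Crest.Agent.R271.Ho51
open Crest.Agent.R276.VCalc_442
open Crest.Agent.R276.Ipc735
open Crest.Agent.R276.BdNf1_651
open Crest.Agent.R276.BdNf2_651
open Crest.Agent.R276.BdNf3_651
open Crest.Agent.R276.BdNf4_651
open Crest.Agent.R276.BdNf5_651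
open Crest.Agent.R276.BdNf7_651
open Crest.Agent.R276.BdNf8_651
open Crest.Agent.R276.CntDefs_857
open Crest.Agent.R276.LftDefs_327 (WD LD)
open Crest.Agent.R276.GrL_217

section line

variable {E : Type*} [NormedAddCommGroup E] [NormedSpace ℂ E] [FiniteDimensional ℂ E] {N : ℕ}

/-- a holomorphic vector function whose derivatives are proportional to it stays in a line -/
theorem line_const {U : Set E} (hU : IsOpen U) (hc : IsPreconnected U) {Q : E → Fin N → ℂ}
    (hQ : DifferentiableOn ℂ Q U)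
    (h : ∀ q ∈ U, ∀ v, fderiv ℂ Q q v ∈ Submodule.span ℂ {Q q}) {q0 : E} (hq0 : q0 ∈ U)
    (hne : Q q0 ≠ 0) : ∀ q ∈ U, ∃ c : ℂ, Q q = c • Q q0 := by
  obtain ⟨i, hi⟩ : ∃ i, Q q0 i ≠ 0 := by
    by_contra hcon
    push Not at hcon
    exact hne (funext hcon)
  have hd : ∀ q ∈ U, DifferentiableAt ℂ Q q := fun q hq => (hQ q hq).differentiableAt
    (hU.mem_nhds hq)
  have hdi : ∀ j, ∀ q ∈ U, DifferentiableAt ℂ (fun q => Q q j) q := fun j q hq =>
    differentiableAt_pi.1 (hd q hq) j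
  have hder : ∀ j, ∀ q ∈ U, ∀ v, fderiv ℂ (fun q => Q q j) q v = fderiv ℂ Q q v j := by
    intro j q hq v
    rw [fderiv_pi (fun i => hdi i q hq)]
    rfl
  have key : ∀ j, ∀ q ∈ U, Q q j * Q q0 i = Q q0 j * Q q i := by
    intro j
    have hA : AnalyticOnNhd ℂ Q U := R266.SCV.analyticOnNhd_of_differentiableOn hU hQ
    have hAj : ∀ j, AnalyticOnNhd ℂ (fun q => Q q j) U := fun j q hq =>
      (analyticAt_pi_iff.1 (hA q hq)) j
    have h1 : AnalyticOnNhd ℂ (fun q => Q q j * Q q0 i) U := fun q hq =>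
      (hAj j q hq).mul analyticAt_const
    have h2 : AnalyticOnNhd ℂ (fun q => Q q0 j * Q q i) U := fun q hq =>
      analyticAt_const.mul (hAj i q hq)
    refine h1.eqOn_of_preconnected_of_eventuallyEq h2 hc hq0 ?_
    -- near `q0` the ratio is constant
    have hcont : ContinuousAt (fun q => Q q i) q0 := (hdi i q0 hq0).continuousAt
    obtain ⟨ε, hε, hb⟩ := Metric.mem_nhds_iff.1 (inter_mem (hU.mem_nhds hq0)
      (hcont.eventually_ne hi))
    have hbU : ball q0 ε ⊆ U := fun q hq => (hb hq).1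
    have hbi : ∀ q ∈ ball q0 ε, Q q i ≠ 0 := fun q hq => (hb hq).2
    have hR : ∀ q ∈ ball q0 ε, HasFDerivAt (fun q => Q q j / Q q i) (0 : E →L[ℂ] ℂ) q := by
      intro q hq
      have h3 := (hdi j q (hbU hq)).hasFDerivAt.mul ((hasDerivAt_inv (hbi q hq)).comp_hasFDerivAt q
        (hdi i q (hbU hq)).hasFDerivAt)
      refine h3.congr_fderiv ?_
      ext v
      obtain ⟨c, hcv⟩ := Submodule.mem_span_singleton.1 (h q (hbU hq) v)
      have e1 : fderiv ℂ (fun q => Q q j) q v = c * Q q j := by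
        rw [hder j q (hbU hq), ← hcv]; rfl
      have e2 : fderiv ℂ (fun q => Q q i) q v = c * Q q i := by
        rw [hder i q (hbU hq), ← hcv]; rfl
      have h0 := hbi q hq
      simp only [_root_.smul_apply, _root_.add_apply, smul_eq_mul, _root_.zero_apply, e1, e2,
        Function.comp_apply]
      field_simp
      ring
    have hconst : ∀ q ∈ ball q0 ε, Q q j / Q q i = Q q0 j / Q q0 i := by
      intro q hq
      exact (convex_ball q0 ε).is_const_of_fderivWithin_eq_zero (𝕜 := ℂ)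
        (f := fun q => Q q j / Q q i)
        (fun x hx => (hR x hx).differentiableAt.differentiableWithinAt)
        (fun x hx => by
          rw [fderivWithin_of_isOpen isOpen_ball hx, (hR x hx).fderiv]) hq
        (mem_ball_self hε)
    filter_upwards [ball_mem_nhds q0 hε] with q hq
    have h4 := hconst q hq
    have h5 := hbi q hq
    field_simp at h4
    linear_combination h4
  intro q hq
  refine ⟨Q q i / Q q0 i, ?_⟩
  funext j
  have h1 := key j q hq
  rw [Pi.smul_apply, smul_eq_mul]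
  field_simp
  linear_combination h1

end line

section main

variable {d m N w : ℕ} {M E X : Type*} [TopologicalSpace M] [RDom (d + 1) M]
    [MeasurableSpace M] {μ : Measure M} [TopologicalSpace E] [RDom d E] [TopologicalSpace X]
    [RDom m X] {D : DChart M E μ} {V : VHS m X N w} {om : X → Fin N → ℂ} {u : X → ℂ}
    {f : X → M} {M0 : ℕ} {ι : Fin (d + 1) → Fin m} {φ ψ : M → ℝ}

/-- **the case `ν = 0`** -/
theorem scal_of_zero (hw : WD V om u M0 f ι φ ψ) (l : LD D V om u f) (B : BFam l M0 ψ)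
    (hν : ∀ τ : M, ∃ W : Submodule ℂ (Fin (d + 1) → ℂ), d + 1 ≤ Module.finrank ℂ W + 0 ∧
      ∀ v ∈ W, Levi ψ τ v = 0) (y : E) : Scal B y := by
  set Q := Om (B.n y) om l.ku M0 (B.g y) with hQ
  have hdiff : DifferentiableOn ℂ Q (HS d (D.r y)) := (B.cy y).bot.hol
  have hne : ∀ q ∈ HS d (D.r y), Q q ≠ 0 := (B.cy y).ne
  have hr := GrH_217.r_pos D y
  have hspan : ∀ q ∈ HS d (D.r y), ∀ v, fderiv ℂ Q q v ∈ Submodule.span ℂ {Q q} := by
    intro q hq v
    have h1 := hrk_of hw l B hν y q hq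
    rw [zero_add] at h1
    have h2 : Submodule.span ℂ {Q q} = Submodule.span ℂ ({Q q} ∪ range (fderiv ℂ Q q)) := by
      refine Submodule.eq_of_le_of_finrank_le (Submodule.span_mono subset_union_left) ?_
      rw [finrank_span_singleton (hne q hq)]
      exact h1
    rw [h2]
    exact Submodule.subset_span (Or.inr ⟨v, rfl⟩)
  set q0 := bp d (Real.log (D.r y) - 1) with hq0
  have hq0m : q0 ∈ HS d (D.r y) := bp_mem hr (by linarith)
  have hl := line_const (isOpen_HS d _) (convex_HS d _).isPreconnected hdiff hspan hq0m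
    (hne q0 hq0m)
  -- the monodromy at `q0`
  have h1 := Om_tw (om := om) (B.n y) l.ku M0 (B.g y) 1 hq0m
  rw [zpow_one, zpow_one] at h1
  obtain ⟨c, hc⟩ := hl _ ((tw_mem 1).2 hq0m)
  have hz : zM l.ku M0 ≠ 0 := zM_ne _ _
  have h2 : cm (B.n y).T *ᵥ Q q0 = ((zM l.ku M0)⁻¹ * c) • Q q0 := by
    have h3 : zM l.ku M0 • (cm (B.n y).T *ᵥ Q q0) = c • Q q0 := by
      rw [← hc]; exact h1.symm
    rw [mul_smul, ← h3, smul_smul, inv_mul_cancel₀ hz, one_smul]
  refine ⟨(zM l.ku M0)⁻¹ * c, fun q hq => ?_⟩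
  obtain ⟨c', hc'⟩ := hl q hq
  show cm (B.n y).T *ᵥ Q q = _ • Q q
  rw [hc', Matrix.mulVec_smul, h2, smul_comm]

end main

end Crest.Agent.R276.GrM_217
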