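import Mathlib
import Crest.Agent.R276.DescF_327
import Crest.Agent.R276.BdNf8_651
import Crest.Agent.R276.TrB_617

-- ▼ part R276/HullT_327
section

/-!
# R276 (helper327): scalar action on the `CY` line: from a slice to a neighbourhood
-/

set_option autoImplicit false
set_option linter.unusedSectionVars false

noncomputable section

open Set Filter Topology Matrix
open scoped ContDiff ComplexOrder
open Crest.Agent.R271.Ho51 Crest.Agent.R276.Ipc735
open Crest.Agent.R276.DescC_327 Crest.Agent.R276.DescF_327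
open Crest.Agent.R276.VLevi_327

namespace Crest.Agent.R276.HullT_327

attribute [local instance] Matrix.linftyOpNormedRing Matrix.linftyOpNormedAlgebra

variable {m r N w : ℕ} {X M : Type*} [TopologicalSpace X] [RDom m X] [TopologicalSpace M]
  [RDom r M] {ι : Fin r → Fin m} {f : X → M} {V : VHS m X N w} {om : X → Fin N → ℂ}

/-- if `T` acts on the `CY` line by a scalar along a slice `s` (with `f ∘ s` open) then it does so
on a neighbourhood -/
theorem scalar_of_slice (hL : CYL V om) (hfl : Fl V ι) (hf : Prj ι f) {Q : Type*}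
    [TopologicalSpace Q] {s : Q → X} {q₀ : Q} (hs : ContinuousAt s q₀)
    (ho : 𝓝 (f (s q₀)) ≤ Filter.map (f ∘ s) (𝓝 q₀)) (hfc : ContinuousAt f (s q₀))
    {T : GL (Fin N) ℤ} {ζ : ℂ}
    (h : ∀ᶠ q in 𝓝 q₀, cm T *ᵥ lV V.P om (s q₀) (s q) = ζ • lV V.P om (s q₀) (s q)) :
    ∀ᶠ y in 𝓝 (s q₀), cm T *ᵥ lV V.P om (s q₀) y = ζ • lV V.P om (s q₀) y := by
  obtain ⟨W, hW, hW'⟩ := exists_nbhd hL hfl hf (s q₀)
  have h1 : ∀ᶠ q in 𝓝 q₀, s q ∈ W ∧
      cm T *ᵥ lV V.P om (s q₀) (s q) = ζ • lV V.P om (s q₀) (s q) :=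
    (hs.eventually_mem hW).and h
  have h2 : (f ∘ s) '' {q | s q ∈ W ∧
      cm T *ᵥ lV V.P om (s q₀) (s q) = ζ • lV V.P om (s q₀) (s q)} ∈ 𝓝 (f (s q₀)) :=
    ho (image_mem_map h1)
  filter_upwards [hW, hfc.preimage_mem_nhds h2] with y hy hy2
  obtain ⟨q, ⟨hq1, hq2⟩, hq3⟩ := hy2
  obtain ⟨-, -, -, -, k, hk⟩ := hW' (s q) hq1 y hy hq3
  rw [hk, mulVec_smul, hq2, smul_comm]

end Crest.Agent.R276.HullT_327
end
end

-- ▼ part R276/HulB_606

/-!
# R276, leaf COUNT (helper606): case (A), the monodromy is scalar on the `CY` line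

`HulS V om` : literally `GeoD.Hull` of `SkelGeo_220` for a pair `(V, om)`.
`germ_tr`   : identity theorem along transports.
`com_of_scalar` : if the monodromy `T` of a boundary chart is scalar on the section then `T` commutes
with the variation and has finite order.
-/

set_option autoImplicit false
set_option linter.unusedSectionVars false

noncomputable section

open Set Filter Topology Matrix Metric
open Crest.Agent.R271.Ho51 Crest.Agent.R276.Ipc735
open Crest.Agent.R276.Tr_617 (Gd Tr mon)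

namespace Crest.Agent.R276.HulB_606

variable {m N w : ℕ} {X : Type*} [TopologicalSpace X] [RDom m X]

/-! ### germs along transports -/

section germ

variable {P : X → X → GL (Fin N) ℤ} {om : X → Fin N → ℂ}

theorem lV_mul {A : Matrix (Fin N) (Fin N) ℂ} {U : Set X} (hU : Gd P U) {x y v : X} (hx : x ∈ U)
    (hy : y ∈ U) (hv : v ∈ U) :
    A *ᵥ lV P om x v = (A * cm (P x y)) *ᵥ lV P om y v := by
  unfold lV
  rw [← hU.mul x hx y hy v hv, cm_mul, Matrix.mulVec_mulVec, Matrix.mulVec_mulVec, Matrix.mul_assoc]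

/-- identity theorem in a good open set -/
theorem germ_step (hol : ∀ u, HolAt (lV P om u) u) {A : Matrix (Fin N) (Fin N) ℂ} {U : Set X}
    (hU : Gd P U) {x y : X} (hx : x ∈ U) (hy : y ∈ U)
    (h : ∀ᶠ v in 𝓝 x, A *ᵥ lV P om x v = 0) :
    ∀ᶠ v in 𝓝 y, (A * cm (P x y)) *ᵥ lV P om y v = 0 := by
  have key : ∀ᶠ v in 𝓝 y, A *ᵥ lV P om x v = 0 := by
    refine Top1_358.prop_of_isPreconnected (X := X) hU.pc
      (P := fun u => ∀ᶠ v in 𝓝 u, A *ᵥ lV P om x v = 0) ?_ hx h hy
    intro u hu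
    set G : (Fin m → ℂ) → Fin N → ℂ :=
      fun c => (A * cm (P x u)) *ᵥ (lV P om u ((ch u).symm c)) with hG
    have hGa : AnalyticAt ℂ G (cp u) := by
      have h1 : AnalyticAt ℂ (lV P om u ∘ (ch u).symm) (cp u) := hol u
      exact (((Matrix.mulVecLin (A * cm (P x u))).toContinuousLinearMap).analyticAt _).comp h1
    have hcts : ContinuousAt (ch u).symm (cp u) := by
      have := (ch u).continuousAt_symm ((isCh_ch u).cp_mem (mem_ch u))
      exact this
    have hev : ∀ᶠ c in 𝓝 (cp u), c ∈ (ch u).target ∧ (ch u).symm c ∈ U ∧ AnalyticAt ℂ G c := by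
      have e1 : ∀ᶠ c in 𝓝 (cp u), c ∈ (ch u).target :=
        (ch u).open_target.mem_nhds ((isCh_ch u).cp_mem (mem_ch u))
      have e2 : ∀ᶠ c in 𝓝 (cp u), (ch u).symm c ∈ U :=
        hcts.eventually_mem (by rw [symm_cp]; exact hU.op.mem_nhds hu)
      exact e1.and (e2.and hGa.eventually_analyticAt)
    obtain ⟨ε, hε, hB⟩ := Metric.eventually_nhds_iff_ball.1 hev
    have hpre : IsPreconnected (ball (cp u) ε : Set (Fin m → ℂ)) := (convex_ball _ _).isPreconnected
    have hGn : AnalyticOnNhd ℂ G (ball (cp u) ε) := fun c hc => (hB c hc).2.2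
    -- the dictionary
    have hdic : ∀ v ∈ (ch u).source, (cp v : Fin m → ℂ) ∈ ball (cp u) ε → v ∈ U →
        ((∀ᶠ v' in 𝓝 v, A *ᵥ lV P om x v' = 0) ↔ G =ᶠ[𝓝 (cp v)] 0) := by
      intro v hvs hvb hvU
      have hsv : (ch u).symm (cp v) = v := (isCh_ch u).symm_cp hvs
      constructor
      · intro hp
        have hc : ContinuousAt (ch u).symm (cp v) :=
          (ch u).continuousAt_symm ((isCh_ch u).cp_mem hvs)
        have h2 := hc.eventually (by rw [hsv]; exact hp)
        filter_upwards [h2, isOpen_ball.mem_nhds hvb] with c hc1 hc2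
        show G c = 0
        rw [hG]
        rw [lV_mul hU hx hu (hB c hc2).2.1] at hc1
        exact hc1
      · intro hp
        have h2 := (cp_cont (M := X)).continuousAt.eventually hp
        filter_upwards [h2, hU.op.mem_nhds hvU, (ch u).open_source.mem_nhds hvs] with v' h3 h4 h5
        have h6 : (A * cm (P x u)) *ᵥ (lV P om u ((ch u).symm (cp v'))) = 0 := h3
        rw [(isCh_ch u).symm_cp h5] at h6
        rw [lV_mul hU hx hu h4, h6]
    have hN : {v : X | v ∈ (ch u).source ∧ (cp v : Fin m → ℂ) ∈ ball (cp u) ε ∧ v ∈ U} ∈ 𝓝[U] u := by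
      refine mem_nhdsWithin_of_mem_nhds ?_
      filter_upwards [(ch u).open_source.mem_nhds (mem_ch u),
        (cp_cont (M := X)).continuousAt.preimage_mem_nhds (isOpen_ball.mem_nhds (mem_ball_self hε)),
        hU.op.mem_nhds hu] with v h1 h2 h3 using ⟨h1, h2, h3⟩
    refine ⟨_, hN, fun v hv => ?_⟩
    rw [hdic u (mem_ch u) (mem_ball_self hε) hu, hdic v hv.1 hv.2.1 hv.2.2]
    constructor
    · intro h1
      have h2 := hGn.eqOn_zero_of_preconnected_of_eventuallyEq_zero hpre (mem_ball_self hε) h1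
      filter_upwards [isOpen_ball.mem_nhds hv.2.1] with c hc using h2 hc
    · intro h1
      have h2 := hGn.eqOn_zero_of_preconnected_of_eventuallyEq_zero hpre hv.2.1 h1
      filter_upwards [isOpen_ball.mem_nhds (mem_ball_self hε)] with c hc using h2 hc
  filter_upwards [key, hU.op.mem_nhds hy] with v h1 h2
  rw [← lV_mul hU hx hy h2, h1]

/-- **a linear relation of the translates of a holomorphic section continues along transports** -/
theorem germ_tr (hol : ∀ u, HolAt (lV P om u) u) {x y : X} {g : GL (Fin N) ℤ} (h : Tr P x y g) :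
    ∀ A : Matrix (Fin N) (Fin N) ℂ, (∀ᶠ v in 𝓝 x, A *ᵥ lV P om x v = 0) →
      ∀ᶠ v in 𝓝 y, (A * cm g) *ᵥ lV P om y v = 0 := by
  induction h with
  | refl x =>
    intro A hA
    simpa using hA
  | step hU hx hy _ ih =>
    intro A hA
    have h1 := ih _ (germ_step hol hU hx hy hA)
    simpa [cm_mul, Matrix.mul_assoc] using h1

theorem val_tr (hn : NDC P) (hol : ∀ u, HolAt (lV P om u) u) {x y : X} {g : GL (Fin N) ℤ}
    (h : Tr P x y g) {A : Matrix (Fin N) (Fin N) ℂ} (hA : ∀ᶠ v in 𝓝 x, A *ᵥ lV P om x v = 0) :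
    A *ᵥ (cm g *ᵥ om y) = 0 := by
  have h1 := (germ_tr hol h A hA).self_of_nhds
  have hself : P y y = 1 := by
    obtain ⟨U, hU, hUy⟩ := hn y
    have h2 := hUy y (mem_of_mem_nhds hU) y (mem_of_mem_nhds hU) y (mem_of_mem_nhds hU)
    exact mul_eq_left.1 h2
  unfold lV at h1
  rw [hself, cm_one, Matrix.one_mulVec, ← Matrix.mulVec_mulVec] at h1
  exact h1

end germ

/-! ### the hull condition -/

/-- monodromies which are scalar on the flat span of `om` commute with `E` and have a common finite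
exponent (= `GeoD.Hull` of `SkelGeo_220`) -/
def HulS (V : VHS m X N w) (om : X → Fin N → ℂ) : Prop :=
  ∃ e : ℕ, 0 < e ∧ ∀ (x : X) (g : GL (Fin N) ℤ), g ∈ mon V.P x → ∀ ζ : ℂ,
    (∀ (y : X) (h : GL (Fin N) ℤ), Tr V.P x y h →
      Matrix.mulVec (cm g) (Matrix.mulVec (cm h) (om y)) = ζ • Matrix.mulVec (cm h) (om y)) →
    cm g * V.E x = V.E x * cm g ∧ g ^ e = 1

variable {V : VHS m X N w} {om : X → Fin N → ℂ}

/-- germ form of the hull condition -/
theorem HulS.germ (h : HulS V om) (hol : ∀ u, HolAt (lV V.P om u) u) :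
    ∃ e : ℕ, 0 < e ∧ ∀ (x : X) (g : GL (Fin N) ℤ), g ∈ mon V.P x → ∀ ζ : ℂ,
      (∀ᶠ y in 𝓝 x, cm g *ᵥ lV V.P om x y = ζ • lV V.P om x y) →
      cm g * V.E x = V.E x * cm g ∧ g ^ e = 1 := by
  obtain ⟨e, he, H⟩ := h
  refine ⟨e, he, fun x g hg ζ hζ => H x g hg ζ fun y k hk => ?_⟩
  have h1 : ∀ᶠ v in 𝓝 x, (cm g - ζ • (1 : Matrix (Fin N) (Fin N) ℂ)) *ᵥ lV V.P om x v = 0 := by
    filter_upwards [hζ] with v hv
    rw [Matrix.sub_mulVec, hv, Matrix.smul_mulVec, Matrix.one_mulVec, sub_self]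
  have h2 := val_tr V.ndc hol hk h1
  rw [Matrix.sub_mulVec, Matrix.smul_mulVec, Matrix.one_mulVec, sub_eq_zero] at h2
  exact h2

/-! ### transports along frames -/

section frame

open Crest.Agent.R276.BdNf1_651 Crest.Agent.R276.BdNf2_651

variable {Y : Type*} [NormedAddCommGroup Y] [NormedSpace ℂ Y] {Ω : Set Y} {χ : Y → X}

theorem fr_tr (h : HM Ω χ) (n : Fr V Ω χ) {q q' : Y} (hq : q ∈ Ω) (hq' : q' ∈ Ω) :
    Tr V.P (χ q) (χ q') (n.g q * (n.g q')⁻¹) := by
  have : LocallyConnectedSpace X := Tr_617.rdom_lc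
  refine Top1_358.prop_of_isPreconnected (X := Y) h.cvx.isPreconnected
    (P := fun q' => Tr V.P (χ q) (χ q') (n.g q * (n.g q')⁻¹)) ?_ hq ?_ hq'
  · intro z hz
    obtain ⟨U, hU, hloc⟩ := n.loc z hz
    have h1 := (h.tendsto hz).eventually (Tr_617.tr_near V.ndc (χ z))
    refine ⟨_, mem_nhdsWithin_of_mem_nhds (inter_mem hU h1), fun y hy => ?_⟩
    obtain ⟨hyU, hy1, hy2, hy3⟩ := hy
    rw [hloc z (mem_of_mem_nhds hU) y hyU] at hy1
    rw [hloc y hyU z (mem_of_mem_nhds hU)] at hy2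
    constructor
    · intro h2
      refine (h2.trans hy1).congr ?_
      group
    · intro h2
      refine (h2.trans hy2).congr ?_
      group
  · have := Tr.refl (P := V.P) (χ q)
    rwa [mul_inv_cancel]

variable {d : ℕ} {r : ℝ} {σ : (Fin (d + 1) → ℂ) → X}

/-- the monodromy of a boundary chart -/
theorem mem_mon (h : HP σ r) (n : Nf V σ r) {q : Fin (d + 1) → ℂ} (hq : q ∈ HS d r) :
    n.fr.g q * n.T * (n.fr.g q)⁻¹ ∈ mon V.P (lift σ q) := by
  have h1 := fr_tr h.hm n.fr hq ((tw_mem 1).mpr hq)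
  rw [n.mono q hq, lift_tw] at h1
  refine Tr.congr h1 ?_
  group

theorem lV_frame (_h : HP σ r) (n : Nf V σ r) {q : Fin (d + 1) → ℂ} (hq : q ∈ HS d r) :
    ∀ᶠ q' in 𝓝 q, lV V.P om (lift σ q) (lift σ q') = cm (n.fr.g q) *ᵥ n.fr.pull om q' := by
  obtain ⟨U, hU, hloc⟩ := n.fr.loc q hq
  filter_upwards [hU] with q' hq'
  unfold lV Fr.pull
  rw [hloc q (mem_of_mem_nhds hU) q' hq', cm_mul, Matrix.mulVec_mulVec]

end frame

/-! ### the chart is open -/

section opn

open Crest.Agent.R276.BdNf2_651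

variable {d : ℕ}

theorem nhds_le_map_ex (q0 : Fin (d + 1) → ℂ) : 𝓝 (ex q0) ≤ map ex (𝓝 q0) := by
  intro S hS
  rw [mem_map] at hS
  set L : (Fin (d + 1) → ℂ) → Fin (d + 1) → ℂ := fun q =>
    Fin.cons (q0 0 + Complex.log (q 0 / Complex.exp (q0 0))) (fun i => q i.succ) with hL
  have hL0 : L (ex q0) = q0 := by
    funext i
    refine Fin.cases ?_ (fun j => ?_) i
    · simp [hL]
    · simp [hL]
  have hLc : ContinuousAt L (ex q0) := by
    rw [continuousAt_pi]
    intro i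
    refine Fin.cases ?_ (fun j => ?_) i
    · simp only [hL, Fin.cons_zero]
      refine continuousAt_const.add (ContinuousAt.clog ?_ ?_)
      · exact (continuous_apply 0).continuousAt.div_const _
      · rw [ex_zero, div_self (Complex.exp_ne_zero _)]
        exact Complex.one_mem_slitPlane
    · simp only [hL, Fin.cons_succ]
      exact (continuous_apply j.succ).continuousAt
  have h1 := hLc.preimage_mem_nhds (by rw [hL0]; exact hS)
  have h2 : ∀ᶠ q : Fin (d + 1) → ℂ in 𝓝 (ex q0), q 0 ≠ 0 :=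
    (continuous_apply 0).continuousAt.eventually_ne (by rw [ex_zero]; exact Complex.exp_ne_zero _)
  filter_upwards [h1, h2] with q hq1 hq2
  have h3 : ex (L q) = q := by
    funext i
    refine Fin.cases ?_ (fun j => ?_) i
    · rw [ex_zero, hL]
      simp only [Fin.cons_zero]
      rw [Complex.exp_add, Complex.exp_log (div_ne_zero hq2 (Complex.exp_ne_zero _)),
        mul_div_cancel₀ _ (Complex.exp_ne_zero _)]
    · simp [hL]
  rw [← h3]
  exact hq1

variable {M : Type*} [TopologicalSpace M] [RDom (d + 1) M]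

/-- a map into a Riemann domain with invertible derivative is open -/
theorem nhds_le_map {σ : (Fin (d + 1) → ℂ) → M} {U : Set (Fin (d + 1) → ℂ)} (hU : IsOpen U)
    (hc : ContinuousOn σ U) (hd : DifferentiableOn ℂ (fun q => (cp (σ q) : Fin (d + 1) → ℂ)) U)
    {q : Fin (d + 1) → ℂ} (hq : q ∈ U)
    (hj : (fderiv ℂ (fun q => (cp (σ q) : Fin (d + 1) → ℂ)) q).det ≠ 0) :
    𝓝 (σ q) ≤ map σ (𝓝 q) := by
  have ha : AnalyticAt ℂ (fun q => (cp (σ q) : Fin (d + 1) → ℂ)) q :=
    Crest.Agent.R266.SCV.analyticOnNhd_of_differentiableOn hU hd q hq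
  have hs : HasStrictFDerivAt (fun q => (cp (σ q) : Fin (d + 1) → ℂ))
      ((ContinuousLinearMap.toContinuousLinearEquivOfDetNeZero _ hj :
        (Fin (d + 1) → ℂ) ≃L[ℂ] (Fin (d + 1) → ℂ)) : (Fin (d + 1) → ℂ) →L[ℂ] (Fin (d + 1) → ℂ)) q := by
    rw [ContinuousLinearMap.coe_toContinuousLinearEquivOfDetNeZero]
    exact ha.hasStrictFDerivAt
  have h1 := hs.map_nhds_eq_of_equiv
  have hcq : ContinuousAt σ q := hc.continuousAt (hU.mem_nhds hq)
  have h2 : σ =ᶠ[𝓝 q] (ch (σ q)).symm ∘ fun q => (cp (σ q) : Fin (d + 1) → ℂ) := by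
    filter_upwards [hcq.preimage_mem_nhds ((ch (σ q)).open_source.mem_nhds (mem_ch (σ q)))]
      with q' hq'
    exact ((isCh_ch (σ q)).symm_cp hq').symm
  rw [map_congr h2, ← Filter.map_map, h1]
  have h3 := (ch (σ q)).symm.map_nhds_eq (x := cp (σ q)) ((isCh_ch (σ q)).cp_mem (mem_ch (σ q)))
  rw [symm_cp] at h3
  exact h3.ge

end opn

/-! ### case (A) -/

section main

open MeasureTheory
open Crest.Agent.R276.CntDefs_857 Crest.Agent.R276.LftDefs_327
open Crest.Agent.R276.BdNf1_651 Crest.Agent.R276.BdNf2_651 Crest.Agent.R276.BdNf3_651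

variable {d : ℕ} {M E : Type*} [TopologicalSpace M] [RDom (d + 1) M] [MeasurableSpace M]
  {μ : Measure M} [TopologicalSpace E] [RDom d E] {D : DChart M E μ} {u : X → ℂ} {f : X → M}
  {M0 : ℕ} {ι : Fin (d + 1) → Fin m} {φ ψ : M → ℝ}

/-- **case (A)** -/
theorem com_of_scalar (hH : HulS V om) (hw : WD V om u M0 f ι φ ψ) (l : LD D V om u f) (y : E)
    (n : Nf V (l.s y) (D.r y)) {ζ : ℂ} {q : Fin (d + 1) → ℂ} (hq : q ∈ HS d (D.r y))
    (hsc : ∀ᶠ q' in 𝓝 q, cm n.T *ᵥ n.fr.pull om q' = ζ • n.fr.pull om q') :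
    cm n.T * n.fr.E q = n.fr.E q * cm n.T := by
  have hr := GrH_217.r_pos D y
  have hP : HP (l.s y) (D.r y) := ⟨hr, l.cont y, l.hol y⟩
  obtain ⟨e, he, H⟩ := hH.germ hw.cyl.hol
  have hmem := mem_mon hP n hq
  have hexq : ex q ∈ PS d (D.r y) := ex_mem hr hq
  have hscal : ∀ᶠ z in 𝓝 (lift (l.s y) q),
      cm (n.fr.g q * n.T * (n.fr.g q)⁻¹) *ᵥ lV V.P om (lift (l.s y) q) z =
        ζ • lV V.P om (lift (l.s y) q) z := by
    refine HullT_327.scalar_of_slice hw.cyl hw.fl hw.prj (s := lift (l.s y)) (q₀ := q)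
      (hP.hm.tendsto hq) ?_ hw.prj.cont.continuousAt ?_
    · have h1 : f (lift (l.s y) q) = D.σ y (ex q) := l.fs y _ hexq
      have h2 : (f ∘ lift (l.s y)) =ᶠ[𝓝 q] (D.σ y ∘ ex) := by
        filter_upwards [(isOpen_HS d (D.r y)).mem_nhds hq] with q' hq'
        exact l.fs y _ (ex_mem hr hq')
      rw [h1, map_congr h2, ← Filter.map_map]
      refine (nhds_le_map (isOpen_PS d (D.r y)) (D.cont y) (D.hol y) hexq
        (D.jac y _ hexq)).trans ?_
      exact map_mono (nhds_le_map_ex q)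
    · filter_upwards [hsc, lV_frame (om := om) hP n hq] with q' h1 h2
      rw [h2, cm_mul, cm_mul, Matrix.mulVec_mulVec, Matrix.mul_assoc, cm_inv_mul_cm, Matrix.mul_one,
        ← Matrix.mulVec_mulVec, h1, Matrix.mulVec_smul]
  have h1 := (H _ _ hmem ζ hscal).1
  -- back to the frame
  unfold Fr.E
  have e1 : cm (n.fr.g q)⁻¹ * cm (n.fr.g q) = 1 := cm_inv_mul_cm _
  rw [cm_mul, cm_mul] at h1
  set G := cm (n.fr.g q) with hG
  set G' := cm (n.fr.g q)⁻¹ with hG'
  set T := cm n.T with hT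
  set F := V.E (lift (l.s y) q) with hF
  calc T * (G' * F * G) = (G' * G) * (T * (G' * F * G)) := by rw [e1, Matrix.one_mul]
    _ = G' * (G * T * G' * F) * G := by noncomm_ring
    _ = G' * (F * (G * T * G')) * G := by rw [h1]
    _ = (G' * F * G) * T * (G' * G) := by noncomm_ring
    _ = (G' * F * G) * T := by rw [e1, Matrix.mul_one]

theorem com_PP {y : E} {l : LD D V om u f} {n : Nf V (l.s y) (D.r y)} {q : Fin (d + 1) → ℂ}
    (h : cm n.T * n.fr.E q = n.fr.E q * cm n.T) (p : ℕ) :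
    PP n p q * cm n.T = cm n.T * PP n p q := by
  show Ipc735.hq w (n.fr.E q) p * cm n.T = cm n.T * Ipc735.hq w (n.fr.E q) p
  unfold Ipc735.hq
  split_ifs
  · exact (DiscA_651.hpr_comm h w p).symm
  · simp

end main

end Crest.Agent.R276.HulB_606
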