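import Crest.Agent.R276.GrAs2_857
import Crest.Agent.R276.GrAs3_857
import Crest.Agent.R276.GrH_217
import Crest.Agent.R276.GrF_606
import Crest.Agent.R276.GrB_606
import Crest.Agent.R276.GrB_217
import Crest.Agent.R276.EndC_659
import Mathlib
import Crest.Agent.R276.GrC_217
import Crest.Agent.R276.CntDefs_857
import Crest.Agent.R276.BdNf8_651
import Crest.Agent.R276.RkB_25
import Crest.Agent.R276.HulB_606
import Crest.Agent.R276.GrAs1_857
import Crest.Agent.R276.GrM_217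

-- ▼ part R276/GrAs4_857
section

/-!
# R276, leaf COUNT-GR, final assembly, part 4 (helper857): `Gen` with `p = 1`

* `psI_bdd`: the weight of `L` is bounded above near every point of the divisor;
* `gen_one`: `Gen D φ (e n ψ) (n k) 1`.
-/

set_option autoImplicit false
set_option linter.unusedSectionVars false

noncomputable section

open Set Filter Topology Metric MeasureTheory Matrix
open Crest.Agent.R271.Ho51 Crest.Agent.R276.Ipc735 Crest.Agent.R276.CntDefs_857
open Crest.Agent.R276.LftDefs_327 (WD LD)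

namespace Crest.Agent.R276.GrAs4_857

/-- a divisor is not empty -/
theorem nonempty_of_cov {d : ℕ} {E : Type*} [TopologicalSpace E] [RDom d E] (C : PCov d E) :
    Nonempty E := by
  obtain ⟨z, hz⟩ : ∃ z : Fin d → ℂ, MvPolynomial.eval z C.h ≠ 0 := by
    by_contra hcon
    push Not at hcon
    exact C.h0 (MvPolynomial.funext fun z => by rw [hcon z, map_zero])
  have hopen : IsOpen {w : Fin d → ℂ | MvPolynomial.eval w C.h ≠ 0} :=
    isOpen_ne_fun (MvPolynomial.continuous_eval C.h) continuous_const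
  obtain ⟨r, hr, hb⟩ := Metric.isOpen_iff.1 hopen z hz
  obtain ⟨s, hs, -, -⟩ := C.ev z r hr fun w hw => hb hw
  have i : Fin C.k := ⟨0, C.hk⟩
  obtain ⟨h1, h2⟩ := hs i
  have h3 : z ∈ (s i).target := by rw [h2]; exact mem_ball_self hr
  exact ⟨(s i).symm z⟩

section

variable {ι : Type*} [Fintype ι] [DecidableEq ι] {d : ℕ}
variable {M E : Type*} [TopologicalSpace M] [RDom (d + 1) M] [MeasurableSpace M]
    {μ : Measure M} [TopologicalSpace E] [RDom d E]
variable {D : DChart M E μ} {w e : ℕ} {k : ℤ} {ψ₀ : M → ℝ}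

open GrH_217 (LFam)

/-- **the weight of `L` is bounded above near every point of the divisor** -/
theorem psI_bdd (F : LFam ι D w e k ψ₀)
    (hcy : ∀ y, BdNf4_651.Cy w (GrB_217.HB d (Real.log (D.r y)) (D.r y)) (F.P y) (F.Om y)) (n : ℕ)
    (y : E) : ∃ ε > 0, ∃ C : ℝ, ∀ q ∈ PS d ε,
      D.psI (fun x => ((e * n : ℕ) : ℝ) * ψ₀ x) (n * k) y q ≤ C := by
  have h := F.lch y
  have hr : 0 < D.r y := GrH_217.r_pos D y
  obtain ⟨ε1, hε1, C1, hC1⟩ := GrAs3_857.pp_bdd h (hcy y) (F.f0 y)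
  have he : (0 : ℝ) < e := by exact_mod_cast h.he
  refine ⟨min ε1 (min (D.r y) (D.r y * Real.exp (-1))), by positivity,
    ((e * n : ℕ) : ℝ) * C1, fun q hq => ?_⟩
  have hq0 : 0 < ‖q 0‖ := norm_pos_iff.2 hq.1
  set q' : Fin (d + 1) → ℂ := Fin.cons (Complex.log (q 0)) (Fin.tail q) with hq'
  have e0 : q' 0 = Complex.log (q 0) := rfl
  have e1 : Complex.exp (q' 0) = q 0 := by rw [e0, Complex.exp_log hq.1]
  have e2 : (q' 0).re = Real.log ‖q 0‖ := by rw [e0, Complex.log_re]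
  have e3 : ∀ i : Fin d, q' i.succ = q i.succ := fun i => rfl
  have b1 : ‖q 0‖ < D.r y * Real.exp (-1) :=
    (hq.2 0).trans_le ((min_le_right _ _).trans (min_le_right _ _))
  have b2 : (q' 0).re ≤ Real.log (D.r y) - 1 := by
    rw [e2]
    have h1 := Real.log_le_log hq0 b1.le
    rw [Real.log_mul hr.ne' (Real.exp_pos _).ne', Real.log_exp] at h1
    linarith
  have hmem : q' ∈ GrB_217.HB d (Real.log (D.r y)) (D.r y) := by
    refine ⟨by linarith, fun i => ?_⟩
    rw [e3]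
    exact (hq.2 i.succ).trans_le ((min_le_right _ _).trans (min_le_left _ _))
  have hle := hC1 q' hmem b2 fun i => by
    rw [e3]
    exact ((hq.2 i.succ).trans_le (min_le_left _ _)).le
  have hpsi := F.psi y q' hmem
  have hqq : (Fin.cons (Complex.exp (q' 0)) (Fin.tail q') : Fin (d + 1) → ℂ) = q := by
    rw [e1, hq', Fin.tail_cons, Fin.cons_self_tail]
  rw [hqq] at hpsi
  have hbn := h.vhs.bn_eq (hcy y).bot hmem
  have hpp : BdNf4_651.pp w (F.S y) (F.Om y) q' = ψ₀ (D.σ y q) := by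
    unfold BdNf4_651.pp
    have h6 : VCalc_442.bn w (F.S y) (F.Om y) q' = Real.exp (-ψ₀ (D.σ y q)) := hbn.trans hpsi.symm
    rw [h6, Real.log_exp, neg_neg]
  rw [hpp, e2] at hle
  show ((e * n : ℕ) : ℝ) * ψ₀ (D.σ y q) + ((n * k : ℤ) : ℝ) * Real.log (‖q 0‖ ^ 2) ≤ _
  have hlog : Real.log (‖q 0‖ ^ 2) = 2 * Real.log ‖q 0‖ := by
    rw [Real.log_pow]; push_cast; ring
  rw [hlog]
  have hen : (0 : ℝ) ≤ ((e * n : ℕ) : ℝ) := Nat.cast_nonneg _
  have h5 := mul_le_mul_of_nonneg_left hle hen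
  refine le_trans (le_of_eq ?_) h5
  push_cast
  field_simp

end

section

variable {ι' : Type*} [Fintype ι'] [DecidableEq ι']
variable {d m N w : ℕ} {M E X : Type*} [TopologicalSpace M] [RDom (d + 1) M]
    [MeasurableSpace M] {μ : Measure M} [TopologicalSpace E] [RDom d E] [TopologicalSpace X]
    [RDom m X] {D : DChart M E μ} {V : VHS m X N w} {om : X → Fin N → ℂ} {u : X → ℂ} {M0 : ℕ}
    {f : X → M} {ι : Fin (d + 1) → Fin m} {φ ψ : M → ℝ} {e : ℕ} {k : ℤ}

open GrH_217 (LFam)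

/-- **`Gen` with `p = 1`** -/
theorem gen_one (h : WD V om u M0 f ι φ ψ) (l : LD D V om u f) (F : LFam ι' D w e k ψ)
    (hcy : ∀ y, BdNf4_651.Cy w (GrB_217.HB d (Real.log (D.r y)) (D.r y)) (F.P y) (F.Om y)) (n : ℕ) :
    Gen D φ (fun x => ((e * n : ℕ) : ℝ) * ψ x) (n * k) 1 := by
  have : Nonempty E := nonempty_of_cov D.cov
  refine ⟨univ, isOpen_univ, univ_nonempty, fun y _ => ?_⟩
  obtain ⟨C1, h1⟩ := GrAs2_857.phW_gen h l y
  obtain ⟨ε, hε, C2, h2⟩ := psI_bdd F hcy n y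
  have hr : 0 < D.r y := GrH_217.r_pos D y
  refine ⟨min (D.r y / 2) ε, max C1 C2, by positivity, fun q hq => ⟨?_, ?_⟩⟩
  · refine (h1 q ⟨hq.1, fun i => (hq.2 i).trans_le (min_le_left _ _)⟩).trans ?_
    have := le_max_left C1 C2
    linarith
  · exact (h2 q ⟨hq.1, fun i => (hq.2 i).trans_le (min_le_right _ _)⟩).trans (le_max_right _ _)

end

end Crest.Agent.R276.GrAs4_857
end
end

-- ▼ part R276/GrG_606
section

/-!
# R276, leaf GEN0 (helper606), part G: exponential decay of the Higgs field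

`decay1` : `‖θ z‖ ≤ C exp (δ re z)` for some `δ > 0`;
`decay2` : `‖θ z‖ ≤ C exp (re z)`, so `gden w P 1 z ≤ C exp (2 re z)`.
All constants depend on the data of `Bds` only.
-/

set_option autoImplicit false
set_option linter.unusedSectionVars false

open Set Filter Topology Matrix
open scoped ContDiff ComplexConjugate ComplexOrder

namespace Crest.Agent.R276.GrG_606

open Crest.Agent.R276.VCalc_442 Crest.Agent.R276.BndA_563 Crest.Agent.R276.GrD_606
open Crest.Agent.R276.GrE_606 Crest.Agent.R276.GrF_606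

attribute [local instance] Matrix.linftyOpNormedRing Matrix.linftyOpNormedAlgebra

variable {ι : Type*} [Fintype ι] [DecidableEq ι]
variable {w : ℕ} {S : Matrix ι ι ℂ} {P : ℕ → ℂ → Matrix ι ι ℂ} {a b C : ℝ}

theorem norm_dir_le (v : ℂ) {z : ℂ} :
    ‖dW (grOp w P) v z + tb (grOp w P) v z‖ ≤
      (‖dW (grOp w P) 1 z‖ + ‖tb (grOp w P) 1 z‖) * ‖v‖ := by
  have h1 : dW (grOp w P) v z = v • dW (grOp w P) 1 z := by
    have := dW_smul_dir (f := grOp w P) (x := z) v (1 : ℂ)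
    rwa [smul_eq_mul, mul_one] at this
  have h2 : tb (grOp w P) v z = (conj v) • tb (grOp w P) 1 z := by
    have := dB_smul_dir (f := grOp w P) (x := z) v (1 : ℂ)
    rw [smul_eq_mul, mul_one] at this
    unfold tb
    rw [this, smul_neg]
  rw [h1, h2]
  refine (norm_add_le _ _).trans ?_
  rw [norm_smul, norm_smul, Complex.norm_conj]
  linarith

/-- the derivative of the filtration -/
theorem norm_fderiv_le (D : Bds w S P a b C) {z : ℂ} (hz : z.re ≤ b) (p : ℕ) (v : ℂ) :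
    ‖fderiv ℝ (Fp w P p) z v‖ ≤ 4 * C * (C * Real.sqrt (gden w P 1 z)) * ‖v‖ := by
  have hC0 : 0 < C := lt_of_lt_of_le one_pos D.C1
  have h := D.vhs
  have hzm : z ∈ {z : ℂ | z.re < a} := lt_of_le_of_lt hz D.hab
  have hg := h.gden_nonneg hzm 1
  have hsq : ∀ {t : ℝ}, 0 ≤ t → t ^ 2 ≤ C * gden w P 1 z → t ≤ C * Real.sqrt (gden w P 1 z) := by
    intro t ht h1
    have h2 : t ^ 2 ≤ (C * Real.sqrt (gden w P 1 z)) ^ 2 := by
      rw [mul_pow, Real.sq_sqrt hg]
      refine h1.trans (mul_le_mul_of_nonneg_right ?_ hg)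
      nlinarith [D.C1]
    exact le_of_sq_le_sq h2 (by positivity)
  have h1 := hsq (norm_nonneg _) (D.lo z hz)
  have h2 := hsq (norm_nonneg _) (D.lo' z hz)
  have e1 : fderiv ℝ (Fp w P p) z v = (dW (grOp w P) v z + tb (grOp w P) v z) * Fp w P p z -
      Fp w P p z * (dW (grOp w P) v z + tb (grOp w P) v z) := by
    refine (VCalc_442.fderiv_eq (f := Fp w P p) (x := z) v).trans ?_
    rw [dW_Fp h hzm, dB_Fp h hzm, add_mul, mul_add]
    abel
  rw [e1]
  have h3 := D.nF z hz p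
  have h4 := norm_dir_le (w := w) (P := P) v (z := z)
  set T := dW (grOp w P) v z + tb (grOp w P) v z with hT
  set s := C * Real.sqrt (gden w P 1 z) with hs
  have h5 : ‖T‖ ≤ 2 * s * ‖v‖ := by
    refine h4.trans (mul_le_mul_of_nonneg_right ?_ (norm_nonneg v))
    linarith
  calc ‖T * Fp w P p z - Fp w P p z * T‖ ≤ ‖T‖ * ‖Fp w P p z‖ + ‖Fp w P p z‖ * ‖T‖ :=
        (norm_sub_le _ _).trans (add_le_add (norm_mul_le _ _) (norm_mul_le _ _))
    _ ≤ (2 * s * ‖v‖) * C + C * (2 * s * ‖v‖) := by gcongr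
    _ = 4 * C * s * ‖v‖ := by ring

theorem Fp_per (D : Bds w S P a b C) (p : ℕ) {z : ℂ} (hz : z.re < a) (n : ℤ) :
    Fp w P p (z + n * (2 * Real.pi * Complex.I)) = Fp w P p z := by
  refine GrC_606.periodic_int (p := fun t => t < a) (fun z hz => ?_) n hz
  unfold Fp
  exact Finset.sum_congr rfl fun q _ => D.per z hz q

/-- translate the imaginary part -/
theorem exists_shift (z z₀ : ℂ) : ∃ n : ℤ, |(z + n * (2 * Real.pi * Complex.I)).im - z₀.im| ≤
    Real.pi ∧ (z + n * (2 * Real.pi * Complex.I)).re = z.re := by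
  have hpi := Real.pi_pos
  refine ⟨round ((z₀.im - z.im) / (2 * Real.pi)), ?_, by simp⟩
  have h1 := abs_sub_round ((z₀.im - z.im) / (2 * Real.pi))
  set n := round ((z₀.im - z.im) / (2 * Real.pi)) with hn
  have h2 : (z + n * (2 * Real.pi * Complex.I)).im - z₀.im =
      -(2 * Real.pi) * ((z₀.im - z.im) / (2 * Real.pi) - n) := by
    have : (z + n * (2 * Real.pi * Complex.I)).im = z.im + n * (2 * Real.pi) := by simp
    rw [this]
    field_simp
    ring
  rw [h2, abs_mul, abs_neg, abs_of_pos (by positivity : (0:ℝ) < 2 * Real.pi)]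
  nlinarith

/-- mean value inequality on a segment -/
theorem segment {E : Type*} [NormedAddCommGroup E] [NormedSpace ℝ E] {f : ℂ → E} {M : ℝ}
    {x y : ℂ} (hf : ∀ t ∈ Icc (0 : ℝ) 1, DifferentiableAt ℝ f (x + t • (y - x)))
    (hM : ∀ t ∈ Icc (0 : ℝ) 1, ∀ v, ‖fderiv ℝ f (x + t • (y - x)) v‖ ≤ M * ‖v‖) :
    ‖f y - f x‖ ≤ M * ‖y - x‖ := by
  have h1 := norm_image_sub_le_of_norm_deriv_le_segment_01' (f := fun t : ℝ => f (x + t • (y - x)))
    (f' := fun t => fderiv ℝ f (x + t • (y - x)) (y - x)) (C := M * ‖y - x‖)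
    (fun t ht => ?_) (fun t ht => hM t ⟨ht.1, ht.2.le⟩ _)
  · simpa using h1
  · have h2 : HasDerivAt (fun t : ℝ => x + t • (y - x)) (y - x) t := by
      have := ((hasDerivAt_id t).smul_const (y - x)).const_add x
      simpa using this
    exact ((hf t ht).hasFDerivAt.comp_hasDerivAt t h2).hasDerivWithinAt

/-- oscillation of the filtration on a strip on which the derivative is bounded by `M` -/
theorem osc (D : Bds w S P a b C) {A1 A2 M : ℝ} (hA : A2 ≤ b) (hM : 0 ≤ M)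
    (hd : ∀ p, ∀ z : ℂ, A1 < z.re → z.re < A2 → ∀ v, ‖fderiv ℝ (Fp w P p) z v‖ ≤ M * ‖v‖)
    (p : ℕ) {z z₀ : ℂ}
    (h1 : A1 < z.re) (h2 : z.re < A2) (h3 : A1 < z₀.re) (h4 : z₀.re < A2) :
    ‖Fp w P p z - Fp w P p z₀‖ ≤ M * ((A2 - A1) + Real.pi) := by
  obtain ⟨n, hn1, hn2⟩ := exists_shift z z₀
  rw [← Fp_per D p (z := z) (by linarith [D.hab]) n]
  set z' := z + n * (2 * Real.pi * Complex.I) with hz'
  have hconv : Convex ℝ {z : ℂ | A1 < z.re ∧ z.re < A2} :=
    (convex_halfSpace_re_gt A1).inter (convex_halfSpace_re_lt A2)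
  have hmem : ∀ y ∈ {z : ℂ | A1 < z.re ∧ z.re < A2}, y ∈ {z : ℂ | z.re < a} := fun y hy => by
    show y.re < a
    have := hy.2
    linarith [D.hab]
  have hseg : ∀ t ∈ Icc (0 : ℝ) 1, z₀ + t • (z' - z₀) ∈ {z : ℂ | A1 < z.re ∧ z.re < A2} :=
    fun t ht => hconv.add_smul_sub_mem (x := z₀) (y := z') ⟨h3, h4⟩
      ⟨by rw [hn2]; exact h1, by rw [hn2]; exact h2⟩ ht
  have h5 := segment (f := Fp w P p) (M := M) (x := z₀) (y := z')
    (fun t ht => diff_Fp D.vhs (hmem _ (hseg t ht)) p)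
    (fun t ht v => hd p _ (hseg t ht).1 (hseg t ht).2 v)
  refine h5.trans (mul_le_mul_of_nonneg_left ?_ hM)
  refine (Complex.norm_le_abs_re_add_abs_im _).trans (add_le_add ?_ ?_)
  · rw [Complex.sub_re, hn2, abs_le]
    constructor <;> linarith
  · rw [Complex.sub_im]
    exact hn1

/-- the constant of `step` -/
noncomputable def cS (ι : Type*) [Fintype ι] [DecidableEq ι] (w : ℕ) (C : ℝ) : ℝ :=
  ((w + 1 : ℕ) : ℝ) * ((‖(1 : Matrix ι ι ℂ)‖ + C) *
      (8 * (C * (2 * ‖(1 : Matrix ι ι ℂ)‖) * C)) * (C * C) * C)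

theorem cS_nonneg {C : ℝ} (hC : 0 ≤ C) : 0 ≤ cS ι w C := by
  unfold cS
  positivity

/-- **first decay** : exponential with some rate -/
theorem decay1 (ι : Type*) [Fintype ι] [DecidableEq ι] (w : ℕ) (a b C : ℝ) :
    ∃ δ C' b' : ℝ, 0 < δ ∧ 0 ≤ C' ∧ b' ≤ b ∧ ∀ (S : Matrix ι ι ℂ) (P : ℕ → ℂ → Matrix ι ι ℂ),
      Bds w S P a b C → ∀ z : ℂ, z.re ≤ b' →
        ‖dW (grOp w P) 1 z‖ ≤ C' * Real.exp (δ * z.re) := by
  by_cases hC : 1 ≤ C
  swap
  · exact ⟨1, 0, b, one_pos, le_rfl, le_rfl, fun S P D => absurd D.C1 hC⟩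
  have hC0 : 0 < C := by linarith
  have hcst := EndTh_659.cst_pos ι
  have hpi := Real.pi_pos
  have hlog4 : 0 < Real.log 4 := Real.log_pos (by norm_num)
  -- `‖fderiv F^p z‖ ≤ K / |re z|` for `re z ≤ b1`
  set K : ℝ := 4 * C * (C * (2 * Real.sqrt (EndTh_659.cst ι))) with hK
  have hK0 : 0 < K := by positivity
  set η : ℝ := 1 / (2 * C ^ 2) with hη
  have hη0 : 0 < η := by positivity
  set δ : ℝ := min (1 / 2) (η / (8 * K)) with hδ
  have hδ0 : 0 < δ := lt_min (by norm_num) (by positivity)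
  have hδ1 : δ ≤ 1 / 2 := min_le_left _ _
  have hδ2 : δ ≤ η / (8 * K) := min_le_right _ _
  -- `τ0` large
  set τ0 : ℝ := 1 + 2 * |b| + 4 * |a| + Real.log 4 / δ + 4 * Real.pi * K / η with hτ0
  have hl4 : 0 ≤ Real.log 4 / δ := by positivity
  have hl5 : 0 ≤ 4 * Real.pi * K / η := by positivity
  refine ⟨δ, 2 * cS ι w C, -τ0, hδ0, by have := cS_nonneg (ι := ι) (w := w) hC0.le; positivity,
    by have := neg_abs_le b; have := abs_nonneg b; have := abs_nonneg a; linarith, ?_⟩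
  intro S P D z hz
  set τ : ℝ := -z.re with hτ
  have hττ : τ0 ≤ τ := by linarith
  have hab0 := abs_nonneg b
  have haa0 := abs_nonneg a
  have hτ1 : 1 ≤ τ := by linarith
  set A1 : ℝ := -(1 + δ) * τ with hA1
  set A2 : ℝ := -(1 - δ) * τ with hA2
  have hA2b : A2 ≤ -(τ / 2) := by
    rw [hA2]
    nlinarith
  have hA2b' : A2 ≤ b := by
    have := neg_abs_le b
    linarith
  have hA2a : A2 ≤ 2 * a := by
    have := neg_abs_le a
    linarith
  have hτδ : Real.log 4 ≤ δ * τ := by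
    have h1 : Real.log 4 / δ ≤ τ := by linarith
    rw [div_le_iff₀ hδ0] at h1
    linarith
  have hfd : ∀ p, ∀ y : ℂ, A1 < y.re → y.re < A2 → ∀ v,
      ‖fderiv ℝ (Fp w P p) y v‖ ≤ 2 * K / τ * ‖v‖ := by
    intro p y _ hy v
    refine (norm_fderiv_le D (by linarith) p v).trans (mul_le_mul_of_nonneg_right ?_
      (norm_nonneg v))
    have hya : y.re < a := by linarith [D.hab]
    have h1 : gden w P 1 y ≤ EndTh_659.cst ι / (a - y.re) ^ 2 :=
      EndTh_659.gg_le_halfplane D.vhs hya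
    have h2 : τ / 4 ≤ a - y.re := by linarith
    have h3 : Real.sqrt (gden w P 1 y) ≤ 2 * Real.sqrt (EndTh_659.cst ι) * (2 / τ) := by
      have h4 : gden w P 1 y ≤ (2 * Real.sqrt (EndTh_659.cst ι) * (2 / τ)) ^ 2 := by
        refine h1.trans ?_
        rw [mul_pow, mul_pow, Real.sq_sqrt hcst.le, div_pow]
        have h5 : (τ / 4) ^ 2 ≤ (a - y.re) ^ 2 := by gcongr
        calc EndTh_659.cst ι / (a - y.re) ^ 2 ≤ EndTh_659.cst ι / (τ / 4) ^ 2 := by gcongr
          _ = 2 ^ 2 * EndTh_659.cst ι * (2 ^ 2 / τ ^ 2) := by field_simp; norm_num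
      calc Real.sqrt (gden w P 1 y) ≤ Real.sqrt ((2 * Real.sqrt (EndTh_659.cst ι) * (2 / τ)) ^ 2) :=
            Real.sqrt_le_sqrt h4
        _ = _ := Real.sqrt_sq (by positivity)
    calc 4 * C * (C * Real.sqrt (gden w P 1 y))
        ≤ 4 * C * (C * (2 * Real.sqrt (EndTh_659.cst ι) * (2 / τ))) := by gcongr
      _ = 2 * K / τ := by rw [hK]; ring
  have hosc : ∀ p, ∀ y : ℂ, A1 < y.re → y.re < A2 → ‖Fp w P p y - Fp w P p z‖ ≤ 1 / (2 * C ^ 2) := by
    intro p y hy1 hy2
    have hz1 : A1 < z.re := by rw [hA1]; nlinarith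
    have hz2 : z.re < A2 := by rw [hA2]; nlinarith
    refine (osc D hA2b' (by positivity) hfd p hy1 hy2 hz1 hz2).trans ?_
    have h1 : A2 - A1 = 2 * δ * τ := by rw [hA1, hA2]; ring
    rw [h1, ← hη]
    have h2 : 2 * K / τ * (2 * δ * τ + Real.pi) = 4 * K * δ + 2 * Real.pi * K / τ := by
      field_simp; ring
    rw [h2]
    have h3 : 4 * K * δ ≤ η / 2 := by
      calc 4 * K * δ ≤ 4 * K * (η / (8 * K)) := by gcongr
        _ = η / 2 := by field_simp; norm_num
    have h4 : 2 * Real.pi * K / τ ≤ η / 2 := by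
      have h5 : 4 * Real.pi * K / η ≤ τ := by linarith
      rw [div_le_iff₀ hη0] at h5
      rw [div_le_iff₀ (by linarith)]
      linarith
    linarith
  have hz1 : A1 < z.re := by rw [hA1]; nlinarith
  have hz2 : z.re < A2 := by rw [hA2]; nlinarith
  have h1 := step D hA2b' hz1 hz2 hosc (z := z) (by rw [hA1]; nlinarith) (by rw [hA2]; nlinarith)
  refine h1.trans (le_of_eq ?_)
  have e1 : z.re - A2 = δ * z.re := by rw [hA2, hτ]; ring
  have e2 : A1 - z.re = δ * z.re := by rw [hA1, hτ]; ring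
  rw [e1, e2]
  unfold cS
  ring

end Crest.Agent.R276.GrG_606
end

-- ▼ part R276/GrH_606
section

/-!
# R276, leaf GEN0 (helper606), part H: `gden e₀ ≤ C |q₀|²`
-/

set_option autoImplicit false
set_option linter.unusedSectionVars false

open Set Filter Topology Matrix
open scoped ContDiff ComplexConjugate ComplexOrder

namespace Crest.Agent.R276.GrH_606

open Crest.Agent.R276.VCalc_442 Crest.Agent.R276.BndA_563 Crest.Agent.R276.GrD_606
open Crest.Agent.R276.GrE_606 Crest.Agent.R276.GrF_606 Crest.Agent.R276.GrG_606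

attribute [local instance] Matrix.linftyOpNormedRing Matrix.linftyOpNormedAlgebra

/-- horizontal oscillation -/
theorem horiz {E : Type*} [NormedAddCommGroup E] [NormedSpace ℝ E] {f : ℂ → E} {K δ A : ℝ}
    (hδ : 0 < δ) (hf : ∀ z : ℂ, z.re ≤ A → DifferentiableAt ℝ f z)
    (hK : ∀ z : ℂ, z.re ≤ A → ∀ v, ‖fderiv ℝ f z v‖ ≤ K * Real.exp (δ * z.re) * ‖v‖)
    (y : ℝ) {s t : ℝ} (hst : s ≤ t) (ht : t ≤ A) :
    ‖f (t + y * Complex.I) - f (s + y * Complex.I)‖ ≤
      K / δ * (Real.exp (δ * t) - Real.exp (δ * s)) := by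
  have hd : ∀ x : ℝ, x ≤ A → HasDerivAt (fun x : ℝ => f (x + y * Complex.I) -
      f (s + y * Complex.I)) (fderiv ℝ f (x + y * Complex.I) 1) x := by
    intro x hx
    have h2 : HasDerivAt (fun x : ℝ => (x : ℂ) + y * Complex.I) 1 x :=
      (Complex.ofRealCLM.hasDerivAt (x := x)).add_const _
    exact ((hf _ (by simpa using hx)).hasFDerivAt.comp_hasDerivAt x h2).sub_const _
  have hB : ∀ x : ℝ, HasDerivAt (fun x => K / δ * (Real.exp (δ * x) - Real.exp (δ * s)))
      (K * Real.exp (δ * x)) x := by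
    intro x
    have h1 : HasDerivAt (fun x : ℝ => Real.exp (δ * x)) (Real.exp (δ * x) * δ) x := by
      have := ((hasDerivAt_id x).const_mul δ).exp
      simpa using this
    have h2 := (h1.sub_const (Real.exp (δ * s))).const_mul (K / δ)
    have e : K / δ * (Real.exp (δ * x) * δ) = K * Real.exp (δ * x) := by
      field_simp
    rwa [e] at h2
  have h := image_norm_le_of_norm_deriv_right_le_deriv_boundary
    (f := fun x : ℝ => f (x + y * Complex.I) - f (s + y * Complex.I)) (a := s) (b := t)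
    (f' := fun x => fderiv ℝ f (x + y * Complex.I) 1)
    (fun x hx => (hd x (hx.2.trans ht)).continuousAt.continuousWithinAt)
    (fun x hx => (hd x (hx.2.le.trans ht)).hasDerivWithinAt)
    (B := fun x => K / δ * (Real.exp (δ * x) - Real.exp (δ * s)))
    (B' := fun x => K * Real.exp (δ * x)) (by simp) hB
    (fun x hx => by
      have := hK (x + y * Complex.I) (by simpa using hx.2.le.trans ht) 1
      simpa using this)
  exact h ⟨hst, le_rfl⟩

/-- vertical oscillation -/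
theorem vert {E : Type*} [NormedAddCommGroup E] [NormedSpace ℝ E] {f : ℂ → E} {K δ A : ℝ}
    (hf : ∀ z : ℂ, z.re ≤ A → DifferentiableAt ℝ f z)
    (hK : ∀ z : ℂ, z.re ≤ A → ∀ v, ‖fderiv ℝ f z v‖ ≤ K * Real.exp (δ * z.re) * ‖v‖)
    (t : ℝ) (ht : t ≤ A) (y y' : ℝ) :
    ‖f (t + y * Complex.I) - f (t + y' * Complex.I)‖ ≤
      K * Real.exp (δ * t) * |y - y'| := by
  have hre : ∀ s : ℝ, ((t + y' * Complex.I) + s • ((t + y * Complex.I) - (t + y' * Complex.I)) :
      ℂ).re = t := by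
    intro s
    simp
  have h := segment (f := f) (M := K * Real.exp (δ * t)) (x := t + y' * Complex.I)
    (y := t + y * Complex.I) (fun s _ => hf _ (by rw [hre]; exact ht))
    (fun s _ v => by
      have := hK ((t + y' * Complex.I) + s • ((t + y * Complex.I) - (t + y' * Complex.I)))
        (by rw [hre]; exact ht) v
      rwa [hre] at this)
  have e : ‖((t + y * Complex.I) - (t + y' * Complex.I) : ℂ)‖ = |y - y'| := by
    rw [show ((t + y * Complex.I) - (t + y' * Complex.I) : ℂ) = ((y - y' : ℝ) : ℂ) * Complex.I by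
      push_cast; ring]
    rw [norm_mul, Complex.norm_I, mul_one, Complex.norm_real, Real.norm_eq_abs]
  rwa [e] at h

variable {ι : Type*} [Fintype ι] [DecidableEq ι]

/-- **second decay** -/
theorem decay2 (ι : Type*) [Fintype ι] [DecidableEq ι] (w : ℕ) (a b C : ℝ) :
    ∃ C' b' : ℝ, 0 ≤ C' ∧ b' ≤ b ∧ ∀ (S : Matrix ι ι ℂ) (P : ℕ → ℂ → Matrix ι ι ℂ),
      Bds w S P a b C → ∀ z : ℂ, z.re ≤ b' → gden w P 1 z ≤ C' * Real.exp (2 * z.re) := by
  by_cases hC : 1 ≤ C
  swap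
  · exact ⟨0, b, le_rfl, le_rfl, fun S P D => absurd D.C1 hC⟩
  have hC0 : 0 < C := by linarith
  have hpi := Real.pi_pos
  have hlog4 : 0 < Real.log 4 := Real.log_pos (by norm_num)
  obtain ⟨δ, C1, b1, hδ, hC1, hb1, H1⟩ := decay1 ι w a b C
  set K : ℝ := 4 * C * (C * (C * C1)) with hK
  have hK0 : 0 ≤ K := by positivity
  set K' : ℝ := 2 * C ^ 2 * (K * (1 / δ + Real.pi)) + 1 with hK'
  have hK'0 : 0 < K' := by positivity
  set A2 : ℝ := min b1 (Real.log (1 / K') / δ) with hA2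
  have hA2b1 : A2 ≤ b1 := min_le_left _ _
  have hA2b : A2 ≤ b := hA2b1.trans hb1
  have hexp : Real.exp (δ * A2) ≤ 1 / K' := by
    have h1 : A2 ≤ Real.log (1 / K') / δ := min_le_right _ _
    rw [le_div_iff₀ hδ] at h1
    rw [← Real.le_log_iff_exp_le (by positivity)]
    linarith
  have hcS := cS_nonneg (ι := ι) (w := w) hC0.le
  refine ⟨C * (2 * cS ι w C * Real.exp (-A2)) ^ 2, A2 - Real.log 4, by positivity, by linarith,
    ?_⟩
  intro S P D z hz
  have hfd : ∀ p, ∀ y : ℂ, y.re ≤ A2 → ∀ v,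
      ‖fderiv ℝ (Fp w P p) y v‖ ≤ K * Real.exp (δ * y.re) * ‖v‖ := by
    intro p y hy v
    refine (norm_fderiv_le D (by linarith) p v).trans (mul_le_mul_of_nonneg_right ?_
      (norm_nonneg v))
    have h1 := D.up y (by linarith)
    have h2 := H1 S P D y (by linarith)
    have h3 : Real.sqrt (gden w P 1 y) ≤ C * C1 * Real.exp (δ * y.re) := by
      have h4 : gden w P 1 y ≤ (C * C1 * Real.exp (δ * y.re)) ^ 2 := by
        refine h1.trans ?_
        have h5 : ‖dW (grOp w P) 1 y‖ ^ 2 ≤ (C1 * Real.exp (δ * y.re)) ^ 2 := by gcongr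
        calc C * ‖dW (grOp w P) 1 y‖ ^ 2 ≤ C ^ 2 * (C1 * Real.exp (δ * y.re)) ^ 2 := by
              refine mul_le_mul ?_ h5 (sq_nonneg _) (by positivity)
              nlinarith
          _ = _ := by ring
      calc Real.sqrt (gden w P 1 y) ≤ Real.sqrt ((C * C1 * Real.exp (δ * y.re)) ^ 2) :=
            Real.sqrt_le_sqrt h4
        _ = _ := Real.sqrt_sq (by positivity)
    calc 4 * C * (C * Real.sqrt (gden w P 1 y)) ≤ 4 * C * (C * (C * C1 * Real.exp (δ * y.re))) := by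
          gcongr
      _ = K * Real.exp (δ * y.re) := by rw [hK]; ring
  have hmem : ∀ y : ℂ, y.re ≤ A2 → y ∈ {z : ℂ | z.re < a} := fun y hy => by
    show y.re < a
    linarith [D.hab]
  have hdf : ∀ p, ∀ y : ℂ, y.re ≤ A2 → DifferentiableAt ℝ (Fp w P p) y :=
    fun p y hy => diff_Fp D.vhs (hmem y hy) p
  have hH : ∀ p (y : ℝ) {s t : ℝ}, s ≤ A2 → t ≤ A2 →
      ‖Fp w P p (t + y * Complex.I) - Fp w P p (s + y * Complex.I)‖ ≤
        K / δ * Real.exp (δ * A2) := by
    intro p y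
    have key : ∀ {s t : ℝ}, s ≤ t → t ≤ A2 →
        ‖Fp w P p (t + y * Complex.I) - Fp w P p (s + y * Complex.I)‖ ≤
          K / δ * Real.exp (δ * A2) := by
      intro s t hst ht
      refine (horiz hδ (hdf p) (hfd p) y hst ht).trans
        (mul_le_mul_of_nonneg_left ?_ (by positivity))
      have h1 : Real.exp (δ * t) ≤ Real.exp (δ * A2) :=
        Real.exp_le_exp.2 (mul_le_mul_of_nonneg_left ht hδ.le)
      have h2 := Real.exp_pos (δ * s)
      linarith
    intro s t hs ht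
    rcases le_total s t with h | h
    · exact key h ht
    · rw [norm_sub_rev]; exact key h hs
  have hosc : ∀ p, ∀ y z₀ : ℂ, y.re < A2 → z₀.re < A2 →
      ‖Fp w P p y - Fp w P p z₀‖ ≤ 1 / (2 * C ^ 2) := by
    intro p y z₀ hy hz₀
    obtain ⟨n, hn1, hn2⟩ := exists_shift y z₀
    rw [← Fp_per D p (z := y) (by linarith [D.hab]) n]
    set y' := y + n * (2 * Real.pi * Complex.I) with hy'
    have e1 : y' = (y'.re : ℂ) + y'.im * Complex.I := (Complex.re_add_im y').symm
    have e2 : z₀ = (z₀.re : ℂ) + z₀.im * Complex.I := (Complex.re_add_im z₀).symm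
    have h1 := vert (hdf p) (hfd p) y'.re (by rw [hn2]; exact hy.le) y'.im z₀.im
    have h2 := hH p z₀.im (s := z₀.re) (t := y'.re) hz₀.le (by rw [hn2]; exact hy.le)
    rw [← e1] at h1
    rw [← e2] at h2
    have h3 : Real.exp (δ * y'.re) ≤ Real.exp (δ * A2) :=
      Real.exp_le_exp.2 (mul_le_mul_of_nonneg_left (by rw [hn2]; exact hy.le) hδ.le)
    have h4 : K * Real.exp (δ * y'.re) * |y'.im - z₀.im| ≤ K * Real.exp (δ * A2) * Real.pi := by
      gcongr
    have h5 : ‖Fp w P p y' - Fp w P p z₀‖ ≤ K * Real.exp (δ * A2) * Real.pi +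
        K / δ * Real.exp (δ * A2) := by
      calc ‖Fp w P p y' - Fp w P p z₀‖ = ‖(Fp w P p y' - Fp w P p (y'.re + z₀.im * Complex.I)) +
            (Fp w P p (y'.re + z₀.im * Complex.I) - Fp w P p z₀)‖ := by congr 1; abel
        _ ≤ _ := (norm_add_le _ _).trans (add_le_add (h1.trans h4) h2)
    refine h5.trans ?_
    have e3 : K * Real.exp (δ * A2) * Real.pi + K / δ * Real.exp (δ * A2) =
        (K * (1 / δ + Real.pi)) * Real.exp (δ * A2) := by ring
    rw [e3]
    calc (K * (1 / δ + Real.pi)) * Real.exp (δ * A2) ≤ (K * (1 / δ + Real.pi)) * (1 / K') := by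
          gcongr
      _ ≤ 1 / (2 * C ^ 2) := by
          rw [mul_one_div, div_le_div_iff₀ hK'0 (by positivity), hK']
          linarith
  have h1 := step D hA2b (z₀ := z) (A1 := 2 * z.re - A2) (by linarith) (by linarith)
    (fun p y _ hy => hosc p y z hy (by linarith)) (z := z) (by linarith) (by linarith)
  have e1 : 2 * z.re - A2 - z.re = z.re - A2 := by ring
  rw [e1] at h1
  have h2 : ‖dW (grOp w P) 1 z‖ ≤ 2 * cS ι w C * Real.exp (-A2) * Real.exp z.re := by
    refine h1.trans (le_of_eq ?_)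
    rw [sub_eq_add_neg, Real.exp_add]
    unfold cS
    ring
  refine (D.up z (by linarith)).trans ?_
  have h3 : ‖dW (grOp w P) 1 z‖ ^ 2 ≤ (2 * cS ι w C * Real.exp (-A2) * Real.exp z.re) ^ 2 := by
    gcongr
  calc C * ‖dW (grOp w P) 1 z‖ ^ 2 ≤ C * (2 * cS ι w C * Real.exp (-A2) * Real.exp z.re) ^ 2 := by
        gcongr
    _ = _ := by
        rw [mul_pow _ (Real.exp z.re), ← Real.exp_nat_mul]
        push_cast
        ring

end Crest.Agent.R276.GrH_606
end

-- ▼ part R276/GrI_606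
section

/-!
# R276, leaf GEN0 (helper606), part I: a periodic variation on the half space

If the variation on `{re q₀ < a, ‖q_i‖ < R}` is periodic under `q₀ ↦ q₀ + 2πi`, then the Hodge metric
is bounded near `re q₀ = -∞` and the Gram determinant of the coordinate frame is `≤ C |exp q₀|²`.
-/

set_option autoImplicit false
set_option linter.unusedSectionVars false

open Set Filter Topology Matrix Metric
open scoped ContDiff ComplexConjugate ComplexOrder

namespace Crest.Agent.R276.GrI_606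

open Crest.Agent.R276.VCalc_442 Crest.Agent.R276.BndA_563
open Crest.Agent.R276.GrE_606 Crest.Agent.R276.GrF_606
open Crest.Agent.R276.GrB_217 (HB isOpen_HB)
open Crest.Agent.R276.GrB_606 (fr)

variable {ι : Type*} [Fintype ι] [DecidableEq ι]

section nm

attribute [local instance] Matrix.linftyOpNormedRing Matrix.linftyOpNormedAlgebra

theorem norm_le_of_hn {K : Matrix ι ι ℂ} (hK : K.PosDef) {B : ℝ} (hB : 0 ≤ B)
    (h : ∀ i, hn K (Pi.single i 1) ≤ B) : ‖K‖ ≤ Fintype.card ι * B := by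
  refine norm_le_of_entry hB fun i j => ?_
  have h1 := sf_cs hK (Pi.single i 1) (Pi.single j 1)
  have e1 : sf K (Pi.single i 1) (Pi.single j 1) = K i j := by
    unfold sf
    simp
  have h2 : (sf K (Pi.single i 1) (Pi.single i 1)).re ≤ B := h i
  have h3 : (sf K (Pi.single j 1) (Pi.single j 1)).re ≤ B := h j
  have h4 : 0 ≤ (sf K (Pi.single j 1) (Pi.single j 1)).re := hn_nonneg hK _
  rw [e1] at h1
  have h5 : ‖K i j‖ ^ 2 ≤ B ^ 2 := by
    refine h1.trans ?_
    rw [sq]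
    exact mul_le_mul h2 h3 h4 hB
  exact le_of_sq_le_sq h5 hB

end nm

variable {w d : ℕ} {a R : ℝ} {S : Matrix ι ι ℂ} {P : ℕ → (Fin (d + 1) → ℂ) → Matrix ι ι ℂ}

theorem contDiff_cons (z' : Fin d → ℂ) :
    ContDiff ℂ ∞ (fun x : ℂ => (Fin.cons x z' : Fin (d + 1) → ℂ)) := by
  rw [contDiff_pi]
  intro i
  refine Fin.cases ?_ (fun j => ?_) i
  · simp only [Fin.cons_zero]; exact contDiff_id
  · simp only [Fin.cons_succ]; exact contDiff_const

theorem fderiv_cons (z' : Fin d → ℂ) (x : ℂ) :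
    fderiv ℂ (fun x : ℂ => (Fin.cons x z' : Fin (d + 1) → ℂ)) x 1 = Pi.single 0 1 := by
  have h : HasFDerivAt (fun x : ℂ => (Fin.cons x z' : Fin (d + 1) → ℂ))
      ((ContinuousLinearMap.id ℂ ℂ).smulRight (Pi.single 0 1 : Fin (d + 1) → ℂ)) x := by
    have h2 := (((ContinuousLinearMap.id ℂ ℂ).smulRight
      (Pi.single 0 1 : Fin (d + 1) → ℂ)).hasFDerivAt (x := x)).add_const (Fin.cons 0 z')
    refine h2.congr_of_eventuallyEq (Filter.Eventually.of_forall fun y => ?_)
    funext i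
    refine Fin.cases ?_ (fun j => ?_) i
    · simp
    · simp
  rw [h.fderiv]
  simp

/-- the slice at `z'` -/
theorem slice (h : VHS w (HB d a R) S P) {z' : Fin d → ℂ} (hz' : ∀ i, ‖z' i‖ < R) :
    VHS w {x : ℂ | x.re < a} S (fun p x => P p (Fin.cons x z')) := by
  refine EndTh_659.pull h (isOpen_lt Complex.continuous_re continuous_const)
    (contDiff_cons z').contDiffOn fun x hx => ⟨?_, fun i => ?_⟩
  · simpa using hx
  · simpa using hz' i

theorem gden_slice (h : VHS w (HB d a R) S P) {z' : Fin d → ℂ} (hz' : ∀ i, ‖z' i‖ < R) {x : ℂ}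
    (hx : x.re < a) :
    gden w (fun p x => P p (Fin.cons x z')) 1 x = gden w P (Pi.single 0 1) (Fin.cons x z') := by
  have hm : (Fin.cons x z' : Fin (d + 1) → ℂ) ∈ HB d a R := ⟨by simpa using hx,
    fun i => by simpa using hz' i⟩
  have h1 := EndTh_659.gg_pull (f := fun x : ℂ => (Fin.cons x z' : Fin (d + 1) → ℂ)) h (y := x) hm
    (((contDiff_cons z').contDiffAt).differentiableAt (by simp)) 1
  rw [fderiv_cons] at h1
  exact h1

theorem cons_mem {a R : ℝ} {x : ℂ} {z' : Fin d → ℂ} (hx : x.re < a) (hz' : ∀ i, ‖z' i‖ < R) :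
    (Fin.cons x z' : Fin (d + 1) → ℂ) ∈ HB d a R := ⟨by simpa using hx, fun i => by simpa using hz' i⟩

theorem ball_sub {ρ : ℝ} (hρ : ρ ≤ R) {x : ℂ} (hx : x.re + ρ ≤ a) :
    ball (Fin.cons x 0 : Fin (d + 1) → ℂ) ρ ⊆ HB d a R := by
  intro y hy
  rw [mem_ball, dist_eq_norm] at hy
  have h0 : ∀ i, ‖(y - Fin.cons x 0 : Fin (d + 1) → ℂ) i‖ < ρ := fun i =>
    (norm_le_pi_norm _ i).trans_lt hy
  refine ⟨?_, fun i => ?_⟩
  · have h1 := h0 0
    have h2 : ((y - Fin.cons x 0 : Fin (d + 1) → ℂ) 0) = y 0 - x := by simp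
    rw [h2] at h1
    have h3 := (Complex.re_le_norm (y 0 - x)).trans_lt h1
    rw [Complex.sub_re] at h3
    linarith
  · have h1 := h0 i.succ
    have h2 : ((y - Fin.cons x 0 : Fin (d + 1) → ℂ) i.succ) = y i.succ := by simp
    rw [h2] at h1
    linarith

section nm2

attribute [local instance] Matrix.linftyOpNormedRing Matrix.linftyOpNormedAlgebra

/-- **the Hodge metric is bounded** -/
theorem hm_bdd (hR : 0 < R) (h : VHS w (HB d a R) S P)
    (per : ∀ q ∈ HB d a R, ∀ p, P p (q + Pi.single 0 (2 * Real.pi * Complex.I)) = P p q) :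
    ∃ B ε b : ℝ, 0 < ε ∧ ε ≤ R / 2 ∧ b < a ∧ ∀ x : ℂ, x.re ≤ b → ∀ z' : Fin d → ℂ,
      (∀ i, ‖z' i‖ < ε) → ‖hm w S P (Fin.cons x z')‖ ≤ B := by
  set s1 : ℝ := max (-a + 1) 1 with hs1
  have h1a : -a + 1 ≤ s1 := le_max_left _ _
  have h11 : 1 ≤ s1 := le_max_right _ _
  have hsl := slice h (z' := 0) (fun i => by simpa using hR)
  have key : ∀ u : ι → ℂ, ∃ B, ∀ x : ℂ, x.re ≤ -s1 → hn (hm w S P (Fin.cons x 0)) u ≤ B := by
    intro u
    have h2 := EndC_659.bounded_flat (s0 := -a) (s1 := s1) (w := w) (S := S)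
      (P := fun p x => P p (Fin.cons x 0)) (by linarith) (by linarith)
      (by rw [neg_neg]; exact hsl) u (by
        intro x hx
        rw [neg_neg] at hx
        have e1 : ∀ p, P p (Fin.cons (x + 2 * Real.pi * Complex.I) 0) = P p (Fin.cons x 0) := by
          intro p
          rw [← per _ (cons_mem hx fun i => by simpa using hR) p]
          congr 1
          funext i
          refine Fin.cases ?_ (fun j => ?_) i
          · simp
          · simp
        have e2 : hm w S (fun p x => P p (Fin.cons x 0)) (x + 2 * Real.pi * Complex.I) =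
            hm w S (fun p x => P p (Fin.cons x 0)) x := by
          unfold hm sgOp
          simp only [e1]
        rw [e2])
    obtain ⟨B, hB⟩ := h2
    exact ⟨B, hB⟩
  choose Bu hBu using key
  set B : ℝ := ∑ i, |Bu (Pi.single i 1)| with hBd
  have hB0 : 0 ≤ B := Finset.sum_nonneg fun i _ => abs_nonneg _
  set ρ : ℝ := min R 1 with hρ
  have hρ0 : 0 < ρ := lt_min hR one_pos
  have hρR : ρ ≤ R := min_le_left _ _
  have hρ1 : ρ ≤ 1 := min_le_right _ _
  refine ⟨Fintype.card ι * (Real.exp (C0 ι) * B), ρ / 2, -s1, by positivity, by linarith,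
    by linarith, fun x hx z' hz' => ?_⟩
  have hsub := ball_sub (d := d) (a := a) hρR (x := x) (by linarith)
  have hy : (Fin.cons x z' : Fin (d + 1) → ℂ) ∈ ball (Fin.cons x 0 : Fin (d + 1) → ℂ) (ρ / 2) := by
    rw [mem_ball, dist_eq_norm, pi_norm_lt_iff (by positivity)]
    intro i
    refine Fin.cases ?_ (fun j => ?_) i
    · simpa using hρ0
    · simpa using hz' j
  refine norm_le_of_hn (h.hmPos (hsub (ball_subset_ball (by linarith) hy))) (by positivity)
    fun i => ?_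
  have h3 := hn_le h hρ0 hsub (Pi.single i 1) hy (mem_ball_self (by positivity))
  refine h3.trans (mul_le_mul_of_nonneg_left ?_ (Real.exp_pos _).le)
  refine (hBu _ x hx).trans ((le_abs_self _).trans ?_)
  exact Finset.single_le_sum (f := fun i => |Bu (Pi.single i 1)|) (fun i _ => abs_nonneg _)
    (Finset.mem_univ i)

end nm2

/-- **the density of the normal direction** -/
theorem gden_le (hR : 0 < R) (h : VHS w (HB d a R) S P)
    (per : ∀ q ∈ HB d a R, ∀ p, P p (q + Pi.single 0 (2 * Real.pi * Complex.I)) = P p q) :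
    ∃ C ε b : ℝ, 0 ≤ C ∧ 0 < ε ∧ ε ≤ R / 2 ∧ b < a ∧ ∀ q : Fin (d + 1) → ℂ, (q 0).re ≤ b →
      (∀ i : Fin d, ‖q i.succ‖ < ε) → gden w P (Pi.single 0 1) q ≤ C * Real.exp (2 * (q 0).re) := by
  obtain ⟨B, ε, b, hε, hεR, hb, hB⟩ := hm_bdd hR h per
  obtain ⟨C, hC⟩ := exists_bds w S a b B hb
  obtain ⟨C', b', hC', hb', H⟩ := GrH_606.decay2 ι w a b C
  refine ⟨C', ε, b', hC', hε, hεR, by linarith, fun q hq0 hq => ?_⟩
  have hzR : ∀ i : Fin d, ‖q i.succ‖ < R := fun i => by linarith [hq i]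
  have hcons : (Fin.cons (q 0) (fun i => q i.succ) : Fin (d + 1) → ℂ) = q := Fin.cons_self_tail q
  have D : Bds w S (fun p x => P p (Fin.cons x (fun i => q i.succ))) a b C := by
    refine hC _ (slice h hzR) (fun x hx p => ?_) (fun x hx => ?_)
    · rw [← per _ (cons_mem hx hzR) p]
      congr 1
      funext i
      refine Fin.cases ?_ (fun j => ?_) i
      · simp
      · simp
    · exact hB x hx _ hq
  have h1 := H S _ D (q 0) hq0
  rw [gden_slice h hzR (by linarith), hcons] at h1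
  exact h1

/-- **the Gram determinant** -/
theorem det_le (hR : 0 < R) (h : VHS w (HB d a R) S P)
    (per : ∀ q ∈ HB d a R, ∀ p, P p (q + Pi.single 0 (2 * Real.pi * Complex.I)) = P p q) :
    ∃ C ε b : ℝ, 0 < C ∧ 0 < ε ∧ ε ≤ R / 2 ∧ b < a ∧ ∀ q : Fin (d + 1) → ℂ, (q 0).re ≤ b →
      (∀ i : Fin d, ‖q i.succ‖ < ε) →
      (gm w P (fr d) q).det.re ≤ C * Real.exp (2 * (q 0).re) := by
  obtain ⟨C, ε, b, hC, hε, hεR, hb, H⟩ := gden_le hR h per
  have hcst := EndTh_659.cst_pos ι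
  refine ⟨(C + 1) * (EndTh_659.cst ι / (R / 2) ^ 2) ^ d, ε, b, by positivity, hε, hεR, hb,
    fun q hq0 hq => ?_⟩
  have hqm : q ∈ HB d a R := ⟨by linarith, fun i => by linarith [hq i]⟩
  refine (h.det_le hqm (fr d)).trans ?_
  rw [Fin.prod_univ_succ]
  have hsucc : ∀ i : Fin d, gden w P (fr d i.succ) q ≤ EndTh_659.cst ι / (R / 2) ^ 2 := by
    intro i
    refine GrB_606.gden_le_line h (by positivity) fun t ht => ⟨?_, fun j => ?_⟩
    · have h1 : (q + t • (fr d i.succ : Fin (d + 1) → ℂ)) 0 = q 0 := by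
        simp [fr]
      rw [h1]
      exact hqm.1
    · rcases eq_or_ne j i with rfl | hji
      · have h1 : (q + t • (fr d j.succ : Fin (d + 1) → ℂ)) j.succ = q j.succ + t := by simp [fr]
        rw [h1]
        linarith [norm_add_le (q j.succ) t, hq j]
      · have h1 : (q + t • (fr d i.succ : Fin (d + 1) → ℂ)) j.succ = q j.succ := by
          have : j.succ ≠ i.succ := fun h => hji (Fin.succ_injective _ h)
          simp [fr, this]
        rw [h1]
        exact hqm.2 j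
  have h0 : gden w P (fr d 0) q ≤ (C + 1) * Real.exp (2 * (q 0).re) :=
    (H q hq0 hq).trans (mul_le_mul_of_nonneg_right (by linarith) (Real.exp_pos _).le)
  calc gden w P (fr d 0) q * ∏ i : Fin d, gden w P (fr d i.succ) q
      ≤ (C + 1) * Real.exp (2 * (q 0).re) * (EndTh_659.cst ι / (R / 2) ^ 2) ^ d := by
        refine mul_le_mul h0 ?_ (Finset.prod_nonneg fun i _ => h.gden_nonneg hqm _) (by positivity)
        refine (Finset.prod_le_prod (fun i _ => h.gden_nonneg hqm _) (fun i _ => hsucc i)).trans ?_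
        rw [Finset.prod_const, Finset.card_univ, Fintype.card_fin]
    _ = _ := by ring

end Crest.Agent.R276.GrI_606
end

-- ▼ part R276/ULog_833
section

/-!
Row 276, leaf ULOG (helper833): the logarithm of a unipotent element of a `ℚ`-algebra, and of a
unipotent complex matrix.

`ulog x = ∑_{j ≥ 1} (-1)^(j+1)/j (x-1)^j`.
-/

set_option autoImplicit false
set_option linter.unusedSectionVars false

open Finset PowerSeries
open scoped Nat

namespace Crest.Agent.R276.ULog_833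

section series

lemma logd_mul : (d⁄dX ℚ (PowerSeries.log ℚ)) * (1 + X) = 1 := by
  rw [deriv_log]
  ext n
  rw [mul_add, mul_one, map_add]
  cases n with
  | zero => simp
  | succ n =>
    rw [coeff_succ_mul_X, coeff_mk, coeff_mk, coeff_one]
    simp [pow_succ]

/-- `exp (log (1 + X)) = 1 + X` -/
theorem exp_subst_log : (PowerSeries.exp ℚ).subst (PowerSeries.log ℚ) = 1 + X := by
  set ℓ := d⁄dX ℚ (PowerSeries.log ℚ) with hℓ
  set E := (PowerSeries.exp ℚ).subst (PowerSeries.log ℚ) with hE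
  have h1 : ℓ * (1 + X) = 1 := logd_mul
  have h2 : d⁄dX ℚ E = E * ℓ := by
    rw [hE, derivative_subst HasSubst.log, derivative_exp]
  have h3 : d⁄dX ℚ ℓ * (1 + X) + ℓ = 0 := by
    have := congrArg (d⁄dX ℚ) h1
    rw [Derivation.leibniz] at this
    simp only [map_add, derivative_one, derivative_X, smul_eq_mul] at this
    linear_combination this
  have h4 : d⁄dX ℚ ℓ = -ℓ ^ 2 := by
    linear_combination ℓ * h3 - (d⁄dX ℚ ℓ) * h1
  have h5 : E * ℓ = 1 := by
    apply derivative.ext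
    · rw [Derivation.leibniz, h2, h4, derivative_one]
      simp only [smul_eq_mul]
      ring
    · have h6 : constantCoeff E = 1 := by
        rw [← coeff_zero_eq_constantCoeff_apply, hE, coeff_subst' HasSubst.log,
          finsum_eq_single _ 0]
        · simp
        · intro n hn
          rw [coeff_zero_eq_constantCoeff_apply, map_pow, constantCoeff_log, zero_pow hn,
            smul_zero]
      rw [map_mul, map_one, h6, hℓ, deriv_log, one_mul, ← coeff_zero_eq_constantCoeff_apply,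
        coeff_mk]
      simp
  linear_combination (1 + X) * h5 - E * h1

/-- `log (1 + (exp X - 1)) = X` -/
theorem log_subst_exp : (PowerSeries.log ℚ).subst (PowerSeries.exp ℚ - 1) = X := by
  apply derivative.ext
  · rw [derivative_subst HasSubst.exp_sub_one, map_sub, derivative_exp, derivative_one, sub_zero,
      derivative_X]
    have h1 := congrArg (PowerSeries.subst (PowerSeries.exp ℚ - 1)) logd_mul
    rw [subst_mul HasSubst.exp_sub_one, subst_add HasSubst.exp_sub_one,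
      subst_X HasSubst.exp_sub_one] at h1
    have h2 : PowerSeries.subst (PowerSeries.exp ℚ - 1) (1 : ℚ⟦X⟧) = (1 : ℚ⟦X⟧) := by
      rw [← coe_substAlgHom HasSubst.exp_sub_one, map_one]
    rw [h2] at h1
    linear_combination h1
  · rw [← coeff_zero_eq_constantCoeff_apply, coeff_subst' HasSubst.exp_sub_one, constantCoeff_X,
      finsum_eq_single _ 0]
    · simp
    · intro n hn
      rw [coeff_zero_eq_constantCoeff_apply, map_pow, map_sub, map_one, constantCoeff_exp,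
        sub_self, zero_pow hn, smul_zero]

end series

section ring

variable {A : Type*} [Ring A] [Algebra ℚ A]

/-- evaluation of a power series at a nilpotent element -/
noncomputable def ev (k : ℕ) (n : A) (f : ℚ⟦X⟧) : A := Polynomial.aeval n (trunc k f)

lemma ev_eq (k : ℕ) (n : A) (f : ℚ⟦X⟧) : ev k n f = ∑ j ∈ range k, coeff j f • n ^ j := by
  rw [ev, Polynomial.aeval_def, eval₂_trunc_eq_sum_range]
  simp only [Algebra.smul_def]

lemma aeval_trunc {k : ℕ} {n : A} (hn : n ^ k = 0) (p : Polynomial ℚ) :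
    Polynomial.aeval n (trunc k (p : ℚ⟦X⟧)) = Polynomial.aeval n p := by
  have h1 : Polynomial.aeval n (trunc k (p : ℚ⟦X⟧)) = ∑ j ∈ range k, p.coeff j • n ^ j := by
    have := ev_eq k n (p : ℚ⟦X⟧)
    rw [ev] at this
    simpa [Polynomial.coeff_coe] using this
  rw [h1, Polynomial.aeval_eq_sum_range' (n := max k (p.natDegree + 1)) (by omega)]
  refine Finset.sum_subset (Finset.range_subset_range.2 (by omega)) fun j _ hj => ?_
  rw [Finset.mem_range, not_lt] at hj
  rw [pow_eq_zero_of_le hj hn, smul_zero]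

lemma ev_mul {k : ℕ} {n : A} (hn : n ^ k = 0) (f g : ℚ⟦X⟧) :
    ev k n (f * g) = ev k n f * ev k n g := by
  rw [ev, ← trunc_trunc_mul_trunc, ← Polynomial.coe_mul, aeval_trunc hn, map_mul, ev, ev]

lemma ev_one {k : ℕ} {n : A} (hn : n ^ k = 0) : ev k n 1 = 1 := by
  have := aeval_trunc hn 1
  rw [map_one, Polynomial.coe_one] at this
  exact this

lemma ev_pow {k : ℕ} {n : A} (hn : n ^ k = 0) (f : ℚ⟦X⟧) (i : ℕ) :
    ev k n (f ^ i) = ev k n f ^ i := by
  induction i with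
  | zero => rw [pow_zero, pow_zero, ev_one hn]
  | succ i ih => rw [pow_succ, pow_succ, ev_mul hn, ih]

lemma ev_subst {k : ℕ} {n : A} (hn : n ^ k = 0) {f g : ℚ⟦X⟧} (hg : constantCoeff g = 0) :
    ev k n (f.subst g) = ∑ i ∈ range k, coeff i f • ev k n g ^ i := by
  have hs : HasSubst g := HasSubst.of_constantCoeff_zero' hg
  simp only [← ev_pow hn]
  rw [ev_eq]
  simp only [ev_eq, Finset.smul_sum, smul_smul]
  rw [Finset.sum_comm]
  refine Finset.sum_congr rfl fun j hj => ?_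
  rw [← Finset.sum_smul]
  congr 1
  rw [coeff_subst' hs, finsum_eq_sum_of_support_subset (s := range k)]
  · simp only [smul_eq_mul]
  · intro i hi
    rw [Function.mem_support] at hi
    rw [Finset.coe_range, Set.mem_Iio]
    by_contra hik
    apply hi
    have h1 : X ^ i ∣ g ^ i := pow_dvd_pow_of_dvd (X_dvd_iff.2 hg) i
    rw [X_pow_dvd_iff.1 h1 j (by rw [Finset.mem_range] at hj; omega), smul_zero]

/-- logarithm of a unipotent element -/
noncomputable def ulog (x : A) : A :=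
  ∑ j ∈ range (nilpotencyClass (x - 1)), ((-1 : ℚ) ^ (j + 1) / j) • (x - 1) ^ j

theorem ulog_eq_sum {x : A} {k : ℕ} (h : (x - 1) ^ k = 0) :
    ulog x = ∑ j ∈ range k, ((-1 : ℚ) ^ (j + 1) / j) • (x - 1) ^ j := by
  rw [ulog]
  refine Finset.sum_subset (Finset.range_subset_range.2 (csInf_le' h)) fun j _ hj => ?_
  rw [Finset.mem_range, not_lt] at hj
  rw [pow_eq_zero_of_le hj (pow_nilpotencyClass ⟨k, h⟩), smul_zero]

theorem ulog_eq_ev {x : A} {k : ℕ} (h : (x - 1) ^ k = 0) :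
    ulog x = ev k (x - 1) (PowerSeries.log ℚ) := by
  rw [ulog_eq_sum h, ev_eq]
  refine Finset.sum_congr rfl fun j _ => ?_
  rw [coeff_log]
  split_ifs with hj
  · simp [hj]
  · simp

theorem exp_eq_ev {a : A} {k : ℕ} (h : a ^ k = 0) :
    IsNilpotent.exp a = ev k a (PowerSeries.exp ℚ) := by
  rw [IsNilpotent.exp_eq_sum h, ev_eq]
  refine Finset.sum_congr rfl fun j _ => ?_
  rw [coeff_exp]
  simp

@[simp] theorem ulog_one : ulog (1 : A) = 0 := by
  rw [ulog_eq_sum (k := 1) (by simp)]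
  simp

/-- `ulog x = (x - 1) * r` with `r` commuting with `x - 1` -/
theorem exists_ulog_eq (x : A) : ∃ r : A, Commute (x - 1) r ∧ ulog x = (x - 1) * r := by
  refine ⟨∑ j ∈ range (nilpotencyClass (x - 1)), ((-1 : ℚ) ^ (j + 1) / j) • (x - 1) ^ (j - 1),
    ?_, ?_⟩
  · exact Commute.sum_right _ _ _ fun j _ => ((Commute.refl _).pow_right _).smul_right _
  · rw [ulog, Finset.mul_sum]
    refine Finset.sum_congr rfl fun j _ => ?_
    rcases Nat.eq_zero_or_pos j with rfl | hj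
    · simp
    · rw [mul_smul_comm, ← pow_succ', Nat.sub_add_cancel hj]

theorem ulog_pow {x : A} {k : ℕ} (h : (x - 1) ^ k = 0) : ulog x ^ k = 0 := by
  obtain ⟨r, hr, h1⟩ := exists_ulog_eq x
  rw [h1, hr.mul_pow, h, zero_mul]

theorem isNilpotent_ulog {x : A} (h : IsNilpotent (x - 1)) : IsNilpotent (ulog x) := by
  obtain ⟨k, hk⟩ := h
  exact ⟨k, ulog_pow hk⟩

/-- **`exp (ulog x) = x`** -/
theorem exp_ulog {x : A} (h : IsNilpotent (x - 1)) : IsNilpotent.exp (ulog x) = x := by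
  obtain ⟨k, hk⟩ := h
  have hk2 : (x - 1) ^ (k + 2) = 0 := pow_eq_zero_of_le (by omega) hk
  have h1 := ev_subst hk2 (f := PowerSeries.exp ℚ) (constantCoeff_log (A := ℚ))
  rw [exp_subst_log, ← ulog_eq_ev hk2] at h1
  rw [IsNilpotent.exp_eq_sum (ulog_pow hk2)]
  have h2 : ∀ i ∈ range (k + 2), coeff i (PowerSeries.exp ℚ) • ulog x ^ i =
      ((i ! : ℕ) : ℚ)⁻¹ • ulog x ^ i := by
    intro i _
    rw [coeff_exp]
    simp
  rw [← Finset.sum_congr rfl h2, ← h1, ev_eq, Finset.sum_range_succ', Finset.sum_range_succ',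
    Finset.sum_eq_zero]
  · simp [coeff_X, coeff_one]
  · intro i _
    have : coeff (i + 1 + 1) (1 + X : ℚ⟦X⟧) = 0 := by
      rw [map_add, coeff_one, coeff_X]
      simp
    rw [this, zero_smul]

/-- `ulog (exp a) = a` -/
theorem ulog_exp {a : A} (h : IsNilpotent a) : ulog (IsNilpotent.exp a) = a := by
  obtain ⟨k, hk⟩ := h
  have hk2 : a ^ (k + 2) = 0 := pow_eq_zero_of_le (by omega) hk
  have hc : constantCoeff (PowerSeries.exp ℚ - 1) = 0 := by simp [constantCoeff_exp]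
  have h0 : ev (k + 2) a (PowerSeries.exp ℚ - 1) = IsNilpotent.exp a - 1 := by
    rw [exp_eq_ev hk2, ← ev_one hk2]
    simp only [ev, map_sub]
  have h3 : (IsNilpotent.exp a - 1) ^ (k + 2) = 0 := by
    rw [← h0, ← ev_pow hk2, ev_eq]
    refine Finset.sum_eq_zero fun j hj => ?_
    have h1 : (X : ℚ⟦X⟧) ^ (k + 2) ∣ (PowerSeries.exp ℚ - 1) ^ (k + 2) :=
      pow_dvd_pow_of_dvd (X_dvd_iff.2 hc) _
    rw [X_pow_dvd_iff.1 h1 j (by simpa using hj), zero_smul]
  have h1 := ev_subst hk2 (f := PowerSeries.log ℚ) hc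
  rw [log_subst_exp, h0] at h1
  rw [ulog_eq_sum h3]
  have h2 : ∀ i ∈ range (k + 2), coeff i (PowerSeries.log ℚ) • (IsNilpotent.exp a - 1) ^ i =
      ((-1 : ℚ) ^ (i + 1) / i) • (IsNilpotent.exp a - 1) ^ i := by
    intro i _
    rw [coeff_log]
    split_ifs with hi
    · simp [hi]
    · simp
  rw [← Finset.sum_congr rfl h2, ← h1, ev_eq, Finset.sum_range_succ', Finset.sum_range_succ',
    Finset.sum_eq_zero]
  · simp [coeff_X]
  · intro i _
    have : coeff (i + 1 + 1) (X : ℚ⟦X⟧) = 0 := by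
      rw [coeff_X]
      simp
    rw [this, zero_smul]


theorem ulog_unique {x a : A} (ha : IsNilpotent a) (h : IsNilpotent.exp a = x) : ulog x = a := by
  rw [← h, ulog_exp ha]











/-- inverse -/
theorem ulog_inv {x y : A} (hx : IsNilpotent (x - 1)) (h : x * y = 1) : ulog y = -ulog x := by
  have h1 : IsNilpotent.exp (-ulog x) = y := by
    have h2 := IsNilpotent.exp_neg_mul_exp_self (isNilpotent_ulog hx)
    rw [exp_ulog hx] at h2
    calc IsNilpotent.exp (-ulog x) = IsNilpotent.exp (-ulog x) * (x * y) := by rw [h, mul_one]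
      _ = (IsNilpotent.exp (-ulog x) * x) * y := by rw [mul_assoc]
      _ = y := by rw [h2, one_mul]
  exact ulog_unique (isNilpotent_ulog hx).neg h1





end ring

section matrix

open Matrix

variable {m n : Type*} [Fintype m] [DecidableEq m] [Fintype n] [DecidableEq n]



/-- rectangular intertwining -/
theorem rect_intertwine {T : Matrix n n ℂ} {T' : Matrix m m ℂ} {A : Matrix m n ℂ}
    (hT : IsNilpotent (T - 1)) (hT' : IsNilpotent (T' - 1)) (h : A * T = T' * A) :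
    A * ulog T = ulog T' * A := by
  obtain ⟨k, hk⟩ := hT
  obtain ⟨l, hl⟩ := hT'
  have hk2 : (T - 1) ^ (max k l) = 0 := pow_eq_zero_of_le (by omega) hk
  have hl2 : (T' - 1) ^ (max k l) = 0 := pow_eq_zero_of_le (by omega) hl
  have h1 : A * (T - 1) = (T' - 1) * A := by
    rw [Matrix.mul_sub, Matrix.sub_mul, h, Matrix.mul_one, Matrix.one_mul]
  have h2 : ∀ j : ℕ, A * (T - 1) ^ j = (T' - 1) ^ j * A := by
    intro j
    induction j with
    | zero => simp
    | succ j ih => rw [pow_succ, ← Matrix.mul_assoc, ih, Matrix.mul_assoc, h1, pow_succ,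
        Matrix.mul_assoc]
  rw [ulog_eq_sum hk2, ulog_eq_sum hl2, Matrix.mul_sum, Matrix.sum_mul]
  refine Finset.sum_congr rfl fun j _ => ?_
  rw [Matrix.mul_smul, Matrix.smul_mul, h2]



theorem unip_conjTranspose {T : Matrix n n ℂ} (h : IsNilpotent (T - 1)) :
    IsNilpotent (Tᴴ - 1) := by
  obtain ⟨k, hk⟩ := h
  refine ⟨k, ?_⟩
  rw [← Matrix.conjTranspose_one, ← Matrix.conjTranspose_sub, ← Matrix.conjTranspose_pow, hk,
    Matrix.conjTranspose_zero]

theorem ulog_conjTranspose {T : Matrix n n ℂ} (h : IsNilpotent (T - 1)) :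
    ulog Tᴴ = (ulog T)ᴴ := by
  obtain ⟨k, hk⟩ := h
  have h0 : Tᴴ - 1 = (T - 1)ᴴ := by
    rw [Matrix.conjTranspose_sub, Matrix.conjTranspose_one]
  have hk' : (Tᴴ - 1) ^ k = 0 := by
    rw [h0, ← Matrix.conjTranspose_pow, hk, Matrix.conjTranspose_zero]
  rw [ulog_eq_sum hk, ulog_eq_sum hk', Matrix.conjTranspose_sum]
  refine Finset.sum_congr rfl fun j _ => ?_
  rw [h0, ← Matrix.conjTranspose_pow, Matrix.conjTranspose_rat_smul]



theorem isUnit_unip {A : Type*} [Ring A] {x : A} (h : IsNilpotent (x - 1)) : IsUnit x := by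
  have := h.isUnit_one_add
  rwa [add_sub_cancel] at this

/-- **skew**: a unipotent matrix preserving `S` has a logarithm which is skew for `S` -/
theorem skew {T S : Matrix n n ℂ} (hT : IsNilpotent (T - 1)) (h : Tᴴ * S * T = S) :
    (ulog T)ᴴ * S = -(S * ulog T) := by
  have hu : IsUnit T := isUnit_unip hT
  have hdet : IsUnit T.det := (Matrix.isUnit_iff_isUnit_det T).1 hu
  have h1 : T * T⁻¹ = 1 := Matrix.mul_nonsing_inv T hdet
  have h2 : S * T⁻¹ = Tᴴ * S := by
    calc S * T⁻¹ = (Tᴴ * S * T) * T⁻¹ := by rw [h]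
      _ = Tᴴ * S * (T * T⁻¹) := by rw [Matrix.mul_assoc]
      _ = Tᴴ * S := by rw [h1, Matrix.mul_one]
  have h3 : IsNilpotent (T⁻¹ - 1) := by
    have h4 : T⁻¹ - 1 = -((T - 1) * T⁻¹) := by
      rw [Matrix.sub_mul, h1, Matrix.one_mul]; abel
    rw [h4]
    refine IsNilpotent.neg ?_
    refine Commute.isNilpotent_mul_right ?_ hT
    have h5 : T⁻¹ * T = 1 := Matrix.nonsing_inv_mul T hdet
    change (T - 1) * T⁻¹ = T⁻¹ * (T - 1)
    rw [Matrix.sub_mul, Matrix.mul_sub, h1, h5, Matrix.mul_one, Matrix.one_mul]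
  have h6 := rect_intertwine h3 (unip_conjTranspose hT) h2
  rw [ulog_conjTranspose hT, ulog_inv hT h1, Matrix.mul_neg] at h6
  exact h6.symm








/-! ### the form used by `LCh` -/

/-- `z T` preserves `S` if `T` does and `|z| = 1` -/
theorem preserves_smul {T S : Matrix n n ℂ} {z : ℂ} (hz : ‖z‖ = 1) (h : Tᴴ * S * T = S) :
    (z • T)ᴴ * S * (z • T) = S := by
  have h1 : star z * z = 1 := by
    have := Complex.conj_mul' z
    rw [hz] at this
    simpa using this
  rw [Matrix.conjTranspose_smul, Matrix.smul_mul, Matrix.smul_mul, Matrix.mul_smul, smul_smul, h1,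
    one_smul, h]

theorem preserves_pow {T S : Matrix n n ℂ} (h : Tᴴ * S * T = S) (e : ℕ) :
    (T ^ e)ᴴ * S * T ^ e = S := by
  induction e with
  | zero => simp
  | succ e ih =>
    rw [pow_succ, Matrix.conjTranspose_mul]
    calc Tᴴ * (T ^ e)ᴴ * S * (T ^ e * T) = Tᴴ * ((T ^ e)ᴴ * S * T ^ e) * T := by
          simp only [Matrix.mul_assoc]
      _ = S := by rw [ih, h]

/-- the logarithm of `(z T)^e` -/
theorem lch {T S : Matrix n n ℂ} {z : ℂ} {e : ℕ} (hz : ‖z‖ = 1) (h : Tᴴ * S * T = S)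
    (hu : IsNilpotent ((z • T) ^ e - 1)) :
    IsNilpotent (ulog ((z • T) ^ e)) ∧ IsNilpotent.exp (ulog ((z • T) ^ e)) = (z • T) ^ e ∧
      (ulog ((z • T) ^ e))ᴴ * S = -(S * ulog ((z • T) ^ e)) :=
  ⟨isNilpotent_ulog hu, exp_ulog hu, skew hu (preserves_pow (preserves_smul hz h) e)⟩

end matrix

end Crest.Agent.R276.ULog_833
end

-- ▼ part R276/GrJ_606
section

/-!
# R276, leaf GEN0 (helper606), part J: `Gen D φ (e n ψ) (n k) 0`

At the points of the divisor where the monodromy commutes with the variation.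
-/

set_option autoImplicit false
set_option linter.unusedSectionVars false

open Set Filter Topology Matrix Metric
open scoped ContDiff ComplexConjugate ComplexOrder

namespace Crest.Agent.R276.GrJ_606

open Crest.Agent.R276.VCalc_442 Crest.Agent.R276.BndA_563
open Crest.Agent.R276.GrE_606 Crest.Agent.R276.GrF_606
open Crest.Agent.R276.GrA_217 (EE)
open Crest.Agent.R276.GrB_217 (HB isOpen_HB)
open Crest.Agent.R276.GrC_217 (LCh tpi)
open Crest.Agent.R276.GrB_606 (fr)

variable {ι : Type*} [Fintype ι] [DecidableEq ι]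

section lch

variable {w e d : ℕ} {k : ℤ} {a R : ℝ} {S : Matrix ι ι ℂ}
    {P : ℕ → (Fin (d + 1) → ℂ) → Matrix ι ι ℂ} {T : Matrix ι ι ℂ} {z : ℂ} {L : Matrix ι ι ℂ}
    {Om f : (Fin (d + 1) → ℂ) → ι → ℂ}

theorem isNilpotent_exp_sub_one {A : Type*} [Ring A] [Algebra ℚ A] {y : A} (hy : IsNilpotent y) :
    IsNilpotent (IsNilpotent.exp y - 1) := by
  obtain ⟨k, hk⟩ := hy
  have hk' : y ^ (k + 1) = 0 := pow_eq_zero_of_le (by omega) hk
  have h1 : IsNilpotent.exp y - 1 = y * ∑ i ∈ Finset.range k, ((i + 1).factorial : ℚ)⁻¹ • y ^ i := by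
    rw [IsNilpotent.exp_eq_sum hk', Finset.sum_range_succ', Finset.mul_sum]
    simp only [pow_zero, Nat.factorial_zero, Nat.cast_one, inv_one, one_smul, add_sub_cancel_right]
    refine Finset.sum_congr rfl fun i _ => ?_
    rw [mul_smul_comm, ← pow_succ']
  rw [h1]
  refine Commute.isNilpotent_mul_right ?_ ⟨k, hk⟩
  exact Commute.sum_right _ _ _ fun i _ => ((Commute.refl y).pow_right i).smul_right _

theorem isUnit_T (h : LCh w e k a R S P T z L Om f) : IsUnit T := by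
  have hS : IsUnit S := by
    have hne : (HB d a R).Nonempty := ⟨Fin.cons ((a - 1 : ℝ) : ℂ) 0, by simp, fun i => by
      simpa using h.hR⟩
    obtain ⟨x, hx⟩ := hne
    exact h.vhs.S_unit hx
  rw [Matrix.isUnit_iff_isUnit_det] at hS ⊢
  have h1 := congrArg Matrix.det h.ST
  rw [Matrix.det_mul, Matrix.det_mul, Matrix.det_conjTranspose] at h1
  rw [isUnit_iff_ne_zero] at hS ⊢
  intro h0
  rw [h0] at h1
  simp only [mul_zero] at h1
  exact hS h1.symm

/-- the variation is periodic -/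
theorem per_of_com (h : LCh w e k a R S P T z L Om f)
    (hc : ∀ q ∈ HB d a R, ∀ p, P p q * T = T * P p q) :
    ∀ q ∈ HB d a R, ∀ p, P p (q + Pi.single 0 (2 * Real.pi * Complex.I)) = P p q := by
  intro q hq p
  have h1 := h.per q hq p
  rw [← hc q hq p] at h1
  have hT := (Matrix.isUnit_iff_isUnit_det T).1 (isUnit_T h)
  have h2 := congrArg (fun M => M * T⁻¹) h1
  simp only [Matrix.mul_assoc, Matrix.mul_nonsing_inv T hT, Matrix.mul_one] at h2
  exact h2

theorem T_hm (h : LCh w e k a R S P T z L Om f)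
    (hc : ∀ q ∈ HB d a R, ∀ p, P p q * T = T * P p q) {q : Fin (d + 1) → ℂ} (hq : q ∈ HB d a R) :
    Tᴴ * hm w S P q * T = hm w S P q := by
  have h1 := h.hm_per hq
  have h2 : hm w S P (q + Pi.single 0 tpi) = hm w S P q := by
    unfold hm sgOp
    have e1 : ∀ p, P p (q + Pi.single 0 tpi) = P p q := fun p => per_of_com h hc q hq p
    simp only [e1]
  rwa [h2] at h1

/-- **the monodromy is semisimple** -/
theorem L_zero (h : LCh w e k a R S P T z L Om f)
    (hc : ∀ q ∈ HB d a R, ∀ p, P p q * T = T * P p q) : L = 0 := by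
  have hne : (HB d a R).Nonempty := ⟨Fin.cons ((a - 1 : ℝ) : ℂ) 0, by simp, fun i => by
    simpa using h.hR⟩
  obtain ⟨q, hq⟩ := hne
  set K := hm w S P q with hK
  have hKp : K.PosDef := h.vhs.hmPos hq
  have h1 : (z • T)ᴴ * K * (z • T) = K := by
    have h2 := T_hm h hc hq
    rw [Matrix.conjTranspose_smul, Matrix.smul_mul, Matrix.smul_mul, Matrix.mul_smul, h2, smul_smul]
    have h3 : star z * z = 1 := by
      have := Complex.conj_mul' z
      rw [h.hz] at this
      simpa using this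
    rw [h3, one_smul]
  have h2 : ∀ n : ℕ, ((z • T) ^ n)ᴴ * K * (z • T) ^ n = K := by
    intro n
    induction n with
    | zero => simp
    | succ n ih =>
      rw [pow_succ, Matrix.conjTranspose_mul]
      calc (z • T)ᴴ * ((z • T) ^ n)ᴴ * K * ((z • T) ^ n * (z • T))
          = (z • T)ᴴ * (((z • T) ^ n)ᴴ * K * (z • T) ^ n) * (z • T) := by noncomm_ring
        _ = K := by rw [ih, h1]
  have h3 := h2 e
  rw [← h.exp_eq] at h3
  have hE : EE L 1 = IsNilpotent.exp L := by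
    unfold GrA_217.EE
    rw [one_smul]
  rw [hE] at h3
  have h4 := ULog_833.skew (isNilpotent_exp_sub_one h.nil) h3
  rw [ULog_833.ulog_exp h.nil] at h4
  have h5 : Adj K L (-L) := by
    show Lᴴ * K = K * (-L)
    rw [h4, Matrix.mul_neg]
  refine h5.eq_zero_of_trace hKp ?_
  have h6 : IsNilpotent (L * -L) := by
    rw [mul_neg]
    exact (Commute.isNilpotent_mul_right (Commute.refl L) h.nil).neg
  have h7 := (Matrix.isNilpotent_trace_of_isNilpotent h6).eq_zero
  rw [h7]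
  simp

section nm

attribute [local instance] Matrix.linftyOpNormedRing Matrix.linftyOpNormedAlgebra

/-- lower bound of the norm of the section -/
theorem om_lower (h : LCh w e k a R S P T z L Om f)
    (hc : ∀ q ∈ HB d a R, ∀ p, P p q * T = T * P p q) (h0 : f 0 ≠ 0) :
    ∃ c ε b : ℝ, 0 < c ∧ 0 < ε ∧ ε ≤ R / 2 ∧ b < a ∧ ∀ q : Fin (d + 1) → ℂ, (q 0).re ≤ b →
      (∀ i : Fin d, ‖q i.succ‖ < ε) →
      c ≤ hn (hm w S P q) (Om q) * Real.exp (-(2 * (k * (q 0).re / e))) := by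
  have hL := L_zero h hc
  have he : (0 : ℝ) < e := Nat.cast_pos.2 h.he
  obtain ⟨B, ε, b, hε, hεR, hb, hB⟩ := GrI_606.hm_bdd h.hR h.vhs (per_of_com h hc)
  obtain ⟨i, hi⟩ : ∃ i, f 0 i ≠ 0 := by
    by_contra hcon
    push Not at hcon
    exact h0 (funext hcon)
  have hdom : {q : Fin (d + 1) → ℂ | ‖q 0‖ < Real.exp (a / e) ∧ ∀ i : Fin d, ‖q i.succ‖ < R} ∈
      𝓝 (0 : Fin (d + 1) → ℂ) := by
    refine IsOpen.mem_nhds ?_ ⟨by simpa using Real.exp_pos _, fun i => by simpa using h.hR⟩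
    have h1 : IsOpen {q : Fin (d + 1) → ℂ | ‖q 0‖ < Real.exp (a / e)} :=
      isOpen_lt (continuous_norm.comp (continuous_apply 0)) continuous_const
    have h2 : IsOpen {q : Fin (d + 1) → ℂ | ∀ i : Fin d, ‖q i.succ‖ < R} := by
      simp only [ofPred_forall]
      exact isOpen_iInter_of_finite fun i =>
        isOpen_lt (continuous_norm.comp (continuous_apply i.succ)) continuous_const
    exact h1.inter h2
  have hcont : ContinuousAt (fun q => f q i) 0 := by
    have h1 := (h.hf 0 (mem_of_mem_nhds hdom)).differentiableAt hdom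
    exact (continuous_apply i).continuousAt.comp h1.continuousAt
  have h2 : ∀ᶠ q in 𝓝 (0 : Fin (d + 1) → ℂ), ‖f 0 i‖ / 2 < ‖f q i‖ := by
    have h3 := hcont.norm.eventually (lt_mem_nhds (show ‖f 0 i‖ / 2 < ‖f 0 i‖ by
      have := norm_pos_iff.2 hi
      linarith))
    exact h3
  obtain ⟨δ, hδ, hδ2⟩ := Metric.eventually_nhds_iff_ball.1 h2
  set B2 : ℝ := ‖S⁻¹‖ * B * ‖S⁻¹‖ with hB2
  have hfi := norm_pos_iff.2 hi
  refine ⟨(‖f 0 i‖ / 2) ^ 2 / (|B2| + 1), min ε δ, min b (e * Real.log (δ / 2)),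
    by positivity, lt_min hε hδ, (min_le_left _ _).trans hεR, (min_le_left _ _).trans_lt hb,
    fun q hq0 hq => ?_⟩
  have hq0b : (q 0).re ≤ b := hq0.trans (min_le_left _ _)
  have hqε : ∀ i : Fin d, ‖q i.succ‖ < ε := fun i => (hq i).trans_le (min_le_left _ _)
  have hqm : q ∈ HB d a R := ⟨by linarith, fun i => by linarith [hqε i]⟩
  have hcons : (Fin.cons (q 0) (fun i => q i.succ) : Fin (d + 1) → ℂ) = q := Fin.cons_self_tail q
  have hKB := hB (q 0) hq0b (fun i => q i.succ) hqε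
  rw [hcons] at hKB
  have hKp : (hm w S P q).PosDef := h.vhs.hmPos hqm
  have hinv := norm_inv_le h.vhs hqm hKB
  -- the point in the root coordinate
  set u : Fin (d + 1) → ℂ := Fin.cons (Complex.exp (q 0 / e)) (Fin.tail q) with hu
  have hub : u ∈ ball (0 : Fin (d + 1) → ℂ) δ := by
    rw [mem_ball_zero_iff, pi_norm_lt_iff hδ]
    intro j
    refine Fin.cases ?_ (fun j => ?_) j
    · rw [hu, Fin.cons_zero, Complex.norm_exp, Complex.div_natCast_re]
      have h3 : (q 0).re ≤ e * Real.log (δ / 2) := hq0.trans (min_le_right _ _)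
      have h4 : (q 0).re / e ≤ Real.log (δ / 2) := by
        rw [div_le_iff₀ he]; linarith
      calc Real.exp ((q 0).re / e) ≤ Real.exp (Real.log (δ / 2)) := Real.exp_le_exp.2 h4
        _ = δ / 2 := Real.exp_log (by positivity)
        _ < δ := by linarith
    · rw [hu, Fin.cons_succ]
      exact (hq j).trans_le (min_le_right _ _)
  have h3 := hδ2 u hub
  have h4 := h.f_Om q hqm
  have hE1 : EE L (-(q 0 / (tpi * e))) = 1 := by
    unfold GrA_217.EE
    rw [hL, smul_zero]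
    exact IsNilpotent.exp_zero
  rw [hE1, Matrix.one_mulVec, ← hu] at h4
  have h5 : hn (hm w S P q) (f u) =
      hn (hm w S P q) (Om q) * Real.exp (-(2 * (k * (q 0).re / e))) := by
    rw [h4, hn_smul, Complex.norm_exp, mul_comm]
    congr 1
    rw [← Real.exp_nat_mul]
    congr 1
    have : (-(k * q 0 / e : ℂ)).re = -(k * (q 0).re / e) := by
      rw [Complex.neg_re, Complex.div_natCast_re, Complex.mul_re]
      simp
    rw [this]
    push_cast
    ring
  rw [← h5]
  have h6 := coord_le hKp hinv (f u) i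
  have h7 : (sf (hm w S P q) (f u) (f u)).re = hn (hm w S P q) (f u) := rfl
  rw [h7] at h6
  have h8 : 0 ≤ hn (hm w S P q) (f u) := hn_nonneg hKp _
  rw [div_le_iff₀ (by positivity)]
  calc (‖f 0 i‖ / 2) ^ 2 ≤ ‖f u i‖ ^ 2 := by gcongr
    _ ≤ B2 * hn (hm w S P q) (f u) := h6
    _ ≤ (|B2| + 1) * hn (hm w S P q) (f u) :=
        mul_le_mul_of_nonneg_right (by linarith [le_abs_self B2]) h8
    _ = _ := by ring

end nm

end lch

/-! ### the condition `Gen` -/

section gen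

open MeasureTheory
open Crest.Agent.R271.Ho51 Crest.Agent.R276.CntDefs_857

variable {d : ℕ} {M E : Type*} [TopologicalSpace M] [RDom (d + 1) M] [MeasurableSpace M]
    {μ : Measure M} [TopologicalSpace E] [RDom d E]

/-- the data at one point `y` of the divisor, with commuting monodromy `T` -/
structure Pt0 (D : DChart M E μ) (φ ψ₀ : M → ℝ) (w e : ℕ) (k : ℤ) (y : E) (S : Matrix ι ι ℂ)
    (P : ℕ → (Fin (d + 1) → ℂ) → Matrix ι ι ℂ) (T : Matrix ι ι ℂ) (z : ℂ) (L : Matrix ι ι ℂ)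
    (Om f : (Fin (d + 1) → ℂ) → ι → ℂ) : Prop where
  lch : LCh w e k (Real.log (D.r y)) (D.r y) S P T z L Om f
  f0 : f 0 ≠ 0
  psi : ∀ q ∈ HB d (Real.log (D.r y)) (D.r y),
    Real.exp (-ψ₀ (D.σ y (Fin.cons (Complex.exp (q 0)) (Fin.tail q)))) = hn (hm w S P q) (Om q)
  com : ∀ q ∈ HB d (Real.log (D.r y)) (D.r y), ∀ p, P p q * T = T * P p q
  phi : ∀ q ∈ HB d (Real.log (D.r y)) (D.r y),
    Real.exp (D.phW φ y (Fin.cons (Complex.exp (q 0)) (Fin.tail q))) * Real.exp (2 * (q 0).re) =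
      (gm w P (fr d) q).det.re

/-- bounds on a punctured polydisc -/
theorem Pt0.bounds {D : DChart M E μ} {φ ψ₀ : M → ℝ} {w e : ℕ} {k : ℤ} {y : E} {S : Matrix ι ι ℂ}
    {P : ℕ → (Fin (d + 1) → ℂ) → Matrix ι ι ℂ} {T : Matrix ι ι ℂ} {z : ℂ} {L : Matrix ι ι ℂ}
    {Om f : (Fin (d + 1) → ℂ) → ι → ℂ} (h : Pt0 D φ ψ₀ w e k y S P T z L Om f) (n : ℕ) :
    ∃ ε C : ℝ, 0 < ε ∧ ∀ q ∈ PS d ε, D.phW φ y q ≤ C ∧
      D.psI (fun x => ((e * n : ℕ) : ℝ) * ψ₀ x) (n * k) y q ≤ C := by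
  have hR := h.lch.hR
  have he : (0 : ℝ) < e := Nat.cast_pos.2 h.lch.he
  obtain ⟨C1, ε1, b1, hC1, hε1, hε1R, hb1, H1⟩ :=
    GrI_606.det_le hR h.lch.vhs (per_of_com h.lch h.com)
  obtain ⟨c2, ε2, b2, hc2, hε2, hε2R, hb2, H2⟩ := om_lower h.lch h.com h.f0
  refine ⟨min (min ε1 ε2) (Real.exp (min b1 b2)),
    max (Real.log C1) (-(((e * n : ℕ) : ℝ) * Real.log c2)),
    lt_min (lt_min hε1 hε2) (Real.exp_pos _), fun q hq => ?_⟩
  obtain ⟨hq0, hqi⟩ := hq
  set Q : Fin (d + 1) → ℂ := Fin.cons (Complex.log (q 0)) (Fin.tail q) with hQ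
  have hQ0 : Q 0 = Complex.log (q 0) := rfl
  have hQi : ∀ i : Fin d, Q i.succ = q i.succ := fun i => rfl
  have hex : (Fin.cons (Complex.exp (Q 0)) (Fin.tail Q) : Fin (d + 1) → ℂ) = q := by
    rw [hQ0, Complex.exp_log hq0]
    exact Fin.cons_self_tail q
  have hre : (Q 0).re = Real.log ‖q 0‖ := by rw [hQ0, Complex.log_re]
  have hq0n : 0 < ‖q 0‖ := norm_pos_iff.2 hq0
  have hreb : (Q 0).re ≤ min b1 b2 := by
    rw [hre, ← Real.exp_le_exp, Real.exp_log hq0n]
    exact ((hqi 0).trans_le (min_le_right _ _)).le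
  have hQε1 : ∀ i : Fin d, ‖Q i.succ‖ < ε1 := fun i => by
    rw [hQi]
    exact (hqi i.succ).trans_le ((min_le_left _ _).trans (min_le_left _ _))
  have hQε2 : ∀ i : Fin d, ‖Q i.succ‖ < ε2 := fun i => by
    rw [hQi]
    exact (hqi i.succ).trans_le ((min_le_left _ _).trans (min_le_right _ _))
  have hQm : Q ∈ HB d (Real.log (D.r y)) (D.r y) :=
    ⟨(hreb.trans (min_le_left _ _)).trans_lt hb1, fun i => by linarith [hQε1 i]⟩
  have h1 := H1 Q (hreb.trans (min_le_left _ _)) hQε1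
  have h2 := H2 Q (hreb.trans (min_le_right _ _)) hQε2
  have h3 := h.phi Q hQm
  have h4 := h.psi Q hQm
  rw [hex] at h3 h4
  constructor
  · refine le_trans ?_ (le_max_left _ _)
    rw [← h3] at h1
    have h5 := le_of_mul_le_mul_right h1 (Real.exp_pos _)
    rwa [Real.le_log_iff_exp_le hC1]
  · refine le_trans ?_ (le_max_right _ _)
    rw [← h4, ← Real.exp_add] at h2
    have h5 := Real.log_le_log hc2 h2
    rw [Real.log_exp] at h5
    unfold DChart.psI
    have h6 : Real.log (‖q 0‖ ^ 2) = 2 * (Q 0).re := by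
      rw [Real.log_pow, hre]; push_cast; ring
    rw [h6]
    have h7 : 0 ≤ ((e * n : ℕ) : ℝ) := Nat.cast_nonneg _
    have h8 := mul_le_mul_of_nonneg_left h5 h7
    have h9 : ((e * n : ℕ) : ℝ) * (-ψ₀ (D.σ y q) + -(2 * (k * (Q 0).re / e))) =
        -(((e * n : ℕ) : ℝ) * ψ₀ (D.σ y q) + ((n * k : ℤ) : ℝ) * (2 * (Q 0).re)) := by
      push_cast
      field_simp
      ring
    rw [h9] at h8
    linarith

/-- **GEN0** -/
theorem gen_zero {D : DChart M E μ} {φ ψ₀ : M → ℝ} {w e : ℕ} {k : ℤ} {O : Set E} (hO : IsOpen O)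
    (hne : O.Nonempty) {S : E → Matrix ι ι ℂ} {P : E → ℕ → (Fin (d + 1) → ℂ) → Matrix ι ι ℂ}
    {T : E → Matrix ι ι ℂ} {z : E → ℂ} {L : E → Matrix ι ι ℂ}
    {Om f : E → (Fin (d + 1) → ℂ) → ι → ℂ}
    (h : ∀ y ∈ O, Pt0 D φ ψ₀ w e k y (S y) (P y) (T y) (z y) (L y) (Om y) (f y)) (n : ℕ) :
    Gen D φ (fun x => ((e * n : ℕ) : ℝ) * ψ₀ x) (n * k) 0 := by
  refine ⟨O, hO, hne, fun y hy => ?_⟩
  obtain ⟨ε, C, hε, H⟩ := (h y hy).bounds n
  refine ⟨ε, C, hε, fun q hq => ⟨?_, (H q hq).2⟩⟩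
  have := (H q hq).1
  simpa using this

end gen

end Crest.Agent.R276.GrJ_606
end

-- ▼ part R276/BdNf9_651
section

/-!
# Row 276, leaf BDNF (helper651), part 9 : `exists_fam` (interface of helper857)

`WD` + `LD` give a family `LFam` of normal forms (helper217), explicitly from the flat frames `B.n y`.
-/

set_option autoImplicit false
set_option linter.unusedSectionVars false

noncomputable section

open Set Filter Topology Matrix Metric MeasureTheory
open Crest.Agent.R271.Ho51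
open Crest.Agent.R276.Ipc735
open Crest.Agent.R276.BdNf1_651
open Crest.Agent.R276.BdNf2_651
open Crest.Agent.R276.BdNf3_651
open Crest.Agent.R276.BdNf4_651
open Crest.Agent.R276.BdNf5_651
open Crest.Agent.R276.BdNf6_651
open Crest.Agent.R276.BdNf7_651
open Crest.Agent.R276.BdNf8_651
open Crest.Agent.R276.CntDefs_857 (PS DChart)
open Crest.Agent.R276.LftDefs_327 (WD LD)

namespace Crest.Agent.R276.BdNf9_651

variable {d m N w : ℕ} {M E X : Type*} [TopologicalSpace M] [RDom (d + 1) M]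
    [MeasurableSpace M] {μ : Measure M} [TopologicalSpace E] [RDom d E] [TopologicalSpace X]
    [RDom m X] {D : DChart M E μ} {V : VHS m X N w} {om : X → Fin N → ℂ} {u : X → ℂ}
    {f : X → M}

/-- `f (0, ·)` has no zeros -/
theorem f_ne {l : LD D V om u f} {M0 : ℕ} {ψ : M → ℝ} (B : BFam l M0 ψ) (y : E) :
    ∀ v ∈ ball (0 : Fin d → ℂ) (D.r y), B.F y (Fin.cons 0 v) ≠ 0 := by
  obtain ⟨m, -, -, h3, -⟩ := RkB_25.main (B.lch y) (B.cy y) (B.ne y)
  exact h3

theorem f_zero {l : LD D V om u f} {M0 : ℕ} {ψ : M → ℝ} (B : BFam l M0 ψ) (y : E) :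
    B.F y 0 ≠ 0 := by
  have h := f_ne B y 0 (mem_ball_self (GrH_217.r_pos D y))
  rwa [GrH_217.LFam.cons_zero_zero] at h

/-- the family of helper217 -/
def fam {l : LD D V om u f} {M0 : ℕ} {ψ : M → ℝ} (B : BFam l M0 ψ) :
    GrH_217.LFam (Fin N) D w (eN N * M0) B.k ψ := B.toLFam (f_zero B)

section

variable {l : LD D V om u f} {M0 : ℕ} {ψ : M → ℝ} (B : BFam l M0 ψ) (y : E)

@[simp] lemma fam_S : (fam B).S y = (B.n y).fr.S := rfl
@[simp] lemma fam_P : (fam B).P y = PP (B.n y) := rfl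
@[simp] lemma fam_T : (fam B).T y = cm (B.n y).T := rfl
@[simp] lemma fam_z : (fam B).z y = zM l.ku M0 := rfl
@[simp] lemma fam_L : (fam B).L y = LL (B.n y) (eN N * M0) := rfl
@[simp] lemma fam_Om : (fam B).Om y = Om (B.n y) om l.ku M0 (B.g y) := rfl
@[simp] lemma fam_f : (fam B).f y = B.F y := rfl

end


end Crest.Agent.R276.BdNf9_651
end
end

-- ▼ part R276/HulC_606
section

/-!
# R276, leaf COUNT (helper606): case (A) of the alternative

If the monodromy of one boundary chart is scalar on the section then `Gen D φ (P ψ) k 0`.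
-/

set_option autoImplicit false
set_option linter.unusedSectionVars false

noncomputable section

open Set Filter Topology Matrix Metric MeasureTheory
open Crest.Agent.R271.Ho51 Crest.Agent.R276.Ipc735
open Crest.Agent.R276.BdNf1_651
open Crest.Agent.R276.BdNf2_651
open Crest.Agent.R276.BdNf3_651
open Crest.Agent.R276.BdNf4_651
open Crest.Agent.R276.BdNf5_651
open Crest.Agent.R276.BdNf6_651
open Crest.Agent.R276.BdNf7_651
open Crest.Agent.R276.BdNf8_651
open Crest.Agent.R276.CntDefs_857 (PS DChart Gen)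
open Crest.Agent.R276.LftDefs_327 (WD LD)
open Crest.Agent.R276.GrB_217 (HB)

namespace Crest.Agent.R276.HulC_606

variable {d m N w : ℕ} {M E X : Type*} [TopologicalSpace M] [RDom (d + 1) M]
    [MeasurableSpace M] {μ : Measure M} [TopologicalSpace E] [RDom d E] [TopologicalSpace X]
    [RDom m X] {D : DChart M E μ} {V : VHS m X N w} {om : X → Fin N → ℂ} {u : X → ℂ}
    {f : X → M}

/-- the large charts of the divisor -/
theorem exists_ch (D : DChart M E μ) (y : E) :
    ∃ e : OpenPartialHomeomorph E (Fin d → ℂ), IsCh e ∧ y ∈ e.source ∧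
      e.target = ball (cp y) (D.r y) := by
  have hr := GrH_217.r_pos D y
  obtain ⟨s, h1, -, h3⟩ := D.cov.ev (cp y) (D.r y) hr (D.hball y)
  have h4 : y ∈ (cp ⁻¹' ball (cp y) (D.r y) : Set E) := mem_ball_self hr
  rw [h3, mem_iUnion] at h4
  obtain ⟨i, hi⟩ := h4
  exact ⟨s i, (h1 i).1, hi, (h1 i).2⟩

/-- a holomorphic relation on an open subset of the half space holds everywhere -/
theorem ident_HS {r : ℝ} {F : (Fin (d + 1) → ℂ) → Fin N → ℂ} (hF : DifferentiableOn ℂ F (HS d r))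
    {O : Set (Fin (d + 1) → ℂ)} (hO : IsOpen O) (hne : (O ∩ HS d r).Nonempty)
    (h0 : ∀ q ∈ O ∩ HS d r, F q = 0) : ∀ q ∈ HS d r, F q = 0 := by
  obtain ⟨q0, hq0⟩ := hne
  have ha : AnalyticOnNhd ℂ F (HS d r) :=
    Crest.Agent.R266.SCV.analyticOnNhd_of_differentiableOn (isOpen_HS d r) hF
  have h1 : F =ᶠ[𝓝 q0] 0 := by
    filter_upwards [(hO.inter (isOpen_HS d r)).mem_nhds hq0] with q hq using h0 q hq
  exact fun q hq => ha.eqOn_zero_of_preconnected_of_eventuallyEq_zero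
    (convex_HS d r).isPreconnected hq0.2 h1 hq

section fam

variable {l : LD D V om u f} {M0 : ℕ} {φ ψ : M → ℝ} {ι : Fin (d + 1) → Fin m}

/-- the scalar condition at `y` -/
def Scal (B : BFam l M0 ψ) (y : E) (ζ : ℂ) : Prop :=
  ∀ q ∈ HS d (D.r y), cm (B.n y).T *ᵥ Om (B.n y) om l.ku M0 (B.g y) q =
    ζ • Om (B.n y) om l.ku M0 (B.g y) q

theorem Scal.near {B : BFam l M0 ψ} {y : E} {ζ : ℂ} (h : Scal B y ζ)
    {ε : OpenPartialHomeomorph E (Fin d → ℂ)} (hε : IsCh ε) (hy : y ∈ ε.source)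
    (ht : ε.target = ball (cp y) (D.r y)) {y' : E} (hy' : y' ∈ ε.source) : Scal B y' ζ := by
  obtain ⟨A, c, hA, -, -, hOv, hQ⟩ := B.tr y ε hε hy ht y' hy'
  have hd : DifferentiableOn ℂ (fun q => cm (B.n y').T *ᵥ Om (B.n y') om l.ku M0 (B.g y') q -
      ζ • Om (B.n y') om l.ku M0 (B.g y') q) (HS d (D.r y')) := by
    have h1 : DifferentiableOn ℂ (Om (B.n y') om l.ku M0 (B.g y')) (HS d (D.r y')) :=
      (B.cy y').bot.hol
    exact (((Matrix.mulVecLin (cm (B.n y').T)).toContinuousLinearMap.differentiable).comp_differentiableOn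
      h1).sub (h1.const_smul ζ)
  have h2 := ident_HS hd (isOpen_Ov (D.r y) (D.r y') (cp y' - cp y))
    (by obtain ⟨q, hq⟩ := hOv; exact ⟨q, hq, hq.1⟩) (fun q hq => by
      show cm (B.n y').T *ᵥ Om (B.n y') om l.ku M0 (B.g y') q -
        ζ • Om (B.n y') om l.ku M0 (B.g y') q = 0
      rw [hQ q hq.1, Matrix.mulVec_smul, Matrix.mulVec_mulVec, hA.cmT_eq hOv,
        ← Matrix.mulVec_mulVec, h _ hq.1.2, Matrix.mulVec_smul, smul_comm, sub_self])
  intro q hq
  exact sub_eq_zero.1 (h2 q hq)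

/-- the monodromy commutes with the variation at `y` -/
theorem Scal.com (hH : HulB_606.HulS V om) (hw : WD V om u M0 f ι φ ψ) {B : BFam l M0 ψ} {y : E}
    {ζ : ℂ} (h : Scal B y ζ) {q : Fin (d + 1) → ℂ} (hq : q ∈ HS d (D.r y)) (p : ℕ) :
    PP (B.n y) p q * cm (B.n y).T = cm (B.n y).T * PP (B.n y) p q := by
  refine HulB_606.com_PP (HulB_606.com_of_scalar hH hw l y (B.n y) (ζ := ζ) hq ?_) p
  filter_upwards [(isOpen_HS d (D.r y)).mem_nhds hq] with q' hq'
  have h1 := h q' hq'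
  unfold BdNf5_651.Om at h1
  rw [Matrix.mulVec_smul, smul_comm] at h1
  exact smul_right_injective _ (Complex.exp_ne_zero _) h1

theorem pt0 (hH : HulB_606.HulS V om) (hw : WD V om u M0 f ι φ ψ) {B : BFam l M0 ψ} {y : E}
    {ζ : ℂ} (h : Scal B y ζ) :
    GrJ_606.Pt0 D φ ψ w (eN N * M0) B.k y (B.n y).fr.S (PP (B.n y)) (cm (B.n y).T) (zM l.ku M0)
      (LL (B.n y) (eN N * M0)) (Om (B.n y) om l.ku M0 (B.g y)) (B.F y) where
  lch := B.lch y
  f0 := BdNf9_651.f_zero B y
  psi := (BdNf9_651.fam B).psi y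
  com := fun q hq p => h.com hH hw hq p
  phi := fun q hq => by
    have h1 := GrAs1_857.det_q hw l y (B.n y) (z := q) hq
    have hex := ex_mem (GrH_217.r_pos D y) (show q ∈ HS d (D.r y) from hq)
    rw [h1]
    show Real.exp (D.phW φ y (ex q)) * Real.exp (2 * (q 0).re) = _
    rw [GrAs1_857.phW_eq hw l y hex]
    have h2 : D.J y (ex q) ≠ 0 := D.jac y _ hex
    have h3 : 0 < ‖D.J y (ex q)‖ ^ 2 := by positivity
    rw [Real.exp_log (mul_pos h3 (hw.pos _)), ex_zero, Complex.norm_exp, ← Real.exp_nat_mul]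
    push_cast
    ring

/-- **case (A) of the alternative** -/
theorem gen0 (hH : HulB_606.HulS V om) (hw : WD V om u M0 f ι φ ψ) (B : BFam l M0 ψ) {y₀ : E}
    {ζ : ℂ} (hsc : Scal B y₀ ζ) (n : ℕ) :
    Gen D φ (fun x => ((eN N * M0 * n : ℕ) : ℝ) * ψ x) (n * B.k) 0 := by
  obtain ⟨ε, hε, hy, ht⟩ := exists_ch D y₀
  exact GrJ_606.gen_zero ε.open_source ⟨y₀, hy⟩
    (fun y hy' => pt0 hH hw (hsc.near hε hy ht hy')) n

end fam

end Crest.Agent.R276.HulC_606
end
end

-- ▼ part R276/LowF_327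
section

/-!
# R276, leaf LC4 (helper327): upper bound of the metric of `L` at every point of a boundary divisor

`low_of_bfam`: from 651's family of normal forms: `exp (-psI) ≤ C (1 + |log |q₀||)^K` on the polydisc
of radius `r/2` around every point of the divisor (for all multiples of the weight).
-/

set_option autoImplicit false
set_option linter.unusedSectionVars false

noncomputable section

open Set Filter Topology Matrix Metric MeasureTheory
open Crest.Agent.R271.Ho51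
open Crest.Agent.R276.Ipc735
open Crest.Agent.R276.BdNf1_651
open Crest.Agent.R276.BdNf2_651
open Crest.Agent.R276.BdNf3_651
open Crest.Agent.R276.BdNf4_651
open Crest.Agent.R276.BdNf5_651
open Crest.Agent.R276.BdNf6_651
open Crest.Agent.R276.BdNf7_651
open Crest.Agent.R276.BdNf8_651
open Crest.Agent.R276.VLevi_327 (CYL)
open Crest.Agent.R276.CntDefs_857 (PS DChart)
open Crest.Agent.R276.LftDefs_327 (WD LD)
open Crest.Agent.R276.GrA_217 (EE EE_zero)
open Crest.Agent.R276.GrC_217 (LCh tpi norm_tpi)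
open Crest.Agent.R276.GrAs1_857 (lg ex_lg lg_mem)

namespace Crest.Agent.R276.LowF_327

/-- polynomial growth of `exp (s L)` -/
theorem EE_bound {ι : Type*} [Fintype ι] [DecidableEq ι] {L : Matrix ι ι ℂ} (hL : IsNilpotent L) :
    ∃ (C : ℝ) (K : ℕ), 0 ≤ C ∧ ∀ (s : ℂ) (v : ι → ℂ), ‖EE L s *ᵥ v‖ ≤ C * (1 + ‖s‖) ^ K * ‖v‖ := by
  obtain ⟨K, hK⟩ := hL
  have h1 : ∀ i : ℕ, ∃ C : ℝ, 0 ≤ C ∧ ∀ v : ι → ℂ, ‖(L ^ i) *ᵥ v‖ ≤ C * ‖v‖ := by
    intro i
    refine ⟨‖(Matrix.toLin' (L ^ i)).toContinuousLinearMap‖, norm_nonneg _, fun v => ?_⟩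
    exact (Matrix.toLin' (L ^ i)).toContinuousLinearMap.le_opNorm v
  choose C hC0 hC using h1
  refine ⟨∑ i ∈ Finset.range K, C i, K, Finset.sum_nonneg fun i _ => hC0 i, fun s v => ?_⟩
  have h2 : (s • L) ^ K = 0 := by rw [smul_pow, hK, smul_zero]
  unfold EE
  rw [IsNilpotent.exp_eq_sum h2, Matrix.sum_mulVec, Finset.sum_mul, Finset.sum_mul]
  refine (norm_sum_le _ _).trans (Finset.sum_le_sum fun i hi => ?_)
  have h3 : ((i.factorial : ℚ)⁻¹ • (s • L) ^ i) *ᵥ v =
      (((i.factorial : ℚ)⁻¹ : ℚ) : ℂ) • (s ^ i • (L ^ i *ᵥ v)) := by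
    rw [smul_pow, ← Matrix.smul_mulVec, ← Matrix.smul_mulVec]
    congr 1
  rw [h3, norm_smul, norm_smul, norm_pow]
  have h4 : ‖(((i.factorial : ℚ)⁻¹ : ℚ) : ℂ)‖ ≤ 1 := by
    push_cast
    rw [norm_inv, Complex.norm_natCast]
    exact inv_le_one_of_one_le₀ (by exact_mod_cast Nat.one_le_iff_ne_zero.2 (Nat.factorial_ne_zero i))
  have h5 : ‖s‖ ^ i ≤ (1 + ‖s‖) ^ K := by
    calc ‖s‖ ^ i ≤ (1 + ‖s‖) ^ i := pow_le_pow_left₀ (norm_nonneg _) (by linarith) i
      _ ≤ (1 + ‖s‖) ^ K := pow_le_pow_right₀ (by linarith [norm_nonneg s])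
          (Finset.mem_range.1 hi).le
  have h6 := hC i v
  calc ‖(((i.factorial : ℚ)⁻¹ : ℚ) : ℂ)‖ * (‖s‖ ^ i * ‖L ^ i *ᵥ v‖)
      ≤ 1 * ((1 + ‖s‖) ^ K * (C i * ‖v‖)) := by
        gcongr
    _ = C i * (1 + ‖s‖) ^ K * ‖v‖ := by ring

section one

variable {d : ℕ} {r : ℝ} {N w : ℕ} {m : ℕ} {X : Type*} [TopologicalSpace X] [RDom m X]
variable {σ : (Fin (d + 1) → ℂ) → X} {V : VHS m X N w} (n : Nf V σ r) (h : HP σ r)

/-- a quadratic form is bounded -/
theorem qf_bound {ι : Type*} [Fintype ι] (K : Matrix ι ι ℂ) : ∃ B : ℝ, 0 ≤ B ∧ ∀ u : ι → ℂ,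
    (star u ⬝ᵥ K *ᵥ u).re ≤ B * ‖u‖ ^ 2 := by
  classical
  refine ⟨Fintype.card ι * ‖(Matrix.toLin' K).toContinuousLinearMap‖, by positivity, fun u => ?_⟩
  have h1 : ‖K *ᵥ u‖ ≤ ‖(Matrix.toLin' K).toContinuousLinearMap‖ * ‖u‖ :=
    (Matrix.toLin' K).toContinuousLinearMap.le_opNorm u
  calc (star u ⬝ᵥ K *ᵥ u).re ≤ ‖star u ⬝ᵥ K *ᵥ u‖ := Complex.re_le_norm _
    _ ≤ ∑ i, ‖star u i * (K *ᵥ u) i‖ := norm_sum_le _ _
    _ ≤ ∑ _i : ι, ‖u‖ * (‖(Matrix.toLin' K).toContinuousLinearMap‖ * ‖u‖) := by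
        refine Finset.sum_le_sum fun i _ => ?_
        rw [norm_mul]
        refine mul_le_mul ?_ ((norm_le_pi_norm _ i).trans h1) (norm_nonneg _) (norm_nonneg _)
        rw [Pi.star_apply, norm_star]
        exact norm_le_pi_norm u i
    _ = _ := by
        rw [Finset.sum_const, Finset.card_univ, nsmul_eq_mul]
        ring

include h in
/-- the Hodge norms of flat vectors grow at most polynomially in `Re q₀` -/
theorem H_le : ∃ (B : ℝ) (K : ℕ), 0 ≤ B ∧ ∀ q : Fin (d + 1) → ℂ, (q 0).re ≤ Real.log r - 1 →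
    |(q 0).im| ≤ Real.pi → (∀ i : Fin d, ‖q i.succ‖ < r / 2) → ∀ u : Fin N → ℂ,
      H n q u ≤ B * (1 + (Real.log r - (q 0).re)) ^ K * ‖u‖ ^ 2 := by
  have hr := h.hr
  obtain ⟨B, hB, hb⟩ := qf_bound (hodge w n.fr.S (n.fr.E (cs (0 : Fin d → ℂ) (-1 + Real.log r))))
  obtain ⟨K, hK⟩ := exists_nat_ge (KN (Fin N))
  refine ⟨Real.exp (KN (Fin N) * Real.pi) * Real.exp (BndA_563.C0 (Fin N)) * B, K, by positivity,
    fun q h0 him hq u => ?_⟩
  set y : Fin d → ℂ := fun i => q i.succ with hy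
  have hqy : q = cs y (q 0) := by
    funext i
    refine Fin.cases ?_ (fun j => ?_) i <;> simp [hy]
  have hyr : ∀ i, ‖y i‖ < r := fun i => (hq i).trans (by linarith)
  have h1 := (H_growth n h hyr u (t := q 0 - Real.log r) (M := Real.pi)
    (by rw [Complex.sub_re, Complex.ofReal_re]; linarith)
    (by rw [Complex.sub_im, Complex.ofReal_im, sub_zero]; exact him)).1
  have e1 : q 0 - Real.log r + Real.log r = q 0 := by ring
  have e2 : |(q 0 - Real.log r : ℂ).re| = Real.log r - (q 0).re := by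
    rw [Complex.sub_re, Complex.ofReal_re, abs_of_nonpos (by linarith)]
    ring
  rw [e1, e2] at h1
  have h2 := H_radial n h (y := y) (y' := 0) hq (fun i => by simpa using by linarith)
    (t := -1 + Real.log r) (by simp) u
  have h3 : H n (cs (0 : Fin d → ℂ) (-1 + Real.log r)) u ≤ B * ‖u‖ ^ 2 := hb u
  have h4 : (Real.log r - (q 0).re) ^ KN (Fin N) ≤ (1 + (Real.log r - (q 0).re)) ^ K := by
    have h5 : (0 : ℝ) ≤ Real.log r - (q 0).re := by linarith
    calc (Real.log r - (q 0).re) ^ KN (Fin N) ≤ (1 + (Real.log r - (q 0).re)) ^ KN (Fin N) :=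
          Real.rpow_le_rpow h5 (by linarith) (KN_nonneg _)
      _ ≤ (1 + (Real.log r - (q 0).re)) ^ (K : ℝ) :=
          Real.rpow_le_rpow_of_exponent_le (by linarith) hK
      _ = _ := Real.rpow_natCast _ _
  have h6 : 0 ≤ Real.log r - (q 0).re := by linarith
  rw [← hqy] at h1
  calc H n q u ≤ H n (cs y (-1 + Real.log r)) u *
        (Real.exp (KN (Fin N) * Real.pi) * (Real.log r - (q 0).re) ^ KN (Fin N)) := h1
    _ ≤ (Real.exp (BndA_563.C0 (Fin N)) * (B * ‖u‖ ^ 2)) *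
        (Real.exp (KN (Fin N) * Real.pi) * (1 + (Real.log r - (q 0).re)) ^ K) := by
        gcongr
        exact h2.trans (mul_le_mul_of_nonneg_left h3 (Real.exp_pos _).le)
    _ = _ := by ring

end one

section fam

variable {d m N w : ℕ} {M E X : Type*} [TopologicalSpace M] [RDom (d + 1) M]
    [MeasurableSpace M] {μ : Measure M} [TopologicalSpace E] [RDom d E] [TopologicalSpace X]
    [RDom m X] {D : DChart M E μ} {V : VHS m X N w} {om : X → Fin N → ℂ} {u : X → ℂ}
    {f : X → M} {l : LD D V om u f} {M0 : ℕ} {ψ : M → ℝ}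

/-- the norm of the twisted section near the divisor -/
theorem om_le (B : BFam l M0 ψ) (y : E) : ∃ (C : ℝ) (K : ℕ), 0 ≤ C ∧
    ∀ q : Fin (d + 1) → ℂ, (q 0).re ≤ Real.log (D.r y) - 1 → |(q 0).im| ≤ Real.pi →
      (∀ i : Fin d, ‖q i.succ‖ < D.r y / 2) →
      Real.exp (-ψ (D.σ y (ex q))) ≤
        C * Real.exp (2 * (B.k * (q 0).re / (eN N * M0 : ℕ))) * (1 + |(q 0).re|) ^ K := by
  have hr := GrH_217.r_pos D y
  have hr1 := r_le_one D y
  have hlr : Real.log (D.r y) ≤ 0 := Real.log_nonpos hr.le hr1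
  have hL := B.lch y
  set e : ℕ := eN N * M0 with he
  have he0 : (0 : ℝ) < (e : ℝ) := by exact_mod_cast hL.he
  obtain ⟨B1, K1, hB1, hb1⟩ := H_le (B.n y) (hp l y)
  obtain ⟨C2, K2, hC2, hb2⟩ := EE_bound hL.nil
  -- `f` is bounded
  set Q : Set (Fin (d + 1) → ℂ) := {q | ‖q 0‖ ≤ Real.exp ((Real.log (D.r y) - 1) / e) ∧
    ∀ i : Fin d, ‖q i.succ‖ ≤ D.r y / 2} with hQ
  have hQc : IsCompact Q := by
    have h1 : IsClosed Q := by
      have h2 : Q = {q | ‖q 0‖ ≤ Real.exp ((Real.log (D.r y) - 1) / e)} ∩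
          ⋂ i : Fin d, {q | ‖q i.succ‖ ≤ D.r y / 2} := by
        ext q; simp [hQ]
      rw [h2]
      exact (isClosed_le (by fun_prop) continuous_const).inter
        (isClosed_iInter fun i => isClosed_le (by fun_prop) continuous_const)
    refine (isCompact_closedBall (0 : Fin (d + 1) → ℂ)
      (max (Real.exp ((Real.log (D.r y) - 1) / e)) (D.r y / 2))).of_isClosed_subset h1 ?_
    rintro q ⟨h2, h3⟩
    rw [mem_closedBall_zero_iff, pi_norm_le_iff_of_nonneg (by positivity)]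
    intro i
    refine Fin.cases (h2.trans (le_max_left _ _)) (fun j => (h3 j).trans (le_max_right _ _)) i
  obtain ⟨F0, hF0⟩ := hQc.exists_bound_of_continuousOn (hL.hf.continuousOn.mono (by
    rintro q ⟨h2, h3⟩
    refine ⟨h2.trans_lt ?_, fun i => (h3 i).trans_lt (by linarith)⟩
    apply Real.exp_lt_exp.2
    gcongr
    linarith))
  refine ⟨B1 * C2 ^ 2 * |F0| ^ 2 * 2 ^ K1 * (1 + Real.pi) ^ (2 * K2), K1 + 2 * K2, by positivity,
    fun q h0 him hq => ?_⟩
  have hqHS : q ∈ HS d (D.r y) := ⟨by linarith, fun i => (hq i).trans (by linarith)⟩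
  have hre : (q 0).re ≤ 0 := by linarith
  have hab : |(q 0).re| = -(q 0).re := abs_of_nonpos hre
  rw [← B.psi y q hqHS]
  -- the vector
  set v : Fin N → ℂ := B.F y (Fin.cons (Complex.exp (q 0 / e)) (Fin.tail q)) with hv
  have hvle : ‖v‖ ≤ |F0| := by
    refine (hF0 _ ⟨?_, fun i => ?_⟩).trans (le_abs_self _)
    · rw [Fin.cons_zero, Complex.norm_exp]
      apply Real.exp_le_exp.2
      have h1 : (q 0 / (e : ℂ)).re = (q 0).re / e := by
        rw [Complex.div_natCast_re]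
      rw [h1]
      gcongr
    · rw [Fin.cons_succ]
      exact (hq i).le
  have hOm : ‖Om (B.n y) om l.ku M0 (B.g y) q‖ ≤
      Real.exp (B.k * (q 0).re / e) * (C2 * (1 + ‖q 0‖) ^ K2 * |F0|) := by
    have h1 := hL.Om_eq (q := q) hqHS (q 0 / (tpi * e))
    rw [sub_self, EE_zero hL.nil, Matrix.one_mulVec] at h1
    have h2 : Om (B.n y) om l.ku M0 (B.g y) q = Complex.exp (B.k * q 0 / e) •
        (EE (LL (B.n y) e) (q 0 / (tpi * e)) *ᵥ v) := by
      rw [h1, smul_smul, ← Complex.exp_add, add_neg_cancel, Complex.exp_zero, one_smul]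
    rw [h2, norm_smul]
    have h3 : ‖Complex.exp ((B.k : ℂ) * q 0 / e)‖ = Real.exp (B.k * (q 0).re / e) := by
      rw [Complex.norm_exp]
      congr 1
      have h1 : (B.k : ℂ) * q 0 / (e : ℂ) = (((B.k : ℝ) / e : ℝ) : ℂ) * q 0 := by
        push_cast; ring
      rw [h1, Complex.re_ofReal_mul]
      ring
    rw [h3]
    have h4 : ‖q 0 / (tpi * (e : ℂ))‖ ≤ ‖q 0‖ := by
      rw [norm_div, norm_mul, norm_tpi, Complex.norm_natCast]
      refine div_le_self (norm_nonneg _) ?_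
      have h5 : (1 : ℝ) ≤ e := by exact_mod_cast hL.he
      have h6 := Real.pi_gt_three
      nlinarith
    have h5 := hb2 (q 0 / (tpi * e)) v
    gcongr
    refine h5.trans ?_
    gcongr
  have hq0 : ‖q 0‖ ≤ |(q 0).re| + Real.pi :=
    (Complex.norm_le_abs_re_add_abs_im _).trans (by linarith)
  have hH := hb1 q h0 him hq (Om (B.n y) om l.ku M0 (B.g y) q)
  have h7 : 1 + (Real.log (D.r y) - (q 0).re) ≤ 2 * (1 + |(q 0).re|) := by
    rw [hab]; linarith
  have h7' : 0 ≤ 1 + (Real.log (D.r y) - (q 0).re) := by linarith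
  have h8 : 1 + ‖q 0‖ ≤ (1 + Real.pi) * (1 + |(q 0).re|) := by
    have h9 := Real.pi_pos
    have h10 := abs_nonneg (q 0).re
    nlinarith
  have h11 : Real.exp (B.k * (q 0).re / e) ^ 2 = Real.exp (2 * (B.k * (q 0).re / e)) := by
    rw [← Real.exp_nat_mul]; norm_num
  calc H (B.n y) q (Om (B.n y) om l.ku M0 (B.g y) q)
      ≤ B1 * (1 + (Real.log (D.r y) - (q 0).re)) ^ K1 *
        ‖Om (B.n y) om l.ku M0 (B.g y) q‖ ^ 2 := hH
    _ ≤ B1 * (2 * (1 + |(q 0).re|)) ^ K1 * (Real.exp (B.k * (q 0).re / e) *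
        (C2 * ((1 + Real.pi) * (1 + |(q 0).re|)) ^ K2 * |F0|)) ^ 2 := by
        gcongr
        refine hOm.trans ?_
        gcongr
    _ = B1 * C2 ^ 2 * |F0| ^ 2 * 2 ^ K1 * (1 + Real.pi) ^ (2 * K2) *
        (Real.exp (B.k * (q 0).re / e) ^ 2) * (1 + |(q 0).re|) ^ (K1 + 2 * K2) := by
        rw [mul_pow, mul_pow, mul_pow, mul_pow, mul_pow, pow_add, pow_mul', pow_mul']
        ring
    _ = _ := by rw [h11]

/-- **(LOW)** -/
theorem low_of_bfam (B : BFam l M0 ψ) (hψ : Continuous ψ) (n : ℕ) (y : E) :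
    ∃ (C : ℝ) (K : ℕ), ∀ q ∈ PS d (D.r y / 2),
      Real.exp (-D.psI (fun x => ((eN N * M0 * n : ℕ) : ℝ) * ψ x) (n * B.k) y q) ≤
        C * (1 + |Real.log ‖q 0‖|) ^ K := by
  have hr := GrH_217.r_pos D y
  have hr1 := r_le_one D y
  have hL := B.lch y
  set e : ℕ := eN N * M0 with he
  have he0 : (0 : ℝ) < (e : ℝ) := by exact_mod_cast hL.he
  obtain ⟨C, K, hC, hb⟩ := om_le B y
  -- the compact shell
  set Q : Set (Fin (d + 1) → ℂ) := {q | D.r y * Real.exp (-1) ≤ ‖q 0‖ ∧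
    ∀ i, ‖q i‖ ≤ D.r y / 2} with hQ
  have hQc : IsCompact Q := by
    have h1 : IsClosed Q := by
      have h2 : Q = {q | D.r y * Real.exp (-1) ≤ ‖q 0‖} ∩ ⋂ i, {q | ‖q i‖ ≤ D.r y / 2} := by
        ext q; simp [hQ]
      rw [h2]
      exact (isClosed_le continuous_const (by fun_prop)).inter
        (isClosed_iInter fun i => isClosed_le (by fun_prop) continuous_const)
    refine (isCompact_closedBall (0 : Fin (d + 1) → ℂ) (D.r y / 2)).of_isClosed_subset h1 ?_
    rintro q ⟨-, h3⟩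
    rw [mem_closedBall_zero_iff, pi_norm_le_iff_of_nonneg (by positivity)]
    exact h3
  have hQs : Q ⊆ PS d (D.r y) := by
    rintro q ⟨h1, h2⟩
    refine ⟨fun h0 => ?_, fun i => (h2 i).trans_lt (by linarith)⟩
    rw [h0, norm_zero] at h1
    have : 0 < D.r y * Real.exp (-1) := by positivity
    linarith
  obtain ⟨C', hC'⟩ := hQc.exists_bound_of_continuousOn (f := fun q =>
    Real.exp (-D.psI (fun x => ((e * n : ℕ) : ℝ) * ψ x) (n * B.k) y q)) (by
    have h1 : ContinuousOn (fun q => ψ (D.σ y q)) Q :=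
      hψ.comp_continuousOn ((D.cont y).mono hQs)
    have h2 : ContinuousOn (fun q : Fin (d + 1) → ℂ => Real.log (‖q 0‖ ^ 2)) Q := by
      refine ContinuousOn.log (by fun_prop) fun q hq => ?_
      have := norm_pos_iff.2 (hQs hq).1
      positivity
    exact Real.continuous_exp.comp_continuousOn
      (((continuousOn_const.mul h1).add (continuousOn_const.mul h2)).neg))
  refine ⟨C ^ (e * n) + |C'|, K * (e * n), fun q hq => ?_⟩
  have hx : 0 < ‖q 0‖ := norm_pos_iff.2 hq.1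
  have h1le : (1 : ℝ) ≤ (1 + |Real.log ‖q 0‖|) ^ (K * (e * n)) :=
    one_le_pow₀ (le_add_of_nonneg_right (abs_nonneg _))
  rcases le_or_gt (D.r y * Real.exp (-1)) ‖q 0‖ with hcase | hcase
  · have h2 := hC' q ⟨hcase, fun i => (hq.2 i).le⟩
    rw [Real.norm_eq_abs, abs_of_pos (Real.exp_pos _)] at h2
    have h3 : 0 ≤ C ^ (e * n) := by positivity
    calc _ ≤ C' := h2
      _ ≤ |C'| := le_abs_self _
      _ ≤ (C ^ (e * n) + |C'|) * 1 := by linarith
      _ ≤ _ := by gcongr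
  · set z := lg q with hz
    have hexz : ex z = q := ex_lg hq.1
    have hz0 : z 0 = Complex.log (q 0) := by simp [hz, lg]
    have hzre : (z 0).re = Real.log ‖q 0‖ := by rw [hz0, Complex.log_re]
    have h2 : (z 0).re ≤ Real.log (D.r y) - 1 := by
      rw [hzre]
      have h3 := Real.log_le_log hx hcase.le
      rwa [Real.log_mul hr.ne' (Real.exp_pos _).ne', Real.log_exp, ← sub_eq_add_neg] at h3
    have h3 : |(z 0).im| ≤ Real.pi := by
      rw [hz0, Complex.log_im]; exact Complex.abs_arg_le_pi _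
    have h4 : ∀ i : Fin d, ‖z i.succ‖ < D.r y / 2 := by
      intro i
      have : z i.succ = q i.succ := by simp [hz, lg, Fin.tail]
      rw [this]
      exact hq.2 _
    have h5 := hb z h2 h3 h4
    rw [hexz, hzre] at h5
    have h6 : Real.exp (-D.psI (fun x => ((e * n : ℕ) : ℝ) * ψ x) (n * B.k) y q) =
        Real.exp (-ψ (D.σ y q)) ^ (e * n) *
          Real.exp (-(2 * (n * B.k * Real.log ‖q 0‖))) := by
      rw [← Real.exp_nat_mul, ← Real.exp_add]
      congr 1
      unfold DChart.psI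
      rw [Real.log_pow]
      push_cast
      ring
    rw [h6]
    have h7 : Real.exp (-ψ (D.σ y q)) ^ (e * n) ≤
        (C * Real.exp (2 * (B.k * Real.log ‖q 0‖ / e)) * (1 + |Real.log ‖q 0‖|) ^ K) ^ (e * n) :=
      pow_le_pow_left₀ (Real.exp_pos _).le h5 _
    have h8 : (C * Real.exp (2 * (B.k * Real.log ‖q 0‖ / e)) *
        (1 + |Real.log ‖q 0‖|) ^ K) ^ (e * n) =
        C ^ (e * n) * (1 + |Real.log ‖q 0‖|) ^ (K * (e * n)) *
          Real.exp (2 * (n * B.k * Real.log ‖q 0‖)) := by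
      rw [mul_pow, mul_pow, ← pow_mul, ← Real.exp_nat_mul]
      have h9 : ((e * n : ℕ) : ℝ) * (2 * (B.k * Real.log ‖q 0‖ / e)) =
          2 * (n * B.k * Real.log ‖q 0‖) := by
        push_cast
        field_simp
      rw [h9]
      ring
    calc Real.exp (-ψ (D.σ y q)) ^ (e * n) * Real.exp (-(2 * (n * B.k * Real.log ‖q 0‖)))
        ≤ (C ^ (e * n) * (1 + |Real.log ‖q 0‖|) ^ (K * (e * n)) *
          Real.exp (2 * (n * B.k * Real.log ‖q 0‖))) *
          Real.exp (-(2 * (n * B.k * Real.log ‖q 0‖))) := by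
          rw [← h8]; gcongr
      _ = C ^ (e * n) * (1 + |Real.log ‖q 0‖|) ^ (K * (e * n)) := by
          rw [mul_assoc, ← Real.exp_add, add_neg_cancel, Real.exp_zero, mul_one]
      _ ≤ (C ^ (e * n) + |C'|) * (1 + |Real.log ‖q 0‖|) ^ (K * (e * n)) := by
          gcongr
          linarith [abs_nonneg C']

end fam

end Crest.Agent.R276.LowF_327
end
end

-- ▼ part R276/GrN_217

/-!
# R276, leaf COUNT-GR, part N (helper217): the alternative at one boundary divisor

`exists_alt` : the data `k`, `alt`, `low` of `CDT` (804) for the multiple `M0 * (eN N * n)` of `ψ`.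
-/

set_option autoImplicit false
set_option linter.unusedSectionVars false

open Set Filter Topology Matrix Metric MeasureTheory

noncomputable section

namespace Crest.Agent.R276.GrN_217

open Crest.Agent.R271.Ho51
open Crest.Agent.R276.Ipc735
open Crest.Agent.R276.BdNf3_651
open Crest.Agent.R276.BdNf8_651
open Crest.Agent.R276.CntDefs_857
open Crest.Agent.R276.CntB_857 (Gro)
open Crest.Agent.R276.LftDefs_327 (WD LD)
open Crest.Agent.R276.GrL_217

variable {d m N w : ℕ} {M E X : Type*} [TopologicalSpace M] [RDom (d + 1) M]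
    [MeasurableSpace M] {μ : Measure M} [TopologicalSpace E] [RDom d E] [TopologicalSpace X]
    [RDom m X] {D : DChart M E μ} {V : VHS m X N w} {om : X → Fin N → ℂ} {u : X → ℂ}
    {f : X → M} {M0 : ℕ} {ι : Fin (d + 1) → Fin m} {φ ψ : M → ℝ}

/-- **the alternative** for one family of normal forms -/
theorem alt (hH : HulB_606.HulS V om) (hw : WD V om u M0 f ι φ ψ) (l : LD D V om u f)
    (B : BFam l M0 ψ) {ν : ℕ}
    (hν : ∀ τ : M, ∃ W : Submodule ℂ (Fin (d + 1) → ℂ), d + 1 ≤ Module.finrank ℂ W + ν ∧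
      ∀ v ∈ W, Levi ψ τ v = 0) (n : ℕ) :
    (0 < ν ∧ Nonempty (Full D φ (fun x => ((eN N * M0 * n : ℕ) : ℝ) * ψ x) (n * B.k) (ν - 1)) ∧
      Gen D φ (fun x => ((eN N * M0 * n : ℕ) : ℝ) * ψ x) (n * B.k) 1) ∨
    (Nonempty (Gro D φ (fun x => ((eN N * M0 * n : ℕ) : ℝ) * ψ x) (n * B.k)) ∧
      Gen D φ (fun x => ((eN N * M0 * n : ℕ) : ℝ) * ψ x) (n * B.k) 0) := by
  have hE : Nonempty E := GrAs4_857.nonempty_of_cov D.cov
  obtain ⟨y0⟩ := hE
  rcases scal_all B with h | h
  · right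
    obtain ⟨ζ, hζ⟩ := h y0
    exact ⟨GrAs2_857.gro hw l _ _, HulC_606.gen0 hH hw B (y₀ := y0) (ζ := ζ) hζ n⟩
  · left
    have hν0 : 0 < ν := by
      rcases Nat.eq_zero_or_pos ν with h0 | h0
      · subst h0
        exact absurd (GrM_217.scal_of_zero hw l B hν y0) (h y0)
      · exact h0
    exact ⟨hν0, full_fam hw l B n hν0 hν h, GrAs4_857.gen_one hw l (fam B) B.cy n⟩

/-- **the data `k`, `alt`, `low` of `CDT`** -/
theorem exists_alt (hH : HulB_606.HulS V om) (hw : WD V om u M0 f ι φ ψ) (l : LD D V om u f)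
    {ν : ℕ}
    (hν : ∀ τ : M, ∃ W : Submodule ℂ (Fin (d + 1) → ℂ), d + 1 ≤ Module.finrank ℂ W + ν ∧
      ∀ v ∈ W, Levi ψ τ v = 0) (hψ : Continuous ψ) (n : ℕ) :
    ∃ k : ℤ,
      ((0 < ν ∧ Nonempty (Full D φ (fun x => ((M0 * (eN N * n) : ℕ) : ℝ) * ψ x) k (ν - 1)) ∧
        Gen D φ (fun x => ((M0 * (eN N * n) : ℕ) : ℝ) * ψ x) k 1) ∨
      (Nonempty (Gro D φ (fun x => ((M0 * (eN N * n) : ℕ) : ℝ) * ψ x) k) ∧
        Gen D φ (fun x => ((M0 * (eN N * n) : ℕ) : ℝ) * ψ x) k 0)) ∧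
      ∀ y, ∃ C : ℝ, ∃ K : ℕ, ∀ q ∈ PS d (D.r y / 2),
        Real.exp (-D.psI (fun x => ((M0 * (eN N * n) : ℕ) : ℝ) * ψ x) k y q) ≤
          C * (1 + |Real.log ‖q 0‖|) ^ K := by
  obtain ⟨B⟩ := exists_bfam hw l
  have e : eN N * M0 * n = M0 * (eN N * n) := by ring
  refine ⟨n * B.k, ?_, ?_⟩
  · rw [← e]
    exact alt hH hw l B hν n
  · rw [← e]
    exact fun y => LowF_327.low_of_bfam B hψ n y

end Crest.Agent.R276.GrN_217
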