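import Mathlib
import Crest.Agent.R276.IntF_448
import Crest.Agent.R276.GroUpB_845

-- ▼ part R276/IntG_448
section

/-!
# HON: honest forms are integrable on the total space with a polynomial weight on the base

`L/ℂ`, `K/L` fields, `M` a model of `K` whose first `m` coordinates are a transcendence basis of `L`;
`v · (dx₁ ∧ … ∧ dx_r)^N` a relative form regular at all valuation rings of `K ⊇ L`.  Then
`∫_M |v|^{2/N} |p(t)|^κ (1+|t|²)^{-α} < ∞` for some polynomial `p ≠ 0` in `t` and some `κ`, `α`.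
-/

set_option autoImplicit false

open Filter Set MeasureTheory Polynomial
open scoped ENNReal

noncomputable section

namespace Crest.Agent.R276.IntG_448

open Crest.Agent.R271.Defs710 Crest.Agent.R271.Alg255 Crest.Agent.R271.Rd692 Crest.Agent.R271
open Crest.Agent.R276.Mod1_987 Crest.Agent.R276.Mod1_987.Mdl
open Crest.Agent.R276.FKDefs_779
open Crest.Agent.R276.IntA_448 Crest.Agent.R276.IntB_448 Crest.Agent.R276.IntC_448
open Crest.Agent.R276.IntD_448 Crest.Agent.R276.IntE_448 Crest.Agent.R276.IntF_448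

/-- the real estimate -/
lemma est {X P C0 C C1 : ℝ} (hX : 1 ≤ X) (hP : 0 < P) (k0 k n1 n r : ℕ) (hC0 : 0 ≤ C0) (hC : 0 ≤ C)
    (hC1 : 1 ≤ C1) (hPX : P ≤ C0 * X ^ k0) {H Q s : ℝ} (hH : 0 ≤ H)
    (hHT : H ≤ C1 * (1 + C * X ^ k / P) ^ n1) (hs : 0 ≤ s) (hs2 : s ≤ 2) (hQ : 0 < Q)
    (hQT : Q ≤ (1 + r) * X * (C1 * (1 + C * X ^ k / P) ^ n1) ^ 2) :
    H ^ s * (P ^ (n1 * (2 * n + 4) + 1) / X ^ (n + 1 + (k0 + k) * n1 * (2 * n + 4) + k0)) ≤
      ((1 + r) ^ (n + 1) * (C1 * (C0 + C) ^ n1) ^ (2 * n + 4) * C0) / Q ^ (n + 1) := by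
  set T : ℝ := C1 * (1 + C * X ^ k / P) ^ n1 with hT
  have hX0 : 0 < X := by linarith
  have hR : 0 ≤ C * X ^ k / P := by positivity
  have hT1 : 1 ≤ T := by
    have h1 : (1 : ℝ) ≤ (1 + C * X ^ k / P) ^ n1 := one_le_pow₀ (by linarith)
    calc (1 : ℝ) = 1 * 1 := by ring
      _ ≤ T := mul_le_mul hC1 h1 zero_le_one (by linarith)
  have hT0 : 0 < T := by linarith
  have hHs : H ^ s ≤ T ^ 2 := by
    calc H ^ s ≤ T ^ s := Real.rpow_le_rpow hH hHT hs
      _ ≤ T ^ (2 : ℝ) := Real.rpow_le_rpow_of_exponent_le hT1 hs2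
      _ = T ^ 2 := by norm_cast
  have hTP : T * P ^ n1 ≤ (C1 * (C0 + C) ^ n1) * X ^ ((k0 + k) * n1) := by
    have h1 : T * P ^ n1 = C1 * (P + C * X ^ k) ^ n1 := by
      rw [hT, mul_assoc, ← mul_pow]
      congr 2
      field_simp
    have h2 : P + C * X ^ k ≤ (C0 + C) * X ^ (k0 + k) := by
      have h3 : X ^ k0 ≤ X ^ (k0 + k) := pow_le_pow_right₀ hX (by omega)
      have h4 : X ^ k ≤ X ^ (k0 + k) := pow_le_pow_right₀ hX (by omega)
      have h5 : C0 * X ^ k0 ≤ C0 * X ^ (k0 + k) := mul_le_mul_of_nonneg_left h3 hC0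
      have h6 : C * X ^ k ≤ C * X ^ (k0 + k) := mul_le_mul_of_nonneg_left h4 hC
      calc P + C * X ^ k ≤ C0 * X ^ (k0 + k) + C * X ^ (k0 + k) := add_le_add (hPX.trans h5) h6
        _ = _ := by ring
    rw [h1]
    calc C1 * (P + C * X ^ k) ^ n1 ≤ C1 * ((C0 + C) * X ^ (k0 + k)) ^ n1 := by
          gcongr
      _ = _ := by rw [mul_pow, ← pow_mul]; ring
  rw [← mul_div_assoc, div_le_div_iff₀ (by positivity) (by positivity)]
  calc H ^ s * P ^ (n1 * (2 * n + 4) + 1) * Q ^ (n + 1)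
      ≤ T ^ 2 * P ^ (n1 * (2 * n + 4) + 1) * ((1 + r) * X * T ^ 2) ^ (n + 1) := by
        gcongr
    _ = (1 + r) ^ (n + 1) * X ^ (n + 1) * (T * P ^ n1) ^ (2 * n + 4) * P := by
        clear_value T
        generalize (1 + (r : ℝ)) = ρ
        ring
    _ ≤ (1 + r) ^ (n + 1) * X ^ (n + 1) * ((C1 * (C0 + C) ^ n1) * X ^ ((k0 + k) * n1)) ^ (2 * n + 4) *
          (C0 * X ^ k0) := by
        gcongr
    _ = _ := by
        generalize C1 * (C0 + C) ^ n1 = D
        ring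

variable {L K : Type} [Field L] [Field K] [Algebra ℂ L] [Algebra ℂ K] [Algebra L K]
  [IsScalarTower ℂ L K] {m r : ℕ}

theorem exists_growth_fin (t : Fin m → L) (ht : IsTranscendenceBasis ℂ t) (A : Finset L) :
    ∃ c : MvPolynomial (Fin m) ℂ, c ≠ 0 ∧ ∀ (B' : Subalgebra ℂ K) (tB : Fin m → B')
      (_ : ∀ i, (tB i : K) = algebraMap L K (t i)), ∀ a ∈ A, ∀ (a' : B')
      (_ : (a' : K) = algebraMap L K a), PG tB (az tB c * a') := by
  classical
  have haz : ∀ (B' : Subalgebra ℂ K) (tB : Fin m → B') (c : MvPolynomial (Fin m) ℂ),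
      PG tB (az tB c) := by
    intro B' tB c
    apply PG.adjoin
    rw [Algebra.adjoin_range_eq_range_aeval]
    exact ⟨c, rfl⟩
  induction A using Finset.induction_on with
  | empty => exact ⟨1, one_ne_zero, by simp⟩
  | insert a A _ ih =>
    obtain ⟨c, hc, h⟩ := ih
    obtain ⟨c', hc', h'⟩ := exists_growth (K := K) t ht a
    refine ⟨c * c', mul_ne_zero hc hc', ?_⟩
    intro B' tB htB x hx x' hx'
    rcases Finset.mem_insert.1 hx with rfl | hx
    · have h1 : az tB (c * c') * x' = az tB c * (az tB c' * x') := by rw [map_mul]; ring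
      rw [h1]
      exact (haz B' tB c).mul (h' B' tB htB x' hx')
    · have h1 : az tB (c * c') * x' = az tB c' * (az tB c * x') := by rw [map_mul]; ring
      rw [h1]
      exact (haz B' tB c').mul (h B' tB htB x hx x' hx')

/-- the weighted integrand -/
def wint {B : Type} [CommRing B] [Algebra ℂ B] (tB : Fin m → B) (v : B) (s : ℝ)
    (p : MvPolynomial (Fin m) ℂ) (κ α : ℕ) (y : B →ₐ[ℂ] ℂ) : ℝ≥0∞ :=
  ENNReal.ofReal (‖y v‖ ^ s * (‖MvPolynomial.eval (fun i => y (tB i)) p‖ ^ κ / (oz tB y) ^ α))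

lemma continuous_oz {B : Type} [CommRing B] [Algebra ℂ B] (tB : Fin m → B) :
    Continuous fun y : B →ₐ[ℂ] ℂ => oz tB y := by
  unfold oz
  have h1 : ∀ i, Continuous fun y : B →ₐ[ℂ] ℂ => y (tB i) := fun i => continuous_ev _
  fun_prop

lemma continuous_evp {B : Type} [CommRing B] [Algebra ℂ B] (tB : Fin m → B)
    (p : MvPolynomial (Fin m) ℂ) :
    Continuous fun y : B →ₐ[ℂ] ℂ => MvPolynomial.eval (fun i => y (tB i)) p := by
  have h1 : Continuous fun y : B →ₐ[ℂ] ℂ => (fun i => y (tB i)) :=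
    continuous_pi fun i => continuous_ev _
  exact (MvPolynomial.continuous_eval p).comp h1

lemma measurable_wint {B : Type} [CommRing B] [Algebra ℂ B] (tB : Fin m → B) (v : B) (s : ℝ)
    (p : MvPolynomial (Fin m) ℂ) (κ α : ℕ) : Measurable (wint tB v s p κ α) := by
  unfold wint
  have h1 : Measurable fun y : B →ₐ[ℂ] ℂ => oz tB y := (continuous_oz tB).measurable
  have h2 : Measurable fun y : B →ₐ[ℂ] ℂ => ‖MvPolynomial.eval (fun i => y (tB i)) p‖ :=
    (continuous_evp tB p).norm.measurable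
  have h3 : Measurable fun y : B →ₐ[ℂ] ℂ => ‖y v‖ := (continuous_ev v).norm.measurable
  exact ((h3.pow_const _).mul ((h2.pow_const _).div (h1.pow_const _))).ennreal_ofReal

end Crest.Agent.R276.IntG_448
end
end

-- ▼ part R276/IntH_448

/-!
# HON: honest forms are integrable on the total space with a polynomial weight on the base

`hon`: `L/ℂ`, `K/L` fields, `M` a model of `K` whose first `m` coordinates are a transcendence basis of `L`;
`v · (dx₁ ∧ … ∧ dx_r)^N` a relative form regular at all valuation rings of `K ⊇ L`.  Then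
`∫_M |v|^{2/N} |p(t)|^κ (1+|t|²)^{-α} < ∞` for some polynomial `p ≠ 0` in `t` and some `κ`, `α`.
-/

set_option autoImplicit false

open Filter Set MeasureTheory Polynomial
open scoped ENNReal

noncomputable section

namespace Crest.Agent.R276.IntG_448

open Crest.Agent.R271.Defs710 Crest.Agent.R271.Alg255 Crest.Agent.R271.Rd692 Crest.Agent.R271
open Crest.Agent.R276.Mod1_987 Crest.Agent.R276.Mod1_987.Mdl
open Crest.Agent.R276.FKDefs_779 Crest.Agent.R276.Area_448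
open Crest.Agent.R276.IntA_448 Crest.Agent.R276.IntB_448 Crest.Agent.R276.IntC_448
open Crest.Agent.R276.IntD_448 Crest.Agent.R276.IntE_448 Crest.Agent.R276.IntF_448

variable {L K : Type} [Field L] [Field K] [Algebra ℂ L] [Algebra ℂ K] [Algebra L K]
  [IsScalarTower ℂ L K] {m r : ℕ}

omit [Algebra ℂ L] [Algebra ℂ K] [IsScalarTower ℂ L K] in
/-- the tuples attached to a strongly regular form -/
theorem exists_tuple (b : Module.Basis (Fin r) K (Ω[K⁄L])) {N : ℕ} (hN : 0 < N) {g : K} (hg : g ≠ 0)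
    (hS : PluriS L b N g) (V : ValuationSubring K) (hV : ∀ a : L, algebraMap L K a ∈ V) :
    ∃ y : {y : Fin r → K // jac L b y ≠ 0},
      ∀ j : Option (Fin r), j.elim (g / jac L b y.1 ^ N) y.1 ∈ V := by
  obtain ⟨y, hy, hle⟩ := hS V hV
  have hj : jac L b y ≠ 0 := by
    intro h0
    rw [h0, map_zero, zero_pow hN.ne', le_zero_iff, map_eq_zero] at hle
    exact hg hle
  refine ⟨⟨y, hj⟩, fun j => ?_⟩
  rcases j with _ | i
  · change g / jac L b y ^ N ∈ V
    rw [← V.valuation_le_one_iff, map_div₀, map_pow]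
    exact div_le_one_of_le₀ hle zero_le
  · exact hy i

/-- one piece of the total space -/
theorem piece_lt_top {n : ℕ} (M : Mdl K n) (D : Fin n → Derivation ℂ M.B M.B)
    (hD : ∀ i j, D j (M.z i) = if i = j then 1 else 0) {μ : Measure (M.B →ₐ[ℂ] ℂ)}
    (hμ : Ho51.IsLeb μ) (q : Fin n → M.B) {E : Set (M.B →ₐ[ℂ] ℂ)} (hE : MeasurableSet E) {d : ℕ}
    (hd : ∀ η, {x : M.B →ₐ[ℂ] ℂ | (fun i => x (q i)) = η}.encard ≤ d) (C : ℝ) (hC : 0 ≤ C)
    (G : (M.B →ₐ[ℂ] ℂ) → ℝ≥0∞)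
    (hG : ∀ x ∈ E, G x ≤ ENNReal.ofReal (‖x (jd D q)‖ ^ 2 * (C / (1 + ∑ i, ‖x (q i)‖ ^ 2) ^ (n + 1)))) :
    ∫⁻ x in E, G x ∂μ < ⊤ := by
  have h0 : ∀ x : M.B →ₐ[ℂ] ℂ, (qd D q x).det = x (jd D q) := qd_det D q
  have hw : Measurable fun η : Fin n → ℂ =>
      ENNReal.ofReal (C * (1 / (1 + ∑ i, ‖η i‖ ^ 2) ^ (n + 1))) := by
    fun_prop
  have h1 := GroUpB_845.area_ae_le (M := M.B →ₐ[ℂ] ℂ) hμ (sd_ev M.het D hD q)
    (by simp only [h0]; exact continuous_ev _) hE (W := univ) MeasurableSet.univ (fun _ _ _ => trivial)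
    (d := d) (Eventually.of_forall fun η => (Set.encard_le_encard fun x hx => hx.2.2).trans (hd η))
    hw (F := G) (by
      intro x hx
      refine (hG x hx).trans (le_of_eq ?_)
      rw [h0, ← ENNReal.ofReal_mul (by positivity)]
      congr 1
      ring)
  refine h1.trans_lt (ENNReal.mul_lt_top (ENNReal.natCast_lt_top _) ?_)
  rw [Measure.restrict_univ]
  have h2 : ∀ η : Fin n → ℂ, ENNReal.ofReal (C * (1 / (1 + ∑ i, ‖η i‖ ^ 2) ^ (n + 1))) =
      ENNReal.ofReal C * ENNReal.ofReal (1 / (1 + ∑ i, ‖η i‖ ^ 2) ^ (n + 1)) :=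
    fun η => ENNReal.ofReal_mul hC
  simp only [h2]
  rw [lintegral_const_mul' _ _ ENNReal.ofReal_ne_top]
  exact ENNReal.mul_lt_top ENNReal.ofReal_lt_top (lintegral_poly_lt_top n)

/-- **HON** -/
theorem hon (t : Fin m → L) (ht : IsTranscendenceBasis ℂ t) (M : Mdl K (m + r))
    (hz : ∀ i, (M.z (Fin.castAdd r i) : K) = algebraMap L K (t i))
    (b : Module.Basis (Fin r) K (Ω[K⁄L]))
    (hb : ∀ j, b j = KaehlerDifferential.D L K (M.z (Fin.natAdd m j) : K)) {N : ℕ} (hN : 0 < N)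
    (v : M.B) (hv : PluriS L b N (v : K)) :
    ∃ p : MvPolynomial (Fin m) ℂ, p ≠ 0 ∧ ∃ κ α : ℕ,
      lintM M.z (wint (fun i => M.z (Fin.castAdd r i)) v (2 / (N : ℝ)) p κ α) < ⊤ := by
  classical
  have hNR : (0 : ℝ) < N := by exact_mod_cast hN
  by_cases hv0 : (v : K) = 0
  · refine ⟨1, one_ne_zero, 0, 0, ?_⟩
    have h0 : v = 0 := Subtype.ext hv0
    have h1 : ∀ y : M.B →ₐ[ℂ] ℂ,
        wint (fun i => M.z (Fin.castAdd r i)) v (2 / (N : ℝ)) 1 0 0 y = 0 := by
      intro y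
      unfold wint
      have h2 : (0 : ℝ) ^ (2 / (N : ℝ)) = 0 := Real.zero_rpow (by positivity)
      rw [h0, map_zero, norm_zero, h2, zero_mul, ENNReal.ofReal_zero]
    unfold lintM
    simp only [h1, tsum_zero, lintegral_zero]
    exact ENNReal.zero_lt_top
  -- the tuples
  obtain ⟨S, A, C1, n1, hC1, hcov⟩ := GroUpA_845.cover (k := L)
    (fun (y : {y : Fin r → K // jac L b y ≠ 0}) (j : Option (Fin r)) =>
      j.elim ((v : K) / jac L b y.1 ^ N) y.1) (exists_tuple b hN hv0 hv)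
  -- the absolute basis
  obtain ⟨B, hB⟩ := FK1_779.exists_basis_of_transc (k := ℂ) (fun i => (M.z i : K))
    (IntC_448.isTranscendenceBasis M)
  have hjac : ∀ y : Fin r → K, jac ℂ B (Fin.append (fun i => algebraMap L K (t i)) y) = jac L b y :=
    fun y => jac_append t hz B hB b hb y
  -- multiplicities
  choose Fm dm hm using fun s : {y : Fin r → K // jac L b y ≠ 0} =>
    mult M (Fin.append (fun i => algebraMap L K (t i)) s.1)
      (isTranscendenceBasis_of_jac M B _ (by rw [hjac]; exact s.2))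
  obtain ⟨M', hzz, hle, hF⟩ := exists_loc M
    ((S.biUnion fun s => Finset.univ.image fun j : Option (Fin r) =>
        (j.elim ((v : K) / jac L b s.1 ^ N) s.1 : K)) ∪
      ((S.biUnion fun s => Finset.univ.image fun j : Option (Fin r) =>
        (j.elim ((v : K) / jac L b s.1 ^ N) s.1 : K)⁻¹) ∪
      (A.image (algebraMap L K) ∪ S.biUnion Fm)))
  have hf : ∀ s ∈ S, ∀ j : Option (Fin r),
      (j.elim ((v : K) / jac L b s.1 ^ N) s.1 : K) ∈ M'.B := fun s hs j =>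
    hF _ (Finset.mem_union_left _ (Finset.mem_biUnion.2 ⟨s, hs,
      Finset.mem_image_of_mem (fun j : Option (Fin r) =>
        (j.elim ((v : K) / jac L b s.1 ^ N) s.1 : K)) (Finset.mem_univ j)⟩))
  have hfi : ∀ s ∈ S, ∀ j : Option (Fin r),
      (j.elim ((v : K) / jac L b s.1 ^ N) s.1 : K)⁻¹ ∈ M'.B := fun s hs j =>
    hF _ (Finset.mem_union_right _ (Finset.mem_union_left _ (Finset.mem_biUnion.2 ⟨s, hs,
      Finset.mem_image_of_mem (fun j : Option (Fin r) =>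
        (j.elim ((v : K) / jac L b s.1 ^ N) s.1 : K)⁻¹) (Finset.mem_univ j)⟩)))
  have hA : ∀ a ∈ A, algebraMap L K a ∈ M'.B := fun a ha =>
    hF _ (Finset.mem_union_right _ (Finset.mem_union_right _ (Finset.mem_union_left _
      (Finset.mem_image_of_mem _ ha))))
  have hfm : ∀ s ∈ S, ∀ a ∈ Fm s, a ∈ M'.B := fun s hs a ha =>
    hF _ (Finset.mem_union_right _ (Finset.mem_union_right _ (Finset.mem_union_right _
      (Finset.mem_biUnion.2 ⟨s, hs, ha⟩))))
  -- growth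
  obtain ⟨c, hc0, hc⟩ := exists_growth_fin (K := K) t ht A
  set tB : Fin m → M'.B := fun i => M'.z (Fin.castAdd r i) with htB
  have htB' : ∀ i, (tB i : K) = algebraMap L K (t i) := by
    intro i
    rw [← hz i]
    exact (congrFun hzz (Fin.castAdd r i)).symm
  have hcB := hc M'.B tB htB'
  have hval : ∀ y : M'.Pts, y (az tB c) = MvPolynomial.eval (fun i => y (tB i)) c :=
    fun y => apply_az tB y _ (fun _ => rfl) c
  obtain ⟨C0, k0, hC0, hgr0⟩ : PG tB (az tB c) := by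
    apply PG.adjoin
    rw [Algebra.adjoin_range_eq_range_aeval]
    exact ⟨c, rfl⟩
  have hgrA : ∃ (C : ℝ) (k : ℕ), 0 ≤ C ∧ ∀ a (ha : a ∈ A), ∀ y : M'.Pts,
      ‖y (az tB c)‖ * ‖y ⟨algebraMap L K a, hA a ha⟩‖ ≤ C * oz tB y ^ k := by
    choose Cf kf hCf hgf using fun a : A => hcB a.1 a.2 ⟨algebraMap L K a.1, hA a.1 a.2⟩ rfl
    refine ⟨∑ a : A, Cf a, ∑ a : A, kf a, Finset.sum_nonneg fun a _ => hCf a, ?_⟩
    intro a ha y
    have h1 := hgf ⟨a, ha⟩ y
    rw [map_mul, norm_mul] at h1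
    have h2 : Cf ⟨a, ha⟩ ≤ ∑ a : A, Cf a :=
      Finset.single_le_sum (fun a _ => hCf a) (Finset.mem_univ _)
    have h3 : kf ⟨a, ha⟩ ≤ ∑ a : A, kf a :=
      Finset.single_le_sum (f := kf) (fun a _ => Nat.zero_le _) (Finset.mem_univ _)
    have h4 : oz tB y ^ kf ⟨a, ha⟩ ≤ oz tB y ^ (∑ a : A, kf a) :=
      pow_le_pow_right₀ (one_le_oz tB y) h3
    have h5 := one_le_oz tB y
    exact h1.trans (mul_le_mul h2 h4 (by positivity) (Finset.sum_nonneg fun a _ => hCf a))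
  obtain ⟨C, k, hC, hgrA⟩ := hgrA
  -- the integrals
  set κ : ℕ := n1 * (2 * (m + r) + 4) + 1 with hκ
  set α : ℕ := (m + r) + 1 + (k0 + k) * n1 * (2 * (m + r) + 4) + k0 with hα
  refine ⟨c, hc0, κ, α, ?_⟩
  rw [lintM_resB hzz hle]
  have hGeq : (fun y : M'.Pts => wint (fun i => M.z (Fin.castAdd r i)) v (2 / (N : ℝ)) c κ α
      (resB hle y)) = wint tB ⟨v, hle v.2⟩ (2 / (N : ℝ)) c κ α := by
    funext y
    have h1 : ∀ i, (resB hle y) (M.z (Fin.castAdd r i)) = y (tB i) := by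
      intro i
      rw [resB_apply]
      congr 1
      exact Subtype.ext (congrFun hzz (Fin.castAdd r i))
    unfold wint oz
    simp only [h1, resB_apply]
  rw [hGeq]
  obtain ⟨μ, hμ⟩ := M'.exists_leb
  rw [M'.lintM_eq hμ (measurable_wint _ _ _ _ _ _)]
  obtain ⟨D, hD⟩ := Bd741.exists_coord_deriv M'.z M'.het
  have hB' : ∀ i, B i = KaehlerDifferential.D ℂ K (M'.z i : K) := by
    intro i
    rw [hB i]
    congr 1
    exact congrFun hzz i
  -- the pieces
  let hB1 : S → M'.B := fun s => ⟨(v : K) / jac L b s.1.1 ^ N, hf s.1 s.2 none⟩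
  let yB : S → Fin r → M'.B := fun s i => ⟨s.1.1 i, hf s.1 s.2 (some i)⟩
  let qB : S → Fin (m + r) → M'.B := fun s => Fin.append tB (yB s)
  have hqB : ∀ s i, (qB s i : K) = Fin.append (fun i => algebraMap L K (t i)) s.1.1 i := by
    intro s i
    induction i using Fin.addCases with
    | left i => simp only [qB, Fin.append_left, htB']
    | right i => simp only [qB, Fin.append_right]; rfl
  let P : M'.Pts → ℝ := fun y => ‖y (az tB c)‖
  let T : M'.Pts → ℝ := fun y => C1 * (1 + C * oz tB y ^ k / P y) ^ n1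
  let E : S → Set M'.Pts := fun s =>
    {y | P y ≠ 0} ∩ ({y | ‖y (hB1 s)‖ ≤ T y} ∩ {y | ∀ j, ‖y (yB s j)‖ ≤ T y})
  have hPm : Measurable P := (continuous_ev (az tB c)).norm.measurable
  have hozm : Measurable fun y : M'.Pts => oz tB y := (continuous_oz tB).measurable
  have hTm : Measurable T := by
    have h1 : Measurable fun y : M'.Pts => 1 + C * oz tB y ^ k / P y :=
      measurable_const.add ((measurable_const.mul (hozm.pow_const _)).div hPm)
    exact measurable_const.mul (h1.pow_const _)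
  have hEm : ∀ s, MeasurableSet (E s) := by
    intro s
    refine (measurableSet_eq_fun hPm measurable_const).compl.inter ((measurableSet_le
      (continuous_ev (hB1 s)).norm.measurable hTm).inter ?_)
    rw [Set.ofPred_forall]
    exact MeasurableSet.iInter fun j =>
      measurableSet_le (continuous_ev (yB s j)).norm.measurable hTm
  have hcovE : ∀ y : M'.Pts, P y ≠ 0 → ∃ s, y ∈ E s := by
    intro y hy
    have hPy : 0 < P y := lt_of_le_of_ne (norm_nonneg _) (Ne.symm hy)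
    have h1 := hcov M'.B (M'.B.val : M'.B →+* K) (y : M'.B →+* ℂ) (C * oz tB y ^ k / P y)
      Subtype.val_injective (by have := one_le_oz tB y; positivity)
      (fun s hs l => ⟨⟨_, hf s hs l⟩, rfl⟩) (fun s hs l => ⟨⟨_, hfi s hs l⟩, rfl⟩)
      (fun a ha => ⟨⟨_, hA a ha⟩, rfl, by
        rw [le_div_iff₀ hPy, mul_comm]
        exact hgrA a ha y⟩)
    obtain ⟨s, hs, h2⟩ := h1
    exact ⟨⟨s, hs⟩, hy, h2 none _ rfl, fun j => h2 (some j) _ rfl⟩
  -- the integrand vanishes where `P = 0`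
  have hG0 : ∀ y : M'.Pts, P y = 0 → wint tB (⟨v, hle v.2⟩ : M'.B) (2 / (N : ℝ)) c κ α y = 0 := by
    intro y hy
    unfold wint
    have h1 : ‖MvPolynomial.eval (fun i => y (tB i)) c‖ = 0 := by rw [← hval]; exact hy
    rw [h1, hκ, zero_pow (Nat.succ_ne_zero _), zero_div, mul_zero, ENNReal.ofReal_zero]
  have hstep : ∫⁻ y, wint tB (⟨v, hle v.2⟩ : M'.B) (2 / (N : ℝ)) c κ α y ∂μ ≤
      ∑ s : S, ∫⁻ y in E s, wint tB (⟨v, hle v.2⟩ : M'.B) (2 / (N : ℝ)) c κ α y ∂μ := by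
    calc ∫⁻ y, wint tB (⟨v, hle v.2⟩ : M'.B) (2 / (N : ℝ)) c κ α y ∂μ
        ≤ ∫⁻ y, (⋃ s, E s).indicator (wint tB (⟨v, hle v.2⟩ : M'.B) (2 / (N : ℝ)) c κ α) y ∂μ := by
          refine lintegral_mono fun y => ?_
          by_cases hy : P y = 0
          · rw [hG0 y hy]; exact bot_le
          · obtain ⟨s, hs⟩ := hcovE y hy
            rw [indicator_of_mem (mem_iUnion.2 ⟨s, hs⟩)]
      _ = ∫⁻ y in ⋃ s, E s, wint tB (⟨v, hle v.2⟩ : M'.B) (2 / (N : ℝ)) c κ α y ∂μ :=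
          lintegral_indicator (MeasurableSet.iUnion hEm) _
      _ ≤ ∑' s, ∫⁻ y in E s, wint tB (⟨v, hle v.2⟩ : M'.B) (2 / (N : ℝ)) c κ α y ∂μ :=
          lintegral_iUnion_le _ _
      _ = _ := tsum_fintype _
  refine hstep.trans_lt (ENNReal.sum_lt_top.2 fun s _ => ?_)
  refine piece_lt_top M' D hD hμ (qB s) (hEm s) (d := dm s.1) ?_
    ((1 + (r : ℝ)) ^ ((m + r) + 1) * (C1 * (C0 + C) ^ n1) ^ (2 * (m + r) + 4) * C0) (by positivity) _ ?_
  · intro η
    exact hm s.1 M' hzz hle (hfm s.1 s.2) (qB s) (hqB s) η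
  · rintro y ⟨hyP, hyh, hyy⟩
    have hPy : 0 < P y := lt_of_le_of_ne (norm_nonneg _) (Ne.symm hyP)
    have hoz := one_le_oz tB y
    -- factorisation
    have hjd : ((jd D (qB s) : M'.B) : K) = jac L b s.1.1 := by
      rw [coe_jd M' D hD B hB', ← hjac]
      congr 1
      exact funext (hqB s)
    have hfac : (⟨v, hle v.2⟩ : M'.B) = hB1 s * jd D (qB s) ^ N := by
      apply Subtype.ext
      push_cast
      rw [hjd]
      exact (div_mul_cancel₀ _ (pow_ne_zero _ s.1.2)).symm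
    have hnorm : ‖y (⟨v, hle v.2⟩ : M'.B)‖ ^ (2 / (N : ℝ)) =
        ‖y (hB1 s)‖ ^ (2 / (N : ℝ)) * ‖y (jd D (qB s))‖ ^ 2 := by
      rw [hfac, map_mul, map_pow, norm_mul, norm_pow, Real.mul_rpow (norm_nonneg _) (by positivity),
        ← Real.rpow_natCast, ← Real.rpow_mul (norm_nonneg _), mul_div_cancel₀ _ hNR.ne']
      congr 1
      exact_mod_cast Real.rpow_natCast _ 2
    have hsum : ∑ i, ‖y (qB s i)‖ ^ 2 = (∑ i, ‖y (tB i)‖ ^ 2) + ∑ j, ‖y (yB s j)‖ ^ 2 := by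
      rw [Fin.sum_univ_add]
      simp only [qB, Fin.append_left, Fin.append_right]
    have hT1 : 1 ≤ T y := by
      have h1 : (1 : ℝ) ≤ (1 + C * oz tB y ^ k / P y) ^ n1 := one_le_pow₀ (by
        have : 0 ≤ C * oz tB y ^ k / P y := by positivity
        linarith)
      calc (1 : ℝ) = 1 * 1 := by ring
        _ ≤ T y := mul_le_mul hC1 h1 zero_le_one (by linarith)
    have hQ : 1 + ∑ i, ‖y (qB s i)‖ ^ 2 ≤ (1 + r) * oz tB y * (T y) ^ 2 := by
      have h1 : ∑ j, ‖y (yB s j)‖ ^ 2 ≤ r * (T y) ^ 2 := by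
        calc ∑ j, ‖y (yB s j)‖ ^ 2 ≤ ∑ _j : Fin r, (T y) ^ 2 :=
              Finset.sum_le_sum fun j _ => pow_le_pow_left₀ (norm_nonneg _) (hyy j) 2
          _ = r * (T y) ^ 2 := by simp
      have h2 : 1 + ∑ i, ‖y (qB s i)‖ ^ 2 = oz tB y + ∑ j, ‖y (yB s j)‖ ^ 2 := by
        rw [hsum]; unfold oz; ring
      have h3 : (1 : ℝ) ≤ (T y) ^ 2 := one_le_pow₀ hT1
      have h4 : (0 : ℝ) ≤ r := Nat.cast_nonneg r
      rw [h2]
      calc oz tB y + ∑ j, ‖y (yB s j)‖ ^ 2 ≤ oz tB y * (T y) ^ 2 + r * (T y) ^ 2 * oz tB y := by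
            have h5 : oz tB y ≤ oz tB y * (T y) ^ 2 := le_mul_of_one_le_right (by linarith) h3
            have h6 : r * (T y) ^ 2 ≤ r * (T y) ^ 2 * oz tB y :=
              le_mul_of_one_le_right (by positivity) hoz
            linarith
        _ = _ := by ring
    have hmain := est (X := oz tB y) (P := P y) (C0 := C0) (C := C) (C1 := C1) hoz hPy k0 k n1
      (m + r) r hC0 hC hC1 (hgr0 y) (H := ‖y (hB1 s)‖) (Q := 1 + ∑ i, ‖y (qB s i)‖ ^ 2)
      (s := 2 / (N : ℝ)) (norm_nonneg _) hyh (by positivity) (by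
        rw [div_le_iff₀ hNR]
        have : (1 : ℝ) ≤ N := by exact_mod_cast hN
        linarith) (by positivity) hQ
    unfold wint
    apply ENNReal.ofReal_le_ofReal
    rw [hnorm, ← hval]
    calc ‖y (hB1 s)‖ ^ (2 / (N : ℝ)) * ‖y (jd D (qB s))‖ ^ 2 * (‖y (az tB c)‖ ^ κ / oz tB y ^ α)
        = ‖y (jd D (qB s))‖ ^ 2 * (‖y (hB1 s)‖ ^ (2 / (N : ℝ)) * (P y ^ κ / oz tB y ^ α)) := by
          ring
      _ ≤ _ := mul_le_mul_of_nonneg_left hmain (by positivity)

end Crest.Agent.R276.IntG_448
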