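import Crest.Agent.R276.IpcRg_975

-- ▼ part R276/IpcNm_975
section

/-!
# R276, IPC fixed-s assembly (helper975), part 13: norms of representatives, closedness,
approximation of smooth elements of `Ex` by `D φ`
-/

set_option autoImplicit false

open Set Filter Topology MeasureTheory UniformSpace
open scoped ContDiff ComplexConjugate ENNReal

namespace Crest.Agent.R276.IpcG1_975

open VCalc_442 IpcGr_975

variable {V : Type*} [NormedAddCommGroup V] [NormedSpace ℂ V] {X : Set ℂ}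

/-- compact exhaustion of an open set -/
theorem exists_exhaustion (hX : IsOpen X) : ∃ K : ℕ → Set ℂ, (∀ n, IsCompact (K n)) ∧
    (∀ n, K n ⊆ X) ∧ Monotone K ∧ ⋃ n, K n = X := by
  obtain ⟨F, h1, h2, h3, h4⟩ := hX.exists_iUnion_isClosed
  refine ⟨fun n => F n ∩ Metric.closedBall 0 n, fun n => ?_, fun n => inter_subset_left.trans (h2 n),
    fun m n hmn => inter_subset_inter (h4 hmn) (Metric.closedBall_subset_closedBall
      (by exact_mod_cast hmn)), ?_⟩
  · exact (isCompact_closedBall (0 : ℂ) n).inter_left (h1 n)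
  · rw [← h3]
    apply subset_antisymm
    · exact iUnion_mono fun n => inter_subset_left
    · intro x hx
      obtain ⟨n, hn⟩ := mem_iUnion.1 hx
      obtain ⟨m, hm⟩ := exists_nat_ge ‖x‖
      refine mem_iUnion.2 ⟨max n m, h4 (le_max_left n m) hn, ?_⟩
      rw [mem_closedBall_zero_iff]
      exact hm.trans (by exact_mod_cast le_max_right n m)

namespace MB

variable {M : MB V X}

theorem sm_contOn {φ ψ : ℂ → V} (hφ : M.Sm φ) (hψ : M.Sm ψ) :
    ContinuousOn (fun x => M.G x (φ x) (ψ x)) X :=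
  fun z hz => (M.smG φ ψ hφ hψ z hz).continuousAt.continuousWithinAt

theorem contOn_re {φ : ℂ → V} (hφ : M.Sm φ) :
    ContinuousOn (fun x => (M.G x (φ x) (φ x)).re) X :=
  Complex.continuous_re.comp_continuousOn (M.sm_contOn hφ hφ)

theorem cutC_mem {g : ℂ → ℝ} (hg : CutC X g) {φ : ℂ → V} (hφ : M.Sm φ) :
    (fun x => (g x : ℂ) • φ x) ∈ M.A0 :=
  FB.cut_mem_A0 M.op subset_rfl hg.smC hg.csC hg.subC hφ

/-- a smooth section with vanishing weighted norms is zero -/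
theorem eq_zero_of_int {c : ℂ → V} (hc : M.Sm c)
    (h : ∀ g : ℂ → ℝ, CutC X g → (∀ x, 0 ≤ g x) → (∀ x, g x ≤ 1) →
      ∫ x, g x * (M.G x (c x) (c x)).re = 0) {z : ℂ} (hz : z ∈ X) : c z = 0 := by
  obtain ⟨f, hf, hfc, hs, hf0, hf2, hf1⟩ := exists_cutK (isCompact_singleton (x := z)) M.op
    (singleton_subset_iff.2 hz)
  have hfC : CutC X f := ⟨hf, hfc, hs⟩
  have h0 := h f hfC hf0 hf2
  have hmem := M.cutC_mem hfC hc
  have hcs := M.cs_left hmem hc
  have hpt : ∀ x, (M.G x ((f x : ℂ) • c x) (c x)).re = f x * (M.G x (c x) (c x)).re := by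
    intro x
    rw [map_smulₛₗ, smul_apply, Complex.conj_ofReal, smul_eq_mul, Complex.re_ofReal_mul]
  have hcont : Continuous (fun x => f x * (M.G x (c x) (c x)).re) := by
    have := Complex.continuous_re.comp hcs.continuous
    refine this.congr fun x => ?_
    exact hpt x
  have hint : Integrable (fun x => f x * (M.G x (c x) (c x)).re) := by
    refine hcs.integrable.re.congr (Eventually.of_forall fun x => ?_)
    exact hpt x
  have hnn : ∀ x, 0 ≤ f x * (M.G x (c x) (c x)).re := by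
    intro x
    by_cases hx : x ∈ X
    · exact mul_nonneg (hf0 x) (M.G_nonneg hx _)
    · have : f x = 0 := hfC.zero fun h => hx (hs h)
      rw [this, zero_mul]
  have hae := (integral_eq_zero_iff_of_nonneg hnn hint).1 h0
  have hall := (Continuous.ae_eq_iff_eq volume hcont continuous_const).1 hae
  have hz0 : f z * (M.G z (c z) (c z)).re = 0 := congrFun hall z
  rw [hf1 z rfl, one_mul] at hz0
  exact eq_zero_of_G hz hz0

theorem GRep.weighted {u : M.L2} {α : ℂ → V} (h : M.GRep u α) {g : ℂ → ℝ} (hg : CutC X g)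
    (hg0 : ∀ x, 0 ≤ g x) (hg1 : ∀ x, g x ≤ 1) :
    ∫ x, g x * (M.G x (α x) (α x)).re ≤ ‖u‖ ^ 2 := by
  have hmem := M.cutC_mem hg h.sm
  set ζ : M.H0 := M.s0 _ hmem with hζ
  have hcs := M.cs_left hmem h.sm
  have hpt : ∀ x, (M.G x (ζ.f x) (α x)).re = g x * (M.G x (α x) (α x)).re := by
    intro x
    show (M.G x ((g x : ℂ) • α x) (α x)).re = _
    rw [map_smulₛₗ, smul_apply, Complex.conj_ofReal, smul_eq_mul, Complex.re_ofReal_mul]
  have hint : Integrable (fun x => g x * (M.G x (α x) (α x)).re) := by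
    refine hcs.integrable.re.congr (Eventually.of_forall fun x => ?_)
    exact hpt x
  set T := ∫ x, g x * (M.G x (α x) (α x)).re with hT
  have hnn : ∀ x, 0 ≤ g x * (M.G x (α x) (α x)).re := by
    intro x
    by_cases hx : x ∈ X
    · exact mul_nonneg (hg0 x) (M.G_nonneg hx _)
    · have : g x = 0 := hg.zero fun h => hx (hg.sub h)
      rw [this, zero_mul]
  have hT0 : 0 ≤ T := integral_nonneg hnn
  have e1 : (inner ℂ (ζ : M.L2) u).re = T := by
    rw [h.rep ζ, hT]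
    have h2 : (∫ x, M.G x (ζ.f x) (α x)).re = ∫ x, (M.G x (ζ.f x) (α x)).re :=
      (integral_re hcs.integrable).symm
    rw [h2]
    exact integral_congr_ae (Eventually.of_forall fun x => hpt x)
  have e2 : ‖(ζ : M.L2)‖ ^ 2 ≤ T := by
    rw [Completion.norm_coe, M.norm_sq_H0, hT]
    refine integral_mono (M.cs ζ.mem ζ.mem).integrable.re hint fun x => ?_
    have e3 : (M.G x (ζ.f x) (ζ.f x)).re = g x * (g x * (M.G x (α x) (α x)).re) := by
      show (M.G x ((g x : ℂ) • α x) ((g x : ℂ) • α x)).re = _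
      rw [map_smul, smul_eq_mul, Complex.re_ofReal_mul, map_smulₛₗ, smul_apply,
        Complex.conj_ofReal, smul_eq_mul, Complex.re_ofReal_mul]
    rw [e3]
    exact mul_le_of_le_one_left (hnn x) (hg1 x)
  have e3 : T ≤ ‖(ζ : M.L2)‖ * ‖u‖ := by
    rw [← e1]
    exact (Complex.re_le_norm _).trans (norm_inner_le_norm _ _)
  have h5 : T ^ 2 ≤ T * ‖u‖ ^ 2 := by
    calc T ^ 2 ≤ (‖(ζ : M.L2)‖ * ‖u‖) ^ 2 := by gcongr
      _ = ‖(ζ : M.L2)‖ ^ 2 * ‖u‖ ^ 2 := by ring
      _ ≤ T * ‖u‖ ^ 2 := by gcongr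
  rcases hT0.eq_or_lt with h6 | h6
  · rw [← h6]; positivity
  · nlinarith

theorem GRep.setInt {u : M.L2} {α : ℂ → V} (h : M.GRep u α) {K : Set ℂ} (hK : IsCompact K)
    (hKX : K ⊆ X) : ∫ x in K, (M.G x (α x) (α x)).re ≤ ‖u‖ ^ 2 := by
  obtain ⟨f, hf, hfc, hs, hf0, hf2, hf1⟩ := exists_cutK hK M.op hKX
  have hfC : CutC X f := ⟨hf, hfc, hs⟩
  refine le_trans ?_ (h.weighted hfC hf0 hf2)
  have hcs := M.cs_left (M.cutC_mem hfC h.sm) h.sm
  have hpt : ∀ x, (M.G x ((f x : ℂ) • α x) (α x)).re = f x * (M.G x (α x) (α x)).re := by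
    intro x
    rw [map_smulₛₗ, smul_apply, Complex.conj_ofReal, smul_eq_mul, Complex.re_ofReal_mul]
  have hint : Integrable (fun x => f x * (M.G x (α x) (α x)).re) := by
    refine hcs.integrable.re.congr (Eventually.of_forall fun x => ?_)
    exact hpt x
  have hnn : ∀ x, 0 ≤ f x * (M.G x (α x) (α x)).re := by
    intro x
    by_cases hx : x ∈ X
    · exact mul_nonneg (hf0 x) (M.G_nonneg hx _)
    · have : f x = 0 := hfC.zero fun h => hx (hs h)
      rw [this, zero_mul]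
  have e1 : ∫ x in K, (M.G x (α x) (α x)).re = ∫ x in K, f x * (M.G x (α x) (α x)).re := by
    refine setIntegral_congr_fun hK.measurableSet fun x hx => ?_
    rw [hf1 x hx, one_mul]
  rw [e1]
  exact setIntegral_le_integral hint (Eventually.of_forall hnn)

theorem GRep.lint {u : M.L2} {α : ℂ → V} (h : M.GRep u α) :
    ∫⁻ x in X, ENNReal.ofReal ((M.G x (α x) (α x)).re) ≤ ENNReal.ofReal (‖u‖ ^ 2) := by
  obtain ⟨K, hK, hKX, hmono, hun⟩ := exists_exhaustion M.op
  have h1 := setLIntegral_iUnion_of_directed (μ := (volume : Measure ℂ))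
    (fun x => ENNReal.ofReal ((M.G x (α x) (α x)).re)) (directed_of_isDirected_le hmono)
  rw [hun] at h1
  rw [h1]
  refine iSup_le fun n => ?_
  have hcont := (contOn_re h.sm).mono (hKX n)
  rw [← ofReal_integral_eq_lintegral_ofReal (hcont.integrableOn_compact (hK n))]
  · exact ENNReal.ofReal_le_ofReal (h.setInt (hK n) (hKX n))
  · filter_upwards [ae_restrict_mem (hK n).measurableSet] with x hx
    exact M.G_nonneg (hKX n hx) _

theorem GRep.integrableOn {u : M.L2} {α : ℂ → V} (h : M.GRep u α) :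
    IntegrableOn (fun x => (M.G x (α x) (α x)).re) X := by
  refine ⟨(contOn_re h.sm).aestronglyMeasurable M.op.measurableSet, ?_⟩
  rw [hasFiniteIntegral_iff_norm]
  have h1 : ∀ᵐ x ∂(volume.restrict X), ENNReal.ofReal ‖(M.G x (α x) (α x)).re‖ =
      ENNReal.ofReal ((M.G x (α x) (α x)).re) := by
    filter_upwards [ae_restrict_mem M.op.measurableSet] with x hx
    rw [Real.norm_of_nonneg (M.G_nonneg hx _)]
  rw [lintegral_congr_ae h1]
  exact lt_of_le_of_lt h.lint ENNReal.ofReal_lt_top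

theorem GRep.int_le {u : M.L2} {α : ℂ → V} (h : M.GRep u α) :
    ∫ x in X, (M.G x (α x) (α x)).re ≤ ‖u‖ ^ 2 := by
  have h0 : 0 ≤ ∫ x in X, (M.G x (α x) (α x)).re :=
    setIntegral_nonneg M.op.measurableSet fun x hx => M.G_nonneg hx _
  have h2 : 0 ≤ᵐ[volume.restrict X] fun x => (M.G x (α x) (α x)).re := by
    filter_upwards [ae_restrict_mem M.op.measurableSet] with x hx
    exact M.G_nonneg hx _
  have h1 := h.lint
  rw [← ofReal_integral_eq_lintegral_ofReal h.integrableOn h2] at h1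
  exact (ENNReal.ofReal_le_ofReal_iff (by positivity)).1 h1

end MB

namespace PV

section gen

variable {w : ℕ} {M : PV V X w} [FiniteDimensional ℂ V]

theorem Rep.g {u : M.L} {α : ℂ → V × V} (h : M.Rep u α) : M.mb.dbl.GRep u α := ⟨h.1, h.2⟩


/-- representatives of weakly closed elements are closed -/
theorem Rep.clo {u : M.L} {α : ℂ → V × V} (h : M.Rep u α) (hu : u ∈ M.Zc) : M.toFB.Clo α := by
  refine ⟨h.1, fun z hz => ?_⟩
  obtain ⟨h1, h2⟩ := FB.sm_dbl.1 h.1
  set c : ℂ → V := fun z => M.d2 (fun x => (α x).1) z - M.d1 (fun x => (α x).2) z with hc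
  have hcs : M.Sm c := (FB.Sm.d2 h1).sub (FB.Sm.d1 h2)
  have hc0 : c z = 0 := by
    refine MB.eq_zero_of_int (M := M.mb) hcs (fun g hg hg0 hg1 => ?_) hz
    have hJc : M.Sm (fun x => M.Jf x (c x)) := FB.Sm.app M.smJ hcs
    have hmem : (fun x => (g x : ℂ) • M.Jf x (c x)) ∈ M.toFB.A0 :=
      FB.cut_mem_A0 M.op subset_rfl hg.smC hg.csC hg.subC hJc
    have h3 := h.pair ⟨_, hmem⟩
    have h4 : inner ℂ (M.DL ⟨_, hmem⟩) (M.be u) = 0 := by
      rw [← inner_conj_symm, (M.mem_Zc'.1 hu) ⟨_, hmem⟩, map_zero]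
    rw [h4] at h3
    have h5 : ∀ x, M.S x ((g x : ℂ) • M.Jf x (c x)) (c x) = ((g x * (M.Gf x (c x) (c x)).re : ℝ) : ℂ) := by
      intro x
      by_cases hx : x ∈ X
      · rw [map_smulₛₗ, smul_apply, Complex.conj_ofReal, smul_eq_mul]
        have h6 : M.Gf x (c x) (c x) = ((M.Gf x (c x) (c x)).re : ℂ) := by
          have := M.G_herm hx (c x) (c x)
          exact (Complex.conj_eq_iff_re.1 this).symm
        rw [Complex.ofReal_mul, ← h6]
        rfl
      · have : g x = 0 := hg.zero fun h => hx (hg.sub h)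
        rw [this]; simp
    have h7 : (0 : ℂ) = ∫ x, ((g x * (M.Gf x (c x) (c x)).re : ℝ) : ℂ) := by
      rw [h3]
      exact integral_congr_ae (Eventually.of_forall fun x => h5 x)
    have h8 : ∫ x, ((g x * (M.Gf x (c x) (c x)).re : ℝ) : ℂ) =
        ((∫ x, g x * (M.Gf x (c x) (c x)).re : ℝ) : ℂ) := integral_ofReal (𝕜 := ℂ)
    rw [h8] at h7
    exact_mod_cast h7.symm
  exact sub_eq_zero.1 hc0


/-- elements with equal representatives are equal -/
theorem Rep.eq {u v : M.L} {α α' : ℂ → V × V} (h : M.Rep u α) (h' : M.Rep v α')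
    (he : ∀ x ∈ X, α x = α' x) : u = v := by
  rw [← sub_eq_zero]
  have h1 : ∀ ζ : M.mb.dbl.H0, inner ℂ (ζ : M.L) (u - v) = 0 := by
    intro ζ
    rw [inner_sub_right, h.2, h'.2, sub_eq_zero]
    refine integral_congr_ae (Eventually.of_forall fun x => ?_)
    by_cases hx : x ∈ X
    · simp only; rw [he x hx]
    · simp [M.mb.dbl.f_eq_zero' ζ hx]
  have h2 : inner ℂ (u - v) (u - v) = 0 :=
    M.mb.dbl.dense_ext (f := fun ξ => inner ℂ ξ (u - v)) (g := fun _ => 0) (by fun_prop)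
      continuous_const h1 (u - v)
  exact inner_self_eq_zero.1 h2

/-- smooth representatives of elements of `Ex` are limits of `D φ` in `L²` -/
theorem Rep.approx {u : M.L} {α : ℂ → V × V} (h : M.Rep u α) (hu : u ∈ M.Ex) {ε : ℝ}
    (hε : 0 < ε) : ∃ φ ∈ M.toFB.A0, IntegrableOn (fun x => (M.mb.dbl.G x (α x - M.toFB.Df φ x)
      (α x - M.toFB.Df φ x)).re) X ∧
      ∫ x in X, (M.mb.dbl.G x (α x - M.toFB.Df φ x) (α x - M.toFB.Df φ x)).re < ε := by
  have hcl : u ∈ closure (LinearMap.range M.DL : Set M.L) := hu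
  rw [Metric.mem_closure_iff] at hcl
  obtain ⟨_, ⟨φ, rfl⟩, hφ⟩ := hcl (Real.sqrt ε) (Real.sqrt_pos.2 hε)
  have hr : M.Rep (u - M.DL φ) (fun x => α x - M.toFB.Df φ.1 x) :=
    h.sub (M.rep_coe _)
  refine ⟨φ.1, φ.2, hr.g.integrableOn, lt_of_le_of_lt hr.g.int_le ?_⟩
  rw [dist_eq_norm] at hφ
  have h1 : ‖u - M.DL φ‖ ^ 2 < (Real.sqrt ε) ^ 2 := by
    have := norm_nonneg (u - M.DL φ)
    gcongr
  rwa [Real.sq_sqrt hε.le] at h1

end gen

end PV

end Crest.Agent.R276.IpcG1_975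
end

-- ▼ part R276/IpcAs_975

/-!
# R276, IPC fixed-s assembly (helper975), part 14: `Zc = (smooth compactly supported closed) + Ex`
-/

set_option autoImplicit false

open Set Filter Topology MeasureTheory UniformSpace
open scoped ContDiff ComplexConjugate ENNReal

namespace Crest.Agent.R276.IpcG1_975

open VCalc_442 IpcGr_975

variable {X : Set ℂ} {ι : Type*} [Fintype ι] [DecidableEq ι] {w : ℕ} (M : PV (ι → ℂ) X w)

namespace PV

/-- smooth compactly supported closed forms -/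
noncomputable def ZS : Submodule ℂ M.mb.dbl.H0 where
  carrier := {ζ | M.toFB.Clo ζ.f}
  add_mem' := by
    rintro ζ ξ ⟨h1, h2⟩ ⟨h3, h4⟩
    refine ⟨h1.add h3, fun z hz => ?_⟩
    obtain ⟨a1, a2⟩ := FB.sm_dbl.1 h1
    obtain ⟨b1, b2⟩ := FB.sm_dbl.1 h3
    have e1 := FB.d2_add a1 b1 hz
    have e2 := FB.d1_add a2 b2 hz
    have e3 : M.d2 (fun x => ((ζ + ξ).f x).1) z = _ := e1
    have e4 : M.d1 (fun x => ((ζ + ξ).f x).2) z = _ := e2
    rw [e3, e4, h2 z hz, h4 z hz]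
  zero_mem' := by
    refine ⟨FB.sm_zero, fun z hz => ?_⟩
    have e1 : M.d2 (fun x => ((0 : M.mb.dbl.H0).f x).1) z = 0 := by
      have : (fun x => ((0 : M.mb.dbl.H0).f x).1) = fun _ : ℂ => (0 : ι → ℂ) := rfl
      rw [this]
      exact FB.d2_zero_of (K := ∅) isCompact_empty (fun _ _ => rfl) (by simp)
    have e2 : M.d1 (fun x => ((0 : M.mb.dbl.H0).f x).2) z = 0 := by
      have : (fun x => ((0 : M.mb.dbl.H0).f x).2) = fun _ : ℂ => (0 : ι → ℂ) := rfl
      rw [this]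
      exact FB.d1_zero_of (K := ∅) isCompact_empty (fun _ _ => rfl) (by simp)
    rw [e1, e2]
  smul_mem' := by
    rintro c ζ ⟨h1, h2⟩
    refine ⟨h1.const_smul c, fun z hz => ?_⟩
    obtain ⟨a1, a2⟩ := FB.sm_dbl.1 h1
    have e1 := FB.d2_smul a1 c hz
    have e2 := FB.d1_smul a2 c hz
    have e3 : M.d2 (fun x => ((c • ζ).f x).1) z = _ := e1
    have e4 : M.d1 (fun x => ((c • ζ).f x).2) z = _ := e2
    rw [e3, e4, h2 z hz]


theorem ZS_mem_Zc {ζ : M.mb.dbl.H0} (h : ζ ∈ M.ZS) : (ζ : M.L) ∈ M.Zc :=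
  (M.rep_coe ζ).mem_Zc h.2

/-- exact smooth forms -/
def Exact (α : ℂ → (ι → ℂ) × (ι → ℂ)) : Prop :=
  ∃ ψ : ℂ → ι → ℂ, M.Sm ψ ∧ ∀ x ∈ X, α x = M.toFB.Df ψ x

/-- the `L²` norm is finite -/
def Fin2 (α : ℂ → (ι → ℂ) × (ι → ℂ)) : Prop :=
  IntegrableOn (fun x => (M.mb.dbl.G x (α x) (α x)).re) X

/-- the inputs on the global and end behaviour -/
structure Inp : Prop where
  /-- closed `L²` forms are cohomologous to compactly supported ones -/
  I3 : ∀ α, M.toFB.Clo α → M.Fin2 α → ∃ ζ ∈ M.ZS, M.Exact (fun x => α x - ζ.f x)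
  /-- harmonic exact `L²` forms vanish -/
  I5 : ∀ ψ, M.Sm ψ → M.toFB.Clo (fun x => M.bt x (M.toFB.Df ψ x)) → M.Fin2 (M.toFB.Df ψ) →
    ∀ x ∈ X, M.toFB.Df ψ x = 0
  /-- limits of exact forms are exact -/
  IT : ∀ α, M.toFB.Clo α → (∀ ε : ℝ, 0 < ε → ∃ φ ∈ M.toFB.A0,
      IntegrableOn (fun x => (M.mb.dbl.G x (α x - M.toFB.Df φ x) (α x - M.toFB.Df φ x)).re) X ∧
      ∫ x in X, (M.mb.dbl.G x (α x - M.toFB.Df φ x) (α x - M.toFB.Df φ x)).re < ε) → M.Exact α

variable {M}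

theorem Exact.add {α β : ℂ → (ι → ℂ) × (ι → ℂ)} (h : M.Exact α) (h' : M.Exact β) :
    M.Exact (fun x => α x + β x) := by
  obtain ⟨ψ, h1, h2⟩ := h
  obtain ⟨ψ', h3, h4⟩ := h'
  refine ⟨ψ + ψ', h1.add h3, fun x hx => ?_⟩
  simp only
  rw [h2 x hx, h4 x hx]
  exact (Prod.ext (FB.d1_add h1 h3 hx) (FB.d2_add h1 h3 hx)).symm

theorem Exact.smul {α : ℂ → (ι → ℂ) × (ι → ℂ)} (h : M.Exact α) (c : ℂ) :
    M.Exact (fun x => c • α x) := by
  obtain ⟨ψ, h1, h2⟩ := h
  refine ⟨c • ψ, h1.const_smul c, fun x hx => ?_⟩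
  simp only
  rw [h2 x hx]
  exact (Prod.ext (FB.d1_smul h1 c hx) (FB.d2_smul h1 c hx)).symm

theorem Exact.sub {α β : ℂ → (ι → ℂ) × (ι → ℂ)} (h : M.Exact α) (h' : M.Exact β) :
    M.Exact (fun x => α x - β x) := by
  have := h.add (h'.smul (-1))
  simpa [sub_eq_add_neg] using this

theorem Exact.congr {α β : ℂ → (ι → ℂ) × (ι → ℂ)} (h : M.Exact α) (he : ∀ x ∈ X, β x = α x) :
    M.Exact β := by
  obtain ⟨ψ, h1, h2⟩ := h
  exact ⟨ψ, h1, fun x hx => by rw [he x hx, h2 x hx]⟩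

/-- elements of `Ex` with a smooth representative are exact -/
theorem Inp.exact_of_ex (H : M.Inp) {u : M.L} {α : ℂ → (ι → ℂ) × (ι → ℂ)} (h : M.Rep u α)
    (hu : u ∈ M.Ex) : M.Exact α :=
  H.IT α (h.clo (M.ex_le_zc hu)) fun _ hε => h.approx hu hε

/-- harmonic decomposition -/
theorem decomp {u : M.L} (hu : u ∈ M.Zc) :
    ∃ h e : M.L, u = h + e ∧ e ∈ M.Ex ∧ h ∈ M.Zc ∧ M.be h ∈ M.Zc := by
  haveI : CompleteSpace M.Ex := M.ex_closed.completeSpace_coe
  obtain ⟨e, he, h, hh, rfl⟩ := M.Ex.exists_add_mem_mem_orthogonal u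
  refine ⟨h, e, add_comm _ _, he, ?_, ?_⟩
  · have := M.Zc.sub_mem hu (M.ex_le_zc he)
    simpa using this
  · rw [M.mem_Zc]
    intro e' he'
    rw [M.be_be, ← inner_conj_symm, Submodule.inner_right_of_mem_orthogonal he' hh, map_zero]

theorem rep_zero : M.Rep (0 : M.L) (fun _ => 0) :=
  ⟨FB.sm_zero, fun ζ => by simp⟩

/-- harmonic elements with exact representative vanish -/
theorem Inp.harm_zero (H : M.Inp) {h : M.L} {α : ℂ → (ι → ℂ) × (ι → ℂ)} (hr : M.Rep h α)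
    (hbh : M.be h ∈ M.Zc) (he : M.Exact α) : h = 0 := by
  obtain ⟨ψ, h1, h2⟩ := he
  refine Rep.eq hr rep_zero fun x hx => ?_
  rw [h2 x hx]
  have hsm : M.toFB.dbl.Sm (M.toFB.Df ψ) := FB.sm_dbl.2 ⟨h1.d1, h1.d2⟩
  have hcl := (hr.be).clo hbh
  have hDr : M.Rep h (M.toFB.Df ψ) := by
    refine ⟨hsm, fun ζ => ?_⟩
    rw [hr.2]
    refine integral_congr_ae (Eventually.of_forall fun x => ?_)
    by_cases hx : x ∈ X
    · simp only; rw [h2 x hx]
    · simp [M.mb.dbl.f_eq_zero' ζ hx]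
  exact H.I5 ψ h1 (hDr.be.clo hbh) hDr.g.integrableOn x hx

/-- **smooth compactly supported closed forms in `Ex` are the exact ones** -/
theorem Inp.mem_ex_iff (H : M.Inp) {ζ : M.mb.dbl.H0} (hζ : ζ ∈ M.ZS) :
    (ζ : M.L) ∈ M.Ex ↔ M.Exact ζ.f := by
  constructor
  · exact fun h => H.exact_of_ex (M.rep_coe ζ) h
  · intro hex
    obtain ⟨h, e, hsum, he, hh, hbh⟩ := decomp (M.ZS_mem_Zc hζ)
    obtain ⟨α, hα⟩ := exists_rep hh hbh
    have he' : e = (ζ : M.L) - h := by rw [hsum]; abel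
    have hr : M.Rep e (fun x => ζ.f x - α x) := by
      rw [he']
      exact (M.rep_coe ζ).sub hα
    have hex2 := H.exact_of_ex hr he
    have hex3 : M.Exact α := (hex.sub hex2).congr fun x _ => by simp
    have h0 := H.harm_zero hα hbh hex3
    rw [hsum, h0, zero_add]
    exact he

/-- **every weakly closed element is smooth compactly supported closed modulo `Ex`** -/
theorem Inp.exists_smooth (H : M.Inp) {u : M.L} (hu : u ∈ M.Zc) :
    ∃ ζ ∈ M.ZS, u - (ζ : M.L) ∈ M.Ex := by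
  obtain ⟨h, e, rfl, he, hh, hbh⟩ := decomp hu
  obtain ⟨α, hα⟩ := exists_rep hh hbh
  obtain ⟨ζ, hζ, hex⟩ := H.I3 α (hα.clo hh) hα.g.integrableOn
  obtain ⟨h', e', hsum, he', hh', hbh'⟩ := decomp (M.ZS_mem_Zc hζ)
  obtain ⟨α', hα'⟩ := exists_rep hh' hbh'
  have hee : e' = (ζ : M.L) - h' := by rw [hsum]; abel
  have hr : M.Rep e' (fun x => ζ.f x - α' x) := by
    rw [hee]
    exact (M.rep_coe ζ).sub hα'
  have hex2 := H.exact_of_ex hr he'
  have hd : M.Rep (h - h') (fun x => α x - α' x) := hα.sub hα'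
  have hex3 : M.Exact (fun x => α x - α' x) := (hex.add hex2).congr fun x _ => by simp
  have hbd : M.be (h - h') ∈ M.Zc := by
    rw [map_sub]
    exact M.Zc.sub_mem hbh hbh'
  have h0 := H.harm_zero hd hbd hex3
  refine ⟨ζ, hζ, ?_⟩
  have : h + e - (ζ : M.L) = e - e' := by
    rw [hee]
    have : h = h' := sub_eq_zero.1 h0
    rw [this]; abel
  rw [this]
  exact M.Ex.sub_mem he he'

/-- the class map: any linear map on smooth compactly supported closed forms which is onto and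
whose kernel consists of the exact forms extends to `Zc` -/
theorem Inp.exists_cl (H : M.Inp) {W : Type*} [NormedAddCommGroup W] [NormedSpace ℂ W]
    [FiniteDimensional ℂ W] (c : M.ZS →ₗ[ℂ] W) (hc : Function.Surjective c)
    (hk : ∀ ζ : M.ZS, c ζ = 0 ↔ M.Exact (ζ : M.mb.dbl.H0).f) :
    ∃ cl : M.Zc →L[ℂ] W, Function.Surjective cl ∧ (∀ u : M.Zc, cl u = 0 ↔ (u : M.L) ∈ M.Ex) ∧
      ∀ ζ : M.ZS, cl ⟨((ζ : M.mb.dbl.H0) : M.L), M.ZS_mem_Zc ζ.2⟩ = c ζ := by
  classical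
  have hsm : ∀ u : M.Zc, ∃ ζ : M.ZS, (u : M.L) - ((ζ : M.mb.dbl.H0) : M.L) ∈ M.Ex := by
    intro u
    obtain ⟨ζ, hζ, h⟩ := H.exists_smooth u.2
    exact ⟨⟨ζ, hζ⟩, h⟩
  choose s hs using hsm
  have hwd : ∀ (u : M.Zc) (ζ : M.ZS), (u : M.L) - ((ζ : M.mb.dbl.H0) : M.L) ∈ M.Ex →
      c (s u) = c ζ := by
    intro u ζ h
    rw [← sub_eq_zero, ← map_sub, hk]
    have h1 := M.Ex.sub_mem h (hs u)
    have h2 : (u : M.L) - ((ζ : M.mb.dbl.H0) : M.L) - ((u : M.L) - ((s u : M.mb.dbl.H0) : M.L)) =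
        (((s u - ζ : M.ZS) : M.mb.dbl.H0) : M.L) := by
      rw [Submodule.coe_sub, Completion.coe_sub]
      abel
    rw [h2] at h1
    exact (H.mem_ex_iff (s u - ζ).2).1 h1
  let cl0 : M.Zc →ₗ[ℂ] W :=
    { toFun := fun u => c (s u)
      map_add' := fun u v => by
        rw [← map_add]
        refine hwd _ _ ?_
        have h2 : ((u + v : M.Zc) : M.L) - (((s u + s v : M.ZS) : M.mb.dbl.H0) : M.L) =
            ((u : M.L) - ((s u : M.mb.dbl.H0) : M.L)) + ((v : M.L) - ((s v : M.mb.dbl.H0) : M.L)) := by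
          rw [Submodule.coe_add, Submodule.coe_add, Completion.coe_add]
          abel
        rw [h2]
        exact M.Ex.add_mem (hs u) (hs v)
      map_smul' := fun a u => by
        rw [RingHom.id_apply, ← map_smul]
        refine hwd _ _ ?_
        have h2 : ((a • u : M.Zc) : M.L) - (((a • s u : M.ZS) : M.mb.dbl.H0) : M.L) =
            a • ((u : M.L) - ((s u : M.mb.dbl.H0) : M.L)) := by
          rw [Submodule.coe_smul, Submodule.coe_smul, Completion.coe_smul, smul_sub]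
        rw [h2]
        exact M.Ex.smul_mem a (hs u) }
  have hker : ∀ u : M.Zc, cl0 u = 0 ↔ (u : M.L) ∈ M.Ex := by
    intro u
    show c (s u) = 0 ↔ _
    rw [hk, ← H.mem_ex_iff (s u).2]
    constructor
    · intro h
      have := M.Ex.add_mem (hs u) h
      simpa using this
    · intro h
      have := M.Ex.sub_mem h (hs u)
      simpa using this
  have hcl0 : ∀ ζ : M.ZS, cl0 ⟨((ζ : M.mb.dbl.H0) : M.L), M.ZS_mem_Zc ζ.2⟩ = c ζ := by
    intro ζ
    refine hwd _ ζ ?_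
    rw [sub_self]
    exact M.Ex.zero_mem
  have hcont : Continuous cl0 := by
    -- factor through the quotient by the closed kernel
    have hkc : IsClosed ((LinearMap.ker cl0 : Submodule ℂ M.Zc) : Set M.Zc) := by
      have : ((LinearMap.ker cl0 : Submodule ℂ M.Zc) : Set M.Zc) =
          (fun u : M.Zc => (u : M.L)) ⁻¹' (M.Ex : Set M.L) := by
        ext u
        exact hker u
      rw [this]
      exact M.ex_closed.preimage continuous_subtype_val
    let K := LinearMap.ker cl0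
    haveI : IsClosed (K : Set M.Zc) := hkc
    haveI : FiniteDimensional ℂ (M.Zc ⧸ K) :=
      LinearEquiv.finiteDimensional cl0.quotKerEquivRange.symm
    have h1 : (cl0 : M.Zc → W) = fun u => (K.liftQ cl0 le_rfl) (K.mkQ u) := by
      funext u
      simp
    rw [h1]
    exact (LinearMap.continuous_of_finiteDimensional (K.liftQ cl0 le_rfl)).comp
      (continuous_quot_mk)
  refine ⟨⟨cl0, hcont⟩, ?_, hker, hcl0⟩
  intro y
  obtain ⟨ζ, rfl⟩ := hc y
  exact ⟨_, hcl0 ζ⟩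

end PV

end Crest.Agent.R276.IpcG1_975
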