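import Crest.Agent.R276.VCalcA_442
import Crest.Agent.R276.IpcGr_975

-- ▼ part R276/IpcG1_975
section

/-!
# R276, IPC fixed-s assembly (helper975), part 1

`FB V X`: a flat bundle on an open set `X` of the complex plane, in pointwise frames: `P x y : V_y → V_x` is the transport, defined near the
diagonal.  Sections are functions `φ : ℂ → V`; `tr z φ y = P z y (φ y)` is the section read in the
frame at `z`.
-/

set_option autoImplicit false

open Set Filter Topology MeasureTheory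
open scoped ContDiff ComplexConjugate

namespace Crest.Agent.R276.IpcG1_975

open VCalc_442 IpcGr_975

variable {V : Type*} [NormedAddCommGroup V] [NormedSpace ℂ V]

/-- flat bundle on an open subset `X` of the plane, in pointwise frames: `P x y : V_y → V_x` is the
transport, meaningful for `x`, `y` close to each other -/
structure FB (V : Type*) [NormedAddCommGroup V] [NormedSpace ℂ V] (X : Set ℂ) where
  /-- transport `V_y → V_x` for `y` near `x` -/
  P : ℂ → ℂ → (V →L[ℂ] V)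
  op : IsOpen X
  ndc : ∀ z ∈ X, ∃ U ∈ 𝓝 z, ∀ x ∈ U, ∀ y ∈ U, ∀ v ∈ U, P x y * P y v = P x v
  one : ∀ z ∈ X, P z z = 1

namespace FB

variable {X : Set ℂ} (F : FB V X)

/-- section read in the frame at `z` -/
def tr (z : ℂ) (φ : ℂ → V) (y : ℂ) : V := F.P z y (φ y)

/-- operator field read in the frame at `z` -/
def trO (z : ℂ) (A : ℂ → (V →L[ℂ] V)) (y : ℂ) : V →L[ℂ] V := F.P z y * A y * F.P y z

/-- a good neighbourhood -/
structure Nb (z : ℂ) (U : Set ℂ) : Prop where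
  op : IsOpen U
  mem : z ∈ U
  sub : U ⊆ X
  c : ∀ x ∈ U, ∀ y ∈ U, ∀ v ∈ U, F.P x y * F.P y v = F.P x v

variable {F}

theorem Nb.inv {z : ℂ} {U : Set ℂ} (h : F.Nb z U) {x y : ℂ} (hx : x ∈ U) (hy : y ∈ U) :
    F.P x y * F.P y x = 1 := by
  rw [h.c x hx y hy x hx, F.one x (h.sub hx)]

theorem Nb.inv_apply {z : ℂ} {U : Set ℂ} (h : F.Nb z U) {x y : ℂ} (hx : x ∈ U) (hy : y ∈ U)
    (v : V) : F.P x y (F.P y x v) = v := by
  have := h.inv hx hy
  calc F.P x y (F.P y x v) = (F.P x y * F.P y x) v := rfl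
    _ = v := by rw [this]; rfl

theorem Nb.comp_apply {z : ℂ} {U : Set ℂ} (h : F.Nb z U) {x y v : ℂ} (hx : x ∈ U) (hy : y ∈ U)
    (hv : v ∈ U) (u : V) : F.P x y (F.P y v u) = F.P x v u := by
  have := h.c x hx y hy v hv
  calc F.P x y (F.P y v u) = (F.P x y * F.P y v) u := rfl
    _ = _ := by rw [this]

/-- a good neighbourhood of `z` is a good neighbourhood of each of its points -/
theorem Nb.move {z z' : ℂ} {U : Set ℂ} (h : F.Nb z U) (hz' : z' ∈ U) : F.Nb z' U :=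
  ⟨h.op, hz', h.sub, h.c⟩

theorem Nb.mono {z : ℂ} {U U' : Set ℂ} (h : F.Nb z U) (hU' : IsOpen U') (hz : z ∈ U')
    (hs : U' ⊆ U) : F.Nb z U' :=
  ⟨hU', hz, hs.trans h.sub, fun x hx y hy v hv => h.c x (hs hx) y (hs hy) v (hs hv)⟩

variable (F)

theorem exists_nb {z : ℂ} (hz : z ∈ X) : ∃ U, F.Nb z U := by
  obtain ⟨U0, hU0, hc⟩ := F.ndc z hz
  have h1 : ∀ᶠ y in 𝓝 z, y ∈ U0 ∧ y ∈ X := by
    filter_upwards [hU0, F.op.mem_nhds hz] with y h1 h2
    exact ⟨h1, h2⟩
  obtain ⟨U, hU, hop, hzU⟩ := eventually_nhds_iff.1 h1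
  exact ⟨U, hop, hzU, fun y hy => (hU y hy).2,
    fun x hx y hy v hv => hc x (hU x hx).1 y (hU y hy).1 v (hU v hv).1⟩

/-- good neighbourhood inside a given neighbourhood -/
theorem exists_nb_sub {z : ℂ} (hz : z ∈ X) {W : Set ℂ} (hW : W ∈ 𝓝 z) :
    ∃ U, F.Nb z U ∧ U ⊆ W := by
  obtain ⟨U, hU⟩ := F.exists_nb hz
  obtain ⟨W', hW', hop, hzW⟩ := mem_nhds_iff.1 hW
  exact ⟨U ∩ W', hU.mono (hU.op.inter hop) ⟨hU.mem, hzW⟩ inter_subset_left,
    fun x hx => hW' hx.2⟩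

variable {F}


theorem Nb.tr_eq' {z : ℂ} {U : Set ℂ} (h : F.Nb z U) {x y : ℂ} (hx : x ∈ U) (hy : y ∈ U)
    (φ : ℂ → V) : F.tr z φ y = F.P z x (F.tr x φ y) := by
  unfold tr
  rw [h.comp_apply h.mem hx hy]

theorem tr_self {z : ℂ} (hz : z ∈ X) (φ : ℂ → V) : F.tr z φ z = φ z := by
  unfold tr
  rw [F.one z hz]
  rfl

/-- value from the frame at `z` -/
theorem Nb.val {z : ℂ} {U : Set ℂ} (h : F.Nb z U) {x : ℂ} (hx : x ∈ U)
    (φ : ℂ → V) : φ x = F.P x z (F.tr z φ x) := by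
  unfold tr
  rw [h.inv_apply hx h.mem]

theorem Nb.trO_eq' {z : ℂ} {U : Set ℂ} (h : F.Nb z U) {x y : ℂ} (hx : x ∈ U) (hy : y ∈ U)
    (A : ℂ → (V →L[ℂ] V)) : F.trO z A y = F.P z x * F.trO x A y * F.P x z := by
  unfold trO
  rw [← h.c z h.mem x hx y hy, ← h.c y hy x hx z h.mem]
  simp only [mul_assoc]


theorem Nb.tr_trO {z : ℂ} {U : Set ℂ} (h : F.Nb z U) {y : ℂ} (hy : y ∈ U)
    (A : ℂ → (V →L[ℂ] V)) (φ : ℂ → V) :
    F.tr z (fun y => A y (φ y)) y = F.trO z A y (F.tr z φ y) := by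
  unfold tr trO
  calc F.P z y (A y (φ y)) = F.P z y (A y (F.P y z (F.P z y (φ y)))) := by
        rw [h.inv_apply hy h.mem]
    _ = _ := rfl

variable (F)

/-- smooth section over `X` -/
def Sm (φ : ℂ → V) : Prop := ∀ z ∈ X, ContDiffAt ℝ ∞ (F.tr z φ) z

/-- smooth field of operators over `X` -/
def SmO (A : ℂ → (V →L[ℂ] V)) : Prop := ∀ z ∈ X, ContDiffAt ℝ ∞ (F.trO z A) z

/-- `∂` of a section -/
noncomputable def d1 (φ : ℂ → V) (z : ℂ) : V := dW (F.tr z φ) 1 z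

/-- `∂̄` of a section -/
noncomputable def d2 (φ : ℂ → V) (z : ℂ) : V := dB (F.tr z φ) 1 z

/-- `∂` of an operator field -/
noncomputable def D1 (A : ℂ → (V →L[ℂ] V)) (z : ℂ) : V →L[ℂ] V := dW (F.trO z A) 1 z

/-- `∂̄` of an operator field -/
noncomputable def D2 (A : ℂ → (V →L[ℂ] V)) (z : ℂ) : V →L[ℂ] V := dB (F.trO z A) 1 z

variable {F}

theorem Nb.contDiffOn {z : ℂ} {U : Set ℂ} (h : F.Nb z U) {φ : ℂ → V} (hφ : F.Sm φ) :
    ContDiffOn ℝ ∞ (F.tr z φ) U := by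
  intro x hx
  have h1 := hφ x (h.sub hx)
  have h2 : ContDiffAt ℝ ∞ (fun y => F.P z x (F.tr x φ y)) x :=
    ((F.P z x).restrictScalars ℝ).contDiff.contDiffAt.comp x h1
  refine (h2.congr_of_eventuallyEq ?_).contDiffWithinAt
  filter_upwards [h.op.mem_nhds hx] with y hy
  exact h.tr_eq' hx hy φ

theorem Nb.contDiffOnO {z : ℂ} {U : Set ℂ} (h : F.Nb z U) {A : ℂ → (V →L[ℂ] V)} (hA : F.SmO A) :
    ContDiffOn ℝ ∞ (F.trO z A) U := by
  intro x hx
  have h1 := hA x (h.sub hx)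
  have h2 : ContDiffAt ℝ ∞ (fun y => F.P z x * F.trO x A y * F.P x z) x :=
    (contDiffAt_const.mul h1).mul contDiffAt_const
  refine (h2.congr_of_eventuallyEq ?_).contDiffWithinAt
  filter_upwards [h.op.mem_nhds hx] with y hy
  exact h.trO_eq' hx hy A


theorem Nb.diffAt {z : ℂ} {U : Set ℂ} (h : F.Nb z U) {φ : ℂ → V} (hφ : F.Sm φ) {x : ℂ}
    (hx : x ∈ U) : DifferentiableAt ℝ (F.tr z φ) x :=
  VCalc_442.diffAt h.op (h.contDiffOn hφ) hx

theorem Nb.diffAtO {z : ℂ} {U : Set ℂ} (h : F.Nb z U) {A : ℂ → (V →L[ℂ] V)} (hA : F.SmO A) {x : ℂ}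
    (hx : x ∈ U) : DifferentiableAt ℝ (F.trO z A) x :=
  VCalc_442.diffAt h.op (h.contDiffOnO hA) hx

/-- `∂` in the frame at `z` -/
theorem Nb.tr_d1 {z : ℂ} {U : Set ℂ} (h : F.Nb z U) {φ : ℂ → V} (hφ : F.Sm φ) {x : ℂ}
    (hx : x ∈ U) : F.tr z (F.d1 φ) x = dW (F.tr z φ) 1 x := by
  have h1 : dW (F.tr z φ) 1 x = dW (fun y => F.P z x (F.tr x φ y)) 1 x := by
    apply dW_congr
    filter_upwards [h.op.mem_nhds hx] with y hy
    exact h.tr_eq' hx hy φ
  rw [h1, dW_clm (F.P z x) ((h.move hx).diffAt hφ hx)]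
  rfl

theorem Nb.tr_d2 {z : ℂ} {U : Set ℂ} (h : F.Nb z U) {φ : ℂ → V} (hφ : F.Sm φ) {x : ℂ}
    (hx : x ∈ U) : F.tr z (F.d2 φ) x = dB (F.tr z φ) 1 x := by
  have h1 : dB (F.tr z φ) 1 x = dB (fun y => F.P z x (F.tr x φ y)) 1 x := by
    apply dB_congr
    filter_upwards [h.op.mem_nhds hx] with y hy
    exact h.tr_eq' hx hy φ
  rw [h1, dB_clm (F.P z x) ((h.move hx).diffAt hφ hx)]
  rfl

theorem Sm.d1 {φ : ℂ → V} (hφ : F.Sm φ) : F.Sm (F.d1 φ) := by
  intro z hz
  obtain ⟨U, hU⟩ := F.exists_nb hz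
  have h1 := (contDiffOn_dW hU.op (hU.contDiffOn hφ) 1).contDiffAt (hU.op.mem_nhds hU.mem)
  refine h1.congr_of_eventuallyEq ?_
  filter_upwards [hU.op.mem_nhds hU.mem] with y hy
  exact hU.tr_d1 hφ hy

theorem Sm.d2 {φ : ℂ → V} (hφ : F.Sm φ) : F.Sm (F.d2 φ) := by
  intro z hz
  obtain ⟨U, hU⟩ := F.exists_nb hz
  have h1 := (contDiffOn_dB hU.op (hU.contDiffOn hφ) 1).contDiffAt (hU.op.mem_nhds hU.mem)
  refine h1.congr_of_eventuallyEq ?_
  filter_upwards [hU.op.mem_nhds hU.mem] with y hy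
  exact hU.tr_d2 hφ hy

theorem Sm.add {φ ψ : ℂ → V} (hφ : F.Sm φ) (hψ : F.Sm ψ) : F.Sm (fun z => φ z + ψ z) := by
  intro z hz
  have : F.tr z (fun z => φ z + ψ z) = fun y => F.tr z φ y + F.tr z ψ y := by
    funext y
    unfold tr
    rw [map_add]
  rw [this]
  exact (hφ z hz).add (hψ z hz)

theorem Sm.const_smul {φ : ℂ → V} (hφ : F.Sm φ) (c : ℂ) : F.Sm (fun z => c • φ z) := by
  intro z hz
  have : F.tr z (fun z => c • φ z) = fun y => c • F.tr z φ y := by
    funext y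
    unfold tr
    rw [map_smul]
  rw [this]
  exact (hφ z hz).const_smul c

theorem Sm.smul {φ : ℂ → V} (hφ : F.Sm φ) {f : ℂ → ℂ} (hf : ∀ z ∈ X, ContDiffAt ℝ ∞ f z) :
    F.Sm (fun z => f z • φ z) := by
  intro z hz
  have : F.tr z (fun z => f z • φ z) = fun y => f y • F.tr z φ y := by
    funext y
    unfold tr
    rw [map_smul]
  rw [this]
  exact (hf z hz).smul (hφ z hz)

theorem Sm.sub {φ ψ : ℂ → V} (hφ : F.Sm φ) (hψ : F.Sm ψ) : F.Sm (fun z => φ z - ψ z) := by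
  intro z hz
  have : F.tr z (fun z => φ z - ψ z) = fun y => F.tr z φ y - F.tr z ψ y := by
    funext y
    unfold tr
    rw [map_sub]
  rw [this]
  exact (hφ z hz).sub (hψ z hz)

theorem Sm.neg {φ : ℂ → V} (hφ : F.Sm φ) : F.Sm (fun z => - φ z) := by
  intro z hz
  have : F.tr z (fun z => - φ z) = fun y => - F.tr z φ y := by
    funext y
    unfold tr
    rw [map_neg]
  rw [this]
  exact (hφ z hz).neg

theorem sm_zero : F.Sm (fun _ => 0) := by
  intro z hz
  have : F.tr z (fun _ => 0) = fun _ => 0 := by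
    funext y
    unfold tr
    rw [map_zero]
  rw [this]
  exact contDiffAt_const

theorem Sm.app {A : ℂ → (V →L[ℂ] V)} {φ : ℂ → V} (hA : F.SmO A) (hφ : F.Sm φ) :
    F.Sm (fun z => A z (φ z)) := by
  intro z hz
  obtain ⟨U, hU⟩ := F.exists_nb hz
  have h1 : ContDiffAt ℝ ∞ (fun y => F.trO z A y (F.tr z φ y)) z := by
    have hc : ContDiffAt ℝ ∞ (fun y => (F.trO z A y).restrictScalars ℝ) z :=
      (ContinuousLinearMap.restrictScalarsL ℂ V V ℝ ℝ).contDiff.contDiffAt.comp z (hA z hz)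
    exact hc.clm_apply (hφ z hz)
  refine h1.congr_of_eventuallyEq ?_
  filter_upwards [hU.op.mem_nhds hU.mem] with y hy
  exact hU.tr_trO hy A φ

/-- Leibniz rules -/
theorem dW_clm_apply {A : ℂ → (V →L[ℂ] V)} {f : ℂ → V} {x : ℂ} (hA : DifferentiableAt ℝ A x)
    (hf : DifferentiableAt ℝ f x) (v : ℂ) :
    dW (fun y => A y (f y)) v x = dW A v x (f x) + A x (dW f v x) := by
  have key : ∀ v, fderiv ℝ (fun y => A y (f y)) x v = fderiv ℝ A x v (f x) + A x (fderiv ℝ f x v) := by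
    intro v
    let B : (V →L[ℂ] V) →L[ℝ] V →L[ℝ] V :=
      (ContinuousLinearMap.restrictScalarsL ℂ V V ℝ ℝ)
    have h := B.hasFDerivAt_of_bilinear hA.hasFDerivAt hf.hasFDerivAt
    have h' : HasFDerivAt (fun y => A y (f y)) _ x := h
    rw [h'.fderiv]
    simp only [add_apply]
    rw [add_comm]
    rfl
  unfold dW
  rw [key, key]
  simp only [map_sub, map_smul, smul_apply, sub_apply]
  module

theorem dB_clm_apply {A : ℂ → (V →L[ℂ] V)} {f : ℂ → V} {x : ℂ} (hA : DifferentiableAt ℝ A x)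
    (hf : DifferentiableAt ℝ f x) (v : ℂ) :
    dB (fun y => A y (f y)) v x = dB A v x (f x) + A x (dB f v x) := by
  have key : ∀ v, fderiv ℝ (fun y => A y (f y)) x v = fderiv ℝ A x v (f x) + A x (fderiv ℝ f x v) := by
    intro v
    let B : (V →L[ℂ] V) →L[ℝ] V →L[ℝ] V :=
      (ContinuousLinearMap.restrictScalarsL ℂ V V ℝ ℝ)
    have h := B.hasFDerivAt_of_bilinear hA.hasFDerivAt hf.hasFDerivAt
    have h' : HasFDerivAt (fun y => A y (f y)) _ x := h
    rw [h'.fderiv]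
    simp only [add_apply]
    rw [add_comm]
    rfl
  unfold dB
  rw [key, key]
  simp only [map_add, map_smul, smul_apply, add_apply]
  module

theorem dW_sesq (B : V →L⋆[ℂ] V →L[ℂ] ℂ) {f g : ℂ → V} {x : ℂ} (hf : DifferentiableAt ℝ f x)
    (hg : DifferentiableAt ℝ g x) (v : ℂ) :
    dW (fun y => B (f y) (g y)) v x = B (dB f v x) (g x) + B (f x) (dW g v x) := by
  have key : ∀ v, fderiv ℝ (fun y => B (f y) (g y)) x v =
      B (fderiv ℝ f x v) (g x) + B (f x) (fderiv ℝ g x v) := by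
    intro v
    let B' : V →L[ℝ] V →L[ℝ] ℂ :=
      LinearMap.mkContinuous₂
        ({ toFun := fun u => ((B u).restrictScalars ℝ).toLinearMap
           map_add' := by intro a b; ext c; simp
           map_smul' := by
            intro r a
            ext c
            have h1 : B (r • a) = (r : ℂ) • B a := by
              rw [← Complex.coe_smul r a, map_smulₛₗ, Complex.conj_ofReal]
            simp [h1] } : V →ₗ[ℝ] V →ₗ[ℝ] ℂ) ‖B‖
        (fun u v => B.le_opNorm₂ u v)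
    have h := B'.hasFDerivAt_of_bilinear hf.hasFDerivAt hg.hasFDerivAt
    have h' : HasFDerivAt (fun y => B (f y) (g y)) _ x := h
    rw [h'.fderiv]
    simp only [add_apply]
    rw [add_comm]
    rfl
  unfold dW dB
  rw [key, key]
  simp only [map_add, map_sub, map_smul, map_smulₛₗ, smul_apply,
    add_apply, sub_apply]
  simp only [one_div, map_inv₀, map_ofNat, Complex.conj_I, smul_eq_mul]
  ring

theorem dB_sesq (B : V →L⋆[ℂ] V →L[ℂ] ℂ) {f g : ℂ → V} {x : ℂ} (hf : DifferentiableAt ℝ f x)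
    (hg : DifferentiableAt ℝ g x) (v : ℂ) :
    dB (fun y => B (f y) (g y)) v x = B (dW f v x) (g x) + B (f x) (dB g v x) := by
  have key : ∀ v, fderiv ℝ (fun y => B (f y) (g y)) x v =
      B (fderiv ℝ f x v) (g x) + B (f x) (fderiv ℝ g x v) := by
    intro v
    let B' : V →L[ℝ] V →L[ℝ] ℂ :=
      LinearMap.mkContinuous₂
        ({ toFun := fun u => ((B u).restrictScalars ℝ).toLinearMap
           map_add' := by intro a b; ext c; simp
           map_smul' := by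
            intro r a
            ext c
            have h1 : B (r • a) = (r : ℂ) • B a := by
              rw [← Complex.coe_smul r a, map_smulₛₗ, Complex.conj_ofReal]
            simp [h1] } : V →ₗ[ℝ] V →ₗ[ℝ] ℂ) ‖B‖
        (fun u v => B.le_opNorm₂ u v)
    have h := B'.hasFDerivAt_of_bilinear hf.hasFDerivAt hg.hasFDerivAt
    have h' : HasFDerivAt (fun y => B (f y) (g y)) _ x := h
    rw [h'.fderiv]
    simp only [add_apply]
    rw [add_comm]
    rfl
  unfold dW dB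
  rw [key, key]
  simp only [map_add, map_sub, map_smul, map_smulₛₗ, smul_apply,
    add_apply, sub_apply]
  simp only [one_div, map_inv₀, map_ofNat, Complex.conj_I, smul_eq_mul]
  ring

end FB

end Crest.Agent.R276.IpcG1_975
end

-- ▼ part R276/IpcG2_975
section

/-!
# R276, IPC fixed-s assembly (helper975), part 2: compactly supported sections, L² space

`F.A0`: smooth compactly supported sections.  `MB V X`: flat bundle with a smooth positive
Hermitian metric; `M.L2` = completion of `A0` for `∫ G(φ,ψ)`.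
-/

set_option autoImplicit false

open Set Filter Topology MeasureTheory
open scoped ContDiff ComplexConjugate

namespace Crest.Agent.R276.IpcG1_975

open VCalc_442 IpcGr_975

variable {V : Type*} [NormedAddCommGroup V] [NormedSpace ℂ V]

/-- a scalar function, smooth at the points of the open set `X`, zero off a compact part of `X` -/
structure CS (X : Set ℂ) (g : ℂ → ℂ) : Prop where
  sm : ∀ z ∈ X, ContDiffAt ℝ ∞ g z
  cp : ∃ K ⊆ X, IsCompact K ∧ ∀ x ∉ K, g x = 0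

theorem CS.contDiff {X : Set ℂ} {g : ℂ → ℂ} (h : CS X g) : ContDiff ℝ ∞ g := by
  rw [contDiff_iff_contDiffAt]
  intro z
  obtain ⟨K, hK, hKc, h0⟩ := h.cp
  by_cases hz : z ∈ K
  · exact h.sm z (hK hz)
  · have : g =ᶠ[𝓝 z] fun _ => 0 := by
      filter_upwards [hKc.isClosed.isOpen_compl.mem_nhds hz] with y hy
      exact h0 y hy
    exact contDiffAt_const.congr_of_eventuallyEq this

theorem CS.hasCompactSupport {X : Set ℂ} {g : ℂ → ℂ} (h : CS X g) : HasCompactSupport g := by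
  obtain ⟨K, _, hKc, h0⟩ := h.cp
  exact HasCompactSupport.intro hKc h0

theorem CS.continuous {X : Set ℂ} {g : ℂ → ℂ} (h : CS X g) : Continuous g := h.contDiff.continuous

theorem CS.integrable {X : Set ℂ} {g : ℂ → ℂ} (h : CS X g) : Integrable g :=
  h.continuous.integrable_of_hasCompactSupport h.hasCompactSupport

theorem CS.integral_fderiv {X : Set ℂ} {g : ℂ → ℂ} (h : CS X g) (v : ℂ) :
    ∫ x, fderiv ℝ g x v = 0 := by
  have hd : Differentiable ℝ g := h.contDiff.differentiable (by simp)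
  have hc : Continuous (fun x => fderiv ℝ g x v) :=
    (h.contDiff.continuous_fderiv (by simp)).clm_apply continuous_const
  have hs : HasCompactSupport (fun x => fderiv ℝ g x v) := h.hasCompactSupport.fderiv_apply ℝ v
  have hi : Integrable (fun x => fderiv ℝ g x v) := hc.integrable_of_hasCompactSupport hs
  have := integral_smul_fderiv_eq_neg_fderiv_smul_of_integrable (𝕜 := ℝ)
    (μ := (volume : Measure ℂ))
    (f := fun _ : ℂ => (1 : ℝ)) (g := g) (v := v) (by simp) (by simpa using hi)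
    (by simpa using h.integrable) (fun x _ => differentiableAt_const _) (fun x _ => hd x)
  simpa using this

theorem CS.integral_dW {X : Set ℂ} {g : ℂ → ℂ} (h : CS X g) (v : ℂ) :
    ∫ x, dW g v x = 0 := by
  unfold dW
  have hc : ∀ v, Continuous (fun x => fderiv ℝ g x v) := fun v =>
    (h.contDiff.continuous_fderiv (by simp)).clm_apply continuous_const
  have hs : ∀ v, HasCompactSupport (fun x => fderiv ℝ g x v) := fun v =>
    h.hasCompactSupport.fderiv_apply ℝ v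
  have hi : ∀ v, Integrable (fun x => fderiv ℝ g x v) := fun v =>
    (hc v).integrable_of_hasCompactSupport (hs v)
  have hi2 : Integrable (fun x => Complex.I • fderiv ℝ g x (Complex.I • v)) := (hi _).smul Complex.I
  rw [integral_smul, integral_sub (hi _) hi2, integral_smul,
    h.integral_fderiv, h.integral_fderiv]
  simp

theorem CS.integral_dB {X : Set ℂ} {g : ℂ → ℂ} (h : CS X g) (v : ℂ) :
    ∫ x, dB g v x = 0 := by
  unfold dB
  have hc : ∀ v, Continuous (fun x => fderiv ℝ g x v) := fun v =>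
    (h.contDiff.continuous_fderiv (by simp)).clm_apply continuous_const
  have hs : ∀ v, HasCompactSupport (fun x => fderiv ℝ g x v) := fun v =>
    h.hasCompactSupport.fderiv_apply ℝ v
  have hi : ∀ v, Integrable (fun x => fderiv ℝ g x v) := fun v =>
    (hc v).integrable_of_hasCompactSupport (hs v)
  have hi2 : Integrable (fun x => Complex.I • fderiv ℝ g x (Complex.I • v)) := (hi _).smul Complex.I
  rw [integral_smul, integral_add (hi _) hi2, integral_smul,
    h.integral_fderiv, h.integral_fderiv]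
  simp

namespace FB

variable {X : Set ℂ} (F : FB V X)

/-- `φ` vanishes off a compact part of `X` -/
def Cpt (X : Set ℂ) (φ : ℂ → V) : Prop := ∃ K ⊆ X, IsCompact K ∧ ∀ x ∉ K, φ x = 0

/-- smooth compactly supported sections -/
def A0 : Submodule ℂ (ℂ → V) where
  carrier := {φ | F.Sm φ ∧ Cpt X φ}
  add_mem' := by
    rintro φ ψ ⟨h1, K, hK, hKc, h2⟩ ⟨h3, L, hL, hLc, h4⟩
    refine ⟨h1.add h3, K ∪ L, union_subset hK hL, hKc.union hLc, ?_⟩
    intro x hx
    rw [Pi.add_apply, h2 x (fun h => hx (Or.inl h)), h4 x (fun h => hx (Or.inr h)), add_zero]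
  zero_mem' := ⟨sm_zero, ∅, empty_subset _, isCompact_empty, fun _ _ => rfl⟩
  smul_mem' := by
    rintro c φ ⟨h1, K, hK, hKc, h2⟩
    refine ⟨h1.const_smul c, K, hK, hKc, ?_⟩
    intro x hx
    rw [Pi.smul_apply, h2 x hx, smul_zero]

variable {F}

theorem mem_A0 {φ : ℂ → V} : φ ∈ F.A0 ↔ F.Sm φ ∧ Cpt X φ := Iff.rfl

theorem d1_add {φ ψ : ℂ → V} (hφ : F.Sm φ) (hψ : F.Sm ψ) {z : ℂ} (hz : z ∈ X) :
    F.d1 (φ + ψ) z = F.d1 φ z + F.d1 ψ z := by
  unfold d1
  rw [← dW_add ((hφ z hz).differentiableAt (by simp)) ((hψ z hz).differentiableAt (by simp))]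
  congr 1
  funext y
  simp [tr]

theorem d2_add {φ ψ : ℂ → V} (hφ : F.Sm φ) (hψ : F.Sm ψ) {z : ℂ} (hz : z ∈ X) :
    F.d2 (φ + ψ) z = F.d2 φ z + F.d2 ψ z := by
  unfold d2
  rw [← dB_add ((hφ z hz).differentiableAt (by simp)) ((hψ z hz).differentiableAt (by simp))]
  congr 1
  funext y
  simp [tr]

theorem d1_smul {φ : ℂ → V} (hφ : F.Sm φ) (c : ℂ) {z : ℂ} (hz : z ∈ X) :
    F.d1 (c • φ) z = c • F.d1 φ z := by
  unfold d1
  rw [← dW_const_smul c ((hφ z hz).differentiableAt (by simp))]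
  congr 1
  funext y
  simp [tr]

theorem d2_smul {φ : ℂ → V} (hφ : F.Sm φ) (c : ℂ) {z : ℂ} (hz : z ∈ X) :
    F.d2 (c • φ) z = c • F.d2 φ z := by
  unfold d2
  rw [← dB_const_smul c ((hφ z hz).differentiableAt (by simp))]
  congr 1
  funext y
  simp [tr]

theorem tr_zero_of {φ : ℂ → V} {K : Set ℂ} (hK : IsCompact K) (h : ∀ x ∉ K, φ x = 0) {z : ℂ}
    (hz : z ∉ K) : F.tr z φ =ᶠ[𝓝 z] fun _ => 0 := by
  filter_upwards [hK.isClosed.isOpen_compl.mem_nhds hz] with y hy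
  unfold tr
  rw [h y hy, map_zero]

theorem d1_zero_of {φ : ℂ → V} {K : Set ℂ} (hK : IsCompact K) (h : ∀ x ∉ K, φ x = 0) {z : ℂ}
    (hz : z ∉ K) : F.d1 φ z = 0 := by
  unfold d1
  rw [dW_congr (tr_zero_of hK h hz), dW_const]

theorem d2_zero_of {φ : ℂ → V} {K : Set ℂ} (hK : IsCompact K) (h : ∀ x ∉ K, φ x = 0) {z : ℂ}
    (hz : z ∉ K) : F.d2 φ z = 0 := by
  unfold d2
  rw [dB_congr (tr_zero_of hK h hz), dB_const]

theorem d1_mem {φ : ℂ → V} (h : φ ∈ F.A0) : F.d1 φ ∈ F.A0 := by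
  obtain ⟨h1, K, hK, hKc, h2⟩ := h
  exact ⟨h1.d1, K, hK, hKc, fun x hx => d1_zero_of hKc h2 hx⟩

theorem d2_mem {φ : ℂ → V} (h : φ ∈ F.A0) : F.d2 φ ∈ F.A0 := by
  obtain ⟨h1, K, hK, hKc, h2⟩ := h
  exact ⟨h1.d2, K, hK, hKc, fun x hx => d2_zero_of hKc h2 hx⟩

/-- a section of `A0` times a smooth function, or a smooth section times a function with compact
support, is in `A0` -/
theorem smul_mem_A0 {φ : ℂ → V} (h : F.Sm φ) {f : ℂ → ℂ} (hf : CS X f) :
    (fun z => f z • φ z) ∈ F.A0 := by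
  refine ⟨h.smul hf.sm, ?_⟩
  obtain ⟨K, hK, hKc, h0⟩ := hf.cp
  exact ⟨K, hK, hKc, fun x hx => by simp [h0 x hx]⟩

theorem smul_mem_A0' {φ : ℂ → V} (h : φ ∈ F.A0) {f : ℂ → ℂ} (hf : ∀ z ∈ X, ContDiffAt ℝ ∞ f z) :
    (fun z => f z • φ z) ∈ F.A0 := by
  refine ⟨h.1.smul hf, ?_⟩
  obtain ⟨K, hK, hKc, h0⟩ := h.2
  exact ⟨K, hK, hKc, fun x hx => by simp [h0 x hx]⟩

theorem app_mem_A0 {A : ℂ → (V →L[ℂ] V)} (hA : F.SmO A) {φ : ℂ → V} (h : φ ∈ F.A0) :
    (fun z => A z (φ z)) ∈ F.A0 := by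
  refine ⟨Sm.app hA h.1, ?_⟩
  obtain ⟨K, hK, hKc, h0⟩ := h.2
  exact ⟨K, hK, hKc, fun x hx => by simp [h0 x hx]⟩

theorem Nb.trO_D1 {z : ℂ} {U : Set ℂ} (h : F.Nb z U) {A : ℂ → (V →L[ℂ] V)} (hA : F.SmO A) {x : ℂ}
    (hx : x ∈ U) : F.trO z (F.D1 A) x = dW (F.trO z A) 1 x := by
  have h1 : dW (F.trO z A) 1 x = dW (fun y => F.P z x * F.trO x A y * F.P x z) 1 x := by
    apply dW_congr
    filter_upwards [h.op.mem_nhds hx] with y hy
    exact h.trO_eq' hx hy A
  let L : (V →L[ℂ] V) →L[ℂ] (V →L[ℂ] V) :=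
    (ContinuousLinearMap.mul ℂ (V →L[ℂ] V) (F.P z x)).comp
      ((ContinuousLinearMap.mul ℂ (V →L[ℂ] V)).flip (F.P x z))
  have h2 : ∀ T : V →L[ℂ] V, F.P z x * T * F.P x z = L T := by
    intro T
    rw [mul_assoc]
    rfl
  rw [h1]
  simp_rw [h2]
  rw [dW_clm L ((h.move hx).diffAtO hA hx), ← h2]
  rfl

theorem Nb.trO_D2 {z : ℂ} {U : Set ℂ} (h : F.Nb z U) {A : ℂ → (V →L[ℂ] V)} (hA : F.SmO A) {x : ℂ}
    (hx : x ∈ U) : F.trO z (F.D2 A) x = dB (F.trO z A) 1 x := by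
  have h1 : dB (F.trO z A) 1 x = dB (fun y => F.P z x * F.trO x A y * F.P x z) 1 x := by
    apply dB_congr
    filter_upwards [h.op.mem_nhds hx] with y hy
    exact h.trO_eq' hx hy A
  let L : (V →L[ℂ] V) →L[ℂ] (V →L[ℂ] V) :=
    (ContinuousLinearMap.mul ℂ (V →L[ℂ] V) (F.P z x)).comp
      ((ContinuousLinearMap.mul ℂ (V →L[ℂ] V)).flip (F.P x z))
  have h2 : ∀ T : V →L[ℂ] V, F.P z x * T * F.P x z = L T := by
    intro T
    rw [mul_assoc]
    rfl
  rw [h1]
  simp_rw [h2]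
  rw [dB_clm L ((h.move hx).diffAtO hA hx), ← h2]
  rfl

theorem SmO.D1 {A : ℂ → (V →L[ℂ] V)} (hA : F.SmO A) : F.SmO (F.D1 A) := by
  intro z hz
  obtain ⟨U, hU⟩ := F.exists_nb hz
  have h1 := (contDiffOn_dW hU.op (hU.contDiffOnO hA) 1).contDiffAt (hU.op.mem_nhds hU.mem)
  refine h1.congr_of_eventuallyEq ?_
  filter_upwards [hU.op.mem_nhds hU.mem] with y hy
  exact hU.trO_D1 hA hy

theorem SmO.D2 {A : ℂ → (V →L[ℂ] V)} (hA : F.SmO A) : F.SmO (F.D2 A) := by
  intro z hz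
  obtain ⟨U, hU⟩ := F.exists_nb hz
  have h1 := (contDiffOn_dB hU.op (hU.contDiffOnO hA) 1).contDiffAt (hU.op.mem_nhds hU.mem)
  refine h1.congr_of_eventuallyEq ?_
  filter_upwards [hU.op.mem_nhds hU.mem] with y hy
  exact hU.trO_D2 hA hy

/-- Leibniz rule for an operator field applied to a section -/
theorem d1_app {A : ℂ → (V →L[ℂ] V)} (hA : F.SmO A) {φ : ℂ → V} (hφ : F.Sm φ) {z : ℂ}
    (hz : z ∈ X) : F.d1 (fun z => A z (φ z)) z = F.D1 A z (φ z) + A z (F.d1 φ z) := by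
  obtain ⟨U, hU⟩ := F.exists_nb hz
  unfold d1 D1
  have : F.tr z (fun z => A z (φ z)) =ᶠ[𝓝 z] fun y => F.trO z A y (F.tr z φ y) := by
    filter_upwards [hU.op.mem_nhds hU.mem] with y hy
    exact hU.tr_trO hy A φ
  rw [dW_congr this, dW_clm_apply ((hA z hz).differentiableAt (by simp))
    ((hφ z hz).differentiableAt (by simp)), tr_self hz]
  congr 1
  unfold trO
  rw [F.one z hz, one_mul, mul_one]

theorem d2_app {A : ℂ → (V →L[ℂ] V)} (hA : F.SmO A) {φ : ℂ → V} (hφ : F.Sm φ) {z : ℂ}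
    (hz : z ∈ X) : F.d2 (fun z => A z (φ z)) z = F.D2 A z (φ z) + A z (F.d2 φ z) := by
  obtain ⟨U, hU⟩ := F.exists_nb hz
  unfold d2 D2
  have : F.tr z (fun z => A z (φ z)) =ᶠ[𝓝 z] fun y => F.trO z A y (F.tr z φ y) := by
    filter_upwards [hU.op.mem_nhds hU.mem] with y hy
    exact hU.tr_trO hy A φ
  rw [dB_congr this, dB_clm_apply ((hA z hz).differentiableAt (by simp))
    ((hφ z hz).differentiableAt (by simp)), tr_self hz]
  congr 1
  unfold trO
  rw [F.one z hz, one_mul, mul_one]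



end FB

end Crest.Agent.R276.IpcG1_975
end

-- ▼ part R276/IpcL2_975

/-!
# R276, IPC fixed-s assembly (helper975), part 3 = (K1),(K2): the L² space of a metric flat bundle

`MB V X`: flat bundle on the open set `X ⊆ ℂ` with a smooth positive Hermitian metric `G`.
`M.H0` = smooth compactly supported sections with `⟪φ, ψ⟫ = ∫ G(φ, ψ)`, `M.L2` its completion (a
complex Hilbert space).  `M.opL A` = extension to `M.L2` of a smooth bounded field of operators
(`0` if `A` is not smooth or not bounded).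
-/

set_option autoImplicit false

open Set Filter Topology MeasureTheory UniformSpace
open scoped ContDiff ComplexConjugate

namespace Crest.Agent.R276.IpcG1_975

open VCalc_442 IpcGr_975

/-- flat bundle with a smooth Hermitian metric -/
structure MB (V : Type*) [NormedAddCommGroup V] [NormedSpace ℂ V] (X : Set ℂ) extends FB V X where
  /-- the metric, antilinear in the first variable -/
  G : ℂ → (V →L⋆[ℂ] V →L[ℂ] ℂ)
  herm : ∀ z ∈ X, ∀ u v, (starRingEnd ℂ) (G z u v) = G z v u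
  smG : ∀ φ ψ, toFB.Sm φ → toFB.Sm ψ → ∀ z ∈ X, ContDiffAt ℝ ∞ (fun y => G y (φ y) (ψ y)) z
  bd : ∀ z ∈ X, ∃ C : ℝ, 0 < C ∧ ∀ᶠ y in 𝓝 z, ∀ u,
    ‖P z y u‖ ^ 2 ≤ C * (G y u u).re ∧ (G y u u).re ≤ C * ‖P z y u‖ ^ 2

namespace MB

variable {V : Type*} [NormedAddCommGroup V] [NormedSpace ℂ V] {X : Set ℂ} (M : MB V X)

theorem G_im {z : ℂ} (hz : z ∈ X) (u : V) : (M.G z u u).im = 0 := by
  have := M.herm z hz u u
  exact Complex.conj_eq_iff_im.1 this

theorem G_nonneg {z : ℂ} (hz : z ∈ X) (u : V) : 0 ≤ (M.G z u u).re := by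
  obtain ⟨C, hC, h⟩ := M.bd z hz
  have h1 := (h.self_of_nhds u).1
  by_contra hcon
  push Not at hcon
  nlinarith [sq_nonneg ‖M.P z z u‖]

theorem cs {φ ψ : ℂ → V} (hφ : φ ∈ M.A0) (hψ : ψ ∈ M.A0) :
    CS X (fun x => M.G x (φ x) (ψ x)) := by
  refine ⟨M.smG φ ψ hφ.1 hψ.1, ?_⟩
  obtain ⟨K, hK, hKc, h0⟩ := hφ.2
  exact ⟨K, hK, hKc, fun x hx => by simp [h0 x hx]⟩

/-- smooth against compactly supported -/
theorem cs_left {φ ψ : ℂ → V} (hφ : φ ∈ M.A0) (hψ : M.Sm ψ) :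
    CS X (fun x => M.G x (φ x) (ψ x)) := by
  refine ⟨M.smG φ ψ hφ.1 hψ, ?_⟩
  obtain ⟨K, hK, hKc, h0⟩ := hφ.2
  exact ⟨K, hK, hKc, fun x hx => by simp [h0 x hx]⟩

/-- the pre-Hilbert space of smooth compactly supported sections -/
def H0 (M : MB V X) : Type _ := M.A0

noncomputable instance : AddCommGroup M.H0 := inferInstanceAs (AddCommGroup M.A0)
noncomputable instance : Module ℂ M.H0 := inferInstanceAs (Module ℂ M.A0)

/-- the section -/
def H0.f {M : MB V X} (φ : M.H0) : ℂ → V := (show M.A0 from φ).1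

theorem H0.mem {M : MB V X} (φ : M.H0) : φ.f ∈ M.A0 := (show M.A0 from φ).2

/-- constructor -/
def s0 (φ : ℂ → V) (h : φ ∈ M.A0) : M.H0 := (⟨φ, h⟩ : M.A0)

@[simp] theorem s0_f (φ : ℂ → V) (h : φ ∈ M.A0) : (M.s0 φ h).f = φ := rfl

@[simp] theorem f_s0 (φ : M.H0) : M.s0 φ.f φ.mem = φ := rfl

variable {M} in
theorem H0.ext {φ ψ : M.H0} (h : φ.f = ψ.f) : φ = ψ := Subtype.ext h

@[simp] theorem add_f (φ ψ : M.H0) : (φ + ψ).f = fun z => φ.f z + ψ.f z := rfl
@[simp] theorem sub_f (φ ψ : M.H0) : (φ - ψ).f = fun z => φ.f z - ψ.f z := rfl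
@[simp] theorem neg_f (φ : M.H0) : (-φ).f = fun z => - φ.f z := rfl
@[simp] theorem smul_f (c : ℂ) (φ : M.H0) : (c • φ).f = fun z => c • φ.f z := rfl
@[simp] theorem zero_f : (0 : M.H0).f = fun _ => 0 := rfl

/-- pre-inner product structure -/
noncomputable def core (M : MB V X) : PreInnerProductSpace.Core ℂ M.H0 where
  inner φ ψ := ∫ x, M.G x (φ.f x) (ψ.f x)
  conj_inner_symm φ ψ := by
    rw [← integral_conj]
    refine integral_congr_ae (Eventually.of_forall fun x => ?_)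
    by_cases hx : x ∈ X
    · exact M.herm x hx _ _
    · obtain ⟨K, hK, -, h0⟩ := φ.mem.2
      have : φ.f x = 0 := h0 x (fun h => hx (hK h))
      simp [this]
  re_inner_nonneg φ := by
    have h1 : Integrable (fun x => M.G x (φ.f x) (φ.f x)) := (M.cs φ.mem φ.mem).integrable
    show 0 ≤ (∫ x, M.G x (φ.f x) (φ.f x)).re
    have h2 : (∫ x, M.G x (φ.f x) (φ.f x)).re = ∫ x, (M.G x (φ.f x) (φ.f x)).re :=
      (integral_re h1).symm
    rw [h2]
    refine integral_nonneg fun x => ?_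
    by_cases hx : x ∈ X
    · exact M.G_nonneg hx _
    · obtain ⟨K, hK, -, h0⟩ := φ.mem.2
      have : φ.f x = 0 := h0 x (fun h => hx (hK h))
      simp [this]
  add_left φ ψ χ := by
    rw [← integral_add (M.cs φ.mem χ.mem).integrable (M.cs ψ.mem χ.mem).integrable]
    refine integral_congr_ae (Eventually.of_forall fun x => ?_)
    simp
  smul_left φ ψ r := by
    rw [← integral_const_mul]
    refine integral_congr_ae (Eventually.of_forall fun x => ?_)
    simp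

noncomputable instance : SeminormedAddCommGroup M.H0 :=
  @InnerProductSpace.Core.toSeminormedAddCommGroup ℂ M.H0 _ _ _ M.core

noncomputable instance : InnerProductSpace ℂ M.H0 := InnerProductSpace.ofCore M.core

theorem inner_H0 (φ ψ : M.H0) : inner ℂ φ ψ = ∫ x, M.G x (φ.f x) (ψ.f x) := rfl

/-- the Hilbert space of square integrable sections -/
abbrev L2 (M : MB V X) : Type _ := Completion M.H0

/-- bounded field of operators -/
def Bd (A : ℂ → (V →L[ℂ] V)) (C : ℝ) : Prop :=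
  0 ≤ C ∧ ∀ x ∈ X, ∀ u, (M.G x (A x u) (A x u)).re ≤ C ^ 2 * (M.G x u u).re

theorem norm_sq_H0 (φ : M.H0) : ‖φ‖ ^ 2 = ∫ x, (M.G x (φ.f x) (φ.f x)).re := by
  have h1 : Integrable (fun x => M.G x (φ.f x) (φ.f x)) := (M.cs φ.mem φ.mem).integrable
  have h2 : ‖φ‖ ^ 2 = (inner ℂ φ φ).re := norm_sq_eq_re_inner (𝕜 := ℂ) φ
  rw [h2, inner_H0]
  exact (integral_re h1).symm

theorem norm_s0_le {φ : M.H0} {A : ℂ → (V →L[ℂ] V)} {C : ℝ} (hA : M.SmO A) (hC : M.Bd A C) :
    ‖M.s0 (fun z => A z (φ.f z)) (FB.app_mem_A0 hA φ.mem)‖ ≤ C * ‖φ‖ := by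
  rw [← abs_of_nonneg (norm_nonneg (M.s0 _ _)), ← abs_of_nonneg (mul_nonneg hC.1 (norm_nonneg φ)),
    ← sq_le_sq, mul_pow, norm_sq_H0, norm_sq_H0, ← integral_const_mul]
  have i1 : Integrable (fun x => (M.G x (φ.f x) (φ.f x)).re) :=
    (M.cs φ.mem φ.mem).integrable.re
  have i2 := (M.cs (FB.app_mem_A0 hA φ.mem) (FB.app_mem_A0 hA φ.mem)).integrable.re
  refine integral_mono i2 (i1.const_mul _) fun x => ?_
  by_cases hx : x ∈ X
  · exact hC.2 x hx (φ.f x)
  · obtain ⟨K, hK, -, h0⟩ := φ.mem.2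
    have : φ.f x = 0 := h0 x (fun h => hx (hK h))
    simp [this]

/-- a smooth bounded field of operators on `H0` -/
noncomputable def op0 {A : ℂ → (V →L[ℂ] V)} (hA : M.SmO A) (C : ℝ) (hC : M.Bd A C) :
    M.H0 →L[ℂ] M.H0 :=
  LinearMap.mkContinuous
    { toFun := fun φ => M.s0 (fun z => A z (φ.f z)) (FB.app_mem_A0 hA φ.mem)
      map_add' := fun φ ψ => H0.ext (by funext z; simp)
      map_smul' := fun c φ => H0.ext (by funext z; simp) } C
    (fun φ => M.norm_s0_le hA hC)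

open Classical in
/-- the operator on `L2` defined by a field of operators -/
noncomputable def opL (A : ℂ → (V →L[ℂ] V)) : M.L2 →L[ℂ] M.L2 :=
  if h : M.SmO A ∧ ∃ C, M.Bd A C then (M.op0 h.1 h.2.choose h.2.choose_spec).completion else 0

/-- smooth bounded field of operators -/
def Ok (A : ℂ → (V →L[ℂ] V)) : Prop := M.SmO A ∧ ∃ C, M.Bd A C

theorem op_coe {A : ℂ → (V →L[ℂ] V)} (h : M.Ok A) (φ : M.H0) :
    M.opL A (φ : M.L2) = (M.s0 (fun z => A z (φ.f z)) (FB.app_mem_A0 h.1 φ.mem) : M.H0) := by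
  unfold opL
  have h' : M.SmO A ∧ ∃ C, M.Bd A C := h
  rw [dif_pos h', ContinuousLinearMap.completion_apply_coe]
  rfl

/-- two continuous maps on `L2` which agree on `H0` are equal -/
theorem dense_ext {Z : Type*} [TopologicalSpace Z] [T2Space Z] {f g : M.L2 → Z}
    (hf : Continuous f) (hg : Continuous g) (h : ∀ φ : M.H0, f φ = g φ) (u : M.L2) : f u = g u :=
  Completion.induction_on u (isClosed_eq hf hg) h

theorem norm_op_le {A : ℂ → (V →L[ℂ] V)} (hA : M.SmO A) {C : ℝ} (hC : M.Bd A C) (u : M.L2) :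
    ‖M.opL A u‖ ≤ C * ‖u‖ := by
  refine Completion.induction_on u (isClosed_le (by fun_prop) (by fun_prop)) fun φ => ?_
  rw [M.op_coe ⟨hA, C, hC⟩, Completion.norm_coe, Completion.norm_coe]
  exact M.norm_s0_le hA hC

theorem op_adj {A B : ℂ → (V →L[ℂ] V)} (hA : M.Ok A) (hB : M.Ok B)
    (h : ∀ x ∈ X, ∀ u v, M.G x (A x u) v = M.G x u (B x v)) (u v : M.L2) :
    inner ℂ (M.opL A u) v = inner ℂ u (M.opL B v) := by
  refine Completion.induction_on₂ u v (isClosed_eq (by fun_prop) (by fun_prop)) fun φ ψ => ?_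
  rw [M.op_coe hA, M.op_coe hB, Completion.inner_coe, Completion.inner_coe, inner_H0, inner_H0]
  refine integral_congr_ae (Eventually.of_forall fun x => ?_)
  by_cases hx : x ∈ X
  · exact h x hx _ _
  · obtain ⟨K, hK, -, h0⟩ := φ.mem.2
    have : φ.f x = 0 := h0 x (fun h => hx (hK h))
    simp [this]

/-- equality of `⟪A u, B v⟫` and `⟪A' u, B' v⟫` from the pointwise identity -/
theorem op_inner_eq {A B A' B' : ℂ → (V →L[ℂ] V)} (hA : M.Ok A) (hB : M.Ok B) (hA' : M.Ok A')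
    (hB' : M.Ok B') (h : ∀ x ∈ X, ∀ u v, M.G x (A x u) (B x v) = M.G x (A' x u) (B' x v))
    (u v : M.L2) : inner ℂ (M.opL A u) (M.opL B v) = inner ℂ (M.opL A' u) (M.opL B' v) := by
  refine Completion.induction_on₂ u v (isClosed_eq (by fun_prop) (by fun_prop)) fun φ ψ => ?_
  rw [M.op_coe hA, M.op_coe hB, M.op_coe hA', M.op_coe hB', Completion.inner_coe,
    Completion.inner_coe, inner_H0, inner_H0]
  refine integral_congr_ae (Eventually.of_forall fun x => ?_)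
  by_cases hx : x ∈ X
  · exact h x hx _ _
  · obtain ⟨K, hK, -, h0⟩ := φ.mem.2
    have : φ.f x = 0 := h0 x (fun h => hx (hK h))
    simp [this]

theorem op_congr {A B : ℂ → (V →L[ℂ] V)} (hA : M.Ok A) (hB : M.Ok B)
    (h : ∀ x ∈ X, A x = B x) : M.opL A = M.opL B := by
  ext u
  refine M.dense_ext (M.opL A).continuous (M.opL B).continuous (fun φ => ?_) u
  rw [M.op_coe hA, M.op_coe hB]
  congr 1
  refine H0.ext ?_
  funext x
  simp only [s0_f]
  by_cases hx : x ∈ X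
  · rw [h x hx]
  · obtain ⟨K, hK, -, h0⟩ := φ.mem.2
    have : φ.f x = 0 := h0 x (fun h => hx (hK h))
    simp [this]

/-- product of operator fields -/
theorem op_mul {A B : ℂ → (V →L[ℂ] V)} (hA : M.Ok A) (hB : M.Ok B)
    (hAB : M.Ok (fun x => A x * B x)) (u : M.L2) :
    M.opL A (M.opL B u) = M.opL (fun x => A x * B x) u := by
  refine M.dense_ext (f := fun u => M.opL A (M.opL B u)) (g := fun u => M.opL _ u)
    ((M.opL A).continuous.comp (M.opL B).continuous) (M.opL _).continuous (fun φ => ?_) u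
  rw [M.op_coe hB, M.op_coe hA, M.op_coe hAB]
  rfl

theorem op_add {A B : ℂ → (V →L[ℂ] V)} (hA : M.Ok A) (hB : M.Ok B)
    (hAB : M.Ok (fun x => A x + B x)) (u : M.L2) :
    M.opL (fun x => A x + B x) u = M.opL A u + M.opL B u := by
  refine M.dense_ext (f := fun u => M.opL _ u) (g := fun u => M.opL A u + M.opL B u)
    (M.opL _).continuous ((M.opL A).continuous.add (M.opL B).continuous) (fun φ => ?_) u
  rw [M.op_coe hB, M.op_coe hA, M.op_coe hAB, ← Completion.coe_add]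
  rfl

theorem op_smul {A : ℂ → (V →L[ℂ] V)} (hA : M.Ok A) (c : ℂ)
    (hcA : M.Ok (fun x => c • A x)) (u : M.L2) :
    M.opL (fun x => c • A x) u = c • M.opL A u := by
  refine M.dense_ext (f := fun u => M.opL _ u) (g := fun u => c • M.opL A u)
    (M.opL _).continuous ((M.opL A).continuous.const_smul c) (fun φ => ?_) u
  rw [M.op_coe hA, M.op_coe hcA, ← Completion.coe_smul]
  rfl

end MB

end Crest.Agent.R276.IpcG1_975
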