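import Crest.Agent.R276.IpcIter_840
import Crest.Agent.R276.Tow4_244

/-!
# Row 276 (S0419), leaf IPC-MODEL (helper244): the geometric variation of a finite covering of
`{g ≠ 0} ⊂ S × ℂ^r`

`geo_cov`: for every nonzero `h ∈ ℂ[z₁..z_m, x₁..x_r]` there are `c₀ ∈ ℂ[z]`, `g ∈ ℂ[z,x]` nonzero, `h ∣ g`,
such that for every connected Riemann domain `S` over `{c₀ ≠ 0} ⊂ ℂ^m` and every `Y → S × ℂ^r`
(`FSp m r S Y`), local homeomorphism, proper over `{g ≠ 0}` with image in `{g ≠ 0}`, there is a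
polarised `ℤ`-variation of Hodge structure `W` of weight `r` over `S` whose top piece is realised by the
`L²` holomorphic functions on the fibres of `Y → S` (`Rz`), equivariantly for deck transformations.
-/

set_option autoImplicit false

noncomputable section

open Set Filter Topology MeasureTheory
open Crest.Agent.R271.Ho51 Crest.Agent.R276.Ipc735 Crest.Agent.R276.Top8_815
open Crest.Agent.R276.Tow2_244 Crest.Agent.R276.Tow4_244 Crest.Agent.R276.Iter_840

namespace Crest.Agent.R276.IpcModel_244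

/-! ### variables -/

/-- the coordinates at level `j`: `(x_{j-1}, …, x_0, w)` -/
def crdv {m : ℕ} (w : Fin m → ℂ) (x : ℕ → ℂ) : (j : ℕ) → Fin (m + j) → ℂ
  | 0 => w
  | (j + 1) => (Fin.cons (x j) (crdv w x j) : Fin (m + j + 1) → ℂ)

/-- the variables of level `j` as variables in `ℂ[z, x]`, `z` first -/
def emb (m r : ℕ) : (j : ℕ) → (j ≤ r) → Fin (m + j) → Fin (m + r)
  | 0, _ => Fin.castAdd r
  | (j + 1), h => fun i => Fin.cases (motive := fun _ => Fin (m + r)) (Fin.natAdd m ⟨j, h⟩)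
      (emb m r j (Nat.le_of_succ_le h)) (i : Fin (m + j + 1))

lemma emb_zero {m r : ℕ} (h : 0 ≤ r) : emb m r 0 h = Fin.castAdd r := rfl

lemma emb_succ_zero {m r j : ℕ} (h : j + 1 ≤ r) :
    emb m r (j + 1) h (0 : Fin (m + j + 1)) = Fin.natAdd m ⟨j, h⟩ := rfl

lemma emb_succ_succ {m r j : ℕ} (h : j + 1 ≤ r) (i : Fin (m + j)) :
    emb m r (j + 1) h (Fin.succ i : Fin (m + j + 1)) = emb m r j (Nat.le_of_succ_le h) i := rfl

lemma emb_lt {m r : ℕ} : ∀ (j : ℕ) (h : j ≤ r) (i : Fin (m + j)), (emb m r j h i : ℕ) < m + j := by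
  intro j
  induction j with
  | zero =>
    intro h i
    rw [emb_zero]
    exact i.2
  | succ j ih =>
    intro h i
    refine Fin.cases (n := m + j) ?_ (fun i => ?_) i
    · rw [emb_succ_zero]
      simp only [Fin.natAdd_mk]
      omega
    · rw [emb_succ_succ]
      have := ih (Nat.le_of_succ_le h) i
      omega

lemma emb_injective {m r : ℕ} : ∀ (j : ℕ) (h : j ≤ r), Function.Injective (emb m r j h) := by
  intro j
  induction j with
  | zero =>
    intro h
    exact Fin.castAdd_injective m r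
  | succ j ih =>
    intro h a
    refine Fin.cases (n := m + j) ?_ (fun a => ?_) a
    · intro b
      refine Fin.cases (n := m + j) ?_ (fun b => ?_) b
      · intro _; rfl
      · intro hab
        rw [emb_succ_zero, emb_succ_succ] at hab
        have h1 := emb_lt j (Nat.le_of_succ_le h) b
        rw [← hab] at h1
        simp only [Fin.natAdd_mk] at h1
        omega
    · intro b
      refine Fin.cases (n := m + j) ?_ (fun b => ?_) b
      · intro hab
        rw [emb_succ_zero, emb_succ_succ] at hab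
        have h1 := emb_lt j (Nat.le_of_succ_le h) a
        rw [hab] at h1
        simp only [Fin.natAdd_mk] at h1
        omega
      · intro hab
        rw [emb_succ_succ, emb_succ_succ] at hab
        rw [ih _ hab]

/-- extension by zero -/
def ext0 {r : ℕ} (x : Fin r → ℂ) (i : ℕ) : ℂ := if h : i < r then x ⟨i, h⟩ else 0

lemma append_comp_emb {m r : ℕ} (w : Fin m → ℂ) (x : Fin r → ℂ) : ∀ (j : ℕ) (h : j ≤ r),
    (Fin.append w x ∘ emb m r j h) = crdv w (ext0 x) j := by
  intro j
  induction j with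
  | zero =>
    intro h
    funext i
    rw [Function.comp_apply, emb_zero]
    exact Fin.append_left w x i
  | succ j ih =>
    intro h
    funext i
    refine Fin.cases (n := m + j) ?_ (fun i => ?_) i
    · rw [Function.comp_apply, emb_succ_zero, Fin.append_right]
      change x ⟨j, h⟩ = ext0 x j
      rw [ext0, dif_pos (show j < r from h)]
    · rw [Function.comp_apply, emb_succ_succ]
      exact congrFun (ih (Nat.le_of_succ_le h)) i

/-- the bijection of the variables at the top level -/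
def sig (m r : ℕ) : Fin (m + r) ≃ Fin (m + r) :=
  Equiv.ofBijective (emb m r r le_rfl) (Finite.injective_iff_bijective.mp (emb_injective r le_rfl))

/-- the product of all discriminants, as a polynomial in `z, x` -/
def gTow {m : ℕ} (T : PTow m) (r : ℕ) : MvPolynomial (Fin (m + r)) ℂ :=
  ∏ j : Fin (r + 1), MvPolynomial.rename (emb m r j (Nat.lt_succ_iff.mp j.2)) (T.c j)

lemma eval_gTow_ne {m : ℕ} (T : PTow m) (r : ℕ) (w : Fin m → ℂ) (x : Fin r → ℂ) :
    MvPolynomial.eval (Fin.append w x) (gTow T r) ≠ 0 ↔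
      ∀ j ≤ r, MvPolynomial.eval (crdv w (ext0 x) j) (T.c j) ≠ 0 := by
  rw [gTow, map_prod, Finset.prod_ne_zero_iff]
  constructor
  · intro h j hj
    have h1 := h ⟨j, Nat.lt_succ_iff.mpr hj⟩ (Finset.mem_univ _)
    rw [MvPolynomial.eval_rename, append_comp_emb] at h1
    exact h1
  · intro h j _
    rw [MvPolynomial.eval_rename, append_comp_emb]
    exact h j (Nat.lt_succ_iff.mp j.2)

lemma gTow_ne_zero {m : ℕ} (T : PTow m) (r : ℕ) (h : ∀ j ≤ r, T.c j ≠ 0) : gTow T r ≠ 0 := by
  rw [gTow, Finset.prod_ne_zero_iff]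
  intro j _ h0
  apply h j (Nat.lt_succ_iff.mp j.2)
  apply MvPolynomial.rename_injective _ (emb_injective (m := m) (j : ℕ) (Nat.lt_succ_iff.mp j.2))
  rw [h0, map_zero]

lemma rename_dvd_gTow {m : ℕ} (T : PTow m) (r j : ℕ) (hj : j ≤ r) :
    MvPolynomial.rename (emb m r j hj) (T.c j) ∣ gTow T r := by
  unfold gTow
  have h1 := Finset.dvd_prod_of_mem (fun j : Fin (r + 1) =>
      MvPolynomial.rename (emb m r j (Nat.lt_succ_iff.mp j.2)) (T.c j))
      (Finset.mem_univ (⟨j, Nat.lt_succ_iff.mpr hj⟩ : Fin (r + 1)))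
  exact h1

/-! ### lifts -/

lemma crd_eq_crdv {m : ℕ} (T : PTow m) (L₀ : Lvl m (T.c 0)) {Y : Type*} (f : Y → L₀.X)
    (x : ℕ → Y → ℂ) (y : Y) (j : ℕ) :
    T.crd L₀ f x y j = crdv (cp (f y)) (fun i => x i y) j := by
  induction j with
  | zero => rfl
  | succ j ih =>
    unfold PTow.crd crdv
    rw [ih]

lemma fx_liftAux {m : ℕ} (T : PTow m) (L₀ : Lvl m (T.c 0)) {Y : Type*} (f : Y → L₀.X)
    (x : ℕ → Y → ℂ) (y : Y) (j : ℕ)
    (h : ∀ i ≤ j, MvPolynomial.eval (T.crd L₀ f x y i) (T.c i) ≠ 0) (i : ℕ) (hi : i < j) :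
    T.fx L₀ j i (T.liftAux L₀ f x y j h).1 = x i y := by
  induction j with
  | zero => omega
  | succ j ih =>
    by_cases hij : i = j
    · subst hij
      change (if i = i then x i y else _) = x i y
      rw [if_pos rfl]
    · change (if i = j then x j y else T.fx L₀ j i (T.liftAux L₀ f x y j
        (fun i hi => h i (by omega))).1) = x i y
      rw [if_neg hij]
      exact ih _ (by omega)

/-! ### Riemann domains are locally compact -/

instance instWLC {m : ℕ} {X : Type*} [TopologicalSpace X] [RDom m X] :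
    WeaklyLocallyCompactSpace X := by
  refine ⟨fun x => ?_⟩
  have h1 : (ch x).target ∈ 𝓝 (cp x) := (ch x).open_target.mem_nhds ((isCh_ch x).cp_mem (mem_ch x))
  obtain ⟨K, hK1, hK2, hK3⟩ := local_compact_nhds h1
  refine ⟨(ch x).symm '' K, hK3.image_of_continuousOn ((ch x).symm.continuousOn.mono hK2), ?_⟩
  have h2 : (ch x).symm '' K = (ch x).source ∩ cp ⁻¹' K := by
    ext y
    constructor
    · rintro ⟨k, hk, rfl⟩
      refine ⟨(ch x).map_target (hK2 hk), ?_⟩
      rw [mem_preimage, (isCh_ch x).cp_symm (hK2 hk)]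
      exact hk
    · rintro ⟨hy1, hy2⟩
      exact ⟨cp y, hy2, (isCh_ch x).symm_cp hy1⟩
  rw [h2]
  exact inter_mem ((ch x).open_source.mem_nhds (mem_ch x)) (cp_cont.continuousAt.preimage_mem_nhds hK1)

/-! ### the covering -/

lemma lh_prod_id {X X' Z : Type*} [TopologicalSpace X] [TopologicalSpace X'] [TopologicalSpace Z]
    {f : X → X'} (hf : IsLocalHomeomorph f) : IsLocalHomeomorph (fun p : X × Z => (f p.1, p.2)) := by
  refine IsLocalHomeomorph.mk _ fun p => ?_
  obtain ⟨e, he, hfe⟩ := hf p.1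
  refine ⟨e.prod (OpenPartialHomeomorph.refl Z), ?_, ?_⟩
  · simp [he]
  · intro y _
    rw [hfe]
    rfl

/-- permutation of the coordinates -/
def permHomeo {n : ℕ} (e : Fin n ≃ Fin n) : (Fin n → ℂ) ≃ₜ (Fin n → ℂ) where
  toFun := fun w => w ∘ e
  invFun := fun w => w ∘ e.symm
  left_inv := fun w => by funext i; simp
  right_inv := fun w => by funext i; simp
  continuous_toFun := continuous_pi fun i => continuous_apply (e i)
  continuous_invFun := continuous_pi fun i => continuous_apply (e.symm i)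

section cov

variable {m r : ℕ} (T : PTow m) (L₀ : Lvl m (T.c 0)) {Y : Type} [TopologicalSpace Y]
  (F : FSp m r L₀.X Y)

/-- the fibre coordinates as a sequence -/
def xs (i : ℕ) (y : Y) : ℂ := ext0 (F.t y) i

lemma continuous_qt : Continuous fun y => (F.q y, F.t y) := F.lh.continuous

lemma continuous_xs (i : ℕ) : Continuous (xs T L₀ F i) := by
  unfold xs ext0
  by_cases hi : i < r
  · simp only [hi, dif_pos]
    exact (continuous_apply _).comp (continuous_snd.comp (continuous_qt T L₀ F))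
  · simp only [hi, dif_neg, not_false_eq_true]
    exact continuous_const

variable (hY : ∀ y, MvPolynomial.eval (Fin.append (cp (F.q y)) (F.t y)) (gTow T r) ≠ 0)

include hY in
lemma lift_cond (y : Y) : ∀ i ≤ r, MvPolynomial.eval (T.crd L₀ F.q (xs T L₀ F) y i) (T.c i) ≠ 0 := by
  intro i hi
  rw [crd_eq_crdv]
  exact (eval_gTow_ne T r _ _).mp (hY y) i hi

/-- the covering of the top level -/
def cov : Y → (T.lvl L₀ r).X := T.lift L₀ F.q (xs T L₀ F) r (lift_cond T L₀ F hY)

lemma toBase_cov (y : Y) : T.toBase L₀ r (cov T L₀ F hY y) = F.q y := T.toBase_lift y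

lemma fx_cov (y : Y) (i : Fin r) : T.fx L₀ r i (cov T L₀ F hY y) = F.t y i := by
  have h := fx_liftAux T L₀ F.q (xs T L₀ F) y r (lift_cond T L₀ F hY y) i i.2
  have h2 : xs T L₀ F i y = F.t y i := by
    unfold xs ext0
    rw [dif_pos i.2]
  rw [← h2, ← h]
  rfl

lemma continuous_cov : Continuous (cov T L₀ F hY) :=
  T.continuous_lift (continuous_fst.comp (continuous_qt T L₀ F)) (continuous_xs T L₀ F)

/-- the linear change of variables between the two orders -/
lemma crd_eq_perm (y : Y) : T.crd L₀ F.q (xs T L₀ F) y r =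
    (Fin.append (cp (F.q y)) (F.t y)) ∘ sig m r := by
  rw [crd_eq_crdv]
  exact (append_comp_emb (cp (F.q y)) (F.t y) r le_rfl).symm

lemma isLocalHomeomorph_cov : IsLocalHomeomorph (cov T L₀ F hY) := by
  refine T.isLocalHomeomorph_lift (continuous_fst.comp (continuous_qt T L₀ F))
    (continuous_xs T L₀ F) ?_
  have h1 : (fun y => T.crd L₀ F.q (xs T L₀ F) y r) =
      (fun v : (Fin m → ℂ) × (Fin r → ℂ) => (Fin.append v.1 v.2) ∘ sig m r) ∘
        (fun p : L₀.X × (Fin r → ℂ) => ((cp p.1 : Fin m → ℂ), p.2)) ∘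
          fun y => (F.q y, F.t y) := by
    funext y
    exact crd_eq_perm T L₀ F y
  rw [h1]
  refine IsLocalHomeomorph.comp ?_ (IsLocalHomeomorph.comp ?_ F.lh)
  · exact (permHomeo (sig m r)).isLocalHomeomorph.comp
      (Fin.appendHomeomorph (X := ℂ) m r).isLocalHomeomorph
  · exact lh_prod_id cp_lh

/-- the space of the possible values -/
abbrev GSet (p : L₀.X × (Fin r → ℂ)) : Prop :=
  MvPolynomial.eval (Fin.append (cp p.1) p.2) (gTow T r) ≠ 0

lemma fx_ne (q : (T.lvl L₀ r).X) :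
    GSet T L₀ (T.toBase L₀ r q, fun i : Fin r => T.fx L₀ r i q) := by
  rw [GSet, eval_gTow_ne]
  intro j hj
  have h1 := T.ne_zero_of_lvl L₀ r q j hj
  rw [crd_eq_crdv] at h1
  have h2 : ∀ k ≤ r, crdv (cp (T.toBase L₀ r q)) (fun i => T.fx L₀ r i q) k =
      crdv (cp (T.toBase L₀ r q)) (ext0 fun i : Fin r => T.fx L₀ r i q) k := by
    intro k
    induction k with
    | zero => intro _; rfl
    | succ k ih =>
      intro hk
      unfold crdv
      rw [ih (by omega), ext0, dif_pos (show k < r by omega)]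
  rw [← h2 j hj]
  exact h1

lemma compact_preimage_cov [T2Space Y]
    (hp : ∀ K : Set (L₀.X × (Fin r → ℂ)), IsCompact K → (∀ p ∈ K, GSet T L₀ p) →
      IsCompact {y | (F.q y, F.t y) ∈ K})
    {K : Set (T.lvl L₀ r).X} (hK : IsCompact K) : IsCompact (cov T L₀ F hY ⁻¹' K) := by
  have hc : Continuous fun q : (T.lvl L₀ r).X =>
      (T.toBase L₀ r q, fun i : Fin r => T.fx L₀ r i q) :=
    (T.continuous_toBase L₀ r).prodMk (continuous_pi fun i => T.continuous_fx L₀ r i)
  have h1 := hp _ (hK.image hc) (by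
    rintro _ ⟨q, _, rfl⟩
    exact fx_ne T L₀ q)
  refine h1.of_isClosed_subset (hK.isClosed.preimage (continuous_cov T L₀ F hY)) ?_
  intro y hy
  refine ⟨cov T L₀ F hY y, hy, ?_⟩
  refine Prod.ext (toBase_cov T L₀ F hY y) ?_
  funext i
  exact fx_cov T L₀ F hY y i

/-- the covering is a finite covering with a constant number of sheets -/
theorem cov_isCoveringMap [T2Space Y]
    (hp : ∀ K : Set (L₀.X × (Fin r → ℂ)), IsCompact K → (∀ p ∈ K, GSet T L₀ p) →
      IsCompact {y | (F.q y, F.t y) ∈ K}) :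
    IsCoveringMap (cov T L₀ F hY) ∧
      ∃ N : ℕ, ∀ s, Nonempty (Fin N ≃ (cov T L₀ F hY ⁻¹' {s} : Set Y)) := by
  have h1 := isLocalHomeomorph_cov T L₀ F hY
  obtain ⟨h2, h3⟩ := closed_finite_of_compact h1
    (fun K hK => compact_preimage_cov T L₀ F hY hp hK)
  constructor
  · rw [isCoveringMap_iff_isCoveringMapOn_univ]
    exact h2.isCoveringMapOn_of_isLocalHomeomorphOn (fun x _ => h3 x) h1.isLocalHomeomorphOn
  · obtain ⟨N, hN, -⟩ := sheets h1 h2 h3
    refine ⟨N, fun s => ?_⟩
    have := (h3 s).to_subtype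
    exact ⟨(Finite.equivFinOfCardEq (hN s)).symm⟩

/-- the covering is invariant under automorphisms -/
lemma cov_eq_of {y y' : Y} (h1 : F.q y = F.q y') (h2 : F.t y = F.t y') :
    cov T L₀ F hY y = cov T L₀ F hY y' := by
  apply (T.isEmbedding_toBase_cp L₀ r).injective
  refine Prod.ext ?_ ?_
  · change T.toBase L₀ r _ = T.toBase L₀ r _
    rw [toBase_cov, toBase_cov, h1]
  · change (cp (T.lift L₀ F.q (xs T L₀ F) r (lift_cond T L₀ F hY) y) : Fin (m + r) → ℂ) =
      cp (T.lift L₀ F.q (xs T L₀ F) r (lift_cond T L₀ F hY) y')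
    rw [T.cp_lift, T.cp_lift, crd_eq_crdv, crd_eq_crdv, h1]
    congr 1
    funext i
    unfold xs
    rw [h2]

/-- **The geometric variation over a tower.** -/
theorem geo_tower [T2Space Y] (hO : OneStep) (hR : StepRz) (hA : StepRzAct)
    (hp : ∀ K : Set (L₀.X × (Fin r → ℂ)), IsCompact K → (∀ p ∈ K, GSet T L₀ p) →
      IsCompact {y | (F.q y, F.t y) ∈ K})
    (hY : ∀ y, MvPolynomial.eval (Fin.append (cp (F.q y)) (F.t y)) (gTow T r) ≠ 0)
    {Γ : Type} [Group Γ] (α : Γ →* Equiv.Perm Y) (hα : ∀ g, Continuous (α g))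
    (hq : ∀ g y, F.q (α g y) = F.q y) (ht : ∀ g y, F.t (α g y) = F.t y) :
    ∃ (N' : ℕ) (W : VHS m L₀.X N' r) (ρ : Act W Γ) (ι : L₀.X → (Fin N' → ℂ) → Y → ℂ),
      Rz W F ι ∧ RzAct ρ F ι (fun g => α g) := by
  obtain ⟨hcov, N, hN⟩ := cov_isCoveringMap T L₀ F hY hp
  obtain ⟨N', W, ρ, F', ι, h1, h2, h3, h4⟩ := geoVHS T L₀ hO hR hA r N hcov
    (fun s => (hN s).some) α hα (fun g y => cov_eq_of T L₀ F hY (hq g y) (ht g y))
  have hF : F' = F := by
    have e1 : F'.q = F.q := by
      funext y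
      rw [h3, toBase_cov]
    have e2 : F'.t = F.t := by
      funext y i
      rw [h4, fx_cov]
    cases F'
    cases F
    cases e1
    cases e2
    rfl
  subst hF
  exact ⟨N', W, ρ, ι, h1, h2⟩

end cov

/-- **The geometric variation of a finite covering of `{g ≠ 0} ⊂ S × ℂ^r`.** -/
theorem geo_cov (hO : OneStep) (hR : StepRz) (hA : StepRzAct) (m r : ℕ)
    (h : MvPolynomial (Fin (m + r)) ℂ) (hh : h ≠ 0) :
    ∃ (c₀ : MvPolynomial (Fin m) ℂ) (g : MvPolynomial (Fin (m + r)) ℂ), c₀ ≠ 0 ∧ g ≠ 0 ∧ h ∣ g ∧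
      MvPolynomial.rename (Fin.castAdd r) c₀ ∣ g ∧
      ∀ (S : Type) [TopologicalSpace S] [T2Space S] [SecondCountableTopology S]
        [PreconnectedSpace S] [RDom m S] (_ : ∀ s : S, MvPolynomial.eval (cp s) c₀ ≠ 0)
        (Y : Type) [TopologicalSpace Y] [T2Space Y] (F : FSp m r S Y)
        (_ : ∀ y, MvPolynomial.eval (Fin.append (cp (F.q y)) (F.t y)) g ≠ 0)
        (_ : ∀ K : Set (S × (Fin r → ℂ)), IsCompact K →
          (∀ p ∈ K, MvPolynomial.eval (Fin.append (cp p.1) p.2) g ≠ 0) →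
          IsCompact {y | (F.q y, F.t y) ∈ K})
        (Γ : Type) [Group Γ] (α : Γ →* Equiv.Perm Y) (_ : ∀ g, Continuous (α g))
        (_ : ∀ g y, F.q (α g y) = F.q y) (_ : ∀ g y, F.t (α g y) = F.t y),
        ∃ (N' : ℕ) (W : VHS m S N' r) (ρ : Act W Γ) (ι : S → (Fin N' → ℂ) → Y → ℂ),
          Rz W F ι ∧ RzAct ρ F ι (fun g => α g) := by
  -- the tower
  obtain ⟨T, hT1, hT2⟩ := exists_ptow m r (MvPolynomial.rename (sig m r).symm h) (by
    intro h0
    apply hh
    apply MvPolynomial.rename_injective _ (sig m r).symm.injective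
    rw [h0, map_zero])
  have e1 : h ∣ gTow T r := by
    have h1 : MvPolynomial.rename (emb m r r le_rfl) (T.c r) = h := by
      rw [hT1, MvPolynomial.rename_rename]
      have : (emb m r r le_rfl) ∘ (sig m r).symm = id := by
        funext i
        exact (sig m r).apply_symm_apply i
      rw [this, MvPolynomial.rename_id_apply]
    rw [← h1]
    exact rename_dvd_gTow T r r le_rfl
  have e2 : MvPolynomial.rename (Fin.castAdd r) (T.c 0) ∣ gTow T r :=
    rename_dvd_gTow T r 0 (Nat.zero_le r)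
  refine ⟨T.c 0, gTow T r, hT2 0 (Nat.zero_le _), gTow_ne_zero T r hT2, e1, e2, ?_⟩
  intro S _ _ _ _ _ hS Y _ _ F hY hp Γ _ α hα hq ht
  exact geo_tower T (⟨S, hS⟩ : Lvl m (T.c 0)) F hO hR hA hp hY α hα hq ht

end Crest.Agent.R276.IpcModel_244
end
private theorem rz_76243172d4 : type_of% @_root_.Crest.Agent.R276.IpcModel_244.crdv.eq_def := @_root_.Crest.Agent.R276.IpcModel_244.crdv.eq_def -- L28
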