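import Crest.Agent.R276.IpcGr_975
import Crest.Agent.R276.IpcL2_975
import Crest.Agent.R276.HsB_817

-- ▼ part R276/IpcGrB_975
section

/-!
# R276, IPC fixed-s assembly (helper975): operators lowering / raising the type by one

`Lo T t : T t - t T = -t`, `Hi T t : T t - t T = t`.
-/

set_option autoImplicit false

open Polynomial Finset

namespace Crest.Agent.R276.IpcGr_975

variable {R : Type*} [Ring R] [Algebra ℂ R] {w : ℕ} {T t : R}

/-- `t` lowers the type by one -/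
def Lo (T t : R) : Prop := T * t - t * T = - t

/-- `t` raises the type by one -/
def Hi (T t : R) : Prop := T * t - t * T = t

theorem eval_nod_ne (w : ℕ) (c : ℂ) (hc : ∀ q : ℕ, q ≤ w → c ≠ (q : ℂ)) : (nod w).eval c ≠ 0 := by
  unfold nod
  rw [eval_prod, Finset.prod_ne_zero_iff]
  intro q hq
  rw [Finset.mem_range] at hq
  rw [eval_sub, eval_X, eval_C, sub_ne_zero]
  exact hc q (by omega)

theorem aeval_mul_eigen {x : R} {c : ℂ} (hx : T * x = c • x) (f : ℂ[X]) :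
    aeval T f * x = f.eval c • x := by
  induction f using Polynomial.induction_on' with
  | add f g hf hg => rw [map_add, add_mul, hf, hg, eval_add, add_smul]
  | monomial n a =>
    rw [aeval_monomial, eval_monomial]
    have : ∀ n : ℕ, T ^ n * x = (c ^ n) • x := by
      intro n
      induction n with
      | zero => simp
      | succ n ih => rw [pow_succ, mul_assoc, hx, mul_smul_comm, ih, smul_smul, pow_succ, mul_comm c]
    rw [mul_assoc, this n, ← Algebra.smul_def, smul_smul]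


/-- an eigenvector for an eigenvalue outside `{0..w}` is zero -/
theorem eq_zero_of_eigen (hT : Sp w T) {x : R} {c : ℂ} (hx : T * x = c • x)
    (hc : ∀ q : ℕ, q ≤ w → c ≠ (q : ℂ)) : x = 0 := by
  have h1 := aeval_mul_eigen hx (nod w)
  have h0 : aeval T (nod w) = 0 := hT
  rw [h0, zero_mul] at h1
  exact ((smul_eq_zero.1 h1.symm).resolve_left (eval_nod_ne w c hc))


theorem pr_mul_eigen {x : R} {p : ℕ} (hp : p ≤ w) (hx : T * x = (p : ℂ) • x) (q : ℕ) :
    pr w q T * x = if q = p then x else 0 := by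
  have h := aeval_mul_eigen hx (lag w q)
  rw [eval_lag w q p hp] at h
  unfold pr
  rw [h]
  split_ifs <;> simp


theorem Lo.eigen (hT : Sp w T) (h : Lo T t) (p : ℕ) :
    T * (t * pr w p T) = ((p : ℂ) - 1) • (t * pr w p T) := by
  have h1 : T * t = t * T - t := by
    have := h
    unfold Lo at this
    rw [sub_eq_iff_eq_add] at this
    rw [this]; abel
  rw [← mul_assoc, h1, sub_mul, mul_assoc, T_mul_pr hT, mul_smul_comm, sub_smul, one_smul]

theorem Hi.eigen (hT : Sp w T) (h : Hi T t) (p : ℕ) :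
    T * (t * pr w p T) = ((p : ℂ) + 1) • (t * pr w p T) := by
  have h1 : T * t = t * T + t := by
    have := h
    unfold Hi at this
    rw [sub_eq_iff_eq_add] at this
    rw [this]; abel
  rw [← mul_assoc, h1, add_mul, mul_assoc, T_mul_pr hT, mul_smul_comm, add_smul, one_smul]

theorem Lo.mul_pr_zero (hT : Sp w T) (h : Lo T t) : t * pr w 0 T = 0 := by
  refine eq_zero_of_eigen hT (h.eigen hT 0) fun q _ hq => ?_
  have : ((-1 : ℝ) : ℂ) = ((q : ℝ) : ℂ) := by
    rw [show ((-1 : ℝ) : ℂ) = (((0 : ℕ) : ℂ) - 1) by push_cast; ring, hq]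
    push_cast
    rfl
  have h2 : (-1 : ℝ) = (q : ℝ) := by exact_mod_cast this
  have h3 : (0 : ℝ) ≤ q := Nat.cast_nonneg q
  linarith


/-- blocks of a lowering operator -/
theorem Lo.block (hT : Sp w T) (h : Lo T t) {p q : ℕ} (hpq : p ≠ q + 1) :
    pr w q T * (t * pr w p T) = 0 := by
  rcases Nat.eq_zero_or_pos p with h0 | h0
  · rw [h0, h.mul_pr_zero hT, mul_zero]
  · obtain ⟨r, rfl⟩ : ∃ r, p = r + 1 := ⟨p - 1, by omega⟩
    by_cases hr : r + 1 ≤ w
    · have h1 := h.eigen hT (r + 1)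
      have h2 : T * (t * pr w (r + 1) T) = (r : ℂ) • (t * pr w (r + 1) T) := by
        rw [h1]; push_cast; simp
      rw [pr_mul_eigen (by omega) h2, if_neg (by omega)]
    · rw [pr_gt (by omega : w < r + 1), mul_zero, mul_zero]

theorem Hi.block (hT : Sp w T) (h : Hi T t) {p q : ℕ} (hpq : q ≠ p + 1) :
    pr w q T * (t * pr w p T) = 0 := by
  by_cases hp : p + 1 ≤ w
  · have h1 := h.eigen hT p
    have h2 : T * (t * pr w p T) = ((p + 1 : ℕ) : ℂ) • (t * pr w p T) := by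
      rw [h1]; push_cast; rfl
    rw [pr_mul_eigen hp h2, if_neg hpq]
  · have h0 : t * pr w p T = 0 := by
      by_cases hp' : p ≤ w
      · refine eq_zero_of_eigen hT (h.eigen hT p) fun q hq hq' => ?_
        have h3 : ((p + 1 : ℕ) : ℂ) = (q : ℂ) := by rw [← hq']; push_cast; rfl
        have h4 : p + 1 = q := by exact_mod_cast h3
        omega
      · rw [pr_gt (by omega), mul_zero]
    rw [h0, mul_zero]

theorem Lo.mul_pr (hT : Sp w T) (h : Lo T t) (p : ℕ) : t * pr w (p + 1) T = pr w p T * t := by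
  have h1 : t * pr w (p + 1) T = pr w p T * (t * pr w (p + 1) T) := by
    conv_lhs => rw [← one_mul (t * pr w (p + 1) T), ← sum_pr hT, Finset.sum_mul]
    by_cases hp : p ≤ w
    · rw [Finset.sum_eq_single p]
      · intro b _ hb
        exact h.block hT (by omega)
      · intro hp'
        exact absurd (Finset.mem_range.2 (by omega)) hp'
    · rw [pr_gt (by omega : w < p), zero_mul]
      refine Finset.sum_eq_zero fun b _ => ?_
      rw [pr_gt (by omega : w < p + 1), mul_zero, mul_zero]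
  have h2 : pr w p T * t = pr w p T * (t * pr w (p + 1) T) := by
    conv_lhs => rw [← mul_one (pr w p T * t), ← sum_pr hT, Finset.mul_sum]
    by_cases hp : p + 1 ≤ w
    · rw [Finset.sum_eq_single (p + 1)]
      · rw [mul_assoc]
      · intro b _ hb
        rw [mul_assoc]
        exact h.block hT (by omega)
      · intro hp'
        exact absurd (Finset.mem_range.2 (by omega)) hp'
    · rw [pr_gt (by omega : w < p + 1), mul_zero, mul_zero]
      refine Finset.sum_eq_zero fun b hb => ?_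
      rw [Finset.mem_range] at hb
      rw [mul_assoc]
      exact h.block hT (by omega)
  rw [h1, h2]


theorem Hi.mul_pr (hT : Sp w T) (h : Hi T t) (p : ℕ) : t * pr w p T = pr w (p + 1) T * t := by
  have h1 : t * pr w p T = pr w (p + 1) T * (t * pr w p T) := by
    conv_lhs => rw [← one_mul (t * pr w p T), ← sum_pr hT, Finset.sum_mul]
    by_cases hp : p + 1 ≤ w
    · rw [Finset.sum_eq_single (p + 1)]
      · intro b _ hb
        exact h.block hT (by omega)
      · intro hp'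
        exact absurd (Finset.mem_range.2 (by omega)) hp'
    · rw [pr_gt (by omega : w < p + 1), zero_mul]
      refine Finset.sum_eq_zero fun b hb => ?_
      rw [Finset.mem_range] at hb
      exact h.block hT (by omega)
  have h2 : pr w (p + 1) T * t = pr w (p + 1) T * (t * pr w p T) := by
    conv_lhs => rw [← mul_one (pr w (p + 1) T * t), ← sum_pr hT, Finset.mul_sum]
    by_cases hp : p ≤ w
    · rw [Finset.sum_eq_single p]
      · rw [mul_assoc]
      · intro b _ hb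
        rw [mul_assoc]
        exact h.block hT (by omega)
      · intro hp'
        exact absurd (Finset.mem_range.2 (by omega)) hp'
    · rw [pr_gt (by omega : w < p), mul_zero, mul_zero]
      refine Finset.sum_eq_zero fun b hb => ?_
      rw [Finset.mem_range] at hb
      rw [mul_assoc]
      exact h.block hT (by omega)
  rw [h1, h2]



end Crest.Agent.R276.IpcGr_975
end

-- ▼ part R276/IpcPV_975
section

/-!
# R276, IPC fixed-s assembly (helper975), part 4: polarised variations over an open set of the plane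

`PV V X w`: flat bundle with flat Hermitian form `S` and grading operator field `E`.
-/

set_option autoImplicit false

open Set Filter Topology MeasureTheory UniformSpace
open scoped ContDiff ComplexConjugate

namespace Crest.Agent.R276.IpcG1_975

open VCalc_442 IpcGr_975

/-- polarised variation of weight `w` over the open set `X` -/
structure PV (V : Type*) [NormedAddCommGroup V] [NormedSpace ℂ V] (X : Set ℂ) (w : ℕ)
    extends FB V X where
  S : ℂ → (V →L⋆[ℂ] V →L[ℂ] ℂ)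
  E : ℂ → (V →L[ℂ] V)
  flatS : ∀ z ∈ X, ∀ᶠ y in 𝓝 z, ∀ u v, S z (P z y u) (P z y v) = S y u v
  hermS : ∀ z ∈ X, ∀ u v, (starRingEnd ℂ) (S z u v) = S z v u
  sa : ∀ z ∈ X, ∀ u v, S z (E z u) v = S z u (E z v)
  sp : ∀ z ∈ X, Sp w (E z)
  pos : ∀ z ∈ X, ∀ u, u ≠ 0 → 0 < (S z (J w (E z) u) u).re
  smE : toFB.SmO E
  lo : ∀ z ∈ X, Lo (E z) (toFB.D1 E z)

namespace FB

variable {V : Type*} [NormedAddCommGroup V] [NormedSpace ℂ V] {X : Set ℂ} {F : FB V X}

theorem Nb.trO_mul {z : ℂ} {U : Set ℂ} (h : F.Nb z U) {y : ℂ} (hy : y ∈ U)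
    (A B : ℂ → (V →L[ℂ] V)) : F.trO z (fun y => A y * B y) y = F.trO z A y * F.trO z B y := by
  unfold trO
  have := h.inv hy h.mem
  calc F.P z y * (A y * B y) * F.P y z = F.P z y * A y * 1 * (B y * F.P y z) := by
        simp only [mul_assoc, one_mul]
    _ = F.P z y * A y * (F.P y z * F.P z y) * (B y * F.P y z) := by rw [this]
    _ = _ := by simp only [mul_assoc]

theorem trO_add (z : ℂ) (A B : ℂ → (V →L[ℂ] V)) (y : ℂ) :
    F.trO z (fun y => A y + B y) y = F.trO z A y + F.trO z B y := by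
  unfold trO
  rw [mul_add, add_mul]

theorem trO_smul (z : ℂ) (c : ℂ) (A : ℂ → (V →L[ℂ] V)) (y : ℂ) :
    F.trO z (fun y => c • A y) y = c • F.trO z A y := by
  unfold trO
  rw [mul_smul_comm, smul_mul_assoc]

theorem Nb.trO_one {z : ℂ} {U : Set ℂ} (h : F.Nb z U) {y : ℂ} (hy : y ∈ U) :
    F.trO z (fun _ => 1) y = 1 := by
  unfold trO
  rw [mul_one, h.inv h.mem hy]

theorem trO_self {z : ℂ} (hz : z ∈ X) (A : ℂ → (V →L[ℂ] V)) : F.trO z A z = A z := by
  unfold trO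
  rw [F.one z hz, one_mul, mul_one]

theorem SmO.mul {A B : ℂ → (V →L[ℂ] V)} (hA : F.SmO A) (hB : F.SmO B) :
    F.SmO (fun z => A z * B z) := by
  intro z hz
  obtain ⟨U, hU⟩ := F.exists_nb hz
  refine ((hA z hz).mul (hB z hz)).congr_of_eventuallyEq ?_
  filter_upwards [hU.op.mem_nhds hU.mem] with y hy
  exact hU.trO_mul hy A B

theorem SmO.add {A B : ℂ → (V →L[ℂ] V)} (hA : F.SmO A) (hB : F.SmO B) :
    F.SmO (fun z => A z + B z) := by
  intro z hz
  refine ((hA z hz).add (hB z hz)).congr_of_eventuallyEq ?_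
  exact Eventually.of_forall fun y => trO_add z A B y

theorem SmO.smul {A : ℂ → (V →L[ℂ] V)} (hA : F.SmO A) (c : ℂ) : F.SmO (fun z => c • A z) := by
  intro z hz
  refine ((hA z hz).const_smul c).congr_of_eventuallyEq ?_
  exact Eventually.of_forall fun y => trO_smul z c A y

theorem SmO.one : F.SmO (fun _ => 1) := by
  intro z hz
  obtain ⟨U, hU⟩ := F.exists_nb hz
  refine (contDiffAt_const (c := (1 : V →L[ℂ] V))).congr_of_eventuallyEq ?_
  filter_upwards [hU.op.mem_nhds hU.mem] with y hy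
  exact hU.trO_one hy

theorem SmO.zero : F.SmO (fun _ => 0) := by
  intro z hz
  refine (contDiffAt_const (c := (0 : V →L[ℂ] V))).congr_of_eventuallyEq ?_
  exact Eventually.of_forall fun y => by simp [trO]

theorem SmO.neg {A : ℂ → (V →L[ℂ] V)} (hA : F.SmO A) : F.SmO (fun z => - A z) := by
  have := hA.smul (-1 : ℂ)
  simpa using this

theorem SmO.sub {A B : ℂ → (V →L[ℂ] V)} (hA : F.SmO A) (hB : F.SmO B) :
    F.SmO (fun z => A z - B z) := by
  simpa [sub_eq_add_neg] using hA.add hB.neg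

theorem SmO.sum {κ : Type*} (s : Finset κ) {A : κ → ℂ → (V →L[ℂ] V)} (hA : ∀ k ∈ s, F.SmO (A k)) :
    F.SmO (fun z => ∑ k ∈ s, A k z) := by
  classical
  induction s using Finset.induction_on with
  | empty => simpa using SmO.zero
  | insert a s ha ih =>
    simp only [Finset.sum_insert ha]
    exact (hA a (Finset.mem_insert_self a s)).add
      (ih fun k hk => hA k (Finset.mem_insert_of_mem hk))

theorem SmO.pow {A : ℂ → (V →L[ℂ] V)} (hA : F.SmO A) (n : ℕ) : F.SmO (fun z => A z ^ n) := by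
  induction n with
  | zero => simpa using SmO.one
  | succ n ih => simpa [pow_succ] using ih.mul hA

theorem SmO.aeval {A : ℂ → (V →L[ℂ] V)} (hA : F.SmO A) (f : Polynomial ℂ) :
    F.SmO (fun z => Polynomial.aeval (A z) f) := by
  induction f using Polynomial.induction_on' with
  | add f g hf hg => simpa using hf.add hg
  | monomial n a =>
    have := (hA.pow n).smul a
    simpa [Polynomial.aeval_monomial, Algebra.smul_def] using this

theorem D1_mul {A B : ℂ → (V →L[ℂ] V)} (hA : F.SmO A) (hB : F.SmO B) {z : ℂ} (hz : z ∈ X) :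
    F.D1 (fun z => A z * B z) z = F.D1 A z * B z + A z * F.D1 B z := by
  obtain ⟨U, hU⟩ := F.exists_nb hz
  unfold D1
  have : F.trO z (fun y => A y * B y) =ᶠ[𝓝 z] fun y => F.trO z A y * F.trO z B y := by
    filter_upwards [hU.op.mem_nhds hU.mem] with y hy
    exact hU.trO_mul hy A B
  rw [dW_congr this, dW_mul ((hA z hz).differentiableAt (by simp))
    ((hB z hz).differentiableAt (by simp)), trO_self hz, trO_self hz]

theorem D2_mul {A B : ℂ → (V →L[ℂ] V)} (hA : F.SmO A) (hB : F.SmO B) {z : ℂ} (hz : z ∈ X) :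
    F.D2 (fun z => A z * B z) z = F.D2 A z * B z + A z * F.D2 B z := by
  obtain ⟨U, hU⟩ := F.exists_nb hz
  unfold D2
  have : F.trO z (fun y => A y * B y) =ᶠ[𝓝 z] fun y => F.trO z A y * F.trO z B y := by
    filter_upwards [hU.op.mem_nhds hU.mem] with y hy
    exact hU.trO_mul hy A B
  rw [dB_congr this, dB_mul ((hA z hz).differentiableAt (by simp))
    ((hB z hz).differentiableAt (by simp)), trO_self hz, trO_self hz]

theorem D1_add {A B : ℂ → (V →L[ℂ] V)} (hA : F.SmO A) (hB : F.SmO B) {z : ℂ} (hz : z ∈ X) :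
    F.D1 (fun z => A z + B z) z = F.D1 A z + F.D1 B z := by
  unfold D1
  rw [← dW_add ((hA z hz).differentiableAt (by simp)) ((hB z hz).differentiableAt (by simp))]
  congr 1
  funext y
  exact trO_add z A B y

theorem D2_add {A B : ℂ → (V →L[ℂ] V)} (hA : F.SmO A) (hB : F.SmO B) {z : ℂ} (hz : z ∈ X) :
    F.D2 (fun z => A z + B z) z = F.D2 A z + F.D2 B z := by
  unfold D2
  rw [← dB_add ((hA z hz).differentiableAt (by simp)) ((hB z hz).differentiableAt (by simp))]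
  congr 1
  funext y
  exact trO_add z A B y

theorem D1_smul {A : ℂ → (V →L[ℂ] V)} (hA : F.SmO A) (c : ℂ) {z : ℂ} (hz : z ∈ X) :
    F.D1 (fun z => c • A z) z = c • F.D1 A z := by
  unfold D1
  rw [← dW_const_smul c ((hA z hz).differentiableAt (by simp))]
  congr 1
  funext y
  exact trO_smul z c A y

theorem D2_smul {A : ℂ → (V →L[ℂ] V)} (hA : F.SmO A) (c : ℂ) {z : ℂ} (hz : z ∈ X) :
    F.D2 (fun z => c • A z) z = c • F.D2 A z := by
  unfold D2
  rw [← dB_const_smul c ((hA z hz).differentiableAt (by simp))]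
  congr 1
  funext y
  exact trO_smul z c A y

theorem D1_one {z : ℂ} (hz : z ∈ X) : F.D1 (fun _ => 1) z = 0 := by
  obtain ⟨U, hU⟩ := F.exists_nb hz
  unfold D1
  have : F.trO z (fun _ => 1) =ᶠ[𝓝 z] fun _ => 1 := by
    filter_upwards [hU.op.mem_nhds hU.mem] with y hy
    exact hU.trO_one hy
  rw [dW_congr this, dW_const]

theorem D2_one {z : ℂ} (hz : z ∈ X) : F.D2 (fun _ => 1) z = 0 := by
  obtain ⟨U, hU⟩ := F.exists_nb hz
  unfold D2
  have : F.trO z (fun _ => 1) =ᶠ[𝓝 z] fun _ => 1 := by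
    filter_upwards [hU.op.mem_nhds hU.mem] with y hy
    exact hU.trO_one hy
  rw [dB_congr this, dB_const]

/-- if `D A = [t, A]` then `D f(A) = [t, f(A)]` -/
theorem D1_aeval {A : ℂ → (V →L[ℂ] V)} (hA : F.SmO A) {z : ℂ} (hz : z ∈ X) {t : V →L[ℂ] V}
    (h : F.D1 A z = t * A z - A z * t) (f : Polynomial ℂ) :
    F.D1 (fun z => Polynomial.aeval (A z) f) z =
      t * Polynomial.aeval (A z) f - Polynomial.aeval (A z) f * t := by
  have hp : ∀ n : ℕ, F.D1 (fun z => A z ^ n) z = t * A z ^ n - A z ^ n * t := by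
    intro n
    induction n with
    | zero => simp only [pow_zero]; rw [D1_one hz]; simp
    | succ n ih =>
      simp only [pow_succ]
      rw [D1_mul (hA.pow n) hA hz, ih, h]
      noncomm_ring
  induction f using Polynomial.induction_on' with
  | add f g hf hg =>
    simp only [map_add]
    rw [D1_add (hA.aeval f) (hA.aeval g) hz, hf, hg]
    noncomm_ring
  | monomial n a =>
    simp only [Polynomial.aeval_monomial, ← Algebra.smul_def]
    rw [D1_smul (hA.pow n) a hz, hp, smul_sub, mul_smul_comm, smul_mul_assoc]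

theorem D2_aeval {A : ℂ → (V →L[ℂ] V)} (hA : F.SmO A) {z : ℂ} (hz : z ∈ X) {t : V →L[ℂ] V}
    (h : F.D2 A z = t * A z - A z * t) (f : Polynomial ℂ) :
    F.D2 (fun z => Polynomial.aeval (A z) f) z =
      t * Polynomial.aeval (A z) f - Polynomial.aeval (A z) f * t := by
  have hp : ∀ n : ℕ, F.D2 (fun z => A z ^ n) z = t * A z ^ n - A z ^ n * t := by
    intro n
    induction n with
    | zero => simp only [pow_zero]; rw [D2_one hz]; simp
    | succ n ih =>
      simp only [pow_succ]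
      rw [D2_mul (hA.pow n) hA hz, ih, h]
      noncomm_ring
  induction f using Polynomial.induction_on' with
  | add f g hf hg =>
    simp only [map_add]
    rw [D2_add (hA.aeval f) (hA.aeval g) hz, hf, hg]
    noncomm_ring
  | monomial n a =>
    simp only [Polynomial.aeval_monomial, ← Algebra.smul_def]
    rw [D2_smul (hA.pow n) a hz, hp, smul_sub, mul_smul_comm, smul_mul_assoc]

end FB

namespace PV

variable {V : Type*} [NormedAddCommGroup V] [NormedSpace ℂ V] {X : Set ℂ} {w : ℕ} (M : PV V X w)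

/-- Weil operator field -/
noncomputable def Jf (z : ℂ) : V →L[ℂ] V := J w (M.E z)

/-- projector field -/
noncomputable def Pf (p : ℕ) (z : ℂ) : V →L[ℂ] V := pr w p (M.E z)

/-- `θ` -/
noncomputable def th (z : ℂ) : V →L[ℂ] V := M.D1 M.E z

/-- `θ*` -/
noncomputable def ths (z : ℂ) : V →L[ℂ] V := - M.D2 M.E z

theorem smP (p : ℕ) : M.SmO (M.Pf p) := FB.SmO.aeval M.smE _

theorem smJ : M.SmO M.Jf := by
  unfold Jf J
  exact FB.SmO.sum _ fun p _ => (M.smP p).smul _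



theorem lo_th {z : ℂ} (hz : z ∈ X) : Lo (M.E z) (M.th z) := M.lo z hz

variable {M} in
/-- `S` in the frame at `z` -/
theorem Nb.exists_flatS {z : ℂ} (hz : z ∈ X) : ∃ U, M.toFB.Nb z U ∧
    ∀ y ∈ U, ∀ u v, M.S z (M.P z y u) (M.P z y v) = M.S y u v := by
  obtain ⟨U, h1, h2⟩ := M.exists_nb_sub hz (M.flatS z hz)
  exact ⟨U, h1, fun y hy => h2 hy⟩

/-- `∂ S(φ, ψ) = S(∂̄ φ, ψ) + S(φ, ∂ ψ)` -/
theorem dW_S {φ ψ : ℂ → V} (hφ : M.Sm φ) (hψ : M.Sm ψ) {z : ℂ} (hz : z ∈ X) :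
    dW (fun y => M.S y (φ y) (ψ y)) 1 z = M.S z (M.d2 φ z) (ψ z) + M.S z (φ z) (M.d1 ψ z) := by
  have : (fun y => M.S y (φ y) (ψ y)) =ᶠ[𝓝 z] fun y => M.S z (M.tr z φ y) (M.tr z ψ y) := by
    filter_upwards [M.flatS z hz] with y hy
    rw [FB.tr, FB.tr, hy]
  rw [dW_congr this, FB.dW_sesq (M.S z) ((hφ z hz).differentiableAt (by simp))
    ((hψ z hz).differentiableAt (by simp)), FB.tr_self hz, FB.tr_self hz]
  rfl

/-- `∂̄ S(φ, ψ) = S(∂ φ, ψ) + S(φ, ∂̄ ψ)` -/
theorem dB_S {φ ψ : ℂ → V} (hφ : M.Sm φ) (hψ : M.Sm ψ) {z : ℂ} (hz : z ∈ X) :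
    dB (fun y => M.S y (φ y) (ψ y)) 1 z = M.S z (M.d1 φ z) (ψ z) + M.S z (φ z) (M.d2 ψ z) := by
  have : (fun y => M.S y (φ y) (ψ y)) =ᶠ[𝓝 z] fun y => M.S z (M.tr z φ y) (M.tr z ψ y) := by
    filter_upwards [M.flatS z hz] with y hy
    rw [FB.tr, FB.tr, hy]
  rw [dB_congr this, FB.dB_sesq (M.S z) ((hφ z hz).differentiableAt (by simp))
    ((hψ z hz).differentiableAt (by simp)), FB.tr_self hz, FB.tr_self hz]
  rfl

/-- real bilinear version of a sesquilinear form -/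
noncomputable def realB (B : V →L⋆[ℂ] V →L[ℂ] ℂ) : V →L[ℝ] V →L[ℝ] ℂ :=
  LinearMap.mkContinuous₂
    ({ toFun := fun u => ((B u).restrictScalars ℝ).toLinearMap
       map_add' := by intro a b; ext c; simp
       map_smul' := by
        intro r a
        ext c
        have h1 : B (r • a) = (r : ℂ) • B a := by
          rw [← Complex.coe_smul r a, map_smulₛₗ, Complex.conj_ofReal]
        simp [h1] } : V →ₗ[ℝ] V →ₗ[ℝ] ℂ) ‖B‖
    (fun u v => B.le_opNorm₂ u v)

@[simp] theorem realB_apply (B : V →L⋆[ℂ] V →L[ℂ] ℂ) (u v : V) : realB B u v = B u v := rfl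

theorem sm_S {φ ψ : ℂ → V} (hφ : M.Sm φ) (hψ : M.Sm ψ) {z : ℂ} (hz : z ∈ X) :
    ContDiffAt ℝ ∞ (fun y => M.S y (φ y) (ψ y)) z := by
  have h1 : ContDiffAt ℝ ∞ (fun y => realB (M.S z) (M.tr z φ y) (M.tr z ψ y)) z :=
    ((realB (M.S z)).contDiff.contDiffAt.comp z (hφ z hz)).clm_apply (hψ z hz)
  refine h1.congr_of_eventuallyEq ?_
  filter_upwards [M.flatS z hz] with y hy
  rw [FB.tr, FB.tr, realB_apply, hy]

theorem nondeg {z : ℂ} (hz : z ∈ X) {v : V} (h : ∀ u, M.S z u v = 0) : v = 0 := by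
  by_contra hne
  have h1 := M.pos z hz v hne
  rw [h] at h1
  simp at h1

/-- adjoint of a derivative -/
theorem adj_D {A B : ℂ → (V →L[ℂ] V)} (hA : M.SmO A) (hB : M.SmO B)
    (h : ∀ z ∈ X, ∀ u v, M.S z (A z u) v = M.S z u (B z v)) {z : ℂ} (hz : z ∈ X) (u v : V) :
    M.S z (M.D2 A z u) v = M.S z u (M.D1 B z v) := by
  obtain ⟨U, hU, hS⟩ := Nb.exists_flatS (M := M) hz
  have key : (fun y => M.S z (M.trO z A y u) v) =ᶠ[𝓝 z] fun y => M.S z u (M.trO z B y v) := by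
    filter_upwards [hU.op.mem_nhds hU.mem] with y hy
    have e1 : M.trO z A y u = M.P z y (A y (M.P y z u)) := rfl
    have e2 : M.trO z B y v = M.P z y (B y (M.P y z v)) := rfl
    have h1 := hS y hy (A y (M.P y z u)) (M.P y z v)
    have h2 := hS y hy (M.P y z u) (B y (M.P y z v))
    rw [hU.inv_apply hU.mem hy] at h1 h2
    rw [e1, e2, h1, h2, h y (hU.sub hy)]
  have h1 := dW_congr key 1
  have dA : DifferentiableAt ℝ (fun y => M.trO z A y u) z := by
    have := ((hA z hz).differentiableAt (by simp) : DifferentiableAt ℝ (M.trO z A) z)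
    exact ((ContinuousLinearMap.apply ℂ V u).restrictScalars ℝ).differentiableAt.comp z this
  have dB' : DifferentiableAt ℝ (fun y => M.trO z B y v) z := by
    have := ((hB z hz).differentiableAt (by simp) : DifferentiableAt ℝ (M.trO z B) z)
    exact ((ContinuousLinearMap.apply ℂ V v).restrictScalars ℝ).differentiableAt.comp z this
  rw [FB.dW_sesq (M.S z) (f := fun y => M.trO z A y u) (g := fun _ => v) dA
      (differentiableAt_const _),
    FB.dW_sesq (M.S z) (f := fun _ => u) (g := fun y => M.trO z B y v)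
      (differentiableAt_const _) dB'] at h1
  simp only [dW_const, dB_const, map_zero, zero_apply, add_zero, zero_add] at h1
  have e1 : dB (fun y => M.trO z A y u) 1 z = M.D2 A z u :=
    dB_clm (ContinuousLinearMap.apply ℂ V u) ((hA z hz).differentiableAt (by simp)) 1
  have e2 : dW (fun y => M.trO z B y v) 1 z = M.D1 B z v :=
    dW_clm (ContinuousLinearMap.apply ℂ V v) ((hB z hz).differentiableAt (by simp)) 1
  rw [e1, e2] at h1
  exact h1

/-- `θ*` is minus the `S`-adjoint of `θ` -/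
theorem S_ths {z : ℂ} (hz : z ∈ X) (u v : V) : M.S z (M.ths z u) v = - M.S z u (M.th z v) := by
  unfold ths th
  rw [neg_apply, map_neg, neg_apply, M.adj_D M.smE M.smE M.sa hz]

theorem S_th {z : ℂ} (hz : z ∈ X) (u v : V) : M.S z (M.th z u) v = - M.S z u (M.ths z v) := by
  rw [← M.hermS z hz v, ← neg_eq_iff_eq_neg, ← map_neg, ← M.S_ths hz, M.hermS z hz]

/-- `θ*` raises the type -/
theorem hi_ths {z : ℂ} (hz : z ∈ X) : Hi (M.E z) (M.ths z) := by
  unfold Hi
  ext v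
  rw [← sub_eq_zero]
  refine M.nondeg hz fun u => ?_
  have h := M.lo_th hz
  unfold Lo at h
  have h1 : M.S z ((M.E z * M.th z - M.th z * M.E z + M.th z) u) v = 0 := by
    rw [h]; simp
  simp only [sub_apply, add_apply, mul_apply_eq_comp, map_sub, map_add] at h1 ⊢
  have e1 : M.S z u (M.E z (M.ths z v)) = - M.S z (M.th z (M.E z u)) v := by
    rw [← M.sa z hz, M.S_th hz, neg_neg]
  have e2 : M.S z u (M.ths z (M.E z v)) = - M.S z (M.E z (M.th z u)) v := by
    rw [M.sa z hz, M.S_th hz, neg_neg]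
  have e3 : M.S z u (M.ths z v) = - M.S z (M.th z u) v := by
    rw [M.S_th hz, neg_neg]
  rw [e1, e2, e3, ← h1]
  ring

theorem D1_E {z : ℂ} (hz : z ∈ X) : M.D1 M.E z = M.th z * M.E z - M.E z * M.th z := by
  have h := M.lo_th hz
  unfold Lo at h
  rw [← neg_sub, h, neg_neg]
  rfl

theorem D2_E {z : ℂ} (hz : z ∈ X) : M.D2 M.E z = M.ths z * M.E z - M.E z * M.ths z := by
  have h := M.hi_ths hz
  unfold Hi at h
  rw [← neg_sub, h]
  unfold ths
  rw [neg_neg]

theorem D1_P (p : ℕ) {z : ℂ} (hz : z ∈ X) :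
    M.D1 (M.Pf p) z = M.th z * M.Pf p z - M.Pf p z * M.th z :=
  FB.D1_aeval M.smE hz (M.D1_E hz) _

theorem D2_P (p : ℕ) {z : ℂ} (hz : z ∈ X) :
    M.D2 (M.Pf p) z = M.ths z * M.Pf p z - M.Pf p z * M.ths z :=
  FB.D2_aeval M.smE hz (M.D2_E hz) _

/-- the Weil operator as a polynomial in `E` -/
theorem Jf_eq (z : ℂ) : M.Jf z = Polynomial.aeval (M.E z)
    (∑ p ∈ Finset.range (w + 1), Polynomial.C ((-1 : ℂ) ^ p) * lag w p) := by
  unfold Jf J pr
  rw [map_sum]
  refine Finset.sum_congr rfl fun p _ => ?_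
  rw [map_mul, Polynomial.aeval_C, Algebra.smul_def]





/-- eigenspaces are `S`-orthogonal -/
theorem S_pr_pr {z : ℂ} (hz : z ∈ X) {p q : ℕ} (hpq : p ≠ q) (u v : V) :
    M.S z (M.Pf p z u) (M.Pf q z v) = 0 := by
  have h1 : M.E z (M.Pf p z u) = (p : ℂ) • M.Pf p z u := by
    exact congrArg (fun T : V →L[ℂ] V => T u) (T_mul_pr (M.sp z hz) p)
  have h2 : M.E z (M.Pf q z v) = (q : ℂ) • M.Pf q z v := by
    exact congrArg (fun T : V →L[ℂ] V => T v) (T_mul_pr (M.sp z hz) q)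
  have h3 := M.sa z hz (M.Pf p z u) (M.Pf q z v)
  rw [h1, h2, map_smulₛₗ, map_smul, smul_apply, smul_eq_mul, smul_eq_mul, Complex.conj_natCast] at h3
  have h4 : ((p : ℂ) - q) * M.S z (M.Pf p z u) (M.Pf q z v) = 0 := by
    rw [sub_mul, h3, sub_self]
  rcases mul_eq_zero.1 h4 with h | h
  · rw [sub_eq_zero] at h
    exact absurd (by exact_mod_cast h) hpq
  · exact h

theorem sum_Pf {z : ℂ} (hz : z ∈ X) (v : V) :
    ∑ p ∈ Finset.range (w + 1), M.Pf p z v = v := by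
  have := congrArg (fun T : V →L[ℂ] V => T v) (sum_pr (M.sp z hz))
  simp only [ContinuousLinearMap.sum_apply] at this
  exact this

theorem S_pr_left {z : ℂ} (hz : z ∈ X) (p : ℕ) (u v : V) :
    M.S z (M.Pf p z u) v = M.S z (M.Pf p z u) (M.Pf p z v) := by
  by_cases hp : p ≤ w
  · conv_lhs => rw [← M.sum_Pf hz v]
    rw [map_sum, Finset.sum_eq_single p]
    · intro b _ hb
      exact M.S_pr_pr hz (Ne.symm hb) u v
    · intro h
      exact absurd (Finset.mem_range.2 (by omega)) h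
  · have : M.Pf p z = 0 := pr_gt (by omega) _
    rw [this]; simp

theorem S_pr_right {z : ℂ} (hz : z ∈ X) (p : ℕ) (u v : V) :
    M.S z u (M.Pf p z v) = M.S z (M.Pf p z u) (M.Pf p z v) := by
  rw [← M.hermS z hz, M.S_pr_left hz, M.hermS z hz]

/-- the projectors are `S`-selfadjoint -/
theorem S_P {z : ℂ} (hz : z ∈ X) (p : ℕ) (u v : V) :
    M.S z (M.Pf p z u) v = M.S z u (M.Pf p z v) := by
  rw [M.S_pr_left hz p u v, M.S_pr_right hz p u v]

/-- the Weil operator is `S`-selfadjoint -/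
theorem S_J {z : ℂ} (hz : z ∈ X) (u v : V) : M.S z (M.Jf z u) v = M.S z u (M.Jf z v) := by
  unfold Jf J
  simp only [ContinuousLinearMap.sum_apply, smul_apply, map_sum, map_smul, map_smulₛₗ]
  refine Finset.sum_congr rfl fun p _ => ?_
  have := M.S_P hz p u v
  unfold Pf at this
  rw [this]
  simp

theorem JJ {z : ℂ} (hz : z ∈ X) (u : V) : M.Jf z (M.Jf z u) = u := by
  exact congrArg (fun T : V →L[ℂ] V => T u) (J_mul_J (M.sp z hz))

/-- the Hodge metric -/
noncomputable def Gf (z : ℂ) : V →L⋆[ℂ] V →L[ℂ] ℂ := (M.S z).comp (M.Jf z)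

theorem Gf_apply (z : ℂ) (u v : V) : M.Gf z u v = M.S z (M.Jf z u) v := rfl

theorem G_J {z : ℂ} (hz : z ∈ X) (u v : V) : M.Gf z (M.Jf z u) v = M.S z u v := by
  rw [Gf_apply, M.JJ hz]

theorem G_herm {z : ℂ} (hz : z ∈ X) (u v : V) :
    (starRingEnd ℂ) (M.Gf z u v) = M.Gf z v u := by
  rw [Gf_apply, Gf_apply, M.hermS z hz, M.S_J hz]

theorem G_adj_J {z : ℂ} (hz : z ∈ X) (u v : V) : M.Gf z (M.Jf z u) v = M.Gf z u (M.Jf z v) := by
  rw [Gf_apply, Gf_apply, M.JJ hz, ← M.S_J hz, M.JJ hz]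

theorem G_P {z : ℂ} (hz : z ∈ X) (p : ℕ) (u v : V) :
    M.Gf z (M.Pf p z u) v = M.Gf z u (M.Pf p z v) := by
  rw [Gf_apply, Gf_apply]
  have h1 : M.Jf z (M.Pf p z u) = M.Pf p z (M.Jf z u) := by
    have e : M.Jf z * M.Pf p z = M.Pf p z * M.Jf z :=
      (J_mul_pr (M.sp z hz) p).trans (pr_mul_J (M.sp z hz) p).symm
    exact congrArg (fun T : V →L[ℂ] V => T u) e
  rw [h1, M.S_P hz]


theorem G_pos {z : ℂ} (hz : z ∈ X) {u : V} (hu : u ≠ 0) : 0 < (M.Gf z u u).re :=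
  M.pos z hz u hu

theorem sm_G {φ ψ : ℂ → V} (hφ : M.Sm φ) (hψ : M.Sm ψ) {z : ℂ} (hz : z ∈ X) :
    ContDiffAt ℝ ∞ (fun y => M.Gf y (φ y) (ψ y)) z :=
  M.sm_S (FB.Sm.app M.smJ hφ) hψ hz

end PV

end Crest.Agent.R276.IpcG1_975
end

-- ▼ part R276/IpcMB_975
section

/-!
# R276, IPC fixed-s assembly (helper975), part 5: the metric bundles of a polarised variation

`M.mb : MB V X` (sections) and `M.mb2 : MB (V × V) X` (one-forms `a dx + b dx̄`).
-/

set_option autoImplicit false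

open Set Filter Topology MeasureTheory UniformSpace
open scoped ContDiff ComplexConjugate

namespace Crest.Agent.R276.IpcG1_975

open VCalc_442 IpcGr_975

section bd

variable {V : Type*} [NormedAddCommGroup V] [NormedSpace ℂ V]

/-- a positive definite form on a finite dimensional space dominates the square of the norm -/
theorem exists_lower [FiniteDimensional ℂ V] (B : V →L⋆[ℂ] V →L[ℂ] ℂ)
    (h : ∀ u, u ≠ 0 → 0 < (B u u).re) : ∃ c : ℝ, 0 < c ∧ ∀ u, c * ‖u‖ ^ 2 ≤ (B u u).re := by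
  haveI : ProperSpace V := FiniteDimensional.proper ℂ V
  have hcont : Continuous fun u : V => (B u u).re :=
    Complex.continuous_re.comp (B.continuous.clm_apply continuous_id)
  by_cases hne : (Metric.sphere (0 : V) 1).Nonempty
  · obtain ⟨u0, hu0, hmin⟩ := (isCompact_sphere (0 : V) 1).exists_isMinOn hne hcont.continuousOn
    have hu0n : ‖u0‖ = 1 := by simpa using hu0
    have hu00 : u0 ≠ 0 := by
      intro h0
      rw [h0, norm_zero] at hu0n
      exact zero_ne_one hu0n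
    refine ⟨(B u0 u0).re, h u0 hu00, fun u => ?_⟩
    by_cases hu : u = 0
    · simp [hu]
    · have hn : 0 < ‖u‖ := norm_pos_iff.2 hu
      have h1 : ((‖u‖ : ℂ)⁻¹ • u) ∈ Metric.sphere (0 : V) 1 := by
        rw [mem_sphere_zero_iff_norm, norm_smul, norm_inv, Complex.norm_real, norm_norm,
          inv_mul_cancel₀ hn.ne']
      have h2 := hmin h1
      simp only [mem_ofPred_eq] at h2
      rw [map_smul, map_smulₛₗ, smul_apply, smul_eq_mul, smul_eq_mul, map_inv₀,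
        Complex.conj_ofReal, ← mul_assoc] at h2
      have h3 : ((‖u‖ : ℂ)⁻¹ * (‖u‖ : ℂ)⁻¹ * B u u).re = (‖u‖ ^ 2)⁻¹ * (B u u).re := by
        have : ((‖u‖ : ℂ)⁻¹ * (‖u‖ : ℂ)⁻¹) = (((‖u‖ ^ 2)⁻¹ : ℝ) : ℂ) := by
          push_cast
          rw [sq, mul_inv]
        rw [this, Complex.re_ofReal_mul]
      rw [h3] at h2
      rwa [mul_comm, ← le_inv_mul_iff₀ (by positivity)]
  · refine ⟨1, one_pos, fun u => ?_⟩
    have hu : u = 0 := by
      by_contra hu
      apply hne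
      have hn : 0 < ‖u‖ := norm_pos_iff.2 hu
      refine ⟨(‖u‖ : ℂ)⁻¹ • u, ?_⟩
      rw [mem_sphere_zero_iff_norm, norm_smul, norm_inv, Complex.norm_real, norm_norm,
        inv_mul_cancel₀ hn.ne']
    simp [hu]

end bd

namespace PV

variable {V : Type*} [NormedAddCommGroup V] [NormedSpace ℂ V] {X : Set ℂ} {w : ℕ} (M : PV V X w)

theorem bd [FiniteDimensional ℂ V] {z : ℂ} (hz : z ∈ X) : ∃ C : ℝ, 0 < C ∧ ∀ᶠ y in 𝓝 z, ∀ u,
    ‖M.P z y u‖ ^ 2 ≤ C * (M.Gf y u u).re ∧ (M.Gf y u u).re ≤ C * ‖M.P z y u‖ ^ 2 := by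
  obtain ⟨c, hc, hlow⟩ := exists_lower (M.Gf z) (fun u hu => M.G_pos hz hu)
  obtain ⟨U, hU, hS⟩ := Nb.exists_flatS (M := M) hz
  set s := ‖M.S z‖ with hs
  have hs0 : 0 ≤ s := by rw [hs]; exact norm_nonneg (M.S z)
  have hcont : ContinuousAt (M.trO z M.Jf) z :=
    ((M.smJ z hz).continuousAt)
  have h1 : ∀ᶠ y in 𝓝 z, ‖M.trO z M.Jf y - M.trO z M.Jf z‖ < c / (2 * (s + 1)) := by
    have := Metric.continuousAt_iff'.1 hcont (c / (2 * (s + 1))) (by positivity)
    simpa [dist_eq_norm] using this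
  set C := 2 / c + (s * (‖M.Jf z‖ + c / (2 * (s + 1)))) + 1 with hC
  have hCpos : 0 < C := by positivity
  refine ⟨C, hCpos, ?_⟩
  filter_upwards [h1, hU.op.mem_nhds hU.mem] with y hy hyU u
  set u' := M.P z y u with hu'
  have hG : M.Gf y u u = M.S z (M.trO z M.Jf y u') u' := by
    have e1 : M.trO z M.Jf y u' = M.P z y (M.Jf y (M.P y z u')) := rfl
    rw [e1, hu', hU.inv_apply hyU hU.mem, hS y hyU]
    rfl
  rw [FB.trO_self hz] at hy
  have hd : ‖M.S z (M.trO z M.Jf y u' - M.Jf z u') u'‖ ≤ s * (c / (2 * (s + 1))) * ‖u'‖ ^ 2 := by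
    have h2 : ‖M.S z (M.trO z M.Jf y u' - M.Jf z u') u'‖ ≤
        s * ‖M.trO z M.Jf y u' - M.Jf z u'‖ * ‖u'‖ := (M.S z).le_opNorm₂ _ _
    have h3 : ‖M.trO z M.Jf y u' - M.Jf z u'‖ ≤ c / (2 * (s + 1)) * ‖u'‖ := by
      have : M.trO z M.Jf y u' - M.Jf z u' = (M.trO z M.Jf y - M.Jf z) u' := rfl
      rw [this]
      exact ((M.trO z M.Jf y - M.Jf z).le_opNorm u').trans
        (mul_le_mul_of_nonneg_right hy.le (norm_nonneg _))
    calc _ ≤ s * ‖M.trO z M.Jf y u' - M.Jf z u'‖ * ‖u'‖ := h2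
      _ ≤ s * (c / (2 * (s + 1)) * ‖u'‖) * ‖u'‖ := by gcongr
      _ = _ := by ring
  have hsmall : s * (c / (2 * (s + 1))) ≤ c / 2 := by
    rw [mul_div_assoc', div_le_div_iff₀ (by positivity) (by positivity)]
    nlinarith
  have e2 : M.Gf y u u = M.Gf z u' u' + M.S z (M.trO z M.Jf y u' - M.Jf z u') u' := by
    rw [hG, Gf_apply, map_sub, sub_apply]; ring
  have hre : |(M.S z (M.trO z M.Jf y u' - M.Jf z u') u').re| ≤ c / 2 * ‖u'‖ ^ 2 :=
    (Complex.abs_re_le_norm _).trans (hd.trans (by gcongr))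
  have hlow' := hlow u'
  constructor
  · have h4 : c / 2 * ‖u'‖ ^ 2 ≤ (M.Gf y u u).re := by
      rw [e2, Complex.add_re]
      have := (abs_le.1 hre).1
      linarith
    have h5 : ‖u'‖ ^ 2 ≤ 2 / c * (M.Gf y u u).re := by
      rw [div_mul_eq_mul_div, le_div_iff₀ hc]
      linarith
    have h6 : 0 ≤ (M.Gf y u u).re := le_trans (by positivity) h4
    calc ‖u'‖ ^ 2 ≤ 2 / c * (M.Gf y u u).re := h5
      _ ≤ C * (M.Gf y u u).re := by
          apply mul_le_mul_of_nonneg_right _ h6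
          rw [hC]
          have : 0 ≤ (s * (‖M.Jf z‖ + c / (2 * (s + 1)))) := by positivity
          linarith
  · have h7 : ‖M.trO z M.Jf y‖ ≤ ‖M.Jf z‖ + c / (2 * (s + 1)) := by
      have := norm_add_le (M.Jf z) (M.trO z M.Jf y - M.Jf z)
      rw [add_sub_cancel] at this
      linarith
    have h8 : (M.Gf y u u).re ≤ s * (‖M.Jf z‖ + c / (2 * (s + 1))) * ‖u'‖ ^ 2 := by
      rw [hG]
      calc (M.S z (M.trO z M.Jf y u') u').re ≤ ‖M.S z (M.trO z M.Jf y u') u'‖ :=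
            Complex.re_le_norm _
        _ ≤ s * ‖M.trO z M.Jf y u'‖ * ‖u'‖ := (M.S z).le_opNorm₂ _ _
        _ ≤ s * ((‖M.Jf z‖ + c / (2 * (s + 1))) * ‖u'‖) * ‖u'‖ := by
            gcongr
            exact ((M.trO z M.Jf y).le_opNorm u').trans
              (mul_le_mul_of_nonneg_right h7 (norm_nonneg _))
        _ = _ := by ring
    refine h8.trans ?_
    apply mul_le_mul_of_nonneg_right _ (by positivity)
    rw [hC]
    have : 0 ≤ 2 / c := by positivity
    linarith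

/-- the metric bundle -/
@[reducible] noncomputable def mb [FiniteDimensional ℂ V] : MB V X where
  toFB := M.toFB
  G := M.Gf
  herm := fun _ hz => M.G_herm hz
  smG := fun _ _ hφ hψ _ hz => M.sm_G hφ hψ hz
  bd := fun _ hz => M.bd hz

end PV

end Crest.Agent.R276.IpcG1_975
end

-- ▼ part R276/IpcDb_975
section

/-!
# R276, IPC fixed-s assembly (helper975), part 6: one-forms, the operators of type, `Ex` and `Zc`
-/

set_option autoImplicit false

open Set Filter Topology MeasureTheory UniformSpace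
open scoped ContDiff ComplexConjugate

namespace Crest.Agent.R276.IpcG1_975

open VCalc_442 IpcGr_975

variable {V : Type*} [NormedAddCommGroup V] [NormedSpace ℂ V] {X : Set ℂ}

/-- `(u, v) ↦ B(u₁, v₁) + B'(u₂, v₂)` -/
noncomputable def dblB (B B' : V →L⋆[ℂ] V →L[ℂ] ℂ) : (V × V) →L⋆[ℂ] (V × V) →L[ℂ] ℂ :=
  ((ContinuousLinearMap.compL ℂ (V × V) V ℂ).flip (ContinuousLinearMap.fst ℂ V V)).comp
      (B.comp (ContinuousLinearMap.fst ℂ V V)) +
  ((ContinuousLinearMap.compL ℂ (V × V) V ℂ).flip (ContinuousLinearMap.snd ℂ V V)).comp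
      (B'.comp (ContinuousLinearMap.snd ℂ V V))

@[simp] theorem dblB_apply (B B' : V →L⋆[ℂ] V →L[ℂ] ℂ) (u v : V × V) :
    dblB B B' u v = B u.1 v.1 + B' u.2 v.2 := rfl

namespace FB

/-- the flat bundle of one-forms (in the frame `dx`, `dx̄`) -/
noncomputable def dbl (F : FB V X) : FB (V × V) X where
  P x y := (F.P x y).prodMap (F.P x y)
  op := F.op
  ndc := by
    intro z hz
    obtain ⟨U, hU, h⟩ := F.ndc z hz
    refine ⟨U, hU, fun x hx y hy v hv => ?_⟩
    have h1 := h x hx y hy v hv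
    ext u
    · exact congrArg (fun T : V →L[ℂ] V => T u) h1
    · simp
    · simp
    · exact congrArg (fun T : V →L[ℂ] V => T u) h1
  one := by
    intro z hz
    have h1 := F.one z hz
    ext u <;> simp [h1]

variable {F : FB V X}



theorem sm_dbl {φ : ℂ → V × V} : F.dbl.Sm φ ↔ F.Sm (fun x => (φ x).1) ∧ F.Sm (fun x => (φ x).2) := by
  constructor
  · intro h
    exact ⟨fun z hz => (h z hz).fst, fun z hz => (h z hz).snd⟩
  · rintro ⟨h1, h2⟩ z hz
    exact (h1 z hz).prodMk (h2 z hz)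

theorem mem_dbl_A0 {φ : ℂ → V × V} :
    φ ∈ F.dbl.A0 ↔ (fun x => (φ x).1) ∈ F.A0 ∧ (fun x => (φ x).2) ∈ F.A0 := by
  constructor
  · rintro ⟨h1, K, hK, hKc, h0⟩
    have h2 := sm_dbl.1 h1
    exact ⟨⟨h2.1, K, hK, hKc, fun x hx => by simp [h0 x hx]⟩,
      ⟨h2.2, K, hK, hKc, fun x hx => by simp [h0 x hx]⟩⟩
  · rintro ⟨⟨h1, K, hK, hKc, h0⟩, ⟨h2, K', hK', hKc', h0'⟩⟩
    refine ⟨sm_dbl.2 ⟨h1, h2⟩, K ∪ K', union_subset hK hK', hKc.union hKc', fun x hx => ?_⟩
    exact Prod.ext (h0 x fun h => hx (Or.inl h)) (h0' x fun h => hx (Or.inr h))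

/-- `D φ = (∂ φ, ∂̄ φ)` -/
noncomputable def Df (F : FB V X) (φ : ℂ → V) (z : ℂ) : V × V := (F.d1 φ z, F.d2 φ z)

theorem Df_mem {φ : ℂ → V} (h : φ ∈ F.A0) : F.Df φ ∈ F.dbl.A0 :=
  mem_dbl_A0.2 ⟨d1_mem h, d2_mem h⟩

/-- diagonal operator field -/
noncomputable def dg (A B : ℂ → (V →L[ℂ] V)) (z : ℂ) : V × V →L[ℂ] V × V := (A z).prodMap (B z)

@[simp] theorem dg_apply (A B : ℂ → (V →L[ℂ] V)) (z : ℂ) (u : V × V) :
    dg A B z u = (A z u.1, B z u.2) := rfl

theorem smO_dg {A B : ℂ → (V →L[ℂ] V)} (hA : F.SmO A) (hB : F.SmO B) : F.dbl.SmO (dg A B) := by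
  intro z hz
  have h1 : F.dbl.trO z (dg A B) = fun y => (F.trO z A y).prodMap (F.trO z B y) := by
    funext y
    ext u <;> simp [trO, dg, dbl]
  rw [h1]
  have h2 : ∀ y, (F.trO z A y).prodMap (F.trO z B y) =
      (ContinuousLinearMap.prodMapL ℂ V V V V) (F.trO z A y, F.trO z B y) := fun y => rfl
  simp only [h2]
  exact ((ContinuousLinearMap.prodMapL ℂ V V V V).restrictScalars ℝ).contDiff.contDiffAt.comp z
    ((hA z hz).prodMk (hB z hz))

theorem d2_d1 {φ : ℂ → V} (hφ : F.Sm φ) {z : ℂ} (hz : z ∈ X) :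
    F.d2 (F.d1 φ) z = F.d1 (F.d2 φ) z := by
  obtain ⟨U, hU⟩ := F.exists_nb hz
  have h1 : F.tr z (F.d1 φ) =ᶠ[𝓝 z] fun y => dW (F.tr z φ) 1 y := by
    filter_upwards [hU.op.mem_nhds hU.mem] with y hy
    exact hU.tr_d1 hφ hy
  have h2 : F.tr z (F.d2 φ) =ᶠ[𝓝 z] fun y => dB (F.tr z φ) 1 y := by
    filter_upwards [hU.op.mem_nhds hU.mem] with y hy
    exact hU.tr_d2 hφ hy
  have e1 : F.d2 (F.d1 φ) z = dB (fun y => dW (F.tr z φ) 1 y) 1 z := dB_congr h1 1
  have e2 : F.d1 (F.d2 φ) z = dW (fun y => dB (F.tr z φ) 1 y) 1 z := dW_congr h2 1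
  rw [e1, e2]
  exact (dW_dB ((hφ z hz).of_le ENat.LEInfty.out) 1 1).symm

end FB

namespace MB

/-- the metric bundle of one-forms -/
@[reducible] noncomputable def dbl (M : MB V X) : MB (V × V) X where
  toFB := M.toFB.dbl
  G z := dblB (M.G z) (M.G z)
  herm z hz u v := by
    rw [dblB_apply, dblB_apply, map_add, M.herm z hz, M.herm z hz]
  smG φ ψ hφ hψ z hz := by
    simp only [dblB_apply]
    have h1 := FB.sm_dbl.1 hφ
    have h2 := FB.sm_dbl.1 hψ
    exact (M.smG _ _ h1.1 h2.1 z hz).add (M.smG _ _ h1.2 h2.2 z hz)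
  bd z hz := by
    obtain ⟨C, hC, h⟩ := M.bd z hz
    refine ⟨2 * C, by positivity, ?_⟩
    filter_upwards [h] with y hy u
    obtain ⟨a1, a2⟩ := hy u.1
    obtain ⟨b1, b2⟩ := hy u.2
    have e1 : ‖M.toFB.dbl.P z y u‖ = max ‖M.P z y u.1‖ ‖M.P z y u.2‖ := rfl
    rw [e1, dblB_apply, Complex.add_re]
    have g1 : 0 ≤ (M.G y u.1 u.1).re := by
      by_contra hcon
      push Not at hcon
      nlinarith [sq_nonneg ‖M.P z y u.1‖]
    have g2 : 0 ≤ (M.G y u.2 u.2).re := by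
      by_contra hcon
      push Not at hcon
      nlinarith [sq_nonneg ‖M.P z y u.2‖]
    constructor
    · rcases max_cases ‖M.P z y u.1‖ ‖M.P z y u.2‖ with ⟨h1, _⟩ | ⟨h1, _⟩
      · rw [h1]; nlinarith
      · rw [h1]; nlinarith
    · have h1 : ‖M.P z y u.1‖ ^ 2 ≤ (max ‖M.P z y u.1‖ ‖M.P z y u.2‖) ^ 2 := by
        gcongr; exact le_max_left _ _
      have h2 : ‖M.P z y u.2‖ ^ 2 ≤ (max ‖M.P z y u.1‖ ‖M.P z y u.2‖) ^ 2 := by
        gcongr; exact le_max_right _ _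
      nlinarith


end MB

end Crest.Agent.R276.IpcG1_975
end

-- ▼ part R276/IpcTy_975
section

/-!
# R276, IPC fixed-s assembly (helper975), part 7: the operators of type on the L² space of forms
-/

set_option autoImplicit false

open Set Filter Topology MeasureTheory UniformSpace
open scoped ContDiff ComplexConjugate

namespace Crest.Agent.R276.IpcG1_975

open VCalc_442 IpcGr_975

variable {V : Type*} [NormedAddCommGroup V] [NormedSpace ℂ V] {X : Set ℂ}

namespace MB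

variable (M : MB V X)

theorem ok_one : M.Ok (fun _ => 1) :=
  ⟨FB.SmO.one, 1, zero_le_one, fun x _ u => by simp⟩

theorem ok_zero : M.Ok (fun _ => 0) :=
  ⟨FB.SmO.zero, 0, le_rfl, fun x _ u => by simp⟩

theorem opL_one (u : M.L2) : M.opL (fun _ => 1) u = u := by
  refine M.dense_ext (f := fun u => M.opL (fun _ => 1) u) (g := fun u => u)
    (M.opL _).continuous continuous_id (fun φ => ?_) u
  rw [M.op_coe M.ok_one]
  rfl

theorem opL_zero (u : M.L2) : M.opL (fun _ => 0) u = 0 := by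
  refine M.dense_ext (f := fun u => M.opL (fun _ => 0) u) (g := fun _ => 0)
    (M.opL _).continuous continuous_const (fun φ => ?_) u
  rw [M.op_coe M.ok_zero, ← Completion.coe_zero]
  rfl

/-- the section of a sum -/
theorem sum_f {κ : Type*} (s : Finset κ) (φ : κ → M.H0) (z : ℂ) :
    (∑ k ∈ s, φ k).f z = ∑ k ∈ s, (φ k).f z := by
  classical
  induction s using Finset.induction_on with
  | empty => simp
  | insert a s ha ih =>
    rw [Finset.sum_insert ha, Finset.sum_insert ha, add_f]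
    simp only
    rw [ih]

theorem f_eq_zero (φ : M.H0) {x : ℂ} (hx : x ∉ X) : φ.f x = 0 := by
  obtain ⟨K, hK, -, h0⟩ := φ.mem.2
  exact h0 x (fun h => hx (hK h))

theorem coe_sum {κ : Type*} (s : Finset κ) (φ : κ → M.H0) :
    ((∑ k ∈ s, φ k : M.H0) : M.L2) = ∑ k ∈ s, (φ k : M.L2) := by
  classical
  induction s using Finset.induction_on with
  | empty =>
    rw [Finset.sum_empty, Finset.sum_empty]
    exact Completion.coe_zero
  | insert a s ha ih => rw [Finset.sum_insert ha, Finset.sum_insert ha, Completion.coe_add, ih]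

theorem sum_opL {κ : Type*} (s : Finset κ) (c : κ → ℂ) {A : κ → ℂ → (V →L[ℂ] V)}
    (hA : ∀ k ∈ s, M.Ok (A k)) {B : ℂ → (V →L[ℂ] V)} (hB : M.Ok B)
    (h : ∀ x ∈ X, ∑ k ∈ s, c k • A k x = B x) (u : M.L2) :
    ∑ k ∈ s, c k • M.opL (A k) u = M.opL B u := by
  refine M.dense_ext (f := fun u => ∑ k ∈ s, c k • M.opL (A k) u) (g := fun u => M.opL B u)
    (continuous_finsetSum _ fun k _ => (M.opL (A k)).continuous.const_smul (c k))
    (M.opL _).continuous (fun φ => ?_) u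
  rw [M.op_coe hB]
  have h1 : ∀ k ∈ s, c k • M.opL (A k) (φ : M.L2) = ((c k • M.opL (A k) (φ : M.L2)) : M.L2) :=
    fun _ _ => rfl
  have h2 : ∀ k : s, ∃ ψ : M.H0, c k • M.opL (A k) (φ : M.L2) = (ψ : M.L2) ∧
      ∀ z, ψ.f z = c k • A k z (φ.f z) := by
    intro k
    refine ⟨c k • M.s0 _ (FB.app_mem_A0 (hA k k.2).1 φ.mem), ?_, fun z => rfl⟩
    rw [M.op_coe (hA k k.2), ← Completion.coe_smul]
  choose ψ hψ hψ2 using h2
  rw [← Finset.sum_coe_sort, Finset.sum_congr rfl (fun k _ => hψ k), ← M.coe_sum]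
  congr 1
  refine H0.ext ?_
  funext z
  rw [M.sum_f, s0_f, Finset.sum_congr rfl (fun k _ => hψ2 k z),
    Finset.sum_coe_sort s (fun k => c k • A k z (φ.f z))]
  by_cases hz : z ∈ X
  · rw [← h z hz]
    simp [ContinuousLinearMap.sum_apply]
  · simp [M.f_eq_zero φ hz]

end MB

namespace PV

variable {w : ℕ} (M : PV V X w)

/-- projector on the type `p - 1` part (`0` if `p = 0`) -/
noncomputable def Pm (p : ℕ) (z : ℂ) : V →L[ℂ] V := if p = 0 then 0 else M.Pf (p - 1) z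

theorem Pm_zero (z : ℂ) : M.Pm 0 z = 0 := rfl
theorem Pm_succ (p : ℕ) (z : ℂ) : M.Pm (p + 1) z = M.Pf p z := rfl

theorem sm_Pm (p : ℕ) : M.SmO (M.Pm p) := by
  cases p with
  | zero =>
    have : M.Pm 0 = fun _ => 0 := by funext z; rfl
    rw [this]
    exact FB.SmO.zero
  | succ p =>
    have : M.Pm (p + 1) = M.Pf p := by funext z; rfl
    rw [this]
    exact M.smP p

/-- projector on the total type `p` -/
noncomputable def ty (p : ℕ) (z : ℂ) : V × V →L[ℂ] V × V := FB.dg (M.Pm p) (M.Pf p) z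

/-- `β (a, b) = (-J a, J b)` -/
noncomputable def bt (z : ℂ) : V × V →L[ℂ] V × V := FB.dg (fun z => - M.Jf z) M.Jf z

theorem sm_ty (p : ℕ) : M.toFB.dbl.SmO (M.ty p) := FB.smO_dg (M.sm_Pm p) (M.smP p)

theorem sm_bt : M.toFB.dbl.SmO M.bt := FB.smO_dg M.smJ.neg M.smJ

theorem Pf_idem {z : ℂ} (hz : z ∈ X) (p : ℕ) (u : V) : M.Pf p z (M.Pf p z u) = M.Pf p z u := by
  have h := pr_mul_pr (M.sp z hz) p p
  rw [if_pos rfl] at h
  exact congrArg (fun T : V →L[ℂ] V => T u) h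

theorem Pf_mul0 {z : ℂ} (hz : z ∈ X) {p q : ℕ} (hpq : p ≠ q) (u : V) :
    M.Pf p z (M.Pf q z u) = 0 := by
  have h := pr_mul_pr (M.sp z hz) p q
  rw [if_neg hpq] at h
  exact congrArg (fun T : V →L[ℂ] V => T u) h

theorem G_nonneg' {z : ℂ} (hz : z ∈ X) (u : V) : 0 ≤ (M.Gf z u u).re := by
  by_cases hu : u = 0
  · simp [hu]
  · exact (M.G_pos hz hu).le

theorem G_P_le {z : ℂ} (hz : z ∈ X) (p : ℕ) (u : V) :
    (M.Gf z (M.Pf p z u) (M.Pf p z u)).re ≤ (M.Gf z u u).re := by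
  have h1 : M.Gf z u u = M.Gf z (M.Pf p z u) (M.Pf p z u) +
      M.Gf z (u - M.Pf p z u) (u - M.Pf p z u) := by
    have e1 : M.Gf z (M.Pf p z u) (u - M.Pf p z u) = 0 := by
      rw [M.G_P hz, map_sub, M.Pf_idem hz, sub_self, map_zero]
    have e2 : M.Gf z (u - M.Pf p z u) (M.Pf p z u) = 0 := by
      rw [← M.G_herm hz, e1, map_zero]
    have e3 : u = M.Pf p z u + (u - M.Pf p z u) := by abel
    conv_lhs => rw [e3]
    rw [map_add, map_add, add_apply, add_apply, e1, e2]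
    ring
  have h2 := M.G_nonneg' hz (u - M.Pf p z u)
  rw [h1, Complex.add_re]
  linarith

theorem G_J_J {z : ℂ} (hz : z ∈ X) (u v : V) :
    M.Gf z (M.Jf z u) (M.Jf z v) = M.Gf z u v := by
  rw [M.G_adj_J hz, M.JJ hz]

variable [FiniteDimensional ℂ V]

theorem ok_ty (p : ℕ) : M.mb.dbl.Ok (M.ty p) := by
  refine ⟨M.sm_ty p, 1, zero_le_one, fun z hz u => ?_⟩
  rw [one_pow, one_mul]
  show (M.Gf z (M.Pm p z u.1) (M.Pm p z u.1) + M.Gf z (M.Pf p z u.2) (M.Pf p z u.2)).re ≤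
    (M.Gf z u.1 u.1 + M.Gf z u.2 u.2).re
  rw [Complex.add_re, Complex.add_re]
  refine add_le_add ?_ (M.G_P_le hz p u.2)
  cases p with
  | zero => rw [M.Pm_zero]; simpa using M.G_nonneg' hz u.1
  | succ p => rw [M.Pm_succ]; exact M.G_P_le hz p u.1

theorem ok_bt : M.mb.dbl.Ok M.bt := by
  refine ⟨M.sm_bt, 1, zero_le_one, fun z hz u => ?_⟩
  rw [one_pow, one_mul]
  show (M.Gf z (- M.Jf z u.1) (- M.Jf z u.1) + M.Gf z (M.Jf z u.2) (M.Jf z u.2)).re ≤
    (M.Gf z u.1 u.1 + M.Gf z u.2 u.2).re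
  rw [map_neg, map_neg, neg_apply, neg_neg, M.G_J_J hz, M.G_J_J hz]

/-- the Hilbert space of forms -/
abbrev L (M : PV V X w) : Type _ := M.mb.dbl.L2

/-- the operator `β` -/
noncomputable def be : M.L →L[ℂ] M.L := M.mb.dbl.opL M.bt

/-- the projector on total type `p` -/
noncomputable def Ty (p : ℕ) : M.L →L[ℂ] M.L := M.mb.dbl.opL (M.ty p)

theorem be_symm (u v : M.L) : inner ℂ (M.be u) v = inner ℂ u (M.be v) := by
  refine M.mb.dbl.op_adj M.ok_bt M.ok_bt (fun z hz u v => ?_) u v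
  show M.Gf z (- M.Jf z u.1) v.1 + M.Gf z (M.Jf z u.2) v.2 =
    M.Gf z u.1 (- M.Jf z v.1) + M.Gf z u.2 (M.Jf z v.2)
  rw [map_neg, map_neg, neg_apply, M.G_adj_J hz, M.G_adj_J hz]

theorem be_be (u : M.L) : M.be (M.be u) = u := by
  have hok : M.mb.dbl.Ok (fun x => M.bt x * M.bt x) := by
    refine ⟨FB.SmO.mul M.sm_bt M.sm_bt, 1, zero_le_one, fun z hz u => ?_⟩
    have : (M.bt z * M.bt z) u = u := by
      show (- M.Jf z (- M.Jf z u.1), M.Jf z (M.Jf z u.2)) = u
      rw [map_neg, neg_neg, M.JJ hz, M.JJ hz]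
    rw [this]; simp
  have h := M.mb.dbl.op_mul M.ok_bt M.ok_bt hok u
  have h2 : M.mb.dbl.opL (fun x => M.bt x * M.bt x) = M.mb.dbl.opL (fun _ => 1) := by
    refine M.mb.dbl.op_congr hok M.mb.dbl.ok_one fun z hz => ?_
    ext u <;> simp [bt, M.JJ hz]
  unfold be
  rw [h, h2, M.mb.dbl.opL_one]

theorem Ty_sum (u : M.L) : ∑ p ∈ Finset.range (w + 1 + 1), M.Ty p u = u := by
  have h := M.mb.dbl.sum_opL (Finset.range (w + 1 + 1)) (fun _ => 1) (A := M.ty)
    (fun p _ => M.ok_ty p) M.mb.dbl.ok_one (fun z hz => ?_) u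
  · rw [M.mb.dbl.opL_one] at h
    simp only [one_smul] at h
    exact h
  · simp only [one_smul]
    ext u
    · simp only [ty, ContinuousLinearMap.sum_apply, ContinuousLinearMap.comp_apply,
        ContinuousLinearMap.inl_apply, FB.dg_apply, Prod.fst_sum]
      rw [Finset.sum_range_succ']
      simp only [M.Pm_zero, M.Pm_succ, zero_apply, add_zero]
      exact M.sum_Pf hz u
    · simp only [ty, ContinuousLinearMap.sum_apply, ContinuousLinearMap.comp_apply,
        ContinuousLinearMap.inl_apply, FB.dg_apply, Prod.snd_sum, map_zero]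
      simp
    · simp only [ty, ContinuousLinearMap.sum_apply, ContinuousLinearMap.comp_apply,
        ContinuousLinearMap.inr_apply, FB.dg_apply, Prod.fst_sum, map_zero]
      simp
    · simp only [ty, ContinuousLinearMap.sum_apply, ContinuousLinearMap.comp_apply,
        ContinuousLinearMap.inr_apply, FB.dg_apply, Prod.snd_sum]
      rw [Finset.sum_range_succ]
      have h0 : M.Pf (w + 1) z = 0 := pr_gt (by omega) _
      rw [h0, zero_apply, add_zero]
      exact M.sum_Pf hz u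

theorem Ty_Ty (p q : ℕ) (u : M.L) :
    M.Ty p (M.Ty q u) = if p = q then M.Ty p u else 0 := by
  have hPm : ∀ z ∈ X, ∀ v, M.Pm p z (M.Pm q z v) = if p = q then M.Pm p z v else 0 := by
    intro z hz v
    cases p with
    | zero =>
      rw [M.Pm_zero]
      split_ifs <;> simp
    | succ p =>
      cases q with
      | zero => rw [M.Pm_zero, M.Pm_succ]; simp
      | succ q =>
        rw [M.Pm_succ, M.Pm_succ]
        split_ifs with h
        · have : p = q := by omega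
          subst this
          exact M.Pf_idem hz p v
        · exact M.Pf_mul0 hz (by omega) v
  have hPf : ∀ z ∈ X, ∀ v, M.Pf p z (M.Pf q z v) = if p = q then M.Pf p z v else 0 := by
    intro z hz v
    split_ifs with h
    · subst h
      exact M.Pf_idem hz p v
    · exact M.Pf_mul0 hz h v
  have hpt : ∀ z ∈ X, M.ty p z * M.ty q z = if p = q then M.ty p z else 0 := by
    intro z hz
    refine ContinuousLinearMap.ext fun u => ?_
    show (M.Pm p z (M.Pm q z u.1), M.Pf p z (M.Pf q z u.2)) = _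
    rw [hPm z hz, hPf z hz]
    split_ifs <;> rfl
  by_cases h : p = q
  · subst h
    simp only [if_true] at hpt ⊢
    have hok : M.mb.dbl.Ok (fun x => M.ty p x * M.ty p x) := by
      refine ⟨FB.SmO.mul (M.sm_ty p) (M.sm_ty p), ?_⟩
      obtain ⟨C, h0, hC⟩ := (M.ok_ty p).2
      exact ⟨C, h0, fun z hz u => by simpa only [hpt z hz] using hC z hz u⟩
    unfold Ty
    rw [M.mb.dbl.op_mul (M.ok_ty p) (M.ok_ty p) hok, M.mb.dbl.op_congr hok (M.ok_ty p) hpt]
  · simp only [h, if_false] at hpt ⊢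
    have hok : M.mb.dbl.Ok (fun x => M.ty p x * M.ty q x) := by
      refine ⟨FB.SmO.mul (M.sm_ty p) (M.sm_ty q), 0, le_rfl, fun z hz u => ?_⟩
      simp only [hpt z hz]
      simp
    unfold Ty
    rw [M.mb.dbl.op_mul (M.ok_ty p) (M.ok_ty q) hok,
      M.mb.dbl.op_congr hok M.mb.dbl.ok_zero hpt, M.mb.dbl.opL_zero]

theorem Ty_orth {p q : ℕ} (h : p ≠ q) (u v : M.L) :
    inner ℂ (M.be (M.Ty p u)) (M.Ty q v) = 0 := by
  have hcomm : ∀ z ∈ X, ∀ a b : V × V, M.mb.dbl.G z (M.ty p z a) b = M.mb.dbl.G z a (M.ty p z b) := by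
    intro z hz a b
    show M.Gf z (M.Pm p z a.1) b.1 + M.Gf z (M.Pf p z a.2) b.2 =
      M.Gf z a.1 (M.Pm p z b.1) + M.Gf z a.2 (M.Pf p z b.2)
    rw [M.G_P hz]
    congr 1
    cases p with
    | zero => rw [M.Pm_zero]; simp
    | succ p => rw [M.Pm_succ]; exact M.G_P hz p _ _
  have h1 : inner ℂ (M.be (M.Ty p u)) (M.Ty q v) = inner ℂ (M.Ty p (M.be u)) (M.Ty q v) := by
    have hA : M.be (M.Ty p u) = M.Ty p (M.be u) := by
      have hok1 : M.mb.dbl.Ok (fun x => M.bt x * M.ty p x) := by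
        refine ⟨FB.SmO.mul M.sm_bt (M.sm_ty p), 1, zero_le_one, fun z hz u => ?_⟩
        obtain ⟨C, hC⟩ := M.ok_bt.2
        have e1 : (M.mb.dbl.G z ((M.bt z * M.ty p z) u) ((M.bt z * M.ty p z) u)).re =
            (M.mb.dbl.G z (M.ty p z u) (M.ty p z u)).re := by
          show (M.Gf z (- M.Jf z (M.Pm p z u.1)) (- M.Jf z (M.Pm p z u.1)) +
            M.Gf z (M.Jf z (M.Pf p z u.2)) (M.Jf z (M.Pf p z u.2))).re = _
          rw [map_neg, map_neg, neg_apply, neg_neg, M.G_J_J hz, M.G_J_J hz]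
          rfl
        rw [e1, one_pow, one_mul]
        show (M.Gf z (M.Pm p z u.1) (M.Pm p z u.1) + M.Gf z (M.Pf p z u.2) (M.Pf p z u.2)).re ≤
          (M.Gf z u.1 u.1 + M.Gf z u.2 u.2).re
        rw [Complex.add_re, Complex.add_re]
        refine add_le_add ?_ (M.G_P_le hz p u.2)
        cases p with
        | zero => rw [M.Pm_zero]; simpa using M.G_nonneg' hz u.1
        | succ p => rw [M.Pm_succ]; exact M.G_P_le hz p u.1
      have hpt : ∀ z ∈ X, M.bt z * M.ty p z = M.ty p z * M.bt z := by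
        intro z hz
        have hJP : ∀ r, ∀ a : V, M.Jf z (M.Pf r z a) = M.Pf r z (M.Jf z a) := by
          intro r a
          have e : M.Jf z * M.Pf r z = M.Pf r z * M.Jf z :=
            (J_mul_pr (M.sp z hz) r).trans (pr_mul_J (M.sp z hz) r).symm
          exact congrArg (fun T : V →L[ℂ] V => T a) e
        refine ContinuousLinearMap.ext fun u => ?_
        show (- M.Jf z (M.Pm p z u.1), M.Jf z (M.Pf p z u.2)) =
          (M.Pm p z (- M.Jf z u.1), M.Pf p z (M.Jf z u.2))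
        rw [hJP, map_neg]
        congr 2
        cases p with
        | zero => rw [M.Pm_zero]; simp
        | succ p => rw [M.Pm_succ]; exact hJP p u.1
      have hok2 : M.mb.dbl.Ok (fun x => M.ty p x * M.bt x) := by
        refine ⟨FB.SmO.mul (M.sm_ty p) M.sm_bt, ?_⟩
        obtain ⟨C, h0, hC⟩ := hok1.2
        exact ⟨C, h0, fun z hz u => by simpa only [hpt z hz] using hC z hz u⟩
      unfold be Ty
      rw [M.mb.dbl.op_mul M.ok_bt (M.ok_ty p) hok1, M.mb.dbl.op_mul (M.ok_ty p) M.ok_bt hok2,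
        M.mb.dbl.op_congr hok1 hok2 hpt]
    rw [hA]
  rw [h1]
  have h2 : inner ℂ (M.Ty p (M.be u)) (M.Ty q v) = inner ℂ (M.be u) (M.Ty p (M.Ty q v)) :=
    M.mb.dbl.op_adj (M.ok_ty p) (M.ok_ty p) hcomm _ _
  rw [h2, M.Ty_Ty, if_neg h, inner_zero_right]

/-- the Weil operator of 817 is `β` -/
theorem Jop_eq (u : M.L) : HsB_817.Jop (w + 1) M.Ty u = M.be u := by
  rw [HsB_817.Jop_apply]
  refine M.mb.dbl.sum_opL (Finset.range (w + 1 + 1)) (fun p => (-1 : ℂ) ^ p) (A := M.ty)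
    (fun p _ => M.ok_ty p) M.ok_bt (fun z hz => ?_) u
  have hJ : ∀ v, M.Jf z v = ∑ p ∈ Finset.range (w + 1), ((-1 : ℂ) ^ p) • M.Pf p z v := by
    intro v
    unfold Jf J
    simp only [ContinuousLinearMap.sum_apply, smul_apply]
    rfl
  refine ContinuousLinearMap.ext fun u => ?_
  have e1 : (∑ p ∈ Finset.range (w + 1 + 1), ((-1 : ℂ) ^ p) • M.ty p z) u =
      (∑ p ∈ Finset.range (w + 1 + 1), ((-1 : ℂ) ^ p) • M.Pm p z u.1,
        ∑ p ∈ Finset.range (w + 1 + 1), ((-1 : ℂ) ^ p) • M.Pf p z u.2) := by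
    simp only [ContinuousLinearMap.sum_apply, smul_apply]
    refine Prod.ext ?_ ?_
    · rw [Prod.fst_sum]; rfl
    · rw [Prod.snd_sum]; rfl
  rw [e1]
  show _ = (- M.Jf z u.1, M.Jf z u.2)
  refine Prod.ext ?_ ?_
  · simp only
    rw [Finset.sum_range_succ', hJ, ← Finset.sum_neg_distrib]
    simp only [M.Pm_zero, M.Pm_succ, zero_apply, smul_zero, add_zero]
    refine Finset.sum_congr rfl fun p _ => ?_
    rw [pow_succ, ← neg_smul]
    congr 1
    ring
  · simp only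
    have h0 : M.Pf (w + 1) z = 0 := pr_gt (by omega) _
    rw [Finset.sum_range_succ, h0, zero_apply, smul_zero, add_zero, hJ]

theorem be_coer (u : M.L) :
    (1 : ℝ) * ‖u‖ ^ 2 ≤ (inner ℂ (M.be (HsB_817.Jop (w + 1) M.Ty u)) u).re := by
  rw [M.Jop_eq, M.be_be, one_mul]
  exact (norm_sq_eq_re_inner (𝕜 := ℂ) u).le

end PV

end Crest.Agent.R276.IpcG1_975
end

-- ▼ part R276/IpcEx_975
section

/-!
# R276, IPC fixed-s assembly (helper975), part 8: `Ex`, `Zc`, Stokes, smooth representatives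
-/

set_option autoImplicit false

open Set Filter Topology MeasureTheory UniformSpace
open scoped ContDiff ComplexConjugate

namespace Crest.Agent.R276.IpcG1_975

open VCalc_442 IpcGr_975

variable {V : Type*} [NormedAddCommGroup V] [NormedSpace ℂ V] {X : Set ℂ}

namespace FB

variable {F : FB V X}

theorem d1_zero_out {φ : ℂ → V} (h : φ ∈ F.A0) {z : ℂ} (hz : z ∉ X) : F.d1 φ z = 0 := by
  obtain ⟨_, K, hK, hKc, h0⟩ := h
  exact d1_zero_of hKc h0 fun h => hz (hK h)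

theorem d2_zero_out {φ : ℂ → V} (h : φ ∈ F.A0) {z : ℂ} (hz : z ∉ X) : F.d2 φ z = 0 := by
  obtain ⟨_, K, hK, hKc, h0⟩ := h
  exact d2_zero_of hKc h0 fun h => hz (hK h)

theorem zero_out {φ : ℂ → V} (h : φ ∈ F.A0) {z : ℂ} (hz : z ∉ X) : φ z = 0 := by
  obtain ⟨_, K, hK, hKc, h0⟩ := h
  exact h0 z fun h => hz (hK h)

/-- smooth closed forms -/
def Clo (F : FB V X) (α : ℂ → V × V) : Prop :=
  F.dbl.Sm α ∧ ∀ z ∈ X, F.d2 (fun x => (α x).1) z = F.d1 (fun x => (α x).2) z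

/-- `D φ` for a smooth section is closed -/
theorem clo_Df {φ : ℂ → V} (h : F.Sm φ) : F.Clo (F.Df φ) :=
  ⟨sm_dbl.2 ⟨h.d1, h.d2⟩, fun _ hz => d2_d1 h hz⟩

end FB

namespace PV

variable {w : ℕ} (M : PV V X w)

theorem cs_S {φ ψ : ℂ → V} (hφ : φ ∈ M.A0) (hψ : M.Sm ψ) :
    CS X (fun x => M.S x (φ x) (ψ x)) := by
  refine ⟨fun z hz => M.sm_S hφ.1 hψ hz, ?_⟩
  obtain ⟨K, hK, hKc, h0⟩ := hφ.2
  exact ⟨K, hK, hKc, fun x hx => by simp [h0 x hx]⟩

theorem dW_S' {φ ψ : ℂ → V} (hφ : φ ∈ M.A0) (hψ : M.Sm ψ) (z : ℂ) :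
    dW (fun y => M.S y (φ y) (ψ y)) 1 z = M.S z (M.d2 φ z) (ψ z) + M.S z (φ z) (M.d1 ψ z) := by
  by_cases hz : z ∈ X
  · exact M.dW_S hφ.1 hψ hz
  · obtain ⟨K, hK, hKc, h0⟩ := hφ.2
    have hzK : z ∉ K := fun h => hz (hK h)
    have h1 : (fun y => M.S y (φ y) (ψ y)) =ᶠ[𝓝 z] fun _ => 0 := by
      filter_upwards [hKc.isClosed.isOpen_compl.mem_nhds hzK] with y hy
      simp [h0 y hy]
    rw [dW_congr h1, dW_const, FB.d2_zero_out hφ hz, FB.zero_out hφ hz]
    simp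

theorem dB_S' {φ ψ : ℂ → V} (hφ : φ ∈ M.A0) (hψ : M.Sm ψ) (z : ℂ) :
    dB (fun y => M.S y (φ y) (ψ y)) 1 z = M.S z (M.d1 φ z) (ψ z) + M.S z (φ z) (M.d2 ψ z) := by
  by_cases hz : z ∈ X
  · exact M.dB_S hφ.1 hψ hz
  · obtain ⟨K, hK, hKc, h0⟩ := hφ.2
    have hzK : z ∉ K := fun h => hz (hK h)
    have h1 : (fun y => M.S y (φ y) (ψ y)) =ᶠ[𝓝 z] fun _ => 0 := by
      filter_upwards [hKc.isClosed.isOpen_compl.mem_nhds hzK] with y hy
      simp [h0 y hy]
    rw [dB_congr h1, dB_const, FB.d1_zero_out hφ hz, FB.zero_out hφ hz]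
    simp

/-- integration by parts -/
theorem parts1 {φ ψ : ℂ → V} (hφ : φ ∈ M.A0) (hψ : M.Sm ψ) :
    ∫ z, M.S z (M.d1 φ z) (ψ z) = - ∫ z, M.S z (φ z) (M.d2 ψ z) := by
  have h := (M.cs_S hφ hψ).integral_dB 1
  simp only [M.dB_S' hφ hψ] at h
  rw [integral_add (M.cs_S (FB.d1_mem hφ) hψ).integrable (M.cs_S hφ hψ.d2).integrable] at h
  exact eq_neg_of_add_eq_zero_left h

theorem parts2 {φ ψ : ℂ → V} (hφ : φ ∈ M.A0) (hψ : M.Sm ψ) :
    ∫ z, M.S z (M.d2 φ z) (ψ z) = - ∫ z, M.S z (φ z) (M.d1 ψ z) := by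
  have h := (M.cs_S hφ hψ).integral_dW 1
  simp only [M.dW_S' hφ hψ] at h
  rw [integral_add (M.cs_S (FB.d2_mem hφ) hψ).integrable (M.cs_S hφ hψ.d1).integrable] at h
  exact eq_neg_of_add_eq_zero_left h

/-- **Stokes** -/
theorem stokes {φ : ℂ → V} (hφ : φ ∈ M.A0) {α : ℂ → V × V} (hα : M.toFB.dbl.Sm α) :
    ∫ z, (M.S z (M.d1 φ z) (α z).1 - M.S z (M.d2 φ z) (α z).2) =
      - ∫ z, M.S z (φ z) (M.d2 (fun x => (α x).1) z - M.d1 (fun x => (α x).2) z) := by
  obtain ⟨h1, h2⟩ := FB.sm_dbl.1 hα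
  rw [integral_sub (M.cs_S (FB.d1_mem hφ) h1).integrable (M.cs_S (FB.d2_mem hφ) h2).integrable,
    M.parts1 hφ h1, M.parts2 hφ h2]
  simp only [map_sub]
  rw [integral_sub (M.cs_S hφ h1.d2).integrable (M.cs_S hφ h2.d1).integrable]
  ring

variable [FiniteDimensional ℂ V]

/-- `D φ` as an element of the Hilbert space -/
noncomputable def DL : M.toFB.A0 →ₗ[ℂ] M.L where
  toFun φ := ((M.mb.dbl.s0 (M.toFB.Df φ.1) (FB.Df_mem φ.2) : M.mb.dbl.H0) : M.L)
  map_add' φ ψ := by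
    rw [← Completion.coe_add]
    congr 1
    refine MB.H0.ext ?_
    funext z
    rw [MB.add_f, MB.s0_f, MB.s0_f, MB.s0_f]
    by_cases hz : z ∈ X
    · exact Prod.ext (FB.d1_add φ.2.1 ψ.2.1 hz) (FB.d2_add φ.2.1 ψ.2.1 hz)
    · refine Prod.ext ?_ ?_
      · show M.d1 _ z = M.d1 _ z + M.d1 _ z
        rw [FB.d1_zero_out φ.2 hz, FB.d1_zero_out ψ.2 hz, FB.d1_zero_out (φ + ψ).2 hz, add_zero]
      · show M.d2 _ z = M.d2 _ z + M.d2 _ z
        rw [FB.d2_zero_out φ.2 hz, FB.d2_zero_out ψ.2 hz, FB.d2_zero_out (φ + ψ).2 hz, add_zero]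
  map_smul' c φ := by
    rw [RingHom.id_apply, ← Completion.coe_smul]
    congr 1
    refine MB.H0.ext ?_
    funext z
    rw [MB.smul_f, MB.s0_f, MB.s0_f]
    by_cases hz : z ∈ X
    · exact Prod.ext (FB.d1_smul φ.2.1 c hz) (FB.d2_smul φ.2.1 c hz)
    · refine Prod.ext ?_ ?_
      · show M.d1 _ z = c • M.d1 _ z
        rw [FB.d1_zero_out φ.2 hz, FB.d1_zero_out (c • φ).2 hz, smul_zero]
      · show M.d2 _ z = c • M.d2 _ z
        rw [FB.d2_zero_out φ.2 hz, FB.d2_zero_out (c • φ).2 hz, smul_zero]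

theorem DL_apply {φ : ℂ → V} (h : φ ∈ M.toFB.A0) :
    M.DL ⟨φ, h⟩ = ((M.mb.dbl.s0 (M.toFB.Df φ) (FB.Df_mem h) : M.mb.dbl.H0) : M.L) := rfl

/-- closure of the exact compactly supported forms -/
noncomputable def Ex : Submodule ℂ M.L := (LinearMap.range M.DL).topologicalClosure

theorem ex_closed : IsClosed (M.Ex : Set M.L) := Submodule.isClosed_topologicalClosure _

theorem DL_mem_ex (φ : M.toFB.A0) : M.DL φ ∈ M.Ex :=
  Submodule.le_topologicalClosure _ ⟨φ, rfl⟩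

/-- weakly closed forms -/
noncomputable def Zc : Submodule ℂ M.L where
  carrier := {u | ∀ e ∈ M.Ex, inner ℂ (M.be u) e = 0}
  add_mem' := by
    intro u v hu hv e he
    rw [map_add, inner_add_left, hu e he, hv e he, add_zero]
  zero_mem' := by
    intro e _
    rw [map_zero, inner_zero_left]
  smul_mem' := by
    intro c u hu e he
    rw [map_smul, inner_smul_left, hu e he, mul_zero]

theorem mem_Zc {u : M.L} : u ∈ M.Zc ↔ ∀ e ∈ M.Ex, inner ℂ (M.be u) e = 0 := Iff.rfl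

/-- it is enough to test with `D φ` -/
theorem mem_Zc' {u : M.L} : u ∈ M.Zc ↔ ∀ φ : M.toFB.A0, inner ℂ (M.be u) (M.DL φ) = 0 := by
  constructor
  · intro h φ
    exact h _ (M.DL_mem_ex φ)
  · intro h e he
    have hcl : IsClosed {d : M.L | inner ℂ (M.be u) d = 0} :=
      isClosed_eq (by fun_prop) continuous_const
    have hsub : (LinearMap.range M.DL : Set M.L) ⊆ {d : M.L | inner ℂ (M.be u) d = 0} := by
      rintro _ ⟨φ, rfl⟩
      exact h φ
    exact closure_minimal hsub hcl he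

/-- the smooth form `α` represents `u` -/
def Rep (u : M.L) (α : ℂ → V × V) : Prop :=
  M.toFB.dbl.Sm α ∧ ∀ ζ : M.mb.dbl.H0, inner ℂ (ζ : M.L) u = ∫ x, M.mb.dbl.G x (ζ.f x) (α x)

theorem rep_coe (ζ : M.mb.dbl.H0) : M.Rep (ζ : M.L) ζ.f :=
  ⟨ζ.mem.1, fun ζ' => by rw [Completion.inner_coe]; rfl⟩

variable {M}

theorem Rep.add {u v : M.L} {α η : ℂ → V × V} (hu : M.Rep u α) (hv : M.Rep v η) :
    M.Rep (u + v) (fun x => α x + η x) := by
  refine ⟨hu.1.add hv.1, fun ζ => ?_⟩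
  rw [inner_add_right, hu.2, hv.2, ← integral_add (M.mb.dbl.cs_left ζ.mem hu.1).integrable
    (M.mb.dbl.cs_left ζ.mem hv.1).integrable]
  simp only [map_add]

theorem Rep.smul {u : M.L} {α : ℂ → V × V} (hu : M.Rep u α) (c : ℂ) :
    M.Rep (c • u) (fun x => c • α x) := by
  refine ⟨hu.1.const_smul c, fun ζ => ?_⟩
  rw [inner_smul_right, hu.2, ← integral_const_mul]
  simp only [map_smul, smul_eq_mul]

theorem Rep.sub {u v : M.L} {α η : ℂ → V × V} (hu : M.Rep u α) (hv : M.Rep v η) :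
    M.Rep (u - v) (fun x => α x - η x) := by
  refine ⟨hu.1.sub hv.1, fun ζ => ?_⟩
  rw [inner_sub_right, hu.2, hv.2, ← integral_sub (M.mb.dbl.cs_left ζ.mem hu.1).integrable
    (M.mb.dbl.cs_left ζ.mem hv.1).integrable]
  simp only [map_sub]

/-- adjoint fields -/
theorem Rep.op {A B : ℂ → (V × V →L[ℂ] V × V)} (hA : M.mb.dbl.Ok A) (hB : M.mb.dbl.Ok B)
    (h : ∀ x ∈ X, ∀ u v, M.mb.dbl.G x (A x u) v = M.mb.dbl.G x u (B x v))
    {u : M.L} {α : ℂ → V × V} (hu : M.Rep u α) :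
    M.Rep (M.mb.dbl.opL B u) (fun x => B x (α x)) := by
  refine ⟨FB.Sm.app hB.1 hu.1, fun ζ => ?_⟩
  rw [← M.mb.dbl.op_adj hA hB h, M.mb.dbl.op_coe hA, hu.2]
  refine integral_congr_ae (Eventually.of_forall fun x => ?_)
  simp only [MB.s0_f]
  by_cases hx : x ∈ X
  · exact h x hx _ _
  · simp [M.mb.dbl.f_eq_zero ζ hx]

theorem bt_adj {z : ℂ} (hz : z ∈ X) (u v : V × V) :
    M.mb.dbl.G z (M.bt z u) v = M.mb.dbl.G z u (M.bt z v) := by
  show M.Gf z (- M.Jf z u.1) v.1 + M.Gf z (M.Jf z u.2) v.2 =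
    M.Gf z u.1 (- M.Jf z v.1) + M.Gf z u.2 (M.Jf z v.2)
  rw [map_neg, map_neg, neg_apply, M.G_adj_J hz, M.G_adj_J hz]

theorem Rep.be {u : M.L} {α : ℂ → V × V} (hu : M.Rep u α) :
    M.Rep (M.be u) (fun x => M.bt x (α x)) :=
  Rep.op M.ok_bt M.ok_bt (fun _ hz u v => bt_adj hz u v) hu

/-- the pairing of `β u` with `D φ` -/
theorem Rep.pair {u : M.L} {α : ℂ → V × V} (hu : M.Rep u α) (φ : M.toFB.A0) :
    inner ℂ (M.DL φ) (M.be u) = 
      ∫ z, M.S z (φ.1 z) (M.d2 (fun x => (α x).1) z - M.d1 (fun x => (α x).2) z) := by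
  have h1 := hu.be.2 (M.mb.dbl.s0 (M.toFB.Df φ.1) (FB.Df_mem φ.2))
  have h2 : M.DL φ = ((M.mb.dbl.s0 (M.toFB.Df φ.1) (FB.Df_mem φ.2) : M.mb.dbl.H0) : M.L) := rfl
  rw [h2, h1, ← neg_neg (∫ z, M.S z (φ.1 z) (M.d2 (fun x => (α x).1) z - M.d1 (fun x => (α x).2) z)),
    ← M.stokes φ.2 hu.1, ← integral_neg]
  refine integral_congr_ae (Eventually.of_forall fun z => ?_)
  simp only [MB.s0_f]
  by_cases hz : z ∈ X
  · show M.Gf z (M.d1 φ.1 z) (- M.Jf z (α z).1) + M.Gf z (M.d2 φ.1 z) (M.Jf z (α z).2) = _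
    rw [map_neg, ← M.G_adj_J hz, ← M.G_adj_J hz, M.G_J hz, M.G_J hz]
    ring
  · have e1 : M.toFB.Df φ.1 z = 0 := Prod.ext (FB.d1_zero_out φ.2 hz) (FB.d2_zero_out φ.2 hz)
    rw [e1, FB.d1_zero_out φ.2 hz, FB.d2_zero_out φ.2 hz]
    simp

/-- closed smooth forms are weakly closed -/
theorem Rep.mem_Zc {u : M.L} {α : ℂ → V × V} (hu : M.Rep u α)
    (hc : ∀ z ∈ X, M.d2 (fun x => (α x).1) z = M.d1 (fun x => (α x).2) z) : u ∈ M.Zc := by
  rw [M.mem_Zc']
  intro φ
  rw [← inner_conj_symm, hu.pair φ]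
  have : ∀ z, M.S z (φ.1 z) (M.d2 (fun x => (α x).1) z - M.d1 (fun x => (α x).2) z) = 0 := by
    intro z
    by_cases hz : z ∈ X
    · rw [hc z hz, sub_self, map_zero]
    · rw [FB.zero_out φ.2 hz]; simp
  simp [this]

variable (M) in
theorem DL_mem_Zc (φ : M.toFB.A0) : M.DL φ ∈ M.Zc := by
  have h : M.Rep (M.DL φ) (M.toFB.Df φ.1) := M.rep_coe _
  exact h.mem_Zc (FB.clo_Df φ.2.1).2

variable (M) in
theorem zc_closed : IsClosed (M.Zc : Set M.L) := by
  have : (M.Zc : Set M.L) = ⋂ e ∈ M.Ex, {u | inner ℂ (M.be u) e = 0} := by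
    ext u
    simp only [SetLike.mem_coe, M.mem_Zc, mem_iInter, mem_ofPred_eq]
  rw [this]
  refine isClosed_biInter fun e _ => ?_
  exact isClosed_eq (by fun_prop) continuous_const

variable (M) in
theorem ex_le_zc : M.Ex ≤ M.Zc := by
  intro e he
  refine closure_minimal ?_ M.zc_closed he
  rintro _ ⟨φ, rfl⟩
  exact M.DL_mem_Zc φ

end PV

end Crest.Agent.R276.IpcG1_975
end

-- ▼ part R276/IpcSt_975

/-!
# R276, IPC fixed-s assembly (helper975), part 9: pure generators of `Ex`, stability of `Ha`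
-/

set_option autoImplicit false

open Set Filter Topology MeasureTheory UniformSpace
open scoped ContDiff ComplexConjugate

namespace Crest.Agent.R276.IpcG1_975

open VCalc_442 IpcGr_975

variable {V : Type*} [NormedAddCommGroup V] [NormedSpace ℂ V] {X : Set ℂ}

namespace PV

variable {w : ℕ} (M : PV V X w)

theorem th_P {z : ℂ} (hz : z ∈ X) (p : ℕ) : M.th z * M.Pf p z = M.Pm p z * M.th z := by
  cases p with
  | zero => rw [M.Pm_zero, zero_mul]; exact (M.lo_th hz).mul_pr_zero (M.sp z hz)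
  | succ p => rw [M.Pm_succ]; exact (M.lo_th hz).mul_pr (M.sp z hz) p

theorem ths_P {z : ℂ} (hz : z ∈ X) (p : ℕ) : M.ths z * M.Pf p z = M.Pf (p + 1) z * M.ths z :=
  (M.hi_ths hz).mul_pr (M.sp z hz) p


theorem Pm_Pf {z : ℂ} (hz : z ∈ X) (p : ℕ) (u : V) : M.Pm p z (M.Pf p z u) = 0 := by
  cases p with
  | zero => rw [M.Pm_zero]; simp
  | succ p => rw [M.Pm_succ]; exact M.Pf_mul0 hz (by omega) u

theorem Pf_Pm {z : ℂ} (hz : z ∈ X) (p : ℕ) (u : V) : M.Pf p z (M.Pm p z u) = 0 := by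
  cases p with
  | zero => rw [M.Pm_zero]; simp
  | succ p => rw [M.Pm_succ]; exact M.Pf_mul0 hz (by omega) u

/-- derivative of a pure section -/
theorem d1_pure {p : ℕ} {φ : ℂ → V} (hφ : M.Sm φ) (hp : ∀ z ∈ X, M.Pf p z (φ z) = φ z) {z : ℂ}
    (hz : z ∈ X) : M.Pm p z (M.d1 φ z) + M.Pf p z (M.d1 φ z) = M.d1 φ z := by
  have h1 : M.d1 (fun z => M.Pf p z (φ z)) z = M.d1 φ z := by
    have : M.tr z (fun z => M.Pf p z (φ z)) =ᶠ[𝓝 z] M.tr z φ := by
      filter_upwards [M.op.mem_nhds hz] with y hy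
      rw [FB.tr, FB.tr, hp y hy]
    exact dW_congr this 1
  have h2 := FB.d1_app (M.smP p) hφ hz
  rw [h1, M.D1_P p hz, sub_apply, mul_apply_eq_comp, mul_apply_eq_comp, hp z hz] at h2
  have h3 : M.th z (φ z) = M.Pm p z (M.th z (φ z)) := by
    have := congrArg (fun T : V →L[ℂ] V => T (φ z)) (M.th_P hz p)
    simp only [mul_apply_eq_comp] at this
    rwa [hp z hz] at this
  -- `d1 φ = θ φ - P_p θ φ + P_p d1 φ`
  have e1 : M.Pf p z (M.th z (φ z)) = 0 := by rw [h3]; exact M.Pf_Pm hz p _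
  rw [e1, sub_zero] at h2
  have e2 : M.Pm p z (M.d1 φ z) = M.th z (φ z) := by
    rw [h2, map_add, M.Pm_Pf hz, add_zero, ← h3]
  rw [e2, ← h2]

theorem d2_pure {p : ℕ} {φ : ℂ → V} (hφ : M.Sm φ) (hp : ∀ z ∈ X, M.Pf p z (φ z) = φ z) {z : ℂ}
    (hz : z ∈ X) : M.Pf p z (M.d2 φ z) + M.Pf (p + 1) z (M.d2 φ z) = M.d2 φ z := by
  have h1 : M.d2 (fun z => M.Pf p z (φ z)) z = M.d2 φ z := by
    have : M.tr z (fun z => M.Pf p z (φ z)) =ᶠ[𝓝 z] M.tr z φ := by
      filter_upwards [M.op.mem_nhds hz] with y hy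
      rw [FB.tr, FB.tr, hp y hy]
    exact dB_congr this 1
  have h2 := FB.d2_app (M.smP p) hφ hz
  rw [h1, M.D2_P p hz, sub_apply, mul_apply_eq_comp, mul_apply_eq_comp, hp z hz] at h2
  have h3 : M.ths z (φ z) = M.Pf (p + 1) z (M.ths z (φ z)) := by
    have := congrArg (fun T : V →L[ℂ] V => T (φ z)) (M.ths_P hz p)
    simp only [mul_apply_eq_comp] at this
    rwa [hp z hz] at this
  have e1 : M.Pf p z (M.ths z (φ z)) = 0 := by rw [h3]; exact M.Pf_mul0 hz (by omega) _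
  rw [e1, sub_zero] at h2
  have e2 : M.Pf (p + 1) z (M.d2 φ z) = M.ths z (φ z) := by
    rw [h2, map_add, M.Pf_mul0 hz (by omega), add_zero, ← h3]
  rw [e2, add_comm, ← h2]

variable [FiniteDimensional ℂ V]

/-- `D` of the pure sections -/
def Gen : Set M.L := {d | ∃ φ : M.toFB.A0, (∃ p, p ≤ w ∧ ∀ z ∈ X, M.Pf p z (φ.1 z) = φ.1 z) ∧
  d = M.DL φ}

theorem gen_ex {d : M.L} (hd : d ∈ M.Gen) : d ∈ M.Ex := by
  obtain ⟨φ, -, rfl⟩ := hd
  exact M.DL_mem_ex φ

theorem gen_type {d : M.L} (hd : d ∈ M.Gen) :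
    ∃ P, P + 1 ≤ w + 1 ∧ d = M.Ty P d + M.Ty (P + 1) d := by
  obtain ⟨φ, ⟨p, hp, hφ⟩, rfl⟩ := hd
  refine ⟨p, by omega, ?_⟩
  have e : M.DL φ = ((M.mb.dbl.s0 (M.toFB.Df φ.1) (FB.Df_mem φ.2) : M.mb.dbl.H0) : M.L) := rfl
  unfold Ty
  rw [e, M.mb.dbl.op_coe (M.ok_ty p), M.mb.dbl.op_coe (M.ok_ty (p + 1)), ← Completion.coe_add]
  congr 1
  refine MB.H0.ext ?_
  funext z
  show M.toFB.Df φ.1 z = M.ty p z (M.toFB.Df φ.1 z) + M.ty (p + 1) z (M.toFB.Df φ.1 z)
  by_cases hz : z ∈ X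
  · refine Prod.ext ?_ ?_
    · exact (M.d1_pure φ.2.1 hφ hz).symm
    · exact (M.d2_pure φ.2.1 hφ hz).symm
  · have e1 : M.toFB.Df φ.1 z = 0 := Prod.ext (FB.d1_zero_out φ.2 hz) (FB.d2_zero_out φ.2 hz)
    rw [e1]
    simp

theorem range_le_span : (LinearMap.range M.DL) ≤ Submodule.span ℂ M.Gen := by
  rintro _ ⟨φ, rfl⟩
  have hm : ∀ p, (fun z => M.Pf p z (φ.1 z)) ∈ M.toFB.A0 := fun p =>
    FB.app_mem_A0 (M.smP p) φ.2
  have hsum : φ = ∑ p ∈ Finset.range (w + 1), (⟨_, hm p⟩ : M.toFB.A0) := by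
    apply Subtype.ext
    rw [Submodule.coe_sum]
    funext z
    rw [Finset.sum_apply]
    by_cases hz : z ∈ X
    · exact (M.sum_Pf hz _).symm
    · simp [FB.zero_out φ.2 hz]
  rw [hsum, map_sum]
  refine Submodule.sum_mem _ fun p hp => Submodule.subset_span ?_
  refine ⟨⟨_, hm p⟩, ⟨p, by simpa [Nat.lt_succ_iff] using hp, fun z hz => ?_⟩, rfl⟩
  exact M.Pf_idem hz p _

theorem ex_sub : (M.Ex : Set M.L) ⊆ closure (Submodule.span ℂ M.Gen : Set M.L) :=
  closure_mono M.range_le_span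

/-- 817's `Fix` from a class map -/
noncomputable def fix {W : Type*} [NormedAddCommGroup W] [NormedSpace ℂ W] (cl : M.Zc →L[ℂ] W)
    (hs : Function.Surjective cl) (hk : ∀ u : M.Zc, cl u = 0 ↔ (u : M.L) ∈ M.Ex) :
    HsB_817.Fix M.L W where
  β := M.be
  symm := M.be_symm
  Ex := M.Ex
  Zc := M.Zc
  exClosed := M.ex_closed
  memZc := fun _ => Iff.rfl
  exLe := M.ex_le_zc
  cl := cl
  clSurj := hs
  clKer := hk

/-- 817's `Types` -/
theorem types {W : Type*} [NormedAddCommGroup W] [NormedSpace ℂ W] (cl : M.Zc →L[ℂ] W)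
    (hs : Function.Surjective cl) (hk : ∀ u : M.Zc, cl u = 0 ↔ (u : M.L) ∈ M.Ex) :
    HsB_817.Types (M.fix cl hs hk) (w + 1) M.Ty 1 where
  cpos := one_pos
  sum := M.Ty_sum
  idem := fun P _ u => by rw [M.Ty_Ty, if_pos rfl]
  mul0 := fun P _ Q _ h u => by rw [M.Ty_Ty, if_neg h]
  orth := fun P _ Q _ h u v => M.Ty_orth h u v
  coer := M.be_coer
  stab := HsB_817.stab_of_generators (D := M.fix cl hs hk) M.Ty_sum
    (fun P _ Q _ h u v => M.Ty_orth h u v) M.Gen M.ex_sub (fun _ hd => M.gen_ex hd)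
    (fun _ hd => M.gen_type hd)

end PV

end Crest.Agent.R276.IpcG1_975
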