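import Crest.Agent.R276.IpcL2_975
import Mathlib.Geometry.Manifold.PartitionOfUnity
import Crest.Agent.R276.IpcSt_975
import Crest.Agent.R276.IpcReg_309

-- ▼ part R276/IpcRp_975
section

/-!
# R276, IPC fixed-s assembly (helper975), part 10: local smooth representatives glue
-/

set_option autoImplicit false

open Set Filter Topology MeasureTheory UniformSpace
open scoped ContDiff ComplexConjugate

namespace Crest.Agent.R276.IpcG1_975

open VCalc_442 IpcGr_975

/-- finite partition of unity on a compact set -/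
theorem exists_partition {K : Set ℂ} (hK : IsCompact K) {U : ℂ → Set ℂ}
    (hU : ∀ x ∈ K, IsOpen (U x) ∧ x ∈ U x) :
    ∃ (s : Finset K) (f : K → ℂ → ℝ), (∀ i, ContDiff ℝ ∞ (f i)) ∧
      (∀ i, tsupport (f i) ⊆ U i) ∧ (∀ i x, 0 ≤ f i x) ∧ (∀ x ∈ K, ∑ i ∈ s, f i x = 1) := by
  obtain ⟨f, hf⟩ := SmoothPartitionOfUnity.exists_isSubordinate (modelWithCornersSelf ℝ ℂ)
    (s := K) hK.isClosed (fun x : K => U x) (fun x => (hU x x.2).1)
    (fun x hx => mem_iUnion.2 ⟨⟨x, hx⟩, (hU x hx).2⟩)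
  have hfin := f.locallyFinite.finite_nonempty_inter_compact hK
  refine ⟨hfin.toFinset, fun i => f i, fun i => (f i).contMDiff.contDiff, hf,
    fun i x => f.nonneg i x, fun x hx => ?_⟩
  rw [← f.sum_eq_one hx]
  symm
  refine finsum_eq_sum_of_support_subset _ fun i hi => ?_
  rw [Finset.mem_coe, Set.Finite.mem_toFinset]
  exact ⟨x, hi, hx⟩

variable {V : Type*} [NormedAddCommGroup V] [NormedSpace ℂ V] {X : Set ℂ}

namespace FB

variable {F : FB V X}

/-- a smooth function with compact support in `U` times a section which is smooth over `U` -/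
theorem cut_mem_A0 {U : Set ℂ} (hU : IsOpen U) (hUX : U ⊆ X) {f : ℂ → ℂ} (hf : ContDiff ℝ ∞ f)
    (hc : HasCompactSupport f) (hs : tsupport f ⊆ U) {φ : ℂ → V}
    (hφ : ∀ z ∈ U, ContDiffAt ℝ ∞ (F.tr z φ) z) : (fun z => f z • φ z) ∈ F.A0 := by
  refine ⟨fun z hz => ?_, tsupport f, hs.trans hUX, hc, fun x hx => by
    simp [image_eq_zero_of_notMem_tsupport hx]⟩
  by_cases h : z ∈ tsupport f
  · have e : F.tr z (fun z => f z • φ z) = fun y => f y • F.tr z φ y := by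
      funext y
      unfold tr
      rw [map_smul]
    rw [e]
    exact hf.contDiffAt.smul (hφ z (hs h))
  · have e : F.tr z (fun z => f z • φ z) =ᶠ[𝓝 z] fun _ => 0 := by
      filter_upwards [(isClosed_tsupport f).isOpen_compl.mem_nhds h] with y hy
      have h0 : f y = 0 := image_eq_zero_of_notMem_tsupport hy
      show F.P z y (f y • φ y) = 0
      rw [h0, zero_smul, map_zero]
    exact contDiffAt_const.congr_of_eventuallyEq e

end FB

/-- cut-off function equal to `1` on a compact set -/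
theorem exists_cutK {T W : Set ℂ} (hT : IsCompact T) (hW : IsOpen W) (h : T ⊆ W) :
    ∃ f : ℂ → ℝ, ContDiff ℝ ∞ f ∧ HasCompactSupport f ∧ tsupport f ⊆ W ∧ (∀ x, 0 ≤ f x) ∧
      (∀ x, f x ≤ 1) ∧ ∀ x ∈ T, f x = 1 := by
  obtain ⟨K, hK, hTK, hKW⟩ := exists_compact_between hT hW h
  obtain ⟨f, h1, h2, h3, h4⟩ := exists_contMDiff_support_eq_eq_one_iff
    (modelWithCornersSelf ℝ ℂ) (n := ⊤) (isOpen_interior (s := K)) hT.isClosed hTK
  have hts : tsupport f ⊆ K := by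
    unfold tsupport
    rw [h3]
    exact closure_minimal interior_subset hK.isClosed
  refine ⟨f, h1.contDiff, HasCompactSupport.of_support_subset_isCompact hK
    ((subset_tsupport f).trans hts), hts.trans hKW, fun x => ?_, fun x => ?_,
    fun x hx => (h4 x).1 hx⟩
  · exact (h2 (mem_range_self x)).1
  · exact (h2 (mem_range_self x)).2

/-- the complex valued version of a real cut-off function -/
structure CutC (U : Set ℂ) (f : ℂ → ℝ) : Prop where
  sm : ContDiff ℝ ∞ f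
  cs : HasCompactSupport f
  sub : tsupport f ⊆ U

theorem CutC.smC {U : Set ℂ} {f : ℂ → ℝ} (h : CutC U f) : ContDiff ℝ ∞ (fun x => (f x : ℂ)) :=
  Complex.ofRealCLM.contDiff.comp h.sm

theorem CutC.csC {U : Set ℂ} {f : ℂ → ℝ} (h : CutC U f) :
    HasCompactSupport (fun x => (f x : ℂ)) :=
  h.cs.comp_left (g := fun x : ℝ => (x : ℂ)) Complex.ofReal_zero

theorem CutC.subC {U : Set ℂ} {f : ℂ → ℝ} (h : CutC U f) :
    tsupport (fun x => (f x : ℂ)) ⊆ U := by
  refine (closure_mono fun y hy => ?_).trans h.sub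
  intro h0
  exact hy (by simp [h0])

theorem CutC.zero {U : Set ℂ} {f : ℂ → ℝ} (_ : CutC U f) {x : ℂ} (hx : x ∉ tsupport f) :
    f x = 0 := image_eq_zero_of_notMem_tsupport hx

namespace MB

variable (M : MB V X)

theorem sum_f' {κ : Type*} (s : Finset κ) (φ : κ → M.H0) (z : ℂ) :
    (∑ k ∈ s, φ k).f z = ∑ k ∈ s, (φ k).f z := by
  classical
  induction s using Finset.induction_on with
  | empty => simp
  | insert a s ha ih =>
    rw [Finset.sum_insert ha, Finset.sum_insert ha, add_f]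
    simp only
    rw [ih]

theorem f_eq_zero' (φ : M.H0) {x : ℂ} (hx : x ∉ X) : φ.f x = 0 := by
  obtain ⟨K, hK, -, h0⟩ := φ.mem.2
  exact h0 x (fun h => hx (hK h))

theorem coe_sum' {κ : Type*} (s : Finset κ) (φ : κ → M.H0) :
    ((∑ k ∈ s, φ k : M.H0) : M.L2) = ∑ k ∈ s, (φ k : M.L2) := by
  classical
  induction s using Finset.induction_on with
  | empty =>
    rw [Finset.sum_empty, Finset.sum_empty]
    exact Completion.coe_zero
  | insert a s ha ih => rw [Finset.sum_insert ha, Finset.sum_insert ha, Completion.coe_add, ih]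

/-- `ζ` vanishes off a compact part of `U` -/
def Sup (ζ : M.H0) (U : Set ℂ) : Prop := ∃ K ⊆ U, IsCompact K ∧ ∀ x ∉ K, ζ.f x = 0

/-- the section `α`, smooth over the open set `U`, represents `η` over `U` -/
structure LRep (η : M.L2) (U : Set ℂ) (α : ℂ → V) : Prop where
  op : IsOpen U
  sub : U ⊆ X
  sm : ∀ z ∈ U, ContDiffAt ℝ ∞ (M.tr z α) z
  rep : ∀ ζ : M.H0, M.Sup ζ U → inner ℂ (ζ : M.L2) η = ∫ x, M.G x (ζ.f x) (α x)

variable {M}

theorem eq_zero_of_G {z : ℂ} (hz : z ∈ X) {u : V} (h : (M.G z u u).re = 0) : u = 0 := by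
  obtain ⟨C, hC, hb⟩ := M.bd z hz
  have h1 := (hb.self_of_nhds u).1
  rw [h, mul_zero, M.one z hz] at h1
  have h2 : ‖u‖ ^ 2 ≤ 0 := h1
  have h3 : ‖u‖ = 0 := by nlinarith [norm_nonneg u, sq_nonneg ‖u‖]
  exact norm_eq_zero.1 h3

theorem LRep.unique {η : M.L2} {U U' : Set ℂ} {α α' : ℂ → V} (h : M.LRep η U α)
    (h' : M.LRep η U' α') {z : ℂ} (hz : z ∈ U) (hz' : z ∈ U') : α z = α' z := by
  have hW : IsOpen (U ∩ U') := h.op.inter h'.op
  have hWX : U ∩ U' ⊆ X := inter_subset_left.trans h.sub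
  obtain ⟨f, hf, hc, hs, hf0, -, hf1⟩ := exists_cutK (isCompact_singleton (x := z)) hW
    (singleton_subset_iff.2 ⟨hz, hz'⟩)
  obtain ⟨g, hg, hgc, hgs, hg0, -, hg1⟩ := exists_cutK hc hW hs
  have hfC : CutC (U ∩ U') f := ⟨hf, hc, hs⟩
  have hgC : CutC (U ∩ U') g := ⟨hg, hgc, hgs⟩
  have hf1 := hf1 z rfl
  have hgz : g z = 1 := hg1 z (subset_tsupport f (by rw [Function.mem_support, hf1]; norm_num))
  have ma : (fun x => (g x : ℂ) • α x) ∈ M.A0 :=
    FB.cut_mem_A0 hW hWX hgC.smC hgC.csC hgC.subC fun z hz => h.sm z hz.1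
  have ma' : (fun x => (g x : ℂ) • α' x) ∈ M.A0 :=
    FB.cut_mem_A0 hW hWX hgC.smC hgC.csC hgC.subC fun z hz => h'.sm z hz.2
  set a : M.H0 := M.s0 _ ma with ha
  set a' : M.H0 := M.s0 _ ma' with ha'
  have mζ : (fun x => (f x : ℂ) • (a - a').f x) ∈ M.A0 :=
    FB.smul_mem_A0' (a - a').mem fun z _ => hfC.smC.contDiffAt
  set ζ : M.H0 := M.s0 _ mζ with hζ
  have hζ0 : ∀ x, x ∉ tsupport f → ζ.f x = 0 := by
    intro x hx
    show (f x : ℂ) • (a - a').f x = 0
    rw [hfC.zero hx]; simp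
  have hsup : ∀ {W : Set ℂ}, U ∩ U' ⊆ W → M.Sup ζ W := fun {W} hW =>
    ⟨tsupport f, hs.trans hW, hc, hζ0⟩
  have e1 := h.rep ζ (hsup inter_subset_left)
  have e2 := h'.rep ζ (hsup inter_subset_right)
  have e3 : ∫ x, M.G x (ζ.f x) (α x) = ∫ x, M.G x (ζ.f x) (a.f x) := by
    refine integral_congr_ae (Eventually.of_forall fun x => ?_)
    simp only
    by_cases hx : x ∈ tsupport f
    · have : a.f x = α x := by
        show (g x : ℂ) • α x = α x
        rw [hg1 x hx]; simp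
      rw [this]
    · rw [hζ0 x hx]; simp
  have e4 : ∫ x, M.G x (ζ.f x) (α' x) = ∫ x, M.G x (ζ.f x) (a'.f x) := by
    refine integral_congr_ae (Eventually.of_forall fun x => ?_)
    simp only
    by_cases hx : x ∈ tsupport f
    · have : a'.f x = α' x := by
        show (g x : ℂ) • α' x = α' x
        rw [hg1 x hx]; simp
      rw [this]
    · rw [hζ0 x hx]; simp
  have e5 : ∫ x, M.G x (ζ.f x) ((a - a').f x) = 0 := by
    have : ∀ x, M.G x (ζ.f x) ((a - a').f x) = M.G x (ζ.f x) (a.f x) - M.G x (ζ.f x) (a'.f x) := by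
      intro x
      rw [sub_f, map_sub]
    simp only [this]
    rw [integral_sub (M.cs ζ.mem a.mem).integrable (M.cs ζ.mem a'.mem).integrable, ← e3, ← e4,
      ← e1, ← e2, sub_self]
  have hpt : ∀ x, (M.G x (ζ.f x) ((a - a').f x)).re =
      f x * (M.G x ((a - a').f x) ((a - a').f x)).re := by
    intro x
    have : ζ.f x = (f x : ℂ) • (a - a').f x := rfl
    rw [this, map_smulₛₗ, smul_apply, Complex.conj_ofReal, smul_eq_mul, Complex.re_ofReal_mul]
  have hnn : ∀ x, 0 ≤ (M.G x (ζ.f x) ((a - a').f x)).re := by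
    intro x
    rw [hpt]
    by_cases hx : x ∈ X
    · exact mul_nonneg (hf0 x) (M.G_nonneg hx _)
    · rw [M.f_eq_zero' (a - a') hx]; simp
  have hcs := M.cs ζ.mem (a - a').mem
  have hint : Integrable (fun x => (M.G x (ζ.f x) ((a - a').f x)).re) := hcs.integrable.re
  have h0 : ∫ x, (M.G x (ζ.f x) ((a - a').f x)).re = 0 := by
    have := integral_re hcs.integrable
    have h2 : ∫ x, (M.G x (ζ.f x) ((a - a').f x)).re =
      (∫ x, M.G x (ζ.f x) ((a - a').f x)).re := this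
    rw [h2, e5, Complex.zero_re]
  have hae := (integral_eq_zero_iff_of_nonneg hnn hint).1 h0
  have hcont : Continuous (fun x => (M.G x (ζ.f x) ((a - a').f x)).re) :=
    Complex.continuous_re.comp hcs.continuous
  have hall := (Continuous.ae_eq_iff_eq volume hcont continuous_const).1 hae
  have hz0 : (M.G z (ζ.f z) ((a - a').f z)).re = 0 := congrFun hall z
  rw [hpt, hf1, one_mul] at hz0
  have h3 := eq_zero_of_G (h.sub hz) hz0
  have h4 : (a - a').f z = α z - α' z := by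
    show (g z : ℂ) • α z - (g z : ℂ) • α' z = α z - α' z
    rw [hgz]; simp
  rw [h4] at h3
  exact sub_eq_zero.1 h3

/-- smooth global representative -/
structure GRep (M : MB V X) (η : M.L2) (α : ℂ → V) : Prop where
  sm : M.Sm α
  rep : ∀ ζ : M.H0, inner ℂ (ζ : M.L2) η = ∫ x, M.G x (ζ.f x) (α x)

/-- local representatives glue -/
theorem LRep.glue {η : M.L2} (h : ∀ z ∈ X, ∃ U, z ∈ U ∧ ∃ α, M.LRep η U α) :
    ∃ α, M.GRep η α := by
  classical
  choose! U hzU β hβ using h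
  set α : ℂ → V := fun x => β x x with hα
  have hagree : ∀ z ∈ X, ∀ x ∈ U z, α x = β z x := by
    intro z hz x hx
    have hxX : x ∈ X := (hβ z hz).sub hx
    exact (hβ x hxX).unique (hβ z hz) (hzU x hxX) hx
  have hsm : M.Sm α := by
    intro z hz
    refine ((hβ z hz).sm z (hzU z hz)).congr_of_eventuallyEq ?_
    filter_upwards [(hβ z hz).op.mem_nhds (hzU z hz)] with y hy
    rw [FB.tr, FB.tr, hagree z hz y hy]
  refine ⟨α, hsm, fun ζ => ?_⟩
  obtain ⟨K, hK, hKc, h0⟩ := ζ.mem.2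
  obtain ⟨s, f, hf1, hf2, hf3, hf4⟩ := exists_partition hKc (U := U)
    (fun x hx => ⟨(hβ x (hK hx)).op, hzU x (hK hx)⟩)
  have hfC : ∀ i : K, ContDiff ℝ ∞ (fun x => (f i x : ℂ)) := fun i =>
    Complex.ofRealCLM.contDiff.comp (hf1 i)
  have hm : ∀ i : K, (fun x => (f i x : ℂ) • ζ.f x) ∈ M.A0 := fun i =>
    FB.smul_mem_A0' ζ.mem fun z _ => (hfC i).contDiffAt
  have hsum : ζ = ∑ i ∈ s, M.s0 _ (hm i) := by
    refine H0.ext ?_
    funext x
    rw [M.sum_f' s (fun i => M.s0 _ (hm i)) x]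
    simp only [s0_f]
    rw [← Finset.sum_smul]
    by_cases hx : x ∈ K
    · have : ∑ i ∈ s, (f i x : ℂ) = 1 := by
        have := hf4 x hx
        exact_mod_cast this
      rw [this, one_smul]
    · rw [h0 x hx, smul_zero]
  have hterm : ∀ i : K, inner ℂ ((M.s0 _ (hm i) : M.H0) : M.L2) η =
      ∫ x, M.G x ((M.s0 _ (hm i)).f x) (α x) := by
    intro i
    rw [(hβ i (hK i.2)).rep (M.s0 _ (hm i)) ⟨K ∩ tsupport (f i), fun x hx => hf2 i hx.2,
      hKc.inter_right (isClosed_tsupport _), fun x hx => ?_⟩]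
    · refine integral_congr_ae (Eventually.of_forall fun x => ?_)
      simp only [s0_f]
      by_cases hx : x ∈ tsupport (f i)
      · rw [hagree i (hK i.2) x (hf2 i hx)]
      · have : f i x = 0 := image_eq_zero_of_notMem_tsupport hx
        rw [this]; simp
    · show (f i x : ℂ) • ζ.f x = 0
      by_cases hxK : x ∈ K
      · have : f i x = 0 := image_eq_zero_of_notMem_tsupport fun h => hx ⟨hxK, h⟩
        rw [this]; simp
      · rw [h0 x hxK, smul_zero]
  have e1 : (ζ : M.L2) = ∑ i ∈ s, ((M.s0 _ (hm i) : M.H0) : M.L2) := by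
    conv_lhs => rw [hsum]
    exact M.coe_sum' s _
  have hint : ∀ i ∈ s, Integrable (fun x => M.G x ((M.s0 _ (hm i)).f x) (α x)) := fun i _ =>
    (M.cs_left (hm i) hsm).integrable
  rw [e1, sum_inner, Finset.sum_congr rfl fun i _ => hterm i, ← integral_finsetSum _ hint]
  refine integral_congr_ae (Eventually.of_forall fun x => ?_)
  simp only
  have e2 : ζ.f x = ∑ i ∈ s, (M.s0 _ (hm i)).f x := by
    conv_lhs => rw [hsum]
    exact M.sum_f' s (fun i => M.s0 _ (hm i)) x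
  rw [e2, map_sum, ContinuousLinearMap.sum_apply]

end MB

end Crest.Agent.R276.IpcG1_975
end

-- ▼ part R276/IpcLc_975
section

/-!
# R276, IPC fixed-s assembly (helper975), part 11: local L² coordinates of an element of `M.L2`
-/

set_option autoImplicit false

open Set Filter Topology MeasureTheory UniformSpace
open scoped ContDiff ComplexConjugate ENNReal

namespace Crest.Agent.R276.IpcG1_975

open VCalc_442 IpcGr_975

variable {V : Type*} [NormedAddCommGroup V] [NormedSpace ℂ V] {X : Set ℂ}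

namespace MB

/-- a small disc -/
structure Disc (M : MB V X) (z : ℂ) (r : ℝ) : Prop where
  pos : 0 < r
  nb : ∃ U, M.Nb z U ∧ Metric.closedBall z r ⊆ U
  bd : ∃ C : ℝ, 0 < C ∧ ∀ y ∈ Metric.closedBall z r, ∀ u, ‖M.P z y u‖ ^ 2 ≤ C * (M.G y u u).re

theorem exists_disc (M : MB V X) {z : ℂ} (hz : z ∈ X) : ∃ r, M.Disc z r := by
  obtain ⟨U, hU⟩ := M.exists_nb hz
  obtain ⟨C, hC, hb⟩ := M.bd z hz
  obtain ⟨r, hr, hrU⟩ := Metric.mem_nhds_iff.1 (inter_mem (hU.op.mem_nhds hU.mem) hb)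
  have hsub : Metric.closedBall z (r / 2) ⊆ Metric.ball z r :=
    Metric.closedBall_subset_ball (by linarith)
  exact ⟨r / 2, by linarith, ⟨U, hU, fun y hy => (hrU (hsub hy)).1⟩, C, hC,
    fun y hy u => ((hrU (hsub hy)).2 u).1⟩

/-- exists a small disc inside a neighbourhood -/
theorem Disc.mono {M : MB V X} {z : ℂ} {r r' : ℝ} (h : M.Disc z r) (hr' : 0 < r') (hle : r' ≤ r) :
    M.Disc z r' := by
  obtain ⟨U, hU, hs⟩ := h.nb
  obtain ⟨C, hC, hb⟩ := h.bd
  exact ⟨hr', ⟨U, hU, (Metric.closedBall_subset_closedBall hle).trans hs⟩, C, hC,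
    fun y hy => hb y (Metric.closedBall_subset_closedBall hle hy)⟩

variable {M : MB V X} {z : ℂ} {r : ℝ}

theorem Disc.sub (h : M.Disc z r) : Metric.closedBall z r ⊆ X := by
  obtain ⟨U, hU, hs⟩ := h.nb
  exact hs.trans hU.sub

/-- measure on the disc -/
noncomputable abbrev mu (z : ℂ) (r : ℝ) : Measure ℂ := volume.restrict (Metric.ball z r)

instance (z : ℂ) (r : ℝ) : IsFiniteMeasure (mu z r) :=
  ⟨by rw [Measure.restrict_apply_univ]; exact measure_ball_lt_top⟩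

theorem Disc.contOn (h : M.Disc z r) {φ : ℂ → V} (hφ : M.Sm φ) :
    ContinuousOn (M.tr z φ) (Metric.closedBall z r) := by
  obtain ⟨U, hU, hs⟩ := h.nb
  exact (hU.contDiffOn hφ).continuousOn.mono hs

theorem Disc.memLp (h : M.Disc z r) {φ : ℂ → V} (hφ : M.Sm φ) (ℓ : V →L[ℂ] ℂ) :
    MemLp (fun y => ℓ (M.tr z φ y)) 2 (mu z r) := by
  have hc : ContinuousOn (fun y => ℓ (M.tr z φ y)) (Metric.closedBall z r) :=
    ℓ.continuous.comp_continuousOn (h.contOn hφ)
  obtain ⟨B, hB⟩ := (isCompact_closedBall z r).exists_bound_of_continuousOn hc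
  refine MemLp.of_bound ((hc.mono Metric.ball_subset_closedBall).aestronglyMeasurable
    Metric.isOpen_ball.measurableSet) B ?_
  filter_upwards [ae_restrict_mem Metric.isOpen_ball.measurableSet] with y hy
  exact hB y (Metric.ball_subset_closedBall hy)

theorem norm_sq_toLp {μ : Measure ℂ} {f : ℂ → ℂ} (hf : MemLp f 2 μ) :
    ‖hf.toLp f‖ ^ 2 = ∫ x, ‖f x‖ ^ 2 ∂μ := by
  have h1 : ‖hf.toLp f‖ ^ 2 = (inner ℂ (hf.toLp f) (hf.toLp f)).re :=
    norm_sq_eq_re_inner (𝕜 := ℂ) _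
  rw [h1, L2.inner_def]
  have h2 : (∫ a, inner ℂ ((hf.toLp f) a) ((hf.toLp f) a) ∂μ) = ∫ x, ((‖f x‖ ^ 2 : ℝ) : ℂ) ∂μ := by
    refine integral_congr_ae ?_
    filter_upwards [hf.coeFn_toLp] with x hx
    rw [hx, inner_self_eq_norm_sq_to_K]
    push_cast
    rfl
  have h3 : ∫ x, ((‖f x‖ ^ 2 : ℝ) : ℂ) ∂μ = ((∫ x, ‖f x‖ ^ 2 ∂μ : ℝ) : ℂ) :=
    integral_ofReal (𝕜 := ℂ)
  rw [h2, h3, Complex.ofReal_re]

/-- the bound -/
theorem Disc.bound (h : M.Disc z r) (ℓ : V →L[ℂ] ℂ) :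
    ∃ C : ℝ, ∀ φ : M.H0, ‖(h.memLp φ.mem.1 ℓ).toLp _‖ ≤ C * ‖φ‖ := by
  obtain ⟨C, hC, hb⟩ := h.bd
  refine ⟨Real.sqrt (‖ℓ‖ ^ 2 * C), fun φ => ?_⟩
  have h0 : 0 ≤ Real.sqrt (‖ℓ‖ ^ 2 * C) * ‖φ‖ := by positivity
  refine (abs_le_of_sq_le_sq' ?_ h0).2
  rw [mul_pow, Real.sq_sqrt (by positivity), norm_sq_toLp, M.norm_sq_H0]
  have hint : Integrable (fun x => (M.G x (φ.f x) (φ.f x)).re) :=
    (M.cs φ.mem φ.mem).integrable.re
  have hle : ∀ y ∈ Metric.ball z r, ‖ℓ (M.tr z φ.f y)‖ ^ 2 ≤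
      ‖ℓ‖ ^ 2 * C * (M.G y (φ.f y) (φ.f y)).re := by
    intro y hy
    have h1 := ℓ.le_opNorm (M.tr z φ.f y)
    have h2 := hb y (Metric.ball_subset_closedBall hy) (φ.f y)
    calc ‖ℓ (M.tr z φ.f y)‖ ^ 2 ≤ (‖ℓ‖ * ‖M.tr z φ.f y‖) ^ 2 := by gcongr
      _ = ‖ℓ‖ ^ 2 * ‖M.P z y (φ.f y)‖ ^ 2 := by rw [mul_pow]; rfl
      _ ≤ ‖ℓ‖ ^ 2 * (C * (M.G y (φ.f y) (φ.f y)).re) := by gcongr
      _ = _ := by ring
  calc ∫ x in Metric.ball z r, ‖ℓ (M.tr z φ.f x)‖ ^ 2
      ≤ ∫ x in Metric.ball z r, ‖ℓ‖ ^ 2 * C * (M.G x (φ.f x) (φ.f x)).re := by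
        refine setIntegral_mono_on ?_ (hint.const_mul _).integrableOn
          Metric.isOpen_ball.measurableSet hle
        exact ((h.memLp φ.mem.1 ℓ).integrable_norm_pow (by norm_num)).congr
          (Eventually.of_forall fun x => rfl)
    _ ≤ ∫ x, ‖ℓ‖ ^ 2 * C * (M.G x (φ.f x) (φ.f x)).re := by
        refine setIntegral_le_integral (hint.const_mul _) (Eventually.of_forall fun x => ?_)
        show 0 ≤ ‖ℓ‖ ^ 2 * C * (M.G x (φ.f x) (φ.f x)).re
        by_cases hx : x ∈ X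
        · have := M.G_nonneg hx (φ.f x)
          positivity
        · rw [M.f_eq_zero' φ hx]; simp
    _ = ‖ℓ‖ ^ 2 * C * ∫ x, (M.G x (φ.f x) (φ.f x)).re := integral_const_mul _ _

/-- the local coordinate map on `H0` -/
noncomputable def Disc.loc0 (h : M.Disc z r) (ℓ : V →L[ℂ] ℂ) : M.H0 →L[ℂ] Lp ℂ 2 (mu z r) :=
  LinearMap.mkContinuous
    { toFun := fun φ => (h.memLp φ.mem.1 ℓ).toLp _
      map_add' := fun φ ψ => by
        rw [← MemLp.toLp_add]
        refine MemLp.toLp_congr _ _ (Eventually.of_forall fun y => ?_)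
        simp [FB.tr]
      map_smul' := fun c φ => by
        rw [RingHom.id_apply, ← MemLp.toLp_const_smul]
        refine MemLp.toLp_congr _ _ (Eventually.of_forall fun y => ?_)
        simp [FB.tr] }
    (h.bound ℓ).choose (h.bound ℓ).choose_spec

/-- the local coordinate map on `L2` -/
noncomputable def Disc.loc (h : M.Disc z r) (ℓ : V →L[ℂ] ℂ) : M.L2 →L[ℂ] Lp ℂ 2 (mu z r) :=
  (h.loc0 ℓ).fromCompletion

theorem Disc.loc_coe (h : M.Disc z r) (ℓ : V →L[ℂ] ℂ) (φ : M.H0) :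
    h.loc ℓ (φ : M.L2) = (h.memLp φ.mem.1 ℓ).toLp _ :=
  ContinuousLinearMap.fromCompletion_apply_coe _ _

/-- the coefficient functions -/
theorem Disc.coef (h : M.Disc z r) (ζ : M.H0) (e : V) :
    MemLp (fun y => (starRingEnd ℂ) (M.G y (ζ.f y) (M.P y z e))) 2 (mu z r) := by
  obtain ⟨U, hU, hs⟩ := h.nb
  obtain ⟨f, hf, hc, hfs, -, -, hf1⟩ := exists_cutK (isCompact_closedBall z r) hU.op hs
  have hfC : CutC U f := ⟨hf, hc, hfs⟩
  have hsm : ∀ x ∈ U, ContDiffAt ℝ ∞ (M.tr x (fun y => M.P y z e)) x := by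
    intro x hx
    have e1 : M.tr x (fun y => M.P y z e) =ᶠ[𝓝 x] fun _ => M.P x z e := by
      filter_upwards [hU.op.mem_nhds hx] with y hy
      exact hU.comp_apply hx hy hU.mem e
    exact contDiffAt_const.congr_of_eventuallyEq e1
  have hm : (fun x => (f x : ℂ) • M.P x z e) ∈ M.A0 :=
    FB.cut_mem_A0 hU.op hU.sub hfC.smC hfC.csC hfC.subC hsm
  have hcont := (M.cs ζ.mem hm).continuous
  obtain ⟨B, hB⟩ := (isCompact_closedBall z r).exists_bound_of_continuousOn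
    (Complex.continuous_conj.comp hcont).continuousOn
  have hmem : MemLp (fun y => (starRingEnd ℂ) (M.G y (ζ.f y) ((f y : ℂ) • M.P y z e))) 2
      (mu z r) := by
    refine MemLp.of_bound (Complex.continuous_conj.comp hcont).aestronglyMeasurable B ?_
    filter_upwards [ae_restrict_mem Metric.isOpen_ball.measurableSet] with y hy
    exact hB y (Metric.ball_subset_closedBall hy)
  refine hmem.ae_eq ?_
  filter_upwards [ae_restrict_mem Metric.isOpen_ball.measurableSet] with y hy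
  rw [hf1 y (Metric.ball_subset_closedBall hy)]
  simp

/-- **the pairing in local coordinates** -/
theorem Disc.pair (h : M.Disc z r) {κ : Type*} [Fintype κ] {e : κ → V} {ℓ : κ → (V →L[ℂ] ℂ)}
    (hel : ∀ u, ∑ k, ℓ k u • e k = u) {ζ : M.H0} (hζ : M.Sup ζ (Metric.ball z r)) (η : M.L2) :
    inner ℂ (ζ : M.L2) η = ∫ y in Metric.ball z r,
      ∑ k, M.G y (ζ.f y) (M.P y z (e k)) * (h.loc (ℓ k) η) y := by
  have e1 : ∀ η : M.L2, ∫ y in Metric.ball z r,
      ∑ k, M.G y (ζ.f y) (M.P y z (e k)) * (h.loc (ℓ k) η) y =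
      ∑ k, inner ℂ ((h.coef ζ (e k)).toLp _) (h.loc (ℓ k) η) := by
    intro η
    rw [integral_finsetSum]
    · refine Finset.sum_congr rfl fun k _ => ?_
      rw [L2.inner_def]
      refine integral_congr_ae ?_
      filter_upwards [(h.coef ζ (e k)).coeFn_toLp] with y hy
      rw [hy, RCLike.inner_apply, Complex.conj_conj, mul_comm]
    · intro k _
      have := L2.integrable_inner (𝕜 := ℂ) ((h.coef ζ (e k)).toLp _) (h.loc (ℓ k) η)
      refine this.congr ?_
      filter_upwards [(h.coef ζ (e k)).coeFn_toLp] with y hy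
      rw [hy, RCLike.inner_apply, Complex.conj_conj, mul_comm]
  refine M.dense_ext (f := fun η => inner ℂ (ζ : M.L2) η) (g := fun η => ∫ y in Metric.ball z r,
      ∑ k, M.G y (ζ.f y) (M.P y z (e k)) * (h.loc (ℓ k) η) y) (by fun_prop) ?_ (fun φ => ?_) η
  · simp only [e1]
    refine continuous_finsetSum _ fun k _ => ?_
    exact continuous_const.inner (h.loc (ℓ k)).continuous
  · rw [Completion.inner_coe, M.inner_H0]
    obtain ⟨K, hK, hKc, h0⟩ := hζ
    have e2 : ∫ x, M.G x (ζ.f x) (φ.f x) = ∫ x in Metric.ball z r, M.G x (ζ.f x) (φ.f x) := by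
      symm
      refine setIntegral_eq_integral_of_forall_compl_eq_zero fun x hx => ?_
      rw [h0 x fun h => hx (hK h)]; simp
    rw [e2]
    refine integral_congr_ae ?_
    have hall : ∀ᵐ y ∂(mu z r), ∀ k, (h.loc (ℓ k) (φ : M.L2)) y = ℓ k (M.tr z φ.f y) := by
      rw [ae_all_iff]
      intro k
      rw [h.loc_coe]
      exact (h.memLp φ.mem.1 (ℓ k)).coeFn_toLp
    filter_upwards [hall, ae_restrict_mem Metric.isOpen_ball.measurableSet] with y hy hyb
    obtain ⟨U, hU, hs⟩ := h.nb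
    have hyU : y ∈ U := hs (Metric.ball_subset_closedBall hyb)
    have e3 : φ.f y = ∑ k, ℓ k (M.tr z φ.f y) • M.P y z (e k) := by
      conv_lhs => rw [hU.val hyU φ.f, ← hel (M.tr z φ.f y)]
      rw [map_sum]
      simp only [map_smul]
    conv_lhs => rw [e3]
    rw [map_sum]
    refine Finset.sum_congr rfl fun k _ => ?_
    rw [map_smul, hy k, smul_eq_mul, mul_comm]

end MB

end Crest.Agent.R276.IpcG1_975
end

-- ▼ part R276/IpcRg_975

/-!
# R276, IPC fixed-s assembly (helper975), part 12: harmonic elements are smooth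
-/

set_option autoImplicit false

open Set Filter Topology MeasureTheory UniformSpace
open scoped ContDiff ComplexConjugate ENNReal

namespace Crest.Agent.R276.IpcG1_975

open VCalc_442 IpcGr_975 IpcReg_309

theorem dS_I (φ : ℂ → ℂ) (z : ℂ) : dS Complex.I φ z = dB φ 1 z := by
  unfold dS dB
  simp [smul_eq_mul]

theorem dS_negI (φ : ℂ → ℂ) (z : ℂ) : dS (-Complex.I) φ z = dW φ 1 z := by
  unfold dS dW
  simp [smul_eq_mul, sub_eq_add_neg]

theorem dW_conj_fun {χ : ℂ → ℂ} (z : ℂ) (hχ : DifferentiableAt ℝ χ z) :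
    dW (fun y => (starRingEnd ℂ) (χ y)) 1 z = (starRingEnd ℂ) (dB χ 1 z) :=
  dW_conj (Complex.conjCLE : ℂ →L[ℝ] ℂ) (fun c a => by simp) hχ 1

theorem dB_conj_fun {χ : ℂ → ℂ} (z : ℂ) (hχ : DifferentiableAt ℝ χ z) :
    dB (fun y => (starRingEnd ℂ) (χ y)) 1 z = (starRingEnd ℂ) (dW χ 1 z) :=
  dB_conj (Complex.conjCLE : ℂ →L[ℝ] ℂ) (fun c a => by simp) hχ 1

variable {X : Set ℂ}

namespace PV

section dual

variable {V : Type*} [NormedAddCommGroup V] [NormedSpace ℂ V] [FiniteDimensional ℂ V] {w : ℕ}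
  (M : PV V X w)

/-- every functional is `S(u, ·)` -/
theorem exists_dual {z : ℂ} (hz : z ∈ X) (f : Module.Dual ℂ V) : ∃ u, ∀ v, M.S z u v = f v := by
  let T : V →ₗ[ℝ] Module.Dual ℂ V :=
    { toFun := fun u => (M.S z u).toLinearMap
      map_add' := fun a b => by ext v; simp
      map_smul' := fun r a => by
        ext v
        have h1 : M.S z (r • a) = (r : ℂ) • M.S z a := by
          rw [← Complex.coe_smul r a, map_smulₛₗ, Complex.conj_ofReal]
        simp [h1] }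
  have hinj : Function.Injective T := by
    rw [← LinearMap.ker_eq_bot, LinearMap.ker_eq_bot']
    intro u hu
    refine M.nondeg hz fun v => ?_
    rw [← M.hermS z hz]
    have : M.S z u v = 0 := congrArg (fun L : Module.Dual ℂ V => L v) hu
    rw [this, map_zero]
  haveI : FiniteDimensional ℝ V := FiniteDimensional.complexToReal V
  haveI : FiniteDimensional ℝ (Module.Dual ℂ V) := FiniteDimensional.complexToReal _
  have hdim : Module.finrank ℝ V = Module.finrank ℝ (Module.Dual ℂ V) := by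
    rw [finrank_real_of_complex, finrank_real_of_complex, Subspace.dual_finrank_eq]
  obtain ⟨u, hu⟩ := (LinearMap.injective_iff_surjective_of_finrank_eq_finrank hdim).1 hinj f
  exact ⟨u, fun v => congrArg (fun L : Module.Dual ℂ V => L v) hu⟩

end dual

variable {ι : Type*} [Fintype ι] [DecidableEq ι] {w : ℕ} (M : PV (ι → ℂ) X w)

/-- the standard basis of the space of forms -/
noncomputable def bas : ι ⊕ ι → (ι → ℂ) × (ι → ℂ) :=
  Sum.elim (fun i => (Pi.single i 1, 0)) (fun i => (0, Pi.single i 1))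

/-- the coordinates -/
noncomputable def coo : ι ⊕ ι → ((ι → ℂ) × (ι → ℂ) →L[ℂ] ℂ) :=
  Sum.elim (fun i => (ContinuousLinearMap.proj (R := ℂ) (φ := fun _ : ι => ℂ) i).comp
      (ContinuousLinearMap.fst ℂ _ _))
    (fun i => (ContinuousLinearMap.proj (R := ℂ) (φ := fun _ : ι => ℂ) i).comp
      (ContinuousLinearMap.snd ℂ _ _))

theorem sum_single (v : ι → ℂ) : ∑ i, v i • (Pi.single i 1 : ι → ℂ) = v := by
  ext j
  simp [Finset.sum_apply, Pi.single_apply]

theorem coo_bas (u : (ι → ℂ) × (ι → ℂ)) : ∑ k, (coo k u : ℂ) • (bas k : (ι → ℂ) × (ι → ℂ)) = u := by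
  rw [Fintype.sum_sum_type]
  have h1 : ∑ i : ι, (coo (Sum.inl i) u : ℂ) • (bas (Sum.inl i) : (ι → ℂ) × (ι → ℂ)) = (u.1, 0) := by
    refine Prod.ext ?_ ?_
    · rw [Prod.fst_sum]
      exact sum_single u.1
    · rw [Prod.snd_sum]
      simp [bas]
  have h2 : ∑ i : ι, (coo (Sum.inr i) u : ℂ) • (bas (Sum.inr i) : (ι → ℂ) × (ι → ℂ)) = (0, u.2) := by
    refine Prod.ext ?_ ?_
    · rw [Prod.fst_sum]
      simp [bas]
    · rw [Prod.snd_sum]
      exact sum_single u.2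
  rw [h1, h2]
  simp

/-- small discs on which `S` is constant in the frame at the centre -/
structure PDisc (z : ℂ) (r : ℝ) : Prop where
  d : M.mb.dbl.Disc z r
  nb : ∃ U, M.toFB.Nb z U ∧ Metric.closedBall z r ⊆ U ∧
    ∀ y ∈ U, ∀ u v, M.S z (M.P z y u) (M.P z y v) = M.S y u v

theorem exists_pdisc {z : ℂ} (hz : z ∈ X) : ∃ r, M.PDisc z r := by
  obtain ⟨r, hr⟩ := M.mb.dbl.exists_disc hz
  obtain ⟨U, hU, hS⟩ := Nb.exists_flatS (M := M) hz
  obtain ⟨r', hr', hr'U⟩ := Metric.mem_nhds_iff.1 (hU.op.mem_nhds hU.mem)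
  have hmin : 0 < min r (r' / 2) := lt_min hr.pos (by linarith)
  refine ⟨min r (r' / 2), hr.mono hmin (min_le_left _ _), U, hU, ?_, hS⟩
  refine (Metric.closedBall_subset_ball ?_).trans hr'U
  exact lt_of_le_of_lt (min_le_right _ _) (by linarith)

variable {M} {z : ℂ} {r : ℝ}

/-- the test section `conj χ • u` -/
noncomputable def tst (F : FB (ι → ℂ) X) (z : ℂ) (χ : ℂ → ℂ) (u : ι → ℂ) (y : ℂ) : ι → ℂ :=
  (starRingEnd ℂ) (χ y) • F.P y z u

theorem tst_mem (h : M.PDisc z r) {χ : ℂ → ℂ} (hχ : Cut (Metric.ball z r) χ) (u : ι → ℂ) :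
    tst M.toFB z χ u ∈ M.A0 := by
  obtain ⟨U, hU, hs, -⟩ := h.nb
  refine FB.cut_mem_A0 hU.op hU.sub (f := fun y => (starRingEnd ℂ) (χ y))
    (Complex.conjCLE.contDiff.comp hχ.sm)
    (hχ.cs.comp_left (g := fun x : ℂ => (starRingEnd ℂ) x) (map_zero _)) ?_ ?_
  · refine (closure_mono fun y hy h0 => ?_ : tsupport (fun y => (starRingEnd ℂ) (χ y)) ⊆ tsupport χ).trans
      ((hχ.sub.trans Metric.ball_subset_closedBall).trans hs)
    exact hy (by show (starRingEnd ℂ) (χ y) = 0; rw [h0, map_zero])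
  · intro x hx
    have e1 : M.tr x (fun y => M.P y z u) =ᶠ[𝓝 x] fun _ => M.P x z u := by
      filter_upwards [hU.op.mem_nhds hx] with y hy
      exact hU.comp_apply hx hy hU.mem u
    exact contDiffAt_const.congr_of_eventuallyEq e1

theorem tst_tr (h : M.PDisc z r) (χ : ℂ → ℂ) (u : ι → ℂ) {y : ℂ}
    (hy : y ∈ Metric.ball z r) : M.tr z (tst M.toFB z χ u) =ᶠ[𝓝 y]
      fun x => (starRingEnd ℂ) (χ x) • u := by
  obtain ⟨U, hU, hs, -⟩ := h.nb
  have hyU : y ∈ U := hs (Metric.ball_subset_closedBall hy)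
  filter_upwards [hU.op.mem_nhds hyU] with x hx
  show M.P z x ((starRingEnd ℂ) (χ x) • M.P x z u) = _
  rw [map_smul, hU.inv_apply hU.mem hx]

theorem dW_smul_const {f : ℂ → ℂ} {y : ℂ} (hf : DifferentiableAt ℝ f y) (u : ι → ℂ) :
    dW (fun x => f x • u) 1 y = dW f 1 y • u := by
  have := dW_clm ((ContinuousLinearMap.id ℂ ℂ).smulRight u) hf 1
  exact this

theorem dB_smul_const {f : ℂ → ℂ} {y : ℂ} (hf : DifferentiableAt ℝ f y) (u : ι → ℂ) :
    dB (fun x => f x • u) 1 y = dB f 1 y • u := by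
  have := dB_clm ((ContinuousLinearMap.id ℂ ℂ).smulRight u) hf 1
  exact this

theorem tst_d1 (h : M.PDisc z r) {χ : ℂ → ℂ} (hχ : Cut (Metric.ball z r) χ) (u : ι → ℂ) {y : ℂ}
    (hy : y ∈ Metric.ball z r) :
    M.d1 (tst M.toFB z χ u) y = M.P y z ((starRingEnd ℂ) (dB χ 1 y) • u) := by
  obtain ⟨U, hU, hs, -⟩ := h.nb
  have hyU : y ∈ U := hs (Metric.ball_subset_closedBall hy)
  have hd : DifferentiableAt ℝ χ y := hχ.sm.contDiffAt.differentiableAt (by simp)
  have hdc : DifferentiableAt ℝ (fun x => (starRingEnd ℂ) (χ x)) y :=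
    (Complex.conjCLE : ℂ →L[ℝ] ℂ).differentiableAt.comp y hd
  rw [hU.val hyU (M.d1 (tst M.toFB z χ u)), hU.tr_d1 (tst_mem h hχ u).1 hyU,
    dW_congr (tst_tr h χ u hy), dW_smul_const hdc, dW_conj_fun y hd]

theorem tst_d2 (h : M.PDisc z r) {χ : ℂ → ℂ} (hχ : Cut (Metric.ball z r) χ) (u : ι → ℂ) {y : ℂ}
    (hy : y ∈ Metric.ball z r) :
    M.d2 (tst M.toFB z χ u) y = M.P y z ((starRingEnd ℂ) (dW χ 1 y) • u) := by
  obtain ⟨U, hU, hs, -⟩ := h.nb
  have hyU : y ∈ U := hs (Metric.ball_subset_closedBall hy)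
  have hd : DifferentiableAt ℝ χ y := hχ.sm.contDiffAt.differentiableAt (by simp)
  have hdc : DifferentiableAt ℝ (fun x => (starRingEnd ℂ) (χ x)) y :=
    (Complex.conjCLE : ℂ →L[ℝ] ℂ).differentiableAt.comp y hd
  rw [hU.val hyU (M.d2 (tst M.toFB z χ u)), hU.tr_d2 (tst_mem h hχ u).1 hyU,
    dB_congr (tst_tr h χ u hy), dB_smul_const hdc, dB_conj_fun y hd]

/-- `S` in the frame at `z` -/
theorem PDisc.S (h : M.PDisc z r) {y : ℂ} (hy : y ∈ Metric.ball z r) (u v : ι → ℂ) :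
    M.S y (M.P y z u) (M.P y z v) = M.S z u v := by
  obtain ⟨U, hU, hs, hS⟩ := h.nb
  have hyU : y ∈ U := hs (Metric.ball_subset_closedBall hy)
  rw [← hS y hyU, hU.inv_apply hU.mem hyU, hU.inv_apply hU.mem hyU]

theorem PDisc.mem (h : M.PDisc z r) {y : ℂ} (hy : y ∈ Metric.ball z r) : y ∈ X :=
  h.d.sub (Metric.ball_subset_closedBall hy)

/-- local coordinate of `u` -/
noncomputable def PDisc.co (h : M.PDisc z r) (u : M.L) (k : ι ⊕ ι) : ℂ → ℂ := h.d.loc (coo k) u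

theorem tst_zero {χ : ℂ → ℂ} {F : FB (ι → ℂ) X} (hχ : Cut (Metric.ball z r) χ) (u : ι → ℂ) :
    ∀ x ∉ tsupport χ, tst F z χ u x = 0 := by
  intro x hx
  have : χ x = 0 := image_eq_zero_of_notMem_tsupport hx
  simp [tst, this]

theorem cut_dW_zero {χ : ℂ → ℂ} {y : ℂ} (hχ : Cut (Metric.ball z r) χ) (hy : y ∉ Metric.ball z r) :
    dS (-Complex.I) χ y = 0 :=
  image_eq_zero_of_notMem_tsupport fun h => hy ((hχ.dS (-Complex.I)).sub h)

theorem cut_dB_zero {χ : ℂ → ℂ} {y : ℂ} (hχ : Cut (Metric.ball z r) χ) (hy : y ∉ Metric.ball z r) :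
    dS (Complex.I) χ y = 0 :=
  image_eq_zero_of_notMem_tsupport fun h => hy ((hχ.dS Complex.I).sub h)

/-- the field `J` in the frame at `z` -/
noncomputable def Kf (M : PV (ι → ℂ) X w) (z : ℂ) (i j : ι) (y : ℂ) : ℂ :=
  M.trO z M.Jf y (Pi.single j 1) i

/-- pairing of `u` with `A (D φ)`, `A` a diagonal field -/
theorem PDisc.pairD (h : M.PDisc z r) (u : M.L) {A : ℂ → ((ι → ℂ) × (ι → ℂ) →L[ℂ] (ι → ℂ) × (ι → ℂ))}
    (hA : M.mb.dbl.Ok A) {χ : ℂ → ℂ} (hχ : Cut (Metric.ball z r) χ) (v : ι → ℂ) :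
    inner ℂ (M.mb.dbl.opL A (M.DL ⟨_, tst_mem h hχ v⟩)) u =
      ∫ y in Metric.ball z r, ∑ k, M.mb.dbl.G y (A y (M.P y z ((starRingEnd ℂ) (dB χ 1 y) • v),
        M.P y z ((starRingEnd ℂ) (dW χ 1 y) • v))) (M.toFB.dbl.P y z (bas k)) * h.co u k y := by
  rw [M.DL_apply, M.mb.dbl.op_coe hA]
  rw [h.d.pair (e := bas) (ℓ := coo) coo_bas]
  · refine setIntegral_congr_fun Metric.isOpen_ball.measurableSet fun y hy => ?_
    simp only
    refine Finset.sum_congr rfl fun k _ => ?_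
    have e : M.toFB.Df (tst M.toFB z χ v) y = (M.P y z ((starRingEnd ℂ) (dB χ 1 y) • v),
        M.P y z ((starRingEnd ℂ) (dW χ 1 y) • v)) :=
      Prod.ext (tst_d1 h hχ v hy) (tst_d2 h hχ v hy)
    have e2 : (M.mb.dbl.s0 (fun z_1 => A z_1 ((M.mb.dbl.s0 (M.toFB.Df (tst M.toFB z χ v))
        (FB.Df_mem (tst_mem h hχ v))).f z_1)) (FB.app_mem_A0 hA.1 (MB.H0.mem _))).f y =
        A y (M.toFB.Df (tst M.toFB z χ v) y) := rfl
    rw [e2, e]
    rfl
  · refine ⟨tsupport χ, hχ.sub, hχ.cs, fun x hx => ?_⟩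
    have e1 : M.d1 (tst M.toFB z χ v) x = 0 := FB.d1_zero_of hχ.cs (tst_zero hχ v) hx
    have e2 : M.d2 (tst M.toFB z χ v) x = 0 := FB.d2_zero_of hχ.cs (tst_zero hχ v) hx
    show A x (M.d1 (tst M.toFB z χ v) x, M.d2 (tst M.toFB z χ v) x) = 0
    rw [e1, e2]
    exact map_zero _

theorem S_conj (z : ℂ) (c : ℂ) (u v : ι → ℂ) :
    M.S z ((starRingEnd ℂ) c • u) v = c * M.S z u v := by
  rw [map_smulₛₗ, smul_apply, Complex.conj_conj, smul_eq_mul]

theorem P2_inl (y z : ℂ) (i : ι) :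
    M.toFB.dbl.P y z (bas (Sum.inl i)) = (M.P y z (Pi.single i 1), 0) := by
  show (M.P y z (Pi.single i 1), M.P y z 0) = _
  rw [map_zero]

theorem P2_inr (y z : ℂ) (i : ι) :
    M.toFB.dbl.P y z (bas (Sum.inr i)) = (0, M.P y z (Pi.single i 1)) := by
  show (M.P y z 0, M.P y z (Pi.single i 1)) = _
  rw [map_zero]

theorem ball_int {z : ℂ} {r : ℝ} {f : ℂ → ℂ} (h : ∀ y ∉ Metric.ball z r, f y = 0) :
    ∫ y in Metric.ball z r, f y = ∫ y, f y :=
  setIntegral_eq_integral_of_forall_compl_eq_zero fun x hx => h x hx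

theorem PDisc.l2 (h : M.PDisc z r) (u : M.L) (k : ι ⊕ ι) : L2l (Metric.ball z r) (h.co u k) := by
  intro K hK _
  have h1 : MemLp (h.co u k) 2 (volume.restrict (Metric.ball z r)) := Lp.memLp _
  exact h1.mono_measure (Measure.restrict_mono hK le_rfl)

/-- weak closedness in local coordinates -/
theorem PDisc.weak1 (h : M.PDisc z r) {u : M.L} (hu : u ∈ M.Zc) (hz : z ∈ X) (j : ι) {χ : ℂ → ℂ}
    (hχ : Cut (Metric.ball z r) χ) :
    ∫ y, dS Complex.I χ y * h.co u (Sum.inl j) y = ∫ y, dS (-Complex.I) χ y * h.co u (Sum.inr j) y := by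
  obtain ⟨v, hv⟩ := M.exists_dual hz (LinearMap.proj j : (ι → ℂ) →ₗ[ℂ] ℂ)
  have h0 : inner ℂ (M.mb.dbl.opL M.bt (M.DL ⟨_, tst_mem h hχ v⟩)) u = 0 := by
    have h1 := (M.mem_Zc'.1 hu) ⟨_, tst_mem h hχ v⟩
    have h2 : inner ℂ (M.be (M.DL ⟨_, tst_mem h hχ v⟩)) u = 0 := by
      rw [M.be_symm, ← inner_conj_symm, h1, map_zero]
    exact h2
  rw [h.pairD u M.ok_bt hχ v] at h0
  have key : ∀ y ∈ Metric.ball z r,
      ∑ k, M.mb.dbl.G y (M.bt y (M.P y z ((starRingEnd ℂ) (dB χ 1 y) • v),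
        M.P y z ((starRingEnd ℂ) (dW χ 1 y) • v))) (M.toFB.dbl.P y z (bas k)) * h.co u k y =
      dS (-Complex.I) χ y * h.co u (Sum.inr j) y - dS Complex.I χ y * h.co u (Sum.inl j) y := by
    intro y hy
    have hyX := h.mem hy
    rw [Fintype.sum_sum_type]
    have e1 : ∀ i : ι, M.mb.dbl.G y (M.bt y (M.P y z ((starRingEnd ℂ) (dB χ 1 y) • v),
        M.P y z ((starRingEnd ℂ) (dW χ 1 y) • v))) (M.toFB.dbl.P y z (bas (Sum.inl i))) =
        - (dB χ 1 y * (Pi.single i (1:ℂ) : ι → ℂ) j) := by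
      intro i
      rw [P2_inl]
      show M.Gf y (- M.Jf y (M.P y z ((starRingEnd ℂ) (dB χ 1 y) • v))) (M.P y z (Pi.single i 1)) +
        M.Gf y (M.Jf y (M.P y z ((starRingEnd ℂ) (dW χ 1 y) • v))) 0 = _
      rw [map_zero, add_zero, map_neg, neg_apply, M.G_J hyX, h.S hy, S_conj, hv]
      rfl
    have e2 : ∀ i : ι, M.mb.dbl.G y (M.bt y (M.P y z ((starRingEnd ℂ) (dB χ 1 y) • v),
        M.P y z ((starRingEnd ℂ) (dW χ 1 y) • v))) (M.toFB.dbl.P y z (bas (Sum.inr i))) =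
        dW χ 1 y * (Pi.single i (1:ℂ) : ι → ℂ) j := by
      intro i
      rw [P2_inr]
      show M.Gf y (- M.Jf y (M.P y z ((starRingEnd ℂ) (dB χ 1 y) • v))) 0 +
        M.Gf y (M.Jf y (M.P y z ((starRingEnd ℂ) (dW χ 1 y) • v))) (M.P y z (Pi.single i 1)) = _
      rw [map_zero, zero_add, M.G_J hyX, h.S hy, S_conj, hv]
      rfl
    simp only [e1, e2, Pi.single_apply, dS_I, dS_negI]
    simp only [mul_ite, mul_one, mul_zero, neg_ite, neg_zero, ite_mul, zero_mul,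
      Finset.sum_ite_eq, Finset.mem_univ, if_true]
    ring
  rw [setIntegral_congr_fun Metric.isOpen_ball.measurableSet key, ball_int, integral_sub] at h0
  · exact (sub_eq_zero.1 h0).symm
  · exact (hχ.dS (-Complex.I)).mul_integrable (h.l2 u _)
  · exact (hχ.dS Complex.I).mul_integrable (h.l2 u _)
  · intro y hy
    rw [cut_dW_zero hχ hy, cut_dB_zero hχ hy]; ring

/-- weak closedness of `β u` in local coordinates -/
theorem PDisc.weak2 (h : M.PDisc z r) {u : M.L} (hu : M.be u ∈ M.Zc) (hz : z ∈ X) (j : ι)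
    {χ : ℂ → ℂ} (hχ : Cut (Metric.ball z r) χ) :
    ∫ y, dS Complex.I χ y * ∑ i, Kf M z j i y * h.co u (Sum.inl i) y =
      - ∫ y, dS (-Complex.I) χ y * ∑ i, Kf M z j i y * h.co u (Sum.inr i) y := by
  obtain ⟨v, hv⟩ := M.exists_dual hz (LinearMap.proj j : (ι → ℂ) →ₗ[ℂ] ℂ)
  have h0 : inner ℂ (M.mb.dbl.opL (fun _ => 1) (M.DL ⟨_, tst_mem h hχ v⟩)) u = 0 := by
    have h1 := (M.mem_Zc'.1 hu) ⟨_, tst_mem h hχ v⟩
    rw [M.be_be] at h1
    rw [M.mb.dbl.opL_one, ← inner_conj_symm, h1, map_zero]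
  rw [h.pairD u M.mb.dbl.ok_one hχ v] at h0
  obtain ⟨U, hU, hs, hSU⟩ := h.nb
  have hJP : ∀ y ∈ Metric.ball z r, ∀ v, M.Jf y (M.P y z v) = M.P y z (M.trO z M.Jf y v) := by
    intro y hy v
    have hyU : y ∈ U := hs (Metric.ball_subset_closedBall hy)
    show M.Jf y (M.P y z v) = M.P y z (M.P z y (M.Jf y (M.P y z v)))
    rw [hU.inv_apply hyU hU.mem]
  have key : ∀ y ∈ Metric.ball z r,
      ∑ k, M.mb.dbl.G y ((1 : (ι → ℂ) × (ι → ℂ) →L[ℂ] (ι → ℂ) × (ι → ℂ))
        (M.P y z ((starRingEnd ℂ) (dB χ 1 y) • v),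
        M.P y z ((starRingEnd ℂ) (dW χ 1 y) • v))) (M.toFB.dbl.P y z (bas k)) * h.co u k y =
      dS Complex.I χ y * (∑ i, Kf M z j i y * h.co u (Sum.inl i) y) +
        dS (-Complex.I) χ y * ∑ i, Kf M z j i y * h.co u (Sum.inr i) y := by
    intro y hy
    have hyX := h.mem hy
    rw [Fintype.sum_sum_type]
    have e1 : ∀ i : ι, M.mb.dbl.G y ((1 : (ι → ℂ) × (ι → ℂ) →L[ℂ] (ι → ℂ) × (ι → ℂ))
        (M.P y z ((starRingEnd ℂ) (dB χ 1 y) • v),
        M.P y z ((starRingEnd ℂ) (dW χ 1 y) • v))) (M.toFB.dbl.P y z (bas (Sum.inl i))) =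
        dB χ 1 y * Kf M z j i y := by
      intro i
      rw [P2_inl]
      show M.Gf y (M.P y z ((starRingEnd ℂ) (dB χ 1 y) • v)) (M.P y z (Pi.single i 1)) +
        M.Gf y (M.P y z ((starRingEnd ℂ) (dW χ 1 y) • v)) 0 = _
      rw [map_zero, add_zero, Gf_apply, M.S_J hyX, hJP y hy, h.S hy, S_conj, hv]
      rfl
    have e2 : ∀ i : ι, M.mb.dbl.G y ((1 : (ι → ℂ) × (ι → ℂ) →L[ℂ] (ι → ℂ) × (ι → ℂ))
        (M.P y z ((starRingEnd ℂ) (dB χ 1 y) • v),
        M.P y z ((starRingEnd ℂ) (dW χ 1 y) • v))) (M.toFB.dbl.P y z (bas (Sum.inr i))) =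
        dW χ 1 y * Kf M z j i y := by
      intro i
      rw [P2_inr]
      show M.Gf y (M.P y z ((starRingEnd ℂ) (dB χ 1 y) • v)) 0 +
        M.Gf y (M.P y z ((starRingEnd ℂ) (dW χ 1 y) • v)) (M.P y z (Pi.single i 1)) = _
      rw [map_zero, zero_add, Gf_apply, M.S_J hyX, hJP y hy, h.S hy, S_conj, hv]
      rfl
    simp only [e1, e2, dS_I, dS_negI, Finset.mul_sum]
    congr 1
    · exact Finset.sum_congr rfl fun i _ => by ring
    · exact Finset.sum_congr rfl fun i _ => by ring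
  have hKs : ∀ i, ContDiffOn ℝ ∞ (Kf M z j i) (Metric.ball z r) := by
    intro i
    have h1 : ContDiffOn ℝ ∞ (M.trO z M.Jf) (Metric.ball z r) :=
      (hU.contDiffOnO M.smJ).mono (Metric.ball_subset_closedBall.trans hs)
    exact (((ContinuousLinearMap.proj (R := ℂ) (φ := fun _ : ι => ℂ) j).comp
      (ContinuousLinearMap.apply ℂ (ι → ℂ) (Pi.single i 1))).restrictScalars ℝ).contDiff.comp_contDiffOn h1
  have hint : ∀ (s : ℂ) (c : ι → ι ⊕ ι), Integrable (fun y => dS s χ y *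
      ∑ i, Kf M z j i y * h.co u (c i) y) := by
    intro s c
    refine (integrable_finsetSum Finset.univ fun i _ =>
      ((hχ.dS s).mul Metric.isOpen_ball (hKs i)).mul_integrable (h.l2 u (c i))).congr
        (Eventually.of_forall fun y => ?_)
    simp only [Finset.mul_sum, mul_assoc]
  rw [setIntegral_congr_fun Metric.isOpen_ball.measurableSet key, ball_int,
    integral_add (hint _ _) (hint _ _)] at h0
  · exact eq_neg_of_add_eq_zero_left h0
  · intro y hy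
    rw [cut_dW_zero hχ hy, cut_dB_zero hχ hy]; ring

theorem PDisc.KK (h : M.PDisc z r) {y : ℂ} (hy : y ∈ Metric.ball z r) (i l : ι) :
    ∑ j, Kf M z i j y * Kf M z j l y = if i = l then 1 else 0 := by
  obtain ⟨U, hU, hs, -⟩ := h.nb
  have hyU : y ∈ U := hs (Metric.ball_subset_closedBall hy)
  have e1 : M.trO z M.Jf y (M.trO z M.Jf y (Pi.single l 1)) = Pi.single l 1 := by
    show M.P z y (M.Jf y (M.P y z (M.P z y (M.Jf y (M.P y z (Pi.single l 1)))))) = _
    rw [hU.inv_apply hyU hU.mem, M.JJ (h.mem hy), hU.inv_apply hU.mem hyU]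
  have e2 : M.trO z M.Jf y (M.trO z M.Jf y (Pi.single l 1)) i =
      ∑ j, Kf M z i j y * Kf M z j l y := by
    conv_lhs => rw [← sum_single (M.trO z M.Jf y (Pi.single l 1)), map_sum]
    rw [Finset.sum_apply]
    refine Finset.sum_congr rfl fun j _ => ?_
    rw [map_smul, Pi.smul_apply, smul_eq_mul, mul_comm]
    rfl
  rw [← e2, e1, Pi.single_apply]

/-- **local smoothness of harmonic elements** -/
theorem PDisc.lrep (h : M.PDisc z r) (hz : z ∈ X) {u : M.L} (hu : u ∈ M.Zc) (hbu : M.be u ∈ M.Zc) :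
    ∃ α, M.mb.dbl.LRep u (Metric.ball z r) α := by
  obtain ⟨U, hU, hs, -⟩ := h.nb
  have hKs : ∀ j i, ContDiffOn ℝ ∞ (Kf M z j i) (Metric.ball z r) := by
    intro j i
    have h1 : ContDiffOn ℝ ∞ (M.trO z M.Jf) (Metric.ball z r) :=
      (hU.contDiffOnO M.smJ).mono (Metric.ball_subset_closedBall.trans hs)
    exact (((ContinuousLinearMap.proj (R := ℂ) (φ := fun _ : ι => ℂ) j).comp
      (ContinuousLinearMap.apply ℂ (ι → ℂ) (Pi.single i 1))).restrictScalars ℝ).contDiff.comp_contDiffOn h1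
  obtain ⟨a, b, ha, hb, hae, hbe, -, -⟩ := harm_smooth Metric.isOpen_ball
    (a := fun i => h.co u (Sum.inl i)) (b := fun i => h.co u (Sum.inr i))
    (fun i => h.l2 u _) (fun i => h.l2 u _) (K := Kf M z) (Ki := Kf M z) hKs hKs
    (fun y hy i l => h.KK hy i l) (fun i χ hχ => h.weak1 hu hz i hχ)
    (fun i χ hχ => h.weak2 hbu hz i hχ)
  set c : ℂ → (ι → ℂ) × (ι → ℂ) := fun y => (fun i => a i y, fun i => b i y) with hc
  have hcs : ContDiffOn ℝ ∞ c (Metric.ball z r) :=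
    (contDiffOn_pi.2 ha).prodMk (contDiffOn_pi.2 hb)
  refine ⟨fun y => M.toFB.dbl.P y z (c y), Metric.isOpen_ball,
    Metric.ball_subset_closedBall.trans h.d.sub, ?_, ?_⟩
  · intro x hx
    have hxU : x ∈ U := hs (Metric.ball_subset_closedBall hx)
    have h1 : ContDiffAt ℝ ∞ (fun y => M.toFB.dbl.P x z (c y)) x :=
      ((M.toFB.dbl.P x z).restrictScalars ℝ).contDiff.contDiffAt.comp x
        (hcs.contDiffAt (Metric.isOpen_ball.mem_nhds hx))
    refine h1.congr_of_eventuallyEq ?_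
    filter_upwards [hU.op.mem_nhds hxU] with y hy
    show M.toFB.dbl.P x y (M.toFB.dbl.P y z (c y)) = M.toFB.dbl.P x z (c y)
    exact Prod.ext (hU.comp_apply hxU hy hU.mem _) (hU.comp_apply hxU hy hU.mem _)
  · intro ζ hζ
    rw [h.d.pair (e := bas) (ℓ := coo) coo_bas hζ]
    have e1 : ∫ x, M.mb.dbl.G x (ζ.f x) (M.toFB.dbl.P x z (c x)) =
        ∫ x in Metric.ball z r, M.mb.dbl.G x (ζ.f x) (M.toFB.dbl.P x z (c x)) := by
      symm
      obtain ⟨K, hK, -, h0⟩ := hζ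
      refine setIntegral_eq_integral_of_forall_compl_eq_zero fun x hx => ?_
      rw [h0 x fun h => hx (hK h)]; simp
    rw [e1]
    refine integral_congr_ae ?_
    have hae' : ∀ᵐ y ∂(MB.mu z r), ∀ i, h.co u (Sum.inl i) y = a i y := by
      rw [ae_all_iff]
      intro i
      rw [ae_restrict_iff' Metric.isOpen_ball.measurableSet]
      exact hae i
    have hbe' : ∀ᵐ y ∂(MB.mu z r), ∀ i, h.co u (Sum.inr i) y = b i y := by
      rw [ae_all_iff]
      intro i
      rw [ae_restrict_iff' Metric.isOpen_ball.measurableSet]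
      exact hbe i
    filter_upwards [hae', hbe'] with y hy1 hy2
    have e2 : c y = ∑ k, (coo k (c y) : ℂ) • (bas k : (ι → ℂ) × (ι → ℂ)) := (coo_bas (c y)).symm
    conv_rhs => rw [e2, map_sum, map_sum]
    rw [Fintype.sum_sum_type, Fintype.sum_sum_type]
    congr 1
    · refine Finset.sum_congr rfl fun i _ => ?_
      rw [map_smul, map_smul, smul_eq_mul, mul_comm]
      congr 1
      exact hy1 i
    · refine Finset.sum_congr rfl fun i _ => ?_
      rw [map_smul, map_smul, smul_eq_mul, mul_comm]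
      congr 1
      exact hy2 i

/-- **harmonic elements are represented by smooth forms** -/
theorem exists_rep {u : M.L} (hu : u ∈ M.Zc) (hbu : M.be u ∈ M.Zc) : ∃ α, M.Rep u α := by
  obtain ⟨α, hα⟩ := MB.LRep.glue (M := M.mb.dbl) (η := u) (fun z hz => by
    obtain ⟨r, hr⟩ := M.exists_pdisc hz
    obtain ⟨α, hα⟩ := hr.lrep hz hu hbu
    exact ⟨_, Metric.mem_ball_self hr.d.pos, α, hα⟩)
  exact ⟨α, hα.sm, hα.rep⟩

end PV

end Crest.Agent.R276.IpcG1_975
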