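import Mathlib
import Crest.Agent.R276.BC4_986
import Crest.Agent.R276.DivVal13_858

-- ▼ part R276/BC5_986
section

/-!
Row 276, leaf BC, part 5: algebra of divisorial valuation rings (core).
-/

set_option autoImplicit false
open scoped Topology BigOperators
noncomputable section
namespace Crest.Agent.R276.BC_986

/-- a local domain which dominates a nonzero prime `q` of a Dedekind domain `S` with the same
fraction field is the localisation of `S` at `q` -/
theorem isLocalization_atPrime_of_dedekind {S R K : Type} [CommRing S]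
    [IsDedekindDomain S] [CommRing R] [IsLocalRing R] [Field K] [Algebra S R]
    [Algebra S K] [Algebra R K] [IsScalarTower S R K] [IsFractionRing S K]
    (hinj : Function.Injective (algebraMap R K))
    (hq : (IsLocalRing.maximalIdeal R).comap (algebraMap S R) ≠ ⊥) :
    IsLocalization.AtPrime R ((IsLocalRing.maximalIdeal R).comap (algebraMap S R)) := by
  set q := (IsLocalRing.maximalIdeal R).comap (algebraMap S R) with hqdef
  have hmem : ∀ s : S, s ∉ q → IsUnit (algebraMap S R s) := by
    intro s hs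
    rw [hqdef, Ideal.mem_comap, IsLocalRing.mem_maximalIdeal, mem_nonunits_iff, not_not] at hs
    exact hs
  let L := Localization.subalgebra.ofField K q.primeCompl q.primeCompl_le_nonZeroDivisors
  have _ : IsLocalization.AtPrime L q := Localization.subalgebra.isLocalization_ofField K _ _
  have hL : IsDiscreteValuationRing L :=
    IsLocalization.AtPrime.isDiscreteValuationRing_of_dedekind_domain S hq L
  have hLv : ValuationRing L := inferInstance
  refine (isLocalization_iff _ _).2 ⟨?_, ?_, ?_⟩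
  · rintro ⟨s, hs⟩
    exact hmem s hs
  · intro r
    rcases ValuationRing.isInteger_or_isInteger L (algebraMap R K r) with h | h
    · obtain ⟨l, hl⟩ := h
      obtain ⟨a, ⟨b, hb⟩, rfl⟩ := IsLocalization.exists_mk'_eq q.primeCompl l
      refine ⟨(a, ⟨b, hb⟩), ?_⟩
      apply hinj
      have h1 := congrArg (algebraMap L K) (IsLocalization.mk'_spec L a ⟨b, hb⟩)
      rw [map_mul, hl, ← IsScalarTower.algebraMap_apply, ← IsScalarTower.algebraMap_apply] at h1
      rw [map_mul, ← IsScalarTower.algebraMap_apply, ← IsScalarTower.algebraMap_apply]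
      exact h1
    · obtain ⟨l, hl⟩ := h
      obtain ⟨a, ⟨b, hb⟩, rfl⟩ := IsLocalization.exists_mk'_eq q.primeCompl l
      have h1 := congrArg (algebraMap L K) (IsLocalization.mk'_spec L a ⟨b, hb⟩)
      rw [map_mul, hl, ← IsScalarTower.algebraMap_apply, ← IsScalarTower.algebraMap_apply] at h1
      rcases eq_or_ne r 0 with rfl | hr
      · exact ⟨(0, 1), by simp⟩
      have hr' : algebraMap R K r ≠ 0 := by
        intro h0
        exact hr (hinj (by rw [h0, map_zero]))
      have h2 : r * algebraMap S R a = algebraMap S R b := by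
        apply hinj
        rw [map_mul, ← IsScalarTower.algebraMap_apply, ← IsScalarTower.algebraMap_apply, ← h1]
        change _ * (_ * (algebraMap S K b)) = algebraMap S K b
        field_simp
      have h3 : IsUnit (algebraMap S R a) := by
        have h4 : IsUnit (algebraMap S R b) := hmem b hb
        rw [← h2] at h4
        exact isUnit_of_mul_isUnit_right h4
      have ha : a ∈ q.primeCompl := by
        intro h4
        rw [hqdef] at h4
        have h5 : algebraMap S R a ∈ IsLocalRing.maximalIdeal R := h4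
        rw [IsLocalRing.mem_maximalIdeal] at h5
        exact h5 h3
      exact ⟨(b, ⟨a, ha⟩), h2⟩
  · intro x y hxy
    refine ⟨1, ?_⟩
    have h1 := congrArg (algebraMap R K) hxy
    rw [← IsScalarTower.algebraMap_apply, ← IsScalarTower.algebraMap_apply] at h1
    rw [IsFractionRing.injective S K h1]

section core

variable {O R K : Type} [CommRing O] [IsDomain O] [IsDiscreteValuationRing O] [CommRing R]
  [IsDomain R] [IsLocalRing R] [IsIntegrallyClosed R] [Field K] [CharZero (IsLocalRing.ResidueField O)]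
  [Algebra O R]
  [Algebra O K] [Algebra R K] [IsScalarTower O R K] [IsFractionRing R K]
  [IsLocalHom (algebraMap O R)] (hinj : Function.Injective (algebraMap O K))
  (F : Type) [Field F] [Algebra O F] [IsFractionRing O F] [Algebra F K] [IsScalarTower O F K]
  [FiniteDimensional F K]

include F hinj in
/-- the main properties of a local integrally closed domain `R` with fraction field `K`, finite
over `F = Frac O`, which dominates the discrete valuation ring `O` -/
theorem core_props : IsDiscreteValuationRing R ∧ Algebra.EssFiniteType O R ∧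
    Algebra.IsAlgebraic (IsLocalRing.ResidueField O) (IsLocalRing.ResidueField R) ∧
    ((IsLocalRing.maximalIdeal O).map (algebraMap O R) = IsLocalRing.maximalIdeal R →
      Algebra.FormallyEtale O R) := by
  have _ : CharZero O := by
    refine ⟨fun a b h => ?_⟩
    have h1 := congrArg (algebraMap O (IsLocalRing.ResidueField O)) h
    rw [map_natCast, map_natCast] at h1
    exact_mod_cast h1
  have _ : CharZero F := charZero_of_injective_algebraMap (IsFractionRing.injective O F)
  have _ : CharZero K := charZero_of_injective_algebraMap hinj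
  have _ : Algebra.IsSeparable F K := inferInstance
  let S := integralClosure O K
  have _ : IsDedekindDomain S := integralClosure.isDedekindDomain O F K
  have _ : IsFractionRing S K := integralClosure.isFractionRing_of_finite_extension F K
  have hfin : Module.Finite O S := IsIntegralClosure.finite O F K S
  have _ : Module.IsTorsionFree O K := Module.isTorsionFree_iff_algebraMap_injective.2 hinj
  have hfree : Module.Free O S := IsIntegralClosure.module_free O F K S
  have hinjR : Function.Injective (algebraMap R K) := IsFractionRing.injective R K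
  -- `S ⊆ R`
  have hSR : ∀ s : S, ∃ r : R, algebraMap R K r = s := by
    intro s
    have h1 : IsIntegral O (s : K) := s.2
    have h2 : IsIntegral R (s : K) := h1.tower_top
    exact IsIntegrallyClosed.isIntegral_iff.1 h2
  choose f hf using hSR
  let φ : S →+* R :=
    { toFun := f
      map_one' := hinjR (by rw [hf, map_one]; rfl)
      map_mul' := fun a b => hinjR (by rw [hf, map_mul, hf, hf]; rfl)
      map_zero' := hinjR (by rw [hf, map_zero]; rfl)
      map_add' := fun a b => hinjR (by rw [hf, map_add, hf, hf]; rfl) }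
  let _ : Algebra S R := φ.toAlgebra
  have _ : IsScalarTower S R K := IsScalarTower.of_algebraMap_eq fun s => (hf s).symm
  have _ : IsScalarTower O S R := IsScalarTower.of_algebraMap_eq fun s => by
    apply hinjR
    rw [← IsScalarTower.algebraMap_apply, ← IsScalarTower.algebraMap_apply,
      ← IsScalarTower.algebraMap_apply]
  set q := (IsLocalRing.maximalIdeal R).comap (algebraMap S R) with hqdef
  have hq : q ≠ ⊥ := by
    intro h
    obtain ⟨π, hπ⟩ := IsDiscreteValuationRing.exists_irreducible O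
    have h1 : algebraMap O S π ∈ q := by
      rw [hqdef, Ideal.mem_comap, ← IsScalarTower.algebraMap_apply, IsLocalRing.mem_maximalIdeal,
        mem_nonunits_iff, isUnit_map_iff]
      exact hπ.not_isUnit
    rw [h, Ideal.mem_bot] at h1
    have h2 := congrArg (algebraMap S K) h1
    rw [map_zero, ← IsScalarTower.algebraMap_apply] at h2
    exact hπ.ne_zero (hinj (by rw [h2, map_zero]))
  have hloc : IsLocalization.AtPrime R q := isLocalization_atPrime_of_dedekind hinjR hq
  have hDVR : IsDiscreteValuationRing R :=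
    IsLocalization.AtPrime.isDiscreteValuationRing_of_dedekind_domain S hq R
  have _ : Algebra.EssFiniteType S R := Algebra.EssFiniteType.of_isLocalization R q.primeCompl
  have hess : Algebra.EssFiniteType O R := Algebra.EssFiniteType.comp O S R
  have halg : Algebra.IsAlgebraic (IsLocalRing.ResidueField O) (IsLocalRing.ResidueField R) := by
    constructor
    intro x
    obtain ⟨r, rfl⟩ := IsLocalRing.residue_surjective x
    obtain ⟨a, b, rfl⟩ := IsLocalization.exists_mk'_eq q.primeCompl r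
    have hint : ∀ s : S, IsAlgebraic (IsLocalRing.ResidueField O)
        (IsLocalRing.residue R (algebraMap S R s)) := by
      intro s
      have h1 : IsIntegral O s := Algebra.IsIntegral.isIntegral s
      have h2 : IsIntegral O (IsLocalRing.residue R (algebraMap S R s)) := by
        have h3 := h1.map (IsScalarTower.toAlgHom O S R)
        exact h3.map (IsScalarTower.toAlgHom O R (IsLocalRing.ResidueField R))
      exact (h2.tower_top (A := IsLocalRing.ResidueField O)).isAlgebraic
    have h1 := IsLocalization.mk'_spec R a b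
    have h2 := congrArg (IsLocalRing.residue R) h1
    rw [map_mul] at h2
    have hb : IsLocalRing.residue R (algebraMap S R b) ≠ 0 := by
      rw [Ne, IsLocalRing.residue_eq_zero_iff]
      exact b.2
    have h3 : IsLocalRing.residue R (IsLocalization.mk' R a b) =
        IsLocalRing.residue R (algebraMap S R a) * (IsLocalRing.residue R (algebraMap S R b))⁻¹ := by
      rw [← h2, mul_assoc, mul_inv_cancel₀ hb, mul_one]
    rw [h3]
    exact (hint a).mul (hint b).inv
  refine ⟨hDVR, hess, halg, fun hmax => ?_⟩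
  have _ : Algebra.IsSeparable (IsLocalRing.ResidueField O) (IsLocalRing.ResidueField R) :=
    inferInstance
  have hunr : Algebra.FormallyUnramified O R :=
    Algebra.FormallyUnramified.of_map_maximalIdeal hmax
  let e : Localization.AtPrime q ≃ₐ[S] R :=
    IsLocalization.algEquiv q.primeCompl (Localization.AtPrime q) R
  let e' : Localization.AtPrime q ≃ₐ[O] R := e.restrictScalars O
  have _ : Algebra.IsUnramifiedAt O q := Algebra.FormallyUnramified.of_equiv e'.symm
  have _ : Algebra.FinitePresentation O S := Algebra.FinitePresentation.of_finiteType.1 inferInstance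
  have h1 : Algebra.IsEtaleAt O q := Algebra.IsEtaleAt.of_isUnramifiedAt_of_flat q
  exact Algebra.FormallyEtale.of_equiv e'

end core

end Crest.Agent.R276.BC_986
end
end

-- ▼ part R276/BC6_986
section

/-!
Row 276, leaf BC, part 6: adapted coordinates of a divisorial valuation ring.
-/

set_option autoImplicit false

open scoped Topology BigOperators
open MvPolynomial

noncomputable section

namespace Crest.Agent.R276.BC_986

variable {n : ℕ} {K : Type} [Field K] [Algebra ℂ K]

/-- `x` are adapted coordinates of the valuation ring `R`: `x i₀ ∈ m_R` and the residues of the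
others are algebraically independent -/
structure Adap (R : ValuationSubring K) (x : Fin n → K) (i₀ : Fin n) : Prop where
  unit : ∀ P : MvPolynomial (Fin n) ℂ, ¬ X i₀ ∣ P → R.valuation (aeval x P) = 1
  lt : R.valuation (x i₀) < 1
  ne : x i₀ ≠ 0

namespace Adap

variable {R : ValuationSubring K} {x : Fin n → K} {i₀ : Fin n}

lemma exists_pow_mul {P : MvPolynomial (Fin n) ℂ} (hP : P ≠ 0) (i₀ : Fin n) :
    ∃ (k : ℕ) (Q : MvPolynomial (Fin n) ℂ), ¬ X i₀ ∣ Q ∧ P = X i₀ ^ k * Q := by
  have h1 : FiniteMultiplicity (X i₀ : MvPolynomial (Fin n) ℂ) P :=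
    FiniteMultiplicity.of_prime_left X_prime hP
  obtain ⟨c, hc, h2⟩ := h1.exists_eq_pow_mul_and_not_dvd
  exact ⟨_, c, h2, hc⟩

lemma val_aeval (h : Adap R x i₀) {P : MvPolynomial (Fin n) ℂ} {k : ℕ}
    {Q : MvPolynomial (Fin n) ℂ} (hQ : ¬ X i₀ ∣ Q) (hP : P = X i₀ ^ k * Q) :
    R.valuation (aeval x P) = R.valuation (x i₀) ^ k := by
  rw [hP, map_mul, map_pow, aeval_X, map_mul, map_pow, h.unit Q hQ, mul_one]

lemma injective (h : Adap R x i₀) : Function.Injective (aeval x : MvPolynomial (Fin n) ℂ →ₐ[ℂ] K) := by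
  rw [injective_iff_map_eq_zero]
  intro P hP
  by_contra hP0
  obtain ⟨k, Q, hQ, h1⟩ := exists_pow_mul hP0 i₀
  have h2 := h.val_aeval hQ h1
  rw [hP, map_zero] at h2
  have h3 : R.valuation (x i₀) ^ k ≠ 0 := pow_ne_zero _ (by simpa using h.ne)
  exact h3 h2.symm

lemma algebraicIndependent (h : Adap R x i₀) : AlgebraicIndependent ℂ x := h.injective

lemma mem (h : Adap R x i₀) (P : MvPolynomial (Fin n) ℂ) : aeval x P ∈ R := by
  rw [← R.valuation_le_one_iff]
  rcases eq_or_ne P 0 with rfl | hP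
  · simp
  obtain ⟨k, Q, hQ, h1⟩ := exists_pow_mul hP i₀
  rw [h.val_aeval hQ h1]
  exact pow_le_one' h.lt.le k


/-- polynomials in the adapted coordinates are elements of `R` -/
def toR (h : Adap R x i₀) : MvPolynomial (Fin n) ℂ →+* R :=
  ((aeval x : MvPolynomial (Fin n) ℂ →ₐ[ℂ] K) : MvPolynomial (Fin n) ℂ →+* K).codRestrict R
    h.mem

lemma coe_toR (h : Adap R x i₀) (P : MvPolynomial (Fin n) ℂ) : (h.toR P : K) = aeval x P := rfl

/-- the center of `R` in the polynomial ring is `(x i₀)` -/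
lemma comap_maximalIdeal (h : Adap R x i₀) :
    (IsLocalRing.maximalIdeal R).comap h.toR = Ideal.span {X i₀} := by
  ext P
  rw [Ideal.mem_comap, Ideal.mem_span_singleton, ValuationSubring.valuation_lt_one_iff,
    h.coe_toR]
  constructor
  · intro h1
    by_contra h2
    rw [h.unit P h2] at h1
    exact lt_irrefl _ h1
  · rintro ⟨Q, rfl⟩
    rw [map_mul, map_mul, aeval_X]
    have h1 : R.valuation (aeval x Q) ≤ 1 := (R.valuation_le_one_iff _).2 (h.mem Q)
    calc R.valuation (x i₀) * R.valuation (aeval x Q) ≤ R.valuation (x i₀) * 1 := by gcongr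
      _ = R.valuation (x i₀) := mul_one _
      _ < 1 := h.lt

lemma isUnit_toR (h : Adap R x i₀) {P : MvPolynomial (Fin n) ℂ} (hP : ¬ X i₀ ∣ P) :
    IsUnit (h.toR P) := by
  rw [ValuationSubring.valuation_eq_one_iff, h.coe_toR]
  exact h.unit P hP

lemma isAlgebraic (hx : IsTranscendenceBasis ℂ x) :
    letI : Algebra (MvPolynomial (Fin n) ℂ) K :=
      ((aeval x : MvPolynomial (Fin n) ℂ →ₐ[ℂ] K) : MvPolynomial (Fin n) ℂ →+* K).toAlgebra
    Algebra.IsAlgebraic (MvPolynomial (Fin n) ℂ) K := by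
  let _ : Algebra (MvPolynomial (Fin n) ℂ) K :=
    ((aeval x : MvPolynomial (Fin n) ℂ →ₐ[ℂ] K) : MvPolynomial (Fin n) ℂ →+* K).toAlgebra
  have h1 := hx.isAlgebraic
  let f : MvPolynomial (Fin n) ℂ →+* Algebra.adjoin ℂ (Set.range x) :=
    ((aeval x : MvPolynomial (Fin n) ℂ →ₐ[ℂ] K) : MvPolynomial (Fin n) ℂ →+* K).codRestrict
      (Algebra.adjoin ℂ (Set.range x)) (fun P => by
        rw [Algebra.adjoin_range_eq_range_aeval]
        exact ⟨P, rfl⟩)
  have hf : Function.Surjective f := by
    rintro ⟨a, ha⟩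
    rw [Algebra.adjoin_range_eq_range_aeval] at ha
    obtain ⟨P, rfl⟩ := ha
    exact ⟨P, rfl⟩
  exact Algebra.IsAlgebraic.of_ringHom_of_comp_eq (S := Algebra.adjoin ℂ (Set.range x)) (B := K)
    f (RingHom.id K) hf Function.injective_id rfl

/-- **structure of divisorial valuation rings**, with a localisation `O` of the polynomial ring -/
theorem props_aux (h : Adap R x i₀) [hK : Algebra.EssFiniteType ℂ K]
    (hx : IsTranscendenceBasis ℂ x) (p : Ideal (MvPolynomial (Fin n) ℂ)) [hpp : p.IsPrime]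
    (hp : p = Ideal.span {X i₀}) (O : Type) [CommRing O] [Algebra (MvPolynomial (Fin n) ℂ) O]
    [IsLocalization.AtPrime O p] [Algebra ℂ O] [IsScalarTower ℂ (MvPolynomial (Fin n) ℂ) O] :
    letI : Algebra (MvPolynomial (Fin n) ℂ) R := h.toR.toAlgebra
    IsDiscreteValuationRing R ∧ Algebra.EssFiniteType (MvPolynomial (Fin n) ℂ) R ∧
      (IsLocalRing.maximalIdeal R = Ideal.span {h.toR (X i₀)} →
        Algebra.FormallyEtale (MvPolynomial (Fin n) ℂ) R) := by
  let _ : Algebra (MvPolynomial (Fin n) ℂ) R := h.toR.toAlgebra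
  let _ : Algebra (MvPolynomial (Fin n) ℂ) K :=
    ((aeval x : MvPolynomial (Fin n) ℂ →ₐ[ℂ] K) : MvPolynomial (Fin n) ℂ →+* K).toAlgebra
  have _ : IsScalarTower (MvPolynomial (Fin n) ℂ) R K := IsScalarTower.of_algebraMap_eq fun _ => rfl
  have _ : IsScalarTower ℂ (MvPolynomial (Fin n) ℂ) K := IsScalarTower.of_algebraMap_eq fun c =>
    ((aeval x : MvPolynomial (Fin n) ℂ →ₐ[ℂ] K).commutes c).symm
  have hPK : Function.Injective (algebraMap (MvPolynomial (Fin n) ℂ) K) := h.injective
  have halg : Algebra.IsAlgebraic (MvPolynomial (Fin n) ℂ) K := isAlgebraic hx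
  have hunit : ∀ y : p.primeCompl, IsUnit (h.toR y) := by
    intro y
    apply h.isUnit_toR
    rw [← Ideal.mem_span_singleton, ← hp]
    exact y.2
  have hloc : IsLocalRing O := IsLocalization.AtPrime.isLocalRing O p
  have hnoeth : IsNoetherianRing O := IsLocalization.isNoetherianRing p.primeCompl O inferInstance
  let _ : Algebra O R := (IsLocalization.lift (M := p.primeCompl) (S := O) (g := h.toR) hunit).toAlgebra
  have _ : IsScalarTower (MvPolynomial (Fin n) ℂ) O R := IsScalarTower.of_algebraMap_eq fun P =>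
    (IsLocalization.lift_eq (M := p.primeCompl) (S := O) (g := h.toR) hunit P).symm
  let _ : Algebra O K := ((algebraMap R K).comp (algebraMap O R)).toAlgebra
  have _ : IsScalarTower O R K := IsScalarTower.of_algebraMap_eq fun _ => rfl
  have _ : IsScalarTower (MvPolynomial (Fin n) ℂ) O K := IsScalarTower.of_algebraMap_eq fun P => by
    rw [IsScalarTower.algebraMap_apply O R K, ← IsScalarTower.algebraMap_apply _ O R,
      ← IsScalarTower.algebraMap_apply _ R K]
  have _ : IsScalarTower ℂ O K := IsScalarTower.of_algebraMap_eq fun c => by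
    rw [IsScalarTower.algebraMap_apply ℂ (MvPolynomial (Fin n) ℂ) O,
      ← IsScalarTower.algebraMap_apply (MvPolynomial (Fin n) ℂ) O K,
      ← IsScalarTower.algebraMap_apply]
  have hOK : Function.Injective (algebraMap O K) := by
    rw [injective_iff_map_eq_zero]
    intro o ho
    obtain ⟨a, b, rfl⟩ := IsLocalization.exists_mk'_eq p.primeCompl o
    have h1 := congrArg (algebraMap O K) (IsLocalization.mk'_spec O a b)
    rw [map_mul, ho, zero_mul, ← IsScalarTower.algebraMap_apply] at h1
    have h2 : a = 0 := hPK (by rw [← h1, map_zero])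
    rw [h2, IsLocalization.mk'_zero]
  have hOdom : IsDomain O := hOK.isDomain _
  have hmaxO : IsLocalRing.maximalIdeal O =
      Ideal.span {algebraMap (MvPolynomial (Fin n) ℂ) O (X i₀)} := by
    have h1 : p.map (algebraMap (MvPolynomial (Fin n) ℂ) O) =
        Ideal.span {algebraMap (MvPolynomial (Fin n) ℂ) O (X i₀)} := by
      rw [hp, Ideal.map_span, Set.image_singleton]
    rw [← IsLocalization.AtPrime.map_eq_maximalIdeal p O]
    exact h1
  have hnf : ¬ IsField O := by
    intro hf
    have h1 := (IsLocalRing.isField_iff_maximalIdeal_eq).1 hf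
    rw [hmaxO, Ideal.span_singleton_eq_bot] at h1
    have h2 := congrArg (algebraMap O K) h1
    rw [map_zero, ← IsScalarTower.algebraMap_apply] at h2
    exact X_ne_zero (R := ℂ) i₀ (hPK (by rw [h2, map_zero]))
  have hDVRO : IsDiscreteValuationRing O := by
    have h1 : (IsLocalRing.maximalIdeal O).IsPrincipal := by
      rw [hmaxO]; infer_instance
    exact ((IsDiscreteValuationRing.TFAE O hnf).out 4 0).mp h1
  have hlh : IsLocalHom (algebraMap O R) := by
    refine ⟨fun o ho => ?_⟩
    obtain ⟨a, b, rfl⟩ := IsLocalization.exists_mk'_eq p.primeCompl o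
    have h1 := congrArg (algebraMap O R) (IsLocalization.mk'_spec O a b)
    rw [map_mul, ← IsScalarTower.algebraMap_apply, ← IsScalarTower.algebraMap_apply] at h1
    have h2 : IsUnit (h.toR a) := by
      have : h.toR a = algebraMap _ R a := rfl
      rw [this, ← h1]
      exact ho.mul (hunit b)
    rw [IsLocalization.AtPrime.isUnit_mk'_iff O p]
    intro ha
    have ha' : a ∈ p := ha
    rw [hp, ← h.comap_maximalIdeal] at ha'
    exact (IsLocalRing.mem_maximalIdeal _).1 ha' h2
  have hcz : CharZero (IsLocalRing.ResidueField O) :=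
    charZero_of_injective_algebraMap (algebraMap ℂ (IsLocalRing.ResidueField O)).injective
  have hfaith : FaithfulSMul O K := (faithfulSMul_iff_algebraMap_injective O K).2 hOK
  let _ : Algebra (FractionRing O) K := FractionRing.liftAlgebra O K
  have _ : IsScalarTower O (FractionRing O) K := FractionRing.isScalarTower_liftAlgebra O K
  have _ : IsScalarTower ℂ (FractionRing O) K := inferInstance
  have _ : IsScalarTower (MvPolynomial (Fin n) ℂ) (FractionRing O) K := inferInstance
  have _ : Algebra.EssFiniteType (FractionRing O) K := Algebra.EssFiniteType.of_comp ℂ _ K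
  have hPF : Function.Injective (algebraMap (MvPolynomial (Fin n) ℂ) (FractionRing O)) := by
    intro a b hab
    apply hPK
    rw [IsScalarTower.algebraMap_apply (MvPolynomial (Fin n) ℂ) (FractionRing O) K, hab,
      ← IsScalarTower.algebraMap_apply (MvPolynomial (Fin n) ℂ) (FractionRing O) K]
  have _ : Algebra.IsAlgebraic (FractionRing O) K :=
    Algebra.IsAlgebraic.extendScalars (R := MvPolynomial (Fin n) ℂ) hPF
  have _ : FiniteDimensional (FractionRing O) K :=
    Algebra.finite_of_essFiniteType_of_isAlgebraic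
  obtain ⟨h1, h2, h3, h4⟩ := core_props (O := O) (R := R) (K := K) hOK (FractionRing O)
  refine ⟨h1, ?_, ?_⟩
  · have _ : Algebra.EssFiniteType (MvPolynomial (Fin n) ℂ) O :=
      Algebra.EssFiniteType.of_isLocalization O p.primeCompl
    exact Algebra.EssFiniteType.comp _ O R
  · intro hm
    have _ : Algebra.FormallyEtale O R := by
      apply h4
      rw [hmaxO, hm, Ideal.map_span, Set.image_singleton, ← IsScalarTower.algebraMap_apply]
      rfl
    have _ : Algebra.FormallyEtale (MvPolynomial (Fin n) ℂ) O :=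
      Algebra.FormallyEtale.of_isLocalization p.primeCompl
    exact Algebra.FormallyEtale.comp _ O R

/-- **structure of divisorial valuation rings** -/
theorem props (h : Adap R x i₀) [hK : Algebra.EssFiniteType ℂ K] (hx : IsTranscendenceBasis ℂ x) :
    letI : Algebra (MvPolynomial (Fin n) ℂ) R := h.toR.toAlgebra
    IsDiscreteValuationRing R ∧ Algebra.EssFiniteType (MvPolynomial (Fin n) ℂ) R ∧
      (IsLocalRing.maximalIdeal R = Ideal.span {h.toR (X i₀)} →
        Algebra.FormallyEtale (MvPolynomial (Fin n) ℂ) R) := by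
  have hpp : (Ideal.span {X i₀} : Ideal (MvPolynomial (Fin n) ℂ)).IsPrime :=
    (Ideal.span_singleton_prime (X_ne_zero i₀)).2 X_prime
  exact h.props_aux hx (Ideal.span {X i₀}) rfl
    (Localization.AtPrime (Ideal.span {X i₀} : Ideal (MvPolynomial (Fin n) ℂ)))

end Adap

end Crest.Agent.R276.BC_986
end
end

-- ▼ part R276/BC7_986
section

/-!
Row 276, leaf BC, part 7: every divisorial valuation ring has a divisorial model.
-/

set_option autoImplicit false

open scoped Topology BigOperators
open MvPolynomial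

noncomputable section

namespace Crest.Agent.R276.BC_986

open Crest.Agent.R276.FKDefs_779

section poly

lemma exists_decomp {m : ℕ} (P : MvPolynomial (Fin (m + 1)) ℂ) :
    ∃ (q : MvPolynomial (Fin m) ℂ) (Q : MvPolynomial (Fin (m + 1)) ℂ),
      P = rename Fin.succ q + X 0 * Q := by
  induction P using MvPolynomial.induction_on with
  | C a => exact ⟨C a, 0, by simp⟩
  | add p₁ p₂ h₁ h₂ =>
    obtain ⟨q₁, Q₁, e₁⟩ := h₁
    obtain ⟨q₂, Q₂, e₂⟩ := h₂
    exact ⟨q₁ + q₂, Q₁ + Q₂, by rw [e₁, e₂, map_add]; ring⟩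
  | mul_X p i h =>
    obtain ⟨q, Q, e⟩ := h
    refine Fin.cases ?_ (fun j => ?_) i
    · exact ⟨0, p, by rw [map_zero]; ring⟩
    · exact ⟨q * X j, Q * X j.succ, by rw [e, map_mul, rename_X]; ring⟩

variable {K : Type} [Field K] [Algebra ℂ K]

lemma aeval_mem {n : ℕ} {R : ValuationSubring K} (halg : ∀ c : ℂ, algebraMap ℂ K c ∈ R)
    {x : Fin n → K} (hx : ∀ i, x i ∈ R) (P : MvPolynomial (Fin n) ℂ) : aeval x P ∈ R := by
  induction P using MvPolynomial.induction_on with
  | C a => rw [aeval_C]; exact halg a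
  | add p₁ p₂ h₁ h₂ => rw [map_add]; exact R.add_mem _ _ h₁ h₂
  | mul_X p i h => rw [map_mul, aeval_X]; exact R.mul_mem _ _ h (hx i)

lemma adap_cons {m : ℕ} {R : ValuationSubring K} (halg : ∀ c : ℂ, algebraMap ℂ K c ∈ R)
    {x' : Fin m → K} (hx' : ∀ i, x' i ∈ R)
    (hres : ∀ P : MvPolynomial (Fin m) ℂ, P ≠ 0 → R.valuation (aeval x' P) = 1) {t : K}
    (ht : R.valuation t < 1) (ht0 : t ≠ 0) : Adap R (Fin.cons t x' : Fin (m + 1) → K) 0 := by
  refine ⟨?_, by simpa using ht, by simpa using ht0⟩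
  intro P hP
  obtain ⟨q, Q, rfl⟩ := exists_decomp P
  have hq : q ≠ 0 := by
    rintro rfl
    apply hP
    rw [map_zero, zero_add]
    exact dvd_mul_right _ _
  have htR : t ∈ R := by rw [← R.valuation_le_one_iff]; exact ht.le
  have hx : ∀ i, (Fin.cons t x' : Fin (m + 1) → K) i ∈ R := by
    intro i
    refine Fin.cases ?_ (fun j => ?_) i
    · simpa using htR
    · simpa using hx' j
  have h1 : aeval (Fin.cons t x' : Fin (m + 1) → K) (rename Fin.succ q) = aeval x' q := by
    rw [aeval_rename]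
    congr 1
  have h2 : R.valuation (aeval (Fin.cons t x' : Fin (m + 1) → K) (X 0 * Q)) < 1 := by
    rw [map_mul, map_mul, aeval_X, Fin.cons_zero]
    have h3 : R.valuation (aeval (Fin.cons t x' : Fin (m + 1) → K) Q) ≤ 1 :=
      (R.valuation_le_one_iff _).2 (aeval_mem halg hx Q)
    calc R.valuation t * R.valuation (aeval (Fin.cons t x' : Fin (m + 1) → K) Q)
        ≤ R.valuation t * 1 := by gcongr
      _ = R.valuation t := mul_one _
      _ < 1 := ht
  rw [map_add, h1, Valuation.map_add_eq_of_lt_left]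
  · exact hres q hq
  · rw [hres q hq]; exact h2

/-- a divisorial valuation ring has adapted coordinates whose first member is a uniformiser -/
theorem exists_adap {n : ℕ} [Algebra.EssFiniteType ℂ K] (htr : Algebra.trdeg ℂ K = n)
    {R : ValuationSubring K} (hR : IsDiv ℂ n R) : ∃ (x : Fin n → K) (i₀ : Fin n),
      ∃ h : Adap R x i₀, IsTranscendenceBasis ℂ x ∧
        IsLocalRing.maximalIdeal R = Ideal.span {h.toR (X i₀)} := by
  obtain ⟨t0, ht0, ht1⟩ : ∃ t0 : K, t0 ≠ 0 ∧ R.valuation t0 < 1 := by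
    by_contra hcon
    push Not at hcon
    apply hR.ne_top
    rw [eq_top_iff]
    intro a _
    rcases eq_or_ne a 0 with rfl | ha
    · exact R.zero_mem
    have h1 := hcon a⁻¹ (inv_ne_zero ha)
    rw [map_inv₀, one_le_inv₀ (by rw [Valuation.pos_iff]; exact ha)] at h1
    exact (R.valuation_le_one_iff _).1 h1
  obtain ⟨x', hx', hres⟩ := hR.res
  rcases n with _ | m
  · exfalso
    have h1 : Algebra.IsAlgebraic ℂ K := by
      rw [← trdeg_eq_zero_iff, htr]; simp
    have h2 : Function.Bijective (algebraMap ℂ K) := IsAlgClosed.algebraMap_bijective_of_isIntegral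
    apply hR.ne_top
    rw [eq_top_iff]
    intro a _
    obtain ⟨c, rfl⟩ := h2.2 a
    exact hR.alg c
  have hbasis : ∀ {t : K}, (h : Adap R (Fin.cons t x' : Fin (m + 1) → K) 0) →
      IsTranscendenceBasis ℂ (Fin.cons t x' : Fin (m + 1) → K) := by
    intro t h
    refine AlgebraicIndependent.isTranscendenceBasis_of_trdeg_le_of_finite
      h.algebraicIndependent ?_
    rw [htr]
    simp
  have h0 := adap_cons hR.alg hx' hres ht1 ht0
  have hDVR := (h0.props (hbasis h0)).1
  obtain ⟨π, hπ⟩ := IsDiscreteValuationRing.exists_irreducible R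
  have hπ1 : R.valuation (π : K) < 1 := by
    rw [← ValuationSubring.valuation_lt_one_iff, IsLocalRing.mem_maximalIdeal]
    exact hπ.not_isUnit
  have hπ0 : (π : K) ≠ 0 := by
    intro h
    exact hπ.ne_zero (Subtype.ext h)
  have h1 := adap_cons hR.alg hx' hres hπ1 hπ0
  refine ⟨Fin.cons (π : K) x', 0, h1, hbasis h1, ?_⟩
  rw [hπ.maximalIdeal_eq]
  congr 2
  apply Subtype.ext
  rw [h1.coe_toR, aeval_X, Fin.cons_zero]

/-- assembly of the model -/
theorem divModel_of_ring {n : ℕ} {R : ValuationSubring K}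
    {x : Fin n → K} {i₀ : Fin n} (h : Adap R x i₀) (A : Type) [CommRing A]
    [Algebra (MvPolynomial (Fin n) ℂ) A] [Algebra ℂ A] [IsScalarTower ℂ (MvPolynomial (Fin n) ℂ) A]
    (het : Algebra.Etale (MvPolynomial (Fin n) ℂ) A) (ρ : A →+* R) (hρ : Function.Injective ρ)
    (hρP : ∀ P, ρ (algebraMap (MvPolynomial (Fin n) ℂ) A P) = h.toR P)
    (hdiv : ∀ a, ρ a ∈ IsLocalRing.maximalIdeal R →
      algebraMap (MvPolynomial (Fin n) ℂ) A (X i₀) ∣ a)
    (hfrac : ∀ r : R, ∃ a b : A, ρ b ≠ 0 ∧ r * ρ b = ρ a) :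
    ∃ D : DivModel n K, D.ModelOf R ∧ D.i₀ = i₀ ∧ ∀ i, algebraMap D.A K (D.w i) = x i := by
  let _ : Algebra A K := ((algebraMap R K).comp ρ).toAlgebra
  have hAK : ∀ a : A, algebraMap A K a = (ρ a : K) := fun _ => rfl
  have hinj : Function.Injective (algebraMap A K) := by
    intro a b hab
    exact hρ (Subtype.ext hab)
  have hdom : IsDomain A := hinj.isDomain _
  have htow : IsScalarTower ℂ A K := IsScalarTower.of_algebraMap_eq fun c => by
    rw [IsScalarTower.algebraMap_apply ℂ (MvPolynomial (Fin n) ℂ) A, hAK, hρP, h.coe_toR]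
    exact ((aeval x : MvPolynomial (Fin n) ℂ →ₐ[ℂ] K).commutes c).symm
  have hfaith : FaithfulSMul A K := (faithfulSMul_iff_algebraMap_injective A K).2 hinj
  have hfr : IsFractionRing A K := by
    refine IsFractionRing.of_field A K fun z => ?_
    obtain ⟨r₁, r₂, hr₂, hz⟩ := IsFractionRing.div_surjective (A := R) z
    obtain ⟨a₁, b₁, hb₁, e₁⟩ := hfrac r₁
    obtain ⟨a₂, b₂, hb₂, e₂⟩ := hfrac r₂
    have hr₂0 : (r₂ : K) ≠ 0 := by
      intro h0
      exact nonZeroDivisors.ne_zero hr₂ (Subtype.ext h0)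
    have hb₁' : (ρ b₁ : K) ≠ 0 := fun h0 => hb₁ (Subtype.ext h0)
    have hb₂' : (ρ b₂ : K) ≠ 0 := fun h0 => hb₂ (Subtype.ext h0)
    have e₁' : (r₁ : K) * ρ b₁ = ρ a₁ := congrArg Subtype.val e₁
    have e₂' : (r₂ : K) * ρ b₂ = ρ a₂ := congrArg Subtype.val e₂
    refine ⟨a₁ * b₂, a₂ * b₁, ?_⟩
    rw [← hz, map_mul, map_mul, hAK, hAK, hAK, hAK, ← e₁', ← e₂']
    change (r₁ : K) / (r₂ : K) = _
    field_simp
  have hft : Algebra.FiniteType ℂ A := by
    have h1 : Algebra.FiniteType (MvPolynomial (Fin n) ℂ) A := inferInstance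
    exact Algebra.FiniteType.trans (S := MvPolynomial (Fin n) ℂ) inferInstance h1
  set w : Fin n → A := fun i => algebraMap (MvPolynomial (Fin n) ℂ) A (X i) with hw
  have haev : ((aeval w : MvPolynomial (Fin n) ℂ →ₐ[ℂ] A) : MvPolynomial (Fin n) ℂ →+* A) =
      algebraMap (MvPolynomial (Fin n) ℂ) A := by
    apply MvPolynomial.ringHom_ext
    · intro c
      have h1 : algebraMap (MvPolynomial (Fin n) ℂ) A (C c) = algebraMap ℂ A c := by
        rw [IsScalarTower.algebraMap_apply ℂ (MvPolynomial (Fin n) ℂ) A]; rfl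
      rw [h1]
      simp
    · intro i
      simp [hw]
  have hetw : RingHom.Etale ((aeval w : MvPolynomial (Fin n) ℂ →ₐ[ℂ] A) :
      MvPolynomial (Fin n) ℂ →+* A) := by
    rw [haev]
    exact (RingHom.etale_algebraMap).2 het
  have hwR : ∀ i, algebraMap A K (w i) = x i := by
    intro i
    rw [hAK, hw, hρP, h.coe_toR, aeval_X]
  have htmem : ρ (w i₀) ∈ IsLocalRing.maximalIdeal R := by
    rw [ValuationSubring.valuation_lt_one_iff]
    have : (ρ (w i₀) : K) = x i₀ := hwR i₀
    rw [this]
    exact h.lt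
  have hdvd : ∀ a, w i₀ ∣ a ↔ ρ a ∈ IsLocalRing.maximalIdeal R := by
    intro a
    refine ⟨?_, hdiv a⟩
    rintro ⟨b, rfl⟩
    rw [map_mul]
    exact Ideal.mul_mem_right _ _ htmem
  have hprime : Prime (w i₀) := by
    refine ⟨?_, ?_, ?_⟩
    · intro h0
      have := hwR i₀
      rw [h0, map_zero] at this
      exact h.ne this.symm
    · intro hu
      exact (IsLocalRing.mem_maximalIdeal _).1 htmem (hu.map ρ)
    · intro a b hab
      rw [hdvd, map_mul] at hab
      rw [hdvd, hdvd]
      exact (IsLocalRing.maximalIdeal.isMaximal R).isPrime.mem_or_mem hab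
  let D : DivModel n K :=
    { A := A, ft := hft, w := w, etale := hetw, i₀ := i₀, prime := hprime }
  refine ⟨D, ⟨?_, ?_⟩, rfl, hwR⟩
  · intro a ha
    have h1 : ¬ ρ a ∈ IsLocalRing.maximalIdeal R := fun h2 => ha (hdiv a h2)
    rw [IsLocalRing.mem_maximalIdeal, mem_nonunits_iff, not_not,
      ValuationSubring.valuation_eq_one_iff] at h1
    exact h1
  · have h1 := h.lt
    rw [← hwR i₀] at h1
    exact h1

/-- a finitely generated algebra whose localisation is `R` -/
theorem divModel_of_loc {n : ℕ} {R : ValuationSubring K}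
    {x : Fin n → K} {i₀ : Fin n} (h : Adap R x i₀) (C L : Type) [CommRing C] [CommRing L]
    [Algebra (MvPolynomial (Fin n) ℂ) C] [Algebra C L] [Algebra (MvPolynomial (Fin n) ℂ) L]
    [IsScalarTower (MvPolynomial (Fin n) ℂ) C L] (ι : C →+* R) (hι : Function.Injective ι)
    (hιP : ∀ P, ι (algebraMap (MvPolynomial (Fin n) ℂ) C P) = h.toR P)
    (f g : C) (hf : IsUnit (ι f)) (hg : IsUnit (ι g)) [IsLocalization.Away (f * g) L]
    (het : Algebra.Etale (MvPolynomial (Fin n) ℂ) L)
    (hdiv : ∀ c, ι c ∈ IsLocalRing.maximalIdeal R →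
      algebraMap (MvPolynomial (Fin n) ℂ) C (X i₀) ∣ g * c)
    (hfrac : ∀ r : R, ∃ a b : C, ι b ≠ 0 ∧ r * ι b = ι a) :
    ∃ D : DivModel n K, D.ModelOf R ∧ D.i₀ = i₀ ∧ ∀ i, algebraMap D.A K (D.w i) = x i := by
  have hu : IsUnit (ι (f * g)) := by rw [map_mul]; exact hf.mul hg
  let ρ : L →+* R := IsLocalization.Away.lift (f * g) hu
  have hρC : ∀ c : C, ρ (algebraMap C L c) = ι c := fun c =>
    IsLocalization.Away.lift_eq (f * g) hu c
  have hsurj : ∀ a : L, ∃ (k : ℕ) (c : C),
      a * algebraMap C L (f * g) ^ k = algebraMap C L c := fun a =>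
    IsLocalization.Away.surj (f * g) a
  have hunit : IsUnit (algebraMap C L (f * g)) :=
    IsLocalization.Away.algebraMap_isUnit (f * g)
  let _ : Algebra ℂ L :=
    ((algebraMap (MvPolynomial (Fin n) ℂ) L).comp
      (algebraMap ℂ (MvPolynomial (Fin n) ℂ))).toAlgebra
  have _ : IsScalarTower ℂ (MvPolynomial (Fin n) ℂ) L :=
    IsScalarTower.of_algebraMap_eq fun _ => rfl
  refine divModel_of_ring h L het ρ ?_ ?_ ?_ ?_
  · rw [injective_iff_map_eq_zero]
    intro a ha
    obtain ⟨k, c, hc⟩ := hsurj a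
    have h1 := congrArg ρ hc
    rw [map_mul, ha, zero_mul, hρC] at h1
    have h2 : c = 0 := hι (by rw [← h1, map_zero])
    rw [h2, map_zero] at hc
    exact ((hunit.pow k).mul_left_eq_zero).1 hc
  · intro P
    rw [IsScalarTower.algebraMap_apply (MvPolynomial (Fin n) ℂ) C L, hρC, hιP]
  · intro a ha
    obtain ⟨k, c, hc⟩ := hsurj a
    have h1 : ι c ∈ IsLocalRing.maximalIdeal R := by
      rw [← hρC, ← hc, map_mul]
      exact Ideal.mul_mem_right _ _ ha
    obtain ⟨d, hd⟩ := hdiv c h1
    have h2 := congrArg (algebraMap C L) hd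
    rw [map_mul, map_mul, ← hc,
      ← IsScalarTower.algebraMap_apply (MvPolynomial (Fin n) ℂ) C L] at h2
    have hgu : IsUnit (algebraMap C L g) := by
      rw [map_mul] at hunit
      exact isUnit_of_mul_isUnit_right hunit
    have h3 : algebraMap (MvPolynomial (Fin n) ℂ) L (X i₀) ∣
        a * (algebraMap C L g * algebraMap C L (f * g) ^ k) := by
      refine ⟨algebraMap C L d, ?_⟩
      rw [← h2]; ring
    exact ((hgu.mul (hunit.pow k)).dvd_mul_right).1 h3
  · intro r
    obtain ⟨a, b, hb, h1⟩ := hfrac r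
    exact ⟨algebraMap C L a, algebraMap C L b, by rw [hρC]; exact hb, by rw [hρC, hρC]; exact h1⟩

/-- the same, from an algebra `C` of finite type over the polynomial ring with `C_q = R` -/
theorem divModel_of_fin {n : ℕ} {R : ValuationSubring K}
    {x : Fin n → K} {i₀ : Fin n} (h : Adap R x i₀)
    (hmax : IsLocalRing.maximalIdeal R = Ideal.span {h.toR (X i₀)})
    [Algebra (MvPolynomial (Fin n) ℂ) R] (hPR : algebraMap (MvPolynomial (Fin n) ℂ) R = h.toR)
    [Algebra.FormallyEtale (MvPolynomial (Fin n) ℂ) R]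
    (C : Type) [CommRing C]
    [Algebra (MvPolynomial (Fin n) ℂ) C] [hft : Algebra.FiniteType (MvPolynomial (Fin n) ℂ) C]
    [Algebra C R] [IsScalarTower (MvPolynomial (Fin n) ℂ) C R]
    (hCR : Function.Injective (algebraMap C R)) (q : Ideal C) [hqp : q.IsPrime]
    (hqu : ∀ c : C, c ∉ q ↔ IsUnit (algebraMap C R c)) [hloc : IsLocalization.AtPrime R q] :
    ∃ D : DivModel n K, D.ModelOf R ∧ D.i₀ = i₀ ∧ ∀ i, algebraMap D.A K (D.w i) = x i := by
  have hmem : ∀ c : C, c ∈ q ↔ algebraMap C R c ∈ IsLocalRing.maximalIdeal R := by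
    intro c
    rw [IsLocalRing.mem_maximalIdeal, mem_nonunits_iff, ← hqu, not_not]
  have hnC : IsNoetherianRing C :=
    Algebra.FiniteType.isNoetherianRing (MvPolynomial (Fin n) ℂ) C
  have hfp : Algebra.FinitePresentation (MvPolynomial (Fin n) ℂ) C :=
    Algebra.FinitePresentation.of_finiteType.1 hft
  -- étale
  have hetq : Algebra.IsEtaleAt (MvPolynomial (Fin n) ℂ) q := by
    let e : Localization.AtPrime q ≃ₐ[C] R :=
      IsLocalization.algEquiv q.primeCompl (Localization.AtPrime q) R
    exact Algebra.FormallyEtale.of_equiv (e.restrictScalars (MvPolynomial (Fin n) ℂ)).symm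
  obtain ⟨f, hf, hetf⟩ := Algebra.exists_etale_of_isEtaleAt (R := MvPolynomial (Fin n) ℂ) q
  -- the divisor
  set t : C := algebraMap (MvPolynomial (Fin n) ℂ) C (X i₀) with ht
  have htR : algebraMap C R t = h.toR (X i₀) := by
    rw [ht, ← IsScalarTower.algebraMap_apply (MvPolynomial (Fin n) ℂ) C R, hPR]
  have hg : ∃ g : C, g ∉ q ∧ ∀ c ∈ q, t ∣ g * c := by
    have h1 : ∀ c : C, ∃ b : C, b ∉ q ∧ (c ∈ q → t ∣ b * c) := by
      intro c
      by_cases hc : c ∈ q
      · have h2 : algebraMap C R c ∈ IsLocalRing.maximalIdeal R := (hmem c).1 hc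
        rw [hmax, Ideal.mem_span_singleton] at h2
        obtain ⟨r, hr⟩ := h2
        obtain ⟨a, b, rfl⟩ := IsLocalization.exists_mk'_eq q.primeCompl r
        refine ⟨b, b.2, fun _ => ⟨a, ?_⟩⟩
        apply hCR
        rw [map_mul, map_mul, hr, htR, ← IsLocalization.mk'_spec R a b]
        ring
      · exact ⟨1, (hqu 1).2 (by simp), fun h => absurd h hc⟩
    choose b hb hb' using h1
    obtain ⟨S, hS⟩ := (isNoetherianRing_iff_ideal_fg C).1 hnC q
    refine ⟨∏ c ∈ S, b c, ?_, ?_⟩
    · intro h2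
      obtain ⟨c, _, hc⟩ := (hqp.prod_mem_iff).1 h2
      exact hb c hc
    · intro c hc
      rw [← hS] at hc
      refine Submodule.span_induction ?_ ?_ ?_ ?_ hc
      · intro c' hc'
        have h3 : c' ∈ q := by rw [← hS]; exact Ideal.subset_span hc'
        have h4 : b c' ∣ ∏ c ∈ S, b c := Finset.dvd_prod_of_mem b hc'
        exact (hb' c' h3).trans (mul_dvd_mul_right h4 c')
      · simp
      · intro a a' _ _ h1 h2
        rw [mul_add]
        exact dvd_add h1 h2
      · intro a c' _ h1
        rw [smul_eq_mul, mul_left_comm]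
        exact h1.mul_left a
  obtain ⟨g, hg, hg'⟩ := hg
  have hetA : Algebra.Etale (MvPolynomial (Fin n) ℂ) (Localization.Away (f * g)) := by
    rw [← Algebra.basicOpen_subset_etaleLocus_iff_etale]
    exact Set.Subset.trans (PrimeSpectrum.basicOpen_mul_le_left f g)
      (Algebra.basicOpen_subset_etaleLocus_iff_etale.2 hetf)
  refine divModel_of_loc h C (Localization.Away (f * g)) (algebraMap C R) hCR ?_ f g
    ((hqu f).1 hf) ((hqu g).1 hg) hetA ?_ ?_
  · intro P
    rw [← IsScalarTower.algebraMap_apply (MvPolynomial (Fin n) ℂ) C R, hPR]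
  · intro c hc
    exact hg' c ((hmem c).2 hc)
  · intro r
    obtain ⟨a, b, rfl⟩ := IsLocalization.exists_mk'_eq q.primeCompl r
    exact ⟨a, b, ((hqu b).1 b.2).ne_zero, IsLocalization.mk'_spec R a b⟩

/-- **Models of divisorial valuation rings** -/
theorem exists_divModel_of_adap {n : ℕ} [hK : Algebra.EssFiniteType ℂ K] {R : ValuationSubring K}
    {x : Fin n → K} {i₀ : Fin n} (h : Adap R x i₀) (hx : IsTranscendenceBasis ℂ x)
    (hmax : IsLocalRing.maximalIdeal R = Ideal.span {h.toR (X i₀)}) :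
    ∃ D : DivModel n K, D.ModelOf R ∧ D.i₀ = i₀ ∧ ∀ i, algebraMap D.A K (D.w i) = x i := by
  let _ : Algebra (MvPolynomial (Fin n) ℂ) R := h.toR.toAlgebra
  obtain ⟨hDVR, hess, het⟩ := h.props hx
  have het := het hmax
  -- the subalgebra
  let C := Algebra.EssFiniteType.subalgebra (MvPolynomial (Fin n) ℂ) R
  let q : Ideal C := (IsLocalRing.maximalIdeal R).comap (algebraMap C R)
  have hqu : ∀ c : C, c ∉ q ↔ IsUnit (algebraMap C R c) := by
    intro c
    rw [Ideal.mem_comap, IsLocalRing.mem_maximalIdeal, mem_nonunits_iff, not_not]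
  have hqp : q.IsPrime := Ideal.comap_isPrime _ _
  have hloc : IsLocalization.AtPrime R q := by
    have h1 : Algebra.EssFiniteType.submonoid (MvPolynomial (Fin n) ℂ) R = q.primeCompl := by
      ext c
      exact (hqu c).symm
    have h2 := Algebra.EssFiniteType.isLocalization (R := MvPolynomial (Fin n) ℂ) (S := R)
    rw [h1] at h2
    exact h2
  have hCR : Function.Injective (algebraMap C R) := Subtype.val_injective
  exact divModel_of_fin h hmax rfl C hCR q hqu

/-- **every divisorial valuation ring of a finitely generated field over `ℂ` has a model** -/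
theorem exists_divModel {n : ℕ} [Algebra.EssFiniteType ℂ K] (htr : Algebra.trdeg ℂ K = n)
    {R : ValuationSubring K} (hR : IsDiv ℂ n R) : ∃ D : DivModel n K, D.ModelOf R := by
  obtain ⟨x, i₀, h, hx, hmax⟩ := exists_adap htr hR
  obtain ⟨D, hD, -⟩ := exists_divModel_of_adap h hx hmax
  exact ⟨D, hD⟩

end poly

end Crest.Agent.R276.BC_986
end
end

-- ▼ part R276/R0A_858
section

/-! # Row 276, helper858: (R0) algebra of relative boundary charts, part A. -/

set_option autoImplicit false

noncomputable section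

namespace Crest.Agent.R276.DivVal_858

open IsLocalRing MvPolynomial Crest.Agent.R276.FKDefs_779 Crest.Agent.R276.BC_986

section Adap

/-- put `X i₀ = 0` -/
def kill (k : Type*) [Field k] {σ : Type*} [DecidableEq σ] (i₀ : σ) :
    MvPolynomial σ k →ₐ[k] MvPolynomial {i : σ // i ≠ i₀} k :=
  aeval (fun i => if h : i = i₀ then 0 else X ⟨i, h⟩)

theorem kill_rename {k : Type*} [Field k] {σ : Type*} [DecidableEq σ] (i₀ : σ)
    (P : MvPolynomial {i : σ // i ≠ i₀} k) : kill k i₀ (rename Subtype.val P) = P := by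
  have h : (kill k i₀).comp (rename Subtype.val) = AlgHom.id k _ := by
    apply MvPolynomial.algHom_ext
    rintro ⟨i, hi⟩
    simp [kill, hi]
  exact DFunLike.congr_fun h P

theorem dvd_sub_rename {k : Type*} [Field k] {σ : Type*} [DecidableEq σ] (i₀ : σ)
    (P : MvPolynomial σ k) : X i₀ ∣ P - rename Subtype.val (kill k i₀ P) := by
  rw [← Ideal.mem_span_singleton, ← Ideal.Quotient.eq]
  have h : (Ideal.Quotient.mkₐ k (Ideal.span {(X i₀ : MvPolynomial σ k)})) =
      (Ideal.Quotient.mkₐ k (Ideal.span {(X i₀ : MvPolynomial σ k)})).comp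
        ((rename Subtype.val).comp (kill k i₀)) := by
    apply MvPolynomial.algHom_ext
    intro i
    by_cases hi : i = i₀
    · subst hi
      simp only [AlgHom.comp_apply, kill, aeval_X, dif_pos, map_zero]
      exact Ideal.Quotient.eq_zero_iff_mem.mpr (Ideal.mem_span_singleton_self _)
    · simp [kill, hi]
  exact DFunLike.congr_fun h P

theorem X_dvd_iff_kill {k : Type*} [Field k] {σ : Type*} [DecidableEq σ] (i₀ : σ)
    (P : MvPolynomial σ k) : X i₀ ∣ P ↔ kill k i₀ P = 0 := by
  constructor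
  · rintro ⟨Q, rfl⟩
    rw [map_mul]
    have : kill k i₀ (X i₀) = 0 := by simp [kill]
    rw [this, zero_mul]
  · intro h
    have := dvd_sub_rename i₀ P
    rwa [h, map_zero, sub_zero] at this

variable {n : ℕ} {K : Type} [Field K] [Algebra ℂ K] {R : ValuationSubring K}

theorem adap_of_resInd (halg : ∀ c : ℂ, algebraMap ℂ K c ∈ R) {z : Fin n → K} {i₀ : Fin n}
    (h : ResInd ℂ R (fun i : {i : Fin n // i ≠ i₀} => z i)) (ht : R.valuation (z i₀) < 1)
    (hne : z i₀ ≠ 0) : Adap R z i₀ := by
  refine ⟨fun P hP => ?_, ht, hne⟩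
  have hz : ∀ i, z i ∈ R := by
    intro i
    by_cases hi : i = i₀
    · rw [hi, ← ValuationSubring.valuation_le_one_iff]
      exact ht.le
    · exact h.1 ⟨i, hi⟩
  obtain ⟨Q, hQ⟩ := dvd_sub_rename i₀ P
  have h0 : kill ℂ i₀ P ≠ 0 := fun h0 => hP ((X_dvd_iff_kill i₀ P).mpr h0)
  have h1 : aeval z P = aeval (fun i : {i : Fin n // i ≠ i₀} => z i) (kill ℂ i₀ P) +
      z i₀ * aeval z Q := by
    have h2 : P = rename Subtype.val (kill ℂ i₀ P) + X i₀ * Q := by
      rw [← hQ]; ring
    conv_lhs => rw [h2]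
    rw [map_add, map_mul, aeval_X, aeval_rename]
    rfl
  have h3 : R.valuation (z i₀ * aeval z Q) < 1 := by
    rw [map_mul]
    have h4 : R.valuation (aeval z Q) ≤ 1 :=
      (ValuationSubring.valuation_le_one_iff R _).mpr (BC_986.aeval_mem halg hz Q)
    exact mul_lt_one_of_lt_of_le ht h4
  rw [h1, Valuation.map_add_eq_of_lt_left]
  · exact h.2 _ h0
  · rw [h.2 _ h0]
    exact h3

/-- the `DivModel` attached to adapted coordinates `z` (uniformiser `z i₀`, the others residually
independent), in any order -/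
theorem exists_divModel_of_unif [Algebra.EssFiniteType ℂ K] (htr : Algebra.trdeg ℂ K = n)
    (halg : ∀ c : ℂ, algebraMap ℂ K c ∈ R) {z : Fin n → K} {i₀ : Fin n}
    (h : ResInd ℂ R (fun i : {i : Fin n // i ≠ i₀} => z i)) (ht : IsUnif R (z i₀)) :
    ∃ D : DivModel n K, D.ModelOf R ∧ D.i₀ = i₀ ∧ ∀ i, algebraMap D.A K (D.w i) = z i := by
  have hA := adap_of_resInd halg h ht.lt ht.ne
  have hb : IsTranscendenceBasis ℂ z := by
    apply hA.algebraicIndependent.isTranscendenceBasis_of_lift_trdeg_le_of_finite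
    rw [htr]
    simp
  refine exists_divModel_of_adap hA hb ?_
  have hmem : ∀ y : R, y ∈ maximalIdeal R ↔ R.valuation (y : K) < 1 :=
    fun y => ValuationSubring.valuation_lt_one_iff R y
  have hX : ((hA.toR (X i₀) : R) : K) = z i₀ := by rw [hA.coe_toR, aeval_X]
  apply le_antisymm
  · intro y hy
    rw [Ideal.mem_span_singleton]
    have h1 : R.valuation (y : K) ≤ R.valuation (z i₀) := ht.max _ ((hmem y).mp hy)
    have h2 : (y : K) / z i₀ ∈ R := by
      rw [← ValuationSubring.valuation_le_one_iff, map_div₀]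
      exact div_le_one_of_le₀ h1 zero_le
    refine ⟨⟨(y : K) / z i₀, h2⟩, ?_⟩
    apply Subtype.ext
    change (y : K) = ((hA.toR (X i₀) : R) : K) * ((y : K) / z i₀)
    rw [hX, mul_div_cancel₀ _ ht.ne]
  · rw [Ideal.span_singleton_le_iff_mem, hmem, hX]
    exact ht.lt


end Adap

end Crest.Agent.R276.DivVal_858
end
end

-- ▼ part R276/R0B_858
section

/-! # Row 276, helper858: (R0) algebra of relative boundary charts, part B: a model gives adapted
coordinates. -/

set_option autoImplicit false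

noncomputable section

namespace Crest.Agent.R276.DivVal_858

open IsLocalRing MvPolynomial Crest.Agent.R276.FKDefs_779 Crest.Agent.R276.BC_986

variable {n : ℕ} {K : Type} [Field K] [Algebra ℂ K] {R : ValuationSubring K}

/-- an étale coordinate polynomial divisible by `t` is divisible by `X i₀` -/
theorem X_dvd_of_t_dvd (D : DivModel n K) (Q : MvPolynomial (Fin n) ℂ)
    (hQ : D.t ∣ aeval D.w Q) : X D.i₀ ∣ Q := by
  by_contra hX
  let S := MvPolynomial (Fin n) ℂ
  let : Algebra S D.A := ((aeval D.w : S →ₐ[ℂ] D.A) : S →+* D.A).toAlgebra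
  have hE : Algebra.Etale S D.A := D.etale
  have hflat : Module.Flat S D.A := inferInstance
  let P : Ideal D.A := Ideal.span {D.t}
  have hPp : P.IsPrime := (Ideal.span_singleton_prime D.t_ne).mpr D.t_prime
  let q : Ideal S := P.comap (algebraMap S D.A)
  have hq : q.IsPrime := Ideal.comap_isPrime _ _
  have : P.LiesOver q := ⟨rfl⟩
  let p : Ideal S := Ideal.span {X D.i₀}
  have hp : p.IsPrime := (Ideal.span_singleton_prime (X_ne_zero D.i₀)).mpr X_prime
  have hX0 : (algebraMap S D.A) (X D.i₀) = D.t := by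
    change aeval D.w (X D.i₀) = _
    rw [aeval_X]
    rfl
  have hpq : p < q := by
    refine lt_of_le_of_ne ?_ ?_
    · rw [Ideal.span_singleton_le_iff_mem, Ideal.mem_comap, hX0]
      exact Ideal.mem_span_singleton_self _
    · intro heq
      apply hX
      rw [← Ideal.mem_span_singleton]
      have : Q ∈ q := by
        rw [Ideal.mem_comap]
        exact Ideal.mem_span_singleton.mpr hQ
      rw [← heq] at this
      exact this
  obtain ⟨P', hP', hP'p, hover⟩ := Ideal.exists_ideal_lt_liesOver_of_lt (S := D.A) P hpq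
  have h1 : D.t ∈ P' := by
    rw [← hX0]
    have h2 : X D.i₀ ∈ p := Ideal.mem_span_singleton_self _
    rw [hover.over] at h2
    exact Ideal.mem_comap.mp h2
  have h3 : P ≤ P' := by
    rw [Ideal.span_singleton_le_iff_mem]
    exact h1
  exact absurd h3 (not_le_of_gt hP')

/-- the coordinates of a model other than `t` are residually independent -/
theorem resInd_of_modelOf {D : DivModel n K} (h : D.ModelOf R) :
    ResInd ℂ R (fun i : {i : Fin n // i ≠ D.i₀} => algebraMap D.A K (D.w i)) := by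
  refine ⟨fun i => h.mem _, fun P hP => ?_⟩
  have h1 : aeval (fun i : {i : Fin n // i ≠ D.i₀} => algebraMap D.A K (D.w i)) P =
      algebraMap D.A K (aeval D.w (rename Subtype.val P)) := by
    rw [aeval_rename]
    have := MvPolynomial.aeval_algebraMap_apply K (fun i : {i : Fin n // i ≠ D.i₀} => D.w i) P
    exact this
  rw [h1]
  apply h.unit
  intro hd
  apply hP
  have h2 := (X_dvd_iff_kill D.i₀ _).mp (X_dvd_of_t_dvd D _ hd)
  rwa [kill_rename] at h2

theorem modelOf_alg {D : DivModel n K} (h : D.ModelOf R) (c : ℂ) : algebraMap ℂ K c ∈ R := by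
  have := h.mem (algebraMap ℂ D.A c)
  rwa [← IsScalarTower.algebraMap_apply] at this

end Crest.Agent.R276.DivVal_858
end
end

-- ▼ part R276/R0C_858
section

/-! # Row 276, helper858: (R0) algebra of relative boundary charts, part C: the pairs of models. -/

set_option autoImplicit false

noncomputable section

namespace Crest.Agent.R276.DivVal_858

open IsLocalRing MvPolynomial Crest.Agent.R276.FKDefs_779 Crest.Agent.R276.BC_986

variable {L K : Type} [Field L] [Field K] [Algebra ℂ L] [Algebra ℂ K] [Algebra L K]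
variable [IsScalarTower ℂ L K] {m r : ℕ}

/-- **(R0-H)**: `L ⊆ R`, arbitrary transcendence basis `w` of `L` over `ℂ`. -/
theorem r0_H [Algebra.EssFiniteType ℂ K] (hm : Algebra.trdeg ℂ L = m)
    (hn : Algebra.trdeg ℂ K = (m + r : ℕ)) {R : ValuationSubring K} (hR : IsDiv ℂ (m + r) R)
    (hL : ∀ c : L, algebraMap L K c ∈ R) (w : Fin m → L) (hw : AlgebraicIndependent ℂ w) :
    ∃ (hr : 0 < r) (D : DivModel (m + r) K), D.ModelOf R ∧ D.i₀ = Fin.natAdd m ⟨0, hr⟩ ∧
      ∀ i, algebraMap D.A K (D.w (Fin.castAdd r i)) = algebraMap L K (w i) := by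
  obtain ⟨hmn, -, hw'⟩ := restrict_top hn hm hR hL
  have hdvr := dvr_of_isDiv hn hR
  obtain ⟨r', rfl⟩ : ∃ r', r = r' + 1 := ⟨r - 1, by omega⟩
  have key := hw' w hw
  have h0 : m + (r' + 1) - 1 - m = r' := by omega
  rw [h0] at key
  obtain ⟨x, -, hx⟩ := key
  obtain ⟨t, ht⟩ := exists_isUnif R
  let z : Fin (m + (r' + 1)) → K := Fin.append (algebraMap L K ∘ w) (Fin.cons t x : Fin (r' + 1) → K)
  have hz0 : z (Fin.natAdd m 0) = t := by
    change Fin.append (algebraMap L K ∘ w) (Fin.cons t x : Fin (r' + 1) → K) (Fin.natAdd m 0) = t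
    rw [Fin.append_right, Fin.cons_zero]
  let f : {i : Fin (m + (r' + 1)) // i ≠ Fin.natAdd m 0} → Fin r' ⊕ Fin m := fun i =>
    if h : i.1.val < m then Sum.inr ⟨i.1.val, h⟩ else Sum.inl ⟨i.1.val - m - 1, by
      have h1 := i.1.isLt
      have h2 : i.1.val ≠ m := fun h3 => i.2 (Fin.ext (by simpa using h3))
      omega⟩
  have hne : ∀ i : {i : Fin (m + (r' + 1)) // i ≠ Fin.natAdd m 0}, i.1.val ≠ m := fun i h3 =>
    i.2 (Fin.ext (by simpa using h3))
  have hf : Function.Injective f := by
    intro i j hij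
    have hi := hne i
    have hj := hne j
    apply Subtype.ext
    apply Fin.ext
    by_cases h1 : i.1.val < m <;> by_cases h2 : j.1.val < m <;>
      simp only [f, h1, h2, dif_pos, dif_neg, not_false_iff, Sum.inr.injEq, Sum.inl.injEq,
        Fin.mk.injEq, reduceCtorEq] at hij
    · exact hij
    · omega
  have hzf : (fun i : {i : Fin (m + (r' + 1)) // i ≠ Fin.natAdd m 0} => z i) =
      (Sum.elim x (algebraMap L K ∘ w)) ∘ f := by
    funext i
    have hi := hne i
    by_cases h1 : i.1.val < m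
    · have h2 : i.1 = Fin.castAdd (r' + 1) ⟨i.1.val, h1⟩ := Fin.ext rfl
      have h3 : f i = Sum.inr ⟨i.1.val, h1⟩ := by simp only [f, h1, dif_pos]
      rw [Function.comp_apply, h3, Sum.elim_inr]
      change Fin.append (algebraMap L K ∘ w) (Fin.cons t x : Fin (r' + 1) → K) i.1 = _
      conv_lhs => rw [h2]
      rw [Fin.append_left]
    · have hlt := i.1.isLt
      have h4 : i.1.val - m - 1 < r' := by omega
      have h2 : i.1 = Fin.natAdd m (Fin.succ ⟨i.1.val - m - 1, h4⟩) := by
        apply Fin.ext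
        simp only [Fin.val_natAdd, Fin.val_succ]
        omega
      have h3 : f i = Sum.inl ⟨i.1.val - m - 1, h4⟩ := by
        simp only [f, h1, dif_neg, not_false_iff]
      rw [Function.comp_apply, h3, Sum.elim_inl]
      change Fin.append (algebraMap L K ∘ w) (Fin.cons t x : Fin (r' + 1) → K) i.1 = _
      conv_lhs => rw [h2]
      rw [Fin.append_right, Fin.cons_succ]
  have hres : ResInd ℂ R (fun i : {i : Fin (m + (r' + 1)) // i ≠ Fin.natAdd m 0} => z i) := by
    rw [hzf]
    exact hx.comp f hf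
  obtain ⟨D, hD, hi, hw2⟩ := exists_divModel_of_unif hn hR.alg hres (by rw [hz0]; exact ht)
  refine ⟨Nat.succ_pos _, D, hD, hi, fun i => ?_⟩
  rw [hw2]
  change Fin.append (algebraMap L K ∘ w) (Fin.cons t x : Fin (r' + 1) → K) (Fin.castAdd _ i) = _
  rw [Fin.append_left]
  rfl

omit [Algebra ℂ L] [Algebra ℂ K] [IsScalarTower ℂ L K] in
/-- the value of an element of a subfield -/
theorem valuation_comap_lt_one_iff {R : ValuationSubring K} (c : L) :
    (R.comap (algebraMap L K)).valuation c < 1 ↔ R.valuation (algebraMap L K c) < 1 := by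
  by_cases hc : c = 0
  · simp [hc]
  · have h1 : ∀ (T : Type) [Field T] (S : ValuationSubring T) (a : T), a ≠ 0 →
        (S.valuation a < 1 ↔ a⁻¹ ∉ S) := by
      intro T _ S a ha
      rw [← ValuationSubring.valuation_le_one_iff, map_inv₀, not_le]
      have hpos : 0 < S.valuation a := (Valuation.pos_iff _).mpr ha
      exact (one_lt_inv₀ hpos).symm
    rw [h1 L _ c hc, h1 K _ (algebraMap L K c) (by
      rw [Ne, map_eq_zero_iff _ (algebraMap L K).injective]; exact hc), ValuationSubring.mem_comap,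
      map_inv₀]

/-- every element is a power of the uniformiser times a unit -/
theorem exists_eq_pow_mul {R : ValuationSubring K} {n : ℕ} {D : DivModel n K} (hD : D.ModelOf R)
    {y : K} (hy0 : y ≠ 0) (hy : R.valuation y < 1) :
    ∃ (e : ℕ) (u : K), 0 < e ∧ R.valuation u = 1 ∧ y = (algebraMap D.A K D.t) ^ e * u := by
  obtain ⟨a, ha⟩ := D.exists_hasOrd y hy0
  have h1 := hD.val_eq ha
  have hlt := hD.lt
  have hpos := hD.pos
  have ha1 : 1 ≤ a := by
    by_contra hcon
    have ha0 : a ≤ 0 := by omega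
    rw [h1] at hy
    have : (1 : _) ≤ R.valuation (algebraMap D.A K D.t) ^ a := by
      rw [← zpow_zero (R.valuation (algebraMap D.A K D.t))]
      exact zpow_le_zpow_right_of_le_one₀ hpos hlt.le ha0
    exact absurd hy (not_lt.mpr this)
  obtain ⟨e, rfl⟩ : ∃ e : ℕ, a = e := ⟨a.toNat, by omega⟩
  have ht0 : (algebraMap D.A K D.t) ^ e ≠ 0 := pow_ne_zero _ D.tK_ne
  refine ⟨e, y / (algebraMap D.A K D.t) ^ e, by omega, ?_, (mul_div_cancel₀ _ ht0).symm⟩
  rw [map_div₀, h1, map_pow, zpow_natCast, div_self]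
  exact pow_ne_zero _ hpos.ne'

/-- **(R0-V)**: `L ⊄ R`, PRESCRIBED model `DL` of `R ∩ L`. -/
theorem r0_V [Algebra.EssFiniteType ℂ K] (hm : Algebra.trdeg ℂ L = m)
    (hn : Algebra.trdeg ℂ K = (m + r : ℕ)) {R : ValuationSubring K} (hR : IsDiv ℂ (m + r) R)
    (DL : DivModel m L) (hDL : DL.ModelOf (R.comap (algebraMap L K))) :
    ∃ (D : DivModel (m + r) K) (e : ℕ) (u : K), D.ModelOf R ∧
      D.i₀ = Fin.castAdd r DL.i₀ ∧
      (∀ i, i ≠ DL.i₀ → algebraMap D.A K (D.w (Fin.castAdd r i)) =
        algebraMap L K (algebraMap DL.A L (DL.w i))) ∧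
      AlgebraicIndependent L (fun j : Fin r => algebraMap D.A K (D.w (Fin.natAdd m j))) ∧
      0 < e ∧ R.valuation u = 1 ∧
      algebraMap L K (algebraMap DL.A L DL.t) = (algebraMap D.A K D.t) ^ e * u := by
  have hne : R.comap (algebraMap L K) ≠ ⊤ := by
    intro htop
    have h1 := hDL.lt
    have h2 : (algebraMap DL.A L DL.t)⁻¹ ∈ R.comap (algebraMap L K) := by rw [htop]; trivial
    rw [← ValuationSubring.valuation_le_one_iff, map_inv₀] at h2
    have h3 := (one_lt_inv₀ hDL.pos).mpr h1
    exact absurd h2 (not_le.mpr h3)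
  obtain ⟨hm1, -, -, hw'⟩ := restrict_of_ne_top hn hm hR hne
  have hdvr := dvr_of_isDiv hn hR
  obtain ⟨m', rfl⟩ : ∃ m', m = m' + 1 := ⟨m - 1, by omega⟩
  have hresL := resInd_of_modelOf hDL
  let w : Fin m' → L := fun j => algebraMap DL.A L (DL.w (DL.i₀.succAbove j))
  have hw : ResInd ℂ (R.comap (algebraMap L K)) w :=
    hresL.comp (fun j => (⟨DL.i₀.succAbove j, Fin.succAbove_ne _ _⟩ : {i // i ≠ DL.i₀}))
      (fun a b hab => Fin.succAbove_right_injective (congrArg Subtype.val hab))
  have key := hw' w hw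
  have h0 : m' + 1 + r - (m' + 1) = r := by omega
  rw [h0] at key
  obtain ⟨x, -, hx, hxL⟩ := key
  obtain ⟨t, ht⟩ := exists_isUnif R
  let b : Fin (m' + 1) → K := fun i =>
    if i = DL.i₀ then t else algebraMap L K (algebraMap DL.A L (DL.w i))
  let z : Fin (m' + 1 + r) → K := Fin.append b x
  have hz0 : z (Fin.castAdd r DL.i₀) = t := by
    change Fin.append b x (Fin.castAdd r DL.i₀) = t
    rw [Fin.append_left]
    simp only [b, if_pos]
  let g : {i : Fin (m' + 1) // i ≠ DL.i₀} → Fin m' := fun i =>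
    (Fin.exists_succAbove_eq i.2).choose
  have hg : ∀ i, DL.i₀.succAbove (g i) = i.1 := fun i => (Fin.exists_succAbove_eq i.2).choose_spec
  have hne' : ∀ (i : {i : Fin (m' + 1 + r) // i ≠ Fin.castAdd r DL.i₀}) (h : i.1.val < m' + 1),
      (⟨i.1.val, h⟩ : Fin (m' + 1)) ≠ DL.i₀ := by
    intro i h heq
    apply i.2
    apply Fin.ext
    rw [Fin.val_castAdd]
    exact congrArg Fin.val heq
  let f : {i : Fin (m' + 1 + r) // i ≠ Fin.castAdd r DL.i₀} → Fin r ⊕ Fin m' := fun i =>
    if h : i.1.val < m' + 1 then Sum.inr (g ⟨⟨i.1.val, h⟩, hne' i h⟩) else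
      Sum.inl ⟨i.1.val - (m' + 1), by
        have h1 := i.1.isLt
        omega⟩
  have hf : Function.Injective f := by
    intro i j hij
    apply Subtype.ext
    apply Fin.ext
    by_cases h1 : i.1.val < m' + 1 <;> by_cases h2 : j.1.val < m' + 1 <;>
      simp only [f, h1, h2, dif_pos, dif_neg, not_false_iff, Sum.inr.injEq, Sum.inl.injEq,
        Fin.mk.injEq, reduceCtorEq] at hij
    · have h3 := congrArg DL.i₀.succAbove hij
      rw [hg, hg] at h3
      have h4 : i.1.val = j.1.val := congrArg (fun y : Fin (m' + 1) => y.val) h3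
      exact h4
    · omega
  have hzf : (fun i : {i : Fin (m' + 1 + r) // i ≠ Fin.castAdd r DL.i₀} => z i) =
      (Sum.elim x (algebraMap L K ∘ w)) ∘ f := by
    funext i
    by_cases h1 : i.1.val < m' + 1
    · have h2 : i.1 = Fin.castAdd r ⟨i.1.val, h1⟩ := Fin.ext rfl
      have h3 : f i = Sum.inr (g ⟨⟨i.1.val, h1⟩, hne' i h1⟩) := by simp only [f, h1, dif_pos]
      rw [Function.comp_apply, h3, Sum.elim_inr]
      change Fin.append b x i.1 = _
      conv_lhs => rw [h2]
      rw [Fin.append_left]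
      simp only [b, if_neg (hne' i h1), w, Function.comp_apply]
      rw [hg]
    · have hlt := i.1.isLt
      have h4 : i.1.val - (m' + 1) < r := by omega
      have h2 : i.1 = Fin.natAdd (m' + 1) ⟨i.1.val - (m' + 1), h4⟩ := by
        apply Fin.ext
        simp only [Fin.val_natAdd]
        omega
      have h3 : f i = Sum.inl ⟨i.1.val - (m' + 1), h4⟩ := by
        simp only [f, h1, dif_neg, not_false_iff]
      rw [Function.comp_apply, h3, Sum.elim_inl]
      change Fin.append b x i.1 = _
      conv_lhs => rw [h2]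
      rw [Fin.append_right]
  have hres : ResInd ℂ R (fun i : {i : Fin (m' + 1 + r) // i ≠ Fin.castAdd r DL.i₀} => z i) := by
    rw [hzf]
    exact hx.comp f hf
  obtain ⟨D, hD, hi, hw2⟩ := exists_divModel_of_unif hn hR.alg hres (by rw [hz0]; exact ht)
  have hy0 : algebraMap L K (algebraMap DL.A L DL.t) ≠ 0 := by
    rw [Ne, map_eq_zero_iff _ (algebraMap L K).injective]
    exact DL.tK_ne
  obtain ⟨e, u, he, hu, heu⟩ := exists_eq_pow_mul hD hy0 ((valuation_comap_lt_one_iff _).mp hDL.lt)
  refine ⟨D, e, u, hD, hi, ?_, ?_, he, hu, heu⟩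
  · intro i hii
    rw [hw2]
    change Fin.append b x (Fin.castAdd _ i) = _
    rw [Fin.append_left]
    simp only [b, if_neg hii]
  · have h5 : (fun j : Fin r => algebraMap D.A K (D.w (Fin.natAdd (m' + 1) j))) = x := by
      funext j
      rw [hw2]
      change Fin.append b x (Fin.natAdd _ j) = _
      rw [Fin.append_right]
    rw [h5]
    exact hxL

end Crest.Agent.R276.DivVal_858
end
end

-- ▼ part R276/R0D_858

/-! # Row 276, helper858: (R0) algebra of relative boundary charts, part D: towers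
`ℂ ⊆ K₀ ⊆ L ⊆ K`. -/

set_option autoImplicit false

noncomputable section

namespace Crest.Agent.R276.DivVal_858

open IsLocalRing MvPolynomial Crest.Agent.R276.FKDefs_779 Crest.Agent.R276.BC_986

variable {K₀ L K : Type} [Field K₀] [Field L] [Field K]
variable [Algebra ℂ K₀] [Algebra ℂ L] [Algebra ℂ K] [Algebra K₀ L] [Algebra L K] [Algebra K₀ K]
variable [IsScalarTower ℂ K₀ L] [IsScalarTower ℂ L K] [IsScalarTower K₀ L K]
variable {ρ m r : ℕ}

/-- divisoriality of `R ∩ L` from an element of `L` outside `R` or from `R ∩ L ≠ ⊤`. -/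
theorem isDiv_comap (hm : Algebra.trdeg ℂ L = m) (hn : Algebra.trdeg ℂ K = (m + r : ℕ))
    {R : ValuationSubring K} (hR : IsDiv ℂ (m + r) R) (hne : R.comap (algebraMap L K) ≠ ⊤) :
    IsDiv ℂ m (R.comap (algebraMap L K)) :=
  (restrict_of_ne_top hn hm hR hne).2.2.1

/-- **Tower, case (H, V)**: `K₀ ⊆ R`, `L ⊄ R`; arbitrary transcendence basis `w₀` of `K₀`. -/
theorem tower_HV [Algebra.EssFiniteType ℂ L] [Algebra.EssFiniteType ℂ K]
    (h0 : Algebra.trdeg ℂ K₀ = ρ) (hm : Algebra.trdeg ℂ L = (ρ + m : ℕ))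
    (hn : Algebra.trdeg ℂ K = (ρ + m + r : ℕ)) {R : ValuationSubring K}
    (hR : IsDiv ℂ (ρ + m + r) R) (hK₀ : ∀ c : K₀, algebraMap K₀ K c ∈ R)
    (hL : R.comap (algebraMap L K) ≠ ⊤) (w₀ : Fin ρ → K₀) (hw₀ : AlgebraicIndependent ℂ w₀) :
    ∃ (hpos : 0 < m) (DL : DivModel (ρ + m) L) (D : DivModel (ρ + m + r) K) (e : ℕ) (u : K),
      DL.ModelOf (R.comap (algebraMap L K)) ∧ D.ModelOf R ∧
      DL.i₀ = Fin.natAdd ρ ⟨0, hpos⟩ ∧ D.i₀ = Fin.castAdd r DL.i₀ ∧
      (∀ i, algebraMap DL.A L (DL.w (Fin.castAdd m i)) = algebraMap K₀ L (w₀ i)) ∧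
      (∀ i, i ≠ DL.i₀ → algebraMap D.A K (D.w (Fin.castAdd r i)) =
        algebraMap L K (algebraMap DL.A L (DL.w i))) ∧
      AlgebraicIndependent L (fun j : Fin r => algebraMap D.A K (D.w (Fin.natAdd (ρ + m) j))) ∧
      0 < e ∧ R.valuation u = 1 ∧
      algebraMap L K (algebraMap DL.A L DL.t) = (algebraMap D.A K D.t) ^ e * u := by
  have hRL := isDiv_comap hm hn hR hL
  have hK₀L : ∀ c : K₀, algebraMap K₀ L c ∈ R.comap (algebraMap L K) := by
    intro c
    rw [ValuationSubring.mem_comap, ← IsScalarTower.algebraMap_apply]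
    exact hK₀ c
  obtain ⟨hpos, DL, hDL, hi, hw⟩ := r0_H h0 hm hRL hK₀L w₀ hw₀
  obtain ⟨D, e, u, hD, hi', hw', hind, he, hu, heu⟩ := r0_V hm hn hR DL hDL
  exact ⟨hpos, DL, D, e, u, hDL, hD, hi, hi', hw, hw', hind, he, hu, heu⟩

/-- **Tower, case (V, V)**: `K₀ ⊄ R`; PRESCRIBED model `D₀` of `R ∩ K₀`. -/
theorem tower_VV [Algebra.EssFiniteType ℂ L] [Algebra.EssFiniteType ℂ K]
    (h0 : Algebra.trdeg ℂ K₀ = ρ) (hm : Algebra.trdeg ℂ L = (ρ + m : ℕ))
    (hn : Algebra.trdeg ℂ K = (ρ + m + r : ℕ)) {R : ValuationSubring K}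
    (hR : IsDiv ℂ (ρ + m + r) R) (D₀ : DivModel ρ K₀)
    (hD₀ : D₀.ModelOf (R.comap (algebraMap K₀ K))) :
    ∃ (DL : DivModel (ρ + m) L) (D : DivModel (ρ + m + r) K) (e₀ e : ℕ) (u₀ : L) (u : K),
      DL.ModelOf (R.comap (algebraMap L K)) ∧ D.ModelOf R ∧
      DL.i₀ = Fin.castAdd m D₀.i₀ ∧ D.i₀ = Fin.castAdd r DL.i₀ ∧
      (∀ i, i ≠ D₀.i₀ → algebraMap DL.A L (DL.w (Fin.castAdd m i)) =
        algebraMap K₀ L (algebraMap D₀.A K₀ (D₀.w i))) ∧
      (∀ i, i ≠ DL.i₀ → algebraMap D.A K (D.w (Fin.castAdd r i)) =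
        algebraMap L K (algebraMap DL.A L (DL.w i))) ∧
      AlgebraicIndependent K₀ (fun j : Fin m => algebraMap DL.A L (DL.w (Fin.natAdd ρ j))) ∧
      AlgebraicIndependent L (fun j : Fin r => algebraMap D.A K (D.w (Fin.natAdd (ρ + m) j))) ∧
      0 < e₀ ∧ (R.comap (algebraMap L K)).valuation u₀ = 1 ∧
      algebraMap K₀ L (algebraMap D₀.A K₀ D₀.t) = (algebraMap DL.A L DL.t) ^ e₀ * u₀ ∧
      0 < e ∧ R.valuation u = 1 ∧
      algebraMap L K (algebraMap DL.A L DL.t) = (algebraMap D.A K D.t) ^ e * u := by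
  have hcomp : (R.comap (algebraMap L K)).comap (algebraMap K₀ L) = R.comap (algebraMap K₀ K) := by
    rw [ValuationSubring.comap_comap, ← IsScalarTower.algebraMap_eq]
  have hL : R.comap (algebraMap L K) ≠ ⊤ := by
    intro htop
    have h1 := hD₀.lt
    have h2 : (algebraMap D₀.A K₀ D₀.t)⁻¹ ∈ R.comap (algebraMap K₀ K) := by
      rw [← hcomp, htop]; trivial
    rw [← ValuationSubring.valuation_le_one_iff, map_inv₀] at h2
    have h3 := (one_lt_inv₀ hD₀.pos).mpr h1
    exact absurd h2 (not_le.mpr h3)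
  have hRL := isDiv_comap hm hn hR hL
  obtain ⟨DL, e₀, u₀, hDL, hi, hw, hind₀, he₀, hu₀, heu₀⟩ :=
    r0_V h0 hm hRL D₀ (by rw [hcomp]; exact hD₀)
  obtain ⟨D, e, u, hD, hi', hw', hind, he, hu, heu⟩ := r0_V hm hn hR DL hDL
  exact ⟨DL, D, e₀, e, u₀, u, hDL, hD, hi, hi', hw, hw', hind₀, hind, he₀, hu₀, heu₀, he, hu, heu⟩

/-- **Tower, case (H, H)**: `L ⊆ R`; arbitrary transcendence basis of `L`. -/
theorem tower_HH [Algebra.EssFiniteType ℂ K] (hm : Algebra.trdeg ℂ L = (ρ + m : ℕ))
    (hn : Algebra.trdeg ℂ K = (ρ + m + r : ℕ)) {R : ValuationSubring K}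
    (hR : IsDiv ℂ (ρ + m + r) R) (hL : ∀ c : L, algebraMap L K c ∈ R) (w : Fin (ρ + m) → L)
    (hw : AlgebraicIndependent ℂ w) :
    ∃ (hr : 0 < r) (D : DivModel (ρ + m + r) K), D.ModelOf R ∧
      D.i₀ = Fin.natAdd (ρ + m) ⟨0, hr⟩ ∧
      ∀ i, algebraMap D.A K (D.w (Fin.castAdd r i)) = algebraMap L K (w i) :=
  r0_H hm hn hR hL w hw

end Crest.Agent.R276.DivVal_858
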