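import Mathlib
import Crest.Agent.R276.BR2_590
import Crest.Agent.R276.BR9_590
import Crest.Agent.R276.SkelDefs_220
import Crest.Agent.R276.IntC_448
import Crest.Agent.R276.R0D_858

-- ▼ part R276/TChX1_590
section

/-!
Row 276, conjunct TCh of SkelDefs_220 (helper590), part 1: existence of chart systems for towers,
given the algebraic data (three cases VV, HV, HH).
-/

set_option autoImplicit false

open scoped Topology BigOperators ENNReal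
open Set Metric Filter

noncomputable section

namespace Crest.Agent.R276.TChX_590

open Crest.Agent.R271.Defs710 Crest.Agent.R271.Bd741 Crest.Agent.R276.BC_986
open Crest.Agent.R276.BR_590
open Crest.Agent.R271.Rd692 (nonempty_chart)

lemma VData.nd_ι {m r : ℕ} {L K : Type} [Field L] [Algebra ℂ L] [Field K] [Algebra ℂ K]
    [Algebra L K] (V : VData m r L K) {a : V.DL.A} (ha : ¬ V.DL.t ∣ a) : ¬ V.D.t ∣ V.ι a :=
  fun h => ha (V.lies a h)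

lemma VData.ι_t {m r : ℕ} {L K : Type} [Field L] [Algebra ℂ L] [Field K] [Algebra ℂ K]
    [Algebra L K] (V : VData m r L K) {y : V.D.A →ₐ[ℂ] ℂ} (hy : y V.D.t = 0) :
    y.comp V.ι V.DL.t = 0 := by
  change y (V.ι V.DL.t) = 0
  rw [V.ram, map_mul, map_pow, hy, zero_pow V.e_ne, zero_mul]

section VV

variable {ρ a r : ℕ} {T L K : Type} [Field T] [Algebra ℂ T] [Field L] [Algebra ℂ L] [Field K]
  [Algebra ℂ K] [Algebra T L] [Algebra L K]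
  {BT BL BK : Type} [CommRing BT] [IsDomain BT] [Algebra ℂ BT] [Algebra BT T]
  [IsScalarTower ℂ BT T] [IsFractionRing BT T]
  [CommRing BL] [IsDomain BL] [Algebra ℂ BL] [Algebra BL L]
  [IsScalarTower ℂ BL L] [IsFractionRing BL L]
  [CommRing BK] [IsDomain BK] [Algebra ℂ BK] [Algebra BK K]
  [IsScalarTower ℂ BK K] [IsFractionRing BK K]

/-- **chart systems, case VV** -/
theorem exists_VV (V₀ : VData ρ a T L) (E : VExt V₀.D r K)
    (hBT : Algebra.FiniteType ℂ BT) (hBL : Algebra.FiniteType ℂ BL) (hBK : Algebra.FiniteType ℂ BK)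
    (jT : BT →ₐ[ℂ] BL) (jL : BL →ₐ[ℂ] BK)
    (hjT : ∀ b : BT, algebraMap BL L (jT b) = algebraMap T L (algebraMap BT T b))
    (hjL : ∀ b : BL, algebraMap BK K (jL b) = algebraMap L K (algebraMap BL L b))
    (F : Finset K) (hF : ∀ f ∈ F, f ≠ 0) (FL : Finset L) (hFL : ∀ f ∈ FL, f ≠ 0) :
    ∃ (X : BChart E.D BK) (XL : BChart V₀.D BL) (XT : BChart V₀.DL BT) (G : Cn (ρ + a + r) → ℂ)
      (G₁ : Cn (ρ + a) → ℂ) (S : Root E.D.i₀ X.r G E.e) (S₁ : Root V₀.D.i₀ XL.r G₁ V₀.e) (δ : ℝ),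
      0 < δ ∧ δ < 1 ∧ δ < S.ρ ∧ δ < S₁.ρ ∧ δ ≤ XT.r ∧
      (∀ f ∈ F, ∃ k G', Good E.D X f k G') ∧ (∀ f ∈ FL, ∃ k G', Good V₀.D XL f k G') ∧
      (∀ ξ ∈ ball (0 : Cn (ρ + a + r)) δ, ξ E.D.i₀ ≠ 0 →
        (X.s (S.Ξ ξ)).comp jL = XL.s (S₁.Ξ (pe V₀.D.i₀ E.e (bs ξ)))) ∧
      (∀ η ∈ ball (0 : Cn (ρ + a)) δ, η V₀.D.i₀ ≠ 0 →
        (XL.s (S₁.Ξ η)).comp jT = XT.s (pe V₀.DL.i₀ V₀.e (bs η))) := by
  classical
  obtain ⟨gK, hgK, hgK'⟩ := exists_bchart_at E.D (B := BK) hBK F hF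
  obtain ⟨gL, hgL, hgL'⟩ := exists_bchart_at V₀.D (B := BL) hBL FL hFL
  obtain ⟨gT, hgT, hgT'⟩ := exists_bchart_at V₀.DL (B := BT) hBT ∅ (by simp)
  have hnd : ∀ {x : V₀.D.A}, ¬ V₀.D.t ∣ x → ¬ E.D.t ∣ E.ι x := fun h => VData.nd_ι E.V h
  have hprod : ¬ E.D.t ∣ gK * E.ι gL * (E.ι (V₀.ι gT)) * (E.u * E.ι V₀.u) :=
    E.D.not_dvd_mul (E.D.not_dvd_mul (E.D.not_dvd_mul hgK (hnd hgL))
      (hnd (VData.nd_ι V₀ hgT))) (E.D.not_dvd_mul E.u_nd (hnd V₀.u_nd))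
  obtain ⟨y, hyt, hy⟩ := E.D.exists_point _ hprod
  simp only [map_mul] at hy
  have h1 := left_ne_zero_of_mul hy
  have h2 := right_ne_zero_of_mul hy
  have hyK : y gK ≠ 0 := left_ne_zero_of_mul (left_ne_zero_of_mul h1)
  have hyL : y.comp E.ι gL ≠ 0 := right_ne_zero_of_mul (left_ne_zero_of_mul h1)
  have hyT : (y.comp E.ι).comp V₀.ι gT ≠ 0 := right_ne_zero_of_mul h1
  have hyu : y E.u ≠ 0 := left_ne_zero_of_mul h2
  have hyu₀ : y.comp E.ι V₀.u ≠ 0 := right_ne_zero_of_mul h2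
  have hyLt : y.comp E.ι V₀.D.t = 0 := VData.ι_t E.V hyt
  have hyTt : (y.comp E.ι).comp V₀.ι V₀.DL.t = 0 := VData.ι_t V₀ hyLt
  obtain ⟨X₀, hX₀y, -, -, hX₀F⟩ := hgK' y hyt hyK 1 (by simp) 1 one_pos
  obtain ⟨XL₀, hXL₀y, -, -, hXL₀F⟩ := hgL' _ hyLt hyL 1 (by simp) 1 one_pos
  obtain ⟨XT, hXTy, -, -, -⟩ := hgT' _ hyTt hyT 1 (by simp) 1 one_pos
  -- the root of the chart of `L`
  obtain ⟨r₁, hr₁, hle₁, G₁, S₁, -, hS₁⟩ := vstep V₀ jT hjT XL₀ XT (by rw [hXTy, hXL₀y])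
    (by rw [hXL₀y]; exact hyu₀) (Root.one V₀.DL.i₀ XT.r XT.r_pos) 1 one_pos
  obtain ⟨r₂, hr₂, hle₂, G, S, -, hS⟩ := vstep E.V jL hjL X₀ (XL₀.shrink r₁ hr₁ hle₁)
    (by rw [hX₀y]; exact hXL₀y) (by rw [hX₀y]; exact hyu) S₁ 1 one_pos
  refine ⟨X₀.shrink r₂ hr₂ hle₂, XL₀.shrink r₁ hr₁ hle₁, XT, G, G₁, S, S₁,
    min (1 / 2) (min (S.ρ / 2) (min (S₁.ρ / 2) XT.r)), ?_, ?_, ?_, ?_, ?_, ?_, ?_, ?_, ?_⟩
  · exact lt_min (by norm_num) (lt_min (half_pos S.ρ_pos) (lt_min (half_pos S₁.ρ_pos) XT.r_pos))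
  · exact (min_le_left _ _).trans_lt (by norm_num)
  · exact ((min_le_right _ _).trans (min_le_left _ _)).trans_lt (half_lt_self S.ρ_pos)
  · exact (((min_le_right _ _).trans (min_le_right _ _)).trans (min_le_left _ _)).trans_lt
      (half_lt_self S₁.ρ_pos)
  · exact ((min_le_right _ _).trans (min_le_right _ _)).trans (min_le_right _ _)
  · intro f hf
    obtain ⟨k, G', -, h⟩ := hX₀F f hf
    exact ⟨k, G', h.shrink r₂ hr₂ hle₂⟩
  · intro f hf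
    obtain ⟨k, G', -, h⟩ := hXL₀F f hf
    exact ⟨k, G', h.shrink r₁ hr₁ hle₁⟩
  · intro ξ hξ hξ0
    have hξ' : ξ ∈ ball (0 : Cn (ρ + a + r)) S.ρ := ball_subset_ball
      (((min_le_right _ _).trans (min_le_left _ _)).trans (half_le_self S.ρ_pos.le)) hξ
    exact (hS ξ hξ').2 hξ0
  · intro η hη hη0
    have hη' : η ∈ ball (0 : Cn (ρ + a)) S₁.ρ := ball_subset_ball
      ((((min_le_right _ _).trans (min_le_right _ _)).trans (min_le_left _ _)).trans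
        (half_le_self S₁.ρ_pos.le)) hη
    exact (hS₁ η hη').2 hη0

end VV

section HV

variable {ρ a r : ℕ} {T L K : Type} [Field T] [Algebra ℂ T] [Field L] [Algebra ℂ L] [Field K]
  [Algebra ℂ K] [Algebra T L] [Algebra L K]
  {BT BL BK : Type} [CommRing BT] [Algebra ℂ BT] [Algebra BT T]
  [CommRing BL] [IsDomain BL] [Algebra ℂ BL] [Algebra BL L]
  [IsScalarTower ℂ BL L] [IsFractionRing BL L]
  [CommRing BK] [IsDomain BK] [Algebra ℂ BK] [Algebra BK K]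
  [IsScalarTower ℂ BK K] [IsFractionRing BK K] {zT : Fin ρ → BT}

/-- **chart systems, case HV** -/
theorem exists_HV (hch : ∀ y : BT →ₐ[ℂ] ℂ, Nonempty (Chart zT y))
    (V₀ : HData ρ a T L BT zT) (E : VExt V₀.D r K)
    (hBL : Algebra.FiniteType ℂ BL) (hBK : Algebra.FiniteType ℂ BK)
    (jT : BT →ₐ[ℂ] BL) (jL : BL →ₐ[ℂ] BK)
    (hjT : ∀ b : BT, algebraMap BL L (jT b) = algebraMap T L (algebraMap BT T b))
    (hjL : ∀ b : BL, algebraMap BK K (jL b) = algebraMap L K (algebraMap BL L b))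
    (F : Finset K) (hF : ∀ f ∈ F, f ≠ 0) (FL : Finset L) (hFL : ∀ f ∈ FL, f ≠ 0) :
    ∃ (X : BChart E.D BK) (XL : BChart V₀.D BL) (yT : BT →ₐ[ℂ] ℂ) (CT : Chart zT yT)
      (G : Cn (ρ + a + r) → ℂ) (S : Root E.D.i₀ X.r G E.e) (δ : ℝ),
      0 < δ ∧ δ < 1 ∧ δ < S.ρ ∧ δ < XL.r ∧ δ ≤ CT.r ∧
      (∀ f ∈ F, ∃ k G', Good E.D X f k G') ∧ (∀ f ∈ FL, ∃ k G', Good V₀.D XL f k G') ∧
      (∀ ξ ∈ ball (0 : Cn (ρ + a + r)) δ, ξ E.D.i₀ ≠ 0 →
        (X.s (S.Ξ ξ)).comp jL = XL.s (pe V₀.D.i₀ E.e (bs ξ))) ∧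
      (∀ η ∈ ball (0 : Cn (ρ + a)) δ, η V₀.D.i₀ ≠ 0 → (XL.s η).comp jT = CT.s (bs η)) := by
  classical
  obtain ⟨gK, hgK, hgK'⟩ := exists_bchart_at E.D (B := BK) hBK F hF
  obtain ⟨gL, hgL, hgL'⟩ := exists_bchart_at V₀.D (B := BL) hBL FL hFL
  have hnd : ∀ {x : V₀.D.A}, ¬ V₀.D.t ∣ x → ¬ E.D.t ∣ E.ι x := fun h => VData.nd_ι E.V h
  have hprod : ¬ E.D.t ∣ gK * E.ι gL * E.u :=
    E.D.not_dvd_mul (E.D.not_dvd_mul hgK (hnd hgL)) E.u_nd
  obtain ⟨y, hyt, hy⟩ := E.D.exists_point _ hprod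
  simp only [map_mul] at hy
  have h1 := left_ne_zero_of_mul hy
  have hyu : y E.u ≠ 0 := right_ne_zero_of_mul hy
  have hyK : y gK ≠ 0 := left_ne_zero_of_mul h1
  have hyL : y.comp E.ι gL ≠ 0 := right_ne_zero_of_mul h1
  have hyLt : y.comp E.ι V₀.D.t = 0 := VData.ι_t E.V hyt
  obtain ⟨X₀, hX₀y, -, -, hX₀F⟩ := hgK' y hyt hyK 1 (by simp) 1 one_pos
  obtain ⟨XL₀, hXL₀y, -, -, hXL₀F⟩ := hgL' _ hyLt hyL 1 (by simp) 1 one_pos
  obtain ⟨CT⟩ := hch (XL₀.y.comp V₀.ι)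
  obtain ⟨ρ₁, hρ₁, hρ₁X, hρ₁C, hb⟩ := hbase V₀ jT hjT XL₀ CT
  obtain ⟨r₂, hr₂, hle₂, G, S, -, hS⟩ := vstep E.V jL hjL X₀ XL₀
    (by rw [hX₀y]; exact hXL₀y) (by rw [hX₀y]; exact hyu)
    (Root.one V₀.D.i₀ XL₀.r XL₀.r_pos) 1 one_pos
  have hmin : min (1 / 2) (min (S.ρ / 2) (min (XL₀.r / 2) ρ₁)) ≤ ρ₁ :=
    ((min_le_right _ _).trans (min_le_right _ _)).trans (min_le_right _ _)
  refine ⟨X₀.shrink r₂ hr₂ hle₂, XL₀, _, CT, G, S,
    min (1 / 2) (min (S.ρ / 2) (min (XL₀.r / 2) ρ₁)), ?_, ?_, ?_, ?_, ?_, ?_, ?_, ?_, ?_⟩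
  · exact lt_min (by norm_num) (lt_min (half_pos S.ρ_pos) (lt_min (half_pos XL₀.r_pos) hρ₁))
  · exact (min_le_left _ _).trans_lt (by norm_num)
  · exact ((min_le_right _ _).trans (min_le_left _ _)).trans_lt (half_lt_self S.ρ_pos)
  · exact (((min_le_right _ _).trans (min_le_right _ _)).trans (min_le_left _ _)).trans_lt
      (half_lt_self XL₀.r_pos)
  · exact hmin.trans hρ₁C
  · intro f hf
    obtain ⟨k, G', -, h⟩ := hX₀F f hf
    exact ⟨k, G', h.shrink r₂ hr₂ hle₂⟩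
  · intro f hf
    obtain ⟨k, G', -, h⟩ := hXL₀F f hf
    exact ⟨k, G', h⟩
  · intro ξ hξ hξ0
    have hξ' : ξ ∈ ball (0 : Cn (ρ + a + r)) S.ρ := ball_subset_ball
      (((min_le_right _ _).trans (min_le_left _ _)).trans (half_le_self S.ρ_pos.le)) hξ
    exact (hS ξ hξ').2 hξ0
  · intro η hη hη0
    exact (hb η (ball_subset_ball hmin hη)).2 hη0

end HV

section HH

variable {ρ a r : ℕ} {L K : Type} [Field L] [Algebra ℂ L] [Field K]
  [Algebra ℂ K] [Algebra L K]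
  {BT BL BK : Type} [CommRing BT] [Algebra ℂ BT]
  [CommRing BL] [IsDomain BL] [Algebra ℂ BL] [Algebra BL L]
  [IsScalarTower ℂ BL L] [IsFractionRing BL L]
  [CommRing BK] [IsDomain BK] [Algebra ℂ BK] [Algebra BK K]
  [IsScalarTower ℂ BK K] [IsFractionRing BK K] {zT : Fin ρ → BT} {zL : Fin (ρ + a) → BL}

omit [IsScalarTower ℂ BL L] in
/-- **chart systems, case HH** -/
theorem exists_HH (hchT : ∀ y : BT →ₐ[ℂ] ℂ, Nonempty (Chart zT y))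
    (hchL : ∀ y : BL →ₐ[ℂ] ℂ, Nonempty (Chart zL y)) (V : HData (ρ + a) r L K BL zL)
    (hBK : Algebra.FiniteType ℂ BK)
    (jT : BT →ₐ[ℂ] BL) (jL : BL →ₐ[ℂ] BK) (hz : ∀ i, zL (Fin.castAdd a i) = jT (zT i))
    (hjL : ∀ b : BL, algebraMap BK K (jL b) = algebraMap L K (algebraMap BL L b))
    (hnd : ∀ b : BL, b ≠ 0 → ¬ V.D.t ∣ V.ι b)
    (F : Finset K) (hF : ∀ f ∈ F, f ≠ 0) (FL : Finset L) (hFL : ∀ f ∈ FL, f ≠ 0) :
    ∃ (X : BChart V.D BK) (yL : BL →ₐ[ℂ] ℂ) (CL : Chart zL yL) (yT : BT →ₐ[ℂ] ℂ)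
      (CT : Chart zT yT) (δ : ℝ),
      0 < δ ∧ δ < 1 ∧ δ < X.r ∧ δ ≤ CL.r ∧ δ ≤ CT.r ∧
      (∀ f ∈ F, ∃ k G', Good V.D X f k G') ∧
      (∀ f ∈ FL, ∃ b₀ c₀ : BL, algebraMap BL L b₀ = f * algebraMap BL L c₀ ∧
        ∀ ζ ∈ ball (0 : Cn (ρ + a)) δ, CL.s ζ b₀ ≠ 0 ∧ CL.s ζ c₀ ≠ 0) ∧
      (∀ ξ ∈ ball (0 : Cn (ρ + a + r)) δ, ξ V.D.i₀ ≠ 0 →
        (X.s ξ).comp jL = CL.s (bs ξ)) ∧
      (∀ η ∈ ball (0 : Cn (ρ + a)) δ, (CL.s η).comp jT = CT.s (bs η)) := by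
  classical
  obtain ⟨gK, hgK, hgK'⟩ := exists_bchart_at V.D (B := BK) hBK F hF
  have h1 : ∀ f : L, ∃ b₀ c₀ : BL, f ≠ 0 → b₀ ≠ 0 ∧ c₀ ≠ 0 ∧
      algebraMap BL L b₀ = f * algebraMap BL L c₀ := by
    intro f
    obtain ⟨b, c, hc, h⟩ := IsFractionRing.div_surjective (A := BL) f
    refine ⟨b, c, fun hf => ?_⟩
    have hc0 : c ≠ 0 := nonZeroDivisors.ne_zero hc
    have hcL : algebraMap BL L c ≠ 0 := fun h0 =>
      hc0 (IsFractionRing.injective BL L (by rw [h0, map_zero]))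
    refine ⟨?_, hc0, ?_⟩
    · rintro rfl
      rw [map_zero, zero_div] at h
      exact hf h.symm
    · rw [← h, div_mul_cancel₀ _ hcL]
  choose b₀ c₀ hbc using h1
  have hfac : ∀ f ∈ FL, ¬ V.D.t ∣ V.ι (b₀ f * c₀ f) := by
    intro f hf
    obtain ⟨k1, k2, -⟩ := hbc f (hFL f hf)
    exact hnd _ (mul_ne_zero k1 k2)
  have hprod : ¬ V.D.t ∣ gK * ∏ f ∈ FL, V.ι (b₀ f * c₀ f) := by
    refine V.D.not_dvd_mul hgK ?_
    intro hd
    obtain ⟨f, hf, hf'⟩ := (V.D.t_prime.dvd_finsetProd_iff _).1 hd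
    exact hfac f hf hf'
  obtain ⟨y, hyt, hy⟩ := V.D.exists_point _ hprod
  rw [map_mul, map_prod] at hy
  have hyK : y gK ≠ 0 := left_ne_zero_of_mul hy
  have hyF : ∀ f ∈ FL, y.comp V.ι (b₀ f) ≠ 0 ∧ y.comp V.ι (c₀ f) ≠ 0 := by
    intro f hf
    have h2 := Finset.prod_ne_zero_iff.1 (right_ne_zero_of_mul hy) f hf
    rw [map_mul, map_mul] at h2
    exact ⟨left_ne_zero_of_mul h2, right_ne_zero_of_mul h2⟩
  obtain ⟨X, hXy, -, -, hXF⟩ := hgK' y hyt hyK 1 (by simp) 1 one_pos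
  obtain ⟨CL⟩ := hchL (X.y.comp V.ι)
  obtain ⟨CT⟩ := hchT ((X.y.comp V.ι).comp jT)
  obtain ⟨ρ₁, hρ₁, hρ₁X, hρ₁C, hb⟩ := hbase V jL hjL X CL
  obtain ⟨ρ₂, hρ₂, hρ₂L, hρ₂T, hb'⟩ := chart_comp jT hz CL CT
  have hev : ∀ᶠ ζ in 𝓝 (0 : Cn (ρ + a)), ∀ f ∈ FL, CL.s ζ (b₀ f) ≠ 0 ∧ CL.s ζ (c₀ f) ≠ 0 := by
    rw [Filter.eventually_all_finset]
    intro f hf
    have h0 : (0 : Cn (ρ + a)) ∈ ball (0 : Cn (ρ + a)) CL.r := mem_ball_self CL.r_pos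
    have e1 : CL.s 0 (b₀ f) ≠ 0 := by rw [CL.s_zero, hXy]; exact (hyF f hf).1
    have e2 : CL.s 0 (c₀ f) ≠ 0 := by rw [CL.s_zero, hXy]; exact (hyF f hf).2
    exact ((CL.anal (b₀ f) 0 h0).continuousAt.eventually_ne e1).and
      ((CL.anal (c₀ f) 0 h0).continuousAt.eventually_ne e2)
  obtain ⟨ρ₃, hρ₃, hb3⟩ := Metric.eventually_nhds_iff_ball.1 hev
  refine ⟨X, _, CL, _, CT, min (1 / 2) (min (X.r / 2) (min ρ₁ (min ρ₂ ρ₃))), ?_, ?_, ?_, ?_, ?_,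
    ?_, ?_, ?_, ?_⟩
  · exact lt_min (by norm_num) (lt_min (half_pos X.r_pos) (lt_min hρ₁ (lt_min hρ₂ hρ₃)))
  · exact (min_le_left _ _).trans_lt (by norm_num)
  · exact ((min_le_right _ _).trans (min_le_left _ _)).trans_lt (half_lt_self X.r_pos)
  · exact (((min_le_right _ _).trans (min_le_right _ _)).trans (min_le_left _ _)).trans hρ₁C
  · exact ((((min_le_right _ _).trans (min_le_right _ _)).trans (min_le_right _ _)).trans
      (min_le_left _ _)).trans hρ₂T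
  · intro f hf
    obtain ⟨k, G', -, h⟩ := hXF f hf
    exact ⟨k, G', h⟩
  · intro f hf
    refine ⟨b₀ f, c₀ f, (hbc f (hFL f hf)).2.2, fun ζ hζ => ?_⟩
    exact hb3 ζ (ball_subset_ball ((((min_le_right _ _).trans (min_le_right _ _)).trans
      (min_le_right _ _)).trans (min_le_right _ _)) hζ) f hf
  · intro ξ hξ hξ0
    exact (hb ξ (ball_subset_ball (((min_le_right _ _).trans (min_le_right _ _)).trans
      (min_le_left _ _)) hξ)).2 hξ0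
  · intro η hη
    exact hb' η (ball_subset_ball ((((min_le_right _ _).trans (min_le_right _ _)).trans
      (min_le_right _ _)).trans (min_le_left _ _)) hη)

end HH

end Crest.Agent.R276.TChX_590
end
end

-- ▼ part R276/TChX2_590

/-!
Row 276, conjunct TCh of SkelDefs_220 (helper590), part 2: the algebraic trichotomy for towers of
models and the chart systems for `H₁ : Rel MT ML`, `H₂ : Rel ML MK`.
-/

set_option autoImplicit false

open scoped Topology BigOperators ENNReal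
open Set Metric Filter

noncomputable section

namespace Crest.Agent.R276.TChX_590

open Crest.Agent.R271.Defs710 Crest.Agent.R271.Bd741 Crest.Agent.R276.BC_986
open Crest.Agent.R276.BR_590 Crest.Agent.R276.Mod1_987 Crest.Agent.R276.FKDefs_779
open Crest.Agent.R276.SkelDefs_220 (Rel)
open Crest.Agent.R276.DivVal_858

lemma mdl_trdeg {K : Type} [Field K] [Algebra ℂ K] {n : ℕ} (M : Mdl K n) :
    Algebra.trdeg ℂ K = (n : ℕ) := by
  have h := (IntC_448.isTranscendenceBasis M).lift_cardinalMk_eq_trdeg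
  simpa using h.symm

lemma mdl_ess {K : Type} [Field K] [Algebra ℂ K] {n : ℕ} (M : Mdl K n) :
    Algebra.EssFiniteType ℂ K := by
  have h1 : Algebra.EssFiniteType M.B K :=
    Algebra.EssFiniteType.of_isLocalization K (nonZeroDivisors M.B)
  exact Algebra.EssFiniteType.comp ℂ M.B K

section tower

variable {T L K : Type} [Field T] [Field L] [Field K] [Algebra ℂ T] [Algebra ℂ L] [Algebra ℂ K]
  [Algebra T L] [Algebra L K] [IsScalarTower ℂ T L] [IsScalarTower ℂ L K] {ρ a r : ℕ}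
  {MT : Mdl T ρ} {ML : Mdl L (ρ + a)} {MK : Mdl K (ρ + a + r)}

/-- case HH: `L ⊆ R` -/
theorem alg_HH (MK : Mdl K (ρ + a + r)) (ML : Mdl L (ρ + a)) {R : ValuationSubring K}
    (hR : IsDiv ℂ (ρ + a + r) R) (hL : ∀ c : L, algebraMap L K c ∈ R) :
    ∃ V : HData (ρ + a) r L K ML.B ML.z, V.D.ModelOf R ∧
      ∀ b : ML.B, b ≠ 0 → ¬ V.D.t ∣ V.ι b := by
  have _ := mdl_ess MK
  obtain ⟨hr, D, hD, hi, hw⟩ := tower_HH (mdl_trdeg ML) (mdl_trdeg MK) hR hL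
    (fun i => (ML.z i : L)) (IntC_448.isTranscendenceBasis ML).1
  obtain ⟨E, g, φ, -, -, hE⟩ := exists_hdata (L := L) hL (BL := ML.B) ML.ft ML.z D hD ⟨0, hr⟩ hi hw
  exact ⟨E, hE, fun b hb => HData.nd (IsFractionRing.injective ML.B L) E hE hL hb⟩

/-- case HV: `T ⊆ R`, `L ⊄ R` -/
theorem alg_HV (MT : Mdl T ρ) (ML : Mdl L (ρ + a)) (MK : Mdl K (ρ + a + r))
    {R : ValuationSubring K}
    (hR : IsDiv ℂ (ρ + a + r) R) (hT : ∀ c : T, algebraMap L K (algebraMap T L c) ∈ R)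
    (hL : R.comap (algebraMap L K) ≠ ⊤) :
    ∃ (V₀ : HData ρ a T L MT.B MT.z) (E : VExt V₀.D r K),
      V₀.D.ModelOf (R.comap (algebraMap L K)) ∧ E.D.ModelOf R ∧
      IsDiv ℂ (ρ + a) (R.comap (algebraMap L K)) := by
  classical
  have _ := mdl_ess MK
  have _ := mdl_ess ML
  let _ : Algebra T K := ((algebraMap L K).comp (algebraMap T L)).toAlgebra
  have _ : IsScalarTower T L K := IsScalarTower.of_algebraMap_eq fun _ => rfl
  obtain ⟨hpos, DL, D, e, u, hDL, hD, hiL, hi, hwT, hw, -, he, hu, hram⟩ :=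
    tower_HV (mdl_trdeg MT) (mdl_trdeg ML) (mdl_trdeg MK) hR hT hL
      (fun i => (MT.z i : T)) (IntC_448.isTranscendenceBasis MT).1
  have hTL : ∀ c : T, algebraMap T L c ∈ R.comap (algebraMap L K) := fun c => by
    rw [ValuationSubring.mem_comap]; exact hT c
  obtain ⟨V₀, g, φ, hg, hA, hV₀⟩ := exists_hdata (L := T) hTL (BL := MT.B) MT.ft MT.z DL hDL
    ⟨0, hpos⟩ hiL hwT
  have ht : algebraMap V₀.D.A L V₀.D.t = algebraMap DL.A L DL.t := by rw [hA.t_eq, hA.map]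
  obtain ⟨E, -, -, -, -, hE, -⟩ := exists_vext V₀.D D hV₀ hD (by rw [hi, hA.i₀])
    (fun i hi' => by
      rw [hw i (by rw [← hA.i₀]; exact hi'), hA.w, hA.map]) he hu (by rw [ht]; exact hram)
  exact ⟨V₀, E, hV₀, hE, isDiv_comap (mdl_trdeg ML) (mdl_trdeg MK) hR hL⟩

/-- case VV: `T ⊄ R` -/
theorem alg_VV (MT : Mdl T ρ) (ML : Mdl L (ρ + a)) (MK : Mdl K (ρ + a + r))
    {R : ValuationSubring K}
    (hR : IsDiv ℂ (ρ + a + r) R) (hT : ∃ c : T, algebraMap L K (algebraMap T L c) ∉ R) :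
    ∃ (V₀ : VData ρ a T L) (E : VExt V₀.D r K),
      V₀.DL.ModelOf ((R.comap (algebraMap L K)).comap (algebraMap T L)) ∧
      V₀.D.ModelOf (R.comap (algebraMap L K)) ∧ E.D.ModelOf R ∧
      IsDiv ℂ (ρ + a) (R.comap (algebraMap L K)) := by
  classical
  have _ := mdl_ess MK
  have _ := mdl_ess ML
  have _ := mdl_ess MT
  let _ : Algebra T K := ((algebraMap L K).comp (algebraMap T L)).toAlgebra
  have _ : IsScalarTower T L K := IsScalarTower.of_algebraMap_eq fun _ => rfl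
  have hcomp : (R.comap (algebraMap L K)).comap (algebraMap T L) = R.comap (algebraMap T K) := by
    rw [ValuationSubring.comap_comap]; rfl
  obtain ⟨c, hc⟩ := hT
  have hL : R.comap (algebraMap L K) ≠ ⊤ := by
    intro h
    apply hc
    rw [← ValuationSubring.mem_comap, h]
    trivial
  have hTne : (R.comap (algebraMap L K)).comap (algebraMap T L) ≠ ⊤ := by
    intro h
    apply hc
    rw [← ValuationSubring.mem_comap, ← ValuationSubring.mem_comap, h]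
    trivial
  have hdL := isDiv_comap (mdl_trdeg ML) (mdl_trdeg MK) hR hL
  have hdT := isDiv_comap (mdl_trdeg MT) (mdl_trdeg ML) hdL hTne
  obtain ⟨D₀, hD₀⟩ := exists_divModel (mdl_trdeg MT) hdT
  rw [hcomp] at hD₀
  obtain ⟨DL, D, e₀, e, u₀, u, hDL, hD, hiL, hi, hwL, hw, -, -, he₀, hu₀, hram₀, he, hu, hram⟩ :=
    tower_VV (mdl_trdeg MT) (mdl_trdeg ML) (mdl_trdeg MK) hR D₀ hD₀
  rw [← hcomp] at hD₀
  obtain ⟨E₁, g, φ, hg, hA, hE₁, -⟩ := exists_vext (R := R.comap (algebraMap L K)) D₀ DL hD₀ hDL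
    hiL hwL he₀ hu₀ hram₀
  have ht : algebraMap E₁.D.A L E₁.D.t = algebraMap DL.A L DL.t := by rw [hA.t_eq, hA.map]
  obtain ⟨E, -, -, -, -, hE, -⟩ := exists_vext E₁.D D hE₁ hD (by rw [hi, hA.i₀])
    (fun i hi' => by
      rw [hw i (by rw [← hA.i₀]; exact hi'), hA.w, hA.map]) he hu (by rw [ht]; exact hram)
  exact ⟨E₁.V, E, hD₀, hE₁, hE, hdL⟩

end tower

/-! ### inclusions of the rings of a relative model -/

section incl

variable {L K : Type} [Field L] [Field K] [Algebra ℂ L] [Algebra ℂ K] [Algebra L K]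
  [IsScalarTower ℂ L K] {m r : ℕ} {ML : Mdl L m} {MK : Mdl K (m + r)} (H : Rel ML MK)

lemma incl_K (b : ML.B) : algebraMap MK.B K (H.incl b) = algebraMap L K (algebraMap ML.B L b) :=
  rfl

lemma coord_incl (i : Fin m) : MK.z (Fin.castAdd r i) = H.incl (ML.z i) :=
  Subtype.ext (H.coord i)


end incl

end Crest.Agent.R276.TChX_590
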