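import Mathlib
import Crest.Agent.R276.BcqI_828
import Crest.Agent.R276.TransA_231
import Crest.Agent.R276.BR4_590
import Crest.Agent.R276.R0D_858
import Crest.Agent.R276.Mod6_987
import Crest.Agent.R276.LftDefs_327
import Crest.Agent.R276.C4LocB_327
import Crest.Agent.R276.TChX2_590
import Crest.Agent.R276.CInd_870
import Crest.Agent.R276.WdB_450

-- ▼ part R276/TransB_231
section

/-!
# Row 276 (helper231), TRANS, part B: lifting points to a model of the divisor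
-/

set_option autoImplicit false
set_option linter.unusedSectionVars false
set_option linter.style.haveILetI false

open Set Filter Topology Metric

noncomputable section

namespace Crest.Agent.R276.TransB_231

open Crest.Agent.R271.Defs710 Crest.Agent.R271.Alg255 Crest.Agent.R276.Mod1_987

/-- a maximal ideal of an algebra of finite type over `ℂ` is the kernel of a point -/
theorem exists_point_of_maximal {B : Type} [CommRing B] [Algebra ℂ B] (hft : Algebra.FiniteType ℂ B)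
    (m : Ideal B) (hm : m.IsMaximal) : ∃ y : B →ₐ[ℂ] ℂ, ∀ b, b ∈ m → y b = 0 := by
  have hfin : Module.Finite ℂ (B ⧸ m) := by
    let _ : Field (B ⧸ m) := Ideal.Quotient.field m
    have : Algebra.FiniteType ℂ (B ⧸ m) :=
      Algebra.FiniteType.of_surjective (Ideal.Quotient.mkₐ ℂ m) (Ideal.Quotient.mkₐ_surjective ℂ m)
    exact finite_of_finite_type_of_isJacobsonRing ℂ (B ⧸ m)
  let _ : Field (B ⧸ m) := Ideal.Quotient.field m
  have hbij : Function.Bijective (algebraMap ℂ (B ⧸ m)) :=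
    IsAlgClosed.algebraMap_bijective_of_isIntegral
  let e : ℂ ≃ₐ[ℂ] (B ⧸ m) := AlgEquiv.ofBijective (Algebra.ofId ℂ (B ⧸ m)) hbij
  refine ⟨(e.symm : (B ⧸ m) →ₐ[ℂ] ℂ).comp (Ideal.Quotient.mkₐ ℂ m), fun b hb => ?_⟩
  have h : Ideal.Quotient.mkₐ ℂ m b = 0 := by
    rw [Ideal.Quotient.mkₐ_eq_mk, Ideal.Quotient.eq_zero_iff_mem]
    exact hb
  simp only [AlgHom.comp_apply, h, map_zero]

/-- **lifting of points**: `A → B`, `B` the ring of a model, the coordinates of the model in `A` -/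
theorem exists_lift {A : Type} [CommRing A] [Algebra ℂ A] {L' : Type} [Field L'] [Algebra ℂ L']
    {d : ℕ} (M : Mdl L' d) (φ : A →ₐ[ℂ] M.B) (z : Fin d → A) (hz : ∀ j, φ (z j) = M.z j)
    (p : A →ₐ[ℂ] ℂ) (hker : ∀ a, φ a = 0 → p a = 0)
    (hp : MvPolynomial.eval (fun j => p (z j)) M.h ≠ 0) :
    ∃ y : M.Pts, ∀ a, y (φ a) = p a := by
  set hA : A := MvPolynomial.aeval z M.h with hhA
  have hφ : ∀ P : MvPolynomial (Fin d) ℂ, φ (MvPolynomial.aeval z P) = az M.z P := by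
    intro P
    rw [MvPolynomial.comp_aeval_apply]
    have : (fun i => φ (z i)) = M.z := funext hz
    rw [this]
    rfl
  have hpA : p hA = MvPolynomial.eval (fun j => p (z j)) M.h := by
    rw [hhA, MvPolynomial.comp_aeval_apply]
    rfl
  let Ah := Localization.Away hA
  have hu : IsUnit ((φ : A →+* M.B) hA) := by
    change IsUnit (φ hA)
    rw [hhA, hφ]
    exact M.h_unit
  have hu' : IsUnit ((p : A →+* ℂ) hA) := by
    change IsUnit (p hA)
    rw [hpA]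
    exact IsUnit.mk0 _ hp
  let f : Ah →+* M.B := IsLocalization.Away.lift hA hu
  let p' : Ah →+* ℂ := IsLocalization.Away.lift hA hu'
  have hf : ∀ a, f (algebraMap A Ah a) = φ a := fun a => IsLocalization.Away.lift_eq hA hu a
  have hp' : ∀ a, p' (algebraMap A Ah a) = p a := fun a => IsLocalization.Away.lift_eq hA hu' a
  letI i1 : Algebra Ah M.B := f.toAlgebra
  have hmap : ∀ x, algebraMap Ah M.B x = f x := fun _ => rfl
  let g : MvPolynomial (Fin d) ℂ →+* Ah :=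
    (algebraMap A Ah).comp ((MvPolynomial.aeval z : MvPolynomial (Fin d) ℂ →ₐ[ℂ] A) :
      MvPolynomial (Fin d) ℂ →+* A)
  have hfg : (algebraMap Ah M.B).comp g = az M.z := by
    refine RingHom.ext fun P => ?_
    change f (algebraMap A Ah (MvPolynomial.aeval z P)) = _
    rw [hf, hφ]
  have hθ : IsIntegral Ah M.θ := by
    refine ⟨M.μ.map g, M.monic.map g, ?_⟩
    rw [Polynomial.eval₂_map, hfg]
    exact M.root
  haveI i2 : Algebra.IsIntegral Ah M.B := by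
    refine ⟨fun b => ?_⟩
    obtain ⟨k, q, hq⟩ := M.gen b
    have h1 : IsIntegral Ah (Polynomial.eval₂ (az M.z) M.θ q) := by
      rw [← hfg, ← Polynomial.eval₂_map]
      apply adjoin_le_integralClosure hθ
      rw [Algebra.adjoin_singleton_eq_range_aeval]
      exact ⟨q.map g, rfl⟩
    have h2 : IsUnit (algebraMap A Ah hA) := IsLocalization.Away.algebraMap_isUnit hA
    obtain ⟨w, hw⟩ := h2
    have h3 : az M.z (M.h ^ k) = algebraMap Ah M.B ((w ^ k : Ahˣ) : Ah) := by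
      rw [Units.val_pow_eq_pow_val, map_pow, map_pow, hmap, hw, hf, hhA, hφ]
    have h4 : b = algebraMap Ah M.B (((w ^ k)⁻¹ : Ahˣ) : Ah) *
        Polynomial.eval₂ (az M.z) M.θ q := by
      rw [← hq, h3, ← mul_assoc, ← map_mul, Units.inv_mul, map_one, one_mul]
    rw [h4]
    exact isIntegral_algebraMap.mul h1
  have hsurj : Function.Surjective p' := fun c => ⟨algebraMap A Ah (algebraMap ℂ A c), by
    rw [hp', AlgHom.commutes]; rfl⟩
  haveI i3 : (RingHom.ker p').IsMaximal := RingHom.ker_isMaximal_of_surjective p' hsurj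
  have hle : RingHom.ker (algebraMap Ah M.B) ≤ RingHom.ker p' := by
    intro x hx
    rw [RingHom.mem_ker] at hx ⊢
    obtain ⟨⟨a, s⟩, hs⟩ := IsLocalization.surj (Submonoid.powers hA) x
    have h1 : φ a = 0 := by
      rw [← hf, ← hs, map_mul, ← hmap x, hx, zero_mul]
    have h2 : p' x * p' (algebraMap A Ah s) = 0 := by
      rw [← map_mul, hs, hp', hker a h1]
    have h3 : IsUnit (p' (algebraMap A Ah s)) :=
      (IsLocalization.map_units Ah s).map p'
    exact (mul_eq_zero.1 h2).resolve_right h3.ne_zero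
  obtain ⟨Q, hQ, hQc⟩ := Ideal.exists_ideal_over_maximal_of_isIntegral (S := M.B)
    (RingHom.ker p') hle
  obtain ⟨y, hy⟩ := exists_point_of_maximal M.ft Q hQ
  refine ⟨y, fun a => ?_⟩
  have h1 : algebraMap A Ah (a - algebraMap ℂ A (p a)) ∈ RingHom.ker p' := by
    rw [RingHom.mem_ker, hp', map_sub, AlgHom.commutes]
    simp
  rw [← hQc, Ideal.mem_comap, hmap, hf] at h1
  have h2 := hy _ h1
  rw [map_sub, map_sub, AlgHom.commutes, AlgHom.commutes, sub_eq_zero] at h2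
  exact h2

end Crest.Agent.R276.TransB_231
end
end

-- ▼ part R276/TransC_231
section

/-!
# Row 276 (helper231), TRANS, part C: the local factorisation through the charts of `M_T`
-/

set_option autoImplicit false
set_option linter.unusedSectionVars false
set_option linter.style.haveILetI false

open Set Filter Topology Metric

noncomputable section

namespace Crest.Agent.R276.TransC_231

open Crest.Agent.R271.Defs710 Crest.Agent.R271.Bd741 Crest.Agent.R271.Rd692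
open Crest.Agent.R276.Mod1_987 Crest.Agent.R276.SkelDefs_220
open Crest.Agent.R276.BC_986 Crest.Agent.R276.BR_590 Crest.Agent.R276.Bcq_828
open Crest.Agent.R276.CntDefs_857 (PS)
open Crest.Agent.R276.TransA_231 Crest.Agent.R276.TransB_231

/-! ### polynomial multiples modulo `t` -/

theorem exists_poly_aux {F A : Type} [Field F] [Algebra ℂ F] [CommRing A] [IsDomain A] [Algebra ℂ A]
    [Algebra A F] [IsScalarTower ℂ A F] (hinj : Function.Injective (algebraMap A F)) {d : ℕ}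
    (xb : Fin d → A) (hx : IsTranscendenceBasis ℂ (fun k => algebraMap A F (xb k))) (b : A)
    (hb : b ≠ 0) : ∃ Q : MvPolynomial (Fin d) ℂ, Q ≠ 0 ∧ b ∣ MvPolynomial.aeval xb Q := by
  letI i1 : Algebra (MvPolynomial (Fin d) ℂ) F :=
    ((MvPolynomial.aeval (fun k => algebraMap A F (xb k)) : MvPolynomial (Fin d) ℂ →ₐ[ℂ] F) :
      MvPolynomial (Fin d) ℂ →+* F).toAlgebra
  letI i2 : Algebra (MvPolynomial (Fin d) ℂ) A :=
    ((MvPolynomial.aeval xb : MvPolynomial (Fin d) ℂ →ₐ[ℂ] A) :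
      MvPolynomial (Fin d) ℂ →+* A).toAlgebra
  haveI i3 : IsScalarTower (MvPolynomial (Fin d) ℂ) A F := by
    refine IsScalarTower.of_algebraMap_eq fun Q => ?_
    change MvPolynomial.aeval (fun k => algebraMap A F (xb k)) Q =
      algebraMap A F (MvPolynomial.aeval xb Q)
    exact (MvPolynomial.comp_aeval_apply (f := xb) (IsScalarTower.toAlgHom ℂ A F) Q).symm
  have halg : Algebra.IsAlgebraic (MvPolynomial (Fin d) ℂ) F := Adap.isAlgebraic hx
  have h1 : IsAlgebraic (MvPolynomial (Fin d) ℂ) b := by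
    rw [← isAlgebraic_algebraMap_iff hinj]
    exact halg.isAlgebraic _
  obtain ⟨Q, hQ, hd⟩ := h1.exists_nonzero_dvd (mem_nonZeroDivisors_of_ne_zero hb)
  exact ⟨Q, hQ, hd⟩

/-- every element not divisible by `t` has a multiple congruent to a nonzero polynomial in the
coordinates of the divisor -/
theorem exists_poly_mod {d : ℕ} {K : Type} [Field K] [Algebra ℂ K] (D : DivModel (d + 1) K)
    (h0 : D.i₀ = 0) (b : D.A) (hb : ¬ D.t ∣ b) :
    ∃ (Q : MvPolynomial (Fin d) ℂ) (c : D.A), Q ≠ 0 ∧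
      D.t ∣ b * c - MvPolynomial.aeval (fun k : Fin d => D.w k.succ) Q := by
  have hbb : Ideal.Quotient.mk (dI D) b ≠ 0 := by
    rw [Ne, Ideal.Quotient.eq_zero_iff_mem, Ideal.mem_span_singleton]
    exact hb
  obtain ⟨Q, hQ, c', hc'⟩ := exists_poly_aux (F := LL D) (A := D.A ⧸ dI D)
    (IsFractionRing.injective (D.A ⧸ dI D) (LL D))
    (fun k => Ideal.Quotient.mk (dI D) (D.w k.succ)) (isTranscendenceBasis_res D h0) _ hbb
  obtain ⟨c, rfl⟩ := Ideal.Quotient.mk_surjective c'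
  refine ⟨Q, c, hQ, ?_⟩
  have h2 : MvPolynomial.aeval (fun k : Fin d => Ideal.Quotient.mk (dI D) (D.w k.succ)) Q =
      Ideal.Quotient.mk (dI D) (MvPolynomial.aeval (fun k : Fin d => D.w k.succ) Q) :=
    (MvPolynomial.comp_aeval_apply (f := fun k : Fin d => D.w k.succ)
      (Ideal.Quotient.mkₐ ℂ (dI D)) Q).symm
  rw [h2, ← map_mul, Ideal.Quotient.eq] at hc'
  rw [← Ideal.mem_span_singleton, ← neg_mem_iff, neg_sub]
  exact hc'

section main

variable {d a : ℕ} {T L Lc : Type} [Field T] [Field L] [Field Lc] [Algebra ℂ T] [Algebra ℂ L]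
  [Algebra ℂ Lc] [Algebra T L] [Algebra T Lc] (V : VData (d + 1) a T L)
  {D₁ : DivModel (d + 1) Lc} (jj : V.D.A →ₐ[ℂ] D₁.A)

/-- the transposition of `0` and `i₀` -/
def sw (i : Fin (d + 1)) : Fin (d + 1) := Equiv.swap 0 V.DL.i₀ i

lemma sw_zero : sw V 0 = V.DL.i₀ := Equiv.swap_apply_left _ _

lemma sw_sw (i : Fin (d + 1)) : sw V (sw V i) = i := Equiv.swap_apply_self _ _ _

lemma sw_inj {i k : Fin (d + 1)} (h : sw V i = sw V k) : i = k := (Equiv.swap _ _).injective h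

lemma sw_ne {i : Fin (d + 1)} (h : i ≠ 0) : sw V i ≠ V.DL.i₀ := fun h' =>
  h (sw_inj V (h'.trans (sw_zero V).symm))

variable (h0 : D₁.i₀ = 0) (hw : ∀ i, D₁.w i = jj (V.D.w (Fin.castAdd a (sw V i))))

include h0 hw in
lemma jj_t : jj V.D.t = D₁.t := by
  have h1 : V.D.t = V.D.w (Fin.castAdd a (sw V 0)) := by
    rw [DivModel.t, V.i₀_eq, sw_zero]
  rw [h1, ← hw, DivModel.t, h0]

include hw in
lemma jj_w {k : Fin (d + 1)} (hk : k ≠ V.DL.i₀) : jj (V.ι (V.DL.w k)) = D₁.w (sw V k) := by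
  rw [hw, sw_sw, V.base k hk]

include h0 hw in
/-- the kernel of `A_T → D₁.A / (t)` is generated by `t` -/
theorem lies' (b : V.DL.A) (hb : D₁.t ∣ jj (V.ι b)) : V.DL.t ∣ b := by
  by_contra hcon
  have hcon' : ¬ (normD V.DL).t ∣ b := by rw [normD_t]; exact hcon
  obtain ⟨Q, c, hQ, hdvd⟩ : ∃ (Q : MvPolynomial (Fin d) ℂ) (c : V.DL.A), Q ≠ 0 ∧
      V.DL.t ∣ b * c - MvPolynomial.aeval (fun k : Fin d => V.DL.w (sw V k.succ)) Q := by
    obtain ⟨Q, c, hQ, hdvd⟩ := exists_poly_mod (normD V.DL) rfl b hcon'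
    rw [normD_t] at hdvd
    exact ⟨Q, c, hQ, hdvd⟩
  obtain ⟨q, hq⟩ := hdvd
  have h1 : jj (V.ι V.DL.t) = D₁.t ^ V.e * jj V.u := by
    rw [V.ram, map_mul, map_pow, jj_t V jj h0 hw]
  have h2 : D₁.t ∣ jj (V.ι V.DL.t) := by
    rw [h1]
    exact (dvd_pow_self _ V.e_ne).mul_right _
  have h3 : jj (V.ι (MvPolynomial.aeval (fun k : Fin d => V.DL.w (sw V k.succ)) Q)) =
      MvPolynomial.aeval (fun k : Fin d => D₁.w k.succ) Q := by
    have h4 := MvPolynomial.comp_aeval_apply (f := fun k : Fin d => V.DL.w (sw V k.succ))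
      (jj.comp V.ι) Q
    refine h4.trans ?_
    congr 2
    funext k
    change jj (V.ι (V.DL.w (sw V k.succ))) = _
    rw [jj_w V jj hw (sw_ne V (Fin.succ_ne_zero k)), sw_sw]
  have h5 : D₁.t ∣ MvPolynomial.aeval (fun k : Fin d => D₁.w k.succ) Q := by
    have h6 : jj (V.ι b) * jj (V.ι c) -
        jj (V.ι (MvPolynomial.aeval (fun k : Fin d => V.DL.w (sw V k.succ)) Q)) =
        jj (V.ι V.DL.t) * jj (V.ι q) := by
      have h6' := congrArg (fun x : V.DL.A => jj (V.ι x)) hq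
      change jj (V.ι (b * c - MvPolynomial.aeval (fun k : Fin d => V.DL.w (sw V k.succ)) Q)) =
        jj (V.ι (V.DL.t * q)) at h6'
      rw [map_mul, map_mul] at h6'
      rw [← h6', ← map_mul, ← map_mul, ← map_sub, ← map_sub]
    have h7 : jj (V.ι (MvPolynomial.aeval (fun k : Fin d => V.DL.w (sw V k.succ)) Q)) =
        jj (V.ι b) * jj (V.ι c) - jj (V.ι V.DL.t) * jj (V.ι q) := by
      rw [← h6]; ring
    rw [← h3, h7]
    exact dvd_sub (hb.mul_right _) (h2.mul_right _)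
  have h8 : MvPolynomial.aeval (fun k : Fin d => res D₁ (D₁.w k.succ)) Q = 0 := by
    have h9 := MvPolynomial.comp_aeval_apply (f := fun k : Fin d => D₁.w k.succ) (res D₁) Q
    rw [← h9]
    exact (res_eq_zero_iff D₁ _).2 h5
  have h10 := (isTranscendenceBasis_res D₁ h0).1
  exact hQ ((injective_iff_map_eq_zero _).1 h10 Q h8)

end main

end Crest.Agent.R276.TransC_231
end
end

-- ▼ part R276/TransD_231
section

/-!
# Row 276 (helper231), TRANS, part D: the local factorisation through the charts of `M_T`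
-/

set_option autoImplicit false
set_option linter.unusedSectionVars false
set_option linter.style.haveILetI false

open Set Filter Topology Metric

noncomputable section

namespace Crest.Agent.R276.TransD_231

open Crest.Agent.R271.Defs710 Crest.Agent.R271.Bd741 Crest.Agent.R271.Rd692
open Crest.Agent.R276.Mod1_987 Crest.Agent.R276.SkelDefs_220
open Crest.Agent.R276.BC_986 Crest.Agent.R276.BR_590 Crest.Agent.R276.Bcq_828
open Crest.Agent.R276.CntDefs_857 (PS)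
open Crest.Agent.R276.TransA_231 Crest.Agent.R276.TransB_231 Crest.Agent.R276.TransC_231

section main

variable {d a : ℕ} {T L Lc : Type} [Field T] [Field L] [Field Lc] [Algebra ℂ T] [Algebra ℂ L]
  [Algebra ℂ Lc] [Algebra T L] [Algebra T Lc] (V : VData (d + 1) a T L)
  {D₁ : DivModel (d + 1) Lc} (jj : V.D.A →ₐ[ℂ] D₁.A)


/-- **the local factorisation** -/
theorem local_fac (h0 : D₁.i₀ = 0) (hw : ∀ i, D₁.w i = jj (V.D.w (Fin.castAdd a (sw V i))))
    (hK : ∀ b : V.DL.A, algebraMap D₁.A Lc (jj (V.ι b)) = algebraMap T Lc (algebraMap V.DL.A T b))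
    {MT : Mdl T (d + 1)} {F₁ : Finset Lc} (R₁ : BD D₁ MT.B MT.z F₁)
    (hune : ∀ (y : R₁.E) (ζ : Cn (d + 1)), ζ ∈ ball (0 : Cn (d + 1)) (R₁.Q.r y) →
      R₁.Q.s y ζ (jj V.u) ≠ 0)
    {ML : Mdl L (d + 1 + a)} {δ : ℝ} {i₀ : Option (Fin (d + 1 + a))} {X : AC ML δ i₀}
    {P : Cn (d + 1 + a) → (V.D.A →ₐ[ℂ] ℂ)}
    (hPan : ∀ b, AnalyticOnNhd ℂ (fun ζ => P ζ b) (ball 0 δ))
    (hP : ∀ ζ ∈ PD δ i₀, ∀ (x : V.D.A) (b c : ML.B), algebraMap V.D.A L x * (c : L) = b →
        P ζ x * X.s ζ c = X.s ζ b)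
    {q : ML.B} {kq : ℤ} (hkq : X.Ord (q : L) kq)
    (hq : ∀ x : V.D.A, ∃ (m : ℕ) (b : ML.B), algebraMap V.D.A L x * (q : L) ^ m = b)
    (vT : V.DL.A) (hvT : ∀ b : MT.B, ∃ (m : ℕ) (α : V.DL.A),
      (b : T) * algebraMap V.DL.A T vT ^ m = algebraMap V.DL.A T α)
    {ζ₀ : Cn (d + 1 + a)} (hζ₀ : ζ₀ ∈ ball (0 : Cn (d + 1 + a)) δ) (ht : P ζ₀ V.D.t = 0)
    (hu : P ζ₀ V.u ≠ 0)
    (hh : P ζ₀ (V.ι (MvPolynomial.aeval (fun k : Fin d => V.DL.w (sw V k.succ)) R₁.X.M.h)) ≠ 0)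
    (hv : ∀ᶠ ζ in 𝓝 ζ₀, P ζ V.D.t ≠ 0 → P ζ (V.ι vT) ≠ 0) :
    ∃ (y : R₁.E) (Φ : Cn (d + 1 + a) → Cn (d + 1)) (κ : Cn (d + 1 + a) → ℂ),
      AnalyticAt ℂ Φ ζ₀ ∧ Φ ζ₀ = 0 ∧ AnalyticAt ℂ κ ζ₀ ∧ κ ζ₀ ≠ 0 ∧
      (∀ᶠ ζ in 𝓝 ζ₀, Φ ζ 0 = P ζ V.D.t * κ ζ) ∧
      ∀ᶠ ζ in 𝓝 ζ₀, ζ ∈ PD δ i₀ → P ζ V.D.t ≠ 0 → Φ ζ ∈ PS d (R₁.Q.r y) ∧
        ∀ (b : MT.B) (b' : ML.B), (b' : L) = algebraMap T L b → X.s ζ b' = R₁.P.σ y (Φ ζ) b := by
  classical
  -- (1) the point `y`
  let φ : V.DL.A →ₐ[ℂ] R₁.X.M.B := R₁.X.ι.comp (jj.comp V.ι)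
  have hφz : ∀ k : Fin d, φ (V.DL.w (sw V k.succ)) = R₁.X.M.z k := by
    intro k
    change R₁.X.ι (jj (V.ι (V.DL.w (sw V k.succ)))) = _
    rw [jj_w V jj hw (sw_ne V (Fin.succ_ne_zero k)), sw_sw, R₁.X.ι_w]
  have hιt : P ζ₀ (V.ι V.DL.t) = 0 := by
    rw [V.ram, map_mul, map_pow, ht, zero_pow V.e_ne, zero_mul]
  obtain ⟨y, hy⟩ := exists_lift R₁.X.M φ (fun k : Fin d => V.DL.w (sw V k.succ)) hφz
    ((P ζ₀).comp V.ι) (by
      intro b hb
      have h1 : D₁.t ∣ jj (V.ι b) := (R₁.X.ι_eq_zero_iff _).1 hb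
      obtain ⟨c, rfl⟩ := lies' V jj h0 hw b h1
      change P ζ₀ (V.ι (V.DL.t * c)) = 0
      rw [map_mul, map_mul, hιt, zero_mul]) (by
      have h1 : MvPolynomial.eval (fun k : Fin d => ((P ζ₀).comp V.ι) (V.DL.w (sw V k.succ)))
          R₁.X.M.h = P ζ₀ (V.ι (MvPolynomial.aeval (fun k : Fin d => V.DL.w (sw V k.succ))
            R₁.X.M.h)) := by
        have h2 := MvPolynomial.comp_aeval_apply (f := fun k : Fin d => V.DL.w (sw V k.succ))
          ((P ζ₀).comp V.ι) R₁.X.M.h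
        exact h2.symm
      rw [h1]
      exact hh)
  have hr : 0 < R₁.Q.r y := R₁.Q.r_pos y
  -- the values at the centre of the chart
  have hs0 : ∀ b : V.DL.A, R₁.Q.s y 0 (jj (V.ι b)) = P ζ₀ (V.ι b) := by
    intro b
    rw [R₁.Q.s_zero]
    exact hy b
  -- (2) the root coordinate
  have hGan : AnalyticOnNhd ℂ (fun x => R₁.Q.s y x (jj V.u)) (ball 0 (R₁.Q.r y)) :=
    R₁.Q.anal y (jj V.u)
  obtain ⟨Tr, -⟩ := exists_rootS (0 : Fin (d + 1)) hr hGan
    (hune y 0 (mem_ball_self hr)) V.e V.e_ne 1 one_pos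
  -- (3) the root of `u` on the chart of `L`
  have hGu : AnalyticAt ℂ (fun ζ : Cn (d + 1 + a) => P (ζ₀ + ζ) V.u) 0 := by
    have h1 : AnalyticAt ℂ (fun ζ : Cn (d + 1 + a) => ζ₀ + ζ) 0 :=
      analyticAt_const.add analyticAt_id
    have h2 : AnalyticAt ℂ (fun ζ => P ζ V.u) (ζ₀ + 0) := by
      rw [add_zero]
      exact hPan V.u ζ₀ hζ₀
    exact h2.comp h1
  obtain ⟨H, hH, hH0, hHe⟩ := exists_root hGu (by simpa using hu) V.e V.e_ne
  have hsub : AnalyticAt ℂ (fun ζ : Cn (d + 1 + a) => ζ - ζ₀) ζ₀ :=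
    analyticAt_id.sub analyticAt_const
  have hHs : AnalyticAt ℂ (fun ζ => H (ζ - ζ₀)) ζ₀ := by
    have h2 : AnalyticAt ℂ H (ζ₀ - ζ₀) := by rw [sub_self]; exact hH
    exact AnalyticAt.comp (g := H) (f := fun ζ : Cn (d + 1 + a) => ζ - ζ₀) h2 hsub
  have hHse : ∀ᶠ ζ in 𝓝 ζ₀, H (ζ - ζ₀) ^ V.e = P ζ V.u := by
    have h1 : Tendsto (fun ζ : Cn (d + 1 + a) => ζ - ζ₀) (𝓝 ζ₀) (𝓝 0) := by
      have := hsub.continuousAt.tendsto
      rwa [sub_self] at this
    filter_upwards [h1.eventually hHe] with ζ hζ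
    rw [hζ]
    congr 2
    abel
  -- (4) the map
  let ξ : Cn (d + 1 + a) → Cn (d + 1) := fun ζ i =>
    if i = 0 then P ζ V.D.t * H (ζ - ζ₀)
    else P ζ (V.D.w (Fin.castAdd a (sw V i))) - P ζ₀ (V.D.w (Fin.castAdd a (sw V i)))
  have hξan : AnalyticAt ℂ ξ ζ₀ := by
    rw [analyticAt_pi_iff]
    intro i
    by_cases hi : i = 0
    · simp only [if_pos hi]
      exact (hPan V.D.t ζ₀ hζ₀).mul hHs
    · simp only [if_neg hi]
      exact (hPan _ ζ₀ hζ₀).sub analyticAt_const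
  have hξ0 : ξ ζ₀ = 0 := by
    funext i
    by_cases hi : i = 0
    · simp [ξ, hi, ht]
    · simp [ξ, hi]
  have hξt : Tendsto ξ (𝓝 ζ₀) (𝓝 0) := by
    have := hξan.continuousAt.tendsto
    rwa [hξ0] at this
  have hξb : ∀ᶠ ζ in 𝓝 ζ₀, ξ ζ ∈ ball (0 : Cn (d + 1)) Tr.ρ :=
    hξt.eventually (ball_mem_nhds _ Tr.ρ_pos)
  have hΦan : AnalyticAt ℂ (fun ζ => Tr.Ξ (ξ ζ)) ζ₀ := by
    have h2 : AnalyticAt ℂ Tr.Ξ (ξ ζ₀) := by
      rw [hξ0]; exact Tr.an 0 (mem_ball_self Tr.ρ_pos)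
    exact h2.comp hξan
  have hΦ0 : Tr.Ξ (ξ ζ₀) = 0 := by rw [hξ0, Tr.zero]
  have hκan : AnalyticAt ℂ (fun ζ => H (ζ - ζ₀) * Tr.E (ξ ζ)) ζ₀ := by
    have h2 : AnalyticAt ℂ Tr.E (ξ ζ₀) := by
      rw [hξ0]; exact Tr.anE 0 (mem_ball_self Tr.ρ_pos)
    exact hHs.mul (h2.comp hξan)
  refine ⟨y, fun ζ => Tr.Ξ (ξ ζ), fun ζ => H (ζ - ζ₀) * Tr.E (ξ ζ), hΦan, hΦ0, hκan, ?_, ?_, ?_⟩
  · refine mul_ne_zero (hH0 _) ?_
    rw [hξ0]
    exact Tr.ne 0 (mem_ball_self Tr.ρ_pos)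
  · filter_upwards [hξb] with ζ hζ
    rw [Tr.eq _ hζ]
    simp only [ξ, if_true]
    ring
  -- (5) comparison
  obtain ⟨C⟩ := nonempty_chart V.DL.w V.DL.etale ((P ζ₀).comp V.ι)
  have hcmp : ∀ᶠ ζ in 𝓝 ζ₀, (R₁.Q.s y (Tr.Ξ (ξ ζ))).comp (jj.comp V.ι) = (P ζ).comp V.ι := by
    refine etale_unique C ?_ ?_ ?_
    · intro b
      have h1 : ContinuousAt (fun x => R₁.Q.s y x (jj (V.ι b))) 0 :=
        (R₁.Q.anal y (jj (V.ι b)) 0 (mem_ball_self hr)).continuousAt
      have h2 : Tendsto (fun ζ => Tr.Ξ (ξ ζ)) (𝓝 ζ₀) (𝓝 0) := by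
        have := hΦan.continuousAt.tendsto
        rwa [hΦ0] at this
      have h3 := h1.tendsto.comp h2
      rw [hs0] at h3
      exact h3
    · intro b
      exact (hPan (V.ι b) ζ₀ hζ₀).continuousAt.tendsto
    · filter_upwards [hξb, hHse] with ζ hζ hζH k
      have hΦm : Tr.Ξ (ξ ζ) ∈ ball (0 : Cn (d + 1)) (R₁.Q.r y) := Tr.maps hζ
      change R₁.Q.s y (Tr.Ξ (ξ ζ)) (jj (V.ι (V.DL.w k))) = P ζ (V.ι (V.DL.w k))
      by_cases hk : k = V.DL.i₀
      · subst hk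
        change R₁.Q.s y (Tr.Ξ (ξ ζ)) (jj (V.ι V.DL.t)) = P ζ (V.ι V.DL.t)
        rw [V.ram]
        simp only [map_mul, map_pow]
        rw [jj_t V jj h0 hw, R₁.Q.s_t h0 hΦm, Tr.pow _ hζ, ← hζH]
        simp only [ξ, if_true]
        rw [mul_pow]
      · have hk0 : sw V k ≠ 0 := by
          intro h
          apply hk
          rw [← sw_sw V k, h, sw_zero]
        rw [jj_w V jj hw hk, R₁.Q.s_z hΦm, Tr.coord _ hζ _ hk0]
        have h1 : R₁.X.pA y (D₁.w (sw V k)) = P ζ₀ (V.ι (V.DL.w k)) := by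
          rw [← jj_w V jj hw hk, ← hs0, R₁.Q.s_zero]
        rw [h1]
        simp only [ξ, if_neg hk0, sw_sw]
        rw [V.base k hk]
        ring
  filter_upwards [hξb, hcmp, hv] with ζ hζ hζc hζv hζPD hζt
  have hΦm : Tr.Ξ (ξ ζ) ∈ ball (0 : Cn (d + 1)) (R₁.Q.r y) := Tr.maps hζ
  have hPS : Tr.Ξ (ξ ζ) ∈ PS d (R₁.Q.r y) := by
    rw [mem_PS_iff hr]
    refine ⟨hΦm, ?_⟩
    rw [Tr.eq _ hζ]
    refine mul_ne_zero ?_ (Tr.ne _ hζ)
    simp only [ξ, if_true]
    exact mul_ne_zero hζt (hH0 _)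
  refine ⟨hPS, fun b b' hb => ?_⟩
  obtain ⟨m, α, hα⟩ := hvT b
  have hval : ∀ x : V.DL.A, R₁.Q.s y (Tr.Ξ (ξ ζ)) (jj (V.ι x)) = P ζ (V.ι x) := fun x =>
    congrArg (fun f : V.DL.A →ₐ[ℂ] ℂ => f x) hζc
  have h1 := R₁.P.spec y _ hPS b (jj (V.ι α)) (jj (V.ι (vT ^ m))) (by
    rw [hK, hK, ← hα, map_pow, map_mul, map_pow]
    rfl)
  rw [hval, hval] at h1
  have h2 := ext_rel hP hkq hq hζPD (b := b') (u := V.ι α) (v := V.ι (vT ^ m)) (by
    rw [V.ι_K, V.ι_K, hb, ← hα, map_pow, map_mul, map_pow])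
  have h3 : P ζ (V.ι (vT ^ m)) ≠ 0 := by
    rw [map_pow, map_pow]
    exact pow_ne_zero _ (hζv hζt)
  exact mul_right_cancel₀ h3 (h2.trans h1.symm)

end main

end Crest.Agent.R276.TransD_231
end
end

-- ▼ part R276/EtDom_231
section

/-!
# Row 276 (helper231): étale algebras over a normal domain are locally domains

`exists_idem` : `S` étale over the normal domain `R`, `P` a prime of `S`: there is an idempotent
`f ∉ P` such that `f * (x * y) = 0 → f * x = 0 ∨ f * y = 0` (so `S_f` is a domain).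
-/

set_option autoImplicit false

open scoped TensorProduct

namespace Crest.Agent.R276.EtDom_231

set_option linter.unusedSectionVars false

variable {R S : Type*} [CommRing R] [IsDomain R] [IsIntegrallyClosed R] [CommRing S] [Algebra R S]

/-- elements of `S ⊗ Frac R` integral over `S` are in `S` -/
theorem exists_tmul_one [Algebra.Smooth R S] (ε : S ⊗[R] FractionRing R) (h : IsIntegral S ε) :
    ∃ s : S, s ⊗ₜ[R] (1 : FractionRing R) = ε := by
  obtain ⟨z, hz⟩ := (TensorProduct.toIntegralClosure_bijective_of_smooth (R := R) (S := S)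
    (B := FractionRing R)).2 ⟨ε, h⟩
  have h1 : ∀ z : S ⊗[R] integralClosure R (FractionRing R), ∃ s : S,
      s ⊗ₜ[R] (1 : FractionRing R) = (TensorProduct.toIntegralClosure R S (FractionRing R) z :
        S ⊗[R] FractionRing R) := by
    intro z
    induction z with
    | zero => exact ⟨0, by simp⟩
    | add x y hx hy =>
      obtain ⟨a, ha⟩ := hx
      obtain ⟨b, hb⟩ := hy
      refine ⟨a + b, ?_⟩
      rw [TensorProduct.add_tmul, ha, hb, map_add]
      rfl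
    | tmul x y =>
      obtain ⟨y, hy⟩ := y
      have hy' := hy
      rw [IsIntegrallyClosed.integralClosure_eq_bot R (FractionRing R)] at hy'
      obtain ⟨r, hr⟩ := hy'
      refine ⟨r • x, ?_⟩
      have h2 : (TensorProduct.toIntegralClosure R S (FractionRing R) (x ⊗ₜ ⟨y, hy⟩) :
          S ⊗[R] FractionRing R) = x ⊗ₜ y := by
        simp [TensorProduct.toIntegralClosure]
      rw [h2, TensorProduct.smul_tmul, ← Algebra.algebraMap_eq_smul_one]
      congr 1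
  obtain ⟨s, hs⟩ := h1 z
  exact ⟨s, by rw [hs, hz]⟩

/-- `S` étale over a normal domain, `P` prime: an idempotent outside `P` cutting out a domain -/
theorem exists_idem [Algebra.Etale R S] (P : Ideal S) [hP : P.IsPrime] :
    ∃ f : S, f ∉ P ∧ f * f = f ∧ ∀ x y : S, f * (x * y) = 0 → f * x = 0 ∨ f * y = 0 := by
  classical
  set Q := FractionRing R
  obtain ⟨I, hI, A, hfield, halg, θ₀, -⟩ :=
    (Algebra.Etale.iff_exists_algEquiv_prod Q (Q ⊗[R] S)).1 inferInstance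
  let θ : S ⊗[R] Q ≃+* (∀ i, A i) :=
    (Algebra.TensorProduct.comm R S Q).toRingEquiv.trans θ₀.toRingEquiv
  have hinj : Function.Injective (fun s : S => s ⊗ₜ[R] (1 : Q)) := by
    have := Algebra.TensorProduct.includeLeft_injective (R := R) (S := R) (A := S) (B := Q)
      (IsFractionRing.injective R Q)
    exact this
  have hε : ∀ i, θ.symm (Pi.single i 1) * θ.symm (Pi.single i 1) = θ.symm (Pi.single i 1) := by
    intro i
    rw [← map_mul, ← Pi.single_mul, one_mul]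
  have hint : ∀ i, IsIntegral S (θ.symm (Pi.single i 1)) := by
    intro i
    refine ⟨Polynomial.X ^ 2 - Polynomial.X, ?_, ?_⟩
    · monicity!
    · rw [Polynomial.eval₂_sub, Polynomial.eval₂_pow, Polynomial.eval₂_X, sq, hε, sub_self]
  choose s hs using fun i => exists_tmul_one (θ.symm (Pi.single i 1)) (hint i)
  have := Fintype.ofFinite I
  have hsum : ∑ i, s i = 1 := by
    apply hinj
    simp only
    rw [TensorProduct.sum_tmul]
    simp only [hs]
    rw [← map_sum, Finset.univ_sum_single]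
    change θ.symm (fun _ => 1) = 1
    exact map_one θ.symm
  obtain ⟨i, hi⟩ : ∃ i, s i ∉ P := by
    by_contra hcon
    push Not at hcon
    exact hP.ne_top ((Ideal.eq_top_iff_one P).2 (hsum ▸ Ideal.sum_mem P fun i _ => hcon i))
  have hz : ∀ x : S, (θ (x ⊗ₜ 1)) i = 0 → s i * x = 0 := by
    intro x hx
    apply hinj
    simp only
    rw [TensorProduct.zero_tmul, ← one_mul (1 : Q), ← Algebra.TensorProduct.tmul_mul_tmul, hs,
      ← θ.injective.eq_iff, map_mul, map_zero, RingEquiv.apply_symm_apply]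
    ext j
    by_cases hj : j = i
    · subst hj
      simp [hx]
    · simp [hj]
  refine ⟨s i, hi, ?_, fun x y hxy => ?_⟩
  · apply hinj
    simp only
    rw [← one_mul (1 : Q), ← Algebra.TensorProduct.tmul_mul_tmul, one_mul, hs, hε]
  · have h1 : θ ((s i * (x * y)) ⊗ₜ 1) i = 0 := by rw [hxy, TensorProduct.zero_tmul, map_zero]; rfl
    have h2 : (s i * (x * y)) ⊗ₜ[R] (1 : Q) = (s i ⊗ₜ 1) * ((x ⊗ₜ 1) * (y ⊗ₜ 1)) := by
      rw [Algebra.TensorProduct.tmul_mul_tmul, Algebra.TensorProduct.tmul_mul_tmul, one_mul,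
        one_mul]
    rw [h2, hs, map_mul, map_mul, RingEquiv.apply_symm_apply, Pi.mul_apply, Pi.mul_apply,
      Pi.single_eq_same, one_mul, mul_eq_zero] at h1
    exact h1.imp (hz x) (hz y)

/-- localisation at a multiple of the idempotent -/
theorem isDomain_away {f h : S} {P : Ideal S} [hP : P.IsPrime] (hf : f ∉ P) (hh : h ∉ P)
    (hff : f * f = f) (hdom : ∀ x y : S, f * (x * y) = 0 → f * x = 0 ∨ f * y = 0)
    (T : Type*) [CommRing T] [Algebra S T] [IsLocalization.Away (f * h) T] : IsDomain T := by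
  have hfn : ∀ n : ℕ, f ^ (n + 1) = f := by
    intro n
    induction n with
    | zero => simp
    | succ n ih => rw [pow_succ, ih, hff]
  have hz : ∀ x : S, algebraMap S T x = 0 ↔ ∃ n : ℕ, (f * h) ^ n * x = 0 := by
    intro x
    rw [IsLocalization.map_eq_zero_iff (Submonoid.powers (f * h))]
    constructor
    · rintro ⟨⟨_, n, rfl⟩, hn⟩
      exact ⟨n, hn⟩
    · rintro ⟨n, hn⟩
      exact ⟨⟨_, n, rfl⟩, hn⟩
  have hnt : Nontrivial T := by
    refine ⟨⟨algebraMap S T 1, 0, fun h1 => ?_⟩⟩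
    obtain ⟨n, hn⟩ := (hz 1).1 h1
    rw [mul_one] at hn
    have h2 : (f * h) ^ n ∈ P := by rw [hn]; exact P.zero_mem
    rcases hP.mem_or_mem (hP.mem_of_pow_mem n h2) with h3 | h3
    · exact hf h3
    · exact hh h3
  have hnz : NoZeroDivisors T := by
    refine ⟨fun {a b} hab => ?_⟩
    obtain ⟨x, ⟨_, n, rfl⟩, rfl⟩ := IsLocalization.exists_mk'_eq (Submonoid.powers (f * h)) a
    obtain ⟨y, ⟨_, m, rfl⟩, rfl⟩ := IsLocalization.exists_mk'_eq (Submonoid.powers (f * h)) b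
    rw [← IsLocalization.mk'_mul, IsLocalization.mk'_eq_zero_iff] at hab
    obtain ⟨⟨_, k, rfl⟩, hk⟩ := hab
    have h1 : f * (h ^ (k + 1) * x * y) = 0 := by
      have h2 : (f * h) ^ (k + 1) * (x * y) = 0 := by
        rw [pow_succ, mul_assoc, mul_comm (f * h), ← mul_assoc]
        simp only at hk
        rw [hk, zero_mul]
      rw [mul_pow, hfn] at h2
      linear_combination h2
    rcases hdom _ _ h1 with h3 | h3
    · left
      rw [IsLocalization.mk'_eq_zero_iff]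
      refine ⟨⟨_, k + 1, rfl⟩, ?_⟩
      simp only [mul_pow, hfn]
      linear_combination h3
    · right
      rw [IsLocalization.mk'_eq_zero_iff]
      refine ⟨⟨_, 1, rfl⟩, ?_⟩
      simp only [pow_one]
      linear_combination h * h3
  exact NoZeroDivisors.to_isDomain T

end Crest.Agent.R276.EtDom_231
end

-- ▼ part R276/MsecA_231
section

/-!
# Row 276 (helper231), DESC-MSEC part A: slices of étale algebras

`A` étale over `P`, `P → Pw` a specialisation to a normal domain, `x ∈ Pw` with `Pw/(x) = P0` a normal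
domain, a point `ξ` of `A` over a point of `P0`: there is a domain `Ac` étale over `Pw` with
`A → Ac`, in which `x` is prime, through which `ξ` factors.
-/

set_option autoImplicit false
set_option linter.unusedSectionVars false
set_option linter.style.haveILetI false

open scoped TensorProduct

namespace Crest.Agent.R276.MsecA_231

open EtDom_231

variable {P Pw P0 A k : Type} [CommRing P] [CommRing Pw] [IsDomain Pw] [IsIntegrallyClosed Pw]
  [CommRing P0] [IsDomain P0] [IsIntegrallyClosed P0] [CommRing A] [Field k]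
  [Algebra P A] [Algebra P Pw] [Algebra Pw P0]

/-- the kernel of `B → P0 ⊗ B` -/
theorem ker_incl {B : Type} [CommRing B] [Algebra Pw B] {x : Pw}
    (hsurj : Function.Surjective (algebraMap Pw P0))
    (hker : ∀ p, algebraMap Pw P0 p = 0 → x ∣ p) (hx : algebraMap Pw P0 x = 0) {b : B}
    (hb : (1 : P0) ⊗ₜ[Pw] b = 0) : ∃ b' : B, b = x • b' := by
  let f : Pw →ₗ[Pw] Pw := LinearMap.mulLeft Pw x
  let g : Pw →ₗ[Pw] P0 := Algebra.linearMap Pw P0
  have hex : Function.Exact f g := by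
    intro p
    constructor
    · intro hp
      obtain ⟨q, hq⟩ := hker p hp
      exact ⟨q, hq.symm⟩
    · rintro ⟨q, rfl⟩
      change algebraMap Pw P0 (x * q) = 0
      rw [map_mul, hx, zero_mul]
  have h1 := rTensor_exact B hex hsurj
  obtain ⟨z, hz⟩ := (h1 ((1 : Pw) ⊗ₜ[Pw] b)).1 (by
    rw [LinearMap.rTensor_tmul]
    change (algebraMap Pw P0 1) ⊗ₜ[Pw] b = 0
    rw [map_one, hb])
  have h2 : ∀ z : Pw ⊗[Pw] B, TensorProduct.lid Pw B (LinearMap.rTensor B f z) =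
      x • TensorProduct.lid Pw B z := by
    intro z
    induction z with
    | zero => simp
    | add a b ha hb => rw [map_add, map_add, ha, hb, map_add, smul_add]
    | tmul a b =>
      rw [LinearMap.rTensor_tmul, TensorProduct.lid_tmul, TensorProduct.lid_tmul]
      change (x * a) • b = x • a • b
      rw [mul_smul]
  refine ⟨TensorProduct.lid Pw B z, ?_⟩
  rw [← h2, hz, TensorProduct.lid_tmul, one_smul]

theorem incl_surj {B : Type} [CommRing B] [Algebra Pw B]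
    (hsurj : Function.Surjective (algebraMap Pw P0)) :
    Function.Surjective (fun b : B => (1 : P0) ⊗ₜ[Pw] b) := by
  intro z
  induction z with
  | zero => exact ⟨0, by simp⟩
  | add a b ha hb =>
    obtain ⟨a', rfl⟩ := ha
    obtain ⟨b', rfl⟩ := hb
    exact ⟨a' + b', by simp only [TensorProduct.tmul_add]⟩
  | tmul p b =>
    obtain ⟨q, rfl⟩ := hsurj p
    refine ⟨q • b, ?_⟩
    simp only
    rw [TensorProduct.tmul_smul, TensorProduct.smul_tmul', ← Algebra.algebraMap_eq_smul_one]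

theorem exists_slice [Algebra.Etale P A] {x : Pw} (hx0 : x ≠ 0)
    (hsurj : Function.Surjective (algebraMap Pw P0))
    (hker : ∀ p, algebraMap Pw P0 p = 0 → x ∣ p) (hx : algebraMap Pw P0 x = 0)
    (ξA : A →+* k) (ξ0 : P0 →+* k)
    (hξ : ∀ p : P, ξA (algebraMap P A p) = ξ0 (algebraMap Pw P0 (algebraMap P Pw p))) :
    ∃ (Ac : Type) (_ : CommRing Ac) (_ : IsDomain Ac) (_ : Algebra Pw Ac) (_ : Algebra.Etale Pw Ac)
      (j : A →+* Ac) (ξc : Ac →+* k),
      (∀ p : P, j (algebraMap P A p) = algebraMap Pw Ac (algebraMap P Pw p)) ∧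
      Prime (algebraMap Pw Ac x) ∧ (∀ a, ξc (j a) = ξA a) ∧
      (∀ p, ξc (algebraMap Pw Ac p) = ξ0 (algebraMap Pw P0 p)) ∧
      ∀ p, algebraMap Pw Ac x ∣ algebraMap Pw Ac p → algebraMap Pw P0 p = 0 := by
  classical
  let ξw : Pw →+* k := ξ0.comp (algebraMap Pw P0)
  -- the base change `B`
  letI iPk : Algebra P k := (ξA.comp (algebraMap P A)).toAlgebra
  let eA : A →ₐ[P] k := { ξA with commutes' := fun p => rfl }
  let ew : Pw →ₐ[P] k := { ξw with commutes' := fun p => (hξ p).symm }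
  let eB : Pw ⊗[P] A →ₐ[P] k := Algebra.TensorProduct.lift ew eA (fun _ _ => Commute.all _ _)
  have heB : ∀ p a, eB (p ⊗ₜ a) = ξw p * ξA a := fun p a =>
    Algebra.TensorProduct.lift_tmul ew eA (fun _ _ => Commute.all _ _) p a
  have hP1 : (RingHom.ker eB).IsPrime := RingHom.ker_isPrime eB
  obtain ⟨f, hf, hff, hdom⟩ := exists_idem (R := Pw) (S := Pw ⊗[P] A) (RingHom.ker eB)
  -- the reduction `B0`
  letI iPwk : Algebra Pw k := ξw.toAlgebra
  let eB' : Pw ⊗[P] A →ₐ[Pw] k := { eB.toRingHom with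
    commutes' := fun p => by
      change eB (algebraMap Pw (Pw ⊗[P] A) p) = ξw p
      rw [Algebra.TensorProduct.algebraMap_apply, heB, map_one, mul_one]
      rfl }
  let e0 : P0 →ₐ[Pw] k := { ξ0 with commutes' := fun p => rfl }
  let eB0 : P0 ⊗[Pw] (Pw ⊗[P] A) →ₐ[Pw] k :=
    Algebra.TensorProduct.lift e0 eB' (fun _ _ => Commute.all _ _)
  have heB0 : ∀ p b, eB0 (p ⊗ₜ b) = ξ0 p * eB b := fun p b =>
    Algebra.TensorProduct.lift_tmul e0 eB' (fun _ _ => Commute.all _ _) p b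
  have hP0 : (RingHom.ker eB0).IsPrime := RingHom.ker_isPrime eB0
  obtain ⟨f0, hf0, hff0, hdom0⟩ := exists_idem (R := P0) (S := P0 ⊗[Pw] (Pw ⊗[P] A))
    (RingHom.ker eB0)
  let π : Pw ⊗[P] A →ₐ[Pw] P0 ⊗[Pw] (Pw ⊗[P] A) := Algebra.TensorProduct.includeRight
  have hπ : ∀ b, π b = 1 ⊗ₜ b := fun b => rfl
  have hπe : ∀ b, eB0 (π b) = eB b := fun b => by rw [hπ, heB0, map_one, one_mul]
  obtain ⟨b0, hb0⟩ := incl_surj (B := Pw ⊗[P] A) hsurj f0
  have hb0' : π b0 = f0 := hb0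
  have hb0P : b0 ∉ RingHom.ker eB := by
    intro h
    apply hf0
    rw [RingHom.mem_ker] at h ⊢
    rw [← hb0', hπe]
    exact h
  have hπf : π f ∉ RingHom.ker eB0 := by
    intro h
    apply hf
    rw [RingHom.mem_ker] at h ⊢
    rw [← hπe]
    exact h
  -- the rings
  let Ac := Localization.Away (f * b0)
  let C0 := Localization.Away (f0 * π f)
  have hAdom : IsDomain Ac := isDomain_away hf hb0P hff hdom Ac
  have hCdom : IsDomain C0 := isDomain_away hf0 hπf hff0 hdom0 C0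
  have hunit : IsUnit (((algebraMap (P0 ⊗[Pw] (Pw ⊗[P] A)) C0).comp π.toRingHom) (f * b0)) := by
    change IsUnit (algebraMap (P0 ⊗[Pw] (Pw ⊗[P] A)) C0 (π (f * b0)))
    have h1 : π (f * b0) = f0 * π f := by rw [map_mul, hb0', mul_comm]
    rw [h1]
    exact IsLocalization.Away.algebraMap_isUnit (f0 * π f)
  let ψ : Ac →+* C0 := IsLocalization.Away.lift (f * b0) hunit
  have hψ : ∀ b, ψ (algebraMap _ Ac b) = algebraMap _ C0 (π b) := fun b =>
    IsLocalization.Away.lift_eq (f * b0) hunit b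
  have hunitk : IsUnit (eB.toRingHom (f * b0)) := by
    rw [isUnit_iff_ne_zero]
    intro h
    have h1 : f * b0 ∈ RingHom.ker eB := h
    rcases hP1.mem_or_mem h1 with h2 | h2
    · exact hf h2
    · exact hb0P h2
  let ξc : Ac →+* k := IsLocalization.Away.lift (f * b0) hunitk
  have hξc : ∀ b, ξc (algebraMap _ Ac b) = eB b := fun b =>
    IsLocalization.Away.lift_eq (f * b0) hunitk b
  have htower : ∀ p : Pw, algebraMap Pw Ac p = algebraMap (Pw ⊗[P] A) Ac (algebraMap Pw _ p) :=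
    fun p => IsScalarTower.algebraMap_apply Pw (Pw ⊗[P] A) Ac p
  have hxA : algebraMap Pw Ac x ≠ 0 := by
    have h1 : Module.Flat Pw Ac := inferInstance
    have h2 := Module.Flat.isSMulRegular_of_isRegular (M := Ac)
      (IsRegular.of_ne_zero hx0)
    intro h3
    have h4 : x • (1 : Ac) = x • (0 : Ac) := by
      rw [← Algebra.algebraMap_eq_smul_one, h3, smul_zero]
    exact one_ne_zero (h2 h4)
  -- the kernel of `ψ`
  have hkerψ : ∀ y : Ac, ψ y = 0 → algebraMap Pw Ac x ∣ y := by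
    intro y hy
    obtain ⟨b, ⟨_, n, rfl⟩, rfl⟩ := IsLocalization.exists_mk'_eq (Submonoid.powers (f * b0)) y
    have h1 : ψ (algebraMap _ Ac b) = 0 := by
      have h2 : algebraMap _ Ac b = IsLocalization.mk' Ac b
          (⟨(f * b0) ^ n, n, rfl⟩ : Submonoid.powers (f * b0)) *
            algebraMap (Pw ⊗[P] A) Ac ((f * b0) ^ n) := (IsLocalization.mk'_spec Ac b _).symm
      rw [h2, map_mul]
      erw [hy]
      rw [zero_mul]
    rw [hψ, IsLocalization.map_eq_zero_iff (Submonoid.powers (f0 * π f))] at h1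
    obtain ⟨⟨_, m, rfl⟩, hm⟩ := h1
    have h3 : π ((f * b0) ^ m * b) = 0 := by
      rw [map_mul, map_pow, map_mul, hb0', mul_comm (π f)]
      exact hm
    obtain ⟨b', hb'⟩ := ker_incl (B := Pw ⊗[P] A) hsurj hker hx h3
    have hu : ∀ r : ℕ, IsUnit (algebraMap (Pw ⊗[P] A) Ac ((f * b0) ^ r)) := fun r =>
      IsLocalization.map_units Ac (⟨(f * b0) ^ r, r, rfl⟩ : Submonoid.powers (f * b0))
    have h4 : algebraMap Pw Ac x ∣ algebraMap _ Ac b := by
      rw [← (hu m).dvd_mul_left, ← map_mul, hb', Algebra.smul_def, map_mul, ← htower]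
      exact dvd_mul_right _ _
    have h5 : algebraMap _ Ac b = IsLocalization.mk' Ac b
          (⟨(f * b0) ^ n, n, rfl⟩ : Submonoid.powers (f * b0)) *
            algebraMap (Pw ⊗[P] A) Ac ((f * b0) ^ n) := (IsLocalization.mk'_spec Ac b _).symm
    rw [h5] at h4
    exact (hu n).dvd_mul_right.1 h4
  have hψx : ψ (algebraMap Pw Ac x) = 0 := by
    have h1 : π (algebraMap Pw (Pw ⊗[P] A) x) = 0 := by
      rw [hπ, Algebra.algebraMap_eq_smul_one, TensorProduct.tmul_smul, TensorProduct.smul_tmul',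
        ← Algebra.algebraMap_eq_smul_one, hx, TensorProduct.zero_tmul]
    rw [htower, hψ, h1, map_zero]
  have hprime : Prime (algebraMap Pw Ac x) := by
    refine ⟨hxA, ?_, ?_⟩
    · intro hu
      have h1 := hu.map ψ
      rw [hψx] at h1
      exact not_isUnit_zero h1
    · intro a b hab
      have h1 : ψ (a * b) = 0 := by
        obtain ⟨c, hc⟩ := hab
        rw [hc, map_mul, hψx, zero_mul]
      rw [map_mul, mul_eq_zero] at h1
      exact h1.imp (hkerψ a) (hkerψ b)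
  refine ⟨Ac, inferInstance, hAdom, inferInstance, inferInstance,
    (algebraMap (Pw ⊗[P] A) Ac).comp
      (Algebra.TensorProduct.includeRight : A →ₐ[P] Pw ⊗[P] A).toRingHom, ξc, ?_, hprime, ?_, ?_,
      ?_⟩
  · intro p
    rw [htower]
    change algebraMap (Pw ⊗[P] A) Ac (1 ⊗ₜ algebraMap P A p) = _
    congr 1
    rw [Algebra.TensorProduct.algebraMap_apply, Algebra.algebraMap_eq_smul_one,
      TensorProduct.tmul_smul, TensorProduct.smul_tmul', ← Algebra.algebraMap_eq_smul_one]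
    rfl
  · intro a
    change ξc (algebraMap (Pw ⊗[P] A) Ac (1 ⊗ₜ a)) = ξA a
    rw [hξc, heB, map_one, one_mul]
  · intro p
    rw [htower, hξc, Algebra.TensorProduct.algebraMap_apply, heB, map_one, mul_one]
    rfl
  · intro p hp
    have h1 : ψ (algebraMap Pw Ac p) = 0 := by
      obtain ⟨c, hc⟩ := hp
      rw [hc, map_mul, hψx, zero_mul]
    have h2 : π (algebraMap Pw (Pw ⊗[P] A) p) =
        algebraMap P0 (P0 ⊗[Pw] (Pw ⊗[P] A)) (algebraMap Pw P0 p) := by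
      rw [hπ, Algebra.algebraMap_eq_smul_one, TensorProduct.tmul_smul, TensorProduct.smul_tmul',
        ← Algebra.algebraMap_eq_smul_one, Algebra.TensorProduct.algebraMap_apply]
      rfl
    rw [htower, hψ, h2, ← IsScalarTower.algebraMap_apply P0 (P0 ⊗[Pw] (Pw ⊗[P] A)) C0] at h1
    by_contra hne
    have h3 : Module.Flat P0 C0 := inferInstance
    have h4 := Module.Flat.isSMulRegular_of_isRegular (M := C0) (IsRegular.of_ne_zero hne)
    have h5 : (algebraMap Pw P0 p) • (1 : C0) = (algebraMap Pw P0 p) • (0 : C0) := by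
      rw [← Algebra.algebraMap_eq_smul_one, h1, smul_zero]
    exact one_ne_zero (h4 h5)

end Crest.Agent.R276.MsecA_231
end

-- ▼ part R276/MsecB_231
section

/-!
# Row 276 (helper231), DESC-MSEC part B: transcendence bases, specialisations of polynomial rings
-/

set_option autoImplicit false
set_option linter.unusedSectionVars false
set_option linter.style.haveILetI false

open scoped TensorProduct
open MvPolynomial

namespace Crest.Agent.R276.MsecB_231

/-- étale over a domain ⟹ algebraic -/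
theorem isAlgebraic_of_etale (R A : Type) [CommRing R] [IsDomain R] [CommRing A] [Algebra R A]
    [Algebra.Etale R A] : Algebra.IsAlgebraic R A := by
  let Q := FractionRing R
  have hfin : Module.Finite Q (Q ⊗[R] A) := Algebra.FormallyUnramified.finite_of_free Q (Q ⊗[R] A)
  have halg : Algebra.IsAlgebraic Q (Q ⊗[R] A) := inferInstance
  have hinj : Function.Injective (Algebra.TensorProduct.includeRight : A →ₐ[R] Q ⊗[R] A) :=
    Algebra.TensorProduct.includeRight_injective (IsFractionRing.injective R Q)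
  refine ⟨fun s => ?_⟩
  have h1 : IsAlgebraic R ((Algebra.TensorProduct.includeRight : A →ₐ[R] Q ⊗[R] A) s) :=
    (IsFractionRing.isAlgebraic_iff R Q (Q ⊗[R] A)).2 (halg.isAlgebraic _)
  exact (isAlgebraic_algHom_iff _ hinj).1 h1

theorem injective_of_etale (R A : Type) [CommRing R] [IsDomain R] [CommRing A] [Nontrivial A]
    [Algebra R A] [Algebra.Etale R A] : Function.Injective (algebraMap R A) := by
  rw [injective_iff_map_eq_zero]
  intro p hp
  by_contra hne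
  have h3 : Module.Flat R A := inferInstance
  have h4 := Module.Flat.isSMulRegular_of_isRegular (M := A) (IsRegular.of_ne_zero hne)
  have h5 : p • (1 : A) = p • (0 : A) := by
    rw [← Algebra.algebraMap_eq_smul_one, hp, smul_zero]
  exact one_ne_zero (h4 h5)

/-- étale coordinates are a transcendence basis -/
theorem isTranscendenceBasis_of_etale {n : ℕ} {A K : Type} [CommRing A] [IsDomain A] [Algebra ℂ A]
    [Field K] [Algebra ℂ K] [Algebra A K] [IsScalarTower ℂ A K] [IsFractionRing A K]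
    (w : Fin n → A)
    (het : RingHom.Etale ((aeval w : MvPolynomial (Fin n) ℂ →ₐ[ℂ] A) : MvPolynomial (Fin n) ℂ →+* A)) :
    IsTranscendenceBasis ℂ (fun i => algebraMap A K (w i)) := by
  let _ : Algebra (MvPolynomial (Fin n) ℂ) A :=
    ((aeval w : MvPolynomial (Fin n) ℂ →ₐ[ℂ] A) : MvPolynomial (Fin n) ℂ →+* A).toAlgebra
  have i1 : Algebra.Etale (MvPolynomial (Fin n) ℂ) A := het
  have hinj := injective_of_etale (MvPolynomial (Fin n) ℂ) A
  have halg := isAlgebraic_of_etale (MvPolynomial (Fin n) ℂ) A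
  have hKinj := IsFractionRing.injective A K
  have hval : ∀ p : MvPolynomial (Fin n) ℂ, aeval (fun i => algebraMap A K (w i)) p =
      algebraMap A K (aeval w p) := fun p => by
    rw [← aeval_algebraMap_apply]
    rfl
  have hind : AlgebraicIndependent ℂ (fun i => algebraMap A K (w i)) := by
    rw [algebraicIndependent_iff_injective_aeval]
    intro p q hpq
    rw [hval, hval] at hpq
    exact hinj (hKinj hpq)
  rw [hind.isTranscendenceBasis_iff_isAlgebraic]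
  let R := Algebra.adjoin ℂ (Set.range fun i => algebraMap A K (w i))
  have hB : ∀ b : A, IsAlgebraic R (algebraMap A K b) := by
    intro b
    obtain ⟨p, hp0, hp⟩ := halg.isAlgebraic b
    let e := hind.aevalEquiv
    refine ⟨p.map e.toRingEquiv.toRingHom, ?_, ?_⟩
    · intro h
      apply hp0
      apply Polynomial.map_injective e.toRingEquiv.toRingHom e.injective
      rw [h, Polynomial.map_zero]
    · rw [Polynomial.aeval_def, Polynomial.eval₂_map]
      have hco : (algebraMap R K).comp e.toRingEquiv.toRingHom =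
          (algebraMap A K).comp (algebraMap (MvPolynomial (Fin n) ℂ) A) := by
        refine RingHom.ext fun c => ?_
        change ((e c : Algebra.adjoin ℂ _) : K) = algebraMap A K (aeval w c)
        rw [← hval]
        exact hind.algebraMap_aevalEquiv c
      rw [hco]
      have h2 := Polynomial.hom_eval₂ p (algebraMap (MvPolynomial (Fin n) ℂ) A) (algebraMap A K) b
      have h3 : Polynomial.eval₂ (algebraMap (MvPolynomial (Fin n) ℂ) A) b p = 0 := hp
      rw [h3, map_zero] at h2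
      exact h2.symm
  refine ⟨fun a => ?_⟩
  obtain ⟨b, c, _, rfl⟩ := IsFractionRing.div_surjective (A := A) a
  rw [div_eq_mul_inv]
  exact (hB b).mul (hB c).inv

section spec

variable {ρ : ℕ} (i₀ : Fin ρ)

/-- setting the variable `i₀` to `0` -/
noncomputable def χ : MvPolynomial (Fin ρ) ℂ →ₐ[ℂ] MvPolynomial {i : Fin ρ // i ≠ i₀} ℂ :=
  aeval fun i => if h : i ≠ i₀ then X ⟨i, h⟩ else 0

lemma χ_X_self : χ i₀ (X i₀) = 0 := by
  simp [χ]

lemma χ_X_ne {i : Fin ρ} (h : i ≠ i₀) : χ i₀ (X i) = X ⟨i, h⟩ := by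
  simp [χ, h]

lemma χ_surj : Function.Surjective (χ i₀) := by
  intro p
  refine ⟨rename Subtype.val p, ?_⟩
  induction p using MvPolynomial.induction_on with
  | C a => simp [χ]
  | add p q hp hq => rw [map_add, map_add, hp, hq]
  | mul_X p i hp =>
    rw [map_mul, map_mul, hp, rename_X, χ_X_ne i₀ i.2]

lemma X_dvd_sub (p : MvPolynomial (Fin ρ) ℂ) :
    (X i₀ : MvPolynomial (Fin ρ) ℂ) ∣ p - rename Subtype.val (χ i₀ p) := by
  induction p using MvPolynomial.induction_on with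
  | C a => simp [χ]
  | add p q hp hq =>
    rw [map_add, map_add]
    have := dvd_add hp hq
    convert this using 1
    ring
  | mul_X p i hp =>
    rw [map_mul, map_mul]
    by_cases h : i = i₀
    · subst h
      rw [χ_X_self, map_zero, mul_zero, sub_zero]
      exact dvd_mul_left _ _
    · rw [χ_X_ne i₀ h, rename_X, ← sub_mul]
      exact hp.mul_right _

lemma χ_ker {p : MvPolynomial (Fin ρ) ℂ} (h : χ i₀ p = 0) :
    (X i₀ : MvPolynomial (Fin ρ) ℂ) ∣ p := by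
  have := X_dvd_sub i₀ p
  rwa [h, map_zero, sub_zero] at this

end spec

end Crest.Agent.R276.MsecB_231
end

-- ▼ part R276/Msec_231
section

/-!
# Row 276 (helper231), DESC-MSEC: multisection of a vertical divisor

`exists_msec` (statement of helper327, post 2101).
-/

set_option autoImplicit false
set_option linter.unusedSectionVars false
set_option linter.style.haveILetI false

open scoped TensorProduct
open MvPolynomial

namespace Crest.Agent.R276.Msec_231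

open MsecA_231 MsecB_231 BC_986 BR_590

/-- part 1: the slice through a point -/
theorem exists_slice' {ρ a : ℕ} {L : Type} [Field L] [Algebra ℂ L] (D : DivModel (ρ + a) L)
    (i₀ : Fin ρ) (hi₀ : D.i₀ = Fin.castAdd a i₀) (y : D.A →ₐ[ℂ] ℂ) (hy : y D.t = 0) :
    ∃ (Ac : Type) (_ : CommRing Ac) (_ : IsDomain Ac) (_ : Algebra ℂ Ac) (wc : Fin ρ → Ac)
      (j : D.A →ₐ[ℂ] Ac) (ξ : Ac →+* ℂ), Algebra.FiniteType ℂ Ac ∧
      RingHom.Etale ((aeval wc : MvPolynomial (Fin ρ) ℂ →ₐ[ℂ] Ac) : MvPolynomial (Fin ρ) ℂ →+* Ac) ∧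
      Prime (wc i₀) ∧ (∀ i, wc i = j (D.w (Fin.castAdd a i))) ∧
      (∀ k, j (D.w (Fin.natAdd ρ k)) = algebraMap ℂ Ac (y (D.w (Fin.natAdd ρ k)))) ∧
      (∀ b, ξ (j b) = y b) ∧
      ∀ p : MvPolynomial (Fin ρ) ℂ, wc i₀ ∣ aeval wc p → χ i₀ p = 0 := by
  let P := MvPolynomial (Fin (ρ + a)) ℂ
  let Pw := MvPolynomial (Fin ρ) ℂ
  let P0 := MvPolynomial {i : Fin ρ // i ≠ i₀} ℂ
  let ψ : P →ₐ[ℂ] Pw := aeval (Fin.append (fun i => X i) (fun k => C (y (D.w (Fin.natAdd ρ k)))))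
  letI i1 : Algebra P D.A :=
    ((aeval D.w : MvPolynomial (Fin (ρ + a)) ℂ →ₐ[ℂ] D.A) : MvPolynomial (Fin (ρ + a)) ℂ →+* D.A).toAlgebra
  letI i2 : Algebra P Pw := ψ.toRingHom.toAlgebra
  letI i3 : Algebra Pw P0 := (χ i₀).toRingHom.toAlgebra
  haveI i4 : Algebra.Etale P D.A := D.etale
  let ξ0 : P0 →ₐ[ℂ] ℂ := aeval fun i => y (D.w (Fin.castAdd a i.1))
  have hcomp : (y.comp (aeval D.w : P →ₐ[ℂ] D.A)) = (ξ0.comp (χ i₀)).comp ψ := by
    apply MvPolynomial.algHom_ext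
    intro i
    refine Fin.addCases (fun i => ?_) (fun k => ?_) i
    · simp only [AlgHom.comp_apply, aeval_X, ψ, Fin.append_left]
      by_cases h : i = i₀
      · subst h
        rw [χ_X_self, map_zero]
        have : D.w (Fin.castAdd a i) = D.t := by rw [DivModel.t, hi₀]
        rw [this, hy]
      · rw [χ_X_ne i₀ h]
        exact (aeval_X (R := ℂ) (fun i : {i : Fin ρ // i ≠ i₀} => y (D.w (Fin.castAdd a i.1)))
          ⟨i, h⟩).symm
    · simp only [AlgHom.comp_apply, aeval_X, ψ, Fin.append_right]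
      have h8 : χ i₀ (C (y (D.w (Fin.natAdd ρ k)))) = C (y (D.w (Fin.natAdd ρ k))) := aeval_C _ _
      rw [h8]
      exact (aeval_C (R := ℂ) (fun i : {i : Fin ρ // i ≠ i₀} => y (D.w (Fin.castAdd a i.1)))
        (y (D.w (Fin.natAdd ρ k)))).symm
  obtain ⟨Ac, r1, r2, r3, r4, j, ξ, h1, h2, h3, h4, h5⟩ := exists_slice (P := P) (Pw := Pw)
    (P0 := P0) (A := D.A) (k := ℂ) (x := (X i₀ : MvPolynomial (Fin ρ) ℂ)) (X_ne_zero i₀)
    (χ_surj i₀) (fun p hp => χ_ker i₀ hp) (χ_X_self i₀) y.toRingHom ξ0.toRingHom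
    (fun p => congrArg (fun f : P →ₐ[ℂ] ℂ => f p) hcomp)
  letI r5 : Algebra ℂ Ac := ((algebraMap Pw Ac).comp (C : ℂ →+* MvPolynomial (Fin ρ) ℂ)).toAlgebra
  haveI r6 : IsScalarTower ℂ Pw Ac := IsScalarTower.of_algebraMap_eq fun c => rfl
  have hae : ∀ p : MvPolynomial (Fin ρ) ℂ,
      aeval (fun i => algebraMap Pw Ac (X i)) p = algebraMap Pw Ac p := by
    intro p
    have h9 : (aeval (fun i => algebraMap Pw Ac (X i)) : Pw →ₐ[ℂ] Ac) =
        IsScalarTower.toAlgHom ℂ Pw Ac := by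
      apply MvPolynomial.algHom_ext
      intro i
      rw [aeval_X]
      rfl
    exact congrArg (fun f : Pw →ₐ[ℂ] Ac => f p) h9
  have hmap : ∀ p : P, j (aeval D.w p) = algebraMap Pw Ac (ψ p) := h1
  let j' : D.A →ₐ[ℂ] Ac := { j with
    commutes' := fun c => by
      have h6 := hmap (C c)
      rw [show (aeval D.w (C c : MvPolynomial (Fin (ρ + a)) ℂ) : D.A) = algebraMap ℂ D.A c from
        aeval_C _ _] at h6
      change j (algebraMap ℂ D.A c) = _
      rw [h6]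
      have h7 : ψ (C c) = C c := by
        change aeval _ (C c) = _
        rw [aeval_C]
        rfl
      rw [h7]
      rfl }
  refine ⟨Ac, r1, r2, r5, fun i => algebraMap Pw Ac (X i), j', ξ, ?_, ?_, h2, ?_, ?_, h3, ?_⟩
  · have : Algebra.FiniteType Pw Ac := inferInstance
    exact Algebra.FiniteType.trans (S := Pw) inferInstance this
  · have h6 : ((aeval (fun i => algebraMap Pw Ac (X i)) : MvPolynomial (Fin ρ) ℂ →ₐ[ℂ] Ac) :
        MvPolynomial (Fin ρ) ℂ →+* Ac) = algebraMap Pw Ac := RingHom.ext hae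
    rw [h6]
    change @Algebra.Etale Pw Ac _ _ (algebraMap Pw Ac).toAlgebra
    have h7 : (algebraMap Pw Ac).toAlgebra = r3 := Algebra.algebra_ext _ _ fun _ => rfl
    rw [h7]
    exact r4
  · intro i
    have h6 := hmap (X (Fin.castAdd a i))
    rw [aeval_X] at h6
    change _ = j (D.w (Fin.castAdd a i))
    have h7 : ψ (X (Fin.castAdd a i)) = X i := by
      change aeval _ (X (Fin.castAdd a i)) = _
      rw [aeval_X, Fin.append_left]
    rw [h6, h7]
  · intro k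
    have h6 := hmap (X (Fin.natAdd ρ k))
    rw [aeval_X] at h6
    change j (D.w (Fin.natAdd ρ k)) = _
    rw [h6]
    have h7 : ψ (X (Fin.natAdd ρ k)) = C (y (D.w (Fin.natAdd ρ k))) := by
      change aeval _ (X (Fin.natAdd ρ k)) = _
      rw [aeval_X, Fin.append_right]
    rw [h7]
    rfl
  · intro p hp
    rw [hae] at hp
    exact h5 p hp

/-- **DESC-MSEC** -/
theorem exists_msec {ρ a : ℕ} {K0 L : Type} [Field K0] [Algebra ℂ K0] [Field L] [Algebra ℂ L]
    [Algebra K0 L] (V : VData ρ a K0 L) (F : Finset V.D.A)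
    (hF : ∀ g ∈ F, ¬ V.D.t ∣ g) :
    ∃ (Lc : Type) (_ : Field Lc) (_ : Algebra ℂ Lc) (_ : Algebra K0 Lc) (_ : IsScalarTower ℂ K0 Lc)
      (Dc : DivModel ρ Lc) (j : V.D.A →ₐ[ℂ] Dc.A) (c : Fin a → ℂ),
      Module.Finite K0 Lc ∧ Dc.i₀ = V.DL.i₀ ∧ (∀ i, Dc.w i = j (V.D.w (Fin.castAdd a i))) ∧
      (∀ k, j (V.D.w (Fin.natAdd ρ k)) = algebraMap ℂ _ (c k)) ∧ (∀ g ∈ F, ¬ Dc.t ∣ j g) ∧
      ∀ b : V.DL.A, algebraMap Dc.A Lc (j (V.ι b)) =
        algebraMap K0 Lc (algebraMap V.DL.A K0 b) := by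
  classical
  set i₀ := V.DL.i₀ with hi₀
  -- the point
  have hprod : ¬ V.D.t ∣ (∏ g ∈ F, g) * V.u := by
    intro h
    rcases V.D.t_prime.dvd_or_dvd h with h1 | h1
    · obtain ⟨g, hg, hgd⟩ := (V.D.t_prime.dvd_finsetProd_iff _).1 h1
      exact hF g hg hgd
    · exact V.u_nd h1
  obtain ⟨y, hy, hyg⟩ := V.D.exists_point _ hprod
  rw [map_mul] at hyg
  have hyu : y V.u ≠ 0 := right_ne_zero_of_mul hyg
  have hyF : ∀ g ∈ F, y g ≠ 0 := by
    intro g hg h0
    apply left_ne_zero_of_mul hyg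
    rw [map_prod]
    exact Finset.prod_eq_zero hg h0
  obtain ⟨Ac, r1, r2, r3, wc, j, ξ, hft, het, hprime, hw, hk, hξ, hpure⟩ :=
    exists_slice' V.D i₀ V.i₀_eq y hy
  have ht : wc i₀ = j V.D.t := by
    rw [hw, DivModel.t, V.i₀_eq]
  have hnd : ∀ b : V.D.A, y b ≠ 0 → ¬ wc i₀ ∣ j b := by
    rintro b hb ⟨q, hq⟩
    apply hb
    rw [← hξ, hq, map_mul, ht, hξ, hy, zero_mul]
  -- the composite on the polynomial ring of the base is injective
  let κ : MvPolynomial (Fin ρ) ℂ →ₐ[ℂ] Ac := (j.comp V.ι).comp (aeval V.DL.w)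
  have hκi : ∀ i, i ≠ i₀ → κ (X i) = wc i := by
    intro i hi
    change j (V.ι (aeval V.DL.w (X i))) = wc i
    rw [aeval_X, ← V.base i hi, hw]
  have hκt : κ (X i₀) = wc i₀ ^ V.e * j V.u := by
    change j (V.ι (aeval V.DL.w (X i₀))) = _
    rw [aeval_X]
    change j (V.ι V.DL.t) = _
    rw [V.ram, map_mul, map_pow, ht]
  have hκt0 : κ (X i₀) ≠ 0 := by
    rw [hκt]
    refine mul_ne_zero (pow_ne_zero _ hprime.ne_zero) ?_
    intro h0
    exact hnd V.u hyu (h0 ▸ dvd_zero _)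
  have hcong : ∀ p : MvPolynomial (Fin ρ) ℂ, wc i₀ ∣ κ p - aeval wc p := by
    intro p
    induction p using MvPolynomial.induction_on with
    | C c =>
      have h1 : κ (C c) = aeval wc (C c) := by
        rw [aeval_C]
        exact κ.commutes c
      rw [h1, sub_self]
      exact dvd_zero _
    | add p q hp hq =>
      rw [map_add, map_add]
      have := dvd_add hp hq
      convert this using 1
      ring
    | mul_X p i hp =>
      rw [map_mul, map_mul, aeval_X]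
      by_cases h : i = i₀
      · subst h
        obtain ⟨e', he'⟩ := Nat.exists_eq_succ_of_ne_zero V.e_ne
        rw [hκt, he', pow_succ]
        exact dvd_sub ⟨κ p * (wc i₀ ^ e') * j V.u, by ring⟩ (dvd_mul_left _ _)
      · rw [hκi i h, ← sub_mul]
        exact hp.mul_right _
  have hκinj : ∀ p : MvPolynomial (Fin ρ) ℂ, κ p = 0 → p = 0 := by
    intro p hp
    by_contra hne
    obtain ⟨n, q, hq, hpq⟩ : ∃ (n : ℕ) (q : MvPolynomial (Fin ρ) ℂ), ¬ (X i₀) ∣ q ∧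
        p = X i₀ ^ n * q := by
      have hfin : FiniteMultiplicity (X i₀ : MvPolynomial (Fin ρ) ℂ) p :=
        FiniteMultiplicity.of_prime_left (MvPolynomial.X_prime) hne
      obtain ⟨q, hq1, hq2⟩ := hfin.exists_eq_pow_mul_and_not_dvd
      exact ⟨_, q, hq2, hq1⟩
    have h1 : κ q = 0 := by
      rw [hpq, map_mul, map_pow, mul_eq_zero] at hp
      exact hp.resolve_left (pow_ne_zero _ hκt0)
    have h2 : wc i₀ ∣ aeval wc q := by
      have := hcong q
      rw [h1, zero_sub, dvd_neg] at this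
      exact this
    exact hq (χ_ker i₀ (hpure q h2))
  -- injectivity on `DL.A`
  let Pw := MvPolynomial (Fin ρ) ℂ
  letI i5 : Algebra Pw V.DL.A := ((aeval V.DL.w : MvPolynomial (Fin ρ) ℂ →ₐ[ℂ] V.DL.A) :
    MvPolynomial (Fin ρ) ℂ →+* V.DL.A).toAlgebra
  haveI i6 : Algebra.Etale Pw V.DL.A := V.DL.etale
  have halg := isAlgebraic_of_etale Pw V.DL.A
  have hinj : Function.Injective ((j.comp V.ι : V.DL.A →ₐ[ℂ] Ac) : V.DL.A →+* Ac) := by
    rw [injective_iff_map_eq_zero]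
    intro b hb
    by_contra hne
    obtain ⟨p, hp0, q, hq⟩ :=
      (halg.isAlgebraic b).exists_nonzero_dvd (mem_nonZeroDivisors_of_ne_zero hne)
    apply hp0
    apply hκinj
    change (j.comp V.ι) (algebraMap Pw V.DL.A p) = 0
    rw [hq, map_mul]
    have hb' : (j.comp V.ι) b = 0 := hb
    rw [hb', zero_mul]
  -- the fields
  let Lc := FractionRing Ac
  have hinj2 : Function.Injective ((algebraMap Ac Lc).comp
      ((j.comp V.ι : V.DL.A →ₐ[ℂ] Ac) : V.DL.A →+* Ac)) :=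
    (IsFractionRing.injective Ac Lc).comp hinj
  let θ : K0 →+* Lc := IsFractionRing.lift hinj2
  have hθ : ∀ b, θ (algebraMap V.DL.A K0 b) = algebraMap Ac Lc (j (V.ι b)) := fun b =>
    IsFractionRing.lift_algebraMap hinj2 b
  letI i7 : Algebra K0 Lc := θ.toAlgebra
  haveI i8 : IsScalarTower ℂ K0 Lc := IsScalarTower.of_algebraMap_eq fun c => by
    change _ = θ (algebraMap ℂ K0 c)
    rw [IsScalarTower.algebraMap_apply ℂ V.DL.A K0, hθ, IsScalarTower.algebraMap_apply ℂ Ac Lc]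
    congr 1
    exact ((j.comp V.ι).commutes c).symm
  let Dc : DivModel ρ Lc :=
    { A := Ac
      ft := hft
      w := wc
      etale := het
      i₀ := i₀
      prime := hprime }
  refine ⟨Lc, inferInstance, inferInstance, i7, i8, Dc, j, fun k => y (V.D.w (Fin.natAdd ρ k)), ?_,
    rfl, hw, hk, fun g hg => hnd g (hyF g hg), fun b => (hθ b).symm⟩
  -- finiteness
  have htb := isTranscendenceBasis_of_etale (K := Lc) wc het
  have htb0 := isTranscendenceBasis_of_etale (K := K0) V.DL.w V.DL.etale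
  have hess : Algebra.EssFiniteType ℂ Lc :=
    haveI := hft
    haveI : Algebra.EssFiniteType Ac Lc :=
      Algebra.EssFiniteType.of_isLocalization Lc (nonZeroDivisors Ac)
    Algebra.EssFiniteType.comp ℂ Ac Lc
  have hess2 : Algebra.EssFiniteType K0 Lc := Algebra.EssFiniteType.of_comp ℂ K0 Lc
  have hind : AlgebraicIndependent ℂ (fun i => algebraMap K0 Lc (algebraMap V.DL.A K0 (V.DL.w i))) :=
    htb0.1.map' (f := IsScalarTower.toAlgHom ℂ K0 Lc) (algebraMap K0 Lc).injective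
  have htb1 : IsTranscendenceBasis ℂ
      (fun i => algebraMap K0 Lc (algebraMap V.DL.A K0 (V.DL.w i))) := by
    refine hind.isTranscendenceBasis_of_trdeg_le_of_finite ?_
    rw [← htb.cardinalMk_eq_trdeg]
  have halg2 : Algebra.IsAlgebraic K0 Lc := by
    have h1 := htb1.isAlgebraic
    have hle : Algebra.adjoin ℂ (Set.range fun i => algebraMap K0 Lc
        (algebraMap V.DL.A K0 (V.DL.w i))) ≤ (IsScalarTower.toAlgHom ℂ K0 Lc).range := by
      rw [Algebra.adjoin_le_iff]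
      rintro _ ⟨i, rfl⟩
      exact ⟨algebraMap V.DL.A K0 (V.DL.w i), rfl⟩
    refine ⟨fun x => ?_⟩
    have h2 : IsAlgebraic (IsScalarTower.toAlgHom ℂ K0 Lc).range x := by
      have h3 := (Algebra.IsAlgebraic.isAlgebraic (R := Algebra.adjoin ℂ (Set.range fun i =>
        algebraMap K0 Lc (algebraMap V.DL.A K0 (V.DL.w i)))) x)
      exact h3.ringHom_of_comp_eq (Subalgebra.inclusion hle : _ →+* _) (RingHom.id Lc)
        (Subalgebra.inclusion_injective hle) rfl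
    exact IsAlgebraic.of_ringHom_of_comp_eq (R := K0)
      (S := (IsScalarTower.toAlgHom ℂ K0 Lc).range)
      ((IsScalarTower.toAlgHom ℂ K0 Lc).rangeRestrict : K0 →+* _) (RingHom.id Lc) h2
      (IsScalarTower.toAlgHom ℂ K0 Lc).rangeRestrict_surjective Function.injective_id rfl
  exact Algebra.finite_of_essFiniteType_of_isAlgebraic

end Crest.Agent.R276.Msec_231
end

-- ▼ part R276/LdDefs_828
section

/-!
# R276, leaf DESC-LD (helper828): definitions

Relative model `R : RMdl T L (d+1) a` (`M_L → M_T`), `V : VData (d+1) a T L` (algebraic data at a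
divisor of `L` whose trace on `T` is a divisor).
* `MS V D j c` : multisection of the divisor (`Msec_231.exists_msec`, divisor index normalised to
  `0`): `D` a divisorial model of a finite extension `Lc` of `T`, `j : V.D.A → D.A`;
* `LB R V D j F FL` : boundary charts of `M_T` along the divisor of `D` (`BD`), together with
  compatible lifts to `M_L`; the elements of `FL ⊆ L` are good;
* `exists_BD'` : `exists_BD` with prescribed units.
-/

set_option autoImplicit false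

noncomputable section

open Set Filter Topology Metric MeasureTheory
open scoped ENNReal

namespace Crest.Agent.R276.Ld_828

open Crest.Agent.R271.Defs710 Crest.Agent.R271.Rd692 Crest.Agent.R271.Alg255
open Crest.Agent.R271.Bd741 Crest.Agent.R271.Ho51
open Crest.Agent.R276.BC_986 Crest.Agent.R276.Mod1_987 Crest.Agent.R276.CntDefs_857
open Crest.Agent.R276.BR_590 (VData)
open Crest.Agent.R276.Bcq_828

section defs

variable {d a : ℕ} {T L : Type} [Field T] [Field L] [Algebra ℂ T] [Algebra ℂ L] [Algebra T L]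

/-- a multisection of a vertical divisor -/
structure MS (V : VData (d + 1) a T L) {Lc : Type} [Field Lc] [Algebra ℂ Lc] [Algebra T Lc]
    (D : DivModel (d + 1) Lc) (j : V.D.A →ₐ[ℂ] D.A) (c : Fin a → ℂ) : Prop where
  fin : Module.Finite T Lc
  h0 : D.i₀ = 0
  w_eq : ∀ i, D.w i = j (V.D.w (Fin.castAdd a (Equiv.swap 0 V.DL.i₀ i)))
  t_eq : D.t = j V.D.t
  fib : ∀ k, j (V.D.w (Fin.natAdd (d + 1) k)) = algebraMap ℂ _ (c k)
  base : ∀ b : V.DL.A, algebraMap D.A Lc (j (V.ι b)) = algebraMap T Lc (algebraMap V.DL.A T b)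

/-- boundary charts of `M_T` along a multisection, with lifts to `M_L` -/
structure LB [IsScalarTower ℂ T L] (R : RMdl T L (d + 1) a) (V : VData (d + 1) a T L) {Lc : Type}
    [Field Lc] [Algebra ℂ Lc] [Algebra T Lc] (D : DivModel (d + 1) Lc) (j : V.D.A →ₐ[ℂ] D.A)
    (F : Finset Lc) (FL : Finset L) where
  /-- the boundary charts of `M_T` -/
  bd : BD D R.ML.B R.ML.z F
  q : V.D.A
  k : ℕ
  u : V.D.A
  q_eq : q = V.D.t ^ k * u
  hu : j u ∈ bd.S
  q_spec : ∀ b : R.MK.B, ∃ (m : ℕ) (a : V.D.A),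
    algebraMap R.MK.B L b * algebraMap V.D.A L q ^ m = algebraMap V.D.A L a
  /-- the lifts to `M_L` -/
  s : bd.E → Cn (d + 1) → R.MK.Pts
  spec : ∀ y, ∀ ζ ∈ PS d (bd.Q.r y), ∀ (b : R.MK.B) (u v : V.D.A),
    algebraMap R.MK.B L b * algebraMap V.D.A L v = algebraMap V.D.A L u →
    s y ζ b * bd.Q.s y ζ (j v) = bd.Q.s y ζ (j u)
  good : ∀ f ∈ FL, ∃ (e : ℤ) (u v : V.D.A), ¬ V.D.t ∣ u ∧ ¬ V.D.t ∣ v ∧
    f * algebraMap V.D.A L v = algebraMap V.D.A L V.D.t ^ e * algebraMap V.D.A L u ∧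
    j u ∈ bd.S ∧ j v ∈ bd.S

end defs

/-! ### boundary charts with prescribed units -/

section exist

variable {d : ℕ} {K : Type} [Field K] [Algebra ℂ K]

/-- **existence of the boundary charts**, with prescribed units -/
theorem exists_BD' (D : DivModel (d + 1) K) (h0 : D.i₀ = 0) (B : Type) [CommRing B] [IsDomain B]
    [Algebra ℂ B] [Algebra B K] [IsScalarTower ℂ B K]
    (hinj : Function.Injective (algebraMap B K)) [Algebra.IsAlgebraic B K]
    (hB : Algebra.FiniteType ℂ B) (z : Fin (d + 1) → B)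
    (het : RingHom.Etale ((MvPolynomial.aeval z : MvPolynomial (Fin (d + 1)) ℂ →ₐ[ℂ] B) :
      MvPolynomial (Fin (d + 1)) ℂ →+* B)) (F : Finset K) (hF : ∀ f ∈ F, f ≠ 0)
    (S₀ : Finset D.A) (hS₀ : ∀ s ∈ S₀, ¬ D.t ∣ s) :
    ∃ g : MvPolynomial (Fin d) ℂ, g ≠ 0 ∧ ∀ h : MvPolynomial (Fin d) ℂ, h ≠ 0 → g ∣ h →
      ∃ R : BD D B z F, R.X.M.h = h ∧ S₀ ⊆ R.S := by
  classical
  obtain ⟨b, hb⟩ := exists_basis_B hinj z het
  -- the common denominator
  obtain ⟨q, hq0, hq⟩ := exists_denom (A := D.A) (B := B) K hB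
  obtain ⟨k, uq, huq, hquq⟩ := D.exists_pow_mul q hq0
  -- algebraic relations
  have hp : ∀ i, ∃ p : Polynomial B, p ≠ 0 ∧
      Polynomial.aeval (algebraMap D.A K (D.w i)) p = 0 := fun i =>
    Algebra.IsAlgebraic.isAlgebraic (R := B) (algebraMap D.A K (D.w i))
  choose p hp0 hp using hp
  -- the good functions
  set F' : Finset K := insert (D.dw.toMatrix b).det
    (F ∪ Finset.univ.image fun i => algebraMap B K (p i).leadingCoeff) with hF'
  have hF'0 : ∀ f ∈ F', f ≠ 0 := by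
    intro f hf
    rw [hF', Finset.mem_insert, Finset.mem_union, Finset.mem_image] at hf
    rcases hf with rfl | hf | ⟨i, _, rfl⟩
    · exact DivModel.det_ne_zero _ _
    · exact hF f hf
    · intro h
      exact hp0 i (Polynomial.leadingCoeff_eq_zero.1 (hinj (by rw [h, map_zero])))
  have hord : ∀ f : K, ∃ (a : ℤ) (u v : D.A), f ∈ F' → ¬ D.t ∣ u ∧ ¬ D.t ∣ v ∧
      f * algebraMap D.A K v = algebraMap D.A K D.t ^ a * algebraMap D.A K u := by
    intro f
    by_cases hf : f ∈ F'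
    · obtain ⟨a, u, v, h1, h2, h3⟩ := D.exists_hasOrd f (hF'0 f hf)
      exact ⟨a, u, v, fun _ => ⟨h1, h2, h3⟩⟩
    · exact ⟨0, 0, 0, fun h => absurd h hf⟩
  choose aa uu vv hord using hord
  set S : Finset D.A := insert uq ((F'.image uu ∪ F'.image vv) ∪ S₀) with hS
  have hSt : ∀ s ∈ S, ¬ D.t ∣ s := by
    intro s hs
    rw [hS, Finset.mem_insert, Finset.mem_union, Finset.mem_union, Finset.mem_image,
      Finset.mem_image] at hs
    rcases hs with rfl | (⟨f, hf, rfl⟩ | ⟨f, hf, rfl⟩) | hs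
    · exact huq
    · exact (hord f hf).1
    · exact (hord f hf).2.1
    · exact hS₀ s hs
  obtain ⟨g, hg0, hg⟩ := exists_divMdl D h0 S
  refine ⟨g, hg0, fun h hh0 hgh => ?_⟩
  obtain ⟨X, hXh, hXu⟩ := hg h hh0 hgh
  obtain ⟨Q⟩ := exists_QS X S (fun s hs => hXu s hs (hSt s hs))
  obtain ⟨P, hPq⟩ := exists_QB (B := B) h0 Q hquq (by rw [hS]; exact Finset.mem_insert_self _ _) hq
  have hgood : ∀ f ∈ F', ∃ (a : ℤ) (G : X.M.Pts → Cn (d + 1) → ℂ), D.HasOrd f a ∧
      QGood Q f a G := by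
    intro f hf
    obtain ⟨h1, h2, h3⟩ := hord f hf
    obtain ⟨G, hG⟩ := exists_QGood Q (f := f) (a := aa f) (u := uu f) (v := vv f)
      (by rw [hS]; exact Finset.mem_insert_of_mem (Finset.mem_union_left _
        (Finset.mem_union_left _ (Finset.mem_image_of_mem _ hf))))
      (by rw [hS]; exact Finset.mem_insert_of_mem (Finset.mem_union_left _
        (Finset.mem_union_right _ (Finset.mem_image_of_mem _ hf)))) h3
    exact ⟨aa f, G, ⟨uu f, vv f, h1, h2, h3⟩, hG⟩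
  obtain ⟨cJ, GJ, hJ1, hJ2⟩ := hgood (D.dw.toMatrix b).det (by
    rw [hF']; exact Finset.mem_insert_self _ _)
  have hlc : ∀ i, ∀ y, ∀ ζ ∈ PS d (Q.r y), P.σ y ζ (p i).leadingCoeff ≠ 0 := by
    intro i y ζ hζ
    obtain ⟨a, G, -, hG⟩ := hgood (algebraMap B K (p i).leadingCoeff) (by
      rw [hF']
      exact Finset.mem_insert_of_mem (Finset.mem_union_right _
        (Finset.mem_image_of_mem _ (Finset.mem_univ i))))
    have h1 := (mem_PS_iff (Q.r_pos y)).1 hζ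
    rw [P.val_good h0 hG hζ rfl]
    exact mul_ne_zero (zpow_ne_zero _ h1.2) (hG.ne h1.1)
  refine ⟨⟨X, S, Q, P, h0, b, hb, ∏ i, (p i).natDegree, P.mult h0 p hp hlc, cJ, GJ, hJ1, hJ2,
    fun f hf => hgood f ?_⟩, hXh, ?_⟩
  · rw [hF']
    exact Finset.mem_insert_of_mem (Finset.mem_union_left _ hf)
  · intro s hs
    change s ∈ S
    rw [hS]
    exact Finset.mem_insert_of_mem (Finset.mem_union_right _ hs)

end exist

end Crest.Agent.R276.Ld_828
end
end

-- ▼ part R276/TransE_231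
section

/-!
# Row 276 (helper231), TRANS, part E: tower charts and the boundary charts of `M_T`

`trans`: near every boundary point of a good tower chart (vertical case) the map to `M_T` factors
through one of 828's boundary charts, `q = Φ(η)` holomorphic, `|q₀| ~ |τ|^k`, `|jN| ≤ C |J|`.
-/

set_option autoImplicit false
set_option linter.unusedSectionVars false
set_option linter.style.haveILetI false

open Set Filter Topology Metric

noncomputable section

namespace Crest.Agent.R276.TransE_231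

open Crest.Agent.R271.Defs710 Crest.Agent.R271.Bd741 Crest.Agent.R271.Rd692
open Crest.Agent.R276.Mod1_987 Crest.Agent.R276.SkelDefs_220
open Crest.Agent.R276.BC_986 Crest.Agent.R276.BR_590 Crest.Agent.R276.Bcq_828
open Crest.Agent.R276.CntDefs_857 (PS)
open Crest.Agent.R276.TCh_858 (PD_sub isOpen_PD mem_PD_some mem_PD_none pw_castAdd)
open Crest.Agent.R276.TransA_231 Crest.Agent.R276.TransB_231 Crest.Agent.R276.TransC_231
open Crest.Agent.R276.TransD_231

/-! ### orders -/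

section ord

variable {K : Type} [Field K] [Algebra ℂ K] {n : ℕ} {M : Mdl K n} {δ : ℝ} {i₀ : Option (Fin n)}
  {X : AC M δ i₀}

/-- the order of the inverse -/
theorem ord_inv {x : K} (hx : x ≠ 0) {k : ℤ} (h : X.Ord x k) : X.Ord x⁻¹ (-k) := by
  obtain ⟨u, ⟨G, hG, hG0, hGu⟩, hu⟩ := h
  refine ⟨fun ζ => (u ζ)⁻¹, ⟨fun ζ => (G ζ)⁻¹, fun ζ hζ => (hG ζ hζ).inv (hG0 ζ hζ),
    fun ζ hζ => inv_ne_zero (hG0 ζ hζ), fun ζ hζ => ?_⟩, fun ζ hζ b c hbc => ?_⟩
  · simp only [hGu ζ hζ, mul_inv, zpow_neg]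
  · have hne : u ζ ≠ 0 := by
      rw [hGu ζ hζ]
      exact mul_ne_zero (zpow_ne_zero _ (tau_ne hζ)) (hG0 ζ (PD_sub hζ))
    have h1 := hu ζ hζ c b (by rw [hbc]; field_simp)
    simp only [h1]
    field_simp

end ord

section tower

variable {T L K : Type} [Field T] [Field L] [Field K] [Algebra ℂ T] [Algebra ℂ L] [Algebra ℂ K]
  [Algebra T L] [Algebra L K] [IsScalarTower ℂ T L] [IsScalarTower ℂ L K] {ρ a r : ℕ}
  {MT : Mdl T ρ} {ML : Mdl L (ρ + a)} {MK : Mdl K (ρ + a + r)} {H₁ : Rel MT ML} {H₂ : Rel ML MK}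
  {R : ValuationSubring K}

/-- `pe` maps punctured polydiscs to punctured polydiscs -/
theorem pe_mem_PD {m : ℕ} {δ : ℝ} (hδ : 0 < δ) (hδ1 : δ ≤ 1) {i : Fin m} {e : ℕ} (he : e ≠ 0)
    {x : Cn m} (hx : x ∈ ball (0 : Cn m) δ) : pe i e x ∈ ball (0 : Cn m) δ := by
  rw [mem_ball_zero_iff] at hx ⊢
  exact norm_pe_lt i e he hδ hδ1 hx

/-- orders on the chart of `L` and on the chart of `K` -/
theorem ordK (Y : TChart H₁ H₂ R) {i₁ : Fin (ρ + a)} (hi : Y.i₀ = Fin.castAdd r i₁)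
    {x : L} {k : ℤ} (h : Y.cL.Ord x k) {b₀ c₀ : ML.B} (hbc : (b₀ : L) = x * c₀)
    (hc₀ : ∀ ζ ∈ PD Y.δ (low (some Y.i₀)), Y.cL.s ζ c₀ ≠ 0) :
    Y.cK.Ord (algebraMap L K x) (Y.e₁ * k) := by
  obtain ⟨u, ⟨G, hG, hG0, hGu⟩, hu⟩ := h
  have hlow : low (some Y.i₀) = some i₁ := by rw [hi]; exact TCh_858.low_castAdd i₁
  have he := Y.e₁_pos.ne'
  have hbsmem : ∀ ζ ∈ ball (0 : Cn (ρ + a + r)) Y.δ, pe i₁ Y.e₁ (bs ζ) ∈ ball (0 : Cn (ρ + a)) Y.δ := by
    intro ζ hζ
    apply pe_mem_PD Y.δ_pos Y.δ_lt.le he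
    rw [mem_ball_zero_iff] at hζ ⊢
    exact (norm_bs_le ζ).trans_lt hζ
  have hpw : ∀ ζ : Cn (ρ + a + r), pw Y.e₁ (some Y.i₀) ζ = pe i₁ Y.e₁ (bs ζ) := by
    intro ζ
    rw [hi]
    exact pw_castAdd _ _ _
  have hPD : ∀ ζ ∈ PD Y.δ (some Y.i₀), pe i₁ Y.e₁ (bs ζ) ∈ PD Y.δ (low (some Y.i₀)) := by
    intro ζ hζ
    rw [hlow, mem_PD_some]
    refine ⟨hbsmem ζ (PD_sub hζ), ?_⟩
    rw [pe_self]
    have h2 := (mem_PD_some.1 hζ).2
    rw [hi] at h2
    exact pow_ne_zero _ h2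
  have hbsan : ∀ ζ : Cn (ρ + a + r), AnalyticAt ℂ (fun ζ : Cn (ρ + a + r) => bs ζ) ζ := by
    intro ζ
    rw [analyticAt_pi_iff]
    intro i
    exact (ContinuousLinearMap.proj (R := ℂ) (φ := fun _ : Fin (ρ + a + r) => ℂ)
      (Fin.castAdd r i)).analyticAt ζ
  refine ⟨fun ζ => u (pe i₁ Y.e₁ (bs ζ)), ⟨fun ζ => G (pe i₁ Y.e₁ (bs ζ)), ?_, ?_, ?_⟩, ?_⟩
  · intro ζ hζ
    have h1 : AnalyticAt ℂ (BR_590.pe i₁ Y.e₁) (bs ζ) := BR_590.analyticAt_pe i₁ Y.e₁ (bs ζ)
    have h2 : AnalyticAt ℂ G (BR_590.pe i₁ Y.e₁ (bs ζ)) := hG _ (hbsmem ζ hζ)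
    exact AnalyticAt.comp (g := G) (f := fun ζ => BR_590.pe i₁ Y.e₁ (bs ζ)) h2
      (AnalyticAt.comp (g := BR_590.pe i₁ Y.e₁) (f := fun ζ : Cn (ρ + a + r) => bs ζ) h1
        (hbsan ζ))
  · intro ζ hζ
    exact hG0 _ (hbsmem ζ hζ)
  · intro ζ hζ
    change u (pe i₁ Y.e₁ (bs ζ)) = _
    rw [hGu _ (hPD ζ hζ), hlow]
    congr 1
    change (pe i₁ Y.e₁ (bs ζ) i₁) ^ k = (ζ Y.i₀) ^ (Y.e₁ * k)
    rw [pe_self, hi, zpow_mul, zpow_natCast]
    rfl
  · intro ζ hζ b c h1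
    change Y.cK.s ζ b = u (pe i₁ Y.e₁ (bs ζ)) * Y.cK.s ζ c
    have hL : ∀ z : ML.B, Y.cK.s ζ (H₂.incl z) = Y.cL.s (pe i₁ Y.e₁ (bs ζ)) z := by
      intro z
      have h2 := Y.compL ζ hζ
      rw [hpw] at h2
      exact congrArg (fun f : ML.Pts => f z) h2
    have h2 := hu _ (hPD ζ hζ) b₀ c₀ hbc
    rw [← hL, ← hL] at h2
    have h3 : H₂.incl c₀ * b = H₂.incl b₀ * c := by
      apply Subtype.ext
      change algebraMap L K (c₀ : L) * (b : K) = algebraMap L K (b₀ : L) * (c : K)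
      rw [h1, hbc, map_mul]
      ring
    have h4 := congrArg (Y.cK.s ζ) h3
    rw [map_mul, map_mul, h2] at h4
    have h5 : Y.cK.s ζ (H₂.incl c₀) ≠ 0 := by
      rw [hL]
      exact hc₀ _ (hPD ζ hζ)
    apply mul_left_cancel₀ h5
    rw [h4]
    ring

/-- the index of the divisor coordinate if there is one on the chart of `L` -/
theorem exists_low {m r : ℕ} {i₀ : Fin (m + r)} {i₁ : Fin m} (h : low (some i₀) = some i₁) :
    i₀ = Fin.castAdd r i₁ := by
  revert h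
  refine Fin.addCases (fun i h => ?_) (fun i h => ?_) i₀
  · rw [TCh_858.low_castAdd] at h
    rw [Option.some.inj h]
  · rw [TCh_858.low_natAdd] at h
    exact absurd h (by simp)

/-- membership in the valuation ring of `L` from the order on the chart of `L` -/
theorem mem_iff_ord (Y : TChart H₁ H₂ R) {i₁ : Fin (ρ + a)} (hi : Y.i₀ = Fin.castAdd r i₁)
    {x : L} {k : ℤ} (h : Y.cL.Ord x k) {b₀ c₀ : ML.B} (hbc : (b₀ : L) = x * c₀)
    (hc₀ : ∀ ζ ∈ PD Y.δ (low (some Y.i₀)), Y.cL.s ζ c₀ ≠ 0) :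
    (x ∈ R.comap (algebraMap L K) ↔ 0 ≤ k) ∧ (x ≠ 0 → (x⁻¹ ∈ R.comap (algebraMap L K) ↔ k ≤ 0)) := by
  have h1 := ordK Y hi h hbc hc₀
  have he : (0 : ℤ) < Y.e₁ := by exact_mod_cast Y.e₁_pos
  refine ⟨?_, fun hx => ?_⟩
  · rw [ValuationSubring.mem_comap, Y.ordR _ _ h1]
    constructor
    · intro h2
      by_contra h3
      have h4 : k < 0 := not_le.1 h3
      have := mul_neg_of_pos_of_neg he h4
      omega
    · intro h2
      positivity
  · have hx' : algebraMap L K x ≠ 0 := by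
      rw [Ne, map_eq_zero]; exact hx
    have h2 := ord_inv hx' h1
    rw [ValuationSubring.mem_comap, map_inv₀, Y.ordR _ _ h2]
    constructor
    · intro h3
      by_contra h4
      have h5 : 0 < k := not_le.1 h4
      have := mul_pos he h5
      omega
    · intro h3
      have : (Y.e₁ : ℤ) * k ≤ 0 := mul_nonpos_of_nonneg_of_nonpos he.le h3
      omega

end tower

end Crest.Agent.R276.TransE_231
end
end

-- ▼ part R276/Trans_231
section

/-!
# Row 276 (helper231), TRANS: tower charts and the boundary charts of `M_T`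

`trans`: near every boundary point of a good tower chart (vertical case) the map to `M_T` factors
through one of 828's boundary charts, `|q₀| ~ |τ|^k`, `|jN| ≤ C |J|`.
-/

set_option autoImplicit false
set_option linter.unusedSectionVars false
set_option linter.style.haveILetI false

open Set Filter Topology Metric

noncomputable section

namespace Crest.Agent.R276.Trans_231

open Crest.Agent.R271.Defs710 Crest.Agent.R271.Bd741 Crest.Agent.R271.Rd692
open Crest.Agent.R271.Alg255 (az)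
open Crest.Agent.R276.Mod1_987 Crest.Agent.R276.SkelDefs_220
open Crest.Agent.R276.BC_986 Crest.Agent.R276.BR_590 Crest.Agent.R276.Bcq_828
open Crest.Agent.R276.CntDefs_857 (PS)
open Crest.Agent.R276.TCh_858 (PD_sub isOpen_PD mem_PD_some mem_PD_none pw_castAdd)
open Crest.Agent.R276.TransA_231 Crest.Agent.R276.TransB_231 Crest.Agent.R276.TransC_231
open Crest.Agent.R276.TransD_231 Crest.Agent.R276.TransE_231

section jac

variable {d a : ℕ} {T L Lc : Type} [Field T] [Field L] [Field Lc] [Algebra ℂ T] [Algebra ℂ L]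
  [Algebra ℂ Lc] [Algebra T L] [Algebra T Lc] [IsScalarTower ℂ T L]
  {D₁ : DivModel (d + 1) Lc} {MT : Mdl T (d + 1)} {ML : Mdl L (d + 1 + a)} {H₁ : Rel MT ML}
  {F₁ : Finset Lc} (R₁ : BD D₁ MT.B MT.z F₁)

/-- the Jacobian of the transversal coordinates along the factorisation -/
theorem jac_eq {δ : ℝ} {i₀ : Option (Fin (d + 1 + a))} {X : AC ML δ i₀} (y : R₁.E)
    {Φ : Cn (d + 1 + a) → Cn (d + 1)} {η : Cn (d + 1 + a)} (hΦ : AnalyticAt ℂ Φ η)
    (hη : Φ η ∈ PS d (R₁.Q.r y))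
    (h : ∀ᶠ x in 𝓝 η, H₁.f (X.s x) = R₁.P.σ y (Φ x)) :
    (fderiv ℂ (fun (x : Cn (d + 1)) (i : Fin (d + 1)) =>
      ML.pz (X.s (Fin.append x (fun k => η (Fin.natAdd (d + 1) k)))) (Fin.castAdd a i))
      (fun i => η (Fin.castAdd a i))).det =
    (fderiv ℂ (R₁.P.ψ MT.z y) (Φ η)).det * ((fderiv ℂ Φ η).comp (inl (d + 1) a)).det := by
  set x₀ : Cn (d + 1) := fun i => η (Fin.castAdd a i) with hx₀
  set y₀ : Cn a := fun k => η (Fin.natAdd (d + 1) k) with hy₀
  have hcat : Fin.append x₀ y₀ = η := by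
    funext i
    refine Fin.addCases (fun i => ?_) (fun i => ?_) i
    · rw [Fin.append_left]
    · rw [Fin.append_right]
  have hd : HasFDerivAt (fun x : Cn (d + 1) => (Fin.append x y₀ : Cn (d + 1 + a)))
      (inl (d + 1) a) x₀ := by
    have h1 : (fun x : Cn (d + 1) => (Fin.append x y₀ : Cn (d + 1 + a))) =
        fun x => inl (d + 1) a x + inr (d + 1) a y₀ := by
      funext x; exact cat_eq x y₀
    rw [h1]
    exact (inl (d + 1) a).hasFDerivAt.add_const _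
  have hΦd : HasFDerivAt Φ (fderiv ℂ Φ η) (Fin.append x₀ y₀) := by
    rw [hcat]; exact hΦ.differentiableAt.hasFDerivAt
  have hψ : HasFDerivAt (R₁.P.ψ MT.z y) (fderiv ℂ (R₁.P.ψ MT.z y) (Φ η))
      (Φ (Fin.append x₀ y₀)) := by
    rw [hcat]; exact (R₁.P.analyticAt_ψ R₁.h0 MT.z hη).differentiableAt.hasFDerivAt
  have h1 : HasFDerivAt (fun x : Cn (d + 1) => R₁.P.ψ MT.z y (Φ (Fin.append x y₀)))
      ((fderiv ℂ (R₁.P.ψ MT.z y) (Φ η)).comp ((fderiv ℂ Φ η).comp (inl (d + 1) a))) x₀ :=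
    HasFDerivAt.comp x₀ (g := R₁.P.ψ MT.z y) (f := fun x : Cn (d + 1) => Φ (Fin.append x y₀)) hψ
      (HasFDerivAt.comp x₀ (g := Φ) (f := fun x : Cn (d + 1) => (Fin.append x y₀ : Cn (d + 1 + a)))
        hΦd hd)
  have h2 : (fun (x : Cn (d + 1)) (i : Fin (d + 1)) =>
      ML.pz (X.s (Fin.append x y₀)) (Fin.castAdd a i)) =ᶠ[𝓝 x₀]
      fun x => R₁.P.ψ MT.z y (Φ (Fin.append x y₀)) := by
    have h3 : Tendsto (fun x : Cn (d + 1) => (Fin.append x y₀ : Cn (d + 1 + a))) (𝓝 x₀) (𝓝 η) := by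
      have := hd.continuousAt.tendsto
      rwa [hcat] at this
    filter_upwards [h3.eventually h] with x hx
    funext i
    have h4 := congrArg (fun f : MT.Pts => f (MT.z i)) hx
    change H₁.f (X.s (Fin.append x y₀)) (MT.z i) = R₁.P.σ y (Φ (Fin.append x y₀)) (MT.z i) at h4
    change X.s (Fin.append x y₀) (ML.z (Fin.castAdd a i)) = _
    have h5 : H₁.incl (MT.z i) = ML.z (Fin.castAdd a i) := Subtype.ext (H₁.coord i).symm
    rw [← h5]
    exact h4
  rw [(h1.congr_of_eventuallyEq h2).fderiv]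
  exact LinearMap.det_comp _ _

end jac

/-! ### the theorem -/

section main

variable {d a r : ℕ} {T L K Lc : Type} [Field T] [Field L] [Field K] [Field Lc] [Algebra ℂ T]
  [Algebra ℂ L] [Algebra ℂ K] [Algebra ℂ Lc] [Algebra T L] [Algebra L K] [Algebra T Lc]
  [IsScalarTower ℂ T L] [IsScalarTower ℂ L K] {MT : Mdl T (d + 1)} {ML : Mdl L (d + 1 + a)}
  {MK : Mdl K (d + 1 + a + r)} (H₁ : Rel MT ML) (H₂ : Rel ML MK) (R : ValuationSubring K)
  (V : VData (d + 1) a T L) {D₁ : DivModel (d + 1) Lc} (j : V.D.A →ₐ[ℂ] D₁.A)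

/-- **TRANS** -/
theorem trans (hV : V.D.ModelOf (R.comap (algebraMap L K))) (h0 : D₁.i₀ = 0)
    (hw : ∀ i, D₁.w i = j (V.D.w (Fin.castAdd a (sw V i))))
    (hK : ∀ b : V.DL.A, algebraMap D₁.A Lc (j (V.ι b)) = algebraMap T Lc (algebraMap V.DL.A T b))
    {F₁ : Finset Lc} (R₁ : BD D₁ MT.B MT.z F₁)
    (hune : ∀ (y : R₁.E) (ζ : Cn (d + 1)), ζ ∈ ball (0 : Cn (d + 1)) (R₁.Q.r y) →
      R₁.Q.s y ζ (j V.u) ≠ 0) :
    ∃ FL : Finset L, (∀ f ∈ FL, f ≠ 0) ∧ ∀ Y : TChart H₁ H₂ R, Y.GoodL FL → ∃ k : ℕ, 0 < k ∧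
      ∀ ζ₀ : Cn (d + 1 + a), ‖ζ₀‖ < Y.δ → tau (low (some Y.i₀)) ζ₀ = 0 →
      ∃ (y : R₁.E) (C : ℝ), 0 < C ∧ ∀ᶠ η in 𝓝 ζ₀, η ∈ PD Y.δ (low (some Y.i₀)) →
        ∃ q ∈ PS d (R₁.Q.r y / 2), H₁.f (Y.cL.s η) = R₁.P.σ y q ∧
          ‖q 0‖ ≤ C * ‖tau (low (some Y.i₀)) η‖ ^ k ∧ ‖tau (low (some Y.i₀)) η‖ ^ k ≤ C * ‖q 0‖ ∧
          ‖Y.jN η‖ ≤ C * ‖(fderiv ℂ (R₁.P.ψ MT.z y) q).det‖ := by
  classical
  -- generators of `V.D.A`
  obtain ⟨Sg₀, hSg₀⟩ := V.D.ft.out
  set Sg : Finset V.D.A := Sg₀.filter (· ≠ 0) with hSgdef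
  have hSg : Algebra.adjoin ℂ (Sg : Set V.D.A) = ⊤ := by
    rw [← top_le_iff, ← hSg₀, Algebra.adjoin_le_iff]
    intro x hx
    by_cases h : x = 0
    · rw [h]; exact zero_mem _
    · exact Algebra.subset_adjoin (by rw [hSgdef]; simp [h]; exact hx)
  -- denominators
  obtain ⟨q, hq0, hq⟩ := exists_denom (A := ML.B) (B := V.D.A) L V.D.ft
  obtain ⟨vT, hvT0, hvT⟩ := exists_denom (A := V.DL.A) (B := MT.B) T MT.ft
  obtain ⟨kv, v, hv, hvTv⟩ := V.DL.exists_pow_mul vT hvT0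
  -- the polynomial `h`
  set hp : V.DL.A := MvPolynomial.aeval (fun k : Fin d => V.DL.w (sw V k.succ)) R₁.X.M.h with hhp
  have hpt : ¬ V.DL.t ∣ hp := by
    intro hdvd
    have h1 : D₁.t ∣ j (V.ι hp) := by
      obtain ⟨c, hc⟩ := hdvd
      rw [hc, map_mul, map_mul, V.ram, map_mul, map_pow, jj_t V j h0 hw]
      exact ((dvd_pow_self _ V.e_ne).mul_right _).mul_right _
    have h2 : R₁.X.ι (j (V.ι hp)) = 0 := (R₁.X.ι_eq_zero_iff _).2 h1
    have h3 : R₁.X.ι (j (V.ι hp)) = az R₁.X.M.z R₁.X.M.h := by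
      have h4 := MvPolynomial.comp_aeval_apply (f := fun k : Fin d => V.DL.w (sw V k.succ))
        ((R₁.X.ι.comp j).comp V.ι) R₁.X.M.h
      refine h4.trans ?_
      change _ = MvPolynomial.aeval R₁.X.M.z R₁.X.M.h
      congr 2
      funext k
      change R₁.X.ι (j (V.ι (V.DL.w (sw V k.succ)))) = _
      rw [jj_w V j hw (sw_ne V (Fin.succ_ne_zero k)), sw_sw, R₁.X.ι_w]
    rw [h3] at h2
    exact R₁.X.M.h_unit.ne_zero h2
  -- the finite sets
  set S : Finset V.D.A := Sg ∪ {V.D.t, V.u, V.ι hp, V.ι v} with hS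
  have hu0 : V.u ≠ 0 := fun h => V.u_nd (h ▸ dvd_zero _)
  have hιp : ¬ V.D.t ∣ V.ι hp := fun h => hpt (V.lies _ h)
  have hιv : ¬ V.D.t ∣ V.ι v := fun h => hv (V.lies _ h)
  have hS0 : ∀ s ∈ S, s ≠ 0 := by
    intro s hs
    simp only [hS, Finset.mem_union, Finset.mem_insert, Finset.mem_singleton] at hs
    rcases hs with hs | rfl | rfl | rfl | rfl
    · rw [hSgdef, Finset.mem_filter] at hs
      exact hs.2
    · exact V.D.t_ne
    · exact hu0
    · exact fun h => hιp (h ▸ dvd_zero _)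
    · exact fun h => hιv (h ▸ dvd_zero _)
  refine ⟨insert (q : L) (S.image (algebraMap V.D.A L)), ?_, fun Y hY => ?_⟩
  · intro f hf
    rw [Finset.mem_insert, Finset.mem_image] at hf
    rcases hf with rfl | ⟨s, hs, rfl⟩
    · exact fun h => hq0 (Subtype.ext h)
    · exact fun h => hS0 s hs (V.D.inj (by rw [h, map_zero]))
  -- the case without divisor on the chart of `L`
  rcases Option.eq_none_or_eq_some (low (some Y.i₀)) with hlow | ⟨i₁, hlow⟩
  · refine ⟨1, one_pos, fun ζ₀ _ h => ?_⟩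
    rw [hlow] at h
    exact absurd h one_ne_zero
  have hi : Y.i₀ = Fin.castAdd r i₁ := exists_low hlow
  obtain ⟨kq, hkq⟩ := hY (q : L) (Finset.mem_insert_self _ _)
  have hord : ∀ s ∈ S, ∃ k : ℤ, Y.cL.Ord (algebraMap V.D.A L s) k := fun s hs =>
    hY _ (Finset.mem_insert_of_mem (Finset.mem_image_of_mem _ hs))
  have hq' : ∀ x : V.D.A, ∃ (m : ℕ) (b : ML.B), algebraMap V.D.A L x * (q : L) ^ m = b := hq
  have hqne : ∀ (m : ℕ), ∀ ζ ∈ PD Y.δ (low (some Y.i₀)), Y.cL.s ζ (q ^ m) ≠ 0 := by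
    intro m ζ hζ
    rw [map_pow]
    exact pow_ne_zero _ (ord_ne hkq hζ)
  have hmem : ∀ s ∈ S, ∀ k : ℤ, Y.cL.Ord (algebraMap V.D.A L s) k →
      (algebraMap V.D.A L s ∈ R.comap (algebraMap L K) ↔ 0 ≤ k) ∧
      ((algebraMap V.D.A L s)⁻¹ ∈ R.comap (algebraMap L K) ↔ k ≤ 0) := by
    intro s hs k hk
    obtain ⟨m, b, hb⟩ := hq' s
    have h1 := mem_iff_ord Y hi hk (b₀ := b) (c₀ := q ^ m) (by rw [← hb]; push_cast; ring)
      (hqne m)
    exact ⟨h1.1, h1.2 fun h => hS0 s hs (V.D.inj (by rw [h, map_zero]))⟩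
  have hnn : ∀ s ∈ S, ∃ k : ℕ, Y.cL.Ord (algebraMap V.D.A L s) k := by
    intro s hs
    obtain ⟨k, hk⟩ := hord s hs
    obtain ⟨n, rfl⟩ := Int.eq_ofNat_of_zero_le (((hmem s hs k hk).1).1 (hV.mem s))
    exact ⟨n, hk⟩
  have hun : ∀ s ∈ S, ¬ V.D.t ∣ s → Y.cL.Ord (algebraMap V.D.A L s) (0 : ℕ) := by
    intro s hs hst
    obtain ⟨k, hk⟩ := hnn s hs
    have h1 : (algebraMap V.D.A L s)⁻¹ ∈ R.comap (algebraMap L K) := by
      rw [← ValuationSubring.valuation_le_one_iff, map_inv₀, hV.unit s hst, inv_one]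
    have h2 := ((hmem s hs k hk).2).1 h1
    have h3 : k = 0 := by omega
    rw [h3] at hk
    exact hk
  have htS : V.D.t ∈ S := by simp [hS]
  obtain ⟨k, hk⟩ := hnn _ htS
  have hk0 : 0 < k := by
    rcases Nat.eq_zero_or_pos k with h | h
    · exfalso
      subst h
      have h1 := ((hmem _ htS _ hk).2).2 (by simp)
      rw [← ValuationSubring.valuation_le_one_iff, map_inv₀] at h1
      have h2 := hV.lt
      have h3 := hV.pos
      exact absurd h1 (not_le.2 ((one_lt_inv₀ h3).2 h2))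
    · exact h
  refine ⟨k, hk0, fun ζ₀ hζ₀ hτ => ?_⟩
  have hζb : ζ₀ ∈ ball (0 : Cn (d + 1 + a)) Y.δ := by rw [mem_ball_zero_iff]; exact hζ₀
  -- the extended points
  obtain ⟨P, hPan, hP⟩ := exists_ext (X := Y.cL) Y.δ_pos Sg hSg
    (fun g hg => hnn g (by rw [hS]; exact Finset.mem_union_left _ hg)) q hq' hkq
  obtain ⟨Gt, hGt, hGt0, hPt⟩ := ext_ord hPan hP hkq hq' hk
  have hval : ∀ s ∈ S, ¬ V.D.t ∣ s → P ζ₀ s ≠ 0 := by
    intro s hs hst
    obtain ⟨G, hG, hG0, hPs⟩ := ext_ord hPan hP hkq hq' (hun s hs hst)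
    rw [hPs ζ₀ hζb, pow_zero, one_mul]
    exact hG0 ζ₀ hζb
  have ht0 : P ζ₀ V.D.t = 0 := by
    rw [hPt ζ₀ hζb, hτ, zero_pow hk0.ne', zero_mul]
  have hu' : P ζ₀ V.u ≠ 0 := hval V.u (by simp [hS]) V.u_nd
  have hh' : P ζ₀ (V.ι hp) ≠ 0 := hval _ (by simp [hS]) hιp
  have hv' : P ζ₀ (V.ι v) ≠ 0 := hval _ (by simp [hS]) hιv
  have hcu : ∀ᶠ ζ in 𝓝 ζ₀, P ζ V.u ≠ 0 := (hPan V.u ζ₀ hζb).continuousAt.eventually_ne hu'
  have hcv : ∀ᶠ ζ in 𝓝 ζ₀, P ζ (V.ι v) ≠ 0 :=
    (hPan (V.ι v) ζ₀ hζb).continuousAt.eventually_ne hv'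
  have hvev : ∀ᶠ ζ in 𝓝 ζ₀, P ζ V.D.t ≠ 0 → P ζ (V.ι vT) ≠ 0 := by
    filter_upwards [hcu, hcv] with ζ h1 h2 h3
    rw [hvTv, map_mul, map_pow, V.ram, map_mul, map_pow, map_mul, map_pow]
    exact mul_ne_zero (pow_ne_zero _ (mul_ne_zero (pow_ne_zero _ h3) h1)) h2
  obtain ⟨y, Φ, κ, hΦan, hΦ0, hκan, hκ0, hΦκ, hfac⟩ := local_fac V j h0 hw hK R₁ hune hPan hP hkq
    hq' vT hvT hζb ht0 hu' hh' hvev
  have hr : 0 < R₁.Q.r y := R₁.Q.r_pos y
  -- the constants
  have hg0 : Gt ζ₀ * κ ζ₀ ≠ 0 := mul_ne_zero (hGt0 ζ₀ hζb) hκ0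
  have hgc : ContinuousAt (fun ζ => ‖Gt ζ * κ ζ‖) ζ₀ :=
    (((hGt ζ₀ hζb).mul hκan).continuousAt).norm
  have hg1 : ∀ᶠ ζ in 𝓝 ζ₀, ‖Gt ζ * κ ζ‖ < ‖Gt ζ₀ * κ ζ₀‖ + 1 :=
    hgc.eventually_lt_const (by linarith)
  have hg2 : ∀ᶠ ζ in 𝓝 ζ₀, ‖Gt ζ₀ * κ ζ₀‖ / 2 < ‖Gt ζ * κ ζ‖ :=
    hgc.eventually_const_lt (by have := norm_pos_iff.2 hg0; linarith)
  have hdc : ContinuousAt (fun ζ => ‖((fderiv ℂ Φ ζ).comp (inl (d + 1) a)).det‖) ζ₀ := by
    have h1 : ContinuousAt (fun ζ => fderiv ℂ Φ ζ) ζ₀ := hΦan.fderiv.continuousAt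
    have h2 : Continuous fun A : Cn (d + 1 + a) →L[ℂ] Cn (d + 1) => A.comp (inl (d + 1) a) :=
      continuous_id.clm_comp continuous_const
    have h3 : Continuous fun A : Cn (d + 1) →L[ℂ] Cn (d + 1) => A.det :=
      ContinuousLinearMap.continuous_det
    exact ((h3.comp h2).continuousAt.comp h1).norm
  have hd1 : ∀ᶠ ζ in 𝓝 ζ₀, ‖((fderiv ℂ Φ ζ).comp (inl (d + 1) a)).det‖ <
      ‖((fderiv ℂ Φ ζ₀).comp (inl (d + 1) a)).det‖ + 1 := hdc.eventually_lt_const (by linarith)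
  have hr2 : ∀ᶠ ζ in 𝓝 ζ₀, Φ ζ ∈ ball (0 : Cn (d + 1)) (R₁.Q.r y / 2) := by
    have h1 := hΦan.continuousAt.tendsto
    rw [hΦ0] at h1
    exact h1.eventually (ball_mem_nhds _ (by linarith))
  set g₀ := ‖Gt ζ₀ * κ ζ₀‖ with hg₀
  set m₀ := ‖((fderiv ℂ Φ ζ₀).comp (inl (d + 1) a)).det‖ with hm₀
  have hg₀p : 0 < g₀ := norm_pos_iff.2 hg0
  have hm₀p : 0 ≤ m₀ := norm_nonneg _
  refine ⟨y, (g₀ + 1) + 2 / g₀ + (m₀ + 1), by positivity, ?_⟩
  filter_upwards [hΦκ, hfac, hfac.eventually_nhds, hΦan.eventually_analyticAt, hg1, hg2, hd1, hr2]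
    with η h1 h2 h3 h4 h5 h6 h7 h8 hη
  have hPD : ∀ x ∈ PD Y.δ (low (some Y.i₀)), P x V.D.t ≠ 0 := by
    intro x hx
    rw [hPt x (PD_sub hx)]
    exact mul_ne_zero (pow_ne_zero _ (tau_ne hx)) (hGt0 x (PD_sub hx))
  have hfe : ∀ x, (x ∈ PD Y.δ (low (some Y.i₀)) → P x V.D.t ≠ 0 → Φ x ∈ PS d (R₁.Q.r y) ∧
      ∀ (b : MT.B) (b' : ML.B), (b' : L) = algebraMap T L b → Y.cL.s x b' = R₁.P.σ y (Φ x) b) →
      x ∈ PD Y.δ (low (some Y.i₀)) → H₁.f (Y.cL.s x) = R₁.P.σ y (Φ x) := by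
    intro x hx hxP
    ext b
    exact (hx hxP (hPD x hxP)).2 b (H₁.incl b) rfl
  obtain ⟨hPS, -⟩ := h2 hη (hPD η hη)
  have hτη : ‖Φ η 0‖ = ‖tau (low (some Y.i₀)) η‖ ^ k * ‖Gt η * κ η‖ := by
    rw [h1, hPt η (PD_sub hη), norm_mul, norm_mul, norm_pow, norm_mul]
    ring
  have hτ0 : 0 ≤ ‖tau (low (some Y.i₀)) η‖ ^ k := by positivity
  refine ⟨Φ η, ?_, hfe η h2 hη, ?_, ?_, ?_⟩
  · rw [mem_PS_iff (by linarith)]
    exact ⟨h8, ((mem_PS_iff hr).1 hPS).2⟩
  · rw [hτη, mul_comm]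
    refine mul_le_mul_of_nonneg_right ?_ hτ0
    have : 0 < 2 / g₀ := by positivity
    linarith
  · rw [hτη]
    have e1 : 1 ≤ (2 / g₀) * ‖Gt η * κ η‖ := by
      rw [div_mul_eq_mul_div, le_div_iff₀ hg₀p]
      linarith
    have e2 : (2 / g₀) * ‖Gt η * κ η‖ ≤ ((g₀ + 1) + 2 / g₀ + (m₀ + 1)) * ‖Gt η * κ η‖ := by
      refine mul_le_mul_of_nonneg_right ?_ (norm_nonneg _)
      linarith
    calc ‖tau (low (some Y.i₀)) η‖ ^ k = ‖tau (low (some Y.i₀)) η‖ ^ k * 1 := (mul_one _).symm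
      _ ≤ ‖tau (low (some Y.i₀)) η‖ ^ k * (((g₀ + 1) + 2 / g₀ + (m₀ + 1)) * ‖Gt η * κ η‖) :=
        mul_le_mul_of_nonneg_left (e1.trans e2) hτ0
      _ = _ := by ring
  · have h9 : Y.jN η = (fderiv ℂ (R₁.P.ψ MT.z y) (Φ η)).det *
        ((fderiv ℂ Φ η).comp (inl (d + 1) a)).det := by
      refine jac_eq (H₁ := H₁) R₁ y h4 hPS ?_
      filter_upwards [h3, isOpen_PD.mem_nhds hη] with x hx hxP
      exact hfe x hx hxP
    rw [h9, norm_mul, mul_comm]
    refine mul_le_mul_of_nonneg_right ?_ (norm_nonneg _)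
    have : 0 < 2 / g₀ := by positivity
    linarith

end main

end Crest.Agent.R276.Trans_231
end
end

-- ▼ part R276/LdA_828
section

/-!
# R276, leaf DESC-LD (helper828): existence and the structure `LftDefs_327.LD`

* `exists_LB` : existence of the boundary charts of `M_T` with lifts to `M_L`;
* `LB.fs`, `LB.anal`, `LB.compat`, `LB.bound_PS`, `LB.unit` : properties of the lifts;
* `LB.ld` : the structure `LD` of 327.
-/

set_option autoImplicit false

noncomputable section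

open Set Filter Topology Metric MeasureTheory
open scoped ENNReal

namespace Crest.Agent.R276.Ld_828

open Crest.Agent.R271.Defs710 Crest.Agent.R271.Rd692 Crest.Agent.R271.Alg255
open Crest.Agent.R271.Bd741 Crest.Agent.R271.Ho51
open Crest.Agent.R276.BC_986 Crest.Agent.R276.Mod1_987 Crest.Agent.R276.CntDefs_857
open Crest.Agent.R276.BR_590 (VData)
open Crest.Agent.R276.Bcq_828 Crest.Agent.R276.Ipc735

variable {d a : ℕ} {T L : Type} [Field T] [Field L] [Algebra ℂ T] [Algebra ℂ L] [Algebra T L]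

/-! ### existence -/

theorem exists_ms (V : VData (d + 1) a T L) (F : Finset V.D.A) (hF : ∀ g ∈ F, ¬ V.D.t ∣ g) :
    ∃ (Lc : Type) (_ : Field Lc) (_ : Algebra ℂ Lc) (_ : Algebra T Lc) (_ : IsScalarTower ℂ T Lc)
      (D : DivModel (d + 1) Lc) (j : V.D.A →ₐ[ℂ] D.A) (c : Fin a → ℂ), MS V D j c ∧
      ∀ g ∈ F, ¬ D.t ∣ j g := by
  obtain ⟨Lc, i1, i2, i3, i4, Dc, j, c, h1, h2, h3, h4, h5, h6⟩ := Msec_231.exists_msec V F hF
  have ht : Dc.t = j V.D.t := by
    rw [DivModel.t, DivModel.t, h2, h3, V.i₀_eq]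
  refine ⟨Lc, i1, i2, i3, i4, normD Dc, j, c, ⟨h1, rfl, fun i => ?_, ?_, h4, h6⟩, ?_⟩
  · change Dc.w (Equiv.swap 0 Dc.i₀ i) = _
    rw [h3, h2]
    rfl
  · rw [normD_t]; exact ht
  · intro g hg
    rw [normD_t]
    exact h5 g hg

variable [IsScalarTower ℂ T L]

/-- **existence** -/
theorem exists_LB (R : RMdl T L (d + 1) a) (V : VData (d + 1) a T L) (FL : Finset L)
    (hFL : ∀ f ∈ FL, f ≠ 0) (S₁ : Finset V.D.A) (hS₁ : ∀ s ∈ S₁, ¬ V.D.t ∣ s) :
    ∃ (Lc : Type) (_ : Field Lc) (_ : Algebra ℂ Lc) (_ : Algebra T Lc) (_ : IsScalarTower ℂ T Lc)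
      (D : DivModel (d + 1) Lc) (j : V.D.A →ₐ[ℂ] D.A) (c : Fin a → ℂ), MS V D j c ∧
      ∀ (F : Finset Lc), (∀ f ∈ F, f ≠ 0) → ∀ (S₂ : Finset D.A), (∀ s ∈ S₂, ¬ D.t ∣ s) →
      ∃ g : MvPolynomial (Fin d) ℂ, g ≠ 0 ∧ ∀ h : MvPolynomial (Fin d) ℂ, h ≠ 0 → g ∣ h →
        ∃ P : LB R V D j F FL, P.bd.X.M.h = h ∧ (∀ s ∈ S₁, j s ∈ P.bd.S) ∧ S₂ ⊆ P.bd.S := by
  classical
  obtain ⟨q, hq0, hq⟩ := exists_denom (A := V.D.A) (B := R.MK.B) L R.MK.ft
  obtain ⟨k, uq, huq, hquq⟩ := V.D.exists_pow_mul q hq0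
  have hord : ∀ f : L, ∃ (e : ℤ) (u v : V.D.A), f ∈ FL → ¬ V.D.t ∣ u ∧ ¬ V.D.t ∣ v ∧
      f * algebraMap V.D.A L v = algebraMap V.D.A L V.D.t ^ e * algebraMap V.D.A L u := by
    intro f
    by_cases hf : f ∈ FL
    · obtain ⟨a, u, v, h1, h2, h3⟩ := V.D.exists_hasOrd f (hFL f hf)
      exact ⟨a, u, v, fun _ => ⟨h1, h2, h3⟩⟩
    · exact ⟨0, 0, 0, fun h => absurd h hf⟩
  choose ee uu vv hord using hord
  set SA : Finset V.D.A := insert uq ((FL.image uu ∪ FL.image vv) ∪ S₁) with hSA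
  have hSt : ∀ s ∈ SA, ¬ V.D.t ∣ s := by
    intro s hs
    rw [hSA, Finset.mem_insert, Finset.mem_union, Finset.mem_union, Finset.mem_image,
      Finset.mem_image] at hs
    rcases hs with rfl | (⟨f, hf, rfl⟩ | ⟨f, hf, rfl⟩) | hs
    · exact huq
    · exact (hord f hf).1
    · exact (hord f hf).2.1
    · exact hS₁ s hs
  obtain ⟨Lc, i1, i2, i3, i4, D, j, c, hM, hj⟩ := exists_ms V SA hSt
  refine ⟨Lc, i1, i2, i3, i4, D, j, c, hM, fun F hF S₂ hS₂ => ?_⟩
  have hfin := hM.fin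
  have : Algebra.IsAlgebraic R.ML.B T := IsLocalization.isAlgebraic _ (nonZeroDivisors R.ML.B)
  have : IsScalarTower R.ML.B T Lc := IsScalarTower.of_algebraMap_eq fun _ => rfl
  have : Algebra.IsAlgebraic T Lc := Algebra.IsAlgebraic.of_finite T Lc
  have : Algebra.IsAlgebraic R.ML.B Lc := Algebra.IsAlgebraic.trans R.ML.B T Lc
  have : IsScalarTower ℂ R.ML.B Lc := IsScalarTower.of_algebraMap_eq fun x => by
    rw [IsScalarTower.algebraMap_apply ℂ T Lc]
    rfl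
  have hinj : Function.Injective (algebraMap R.ML.B Lc) := by
    have h1 : (algebraMap R.ML.B Lc : R.ML.B → Lc) =
      fun b : R.ML.B => algebraMap T Lc (b : T) := rfl
    rw [h1]
    exact (algebraMap T Lc).injective.comp Subtype.val_injective
  obtain ⟨g, hg0, hg⟩ := exists_BD' D hM.h0 R.ML.B hinj R.ML.ft R.ML.z R.ML.het F hF
    (SA.image j ∪ S₂) (by
      intro s hs
      rw [Finset.mem_union, Finset.mem_image] at hs
      rcases hs with ⟨s, hs, rfl⟩ | hs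
      · exact hj s hs
      · exact hS₂ s hs)
  refine ⟨g, hg0, fun h hh0 hgh => ?_⟩
  obtain ⟨X, hXh, hXS⟩ := hg h hh0 hgh
  have hXj : ∀ s ∈ SA, j s ∈ X.S := fun s hs =>
    hXS (Finset.mem_union_left _ (Finset.mem_image_of_mem _ hs))
  have hinjA := V.D.inj
  have hne : ∀ (y : X.E) (ζ : Cn (d + 1)), ζ ∈ PS d (X.Q.r y) →
      ((X.Q.s y ζ).comp j) q ≠ 0 := by
    intro y ζ hζ
    rw [mem_PS_iff (X.Q.r_pos y)] at hζ
    rw [hquq, map_mul, map_pow]
    refine mul_ne_zero (pow_ne_zero _ ?_) ?_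
    · change X.Q.s y ζ (j V.D.t) ≠ 0
      rw [← hM.t_eq, X.Q.s_t hM.h0 hζ.1]
      exact hζ.2
    · exact X.Q.ne (hXj uq (by rw [hSA]; exact Finset.mem_insert_self _ _)) y hζ.1
  have hpt : Nonempty (Pt R.MK.B) := by
    obtain ⟨y₁⟩ : Nonempty X.X.M.Pts := inferInstance
    have hr := X.Q.r_pos y₁
    have hmem : (Pi.single 0 ((X.Q.r y₁ / 2 : ℝ) : ℂ) : Cn (d + 1)) ∈ PS d (X.Q.r y₁) := by
      rw [mem_PS_iff hr]
      constructor
      · rw [mem_ball_zero_iff, Pi.norm_single]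
        simp only [Complex.norm_real, Real.norm_eq_abs]
        rw [abs_of_pos (by positivity)]
        linarith
      · rw [Pi.single_eq_same]
        simp [hr.ne']
    obtain ⟨p, _⟩ := Crest.Agent.R271.Bd741.exists_pt hinjA q hq ((X.Q.s y₁ _).comp j)
      (hne y₁ _ hmem)
    exact ⟨p⟩
  have hex : ∀ (y : X.E) (ζ : Cn (d + 1)), ∃ p : Pt R.MK.B, ζ ∈ PS d (X.Q.r y) →
      ∀ (b : R.MK.B) (u v : V.D.A),
      algebraMap R.MK.B L b * algebraMap V.D.A L v = algebraMap V.D.A L u →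
      p b * X.Q.s y ζ (j v) = X.Q.s y ζ (j u) := by
    intro y ζ
    by_cases hζ : ζ ∈ PS d (X.Q.r y)
    · obtain ⟨p, hp⟩ := Crest.Agent.R271.Bd741.exists_pt hinjA q hq ((X.Q.s y ζ).comp j)
        (hne y ζ hζ)
      exact ⟨p, fun _ => hp⟩
    · obtain ⟨p⟩ := hpt
      exact ⟨p, fun h' => absurd h' hζ⟩
  choose s hs using hex
  refine ⟨⟨X, q, k, uq, hquq, hXj uq (by rw [hSA]; exact Finset.mem_insert_self _ _), hq, s, hs,
    fun f hf => ?_⟩, hXh, fun s hs => ?_, fun s hs => hXS (Finset.mem_union_right _ hs)⟩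
  · obtain ⟨h1, h2, h3⟩ := hord f hf
    refine ⟨ee f, uu f, vv f, h1, h2, h3, hXj _ ?_, hXj _ ?_⟩
    · rw [hSA]
      exact Finset.mem_insert_of_mem (Finset.mem_union_left _ (Finset.mem_union_left _
        (Finset.mem_image_of_mem _ hf)))
    · rw [hSA]
      exact Finset.mem_insert_of_mem (Finset.mem_union_left _ (Finset.mem_union_right _
        (Finset.mem_image_of_mem _ hf)))
  · apply hXj
    rw [hSA]
    exact Finset.mem_insert_of_mem (Finset.mem_union_right _ hs)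

/-! ### properties of the lifts -/

namespace LB

variable {R : RMdl T L (d + 1) a} {V : VData (d + 1) a T L} {Lc : Type}
    [Field Lc] [Algebra ℂ Lc] [Algebra T Lc] {D : DivModel (d + 1) Lc} {j : V.D.A →ₐ[ℂ] D.A}
    {F : Finset Lc} {FL : Finset L} (P : LB R V D j F FL) {c : Fin a → ℂ} (hM : MS V D j c)

/-- the point of `Hom(V.D.A, ℂ)` -/
def pt (y : P.bd.E) (ζ : Cn (d + 1)) : V.D.A →ₐ[ℂ] ℂ := (P.bd.Q.s y ζ).comp j


include hM in
lemma q_ne {y : P.bd.E} {ζ : Cn (d + 1)} (hζ : ζ ∈ PS d (P.bd.Q.r y)) : P.pt y ζ P.q ≠ 0 := by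
  rw [mem_PS_iff (P.bd.Q.r_pos y)] at hζ
  rw [P.q_eq, map_mul, map_pow]
  refine mul_ne_zero (pow_ne_zero _ ?_) ?_
  · change P.bd.Q.s y ζ (j V.D.t) ≠ 0
    rw [← hM.t_eq, P.bd.Q.s_t hM.h0 hζ.1]
    exact hζ.2
  · exact P.bd.Q.ne P.hu y hζ.1

include hM in
/-- the values of `b ∈ B_L` are the values of the rational function `b` -/
lemma isVal {y : P.bd.E} {ζ : Cn (d + 1)} (hζ : ζ ∈ PS d (P.bd.Q.r y)) (b : R.MK.B) :
    IsVal (P.pt y ζ) (algebraMap R.MK.B L b) (P.s y ζ b) := by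
  obtain ⟨m, x, h⟩ := P.q_spec b
  refine ⟨x, P.q ^ m, ?_, by rw [map_pow]; exact h, ?_⟩
  · rw [map_pow]; exact pow_ne_zero _ (P.q_ne hM hζ)
  · exact P.spec y ζ hζ b x (P.q ^ m) (by rw [map_pow]; exact h)

include hM in
/-- the point is determined by the section -/
lemma s_eq {y y' : P.bd.E} {ζ ζ' : Cn (d + 1)} (hζ : ζ ∈ PS d (P.bd.Q.r y))
    (hζ' : ζ' ∈ PS d (P.bd.Q.r y')) (h : P.bd.Q.s y ζ = P.bd.Q.s y' ζ') :
    P.s y ζ = P.s y' ζ' := by
  ext b
  have h1 := P.isVal hM hζ b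
  have h2 := P.isVal hM hζ' b
  have h3 : P.pt y ζ = P.pt y' ζ' := by unfold pt; rw [h]
  rw [h3] at h1
  exact h1.unique V.D.inj h2

include hM in
/-- **compatibility** -/
theorem compat {y : P.bd.E} {e : OpenPartialHomeomorph P.bd.E (Fin d → ℂ)}
    (he : IsCh e) (hy : y ∈ e.source) (het : e.target = ball (cp y) (P.bd.Q.r y)) {y' : P.bd.E}
    (hy' : y' ∈ e.source) {q : Cn (d + 1)} (hq : q ∈ PS d (P.bd.Q.r y'))
    (hq' : q + Fin.cons 0 (cp y' - cp y) ∈ PS d (P.bd.Q.r y)) :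
    P.s y' q = P.s y (q + Fin.cons 0 (cp y' - cp y)) :=
  P.s_eq hM hq hq' (P.bd.Q.compat hM.h0 he hy het hy' ((mem_PS_iff (P.bd.Q.r_pos y')).1 hq).1
    ((mem_PS_iff (P.bd.Q.r_pos y)).1 hq').1)

include hM in
/-- regular functions are holomorphic in the charts -/
lemma anal (y : P.bd.E) (b : R.MK.B) :
    AnalyticOnNhd ℂ (fun ζ => P.s y ζ b) (PS d (P.bd.Q.r y)) := by
  intro ζ hζ
  obtain ⟨m, x, h⟩ := P.q_spec b
  have h1 : (fun ζ => P.s y ζ b) =ᶠ[𝓝 ζ]
      fun ζ => P.bd.Q.s y ζ (j x) / (P.bd.Q.s y ζ (j P.q)) ^ m := by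
    filter_upwards [(isOpen_PS (P.bd.Q.r y)).mem_nhds hζ] with ζ' hζ'
    have h2 := P.spec y ζ' hζ' b x (P.q ^ m) (by rw [map_pow]; exact h)
    have h3 : (P.bd.Q.s y ζ' (j P.q)) ^ m ≠ 0 := pow_ne_zero _ (P.q_ne hM hζ')
    rw [eq_div_iff h3, ← h2, map_pow, map_pow]
  rw [analyticAt_congr h1]
  have hζb := ((mem_PS_iff (P.bd.Q.r_pos y)).1 hζ).1
  exact (P.bd.Q.anal y (j x) ζ hζb).div ((P.bd.Q.anal y (j P.q) ζ hζb).pow m)
    (pow_ne_zero _ (P.q_ne hM hζ))

include hM in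
lemma continuousOn (y : P.bd.E) : ContinuousOn (P.s y) (PS d (P.bd.Q.r y)) := by
  rw [continuousOn_iff_ev]
  intro b ζ hζ
  exact (P.anal hM y b ζ hζ).continuousAt.continuousWithinAt

include hM in
lemma differentiableOn (y : P.bd.E) :
    DifferentiableOn ℂ (fun q => (cp (P.s y q) : Fin (d + 1 + a) → ℂ)) (PS d (P.bd.Q.r y)) := by
  intro ζ hζ
  have h1 : AnalyticAt ℂ (fun q => (cp (P.s y q) : Fin (d + 1 + a) → ℂ)) ζ :=
    analyticAt_pi_iff.2 fun i => P.anal hM y (R.MK.z i) ζ hζ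
  exact h1.differentiableAt.differentiableWithinAt

omit [IsScalarTower ℂ T L] in
/-- relations of an element of `T` over `V.D.A` hold in `Lc` -/
lemma rel_Lc (b : T) (x v : V.D.A) (hM : MS V D j c)
    (h : algebraMap T L b * algebraMap V.D.A L v = algebraMap V.D.A L x) :
    algebraMap T Lc b * algebraMap D.A Lc (j v) = algebraMap D.A Lc (j x) := by
  obtain ⟨β, γ, hγ, hb⟩ := IsFractionRing.div_surjective (A := V.DL.A) b
  have hγ0 : algebraMap V.DL.A T γ ≠ 0 := by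
    intro h0
    have := (IsFractionRing.injective V.DL.A T) (h0.trans (map_zero _).symm)
    exact nonZeroDivisors.ne_zero hγ this
  have hb' : b * algebraMap V.DL.A T γ = algebraMap V.DL.A T β := by
    rw [← hb, div_mul_cancel₀ _ hγ0]
  have h1 : V.ι β * v = V.ι γ * x := by
    apply V.D.inj
    rw [map_mul, map_mul, V.ι_K, V.ι_K, ← hb', ← h, map_mul]
    ring
  have h2 := congrArg (fun x => algebraMap D.A Lc (j x)) h1
  simp only [map_mul, hM.base] at h2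
  rw [← hb', map_mul] at h2
  have hγ1 : algebraMap T Lc (algebraMap V.DL.A T γ) ≠ 0 := by
    rwa [Ne, map_eq_zero]
  apply mul_left_cancel₀ hγ1
  rw [← h2]
  ring

include hM in
/-- the lifts lie over the charts of `M_T` -/
theorem q_s {y : P.bd.E} {ζ : Cn (d + 1)} (hζ : ζ ∈ PS d (P.bd.Q.r y)) :
    R.q (P.s y ζ) = P.bd.P.σ y ζ := by
  ext b
  obtain ⟨m, x, h⟩ := P.q_spec (R.incl b)
  have h0 : algebraMap R.MK.B L (R.incl b) * algebraMap V.D.A L (P.q ^ m) =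
      algebraMap V.D.A L x := by rw [map_pow]; exact h
  have h1 := P.spec y ζ hζ (R.incl b) x (P.q ^ m) h0
  have h2 : algebraMap R.ML.B Lc b * algebraMap D.A Lc (j (P.q ^ m)) =
      algebraMap D.A Lc (j x) := rel_Lc (b : T) x (P.q ^ m) hM h0
  have h3 := P.bd.P.spec y ζ hζ b (j x) (j (P.q ^ m)) h2
  have h4 : P.bd.Q.s y ζ (j (P.q ^ m)) ≠ 0 := by
    rw [map_pow, map_pow]
    exact pow_ne_zero _ (P.q_ne hM hζ)
  apply mul_right_cancel₀ h4
  rw [h3, ← h1]
  rfl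

include hM in
/-- **polynomial bounds** of the values of `b ∈ B_L` -/
theorem bound (b : R.MK.B) : ∃ (C : ℝ) (m k : ℕ), 0 < C ∧ ∀ y,
    ∀ ζ ∈ PS d (P.bd.Q.r y), ‖P.s y ζ b‖ * ‖ζ 0‖ ^ m * rr P.bd.X.M y ^ k ≤ C := by
  obtain ⟨m, x, h⟩ := P.q_spec b
  obtain ⟨C, k, hC, h1⟩ := P.bd.Q.up' (j x)
  obtain ⟨C', k', hC', h2⟩ := P.bd.Q.low_inv P.hu
  refine ⟨C * C' ^ m, P.k * m, k + k' * m, by positivity, fun y ζ hζ => ?_⟩
  have hζb := ((mem_PS_iff (P.bd.Q.r_pos y)).1 hζ).1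
  have h3 := P.spec y ζ hζ b x (P.q ^ m) (by rw [map_pow]; exact h)
  rw [map_pow, map_pow, P.q_eq, map_mul, map_pow, map_mul, map_pow, ← hM.t_eq,
    P.bd.Q.s_t hM.h0 hζb] at h3
  have hu := P.bd.Q.ne P.hu y hζb
  have hu' : 0 < ‖P.bd.Q.s y ζ (j P.u)‖ := norm_pos_iff.2 hu
  have h4 : ‖P.s y ζ b‖ * ‖ζ 0‖ ^ (P.k * m) =
      ‖P.bd.Q.s y ζ (j x)‖ * (‖P.bd.Q.s y ζ (j P.u)‖⁻¹) ^ m := by
    rw [← h3, norm_mul, norm_pow, norm_mul, norm_pow, mul_pow, ← pow_mul, inv_pow]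
    have h5 : ‖P.bd.Q.s y ζ (j P.u)‖ ^ m ≠ 0 := pow_ne_zero _ hu'.ne'
    field_simp
  rw [h4]
  have h5 : (‖P.bd.Q.s y ζ (j P.u)‖⁻¹) ^ m * rr P.bd.X.M y ^ (k' * m) ≤ C' ^ m := by
    rw [pow_mul, ← mul_pow]
    exact pow_le_pow_left₀ (mul_nonneg (by positivity) (pow_nonneg (rr_pos P.bd.X.M y).le _))
      (h2 y ζ hζb) m
  exact mul_bound (by positivity) (rr_pos P.bd.X.M y).le hC.le (h1 y ζ hζb) h5

include hM in
theorem bound_PS (b : R.MK.B) : ∃ (C : ℝ) (m k : ℕ), 0 < C ∧ ∀ y,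
    ∀ ζ ∈ PS d (P.bd.Q.r y), ‖P.s y ζ b‖ ≤ C * (1 / ‖ζ 0‖) ^ m * (1 / P.bd.Q.r y) ^ k := by
  obtain ⟨C, m, k, hC, h⟩ := P.bound hM b
  refine ⟨C, m, k, hC, fun y ζ hζ => ?_⟩
  have hζ0 : 0 < ‖ζ 0‖ := norm_pos_iff.2 hζ.1
  have h1 := P.bd.Q.le_of_mul_rr y (by positivity) (h y ζ hζ)
  rw [one_div ‖ζ 0‖, inv_pow, mul_right_comm, ← div_eq_mul_inv, le_div_iff₀ (by positivity)]
  exact h1

lemma one_le_inv_r (y : P.bd.E) : 1 ≤ 1 / P.bd.Q.r y := by
  rw [le_div_iff₀ (P.bd.Q.r_pos y), one_mul]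
  exact P.bd.Q.r_le_one y

lemma norm_ζ0 {y : P.bd.E} {ζ : Cn (d + 1)} (hζ : ζ ∈ PS d (P.bd.Q.r y)) :
    0 < ‖ζ 0‖ ∧ ‖ζ 0‖ < 1 ∧ 1 ≤ 1 / ‖ζ 0‖ := by
  have h0 : 0 < ‖ζ 0‖ := norm_pos_iff.2 hζ.1
  have h1 : ‖ζ 0‖ < 1 := (hζ.2 0).trans_le (P.bd.Q.r_le_one y)
  exact ⟨h0, h1, by rw [le_div_iff₀ h0]; linarith⟩

include hM in
/-- logarithmic bounds on the whole punctured polydisc -/
theorem log_bound (b : R.MK.B) : ∃ A : ℝ, 1 ≤ A ∧ ∀ y, ∀ ζ ∈ PS d (P.bd.Q.r y),
    Real.log (1 + ‖P.s y ζ b‖) ≤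
      A * (1 + Real.log (1 / P.bd.Q.r y) + Real.log (1 / ‖ζ 0‖)) := by
  obtain ⟨C, m, k, hC, h⟩ := P.bound_PS hM b
  have hlC : 0 ≤ Real.log (1 + C) := Real.log_nonneg (by linarith)
  have hm : (0 : ℝ) ≤ m := Nat.cast_nonneg m
  have hk : (0 : ℝ) ≤ k := Nat.cast_nonneg k
  refine ⟨1 + Real.log (1 + C) + m + k, by linarith, fun y ζ hζ => ?_⟩
  obtain ⟨e1, e2, e3⟩ := P.norm_ζ0 hζ
  have e4 := P.one_le_inv_r y
  set x := 1 / ‖ζ 0‖ with hx
  set ρ := 1 / P.bd.Q.r y with hρ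
  have hx1 : 1 ≤ x ^ m := one_le_pow₀ e3
  have hρ1 : 1 ≤ ρ ^ k := one_le_pow₀ e4
  have h1 : 1 + ‖P.s y ζ b‖ ≤ (1 + C) * (x ^ m * ρ ^ k) := by
    have h2 := h y ζ hζ
    have h3 : 1 ≤ x ^ m * ρ ^ k := one_le_mul_of_one_le_of_one_le hx1 hρ1
    nlinarith
  have hlx : 0 ≤ Real.log x := Real.log_nonneg e3
  have hlρ : 0 ≤ Real.log ρ := Real.log_nonneg e4
  calc Real.log (1 + ‖P.s y ζ b‖) ≤ Real.log ((1 + C) * (x ^ m * ρ ^ k)) :=
        Real.log_le_log (by positivity) h1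
    _ = Real.log (1 + C) + (m * Real.log x + k * Real.log ρ) := by
        rw [Real.log_mul (by positivity) (by positivity), Real.log_mul (by positivity)
          (by positivity), Real.log_pow, Real.log_pow]
    _ ≤ _ := by nlinarith [mul_nonneg hlC hlx, mul_nonneg hlC hlρ, mul_nonneg hm hlρ,
        mul_nonneg hk hlx]

include hM in
/-- a good element of `B_L` is `q₀^e` times a zero free function on the full polydisc -/
theorem unit (b : R.MK.B) (hb : (b : L) ∈ FL) :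
    ∃ (e : ℤ) (A : ℝ) (G : P.bd.E → Cn (d + 1) → ℂ), 0 ≤ A ∧ ∀ y,
      DifferentiableOn ℂ (G y) (ball 0 (P.bd.Q.r y)) ∧
      (∀ q ∈ ball (0 : Cn (d + 1)) (P.bd.Q.r y), G y q ≠ 0 ∧
        |Real.log ‖G y q‖| ≤ A * (1 + Real.log (1 / P.bd.Q.r y))) ∧
      ∀ q ∈ PS d (P.bd.Q.r y), P.s y q b = q 0 ^ e * G y q := by
  obtain ⟨e, u, v, hu, hv, huv, hju, hjv⟩ := P.good (b : L) hb
  have htc : algebraMap D.A Lc D.t ≠ 0 := D.tK_ne
  have hv0 : algebraMap D.A Lc (j v) ≠ 0 := by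
    intro h0
    have h1 := D.inj (h0.trans (map_zero _).symm)
    obtain ⟨y⟩ : Nonempty P.bd.X.M.Pts := inferInstance
    have h2 := P.bd.Q.ne hjv y (mem_ball_self (P.bd.Q.r_pos y))
    rw [h1, map_zero] at h2
    exact h2 rfl
  set f : Lc := algebraMap D.A Lc D.t ^ e * algebraMap D.A Lc (j u) / algebraMap D.A Lc (j v)
    with hf
  have hf' : f * algebraMap D.A Lc (j v) =
      algebraMap D.A Lc D.t ^ e * algebraMap D.A Lc (j u) := by
    rw [hf, div_mul_cancel₀ _ hv0]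
  obtain ⟨G, hG⟩ := exists_QGood P.bd.Q hju hjv hf'
  obtain ⟨C, k, hC, hb1⟩ := hG.bound
  have hlC := Real.log_nonneg hC
  have hk : (0 : ℝ) ≤ k := Nat.cast_nonneg k
  refine ⟨e, Real.log C + k, G, by linarith, fun y => ⟨fun ζ hζ =>
    (hG.anal y ζ hζ).differentiableAt.differentiableWithinAt, fun ζ hζ => ⟨hG.ne hζ, ?_⟩,
    fun ζ hζ => ?_⟩⟩
  · obtain ⟨e1, e2⟩ := hb1 y ζ hζ
    have hr := P.bd.Q.r_pos y
    have hr1 := P.bd.Q.r_le_one y
    have hG0 : 0 < ‖G y ζ‖ := norm_pos_iff.2 (hG.ne hζ)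
    rw [abs_le]
    constructor
    · have h3 : ‖G y ζ‖⁻¹ ≤ C * (1 / P.bd.Q.r y) ^ k := by
        have h4 := inv_anti₀ (by positivity) e1
        refine h4.trans (le_of_eq ?_)
        rw [mul_inv, inv_inv, one_div, inv_pow]
      have h4 := log_le_of_le (inv_pos.2 hG0) hC hr hr1 h3
      rw [Real.log_inv] at h4
      linarith
    · exact log_le_of_le hG0 hC hr hr1 e2
  · have h1 := (mem_PS_iff (P.bd.Q.r_pos y)).1 hζ
    have h2 := hG.isVal hM.h0 h1.1 h1.2
    have h3 : IsVal (P.bd.Q.s y ζ) f (P.s y ζ b) := by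
      have hst : P.bd.Q.s y ζ (j V.D.t) = ζ 0 := by
        rw [← hM.t_eq]
        exact P.bd.Q.s_t hM.h0 h1.1
      have htL : algebraMap V.D.A L V.D.t ≠ 0 := V.D.tK_ne
      obtain ⟨n, hn | hn⟩ := Int.eq_nat_or_neg e
      · refine ⟨j (V.D.t ^ n * u), j v, P.bd.Q.ne hjv y h1.1, ?_, ?_⟩
        · rw [hf', hn, zpow_natCast, map_mul, map_mul, map_pow, map_pow, hM.t_eq]
        · refine P.spec y ζ hζ b _ v ?_
          rw [map_mul, map_pow]
          have h5 := huv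
          rw [hn, zpow_natCast] at h5
          exact h5
      · refine ⟨j u, j (V.D.t ^ n * v), ?_, ?_, ?_⟩
        · rw [map_mul, map_pow, map_mul, map_pow, hst]
          exact mul_ne_zero (pow_ne_zero _ h1.2) (P.bd.Q.ne hjv y h1.1)
        · have h5 := hf'
          rw [hn, zpow_neg, zpow_natCast] at h5
          rw [map_mul, map_pow, map_mul, map_pow, ← hM.t_eq, mul_left_comm, h5]
          field_simp
        · refine P.spec y ζ hζ b u _ ?_
          have h5 := huv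
          rw [hn, zpow_neg, zpow_natCast] at h5
          rw [map_mul, map_pow, mul_left_comm]
          change algebraMap V.D.A L V.D.t ^ n * ((b : L) * algebraMap V.D.A L v) = _
          rw [h5]
          field_simp
    exact h3.unique D.inj h2

end LB

end Crest.Agent.R276.Ld_828
end
end

-- ▼ part R276/LdB_828
section

/-!
# R276, leaf DESC-LD (helper828): the structure `LftDefs_327.LD`

* `growth_log` : two sided polynomial growth of a positive function on a model bounds `|log|` by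
  `∑ log (1 + |b|)`;
* `LB.psi_le`, `LB.exists_ld`.
-/

set_option autoImplicit false

noncomputable section

open Set Filter Topology Metric MeasureTheory
open scoped ENNReal

namespace Crest.Agent.R276.Ld_828

open Crest.Agent.R271.Defs710 Crest.Agent.R271.Rd692 Crest.Agent.R271.Alg255
open Crest.Agent.R271.Bd741 Crest.Agent.R271.Ho51
open Crest.Agent.R276.BC_986 Crest.Agent.R276.Mod1_987 Crest.Agent.R276.CntDefs_857
open Crest.Agent.R276.BR_590 (VData)
open Crest.Agent.R276.Bcq_828 Crest.Agent.R276.Ipc735 Crest.Agent.R276.LftDefs_327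

/-! ### growth on a model -/

section growth

variable {K : Type} [Field K] [Algebra ℂ K] {n : ℕ} (M : Mdl K n)

lemma log_one_add_sq_le {ι : Type*} (s : Finset ι) (f : ι → ℝ) (hf : ∀ i, 0 ≤ f i) :
    Real.log (1 + ∑ i ∈ s, f i ^ 2) ≤ 2 * ∑ i ∈ s, Real.log (1 + f i) := by
  classical
  have h1 : 1 + ∑ i ∈ s, f i ^ 2 ≤ ∏ i ∈ s, (1 + f i) ^ 2 := by
    induction s using Finset.induction_on with
    | empty => simp
    | insert a s ha ih =>
      rw [Finset.sum_insert ha, Finset.prod_insert ha]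
      have h2 : 1 ≤ ∏ i ∈ s, (1 + f i) ^ 2 :=
        le_trans (by have : 0 ≤ ∑ i ∈ s, f i ^ 2 := Finset.sum_nonneg fun i _ => sq_nonneg _
                     linarith) ih
      have h3 := hf a
      nlinarith [sq_nonneg (f a), mul_nonneg h3 (by linarith : 0 ≤ ∏ i ∈ s, (1 + f i) ^ 2),
        mul_nonneg (mul_nonneg h3 h3) (by linarith : 0 ≤ ∏ i ∈ s, (1 + f i) ^ 2 - 1)]
  have h2 : 0 ≤ ∑ i ∈ s, f i ^ 2 := Finset.sum_nonneg fun i _ => sq_nonneg _
  calc Real.log (1 + ∑ i ∈ s, f i ^ 2) ≤ Real.log (∏ i ∈ s, (1 + f i) ^ 2) :=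
        Real.log_le_log (by linarith) h1
    _ = ∑ i ∈ s, Real.log ((1 + f i) ^ 2) := by
        rw [Real.log_prod]
        intro i _
        have := hf i
        positivity
    _ = 2 * ∑ i ∈ s, Real.log (1 + f i) := by
        rw [Finset.mul_sum]
        refine Finset.sum_congr rfl fun i _ => ?_
        rw [Real.log_pow]
        norm_num



end growth

/-! ### `LD` -/

namespace LB

variable {d a : ℕ} {T L : Type} [Field T] [Field L] [Algebra ℂ T] [Algebra ℂ L] [Algebra T L]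
  [IsScalarTower ℂ T L] {R : RMdl T L (d + 1) a} {V : VData (d + 1) a T L} {Lc : Type}
  [Field Lc] [Algebra ℂ Lc] [Algebra T Lc] {D : DivModel (d + 1) Lc} {j : V.D.A →ₐ[ℂ] D.A}
  {F : Finset Lc} {FL : Finset L} (P : LB R V D j F FL) {c : Fin a → ℂ} (hM : MS V D j c)

include hM in
/-- growth of functions on `M_L` along the charts -/
theorem growth_le (φ : R.MK.Pts → ℝ) (hφ : ∃ (G : Finset R.MK.B) (C : ℝ), 0 ≤ C ∧
    ∀ x, |φ x| ≤ C * (1 + ∑ b ∈ G, Real.log (1 + ‖x b‖))) :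
    ∃ A : ℝ, 1 ≤ A ∧ ∀ y, ∀ ζ ∈ PS d (P.bd.Q.r y),
      |φ (P.s y ζ)| ≤ A * (1 + Real.log (1 / P.bd.Q.r y) + Real.log (1 / ‖ζ 0‖)) := by
  obtain ⟨G, C, hC, h⟩ := hφ
  choose A hA1 hA using P.log_bound hM
  have hsum : 0 ≤ ∑ b ∈ G, A b := Finset.sum_nonneg fun b _ => zero_le_one.trans (hA1 b)
  refine ⟨1 + C * (1 + ∑ b ∈ G, A b), by nlinarith [mul_nonneg hC hsum], fun y ζ hζ => ?_⟩
  obtain ⟨e1, e2, e3⟩ := P.norm_ζ0 hζ
  have e4 := P.one_le_inv_r y
  have hl1 : 0 ≤ Real.log (1 / ‖ζ 0‖) := Real.log_nonneg e3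
  have hl2 : 0 ≤ Real.log (1 / P.bd.Q.r y) := Real.log_nonneg e4
  set X := 1 + Real.log (1 / P.bd.Q.r y) + Real.log (1 / ‖ζ 0‖) with hX
  have hX1 : 1 ≤ X := by linarith
  have h1 : ∑ b ∈ G, Real.log (1 + ‖P.s y ζ b‖) ≤ (∑ b ∈ G, A b) * X := by
    rw [Finset.sum_mul]
    exact Finset.sum_le_sum fun b _ => hA b y ζ hζ
  calc |φ (P.s y ζ)| ≤ C * (1 + ∑ b ∈ G, Real.log (1 + ‖P.s y ζ b‖)) := h _
    _ ≤ C * (X + (∑ b ∈ G, A b) * X) := by gcongr
    _ ≤ (1 + C * (1 + ∑ b ∈ G, A b)) * X := by nlinarith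

include hM in
/-- **the structure `LD` of 327** -/
theorem exists_ld {N w : ℕ} (V' : VHS (d + 1 + a) R.MK.Pts N w) (om : R.MK.Pts → Fin N → ℂ)
    (hψ : ∃ (G : Finset R.MK.B) (C : ℝ), 0 ≤ C ∧
      ∀ x, |VLevi_327.psi V' om x| ≤ C * (1 + ∑ b ∈ G, Real.log (1 + ‖x b‖)))
    (u : R.MK.B) (hu : (u : L) ∈ FL) {μ : Measure R.ML.Pts} (hμ : IsLeb μ) :
    ∃ l : LD (P.bd.dchart (fun _ => rfl) R.ML.ft hμ) V' om (fun x => x u) R.q,
      l.s = P.s := by
  obtain ⟨A1, hA1, h1⟩ := P.growth_le hM _ hψ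
  obtain ⟨ku, A2, G, hA2, h2⟩ := P.unit hM u hu
  obtain ⟨C, k, hC, h3⟩ := P.bd.goodJ.bound
  have hlC := Real.log_nonneg hC
  have hk : (0 : ℝ) ≤ k := Nat.cast_nonneg k
  refine ⟨{ s := P.s
            cont := fun y => P.continuousOn hM y
            hol := fun y => P.differentiableOn hM y
            fs := fun y q hq => P.q_s hM hq
            compat := fun y e he hy het y' hy' q hq hq' => P.compat hM he hy het hy' hq hq'
            C := A1 + A2 + (Real.log C + k)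
            hC := by linarith
            psi_le := fun y q hq => ?_
            ku := ku
            unit := fun y => ⟨G y, (h2 y).1, fun q hq => ⟨((h2 y).2.1 q hq).1, ?_⟩, (h2 y).2.2⟩
            kJ := P.bd.cJ
            jac := fun y => ⟨P.bd.GJ y, fun ζ hζ =>
              (P.bd.goodJ.anal y ζ hζ).differentiableAt.differentiableWithinAt,
              fun q hq => ⟨P.bd.goodJ.ne hq, ?_⟩, fun q hq => P.bd.dchart_J _ _ hμ hq⟩ }, rfl⟩
  · obtain ⟨e1, e2, e3⟩ := P.norm_ζ0 hq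
    have e4 := P.one_le_inv_r y
    have hl1 : 0 ≤ Real.log (1 / ‖q 0‖) := Real.log_nonneg e3
    have hl2 : 0 ≤ Real.log (1 / P.bd.Q.r y) := Real.log_nonneg e4
    refine (h1 y q hq).trans ?_
    refine mul_le_mul_of_nonneg_right (by linarith) (by linarith)
  · have e4 := P.one_le_inv_r y
    have hl2 : 0 ≤ Real.log (1 / P.bd.Q.r y) := Real.log_nonneg e4
    refine ((h2 y).2.1 q hq).2.trans ?_
    exact mul_le_mul_of_nonneg_right (by linarith) (by linarith)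
  · have e4 := P.one_le_inv_r y
    have hl2 : 0 ≤ Real.log (1 / P.bd.Q.r y) := Real.log_nonneg e4
    have hr := P.bd.Q.r_pos y
    have hr1 := P.bd.Q.r_le_one y
    obtain ⟨e1, e2⟩ := h3 y q hq
    have hG0 : 0 < ‖P.bd.GJ y q‖ := norm_pos_iff.2 (P.bd.goodJ.ne hq)
    have key : |Real.log ‖P.bd.GJ y q‖| ≤ (Real.log C + k) * (1 + Real.log (1 / P.bd.Q.r y)) := by
      rw [abs_le]
      constructor
      · have h3 : ‖P.bd.GJ y q‖⁻¹ ≤ C * (1 / P.bd.Q.r y) ^ k := by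
          have h4 := inv_anti₀ (by positivity) e1
          refine h4.trans (le_of_eq ?_)
          rw [mul_inv, inv_inv, one_div, inv_pow]
        have h4 := log_le_of_le (inv_pos.2 hG0) hC hr hr1 h3
        rw [Real.log_inv] at h4
        linarith
      · exact log_le_of_le hG0 hC hr hr1 e2
    refine key.trans ?_
    exact mul_le_mul_of_nonneg_right (by linarith) (by linarith)

end LB

end Crest.Agent.R276.Ld_828
end
end

-- ▼ part R276/LdC_828
section

/-!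
# R276, leaf DESC-LD (helper828): growth of the coordinates of `M_T` in the boundary charts

`exists_grow` : `C4Loc_327.Grow` for the charts of `BD` (in particular of `LB.bd`).
-/

set_option autoImplicit false

noncomputable section

open Set Filter Topology Metric MeasureTheory

namespace Crest.Agent.R276.Ld_828

open Crest.Agent.R271.Defs710 Crest.Agent.R271.Rd692 Crest.Agent.R271.Alg255
open Crest.Agent.R271.Bd741 Crest.Agent.R271.Ho51
open Crest.Agent.R276.BC_986 Crest.Agent.R276.Mod1_987 Crest.Agent.R276.CntDefs_857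
open Crest.Agent.R276.Bcq_828

lemma PS_mono {d : ℕ} {r r' : ℝ} (h : r ≤ r') : PS d r ⊆ PS d r' := fun _ hq =>
  ⟨hq.1, fun i => (hq.2 i).trans_le h⟩

/-- the coordinates of `M_T` have at most poles, of bounded order, along the divisor -/
theorem exists_grow {d : ℕ} {T : Type} [Field T] [Algebra ℂ T] {M : Mdl T (d + 1)} {Lc : Type}
    [Field Lc] [Algebra ℂ Lc] [Algebra T Lc] {D : DivModel (d + 1) Lc} {F : Finset Lc}
    (X : BD D M.B M.z F) {μ : Measure M.Pts} (hμ : IsLeb μ) :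
    ∃ A : ℕ, C4Loc_327.Grow (X.dchart (fun _ => rfl) M.ft hμ) A := by
  choose C m k hC h using fun i : Fin (d + 1) => X.P.bound_PS X.h0 (M.z i)
  refine ⟨∑ i, m i, fun y => ⟨∑ i, C i * (1 / X.Q.r y) ^ k i, fun q hq i => ?_⟩⟩
  have hr := X.Q.r_pos y
  have hr1 := X.Q.r_le_one y
  have hq' : q ∈ PS d (X.Q.r y) := PS_mono (by
    change X.Q.r y / 2 ≤ X.Q.r y
    linarith) hq
  have h0 : 0 < ‖q 0‖ := norm_pos_iff.2 hq'.1
  have h1 : ‖q 0‖ ≤ 1 := ((hq'.2 0).trans_le hr1).le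
  have h2 := h i y q hq'
  have h3 : ‖q 0‖ ^ (∑ i, m i) ≤ ‖q 0‖ ^ m i :=
    pow_le_pow_of_le_one h0.le h1 (Finset.single_le_sum (fun _ _ => Nat.zero_le _)
      (Finset.mem_univ i))
  have h4 : (1 / ‖q 0‖) ^ m i * ‖q 0‖ ^ m i = 1 := by
    rw [← mul_pow, one_div, inv_mul_cancel₀ h0.ne', one_pow]
  have h5 : ∀ i, 0 ≤ C i * (1 / X.Q.r y) ^ k i := fun i => by
    have := hC i
    positivity
  calc ‖(cp ((X.dchart (fun _ => rfl) M.ft hμ).σ y q) : Cn (d + 1)) i‖ * ‖q 0‖ ^ (∑ i, m i)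
      = ‖X.P.σ y q (M.z i)‖ * ‖q 0‖ ^ (∑ i, m i) := rfl
    _ ≤ (C i * (1 / ‖q 0‖) ^ m i * (1 / X.Q.r y) ^ k i) * ‖q 0‖ ^ m i := by
        have := hC i
        gcongr
    _ = C i * (1 / X.Q.r y) ^ k i * ((1 / ‖q 0‖) ^ m i * ‖q 0‖ ^ m i) := by ring
    _ = C i * (1 / X.Q.r y) ^ k i := by rw [h4, mul_one]
    _ ≤ ∑ i, C i * (1 / X.Q.r y) ^ k i :=
        Finset.single_le_sum (f := fun i => C i * (1 / X.Q.r y) ^ k i) (fun i _ => h5 i)
          (Finset.mem_univ i)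

end Crest.Agent.R276.Ld_828
end
end

-- ▼ part R276/LdPack_828

/-!
# R276, leaf DESC-LD (helper828): the package for one divisor

For a divisorial valuation ring `R` of `K` with `R ∩ T ≠ T`: boundary charts of `M_T` with lifts to
`M_L` (`LB`), the structure `LD` of 327, growth of the coordinates.
-/

set_option autoImplicit false

noncomputable section

open Set Filter Topology Metric MeasureTheory

namespace Crest.Agent.R276.Ld_828

open Crest.Agent.R271.Defs710 Crest.Agent.R271.Rd692 Crest.Agent.R271.Alg255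
open Crest.Agent.R271.Bd741 Crest.Agent.R271.Ho51
open Crest.Agent.R276.BC_986 Crest.Agent.R276.Mod1_987 Crest.Agent.R276.CntDefs_857
open Crest.Agent.R276.BR_590 (VData)
open Crest.Agent.R276.Bcq_828 Crest.Agent.R276.Ipc735 Crest.Agent.R276.LftDefs_327
open Crest.Agent.R276.SkelDefs_220 (Rel)
open Crest.Agent.R276.FKDefs_779 (IsDiv)
open Crest.Agent.R276.CInd_870 (rm)

/-- the logarithmic growth of 450 in the form used for boundary charts -/
theorem of_LG {K : Type} [Field K] [Algebra ℂ K] {n : ℕ} (M : Mdl K n) {g : M.Pts → ℝ}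
    (h : Wd_450.LG M g) : ∃ (G : Finset M.B) (C : ℝ), 0 ≤ C ∧ ∀ y, |g y| ≤
      C * (1 + ∑ b ∈ G, Real.log (1 + ‖y b‖)) := by
  classical
  obtain ⟨C, hC, h⟩ := h
  obtain ⟨hi, hhi⟩ := M.h_unit.exists_left_inv
  set G : Finset M.B := insert hi (Finset.univ.image M.z) with hG
  refine ⟨G, C * (1 + 2 * n + 1), by positivity, fun y => ?_⟩
  have hpos : ∀ b : M.B, 0 ≤ Real.log (1 + ‖y b‖) := fun b => Real.log_nonneg (by
    have := norm_nonneg (y b); linarith)
  set s := ∑ b ∈ G, Real.log (1 + ‖y b‖) with hs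
  have hs0 : 0 ≤ s := Finset.sum_nonneg fun b _ => hpos b
  have h3 : Real.log (1 + ‖y hi‖) ≤ s :=
    Finset.single_le_sum (f := fun b => Real.log (1 + ‖y b‖)) (fun b _ => hpos b)
      (by rw [hG]; exact Finset.mem_insert_self _ _)
  have h4 : ∑ i, Real.log (1 + ‖y (M.z i)‖) ≤ n * s := by
    calc ∑ i, Real.log (1 + ‖y (M.z i)‖) ≤ ∑ _i : Fin n, s := by
          refine Finset.sum_le_sum fun i _ => ?_
          exact Finset.single_le_sum (f := fun b => Real.log (1 + ‖y b‖)) (fun b _ => hpos b)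
            (by rw [hG]; exact Finset.mem_insert_of_mem (Finset.mem_image_of_mem _
              (Finset.mem_univ i)))
      _ = n * s := by rw [Finset.sum_const, Finset.card_univ, Fintype.card_fin, nsmul_eq_mul]
  have h5 : Real.log (1 + ∑ i, ‖M.pz y i‖ ^ 2) ≤ 2 * (n * s) :=
    (log_one_add_sq_le Finset.univ (fun i => ‖M.pz y i‖) (fun i => norm_nonneg _)).trans
      (by
        have : ∑ i, Real.log (1 + ‖M.pz y i‖) = ∑ i, Real.log (1 + ‖y (M.z i)‖) := rfl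
        rw [this]
        linarith)
  set H := ‖MvPolynomial.eval (M.pz y) M.h‖ with hH
  have hH0 : 0 < H := norm_pos_iff.2 (M.eval_h_ne y)
  have hHi : ‖MvPolynomial.eval (M.pz y) M.h‖⁻¹ = ‖y hi‖ := by
    have h1 := congrArg y hhi
    rw [map_mul, map_one] at h1
    have h2 : y (az M.z M.h) = MvPolynomial.eval (M.pz y) M.h := M.apply_az' y M.h
    rw [h2] at h1
    have h3 : ‖y hi‖ * H = 1 := by rw [hH, ← norm_mul, h1, norm_one]
    rw [← hH]
    field_simp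
    linarith
  have h6 : Real.posLog ‖MvPolynomial.eval (M.pz y) M.h‖⁻¹ ≤ s := by
    rw [hHi]
    refine le_trans ?_ h3
    unfold Real.posLog
    refine max_le (hpos hi) ?_
    rcases eq_or_lt_of_le (norm_nonneg (y hi)) with h0 | h0
    · rw [← h0, Real.log_zero, add_zero, Real.log_one]
    · exact Real.log_le_log h0 (by linarith)
  have h7 : Wd_450.lg M y ≤ (2 * n + 1) * s := by
    unfold Wd_450.lg
    linarith
  have hn : (0 : ℝ) ≤ n := Nat.cast_nonneg n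
  calc |g y| ≤ C * (1 + Wd_450.lg M y) := h y
    _ ≤ C * (1 + (2 * n + 1) * s) := by gcongr
    _ ≤ C * (1 + 2 * n + 1) * (1 + s) := by
        rw [mul_assoc]
        refine mul_le_mul_of_nonneg_left ?_ hC
        nlinarith [mul_nonneg hn hs0]

section tower

variable {T L K : Type} [Field T] [Field L] [Field K] [Algebra ℂ T] [Algebra ℂ L] [Algebra ℂ K]
  [Algebra T L] [Algebra L K] [IsScalarTower ℂ T L] [IsScalarTower ℂ L K] {d a r : ℕ}
  {MT : Mdl T (d + 1)} {ML : Mdl L (d + 1 + a)} {MK : Mdl K (d + 1 + a + r)}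

/-- **the package for one divisor** `R` with `R ∩ T ≠ T` -/
theorem exists_div (H₁ : Rel MT ML) (MK : Mdl K (d + 1 + a + r)) {R : ValuationSubring K}
    (hR : IsDiv ℂ (d + 1 + a + r) R) (hT : ∃ c : T, algebraMap L K (algebraMap T L c) ∉ R)
    (FL : Finset L) (hFL : ∀ f ∈ FL, f ≠ 0) :
    ∃ V : VData (d + 1) a T L, V.D.ModelOf (R.comap (algebraMap L K)) ∧
      V.DL.ModelOf ((R.comap (algebraMap L K)).comap (algebraMap T L)) ∧
      ∃ (Lc : Type) (_ : Field Lc) (_ : Algebra ℂ Lc) (_ : Algebra T Lc)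
        (_ : IsScalarTower ℂ T Lc) (D : DivModel (d + 1) Lc) (j : V.D.A →ₐ[ℂ] D.A)
        (c : Fin a → ℂ) (P : LB (rm H₁) V D j ∅ FL), MS V D j c ∧ j V.u ∈ P.bd.S := by
  obtain ⟨V, E, h1, h2, -, -⟩ := TChX_590.alg_VV MT ML MK hR hT
  obtain ⟨Lc, i1, i2, i3, i4, D, j, c, hM, h⟩ := exists_LB (rm H₁) V FL hFL {V.u}
    (fun s hs => by rw [Finset.mem_singleton] at hs; rw [hs]; exact V.u_nd)
  obtain ⟨g, hg0, hg⟩ := h ∅ (by simp) ∅ (by simp)
  obtain ⟨P, -, hP, -⟩ := hg g hg0 dvd_rfl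
  exact ⟨V, h2, h1, Lc, i1, i2, i3, i4, D, j, c, P, hM, hP _ (Finset.mem_singleton_self _)⟩

/-- `LD` of 327 and growth for a chart of the package -/
theorem exists_ld_grow (H₁ : Rel MT ML) {V : VData (d + 1) a T L} {Lc : Type} [Field Lc]
    [Algebra ℂ Lc] [Algebra T Lc] {D : DivModel (d + 1) Lc} {j : V.D.A →ₐ[ℂ] D.A}
    {F : Finset Lc} {FL : Finset L} (P : LB (rm H₁) V D j F FL) {c : Fin a → ℂ}
    (hM : MS V D j c) {N w : ℕ} (V' : VHS (d + 1 + a) ML.Pts N w) (om : ML.Pts → Fin N → ℂ)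
    (hψ : Wd_450.LG ML (VLevi_327.psi V' om)) (u : ML.B) (hu : (u : L) ∈ FL)
    {μ : Measure MT.Pts} (hμ : IsLeb μ) :
    (∃ l : LD (P.bd.dchart (fun _ => rfl) MT.ft hμ) V' om (fun x => x u) H₁.f, l.s = P.s) ∧
    ∃ A : ℕ, C4Loc_327.Grow (P.bd.dchart (fun _ => rfl) MT.ft hμ) A :=
  ⟨P.exists_ld hM V' om (of_LG ML hψ) u hu hμ, exists_grow (M := MT) P.bd hμ⟩

end tower

end Crest.Agent.R276.Ld_828
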