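import Crest.Agent.R276.R0D_858
import Crest.Agent.R276.End0A_508

-- ▼ part R276/TChJ_858
section

/-! # Row 276, helper858: the relative dictionary at a divisorial `R` (P4 of TCh). -/

set_option autoImplicit false

noncomputable section

namespace Crest.Agent.R276.TCh_858

open Crest.Agent.R276.FKDefs_779 Crest.Agent.R276.BC_986 Crest.Agent.R276.DivVal_858
open Crest.Agent.R276.End0_508 KaehlerDifferential

/-- replace one vector of a basis -/
lemma det_update {K V ι : Type*} [Field K] [AddCommGroup V] [Module K V] [Fintype ι]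
    [DecidableEq ι] (b : Module.Basis ι K V) (i : ι) (v : V) :
    b.det (Function.update b i v) = b.repr v i := by
  have h0 : Function.update (b : ι → V) i v =
      Function.update (b : ι → V) i (∑ j, b.repr v j • b j) := by rw [b.sum_repr v]
  rw [h0, AlternatingMap.map_update_sum]
  have h1 : ∀ j, b.det (Function.update (b : ι → V) i (b.repr v j • b j)) =
      if j = i then b.repr v i else 0 := by
    intro j
    rw [AlternatingMap.map_update_smul]
    by_cases hj : j = i
    · subst hj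
      rw [Function.update_eq_self, Module.Basis.det_self, smul_eq_mul, mul_one, if_pos rfl]
    · rw [if_neg hj, AlternatingMap.map_update_self _ _ (Ne.symm hj), smul_zero]
  rw [Finset.sum_congr rfl fun j _ => h1 j, Finset.sum_ite_eq' Finset.univ i (fun _ => b.repr v i),
    if_pos (Finset.mem_univ i)]

section general

variable {L K : Type} [Field L] [Field K] [Algebra L K] {r : ℕ} {R : ValuationSubring K}

/-- if the differentials of elements of `R` are `R`-combinations of the `d x_j`, then regularity is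
measured by `x`. -/
theorem regAt_iff_of_span (bK : Module.Basis (Fin r) K (Ω[K⁄L])) (x : Fin r → K)
    (hx : ∀ j, x j ∈ R)
    (hspan : ∀ y ∈ R, ∃ c : Fin r → K, (∀ j, c j ∈ R) ∧ D L K y = ∑ j, c j • D L K (x j))
    (q : ℕ) (g : K) :
    RegAt L R bK q g ↔ R.valuation g ≤ R.valuation (jac L bK x) ^ q := by
  constructor
  · rintro ⟨y, hy, h1⟩
    refine h1.trans ?_
    choose c hc hcy using fun i => hspan (y i) (hy i)
    have h2 : jac L bK y = (Matrix.of fun i j => c i j).det * jac L bK x := by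
      unfold jac
      rw [Module.Basis.det_apply, Module.Basis.det_apply, mul_comm, ← Matrix.det_transpose
        (Matrix.of fun i j => c i j), ← Matrix.det_mul]
      congr 1
      ext i j
      rw [Module.Basis.toMatrix_apply, hcy, map_sum, Finsupp.finsetSum_apply, Matrix.mul_apply]
      refine Finset.sum_congr rfl fun l _ => ?_
      rw [map_smul, Finsupp.smul_apply, smul_eq_mul, Module.Basis.toMatrix_apply,
        Matrix.transpose_apply, Matrix.of_apply, mul_comm]
    have h3 : R.valuation (Matrix.of fun i j => c i j).det ≤ 1 :=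
      (R.valuation_le_one_iff _).2 (DivModel.det_mem _ fun i j => hc i j)
    rw [h2, map_mul, mul_pow]
    exact mul_le_of_le_one_left' (pow_le_one' h3 q)
  · intro h
    exact ⟨x, hx, h⟩

end general

section models

variable {L K : Type} [Field L] [Field K] [Algebra ℂ L] [Algebra ℂ K] [Algebra L K]
variable [IsScalarTower ℂ L K] {m r : ℕ} {R : ValuationSubring K}

/-- the relative differential of an element of `R` in terms of the coordinates of a model -/
lemma D_rel_eq {n : ℕ} {D' : DivModel n K} (h : D'.ModelOf R) {f : K} (hf : f ∈ R) :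
    ∃ c : Fin n → K, (∀ j, c j ∈ R) ∧ D ℂ K f = ∑ j, c j • D ℂ K (algebraMap D'.A K (D'.w j)) ∧
      D L K f = ∑ j, c j • D L K (algebraMap D'.A K (D'.w j)) := by
  refine ⟨fun j => D'.dw.repr (D ℂ K f) j, fun j => h.repr_mem hf j, ?_, ?_⟩
  · conv_lhs => rw [← D'.dw.sum_repr (D ℂ K f)]
    refine Finset.sum_congr rfl fun j _ => ?_
    rw [D'.dw_apply]
  · have h1 : KaehlerDifferential.map ℂ L K K (D ℂ K f) = D L K f := by
      rw [KaehlerDifferential.map_D]; rfl
    rw [← h1]
    conv_lhs => rw [← D'.dw.sum_repr (D ℂ K f)]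
    rw [map_sum]
    refine Finset.sum_congr rfl fun j _ => ?_
    rw [LinearMap.map_smul, D'.dw_apply, KaehlerDifferential.map_D]
    rfl

omit [Algebra ℂ L] [Algebra ℂ K] [IsScalarTower ℂ L K] in
/-- elements of `L` have zero relative differential -/
lemma D_rel_zero (z : L) : D L K (algebraMap L K z) = 0 := Derivation.map_algebraMap _ z

/-- horizontal case: the relative differentials are spanned by the fibre coordinates -/
lemma span_H {D' : DivModel (m + r) K} (h : D'.ModelOf R) (w : Fin m → L)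
    (hw : ∀ i, algebraMap D'.A K (D'.w (Fin.castAdd r i)) = algebraMap L K (w i))
    {y : K} (hy : y ∈ R) : ∃ c : Fin r → K, (∀ j, c j ∈ R) ∧
      D L K y = ∑ j, c j • D L K (algebraMap D'.A K (D'.w (Fin.natAdd m j))) := by
  obtain ⟨c, hc, -, h2⟩ := D_rel_eq (L := L) h hy
  refine ⟨fun j => c (Fin.natAdd m j), fun j => hc _, ?_⟩
  rw [h2, Fin.sum_univ_add]
  have h3 : ∑ i : Fin m, c (Fin.castAdd r i) •
      D L K (algebraMap D'.A K (D'.w (Fin.castAdd r i))) = 0 := by
    refine Finset.sum_eq_zero fun i _ => ?_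
    rw [hw, D_rel_zero, smul_zero]
  rw [h3, zero_add]

/-- vertical case -/
lemma span_V {D' : DivModel (m + r) K} (h : D'.ModelOf R) {DL : DivModel m L}
    (hi : D'.i₀ = Fin.castAdd r DL.i₀)
    (hw : ∀ i, i ≠ DL.i₀ → algebraMap D'.A K (D'.w (Fin.castAdd r i)) =
      algebraMap L K (algebraMap DL.A L (DL.w i)))
    {e : ℕ} {u : K} (he : 0 < e) (hu : R.valuation u = 1)
    (hram : algebraMap L K (algebraMap DL.A L DL.t) = (algebraMap D'.A K D'.t) ^ e * u)
    {y : K} (hy : y ∈ R) : ∃ c : Fin r → K, (∀ j, c j ∈ R) ∧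
      D L K y = ∑ j, c j • D L K (algebraMap D'.A K (D'.w (Fin.natAdd m j))) := by
  classical
  set t : K := algebraMap D'.A K D'.t with ht
  have ht0 : t ≠ 0 := D'.tK_ne
  -- general elements
  have gen : ∀ f ∈ R, ∃ (β : K) (c : Fin r → K), β ∈ R ∧ (∀ j, c j ∈ R) ∧ D L K f =
      β • D L K t + ∑ j, c j • D L K (algebraMap D'.A K (D'.w (Fin.natAdd m j))) := by
    intro f hf
    obtain ⟨c, hc, -, h2⟩ := D_rel_eq (L := L) h hf
    refine ⟨c (Fin.castAdd r DL.i₀), fun j => c (Fin.natAdd m j), hc _, fun j => hc _, ?_⟩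
    rw [h2, Fin.sum_univ_add]
    congr 1
    rw [Finset.sum_eq_single DL.i₀]
    · rw [ht, ← hi]
      rfl
    · intro i _ hi'
      rw [hw i hi', D_rel_zero, smul_zero]
    · intro h'
      exact absurd (Finset.mem_univ _) h'
  have huR : u ∈ R := by
    rw [← R.valuation_le_one_iff, hu]
  obtain ⟨β, cu, hβ, hcu, hDu⟩ := gen u huR
  -- the relation
  have hrel : ((e : K) * u + t * β) • D L K t = -(t • ∑ j, cu j • D L K (algebraMap D'.A K
      (D'.w (Fin.natAdd m j)))) := by
    have h1 : D L K (t ^ e * u) = 0 := by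
      rw [← hram, D_rel_zero]
    obtain ⟨e', rfl⟩ : ∃ e', e = e' + 1 := ⟨e - 1, by omega⟩
    rw [Derivation.leibniz, Derivation.leibniz_pow, Nat.add_sub_cancel] at h1
    have h2 : t ^ e' • (((e' + 1 : ℕ) : K) * u) • D L K t + t ^ e' • t • D L K u = 0 := by
      rw [← h1, add_comm]
      congr 1
      · rw [smul_smul, ← pow_succ]
      · rw [← Nat.cast_smul_eq_nsmul K, smul_smul, smul_smul, smul_smul]
        congr 1
        ring
    rw [← smul_add] at h2
    have h3 : (((e' + 1 : ℕ) : K) * u) • D L K t + t • D L K u = 0 := by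
      rcases smul_eq_zero.mp h2 with h4 | h4
      · exact absurd h4 (pow_ne_zero _ ht0)
      · exact h4
    rw [hDu, smul_add, smul_smul, ← add_assoc, ← add_smul] at h3
    rw [eq_neg_iff_add_eq_zero]
    exact h3
  set d : K := (e : K) * u + t * β with hd
  have hevR : R.valuation ((e : K)) = 1 := by
    have h1 : ((e : K)) = algebraMap ℂ K (e : ℂ) := by simp
    have h2 : ((e : ℂ)) ≠ 0 := by exact_mod_cast he.ne'
    have h3 : R.valuation (algebraMap ℂ K (e : ℂ)) ≤ 1 :=
      (R.valuation_le_one_iff _).2 (modelOf_alg h _)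
    have h4 : R.valuation (algebraMap ℂ K ((e : ℂ)⁻¹)) ≤ 1 :=
      (R.valuation_le_one_iff _).2 (modelOf_alg h _)
    rw [h1]
    refine le_antisymm h3 ?_
    rw [map_inv₀, map_inv₀] at h4
    have hpos : 0 < R.valuation (algebraMap ℂ K (e : ℂ)) := by
      rw [Valuation.pos_iff]
      exact (map_ne_zero_iff _ (algebraMap ℂ K).injective).mpr h2
    exact (inv_le_one₀ hpos).mp h4
  have hdv : R.valuation d = 1 := by
    have h1 : R.valuation ((e : K) * u) = 1 := by rw [map_mul, hevR, hu, mul_one]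
    have h2 : R.valuation (t * β) < 1 := by
      rw [map_mul]
      exact mul_lt_one_of_lt_of_le h.lt ((R.valuation_le_one_iff _).2 hβ)
    rw [hd, Valuation.map_add_eq_of_lt_left]
    · exact h1
    · rw [h1]; exact h2
  have hd0 : d ≠ 0 := by
    intro h0
    rw [h0, map_zero] at hdv
    exact zero_ne_one hdv
  have hDt : D L K t = ∑ j, (-(t * cu j) / d) • D L K (algebraMap D'.A K
      (D'.w (Fin.natAdd m j))) := by
    have h1 : D L K t = d⁻¹ • (d • D L K t) := by rw [smul_smul, inv_mul_cancel₀ hd0, one_smul]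
    rw [h1, hrel, Finset.smul_sum, ← Finset.sum_neg_distrib, Finset.smul_sum]
    refine Finset.sum_congr rfl fun j _ => ?_
    rw [smul_smul, ← neg_smul, smul_smul]
    congr 1
    field_simp
  obtain ⟨β', c, hβ', hc, hDy⟩ := gen y hy
  refine ⟨fun j => β' * (-(t * cu j) / d) + c j, fun j => ?_, ?_⟩
  · have htR : t ∈ R := by
      rw [← R.valuation_le_one_iff]; exact h.lt.le
    have hdR : d⁻¹ ∈ R := by
      rw [← R.valuation_le_one_iff, map_inv₀, hdv, inv_one]
    have h1 : -(t * cu j) / d ∈ R := by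
      rw [div_eq_mul_inv]
      exact R.mul_mem _ _ (R.neg_mem _ (R.mul_mem _ _ htR (hcu j))) hdR
    exact R.add_mem _ _ (R.mul_mem _ _ hβ' h1) (hc j)
  · rw [hDy, hDt, Finset.smul_sum, ← Finset.sum_add_distrib]
    refine Finset.sum_congr rfl fun j _ => ?_
    rw [smul_smul, add_smul]

end models

end Crest.Agent.R276.TCh_858
end
end

-- ▼ part R276/TChK_858

/-! # Row 276, helper858: the relative dictionary at a divisorial `R` (P4 of TCh), orders. -/

set_option autoImplicit false

noncomputable section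

namespace Crest.Agent.R276.TCh_858

open Crest.Agent.R276.FKDefs_779 Crest.Agent.R276.BC_986 Crest.Agent.R276.DivVal_858
open Crest.Agent.R276.End0_508 KaehlerDifferential

variable {L K : Type} [Field L] [Field K] [Algebra ℂ L] [Algebra ℂ K] [Algebra L K]
variable [IsScalarTower ℂ L K] {m r : ℕ} {R : ValuationSubring K}

omit [Algebra ℂ L] [Algebra ℂ K] [IsScalarTower ℂ L K] in
/-- value one in a subfield -/
lemma valuation_comap_eq_one {z : L} (hz : (R.comap (algebraMap L K)).valuation z = 1) :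
    R.valuation (algebraMap L K z) = 1 := by
  have hz0 : z ≠ 0 := by
    rintro rfl
    rw [map_zero] at hz
    exact zero_ne_one hz
  have h1 : z ∈ R.comap (algebraMap L K) := by
    rw [← ValuationSubring.valuation_le_one_iff]; exact hz.le
  have h2 : z⁻¹ ∈ R.comap (algebraMap L K) := by
    rw [← ValuationSubring.valuation_le_one_iff, map_inv₀, hz, inv_one]
  have h3 : R.valuation (algebraMap L K z) ≤ 1 := (R.valuation_le_one_iff _).2 h1
  have h4 : R.valuation (algebraMap L K z⁻¹) ≤ 1 := (R.valuation_le_one_iff _).2 h2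
  refine le_antisymm h3 ?_
  rw [map_inv₀, map_inv₀] at h4
  have hpos : 0 < R.valuation (algebraMap L K z) := by
    rw [Valuation.pos_iff]
    exact (map_ne_zero_iff _ (algebraMap L K).injective).mpr hz0
  exact (inv_le_one₀ hpos).mp h4

omit [IsScalarTower ℂ L K] in
/-- the value of an element of the subfield in terms of its order -/
lemma val_map {D' : DivModel (m + r) K} {DL : DivModel m L}
    (hDL : DL.ModelOf (R.comap (algebraMap L K))) {e : ℕ} {u : K} (hu : R.valuation u = 1)
    (hram : algebraMap L K (algebraMap DL.A L DL.t) = (algebraMap D'.A K D'.t) ^ e * u)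
    {z : L} {a : ℤ} (hz : DL.HasOrd z a) :
    R.valuation (algebraMap L K z) = R.valuation (algebraMap D'.A K D'.t) ^ ((e : ℤ) * a) := by
  have h1 : ∃ w : L, (R.comap (algebraMap L K)).valuation w = 1 ∧
      z = (algebraMap DL.A L DL.t) ^ a * w := by
    have h2 := hDL.val_eq hz
    have ht0 : (algebraMap DL.A L DL.t) ^ a ≠ 0 := zpow_ne_zero _ DL.tK_ne
    refine ⟨z / (algebraMap DL.A L DL.t) ^ a, ?_, (mul_div_cancel₀ _ ht0).symm⟩
    rw [map_div₀, h2, map_zpow₀, div_self]
    exact zpow_ne_zero _ hDL.pos.ne'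
  obtain ⟨w, hw, rfl⟩ := h1
  rw [map_mul, map_mul, valuation_comap_eq_one hw, mul_one, map_zpow₀, map_zpow₀, hram, map_mul,
    hu, mul_one, map_pow, ← zpow_natCast, ← zpow_mul]

lemma val_jac {n : ℕ} {D' : DivModel n K} (h : D'.ModelOf R)
    (b : Module.Basis (Fin n) K (Ω[K⁄ℂ])) {c : ℤ} (hc : D'.HasOrd (D'.dw.toMatrix b).det c) :
    R.valuation (b.toMatrix D'.dw).det = R.valuation (algebraMap D'.A K D'.t) ^ (-c) := by
  have h1 := DivModel.det_toMatrix_mul D'.dw b
  have h2 : (b.toMatrix D'.dw).det = ((D'.dw.toMatrix b).det)⁻¹ :=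
    eq_inv_of_mul_eq_one_right h1
  rw [h2, map_inv₀, h.val_eq hc, zpow_neg]

/-- final comparison -/
lemma le_iff {n : ℕ} {D' : DivModel n K} (h : D'.ModelOf R) {J g : K} {cF k : ℤ}
    (hJ : R.valuation J = R.valuation (algebraMap D'.A K D'.t) ^ (-cF)) (hg : D'.HasOrd g k)
    (q : ℕ) : R.valuation g ≤ R.valuation J ^ q ↔ 0 ≤ k + q * cF := by
  rw [h.val_eq hg, hJ, ← zpow_natCast, ← zpow_mul,
    zpow_le_zpow_iff_right_of_lt_one₀ h.pos h.lt]
  constructor
  · intro h1; linarith [mul_comm (-cF) (q : ℤ), neg_mul cF (q : ℤ), mul_comm cF (q : ℤ)]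
  · intro h1; linarith [mul_comm (-cF) (q : ℤ), neg_mul cF (q : ℤ), mul_comm cF (q : ℤ)]

/-- **Dictionary, horizontal case** (`L ⊆ R`). -/
theorem regAt_H {D' : DivModel (m + r) K} (h : D'.ModelOf R) (hL : ∀ z : L, algebraMap L K z ∈ R)
    (w : Fin m → L)
    (hw : ∀ i, algebraMap D'.A K (D'.w (Fin.castAdd r i)) = algebraMap L K (w i))
    {bL : Module.Basis (Fin m) L (Ω[L⁄ℂ])} {bK : Module.Basis (Fin r) K (Ω[K⁄L])}
    {b : Module.Basis (Fin (m + r)) K (Ω[K⁄ℂ])} (hb : Adapted bL bK b) {c : ℤ}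
    (hc : D'.HasOrd (D'.dw.toMatrix b).det c) {g : K} {k : ℤ} (hg : D'.HasOrd g k) (q : ℕ) :
    RegAt L R bK q g ↔ 0 ≤ k + q * c := by
  rw [regAt_iff_of_span bK (fun j => algebraMap D'.A K (D'.w (Fin.natAdd m j))) (fun j => h.mem _)
    (fun y hy => span_H h w hw hy)]
  refine le_iff h ?_ hg q
  have h1 := hb.jac_tower w (fun j => algebraMap D'.A K (D'.w (Fin.natAdd m j)))
  have h2 : Fin.append (fun i => algebraMap L K (w i))
      (fun j => algebraMap D'.A K (D'.w (Fin.natAdd m j))) = fun i => algebraMap D'.A K (D'.w i) := by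
    funext i
    refine Fin.addCases (fun i => ?_) (fun j => ?_) i
    · rw [Fin.append_left, hw]
    · rw [Fin.append_right]
  have h3 : jac ℂ b (fun i => algebraMap D'.A K (D'.w i)) = (b.toMatrix D'.dw).det := by
    rw [DivModel.jac_change b D'.dw, DivModel.jac_dw, mul_one]
  rw [h2, h3] at h1
  have h4 : jac ℂ bL w ≠ 0 := by
    intro h0
    rw [h0, map_zero, zero_mul] at h1
    exact DivModel.det_ne_zero b D'.dw h1
  have h5 : R.valuation (algebraMap L K (jac ℂ bL w)) = 1 := by
    have e1 : R.valuation (algebraMap L K (jac ℂ bL w)) ≤ 1 := (R.valuation_le_one_iff _).2 (hL _)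
    have e2 : R.valuation (algebraMap L K (jac ℂ bL w)⁻¹) ≤ 1 :=
      (R.valuation_le_one_iff _).2 (hL _)
    refine le_antisymm e1 ?_
    rw [map_inv₀, map_inv₀] at e2
    have hpos : 0 < R.valuation (algebraMap L K (jac ℂ bL w)) := by
      rw [Valuation.pos_iff]
      exact (map_ne_zero_iff _ (algebraMap L K).injective).mpr h4
    exact (inv_le_one₀ hpos).mp e2
  have h6 := congrArg R.valuation h1
  rw [map_mul, h5, one_mul] at h6
  rw [← h6]
  exact val_jac h b hc

/-- **Dictionary, vertical case** (`L ⊄ R`). -/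
theorem regAt_V {D' : DivModel (m + r) K} (h : D'.ModelOf R) {DL : DivModel m L}
    (hDL : DL.ModelOf (R.comap (algebraMap L K)))
    (hi : D'.i₀ = Fin.castAdd r DL.i₀)
    (hw : ∀ i, i ≠ DL.i₀ → algebraMap D'.A K (D'.w (Fin.castAdd r i)) =
      algebraMap L K (algebraMap DL.A L (DL.w i)))
    {e : ℕ} {u : K} (he : 0 < e) (hu : R.valuation u = 1)
    (hram : algebraMap L K (algebraMap DL.A L DL.t) = (algebraMap D'.A K D'.t) ^ e * u)
    {bL : Module.Basis (Fin m) L (Ω[L⁄ℂ])} {bK : Module.Basis (Fin r) K (Ω[K⁄L])}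
    {b : Module.Basis (Fin (m + r)) K (Ω[K⁄ℂ])} (hb : Adapted bL bK b)
    {cL : ℤ} (hcL : DL.HasOrd (DL.dw.toMatrix bL).det cL)
    {c : ℤ} (hc : D'.HasOrd (D'.dw.toMatrix b).det c) {g : K} {k : ℤ} (hg : D'.HasOrd g k)
    (q : ℕ) :
    RegAt L R bK q g ↔ 0 ≤ k + q * (c - e * cL - (e - 1)) := by
  classical
  rw [regAt_iff_of_span bK (fun j => algebraMap D'.A K (D'.w (Fin.natAdd m j))) (fun j => h.mem _)
    (fun y hy => span_V h hi hw he hu hram hy)]
  refine le_iff h ?_ hg q
  set t : K := algebraMap D'.A K D'.t with ht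
  have ht0 : t ≠ 0 := D'.tK_ne
  have h1 := hb.jac_tower (fun i => algebraMap DL.A L (DL.w i))
    (fun j => algebraMap D'.A K (D'.w (Fin.natAdd m j)))
  -- the left hand side
  have h2 : (fun i => D ℂ K (Fin.append (fun i => algebraMap L K (algebraMap DL.A L (DL.w i)))
      (fun j => algebraMap D'.A K (D'.w (Fin.natAdd m j))) i)) =
      Function.update (D'.dw : Fin (m + r) → Ω[K⁄ℂ]) D'.i₀ (D ℂ K (t ^ e * u)) := by
    funext i
    by_cases hii : i = D'.i₀
    · subst hii
      rw [Function.update_self, ← hram, hi, Fin.append_left]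
      rfl
    · rw [Function.update_of_ne hii, D'.dw_apply]
      refine Fin.addCases (fun i hii => ?_) (fun j _ => ?_) i hii
      · rw [Fin.append_left, hw]
        intro h'
        apply hii
        rw [h', hi]
      · rw [Fin.append_right]
  have h3 : jac ℂ b (Fin.append (fun i => algebraMap L K (algebraMap DL.A L (DL.w i)))
      (fun j => algebraMap D'.A K (D'.w (Fin.natAdd m j)))) =
      (b.toMatrix D'.dw).det * D'.dw.repr (D ℂ K (t ^ e * u)) D'.i₀ := by
    rw [DivModel.jac_change b D'.dw]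
    congr 1
    unfold jac
    rw [h2, det_update]
  have huR : u ∈ R := by
    rw [← R.valuation_le_one_iff, hu]
  have h4 : R.valuation (D'.dw.repr (D ℂ K (t ^ e * u)) D'.i₀) = R.valuation t ^ ((e : ℤ) - 1) := by
    obtain ⟨e', rfl⟩ : ∃ e', e = e' + 1 := ⟨e - 1, by omega⟩
    have e1 : D'.dw.repr (D ℂ K (t ^ (e' + 1) * u)) D'.i₀ =
        t ^ e' * (((e' + 1 : ℕ) : K) * u + t * D'.dw.repr (D ℂ K u) D'.i₀) := by
      have e2 : D ℂ K t = D'.dw D'.i₀ := by rw [D'.dw_apply]; rfl
      rw [Derivation.leibniz, Derivation.leibniz_pow, Nat.add_sub_cancel, e2]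
      simp only [map_add, map_smul, Finsupp.add_apply, Finsupp.smul_apply, smul_eq_mul,
        Module.Basis.repr_self, Finsupp.single_eq_same, ← Nat.cast_smul_eq_nsmul K]
      ring
    have e3 : R.valuation (((e' + 1 : ℕ) : K) * u + t * D'.dw.repr (D ℂ K u) D'.i₀) = 1 := by
      have hevR : R.valuation (((e' + 1 : ℕ) : K)) = 1 := by
        have f1 : (((e' + 1 : ℕ) : K)) = algebraMap ℂ K ((e' + 1 : ℕ) : ℂ) := by
          rw [map_natCast]
        have f2 : (((e' + 1 : ℕ) : ℂ)) ≠ 0 := by exact_mod_cast Nat.succ_ne_zero e'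
        have f3 : R.valuation (algebraMap ℂ K ((e' + 1 : ℕ) : ℂ)) ≤ 1 :=
          (R.valuation_le_one_iff _).2 (modelOf_alg h _)
        have f4 : R.valuation (algebraMap ℂ K (((e' + 1 : ℕ) : ℂ)⁻¹)) ≤ 1 :=
          (R.valuation_le_one_iff _).2 (modelOf_alg h _)
        rw [f1]
        refine le_antisymm f3 ?_
        rw [map_inv₀, map_inv₀] at f4
        have hpos : 0 < R.valuation (algebraMap ℂ K ((e' + 1 : ℕ) : ℂ)) := by
          rw [Valuation.pos_iff]
          exact (map_ne_zero_iff _ (algebraMap ℂ K).injective).mpr f2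
        exact (inv_le_one₀ hpos).mp f4
      have f5 : R.valuation (((e' + 1 : ℕ) : K) * u) = 1 := by rw [map_mul, hevR, hu, mul_one]
      have f6 : R.valuation (t * D'.dw.repr (D ℂ K u) D'.i₀) < 1 := by
        rw [map_mul]
        exact mul_lt_one_of_lt_of_le h.lt ((R.valuation_le_one_iff _).2 (h.repr_mem huR _))
      rw [Valuation.map_add_eq_of_lt_left]
      · exact f5
      · rw [f5]; exact f6
    rw [e1, map_mul, e3, mul_one, map_pow]
    push_cast
    rw [add_sub_cancel_right, zpow_natCast]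
  have h5 : DL.HasOrd (jac ℂ bL (fun i => algebraMap DL.A L (DL.w i))) (-cL) := by
    have e1 := DivModel.det_toMatrix_mul DL.dw bL
    have e2 : (bL.toMatrix DL.dw).det = ((DL.dw.toMatrix bL).det)⁻¹ :=
      eq_inv_of_mul_eq_one_right e1
    rw [DivModel.jac_change bL DL.dw, DivModel.jac_dw, mul_one, e2]
    exact hcL.inv
  have h6 := val_map (D' := D') hDL hu hram h5
  have h7 := congrArg R.valuation h1
  rw [h3, map_mul, val_jac h b hc, h4, map_mul, h6, ← ht] at h7
  have hpos : R.valuation t ≠ 0 := h.pos.ne'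
  rw [← zpow_add₀ hpos] at h7
  have h8 : R.valuation (jac L bK fun j => algebraMap D'.A K (D'.w (Fin.natAdd m j))) =
      R.valuation t ^ (-(c - e * cL - (e - 1))) := by
    have h9 : R.valuation t ^ ((e : ℤ) * -cL) ≠ 0 := zpow_ne_zero _ hpos
    apply mul_left_cancel₀ h9
    rw [← h7, ← zpow_add₀ hpos]
    congr 1
    ring
  exact h8

end Crest.Agent.R276.TCh_858
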