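import Mathlib
import Crest.Agent.R276.BR4_590
import Crest.Agent.R276.Lq_464
import Crest.Agent.R276.BC4_986
import Crest.Agent.R276.End0A_508
import Crest.Agent.R276.Mod1_987
import Crest.Agent.R276.Mod7_987
import Crest.Agent.R276.IntC_448
import Crest.Agent.R276.SatC_210
import Crest.Agent.R276.R0D_858
import Crest.Agent.R276.TChK_858
import Crest.Agent.R276.CmpA_595

-- ▼ part R276/FolB_508
section

/-!
# Row 276, FOL (helper508), part B: orders of relative Jacobians at a vertical divisor

`V : VData m r L K` (590): `R ∩ L` divisorial, `w₁ = t^e u`.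
* `VData.hasOrd_alg` : `ord_R (f) = e · ord_{R ∩ L} (f)` for `f ∈ L`;
* `VData.exists_bwx` : `(w₁, w', x)` are coordinates of `K`, their Jacobian with respect to
  `(t, w', x)` has order `e - 1`;
* `VData.regAt_iff` : `τ (dx̃)^q` is regular at `R` relative to `L` iff
  `0 ≤ ord τ + q (c - e c_L - (e - 1))`, `c`, `c_L` the orders of the Jacobians of the models.
-/

set_option autoImplicit false

open scoped BigOperators

noncomputable section

namespace Crest.Agent.R276.BC_986.DivModel

open Crest.Agent.R276.BC_986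

variable {n : ℕ} {K : Type} [Field K] [Algebra ℂ K] {D : DivModel n K}

lemma HasOrd.pow {f : K} {a : ℤ} (hf : D.HasOrd f a) (k : ℕ) : D.HasOrd (f ^ k) (k * a) := by
  induction k with
  | zero => simpa using hasOrd_one (D := D)
  | succ k ih =>
    rw [pow_succ]
    have := ih.mul D hf
    convert this using 1
    push_cast
    ring



end Crest.Agent.R276.BC_986.DivModel

namespace Crest.Agent.R276.BR_590

open Crest.Agent.R271.Defs710 Crest.Agent.R271.Bd741 Crest.Agent.R276.BC_986
open Crest.Agent.R276.FKDefs_779 Crest.Agent.R276.End0_508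

variable {m r : ℕ} {L K : Type} [Field L] [Algebra ℂ L] [Field K] [Algebra ℂ K] [Algebra L K]

namespace VData

variable (V : VData m r L K)


lemma hasOrd_t : V.D.HasOrd (algebraMap L K (algebraMap V.DL.A L V.DL.t)) V.e := by
  rw [← V.ι_K, V.ram]
  refine ⟨V.u, 1, V.u_nd, fun h => V.D.prime.not_isUnit (isUnit_of_dvd_one h), ?_⟩
  rw [map_one, mul_one, map_mul, map_pow, zpow_natCast]






/-- `x`, the fibre coordinates of the model of the divisor -/
def xx (i : Fin r) : K := algebraMap V.D.A K (V.D.w (Fin.natAdd m i))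



end VData

end Crest.Agent.R276.BR_590
end
end

-- ▼ part R276/End0B_508
section

/-!
# Row 276, END0 (helper508), part B: the field-level statement of the flat case

`kapGeF_of_flat` : `K/ℂ` f.g., `L ≤ K`, `KapGeS ℂ L e`, and `d + 1` relative forms `τ_i` of weight
`q > 0` for `K/L` (coordinates `x`), regular relative to `L` at EVERY divisorial valuation ring of
`K/ℂ` (horizontal and vertical), with ratios algebraically independent over `L`:
then `KapGeF ℂ K (d + e)`.
-/

set_option autoImplicit false

noncomputable section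

open KaehlerDifferential

namespace Crest.Agent.R276.End0_508

open Crest.Agent.R276.FKDefs_779


theorem essFiniteType_of_fgf {k K : Type*} [Field k] [Field K] [Algebra k K] (h : FGF k K) :
    Algebra.EssFiniteType k K := IntermediateField.fg_top_iff.mp h



end Crest.Agent.R276.End0_508
end
end

-- ▼ part R276/FolC_508
section

/-!
# Row 276, FOL (helper508), part C: bounded fibre integrals imply regularity at vertical divisors

`VData.regAt_of_bounded` : `R` a divisorial valuation ring of `K` with `R ∩ L` divisorial (590's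
`VData`), `τ ∈ K` with `∫_{M_z} |τ|^{2/q} ≤ C` for all `z` off a hypersurface: then `τ (dx)^q` is
regular at `R` relative to `L` (`RegAt L R`).
-/

set_option autoImplicit false

open scoped Topology BigOperators ENNReal
open Set Metric MeasureTheory

noncomputable section

namespace Crest.Agent.R276.BR_590

open Crest.Agent.R271.Defs710 Crest.Agent.R271.Bd741 Crest.Agent.R276.BC_986
open Crest.Agent.R276.FKDefs_779 Crest.Agent.R276.End0_508

variable {m r : ℕ} {L K : Type} [Field L] [Algebra ℂ L] [Field K] [Algebra ℂ K] [Algebra L K]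
  [IsScalarTower ℂ L K]


end Crest.Agent.R276.BR_590

namespace Crest.Agent.R276.Mod1_987

open Crest.Agent.R271.Defs710 Crest.Agent.R276.BR_590 Crest.Agent.R276.BC_986
open Crest.Agent.R276.FKDefs_779 Crest.Agent.R276.End0_508

variable {L K : Type} [Field L] [Field K] [Algebra ℂ L] [Algebra ℂ K] [Algebra L K]
  [IsScalarTower ℂ L K] {m r : ℕ}

namespace RMdl

variable (Rm : RMdl L K m r)




end RMdl

end Crest.Agent.R276.Mod1_987

namespace Crest.Agent.R276.End0_508

open Crest.Agent.R271.Defs710 Crest.Agent.R276.BR_590 Crest.Agent.R276.BC_986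
open Crest.Agent.R276.FKDefs_779 Crest.Agent.R276.Mod1_987

theorem isAlgebraic_of_le {k L K : Type} [Field k] [Field L] [Field K] [Algebra k L]
    [Algebra k K] [Algebra L K] [IsScalarTower k L K] (S : Subalgebra k K) (T : Subalgebra L K)
    (hle : ∀ a ∈ S, a ∈ T) (halg : Algebra.IsAlgebraic S K) : Algebra.IsAlgebraic T K := by
  let ι : S →+* T := (algebraMap S K).codRestrict T.toSubring (fun a => hle a a.2)
  let _ := ι.toAlgebra
  have : IsScalarTower S T K := IsScalarTower.of_algebraMap_eq fun _ => rfl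
  have hinj : Function.Injective (algebraMap S T) := by
    intro a b hab
    apply Subtype.ext
    exact congrArg (fun c : T => (c : K)) hab
  exact ⟨fun a => (halg.isAlgebraic a).extendScalars hinj⟩

/-- if `z` is a transcendence basis of `L/k` and `(z, x)` one of `K/k`, then `x` is one of `K/L` -/
theorem isTranscendenceBasis_right {k L K : Type} [Field k] [Field L] [Field K] [Algebra k L]
    [Algebra k K] [Algebra L K] [IsScalarTower k L K] {m r : ℕ} {z : Fin m → L} {x : Fin r → K}
    (hz : IsTranscendenceBasis k z)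
    (hzx : IsTranscendenceBasis k (Fin.append (fun i => algebraMap L K (z i)) x)) :
    IsTranscendenceBasis L x := by
  have hA : Algebra.IsAlgebraic (Algebra.adjoin L (Set.range x)) K := by
    refine isAlgebraic_of_le _ _ ?_ hzx.isAlgebraic
    intro a ha
    have hle : Algebra.adjoin k (Set.range (Fin.append (fun i => algebraMap L K (z i)) x)) ≤
        (Algebra.adjoin L (Set.range x)).restrictScalars k := by
      rw [Algebra.adjoin_le_iff]
      rintro _ ⟨i, rfl⟩
      rw [SetLike.mem_coe, Subalgebra.mem_restrictScalars]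
      refine Fin.addCases (fun i => ?_) (fun j => ?_) i
      · rw [Fin.append_left]
        exact Subalgebra.algebraMap_mem _ _
      · rw [Fin.append_right]
        exact Algebra.subset_adjoin (Set.mem_range_self j)
    have h0 := hle ha
    rwa [Subalgebra.mem_restrictScalars] at h0
  have h1 := _root_.trdeg_add_eq k L (A := K)
  rw [← hz.cardinalMk_eq_trdeg, ← hzx.cardinalMk_eq_trdeg, Cardinal.mk_fin, Cardinal.mk_fin,
    Nat.cast_add] at h1
  have h2 : Algebra.trdeg L K = r :=
    Cardinal.eq_of_add_eq_add_left h1 (Cardinal.natCast_lt_aleph0)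
  exact Algebra.IsAlgebraic.isTranscendenceBasis_of_le_trdeg_of_finite L x
    (by rw [h2, Cardinal.mk_fin])



end Crest.Agent.R276.End0_508
end
end

-- ▼ part R276/SatG_152

/-!
# Row 276 (S0419), SAT (helper152), part G: regularity at the horizontal divisorial valuations

`R : RMdl L K m r`, `bK` the basis `d x_j` of `Ω[K⁄L]`, `u_i ∈ B_K` regular relative `N`-forms at a
horizontal divisorial valuation ring `R₀` (`IsDiv L r R₀`), `b ∈ B_K` with
`∫ |b|² K_u^{-(N-1)/N} · weight < ∞`.  Then `b` is a regular relative `N`-form at `R₀`.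

* `isDiv_abs` : `IsDiv L r R₀ → IsDiv ℂ (m + r) R₀`;
* `regAt_of_inE` : the statement above;
* `pluri_of_inE` : the same with `Pluri`.
-/

set_option autoImplicit false

noncomputable section

open Set Filter Topology Metric MeasureTheory
open scoped ENNReal

namespace Crest.Agent.R276.SatG_152

open Crest.Agent.R271 Crest.Agent.R271.Defs710 Crest.Agent.R271.Alg255
open Crest.Agent.R276.Mod1_987 Crest.Agent.R276.FKDefs_779 Crest.Agent.R276.BC_986
open Crest.Agent.R276.DivVal_858 Crest.Agent.R276.SatB_210 Crest.Agent.R276.SatC_210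

section div

open IsLocalRing MvPolynomial

variable {L K : Type} [Field L] [Field K] [Algebra ℂ L] [Algebra ℂ K] [Algebra L K]
  [IsScalarTower ℂ L K] {m r : ℕ}

/-- a valuation ring which is divisorial over `L` is divisorial over `ℂ` -/
theorem isDiv_abs (hr : Algebra.trdeg L K = r) (w : Fin m → L) (hw : AlgebraicIndependent ℂ w)
    {R : ValuationSubring K} (hR : IsDiv L r R) : IsDiv ℂ (m + r) R := by
  have hpos := pos_of_isDiv hr R hR
  have halg : ∀ c : ℂ, algebraMap ℂ K c ∈ R := fun c => by
    rw [IsScalarTower.algebraMap_apply ℂ L K]; exact hR.alg _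
  let : Algebra L R := ((algebraMap L K).codRestrict R.toSubring hR.alg).toAlgebra
  let : Algebra ℂ R := ((algebraMap ℂ K).codRestrict R.toSubring halg).toAlgebra
  have : IsScalarTower ℂ L R := IsScalarTower.of_algebraMap_eq (fun c => by
    apply Subtype.ext
    change algebraMap ℂ K c = algebraMap L K (algebraMap ℂ L c)
    exact IsScalarTower.algebraMap_apply ℂ L K c)
  have hkR : ∀ c : ℂ, ((algebraMap ℂ R c : R) : K) = algebraMap ℂ K c := fun c => rfl
  have hLR : ∀ c : L, ((algebraMap L R c : R) : K) = algebraMap L K c := fun c => rfl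
  have : IsScalarTower ℂ L (ResidueField R) := inferInstance
  obtain ⟨x, hx1, hx2⟩ := hR.res
  have hxres : ResInd L R x := ⟨hx1, hx2⟩
  let y : Fin (r - 1) → R := fun i => ⟨x i, hx1 i⟩
  have hy : AlgebraicIndependent L (fun i => residue R (y i)) := (resInd_iff hLR y).1 hxres
  have h7 := hw.sumElim_comp hy
  let z : Fin (r - 1) ⊕ Fin m → R := Sum.elim y (fun i => algebraMap L R (w i))
  have h8 : (fun i => residue R (z i)) =
      Sum.elim (fun i => residue R (y i)) (algebraMap L (ResidueField R) ∘ w) := by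
    funext i
    rcases i with i | i
    · rfl
    · rfl
  have h9 : ResInd ℂ R (fun i => (z i : K)) := by
    rw [resInd_iff hkR z, h8]
    exact h7
  let e : Fin (m + r - 1) ≃ Fin (r - 1) ⊕ Fin m :=
    (finCongr (by omega : m + r - 1 = (r - 1) + m)).trans finSumFinEquiv.symm
  exact ⟨halg, hR.ne_top, _, h9.comp e e.injective⟩

omit [Algebra ℂ L] [IsScalarTower ℂ L K] in
/-- the order of a nonzero element of `L` is zero at a horizontal divisor -/
lemma ord_zero {n : ℕ} {D : DivModel n K} {R : ValuationSubring K} (hD : D.ModelOf R)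
    (hL : ∀ c : L, algebraMap L K c ∈ R) {c : L} {a : ℤ}
    (ha : D.HasOrd (algebraMap L K c) a) : a = 0 := by
  have h1 : 0 ≤ a := (hD.mem_iff ha).1 (hL c)
  have h2 : 0 ≤ -a := by
    have h3 := ha.inv
    rw [← map_inv₀] at h3
    exact (hD.mem_iff h3).1 (hL c⁻¹)
  omega

end div

variable {L K : Type} [Field L] [Field K] [Algebra ℂ L] [Algebra ℂ K] [Algebra L K]
  [IsScalarTower ℂ L K] {m r : ℕ} (R : RMdl L K m r)

lemma etChart {n : ℕ} (M : Mdl K n) : EtChart ℂ K M.B M.zK := by
  refine ⟨M.B.fg_iff_finiteType.mpr M.ft, ?_, fun i => (M.z i).2, M.het⟩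
  intro a
  obtain ⟨b, c, hc, h⟩ := M.frac a
  refine ⟨b, b.2, c, c.2, ?_, ?_⟩
  · intro h0
    exact hc (Subtype.ext h0)
  · rw [h, div_eq_mul_inv]

lemma zK_append (R : RMdl L K m r) : R.MK.zK = Fin.append (fun i => algebraMap L K (R.ML.zK i))
    (fun j => R.MK.zK (Fin.natAdd m j)) := by
  funext i
  refine Fin.addCases (fun i => ?_) (fun j => ?_) i
  · rw [Fin.append_left, R.z_eq]
  · rw [Fin.append_right]

include R in
lemma isTB_x : IsTranscendenceBasis L (fun j => R.MK.zK (Fin.natAdd m j)) := by
  refine End0_508.isTranscendenceBasis_right (Cmp_595.isTranscendenceBasis R.ML) ?_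
  rw [← zK_append]
  exact Cmp_595.isTranscendenceBasis R.MK

include R in
lemma trdeg_rel : Algebra.trdeg L K = r := by
  rw [← (isTB_x R).cardinalMk_eq_trdeg, Cardinal.mk_fin]

include R in
lemma trdeg_L : Algebra.trdeg ℂ L = m := by
  rw [← (Cmp_595.isTranscendenceBasis R.ML).cardinalMk_eq_trdeg, Cardinal.mk_fin]

include R in
lemma trdeg_K : Algebra.trdeg ℂ K = (m + r : ℕ) := by
  rw [← (Cmp_595.isTranscendenceBasis R.MK).cardinalMk_eq_trdeg, Cardinal.mk_fin]

/-! ### the dictionary -/

/-- regularity at a horizontal divisor, relative and absolute -/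
theorem regAt_iff_abs {R₀ : ValuationSubring K} (hR₀ : IsDiv L r R₀)
    (bK : Module.Basis (Fin r) K (Ω[K⁄L]))
    (hbK : ∀ j, bK j = KaehlerDifferential.D L K (R.MK.zK (Fin.natAdd m j))) :
    ∃ (b : Module.Basis (Fin (m + r)) K (Ω[K⁄ℂ])) (D : DivModel (m + r) K),
      (∀ i, b i = KaehlerDifferential.D ℂ K (R.MK.zK i)) ∧ D.ModelOf R₀ ∧
      ∀ (q : ℕ) (g : K), RegAt L R₀ bK q g ↔ RegAt ℂ R₀ b q g := by
  have hess : Algebra.EssFiniteType ℂ K := Cmp_595.essFiniteType R.MK
  have hcL : CharZero L := charZero_of_injective_algebraMap (algebraMap ℂ L).injective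
  have hzL := Cmp_595.isTranscendenceBasis R.ML
  obtain ⟨bL, hbL⟩ := FKB0_143.exists_kbasis hzL
  obtain ⟨b, hb, hb'⟩ := End0_508.exists_adapted hzL (isTB_x R) bL hbL bK hbK
  obtain ⟨-, D, hD, -, hw⟩ := r0_H (trdeg_L R) (trdeg_K R)
    (isDiv_abs (trdeg_rel R) R.ML.zK hzL.1 hR₀) hR₀.alg R.ML.zK hzL.1
  refine ⟨b, D, fun i => by rw [hb', ← zK_append], hD, fun q g => ?_⟩
  rcases eq_or_ne g 0 with rfl | hg
  · refine iff_of_true ⟨0, fun _ => R₀.zero_mem, by rw [map_zero]; exact zero_le⟩
      (DivModel.regAt_zero R₀ b q)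
  obtain ⟨k, hk⟩ := D.exists_hasOrd g hg
  obtain ⟨c, hc⟩ := D.exists_hasOrd _ (DivModel.det_ne_zero D.dw b)
  rw [TCh_858.regAt_H hD hR₀.alg R.ML.zK hw hb hc hk, hD.regAt_iff b hk hc]

end Crest.Agent.R276.SatG_152
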