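import Mathlib
import Crest.Agent.R276.Mass_137

-- ▼ part R276/LinAlg_137
section

/-!
# R276, leaf ALG-NL (helper137): determinants of sums of nonnegative Hermitian matrices

* `det_le_det_add` : `det G ≤ det (G + P)`;
* `block_det` : `det A * det G ≤ det [[A, B], [B*, D + G]]` if `[[A,B],[B*,D]] ≥ 0`, `G ≥ 0`;
* `det_frame` (409's (LA1)), `det_diag` (409's (LA2)), `det_frame_diag` : both together.
-/

set_option autoImplicit false

open Matrix ComplexConjugate
open scoped ComplexOrder MatrixOrder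

noncomputable section

namespace Crest.Agent.R276.LinAlg_137

variable {ι α β : Type*} [Fintype ι] [DecidableEq ι] [Fintype α] [DecidableEq α] [Fintype β]
  [DecidableEq β]

theorem one_le_det_one_add {Q : Matrix ι ι ℂ} (hQ : Q.PosSemidef) : 1 ≤ (1 + Q).det := by
  have h1 := Matrix.eval_charpoly Q (-1)
  rw [hQ.1.charpoly_eq, Polynomial.eval_prod] at h1
  have h2 : Matrix.scalar ι (-1 : ℂ) - Q = (-1 : ℂ) • (1 + Q) := by
    ext i j
    by_cases h : i = j
    · subst h; simp; ring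
    · simp [h]
  rw [h2, Matrix.det_smul] at h1
  have h3 : ∏ i, Polynomial.eval (-1) (Polynomial.X - Polynomial.C ((hQ.1.eigenvalues i : ℝ) : ℂ)) =
      (-1) ^ Fintype.card ι * ∏ i, (1 + ((hQ.1.eigenvalues i : ℝ) : ℂ)) := by
    rw [← Finset.card_univ, ← Finset.prod_const, ← Finset.prod_mul_distrib]
    refine Finset.prod_congr rfl fun i _ => ?_
    simp
    ring
  have h4 : (1 + Q).det = ∏ i, (1 + ((hQ.1.eigenvalues i : ℝ) : ℂ)) := by
    have h5 : ((-1 : ℂ)) ^ Fintype.card ι ≠ 0 := pow_ne_zero _ (by norm_num)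
    refine mul_left_cancel₀ h5 ?_
    rw [← h1, ← h3]
    rfl
  rw [h4]
  have h6 : (∏ i, (1 + ((hQ.1.eigenvalues i : ℝ) : ℂ))) =
      ((∏ i, (1 + hQ.1.eigenvalues i) : ℝ) : ℂ) := by push_cast; rfl
  rw [h6]
  have h7 : (1 : ℝ) ≤ ∏ i, (1 + hQ.1.eigenvalues i) := by
    have : ∀ i ∈ Finset.univ, (1 : ℝ) ≤ 1 + hQ.1.eigenvalues i := fun i _ => by
      linarith [hQ.eigenvalues_nonneg i]
    calc (1 : ℝ) = ∏ _i : ι, (1 : ℝ) := by simp
      _ ≤ ∏ i, (1 + hQ.1.eigenvalues i) := Finset.prod_le_prod (fun _ _ => zero_le_one) this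
  exact_mod_cast h7

theorem det_le_det_add {G P : Matrix ι ι ℂ} (hG : G.PosSemidef) (hP : P.PosSemidef) :
    G.det ≤ (G + P).det := by
  by_cases h0 : G.det = 0
  · rw [h0]; exact (hG.add hP).det_nonneg
  obtain ⟨B, hB⟩ := CStarAlgebra.nonneg_iff_eq_star_mul_self.1 hG.nonneg
  have hBd : B.det ≠ 0 := by
    intro h
    apply h0
    rw [hB, det_mul, h, mul_zero]
  have hu : IsUnit B.det := isUnit_iff_ne_zero.2 hBd
  set Q : Matrix ι ι ℂ := (B⁻¹)ᴴ * P * B⁻¹ with hQ
  have hQp : Q.PosSemidef := hP.conjTranspose_mul_mul_same _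
  have h1 : G + P = Bᴴ * (1 + Q) * B := by
    have e1 : Bᴴ * (B⁻¹)ᴴ = 1 := by
      rw [← conjTranspose_mul, nonsing_inv_mul _ hu, conjTranspose_one]
    have e2 : B⁻¹ * B = 1 := nonsing_inv_mul _ hu
    have e3 : Bᴴ * Q * B = P := by
      rw [hQ]
      calc Bᴴ * ((B⁻¹)ᴴ * P * B⁻¹) * B = (Bᴴ * (B⁻¹)ᴴ) * P * (B⁻¹ * B) := by
            simp only [Matrix.mul_assoc]
        _ = P := by rw [e1, e2, Matrix.one_mul, Matrix.mul_one]
    rw [Matrix.mul_add, Matrix.add_mul, e3, Matrix.mul_one, hB]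
    rfl
  have h2 : (G + P).det = (1 + Q).det * G.det := by
    have h3 : G.det = Bᴴ.det * B.det := by
      rw [hB, star_eq_conjTranspose, det_mul]
    rw [h1, det_mul, det_mul, h3]; ring
  rw [h2]
  exact le_mul_of_one_le_left hG.det_nonneg (one_le_det_one_add hQp)

theorem block_det {A : Matrix α α ℂ} {B : Matrix α β ℂ} {D G : Matrix β β ℂ}
    (h : (fromBlocks A B Bᴴ D).PosSemidef) (hG : G.PosSemidef) :
    A.det * G.det ≤ (fromBlocks A B Bᴴ (D + G)).det := by
  have hA : A.PosSemidef := by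
    have := h.submatrix (Sum.inl : α → α ⊕ β)
    have e : (fromBlocks A B Bᴴ D).submatrix (Sum.inl : α → α ⊕ β) Sum.inl = A := by
      ext i j; rfl
    rwa [e] at this
  have hG' : (fromBlocks (0 : Matrix α α ℂ) 0 0 G).PosSemidef := by
    have h1 : fromBlocks (0 : Matrix α α ℂ) 0 0 G =
        (fromCols (0 : Matrix β α ℂ) (1 : Matrix β β ℂ))ᴴ * G *
          fromCols (0 : Matrix β α ℂ) (1 : Matrix β β ℂ) := by
      ext i j
      rcases i with i | i <;> rcases j with j | j <;>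
        simp [Matrix.mul_apply, fromCols, Matrix.one_apply]
    rw [h1]
    exact hG.conjTranspose_mul_mul_same _
  have hsum : fromBlocks A B Bᴴ (D + G) = fromBlocks A B Bᴴ D +
      fromBlocks (0 : Matrix α α ℂ) 0 0 G := by
    rw [fromBlocks_add]; simp
  by_cases h0 : A.det = 0
  · rw [h0, zero_mul, hsum]; exact (h.add hG').det_nonneg
  have hAd : A.PosDef := hA.posDef_iff_det_ne_zero.2 h0
  have hu : IsUnit A.det := isUnit_iff_ne_zero.2 h0
  let : Invertible A := A.invertibleOfIsUnitDet hu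
  have hS : (D - Bᴴ * A⁻¹ * B).PosSemidef := (Matrix.PosDef.fromBlocks₁₁ B D hAd).1 h
  rw [det_fromBlocks₁₁, ← Matrix.invOf_eq_nonsing_inv] at *
  have e1 : D + G - Bᴴ * ⅟A * B = G + (D - Bᴴ * ⅟A * B) := by abel
  rw [e1]
  exact mul_le_mul_of_nonneg_left (det_le_det_add hG (by simpa using hS)) hA.det_nonneg

theorem block_det' {M : Matrix (α ⊕ β) (α ⊕ β) ℂ} {G : Matrix β β ℂ} (hM : M.PosSemidef)
    (hG : G.PosSemidef) :
    M.toBlocks₁₁.det * G.det ≤ (M + fromBlocks (0 : Matrix α α ℂ) 0 0 G).det := by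
  have hB : M.toBlocks₂₁ = M.toBlocks₁₂ᴴ := by
    ext i j
    have := congrFun (congrFun hM.1 (Sum.inr i)) (Sum.inl j)
    rw [conjTranspose_apply] at this
    exact this.symm
  have h1 : M = fromBlocks M.toBlocks₁₁ M.toBlocks₁₂ M.toBlocks₁₂ᴴ M.toBlocks₂₂ := by
    conv_lhs => rw [← fromBlocks_toBlocks M, hB]
  have h2 : (fromBlocks M.toBlocks₁₁ M.toBlocks₁₂ M.toBlocks₁₂ᴴ M.toBlocks₂₂).PosSemidef := by
    rw [← h1]; exact hM
  have h3 := block_det h2 hG
  have h4 : M + fromBlocks (0 : Matrix α α ℂ) 0 0 G =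
      fromBlocks M.toBlocks₁₁ M.toBlocks₁₂ M.toBlocks₁₂ᴴ (M.toBlocks₂₂ + G) := by
    conv_lhs => rw [h1]
    rw [fromBlocks_add]; simp
  rw [h4]; exact h3

/-- (LA1) in block form: rows `X i = (e_i, F_i)` with `X G = 0` -/
theorem det_frame_aux {G Om : Matrix (α ⊕ β) (α ⊕ β) ℂ} (hG : G.PosSemidef) (hOm : Om.PosSemidef)
    (F : Matrix α β ℂ) (hker : fromCols (1 : Matrix α α ℂ) F * G = 0) :
    (fromCols (1 : Matrix α α ℂ) F * Om * (fromCols (1 : Matrix α α ℂ) F)ᴴ).det *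
      G.toBlocks₂₂.det ≤ (G + Om).det := by
  set X := fromCols (1 : Matrix α α ℂ) F with hX
  set E := fromCols (0 : Matrix β α ℂ) (1 : Matrix β β ℂ) with hE
  set T : Matrix (α ⊕ β) (α ⊕ β) ℂ := fromRows X E with hT
  have hTd : T.det = 1 := by
    rw [hT, hX, hE, fromRows_fromCols_eq_fromBlocks, det_fromBlocks_zero₂₁]; simp
  have hker' : G * Xᴴ = 0 := by
    have h := congrArg conjTranspose hker
    rw [conjTranspose_mul, hG.1, conjTranspose_zero] at h
    exact h
  have hEG : E * G * Eᴴ = G.toBlocks₂₂ := by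
    ext i j
    simp [hE, Matrix.mul_apply, fromCols, Matrix.one_apply, toBlocks₂₂]
  have h1 : T * G * Tᴴ = fromBlocks (0 : Matrix α α ℂ) 0 0 G.toBlocks₂₂ := by
    rw [hT, conjTranspose_fromRows_eq_fromCols_conjTranspose, fromRows_mul, fromRows_mul_fromCols,
      hker, hEG, Matrix.mul_assoc E G Xᴴ, hker']
    simp
  have h2 : (T * Om * Tᴴ).toBlocks₁₁ = X * Om * Xᴴ := by
    rw [hT, conjTranspose_fromRows_eq_fromCols_conjTranspose, fromRows_mul, fromRows_mul_fromCols,
      toBlocks_fromBlocks₁₁]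
  have h3 : (T * Om * Tᴴ).PosSemidef := hOm.mul_mul_conjTranspose_same T
  have hGy : G.toBlocks₂₂.PosSemidef := by
    rw [← hEG]; exact hG.mul_mul_conjTranspose_same E
  have h4 := block_det' h3 hGy
  rw [h2, ← h1] at h4
  have h5 : T * Om * Tᴴ + T * G * Tᴴ = T * (G + Om) * Tᴴ := by
    rw [Matrix.mul_add, Matrix.add_mul, add_comm]
  rw [h5, det_mul, det_mul, hTd, one_mul, det_conjTranspose, hTd, star_one, mul_one] at h4
  exact h4

/-- (LA1): `X i` has the coordinates `δ` on `α`, `Σ_j X i j G j k = 0` -/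
theorem det_frame (e : ι ≃ α ⊕ β) {G Om : Matrix ι ι ℂ} (hG : G.PosSemidef) (hOm : Om.PosSemidef)
    (X : Matrix α ι ℂ) (hX : ∀ i j, X i (e.symm (Sum.inl j)) = if i = j then 1 else 0)
    (hker : X * G = 0) :
    (X * Om * Xᴴ).det * (G.submatrix (e.symm ∘ Sum.inr) (e.symm ∘ Sum.inr)).det ≤
      (G + Om).det := by
  have hX' : X.submatrix id e.symm = fromCols (1 : Matrix α α ℂ)
      (X.submatrix id (e.symm ∘ Sum.inr)) := by
    ext i j
    rcases j with j | j
    · simp [hX, Matrix.one_apply]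
    · simp
  have h1 : X.submatrix id e.symm * G.submatrix e.symm e.symm = 0 := by
    rw [submatrix_mul_equiv, hker]; rfl
  rw [hX'] at h1
  have h2 := det_frame_aux (hG.submatrix e.symm) (hOm.submatrix e.symm) _ h1
  rw [← hX', conjTranspose_submatrix, submatrix_mul_equiv, submatrix_mul_equiv] at h2
  have h3 : (G.submatrix e.symm e.symm).toBlocks₂₂ =
      G.submatrix (e.symm ∘ Sum.inr) (e.symm ∘ Sum.inr) := by
    ext i j; rfl
  have h4 : (G.submatrix e.symm e.symm + Om.submatrix e.symm e.symm).det = (G + Om).det := by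
    rw [show G.submatrix e.symm e.symm + Om.submatrix e.symm e.symm =
      (G + Om).submatrix e.symm e.symm from rfl, det_submatrix_equiv_self]
  rw [h3, h4, submatrix_id_id] at h2
  exact h2

/-- (LA2) -/
theorem det_diag {W : Matrix α α ℂ} (hW : W.PosSemidef) (s : α → ℝ) (i₀ : α) (hs : ∀ i, 0 ≤ s i)
    (hs0 : s i₀ = 0) :
    W i₀ i₀ * ∏ i ∈ Finset.univ.erase i₀, (s i : ℂ) ≤ (W + diagonal fun i => (s i : ℂ)).det := by
  set e : {i // i = i₀} ⊕ {i // ¬ i = i₀} ≃ α := Equiv.sumCompl (fun i => i = i₀) with he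
  have h0 : (diagonal fun i => (s i : ℂ)).submatrix e e =
      fromBlocks (0 : Matrix {i // i = i₀} {i // i = i₀} ℂ) 0 0
        (diagonal fun i : {i // ¬ i = i₀} => (s i.1 : ℂ)) := by
    ext i j
    rw [submatrix_apply, diagonal_apply]
    rcases i with i | i <;> rcases j with j | j
    · rw [fromBlocks_apply₁₁]
      split_ifs with h
      · have : e (Sum.inl i) = i₀ := i.2
        rw [this, hs0]; simp
      · rfl
    · have hne : e (Sum.inl i) ≠ e (Sum.inr j) := fun h => j.2 (by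
        have h5 : (i : α) = j := h
        rw [← h5]; exact i.2)
      rw [if_neg hne]; rfl
    · have hne : e (Sum.inr i) ≠ e (Sum.inl j) := fun h => i.2 (by
        have h5 : (i : α) = j := h
        rw [h5]; exact j.2)
      rw [if_neg hne]; rfl
    · rw [fromBlocks_apply₂₂, diagonal_apply]
      by_cases h : i = j
      · subst h; simp; rfl
      · have hne : e (Sum.inr i) ≠ e (Sum.inr j) := fun h' => h (Subtype.ext h')
        rw [if_neg hne, if_neg h]
  have h1 : (W + diagonal fun i => (s i : ℂ)).submatrix e e = W.submatrix e e +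
      fromBlocks (0 : Matrix {i // i = i₀} {i // i = i₀} ℂ) 0 0
        (diagonal fun i : {i // ¬ i = i₀} => (s i.1 : ℂ)) := by
    rw [← h0]; rfl
  have h2 : (diagonal fun i : {i // ¬ i = i₀} => (s i.1 : ℂ)).PosSemidef :=
    PosSemidef.diagonal fun i => by
      have := hs i.1
      show (0 : ℂ) ≤ (s i.1 : ℂ)
      exact_mod_cast this
  have h3 := block_det' (hW.submatrix e) h2
  rw [← h1, det_submatrix_equiv_self] at h3
  have h4 : (W.submatrix e e).toBlocks₁₁.det = W i₀ i₀ := by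
    rw [det_unique]
    rfl
  have h5 : (diagonal fun i : {i // ¬ i = i₀} => (s i.1 : ℂ)).det =
      ∏ i ∈ Finset.univ.erase i₀, (s i : ℂ) := by
    rw [det_diagonal]
    rw [← Finset.prod_subtype (Finset.univ.erase i₀) (p := fun i => ¬ i = i₀)
      (f := fun i => (s i : ℂ))]
    intro x; simp
  rw [h4, h5] at h3
  exact h3

/-- (LA1) and (LA2) together -/
theorem det_frame_diag (e : ι ≃ α ⊕ β) {G Om : Matrix ι ι ℂ} (hG : G.PosSemidef)
    (hOm : Om.PosSemidef) (X : Matrix α ι ℂ)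
    (hX : ∀ i j, X i (e.symm (Sum.inl j)) = if i = j then 1 else 0) (hker : X * G = 0)
    (s : α → ℝ) (i₀ : α) (hs : ∀ i, 0 ≤ s i) (hs0 : s i₀ = 0) (S : ι → ℂ)
    (hS1 : ∀ i, S (e.symm (Sum.inl i)) = s i) (hS2 : ∀ b, S (e.symm (Sum.inr b)) = 0) :
    (X * Om * Xᴴ) i₀ i₀ * (∏ i ∈ Finset.univ.erase i₀, (s i : ℂ)) *
      (G.submatrix (e.symm ∘ Sum.inr) (e.symm ∘ Sum.inr)).det ≤ (G + (Om + diagonal S)).det := by
  have hSn : ∀ l, 0 ≤ S l := by
    intro l
    obtain ⟨m, rfl⟩ := e.symm.surjective l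
    rcases m with i | b
    · rw [hS1]; exact_mod_cast hs i
    · rw [hS2]
  have hd : (diagonal S).PosSemidef := PosSemidef.diagonal hSn
  have h1 := det_frame e hG (hOm.add hd) X hX hker
  have h2 : X * (Om + diagonal S) * Xᴴ = X * Om * Xᴴ + diagonal fun i => (s i : ℂ) := by
    rw [Matrix.mul_add, Matrix.add_mul]
    congr 1
    ext i k
    rw [Matrix.mul_apply]
    simp only [mul_diagonal, conjTranspose_apply]
    rw [← e.symm.sum_comp, Fintype.sum_sum_type]
    simp only [hS1, hS2, mul_zero, zero_mul, Finset.sum_const_zero, add_zero, hX]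
    rw [diagonal_apply]
    by_cases hik : i = k
    · subst hik; simp
    · simp [hik]
  rw [h2] at h1
  have h3 := det_diag (hOm.mul_mul_conjTranspose_same X) s i₀ hs hs0
  have h4 : 0 ≤ (G.submatrix (e.symm ∘ Sum.inr) (e.symm ∘ Sum.inr)).det :=
    (hG.submatrix _).det_nonneg
  exact (mul_le_mul_of_nonneg_right h3 h4).trans h1

end Crest.Agent.R276.LinAlg_137
end
end

-- ▼ part R276/MassH_137

/-!
# R276, leaf ALG-MASS (helper137), part 5: the finite mass theorem in the form of 409's (MASS)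

* `mass_h` : `∫_{d>0} det (Lv (log d) + Lv Ψ) dμ < ∞` for `d` with `log d` psh of growth
  `log d ≤ C + C log (1+|z|²) + C log⁺ |h|⁻¹`, `Ψ` smooth psh of logarithmic growth on `ℂⁿ`;
* `mass_frame` : the version with a frame `X_i` of the kernel.
-/

set_option autoImplicit false
set_option linter.unusedSectionVars false

noncomputable section

open Set Filter Topology MeasureTheory ComplexConjugate
open scoped Matrix ENNReal

namespace Crest.Agent.R276.NL_137

open Crest.Agent.R271.Ho51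

attribute [local instance] flat

variable {n : ℕ}

/-! ### `log (1 + |z_j|²)` -/

/-- `1 + |z_j|²` -/
def rj (j : Fin n) (z : Fin n → ℂ) : ℝ := 1 + ‖z j‖ ^ 2

lemma rj_pos (j : Fin n) (z : Fin n → ℂ) : 0 < rj j z := by unfold rj; positivity

lemma rj_contDiff (j : Fin n) : ContDiff ℝ (⊤ : ℕ∞) (rj j) :=
  contDiff_const.add ((contDiff_apply ℝ ℂ j).norm_sq ℝ)

lemma Sm_rj (j : Fin n) : Sm (rj j) := Sm_flat (rj_contDiff j)

/-- `log (1 + |z_j|²)` -/
def Lj (j : Fin n) (z : Fin n → ℂ) : ℝ := Real.log (rj j z)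

lemma Sm_Lj (j : Fin n) : Sm (Lj j) :=
  Sm_flat ((rj_contDiff j).log fun z => (rj_pos j z).ne')

lemma rj_eq (j : Fin n) : (fun z : Fin n → ℂ => ((rj j z : ℝ) : ℂ)) =
    fun z => 1 + conj (cf j z) * cf j z := by
  funext z
  simp only [rj, cf]
  push_cast
  rw [← Complex.conj_mul' (z j)]

lemma db_rj (j k : Fin n) (z : Fin n → ℂ) : db k (fun z => ((rj j z : ℝ) : ℂ)) z =
    if k = j then z j else 0 := by
  rw [rj_eq, db_add (Sm.const 1) ((Sm_cf j).conj.mul (Sm_cf j)), db_const,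
    db_mul (Sm_cf j).conj (Sm_cf j), db_conj (Sm_cf j), dz_cf, db_cf, mul_zero, add_zero, zero_add]
  by_cases h : k = j
  · simp [h, cf]
  · simp [h]

lemma dz_rj (j k : Fin n) (z : Fin n → ℂ) : dz k (fun z => ((rj j z : ℝ) : ℂ)) z =
    if k = j then conj (z j) else 0 := by
  have h := db_ofReal (Sm_rj j) k z
  rw [db_rj] at h
  have h2 := congrArg conj h
  rw [Complex.conj_conj] at h2
  rw [← h2]
  split_ifs <;> simp

lemma Lv_Lj (j k l : Fin n) (z : Fin n → ℂ) : Lv (Lj j) z k l =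
    if k = j ∧ l = j then (((rj j z)⁻¹ ^ 2 : ℝ) : ℂ) else 0 := by
  have hr : ∀ z : Fin n → ℂ, 0 < rj j z := rj_pos j
  have hinv : Sm (fun z : Fin n → ℂ => (rj j z)⁻¹) :=
    Sm_flat ((rj_contDiff j).inv fun z => (hr z).ne')
  have h1 : db l (fun z => ((Lj j z : ℝ) : ℂ)) = fun z => (((rj j z)⁻¹ : ℝ) : ℂ) *
      (if l = j then cf j z else 0) := by
    funext y
    have h2 := db_comp_real (f := rj j) (g := Real.log) (g' := (rj j y)⁻¹) (Sm_rj j) (Sm_Lj j) y
      (Real.hasDerivAt_log (hr y).ne') l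
    rw [db_rj] at h2
    exact h2
  unfold Lv
  rw [h1]
  by_cases hl : l = j
  · simp only [hl, if_true, and_true]
    rw [dz_mul hinv.ofReal (Sm_cf j), dz_cf]
    have h3 := dz_comp_real (f := rj j) (g := fun t => t⁻¹) (g' := -(rj j z ^ 2)⁻¹) (Sm_rj j) hinv z
      (hasDerivAt_inv (hr z).ne') k
    rw [dz_rj] at h3
    rw [h3]
    by_cases hk : k = j
    · simp only [hk, if_true, cf]
      have h4 : (rj j z : ℂ) ≠ 0 := by exact_mod_cast (hr z).ne'
      have h5 : conj (z j) * z j = (rj j z : ℂ) - 1 := by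
        rw [Complex.conj_mul']; simp [rj]
      push_cast
      have h6 : -((rj j z : ℂ) ^ 2)⁻¹ * conj (z j) * z j = -((rj j z : ℂ) ^ 2)⁻¹ * ((rj j z : ℂ) - 1) := by
        rw [mul_assoc, h5]
      rw [h6]
      field_simp
      ring
    · simp [hk]
  · simp [hl, dz_const]

lemma Levi_Lj_nonneg (j : Fin n) (z w : Fin n → ℂ) : 0 ≤ Levi (Lj j) z w := by
  have h : Levi (Lj j) z w = (rj j z)⁻¹ ^ 2 * ‖w j‖ ^ 2 := by
    unfold Levi
    have h1 : ∑ k, ∑ l, Lv (Lj j) z k l * w k * conj (w l) =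
        (((rj j z)⁻¹ ^ 2 * ‖w j‖ ^ 2 : ℝ) : ℂ) := by
      rw [Finset.sum_eq_single j, Finset.sum_eq_single j]
      · rw [Lv_Lj]
        simp only [and_self, if_true]
        push_cast
        rw [← Complex.mul_conj']; ring
      · intro l _ hl; rw [Lv_Lj]; simp [hl]
      · simp
      · intro k _ hk
        refine Finset.sum_eq_zero fun l _ => ?_
        rw [Lv_Lj]; simp [hk]
      · simp
    rw [h1, Complex.ofReal_re]
  rw [h]; positivity

lemma Lj_le (j : Fin n) (z : Fin n → ℂ) : Lj j z ≤ Lg z := by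
  unfold Lj Lg
  refine Real.log_le_log (rj_pos j z) ?_
  unfold rj nsq
  have := Finset.single_le_sum (f := fun i => ‖z i‖ ^ 2) (fun i _ => by positivity)
    (Finset.mem_univ j)
  linarith

lemma Lv_sum {M : Type*} [TopologicalSpace M] [RDom n M] {ι : Type*} (s : Finset ι)
    {φ : ι → M → ℝ} (hφ : ∀ i, Sm (φ i)) (x : M) (j k : Fin n) :
    Lv (fun y => ∑ i ∈ s, φ i y) x j k = ∑ i ∈ s, Lv (φ i) x j k := by
  classical
  induction s using Finset.induction_on with
  | empty => simpa using Lv_const (M := M) 0 x j k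
  | insert a s ha ih =>
    simp only [Finset.sum_insert ha]
    rw [Lv_add (hφ a) (Sm.sum fun i _ => hφ i), ih]

lemma Levi_sum {M : Type*} [TopologicalSpace M] [RDom n M] {ι : Type*} (s : Finset ι)
    {φ : ι → M → ℝ} (hφ : ∀ i, Sm (φ i)) (x : M) (w : Fin n → ℂ) :
    Levi (fun y => ∑ i ∈ s, φ i y) x w = ∑ i ∈ s, Levi (φ i) x w := by
  classical
  induction s using Finset.induction_on with
  | empty => simpa using Levi_const (M := M) 0 x w
  | insert a s ha ih =>
    simp only [Finset.sum_insert ha]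
    rw [Levi_add (hφ a) (Sm.sum fun i _ => hφ i), ih]

/-! ### `log |F|²` is pluriharmonic -/

section logh

variable {M : Type*} [TopologicalSpace M] [RDom n M]

lemma Sm_normSq {F : M → ℂ} (hF : Sm F) : Sm (fun x => ‖F x‖ ^ 2) := by
  have h1 : Sm (fun x => Complex.reCLM (F x * conj (F x))) :=
    (hF.mul hF.conj).clm Complex.reCLM
  have h2 : (fun x => ‖F x‖ ^ 2) = fun x => Complex.reCLM (F x * conj (F x)) := by
    funext x
    rw [Complex.mul_conj, Complex.normSq_eq_norm_sq, Complex.reCLM_apply, Complex.ofReal_re]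
  rw [h2]; exact h1

lemma Sm_log {f : M → ℝ} (hf : Sm f) (h0 : ∀ x, 0 < f x) : Sm (fun x => Real.log (f x)) :=
  Sm.comp_at hf fun x => Real.contDiffAt_log.2 (h0 x).ne'

lemma Sm_inv {f : M → ℝ} (hf : Sm f) (h0 : ∀ x, 0 < f x) : Sm (fun x => (f x)⁻¹) :=
  Sm.comp_at hf fun x => contDiffAt_inv ℝ (h0 x).ne'

theorem Lv_log_normSq {F : M → ℂ} (hF : Sm F) (hdb : ∀ k x, db k F x = 0) (h0 : ∀ x, F x ≠ 0)
    (x : M) (j k : Fin n) : Lv (fun y => Real.log (‖F y‖ ^ 2)) x j k = 0 := by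
  have hN : Sm (fun x => ‖F x‖ ^ 2) := Sm_normSq hF
  have hN0 : ∀ x, 0 < ‖F x‖ ^ 2 := fun x => by
    have := norm_pos_iff.2 (h0 x)
    positivity
  have hinv : Sm (fun x => (‖F x‖ ^ 2)⁻¹) := Sm_inv hN hN0
  -- q = ∂_k F / F
  set q : M → ℂ := fun y => (((‖F y‖ ^ 2)⁻¹ : ℝ) : ℂ) * conj (F y) * dz k F y with hq
  have hqs : Sm q := (hinv.ofReal.mul hF.conj).mul (hF.dz k)
  have hqF : ∀ y, q y * F y = dz k F y := by
    intro y
    simp only [hq]
    have h1 : conj (F y) * F y = ((‖F y‖ ^ 2 : ℝ) : ℂ) := by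
      rw [Complex.conj_mul']; push_cast; rfl
    have h2 : ((‖F y‖ ^ 2 : ℝ) : ℂ) ≠ 0 := by exact_mod_cast (hN0 y).ne'
    calc (((‖F y‖ ^ 2)⁻¹ : ℝ) : ℂ) * conj (F y) * dz k F y * F y =
        (((‖F y‖ ^ 2)⁻¹ : ℝ) : ℂ) * (conj (F y) * F y) * dz k F y := by ring
      _ = dz k F y := by
        rw [h1, Complex.ofReal_inv, inv_mul_cancel₀ h2, one_mul]
  have hdq : db j q x = 0 := by
    have h1 : db j (fun y => q y * F y) x = db j (dz k F) x := by
      apply db_congr
      exact Eventually.of_forall hqF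
    rw [db_mul hqs hF, hdb, mul_zero, add_zero, ← dz_db_comm hF] at h1
    have h2 : dz k (db j F) x = 0 := by
      have : db j F = fun _ => (0 : ℂ) := funext fun y => hdb j y
      rw [this, dz_const]
    rw [h2] at h1
    exact (mul_eq_zero.1 h1).resolve_right (h0 x)
  have h1 : db k (fun y => ((Real.log (‖F y‖ ^ 2) : ℝ) : ℂ)) = fun y => conj (q y) := by
    funext y
    have h2 := db_comp_real (f := fun x => ‖F x‖ ^ 2) (g := Real.log) (g' := (‖F y‖ ^ 2)⁻¹) hN
      (Sm_log hN hN0) y (Real.hasDerivAt_log (hN0 y).ne') k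
    rw [h2]
    have h3 : db k (fun x => ((‖F x‖ ^ 2 : ℝ) : ℂ)) y = F y * conj (dz k F y) := by
      have h4 : (fun x => ((‖F x‖ ^ 2 : ℝ) : ℂ)) = fun x => F x * conj (F x) := by
        funext x; rw [Complex.mul_conj']; push_cast; rfl
      rw [h4, db_mul hF hF.conj, hdb, zero_mul, zero_add, db_conj hF]
    rw [h3]
    simp only [hq, map_mul, Complex.conj_conj, Complex.conj_ofReal]
    ring
  unfold Lv
  rw [h1, dz_conj hqs, hdq, map_zero]

lemma db_hol [T2Space M] {h : (Fin n → ℂ) → ℂ} (hh : Differentiable ℂ h) (k : Fin n) (x : M) :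
    db k (fun y : M => h (cp y)) x = 0 := by
  rw [db_coord, db_eq, D_flat]
  have h1 : fderiv ℝ h (cp x) = (fderiv ℂ h (cp x)).restrictScalars ℝ :=
    (hh (cp x)).fderiv_restrictScalars ℝ
  rw [h1]
  simp only [ContinuousLinearMap.coe_restrictScalars']
  have h2 : (Pi.single k Complex.I : Fin n → ℂ) = Complex.I • Pi.single k 1 := by
    rw [← Pi.single_smul]; simp
  rw [h2, map_smul, smul_eq_mul, ← mul_assoc, Complex.I_mul_I]
  ring

end logh

/-! ### the finite mass theorem with a boundary function `h` -/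

section massh

variable {M : Type*} [TopologicalSpace M] [RDom n M] [T2Space M] [SecondCountableTopology M]
  [MeasurableSpace M] [BorelSpace M] {μ : Measure M}

/-- the data of the finite mass theorem -/
structure MData (M : Type*) [TopologicalSpace M] [RDom n M] where
  /-- bound of the fibres -/
  N : ℕ
  hN : ∀ z : Fin n → ℂ, ((cp : M → (Fin n → ℂ)) ⁻¹' {z}).encard ≤ N
  /-- the boundary function -/
  h : (Fin n → ℂ) → ℂ
  hh : Differentiable ℂ h
  hs : ContDiff ℝ (⊤ : ℕ∞) h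
  h0 : ∀ x : M, h (cp x) ≠ 0
  /-- growth constant -/
  C : ℝ
  hC : 0 ≤ C
  hgh : ∀ x : M, Real.log ‖h (cp x)‖ ≤ C + C * Lg (cp x)
  hprop : ∀ R δ : ℝ, 0 < δ → IsCompact {x : M | nsq (cp x) ≤ R ∧ δ ≤ ‖h (cp x)‖}
  /-- `log d` is the psh function -/
  d : M → ℝ
  sd : Sm d
  hpsh : ∀ x, 0 < d x → ∀ w, 0 ≤ Levi (fun y => Real.log (d y)) x w
  hgr : ∀ x, 0 < d x → Real.log (d x) ≤ C + C * Lg (cp x) + C * Real.posLog ‖h (cp x)‖⁻¹

variable (P : MData (n := n) M)

lemma MData.split (P : MData (n := n) M) {Ψ : (Fin n → ℂ) → ℝ} (hΨ : Sm Ψ) (k : ℕ) {x : M}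
    (hx : 0 < P.d x) (i j : Fin n) :
    Lv (fun y : M => Real.log (P.d y * (‖P.h (cp y)‖ ^ 2) ^ k * Real.exp (Ψ (cp y)))) x i j =
      Lv (fun y => Real.log (P.d y)) x i j + Lv Ψ (cp x) i j := by
  obtain ⟨J, hJ⟩ := log_eq_VL P.sd.continuous hx
  have hF : Sm (fun y : M => P.h (cp y)) := Sm.of_coord P.hs
  have hN0 : ∀ y : M, 0 < ‖P.h (cp y)‖ ^ 2 := fun y => by
    have := norm_pos_iff.2 (P.h0 y)
    positivity
  have hH : Sm (fun y : M => Real.log (‖P.h (cp y)‖ ^ 2)) := Sm_log (Sm_normSq hF) hN0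
  have hΨs : Sm (fun y : M => Ψ (cp y)) := Sm.of_coord (Sm_flat_iff.1 hΨ)
  have hV : Sm (fun y => VL J (P.d y)) := Sm.comp (VL_contDiff J) P.sd
  have h1 : (fun y : M => Real.log (P.d y * (‖P.h (cp y)‖ ^ 2) ^ k * Real.exp (Ψ (cp y))))
      =ᶠ[𝓝 x] fun y => (VL J (P.d y) + k * Real.log (‖P.h (cp y)‖ ^ 2)) + Ψ (cp y) := by
    filter_upwards [hJ, P.sd.continuous.continuousAt.eventually (lt_mem_nhds hx)] with y hy hy0
    rw [← hy, Real.log_mul (mul_pos hy0 (pow_pos (hN0 y) k)).ne' (Real.exp_pos _).ne',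
      Real.log_mul hy0.ne' (pow_pos (hN0 y) k).ne', Real.log_exp, Real.log_pow]
  rw [Lv_congr h1, Lv_add (hV.add ((Sm.const (k : ℝ)).mulR hH)) hΨs,
    Lv_add hV ((Sm.const (k : ℝ)).mulR hH), Lv_const_mul hH,
    Lv_log_normSq hF (fun k x => db_hol P.hh k x) P.h0, mul_zero, add_zero, Lv_coord, Lv_congr hJ]

/-- **finite mass** with an auxiliary psh function `Ψ` of logarithmic growth on `ℂⁿ` -/
theorem mass_h (hμ : IsLeb μ) (P : MData (n := n) M) {Ψ : (Fin n → ℂ) → ℝ} (hΨ : Sm Ψ)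
    (pΨ : ∀ z w, 0 ≤ Levi Ψ z w) {c : ℝ} (hc : 0 ≤ c) (gΨ : ∀ z, Ψ z ≤ c + c * Lg z) :
    ∫⁻ x in {x | 0 < P.d x},
      ENNReal.ofReal (LvM (fun y => Real.log (P.d y)) x + LvM Ψ (cp x)).det.re ∂μ < ∞ := by
  obtain ⟨k, hk⟩ := exists_nat_ge ((P.C + 1) / 2)
  have hk2 : P.C + 1 ≤ 2 * k := by linarith
  set D : M → ℝ := fun y => P.d y * (‖P.h (cp y)‖ ^ 2) ^ k * Real.exp (Ψ (cp y)) with hDdef
  have hF : Sm (fun y : M => P.h (cp y)) := Sm.of_coord P.hs
  have hN : Sm (fun y : M => ‖P.h (cp y)‖ ^ 2) := Sm_normSq hF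
  have hn0 : ∀ y : M, 0 < ‖P.h (cp y)‖ := fun y => norm_pos_iff.2 (P.h0 y)
  have hN0 : ∀ y : M, 0 < ‖P.h (cp y)‖ ^ 2 := fun y => by
    have := hn0 y
    positivity
  have hΨs : Sm (fun y : M => Ψ (cp y)) := Sm.of_coord (Sm_flat_iff.1 hΨ)
  have hD : Sm D := (P.sd.mulR (Sm.comp (contDiff_id.pow k) hN)).mulR
    (Sm.comp Real.contDiff_exp hΨs)
  have hpos : ∀ x, 0 < D x ↔ 0 < P.d x := by
    intro x
    have h1 : 0 < (‖P.h (cp x)‖ ^ 2) ^ k := pow_pos (hN0 x) k
    have h2 := Real.exp_pos (Ψ (cp x))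
    simp only [hDdef]
    rw [mul_pos_iff_of_pos_right h2, mul_pos_iff_of_pos_right h1]
  have hlog : ∀ x, 0 < P.d x → Real.log (D x) = Real.log (P.d x) +
      2 * k * Real.log ‖P.h (cp x)‖ + Ψ (cp x) := by
    intro x hx
    simp only [hDdef]
    rw [Real.log_mul (mul_pos hx (pow_pos (hN0 x) k)).ne' (Real.exp_pos _).ne',
      Real.log_mul hx.ne' (pow_pos (hN0 x) k).ne', Real.log_exp, Real.log_pow, Real.log_pow]
    push_cast; ring
  have hsplit : ∀ x, 0 < P.d x → ∀ i j, Lv (fun y => Real.log (D y)) x i j =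
      Lv (fun y => Real.log (P.d y)) x i j + Lv Ψ (cp x) i j := fun x hx i j =>
    P.split hΨ k hx i j
  have hpsh : ∀ x, 0 < D x → ∀ w, 0 ≤ Levi (fun y => Real.log (D y)) x w := by
    intro x hx w
    have hx' := (hpos x).1 hx
    have h1 : Levi (fun y => Real.log (D y)) x w =
        Levi (fun y => Real.log (P.d y)) x w + Levi Ψ (cp x) w := by
      unfold Levi
      rw [← Complex.add_re]
      congr 1
      simp only [hsplit x hx', add_mul, Finset.sum_add_distrib]
    rw [h1]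
    exact add_nonneg (P.hpsh x hx' w) (pΨ _ w)
  -- upper bounds
  have hup : ∀ x, 0 < P.d x → Real.log (D x) ≤
      (P.C + c) + (P.C + c) * Lg (cp x) + (if 1 ≤ ‖P.h (cp x)‖ then 2 * k * (P.C + P.C * Lg (cp x))
        else Real.log ‖P.h (cp x)‖) := by
    intro x hx
    rw [hlog x hx]
    have h1 := P.hgr x hx
    have h2 := gΨ (cp x)
    have h3 := P.hgh x
    have hk0 : (0 : ℝ) ≤ 2 * k := by positivity
    split_ifs with hh
    · have h4 : Real.posLog ‖P.h (cp x)‖⁻¹ = 0 := by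
        rw [Real.posLog_eq_zero_iff]
        rw [abs_of_nonneg (by positivity)]
        exact inv_le_one_of_one_le₀ hh
      rw [h4, mul_zero, add_zero] at h1
      have h5 := mul_le_mul_of_nonneg_left h3 hk0
      nlinarith
    · push Not at hh
      have h4 : Real.posLog ‖P.h (cp x)‖⁻¹ = - Real.log ‖P.h (cp x)‖ := by
        show max 0 (Real.log ‖P.h (cp x)‖⁻¹) = _
        rw [Real.log_inv, max_eq_right]
        have := Real.log_neg (hn0 x) hh
        linarith
      rw [h4] at h1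
      have h5 : Real.log ‖P.h (cp x)‖ < 0 := Real.log_neg (hn0 x) hh
      have h6 : (2 * k - P.C) * Real.log ‖P.h (cp x)‖ ≤ Real.log ‖P.h (cp x)‖ := by
        nlinarith
      nlinarith
  have hgr : ∀ x, 0 < D x → Real.log (D x) ≤ (P.C + c + 2 * k * P.C) +
      (P.C + c + 2 * k * P.C) * Lg (cp x) := by
    intro x hx
    refine (hup x ((hpos x).1 hx)).trans ?_
    have hL := Lg_nonneg (cp x)
    have hC := P.hC
    have hk0 : (0 : ℝ) ≤ 2 * k * P.C := by positivity
    split_ifs with hh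
    · nlinarith
    · push Not at hh
      have h5 : Real.log ‖P.h (cp x)‖ < 0 := Real.log_neg (hn0 x) hh
      have : 0 ≤ 2 * k * P.C * Lg (cp x) := by positivity
      nlinarith
  have hcp : ∀ R ε : ℝ, 0 < ε → IsCompact {x : M | nsq (cp x) ≤ R ∧ ε ≤ D x} := by
    intro R ε hε
    set B : ℝ := (P.C + c) + (P.C + c) * Real.log (1 + |R|) with hB
    set δ : ℝ := min 1 (Real.exp (Real.log ε - B)) with hδ
    have hδ0 : 0 < δ := lt_min one_pos (Real.exp_pos _)
    refine (P.hprop R δ hδ0).of_isClosed_subset ?_ ?_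
    · exact (isClosed_le (continuous_nsq.comp cp_cont) continuous_const).inter
        (isClosed_le continuous_const hD.continuous)
    · rintro x ⟨h1, h2⟩
      refine ⟨h1, ?_⟩
      by_cases hh : 1 ≤ ‖P.h (cp x)‖
      · exact (min_le_left _ _).trans hh
      · have hDx : 0 < D x := hε.trans_le h2
        have h3 := hup x ((hpos x).1 hDx)
        rw [if_neg hh] at h3
        have h4 : Real.log ε ≤ Real.log (D x) := Real.log_le_log hε h2
        have h5 : Lg (cp x) ≤ Real.log (1 + |R|) := by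
          unfold Lg
          refine Real.log_le_log (rho_pos _) ?_
          linarith [le_abs_self R]
        have h6 : (P.C + c) * Lg (cp x) ≤ (P.C + c) * Real.log (1 + |R|) :=
          mul_le_mul_of_nonneg_left h5 (by linarith [P.hC])
        have h7 : Real.log ε - B ≤ Real.log ‖P.h (cp x)‖ := by
          simp only [hB]; linarith
        refine (min_le_right _ _).trans ?_
        rw [← Real.exp_log (hn0 x)]
        exact Real.exp_le_exp.2 h7
  have key := mass_log hμ P.hN hD hpsh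
    (C := P.C + c + 2 * k * P.C) (by have := P.hC; positivity) hgr hcp
  have hset : {x | 0 < D x} = {x | 0 < P.d x} := by ext x; exact hpos x
  rw [hset] at key
  have hmeas : MeasurableSet {x : M | 0 < P.d x} :=
    (isOpen_lt continuous_const P.sd.continuous).measurableSet
  have heq : ∫⁻ x in {x | 0 < P.d x}, dens (fun y => Real.log (D y)) x ∂μ =
      ∫⁻ x in {x | 0 < P.d x},
        ENNReal.ofReal (LvM (fun y => Real.log (P.d y)) x + LvM Ψ (cp x)).det.re ∂μ := by
    refine setLIntegral_congr_fun hmeas fun x hx => ?_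
    have h1 : LvM (fun y => Real.log (D y)) x =
        LvM (fun y => Real.log (P.d y)) x + LvM Ψ (cp x) := by
      ext i j
      exact hsplit x hx i j
    simp only [dens, h1]
  rw [← heq]
  refine key.trans_lt ?_
  exact ENNReal.mul_lt_top (ENNReal.natCast_lt_top _)
    (ENNReal.mul_lt_top ENNReal.ofReal_lt_top (K0_lt_top n))

/-! ### the version with a frame -/

section frame

variable {α β : Type*} [Fintype α] [DecidableEq α] [Fintype β] [DecidableEq β]

/-- `log (1+|z|²) + Σ_{i ≠ i₀} log (1+|z_i|²)` -/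
def Psi (e : Fin n ≃ α ⊕ β) (i₀ : α) (z : Fin n → ℂ) : ℝ :=
  Lg z + ∑ i ∈ Finset.univ.erase i₀, Lj (e.symm (Sum.inl i)) z

lemma Sm_Psi (e : Fin n ≃ α ⊕ β) (i₀ : α) : Sm (Psi e i₀) :=
  Sm_Lg.add (Sm.sum fun _ _ => Sm_Lj _)

lemma Levi_Psi_nonneg (e : Fin n ≃ α ⊕ β) (i₀ : α) (z w : Fin n → ℂ) :
    0 ≤ Levi (Psi e i₀) z w := by
  unfold Psi
  rw [Levi_add Sm_Lg (Sm.sum fun _ _ => Sm_Lj _), Levi_sum _ fun _ => Sm_Lj _]
  exact add_nonneg (Levi_Lg_nonneg z w) (Finset.sum_nonneg fun _ _ => Levi_Lj_nonneg _ z w)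

lemma Psi_le (e : Fin n ≃ α ⊕ β) (i₀ : α) (z : Fin n → ℂ) :
    Psi e i₀ z ≤ (1 + Fintype.card α) + (1 + Fintype.card α) * Lg z := by
  have h1 : ∑ i ∈ Finset.univ.erase i₀, Lj (e.symm (Sum.inl i)) z ≤ Fintype.card α * Lg z := by
    refine (Finset.sum_le_sum fun i _ => Lj_le (e.symm (Sum.inl i)) z).trans ?_
    rw [Finset.sum_const, nsmul_eq_mul]
    refine mul_le_mul_of_nonneg_right ?_ (Lg_nonneg z)
    exact_mod_cast Finset.card_le_univ _
  have h2 : (0 : ℝ) ≤ 1 + Fintype.card α := by positivity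
  unfold Psi
  linarith

open Crest.Agent.R276.LinAlg_137 in
open scoped ComplexOrder in
/-- 409's (MASS): `G` a nonnegative Hermitian matrix function with `G ≤ Lv (log d)`, rows `X i` with
`X i = (e_i, *)` and `X i · G = 0`. -/
theorem mass_frame (hμ : IsLeb μ) (P : MData (n := n) M) (e : Fin n ≃ α ⊕ β) (i₀ : α)
    (G : M → Matrix (Fin n) (Fin n) ℂ) (X : M → Matrix α (Fin n) ℂ)
    (hG : ∀ x, 0 < P.d x → (G x).PosSemidef)
    (hGle : ∀ x, 0 < P.d x → (LvM (fun y => Real.log (P.d y)) x - G x).PosSemidef)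
    (hX : ∀ x i j, X x i (e.symm (Sum.inl j)) = if i = j then 1 else 0)
    (hker : ∀ x, 0 < P.d x → X x * G x = 0) :
    ∫⁻ x in {x | 0 < P.d x}, ENNReal.ofReal (Levi Lg (cp x) (X x i₀) *
      (∏ i ∈ Finset.univ.erase i₀, ((1 + ‖cp x (e.symm (Sum.inl i))‖ ^ 2)⁻¹) ^ 2) *
      ((G x).submatrix (e.symm ∘ Sum.inr) (e.symm ∘ Sum.inr)).det.re) ∂μ < ∞ := by
  have hfin := mass_h hμ P (Sm_Psi e i₀) (Levi_Psi_nonneg e i₀)
    (c := 1 + Fintype.card α) (by positivity) (Psi_le e i₀)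
  have hmeas : MeasurableSet {x : M | 0 < P.d x} :=
    (isOpen_lt continuous_const P.sd.continuous).measurableSet
  refine (setLIntegral_mono' hmeas fun x hx => ?_).trans_lt hfin
  refine ENNReal.ofReal_le_ofReal ?_
  have hx0 : 0 < P.d x := hx
  set z := cp x with hz
  set s : α → ℝ := fun i => if i = i₀ then 0 else ((1 + ‖z (e.symm (Sum.inl i))‖ ^ 2)⁻¹) ^ 2 with hs
  set S : Fin n → ℂ := fun l => Sum.elim (fun i => (s i : ℂ)) (fun _ : β => (0 : ℂ)) (e l) with hS
  have hLvPsi : LvM (Psi e i₀) z = LvM Lg z + Matrix.diagonal S := by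
    ext k l
    have h1 : Lv (Psi e i₀) z k l = Lv Lg z k l +
        ∑ i ∈ Finset.univ.erase i₀, Lv (Lj (e.symm (Sum.inl i))) z k l := by
      unfold Psi
      rw [Lv_add Sm_Lg (Sm.sum fun _ _ => Sm_Lj _), Lv_sum _ fun _ => Sm_Lj _]
    have h2 : ∑ i ∈ Finset.univ.erase i₀, Lv (Lj (e.symm (Sum.inl i))) z k l =
        (Matrix.diagonal S) k l := by
      rw [Matrix.diagonal_apply]
      simp only [Lv_Lj]
      by_cases hkl : k = l
      · subst hkl
        simp only [and_self, if_true]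
        rcases hek : e k with i | b
        · have hk' : k = e.symm (Sum.inl i) := by rw [← hek, e.symm_apply_apply]
          have hinj : ∀ i', (k = e.symm (Sum.inl i')) ↔ i = i' := by
            intro i'
            rw [hk', e.symm.injective.eq_iff, Sum.inl_injective.eq_iff]
          simp only [hinj, hS, hek, Sum.elim_inl, hs]
          rw [Finset.sum_ite_eq]
          by_cases hii : i = i₀
          · simp [hii]
          · simp [hii, rj]
        · have hk' : k = e.symm (Sum.inr b) := by rw [← hek, e.symm_apply_apply]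
          simp only [hS, hek, Sum.elim_inr]
          refine Finset.sum_eq_zero fun i _ => ?_
          rw [if_neg]
          rw [hk', e.symm.injective.eq_iff]
          simp
      · rw [if_neg hkl]
        refine Finset.sum_eq_zero fun i _ => ?_
        rw [if_neg]
        rintro ⟨h3, h4⟩
        exact hkl (h3.trans h4.symm)
    show Lv (Psi e i₀) z k l = Lv Lg z k l + (Matrix.diagonal S) k l
    rw [h1, h2]
  have hLgp : (LvM Lg z).PosSemidef := LvM_posSemidef Sm_Lg (Levi_Lg_nonneg z)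
  have hOm : ((LvM (fun y => Real.log (P.d y)) x - G x) + LvM Lg z).PosSemidef :=
    (hGle x hx0).add hLgp
  have hsn : ∀ i, 0 ≤ s i := by
    intro i
    simp only [hs]
    split_ifs
    · exact le_rfl
    · positivity
  have key := det_frame_diag e (hG x hx0) hOm (X x) (hX x) (hker x hx0) s i₀ hsn
    (by simp [hs]) S (fun i => by simp [hS]) (fun b => by simp [hS])
  have hsum : G x + ((LvM (fun y => Real.log (P.d y)) x - G x + LvM Lg z) + Matrix.diagonal S) =
      LvM (fun y => Real.log (P.d y)) x + LvM (Psi e i₀) z := by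
    rw [hLvPsi]; abel
  rw [hsum] at key
  have hprod : (∏ i ∈ Finset.univ.erase i₀, (s i : ℂ)) =
      ((∏ i ∈ Finset.univ.erase i₀, ((1 + ‖z (e.symm (Sum.inl i))‖ ^ 2)⁻¹) ^ 2 : ℝ) : ℂ) := by
    push_cast
    refine Finset.prod_congr rfl fun i hi => ?_
    have hne : i ≠ i₀ := Finset.ne_of_mem_erase hi
    simp [hs, hne]
  rw [hprod] at key
  -- the diagonal entries
  have hentry : ∀ A : Matrix (Fin n) (Fin n) ℂ, (X x * A * (X x)ᴴ) i₀ i₀ =
      ∑ j, ∑ k, A j k * X x i₀ j * conj (X x i₀ k) := by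
    intro A
    simp only [Matrix.mul_apply, Matrix.conjTranspose_apply, Finset.sum_mul]
    rw [Finset.sum_comm]
    refine Finset.sum_congr rfl fun j _ => Finset.sum_congr rfl fun k _ => ?_
    simp only [RCLike.star_def]
    ring
  have hLgentry : (X x * LvM Lg z * (X x)ᴴ) i₀ i₀ = ((Levi Lg z (X x i₀) : ℝ) : ℂ) := by
    rw [hentry, Levi_eq Sm_Lg]; rfl
  have hle : ((Levi Lg z (X x i₀) : ℝ) : ℂ) ≤
      (X x * ((LvM (fun y => Real.log (P.d y)) x - G x) + LvM Lg z) * (X x)ᴴ) i₀ i₀ := by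
    have h1 : (X x * ((LvM (fun y => Real.log (P.d y)) x - G x) + LvM Lg z) * (X x)ᴴ) i₀ i₀ =
        (X x * (LvM (fun y => Real.log (P.d y)) x - G x) * (X x)ᴴ) i₀ i₀ +
          (X x * LvM Lg z * (X x)ᴴ) i₀ i₀ := by
      rw [Matrix.mul_add, Matrix.add_mul, Matrix.add_apply]
    rw [h1, hLgentry]
    have h2 := ((hGle x hx0).mul_mul_conjTranspose_same (X x)).diag_nonneg (i := i₀)
    exact le_add_of_nonneg_left h2
  have hGy : 0 ≤ ((G x).submatrix (e.symm ∘ Sum.inr) (e.symm ∘ Sum.inr)).det :=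
    ((hG x hx0).submatrix _).det_nonneg
  set π : ℝ := ∏ i ∈ Finset.univ.erase i₀, ((1 + ‖z (e.symm (Sum.inl i))‖ ^ 2)⁻¹) ^ 2 with hπ
  have hπ0 : (0 : ℂ) ≤ (π : ℂ) := by
    have : 0 ≤ π := Finset.prod_nonneg fun i _ => by positivity
    exact_mod_cast this
  have h5 := (mul_le_mul_of_nonneg_right (mul_le_mul_of_nonneg_right hle hπ0) hGy).trans key
  have h6 := (Complex.le_def.1 h5).1
  have hGyre : ((G x).submatrix (e.symm ∘ Sum.inr) (e.symm ∘ Sum.inr)).det =
      ((((G x).submatrix (e.symm ∘ Sum.inr) (e.symm ∘ Sum.inr)).det.re : ℝ) : ℂ) := by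
    have := (Complex.le_def.1 hGy).2
    exact Complex.ext (by simp) (by simpa using this.symm)
  rw [hGyre, ← Complex.ofReal_mul, ← Complex.ofReal_mul, Complex.ofReal_re] at h6
  exact h6

end frame

end massh

end Crest.Agent.R276.NL_137
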