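import Mathlib
import Crest.Agent.R276.IpcDefs_735
import Crest.Agent.R276.VCalcE_442
import Crest.Agent.R276.IpcLoc_735

-- ▼ part R276/PdA_571
section

/-!
# R276, leaf PD (helper571): proper discontinuity for variations of Hodge structure with a lattice

* `act g (E, S)`: action of `GL_N(ℤ)` on pairs (grading operator, form).
* `hodge_act`, `hodge_posDef`, `continuous_hodge`.
* `finite_gl`: the integral matrices which carry a Hodge structure near `e₁` to one near `e₂`.
-/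

set_option autoImplicit false

noncomputable section

open Set Filter Topology Matrix
open scoped ComplexOrder
open Crest.Agent.R271.Ho51
open Crest.Agent.R276.Ipc735

namespace Crest.Agent.R276.Pd571

/-- complex `N × N` matrices -/
abbrev Mt (N : ℕ) := Matrix (Fin N) (Fin N) ℂ

variable {N : ℕ}

/-! ### integral matrices -/

lemma cm_mul (g h : GL (Fin N) ℤ) : cm (g * h) = cm g * cm h := by
  unfold cm
  rw [Units.val_mul]
  exact Matrix.map_mul (f := Int.castRingHom ℂ)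

lemma cm_one : cm (1 : GL (Fin N) ℤ) = 1 := by
  unfold cm
  rw [Units.val_one]
  exact Matrix.map_one (Int.castRingHom ℂ) (map_zero _) (map_one _)

lemma cm_mul_inv (g : GL (Fin N) ℤ) : cm g * cm g⁻¹ = 1 := by
  rw [← cm_mul, mul_inv_cancel, cm_one]

lemma cm_inv_mul (g : GL (Fin N) ℤ) : cm g⁻¹ * cm g = 1 := by
  rw [← cm_mul, inv_mul_cancel, cm_one]


lemma finite_bdd (C : ℝ) :
    {g : GL (Fin N) ℤ | ∀ i j, ‖(cm g) i j‖ ≤ C}.Finite := by
  have h1 : {A : Matrix (Fin N) (Fin N) ℤ | ∀ i j, A i j ∈ Set.Icc (-⌈C⌉) ⌈C⌉}.Finite := by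
    have h2 : (Set.pi Set.univ fun _ : Fin N => Set.pi Set.univ fun _ : Fin N =>
        Set.Icc (-⌈C⌉) ⌈C⌉).Finite :=
      Set.Finite.pi fun _ => Set.Finite.pi fun _ => Set.finite_Icc _ _
    refine h2.subset ?_
    intro A hA i _ j _
    exact hA i j
  refine Set.Finite.preimage (f := fun g : GL (Fin N) ℤ => (g : Matrix (Fin N) (Fin N) ℤ))
    (fun a _ b _ e => Units.ext e) h1 |>.subset ?_
  intro g hg i j
  have h3 : ‖(cm g) i j‖ ≤ C := hg i j
  have h4 : ‖(cm g) i j‖ = |(((g : Matrix (Fin N) (Fin N) ℤ) i j : ℤ) : ℝ)| := by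
    simp [cm]
  rw [h4, abs_le] at h3
  constructor
  · have : -((⌈C⌉ : ℤ) : ℝ) ≤ (((g : Matrix (Fin N) (Fin N) ℤ) i j : ℤ) : ℝ) := by
      have := Int.le_ceil C
      linarith [h3.1]
    exact_mod_cast this
  · have : (((g : Matrix (Fin N) (Fin N) ℤ) i j : ℤ) : ℝ) ≤ ((⌈C⌉ : ℤ) : ℝ) :=
      h3.2.trans (Int.le_ceil C)
    exact_mod_cast this

/-! ### the action -/

/-- action of `GL_N(ℤ)` on pairs (grading operator, form) -/
def act (g : GL (Fin N) ℤ) (e : Mt N × Mt N) : Mt N × Mt N :=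
  (cm g * e.1 * cm g⁻¹, (cm g⁻¹)ᴴ * e.2 * cm g⁻¹)

lemma act_mul (g h : GL (Fin N) ℤ) (e : Mt N × Mt N) : act (g * h) e = act g (act h e) := by
  unfold act
  rw [_root_.mul_inv_rev, cm_mul, cm_mul]
  simp only [Matrix.conjTranspose_mul, Matrix.mul_assoc]

lemma act_one (e : Mt N × Mt N) : act 1 e = e := by
  unfold act
  rw [inv_one, cm_one]
  simp

lemma act_inv_act (g : GL (Fin N) ℤ) (e : Mt N × Mt N) : act g⁻¹ (act g e) = e := by
  rw [← act_mul, inv_mul_cancel, act_one]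




lemma hpr_conj (w p : ℕ) (g : GL (Fin N) ℤ) (E : Mt N) :
    hpr w p (cm g * E * cm g⁻¹) = cm g * hpr w p E * cm g⁻¹ := by
  unfold hpr
  have key : ∀ q : Polynomial ℂ, Polynomial.aeval (cm g * E * cm g⁻¹) q =
      cm g * Polynomial.aeval E q * cm g⁻¹ := by
    intro q
    have e : ∀ A : Mt N, cm g * A * cm g⁻¹ =
        ((MulSemiringAction.toAlgHom ℂ (Mt N) (ConjAct.toConjAct
          (⟨cm g, cm g⁻¹, cm_mul_inv g, cm_inv_mul g⟩ : (Mt N)ˣ)) :
          Mt N →ₐ[ℂ] Mt N)) A := by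
      intro A
      rfl
    rw [e, e, Polynomial.aeval_algHom_apply]
  exact key _

lemma weil_conj (w : ℕ) (g : GL (Fin N) ℤ) (E : Mt N) :
    weil w (cm g * E * cm g⁻¹) = cm g * weil w E * cm g⁻¹ := by
  unfold weil
  rw [Finset.mul_sum, Finset.sum_mul]
  refine Finset.sum_congr rfl fun p _ => ?_
  rw [hpr_conj, mul_smul_comm, smul_mul_assoc]

lemma hodge_act (w : ℕ) (g : GL (Fin N) ℤ) (e : Mt N × Mt N) :
    hodge w (act g e).2 (act g e).1 = (cm g⁻¹)ᴴ * hodge w e.2 e.1 * cm g⁻¹ := by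
  unfold hodge act
  simp only
  rw [weil_conj]
  calc (cm g⁻¹)ᴴ * e.2 * cm g⁻¹ * (cm g * weil w e.1 * cm g⁻¹)
      = (cm g⁻¹)ᴴ * e.2 * (cm g⁻¹ * cm g) * (weil w e.1 * cm g⁻¹) := by
        simp only [Matrix.mul_assoc]
    _ = _ := by rw [cm_inv_mul]; simp only [Matrix.mul_assoc, Matrix.one_mul]

lemma hodge_act' (w : ℕ) (g : GL (Fin N) ℤ) (e : Mt N × Mt N) :
    hodge w e.2 e.1 = (cm g)ᴴ * hodge w (act g e).2 (act g e).1 * cm g := by
  rw [hodge_act]
  calc hodge w e.2 e.1 = 1 * hodge w e.2 e.1 * 1 := by simp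
    _ = (cm g⁻¹ * cm g)ᴴ * hodge w e.2 e.1 * (cm g⁻¹ * cm g) := by
        rw [cm_inv_mul]; simp
    _ = _ := by simp only [Matrix.conjTranspose_mul, Matrix.mul_assoc]

lemma continuous_hodge (w : ℕ) : Continuous fun e : Mt N × Mt N => hodge w e.2 e.1 := by
  have h1 : ∀ q : Polynomial ℂ, Continuous fun E : Mt N => Polynomial.aeval E q :=
    fun q => Polynomial.continuous_aeval q
  have h2 : Continuous fun E : Mt N => weil w E := by
    unfold weil hpr
    exact continuous_finsetSum _ fun p _ => Continuous.const_smul (h1 _) ((-1 : ℂ) ^ p)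
  unfold hodge
  exact continuous_snd.mul (h2.comp continuous_fst)

/-! ### positivity of the Hodge form -/

section pos

variable {w : ℕ} {S E : Mt N}

lemma cast_injOn (w : ℕ) : Set.InjOn (fun q : ℕ => (q : ℂ)) (Finset.range (w + 1)) :=
  fun a _ b _ h => by
    have h' : (a : ℂ) = (b : ℂ) := h
    exact_mod_cast h'

lemma sum_hpr (w : ℕ) (E : Mt N) : ∑ p ∈ Finset.range (w + 1), hpr w p E = 1 := by
  unfold hpr
  rw [← map_sum, Lagrange.sum_basis (cast_injOn w) ⟨0, by simp⟩, map_one]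

lemma E_mul_hpr (h : IsHS w S E) {p : ℕ} (hp : p ∈ Finset.range (w + 1)) :
    E * hpr w p E = (p : ℂ) • hpr w p E := by
  have h1 : (Polynomial.X - Polynomial.C (p : ℂ)) *
      Lagrange.basis (Finset.range (w + 1)) (fun q : ℕ => (q : ℂ)) p =
      (∏ q ∈ (Finset.range (w + 1)).erase p, Polynomial.C ((p : ℂ) - (q : ℂ))⁻¹) *
        ∏ q ∈ Finset.range (w + 1), (Polynomial.X - Polynomial.C (q : ℂ)) := by
    rw [← Finset.mul_prod_erase (Finset.range (w + 1))
      (fun q => Polynomial.X - Polynomial.C (q : ℂ)) hp]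
    unfold Lagrange.basis Lagrange.basisDivisor
    rw [Finset.prod_mul_distrib]
    ring
  have h5 := congrArg (Polynomial.aeval E) h1
  rw [map_mul, map_mul, h.eig, mul_zero, map_sub, Polynomial.aeval_X, Polynomial.aeval_C,
    sub_mul, sub_eq_zero, Algebra.algebraMap_eq_smul_one, smul_mul_assoc, one_mul] at h5
  exact h5

lemma E_mulVec (h : IsHS w S E) {p : ℕ} (hp : p ∈ Finset.range (w + 1)) (v : Fin N → ℂ) :
    E *ᵥ (hpr w p E *ᵥ v) = (p : ℂ) • (hpr w p E *ᵥ v) := by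
  rw [Matrix.mulVec_mulVec, E_mul_hpr h hp, Matrix.smul_mulVec]

lemma orth (h : IsHS w S E) {p q : ℕ} (hpq : p ≠ q) {u v : Fin N → ℂ}
    (hu : E *ᵥ u = (p : ℂ) • u) (hv : E *ᵥ v = (q : ℂ) • v) : star u ⬝ᵥ S *ᵥ v = 0 := by
  have h1 : star u ⬝ᵥ (S * E) *ᵥ v = (q : ℂ) * (star u ⬝ᵥ S *ᵥ v) := by
    rw [← Matrix.mulVec_mulVec, hv, Matrix.mulVec_smul, dotProduct_smul, smul_eq_mul]
  have h2 : star u ⬝ᵥ (Eᴴ * S) *ᵥ v = (p : ℂ) * (star u ⬝ᵥ S *ᵥ v) := by
    rw [← Matrix.mulVec_mulVec, Matrix.dotProduct_mulVec (star u) Eᴴ, ← Matrix.star_mulVec, hu,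
      star_smul, smul_dotProduct, smul_eq_mul]
    simp
  rw [h.adj, h2] at h1
  have h3 : ((p : ℂ) - q) * (star u ⬝ᵥ S *ᵥ v) = 0 := by rw [sub_mul, h1, sub_self]
  rcases mul_eq_zero.1 h3 with h4 | h4
  · exact absurd (by exact_mod_cast sub_eq_zero.1 h4) hpq
  · exact h4

lemma expand (w : ℕ) (E : Mt N) (v : Fin N → ℂ) :
    v = ∑ p ∈ Finset.range (w + 1), hpr w p E *ᵥ v := by
  rw [← Matrix.sum_mulVec, sum_hpr, Matrix.one_mulVec]

lemma quad (h : IsHS w S E) (v : Fin N → ℂ) :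
    star v ⬝ᵥ hodge w S E *ᵥ v = ∑ p ∈ Finset.range (w + 1),
      (-1 : ℂ) ^ p * (star (hpr w p E *ᵥ v) ⬝ᵥ S *ᵥ (hpr w p E *ᵥ v)) := by
  have h1 : hodge w S E *ᵥ v =
      ∑ p ∈ Finset.range (w + 1), (-1 : ℂ) ^ p • (S *ᵥ (hpr w p E *ᵥ v)) := by
    unfold hodge weil
    rw [← Matrix.mulVec_mulVec, Matrix.sum_mulVec, Matrix.mulVec_sum]
    refine Finset.sum_congr rfl fun p _ => ?_
    rw [Matrix.smul_mulVec, Matrix.mulVec_smul]
  rw [h1, dotProduct_sum]
  refine Finset.sum_congr rfl fun p hp => ?_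
  rw [dotProduct_smul, smul_eq_mul]
  congr 1
  conv_lhs => rw [expand w E v, star_sum, sum_dotProduct]
  rw [Finset.sum_eq_single p]
  · rw [← expand w E v]
  · intro q hq hqp
    rw [← expand w E v]
    exact orth h hqp (E_mulVec h hq v) (E_mulVec h hp v)
  · intro hp'; exact absurd hp hp'

lemma quad_pos (h : IsHS w S E) {v : Fin N → ℂ} (hv : v ≠ 0) :
    0 < (star v ⬝ᵥ hodge w S E *ᵥ v).re := by
  rw [quad h v, Complex.re_sum]
  have key : ∀ p ∈ Finset.range (w + 1), hpr w p E *ᵥ v ≠ 0 →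
      0 < ((-1 : ℂ) ^ p * (star (hpr w p E *ᵥ v) ⬝ᵥ S *ᵥ (hpr w p E *ᵥ v))).re := by
    intro p hp hne
    have h1 := h.pos p _ (by have := Finset.mem_range.1 hp; omega) hne (E_mulVec h hp v)
    have h2 : (-1 : ℂ) ^ p = (((-1 : ℝ) ^ p : ℝ) : ℂ) := by push_cast; rfl
    rw [h2, Complex.re_ofReal_mul]
    exact h1
  obtain ⟨p, hp, hne⟩ : ∃ p ∈ Finset.range (w + 1), hpr w p E *ᵥ v ≠ 0 := by
    by_contra hc
    push Not at hc
    exact hv (by rw [expand w E v]; exact Finset.sum_eq_zero hc)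
  refine Finset.sum_pos' (fun q hq => ?_) ⟨p, hp, key p hp hne⟩
  by_cases h0 : hpr w q E *ᵥ v = 0
  · rw [h0]; simp
  · exact (key q hq h0).le

end pos

/-! ### the finiteness -/

/-- real part of the Hermitian form -/
def qf (H : Mt N) (v : Fin N → ℂ) : ℝ := (star v ⬝ᵥ H *ᵥ v).re

lemma continuous_qf : Continuous fun p : Mt N × (Fin N → ℂ) => qf p.1 p.2 := by
  unfold qf
  fun_prop

lemma qf_smul (H : Mt N) (c : ℂ) (v : Fin N → ℂ) : qf H (c • v) = ‖c‖ ^ 2 * qf H v := by
  unfold qf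
  rw [star_smul, smul_dotProduct, Matrix.mulVec_smul, dotProduct_smul, smul_smul, smul_eq_mul,
    Complex.star_def, Complex.conj_mul']
  rw [← Complex.ofReal_pow, Complex.re_ofReal_mul]

lemma exists_lower {H₀ : Mt N} (h0 : ∀ v : Fin N → ℂ, v ≠ 0 → 0 < qf H₀ v) :
    ∃ c : ℝ, 0 < c ∧ ∀ᶠ H in 𝓝 H₀, ∀ (v : Fin N → ℂ) (i : Fin N), c * ‖v i‖ ^ 2 ≤ qf H v := by
  rcases (Metric.sphere (0 : Fin N → ℂ) 1).eq_empty_or_nonempty with he | hne
  · refine ⟨1, one_pos, Filter.Eventually.of_forall fun H v i => ?_⟩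
    exfalso
    have : (Pi.single i 1 : Fin N → ℂ) ∈ Metric.sphere (0 : Fin N → ℂ) 1 := by
      rw [mem_sphere_zero_iff_norm, Pi.norm_single, norm_one]
    rw [he] at this
    exact this
  · have hK : IsCompact (Metric.sphere (0 : Fin N → ℂ) 1) := isCompact_sphere _ _
    have hcont : Continuous fun v : Fin N → ℂ => qf H₀ v :=
      continuous_qf.comp (continuous_const.prodMk continuous_id)
    obtain ⟨v₀, hv₀, hmin⟩ := hK.exists_isMinOn hne hcont.continuousOn
    have hv0 : v₀ ≠ 0 := by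
      rintro rfl
      simp at hv₀
    have hpos := h0 v₀ hv0
    refine ⟨qf H₀ v₀ / 2, by positivity, ?_⟩
    have h1 : ∀ᶠ H in 𝓝 H₀, ∀ v ∈ Metric.sphere (0 : Fin N → ℂ) 1, qf H₀ v₀ / 2 < qf H v := by
      refine hK.eventually_forall_of_forall_eventually fun v hv => ?_
      have h2 : qf H₀ v₀ / 2 < qf H₀ v := by
        have := hmin hv
        simp only [Set.mem_ofPred_eq] at this
        linarith
      exact (continuous_qf.continuousAt (x := (H₀, v))).eventually_const_lt h2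
    filter_upwards [h1] with H hH v i
    by_cases hv : v = 0
    · subst hv; simp [qf]
    · have hn : 0 < ‖v‖ := norm_pos_iff.2 hv
      have h3 := hH (((‖v‖⁻¹ : ℝ) : ℂ) • v) (by
        rw [mem_sphere_zero_iff_norm, norm_smul, Complex.norm_real, norm_inv, norm_norm,
          inv_mul_cancel₀ hn.ne'])
      rw [qf_smul, Complex.norm_real, norm_inv, norm_norm, inv_pow, inv_mul_eq_div,
        lt_div_iff₀ (by positivity)] at h3
      have h4 : ‖v i‖ ^ 2 ≤ ‖v‖ ^ 2 := pow_le_pow_left₀ (norm_nonneg _) (norm_le_pi_norm v i) 2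
      nlinarith

/-- the integral matrices which carry a pair near `e₁` to a Hodge structure near `e₂`: finitely many -/
lemma finite_gl {w : ℕ} (e₁ : Mt N × Mt N) {e₂ : Mt N × Mt N} (h₂ : IsHS w e₂.2 e₂.1) :
    ∃ U ∈ 𝓝 e₁, ∃ W ∈ 𝓝 e₂, {g : GL (Fin N) ℤ | ∃ a ∈ U, ∃ b ∈ W, act g a = b}.Finite := by
  obtain ⟨c, hc, hlow⟩ := exists_lower (H₀ := hodge w e₂.2 e₂.1) fun v hv => quad_pos h₂ hv
  have hup : ∀ᶠ a in 𝓝 e₁, ∀ j : Fin N, (hodge w a.2 a.1 j j).re <
      ∑ j : Fin N, |(hodge w e₁.2 e₁.1 j j).re| + 1 := by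
    rw [Filter.eventually_all]
    intro j
    have h1 : Continuous fun a : Mt N × Mt N => (hodge w a.2 a.1 j j).re :=
      Complex.continuous_re.comp ((continuous_hodge w).matrix_elem j j)
    refine (h1.continuousAt (x := e₁)).eventually_lt_const ?_
    have h2 : |(hodge w e₁.2 e₁.1 j j).re| ≤ ∑ j : Fin N, |(hodge w e₁.2 e₁.1 j j).re| :=
      Finset.single_le_sum (f := fun j => |(hodge w e₁.2 e₁.1 j j).re|)
        (fun i _ => abs_nonneg _) (Finset.mem_univ j)
    have h3 := le_abs_self (hodge w e₁.2 e₁.1 j j).re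
    linarith
  set C : ℝ := ∑ j : Fin N, |(hodge w e₁.2 e₁.1 j j).re| + 1 with hC
  refine ⟨_, hup, _, (continuous_hodge w).continuousAt.eventually hlow, ?_⟩
  refine (finite_bdd (N := N) (C / c + 1)).subset ?_
  rintro g ⟨a, ha, b, hb, hab⟩ i j
  have ha' : (hodge w a.2 a.1 j j).re < C := ha j
  have hb' : c * ‖(cm g *ᵥ Pi.single j 1) i‖ ^ 2 ≤ qf (hodge w b.2 b.1) (cm g *ᵥ Pi.single j 1) :=
    hb _ i
  have e1 : (cm g *ᵥ Pi.single j 1) i = cm g i j := by simp
  have e2 : qf (hodge w b.2 b.1) (cm g *ᵥ Pi.single j 1) = (hodge w a.2 a.1 j j).re := by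
    unfold qf
    rw [hodge_act' w g a, hab, Matrix.star_mulVec, ← Matrix.dotProduct_mulVec,
      Matrix.mulVec_mulVec, Matrix.mulVec_mulVec]
    rw [show star (Pi.single j (1 : ℂ) : Fin N → ℂ) = Pi.single j 1 by
      ext k; by_cases h : k = j
      · subst h; simp
      · simp [h]]
    rw [Matrix.mulVec_single_one, single_one_dotProduct]
    rfl
  rw [e1, e2] at hb'
  have h5 : c * ‖cm g i j‖ ^ 2 < C := hb'.trans_lt ha'
  have h6 : ‖cm g i j‖ ^ 2 < C / c := by
    rw [lt_div_iff₀ hc]; linarith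
  nlinarith [norm_nonneg (cm g i j), sq_nonneg (‖cm g i j‖ - 1)]

end Crest.Agent.R276.Pd571
end
end

-- ▼ part R276/PdB_571
section

/-!
# R276, leaf PD (helper571): classes of isomorphic Hodge structures of a VHS are closed

`V : VHS m X N w` (735).  `ev V x = (E x, S x)`, `FF V z y = P(z,y)·e(y)`, `Sim V p q` : the polarised
integral Hodge structures at `p` and `q` are isomorphic.

* `PD` : proper discontinuity;
* `isClosed_sim` : `{q | Sim V p q}` is closed;
* `loc` : near `q ∈ S_p` the set `S_p` is `{y | FF V q y = ev V q}`.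
-/

set_option autoImplicit false

noncomputable section

open Set Filter Topology Matrix
open scoped ComplexOrder
open Crest.Agent.R271.Ho51
open Crest.Agent.R276.Ipc735

namespace Crest.Agent.R276.Pd571

variable {m N w : ℕ} {X : Type*} [TopologicalSpace X] [RDom m X]

/-! ### near-diagonal cocycles -/

section ndc

variable {G : Type*} [Group G] {c : X → X → G}

lemma ndc_self (h : NDC c) (z : X) : c z z = 1 := by
  obtain ⟨U, hU, h1⟩ := h z
  have hz := mem_of_mem_nhds hU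
  have h2 := h1 z hz z hz z hz
  exact mul_eq_left.1 h2


end ndc

/-- the pair (grading operator, form) at `x` -/
def ev (V : VHS m X N w) (x : X) : Mt N × Mt N := (V.E x, V.S x)

/-- the pair at `y` transported to the frame at `z` -/
def FF (V : VHS m X N w) (z y : X) : Mt N × Mt N := act (V.P z y) (ev V y)

/-- the polarised integral Hodge structures at `p` and `q` are isomorphic -/
def Sim (V : VHS m X N w) (p q : X) : Prop := ∃ g : GL (Fin N) ℤ, ev V q = act g (ev V p)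

variable (V : VHS m X N w)


lemma FF_self (z : X) : FF V z z = ev V z := by
  unfold FF
  rw [ndc_self V.ndc, act_one]

lemma FF_snd (z : X) : ∀ᶠ y in 𝓝 z, (FF V z y).2 = V.S z := by
  filter_upwards [V.flatS z] with y hy
  show (cm (V.P z y)⁻¹)ᴴ * V.S y * cm (V.P z y)⁻¹ = V.S z
  rw [hy]
  calc (cm (V.P z y)⁻¹)ᴴ * ((cm (V.P z y))ᴴ * V.S z * cm (V.P z y)) * cm (V.P z y)⁻¹
      = (cm (V.P z y) * cm (V.P z y)⁻¹)ᴴ * V.S z * (cm (V.P z y) * cm (V.P z y)⁻¹) := by
        simp only [Matrix.conjTranspose_mul, Matrix.mul_assoc]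
    _ = V.S z := by rw [cm_mul_inv]; simp

/-- change of frame -/
lemma FF_change (z : X) : ∃ U ∈ 𝓝 z, ∀ x ∈ U, ∀ x' ∈ U, ∀ y ∈ U,
    FF V x y = act (V.P x x') (FF V x' y) := by
  obtain ⟨U, hU, h⟩ := V.ndc z
  refine ⟨U, hU, fun x hx x' hx' y hy => ?_⟩
  unfold FF
  rw [← act_mul, h x hx x' hx' y hy]

lemma continuousAt_mt {Y : Type*} [TopologicalSpace Y] {f : Y → Mt N} {z : Y}
    (h : ∀ i j, ContinuousAt (fun a => f a i j) z) : ContinuousAt f z :=
  continuousAt_pi.2 fun _ => continuousAt_pi.2 fun _ => h _ _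

lemma lM_continuousAt (z : X) : ContinuousAt (fun y => lM V.P V.E z y) z := by
  refine continuousAt_mt fun i k => ?_
  have h1 := (V.smE z i k).continuousAt
  have h2 : ContinuousAt (fun y => ((fun y => lM V.P V.E z y i k) ∘ (ch z).symm) (cp y)) z :=
    ContinuousAt.comp (g := (fun y => lM V.P V.E z y i k) ∘ (ch z).symm) h1 cp_cont.continuousAt
  exact h2.congr (eventually_eq_comp (isCh_ch z) (mem_ch z) _).symm

lemma FF_continuousAt (z : X) : ContinuousAt (FF V z) z := by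
  have h1 : ContinuousAt (fun y => (lM V.P V.E z y, V.S z)) z :=
    (lM_continuousAt V z).prodMk continuousAt_const
  refine h1.congr ?_
  filter_upwards [FF_snd V z] with y hy
  exact Prod.ext rfl hy.symm


variable {V}


/-! ### isomorphism classes -/

lemma Sim.refl (p : X) : Sim V p p := ⟨1, (act_one _).symm⟩

lemma Sim.symm {p q : X} (h : Sim V p q) : Sim V q p := by
  obtain ⟨g, hg⟩ := h
  exact ⟨g⁻¹, by rw [hg, act_inv_act]⟩

lemma Sim.trans {p q r : X} (h : Sim V p q) (h' : Sim V q r) : Sim V p r := by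
  obtain ⟨g, hg⟩ := h
  obtain ⟨g', hg'⟩ := h'
  exact ⟨g' * g, by rw [hg', hg, act_mul]⟩

lemma sim_iff (p q y : X) : Sim V p y ↔ ∃ g : GL (Fin N) ℤ, act g (ev V p) = FF V q y := by
  constructor
  · rintro ⟨g, hg⟩
    exact ⟨V.P q y * g, by rw [act_mul, ← hg]; rfl⟩
  · rintro ⟨g, hg⟩
    refine ⟨(V.P q y)⁻¹ * g, ?_⟩
    rw [act_mul, hg]
    unfold FF
    rw [act_inv_act]

variable (V)

/-- **proper discontinuity** -/
theorem PD (p q : X) : ∃ U ∈ 𝓝 p, ∃ W ∈ 𝓝 q,
    {g : GL (Fin N) ℤ | ∃ x ∈ U, ∃ y ∈ W, act g (FF V p x) = FF V q y}.Finite := by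
  obtain ⟨U, hU, W, hW, hf⟩ := finite_gl (w := w) (ev V p) (e₂ := ev V q) (V.hs q)
  refine ⟨FF V p ⁻¹' U, ?_, FF V q ⁻¹' W, ?_, hf.subset ?_⟩
  · have := FF_continuousAt V p
    unfold ContinuousAt at this
    rw [FF_self] at this
    exact this hU
  · have := FF_continuousAt V q
    unfold ContinuousAt at this
    rw [FF_self] at this
    exact this hW
  · rintro g ⟨x, hx, y, hy, hg⟩
    exact ⟨_, hx, _, hy, hg⟩

variable {V}

/-- near `q` the class of `p` is given by finitely many equations `FF V q y = act g (ev V p)` -/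
lemma exists_fin (p q : X) : ∃ Φ : Set (GL (Fin N) ℤ), Φ.Finite ∧ ∀ᶠ y in 𝓝 q,
    (Sim V p y ↔ FF V q y ∈ (fun g => act g (ev V p)) '' Φ) := by
  obtain ⟨U, hU, W, hW, hf⟩ := PD V p q
  refine ⟨_, hf, ?_⟩
  filter_upwards [hW] with y hy
  rw [sim_iff p q y]
  constructor
  · rintro ⟨g, hg⟩
    exact ⟨g, ⟨p, mem_of_mem_nhds hU, y, hy, by rw [FF_self, hg]⟩, hg⟩
  · rintro ⟨g, _, hg⟩
    exact ⟨g, hg⟩


/-- **(LOC)** near a point `q` of the class of `p` the class is the level set of `FF V q` -/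
theorem loc {p q : X} (hpq : Sim V p q) : ∀ᶠ y in 𝓝 q, (Sim V p y ↔ FF V q y = ev V q) := by
  obtain ⟨Φ, hΦ, h⟩ := exists_fin (V := V) p q
  have h1 : IsClosed (((fun g => act g (ev V p)) '' Φ) \ {ev V q}) :=
    ((hΦ.image _).subset Set.sdiff_subset).isClosed
  have h2 : FF V q q ∉ ((fun g => act g (ev V p)) '' Φ) \ {ev V q} := by
    rw [FF_self]
    simp
  have h3 : ∀ᶠ y in 𝓝 q, FF V q y ∉ ((fun g => act g (ev V p)) '' Φ) \ {ev V q} :=
    (FF_continuousAt V q).eventually (h1.isOpen_compl.mem_nhds h2)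
  filter_upwards [h, h3] with y hy hy'
  constructor
  · intro hs
    rw [hy] at hs
    by_contra hne
    exact hy' ⟨hs, hne⟩
  · intro he
    rw [hy, he]
    have h4 : Sim V p q := hpq
    rw [h.self_of_nhds, FF_self] at h4
    exact h4


end Crest.Agent.R276.Pd571
end
end

-- ▼ part R276/PdL_571
section

/-!
# R276, leaf PD (helper571): real changes of variables and Hermitian Gram determinants

* `bf G u v = Re (uᴴ G v)`.
* `det_hermitian`: if `Re (Bv)ᴴ G₁ (Bv) = Re vᴴ G₂ v` for a real-linear endomorphism `B` of `ℂ^n`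
  (`G₁`, `G₂` Hermitian) then `|det_ℝ B| ‖det G₁‖ = ‖det G₂‖`.
* `det_slice`: the same for an endomorphism `L` of the slice `ℂ^n` which fixes the coordinates in `A`,
  with the Gram matrices of the other coordinates.
-/

set_option autoImplicit false
set_option linter.unusedSectionVars false

noncomputable section

open Matrix

namespace Crest.Agent.R276.PdL571

variable {n : Type*} [Fintype n]

/-- the real bilinear form `Re (uᴴ G v)` -/
def bf (G : Matrix n n ℂ) : LinearMap.BilinForm ℝ (n → ℂ) :=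
  LinearMap.mk₂ ℝ (fun u v => (star u ⬝ᵥ G *ᵥ v).re)
    (fun u u' v => by rw [star_add, add_dotProduct, Complex.add_re])
    (fun c u v => by
      rw [show c • u = (c : ℂ) • u from (Complex.coe_smul c u).symm ▸ rfl, star_smul,
        smul_dotProduct]
      simp)
    (fun u v v' => by rw [Matrix.mulVec_add, dotProduct_add, Complex.add_re])
    (fun c u v => by
      rw [show c • v = (c : ℂ) • v from (Complex.coe_smul c v).symm ▸ rfl, Matrix.mulVec_smul,
        dotProduct_smul]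
      simp)

lemma bf_apply (G : Matrix n n ℂ) (u v : n → ℂ) : bf G u v = (star u ⬝ᵥ G *ᵥ v).re := rfl

lemma bf_symm {G : Matrix n n ℂ} (hG : G.IsHermitian) (u v : n → ℂ) : bf G u v = bf G v u := by
  rw [bf_apply, bf_apply]
  have h : star (star u ⬝ᵥ G *ᵥ v) = star v ⬝ᵥ G *ᵥ u := by
    rw [← Matrix.star_dotProduct_star, star_star, Matrix.star_mulVec, hG.eq,
      ← Matrix.dotProduct_mulVec]
  rw [← h]
  simp

lemma bf_polar {G₁ G₂ : Matrix n n ℂ} (h₁ : G₁.IsHermitian) (h₂ : G₂.IsHermitian)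
    (B : (n → ℂ) →ₗ[ℝ] (n → ℂ)) (h : ∀ v, bf G₁ (B v) (B v) = bf G₂ v v) (u v : n → ℂ) :
    bf G₁ (B u) (B v) = bf G₂ u v := by
  have h3 := h (u + v)
  simp only [map_add, LinearMap.add_apply] at h3
  rw [h u, h v, bf_symm h₁ (B v) (B u), bf_symm h₂ v u] at h3
  linarith

variable [DecidableEq n]

/-- the operator of `G`, real-linear -/
def ro (G : Matrix n n ℂ) : (n → ℂ) →ₗ[ℝ] (n → ℂ) := (Matrix.toLin' G).restrictScalars ℝ

lemma det_ro (G : Matrix n n ℂ) : LinearMap.det (ro G) = ‖G.det‖ ^ 2 := by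
  unfold ro
  rw [LinearMap.det_restrictScalars, LinearMap.det_toLin', Algebra.norm_complex_apply,
    Complex.normSq_eq_norm_sq]

/-- the real basis of `ℂ^n` -/
def rb (n : Type*) [Fintype n] : Module.Basis (Σ _ : n, Fin 2) ℝ (n → ℂ) :=
  Pi.basis fun _ => Complex.basisOneI

lemma toMatrix_bf (G : Matrix n n ℂ) : LinearMap.BilinForm.toMatrix (rb n) (bf G) =
    LinearMap.BilinForm.toMatrix (rb n) (bf (1 : Matrix n n ℂ)) *
      LinearMap.toMatrix (rb n) (rb n) (ro G) := by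
  have h1 : bf G = LinearMap.BilinForm.compRight (bf (1 : Matrix n n ℂ)) (ro G) := by
    ext u v
    simp [bf_apply, ro, LinearMap.BilinForm.compRight_apply]
  rw [h1, LinearMap.BilinForm.toMatrix_compRight]

lemma toMatrix_bf_one : LinearMap.BilinForm.toMatrix (rb n) (bf (1 : Matrix n n ℂ)) = 1 := by
  ext ⟨i, a⟩ ⟨j, b⟩
  rw [LinearMap.BilinForm.toMatrix_apply, bf_apply, Matrix.one_mulVec]
  unfold rb
  rw [Pi.basis_apply, Pi.basis_apply]
  by_cases hij : i = j
  · subst hij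
    fin_cases a <;> fin_cases b <;> simp
  · rw [Matrix.one_apply_ne (by simp [hij])]
    simp [dotProduct_single, Pi.single_eq_of_ne (Ne.symm hij)]

lemma det_toMatrix_bf (G : Matrix n n ℂ) :
    (LinearMap.BilinForm.toMatrix (rb n) (bf G)).det = ‖G.det‖ ^ 2 := by
  rw [toMatrix_bf, toMatrix_bf_one, one_mul, LinearMap.det_toMatrix, det_ro]

/-- real-linear change of variables between two Hermitian forms -/
theorem det_hermitian {G₁ G₂ : Matrix n n ℂ} (h₁ : G₁.IsHermitian) (h₂ : G₂.IsHermitian)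
    (B : (n → ℂ) →ₗ[ℝ] (n → ℂ)) (h : ∀ v, bf G₁ (B v) (B v) = bf G₂ v v) :
    |LinearMap.det B| * ‖G₁.det‖ = ‖G₂.det‖ := by
  have h3 : bf G₂ = LinearMap.BilinForm.comp (bf G₁) B B := by
    exact LinearMap.ext₂ fun u v => (bf_polar h₁ h₂ B h u v).symm
  have h4 := congrArg (fun F => (LinearMap.BilinForm.toMatrix (rb n) F).det) h3
  beta_reduce at h4
  rw [LinearMap.BilinForm.toMatrix_comp (rb n) (rb n), Matrix.det_mul, Matrix.det_mul,
    Matrix.det_transpose, LinearMap.det_toMatrix, det_toMatrix_bf, det_toMatrix_bf] at h4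
  have h5 : (|LinearMap.det B| * ‖G₁.det‖) ^ 2 = ‖G₂.det‖ ^ 2 := by
    rw [mul_pow, sq_abs, h4]; ring
  exact (pow_left_inj₀ (by positivity) (norm_nonneg _) two_ne_zero).1 h5

/-! ### slices -/

section slice

variable (A : Finset n)

/-- the coordinates not in `A` -/
abbrev Cm (A : Finset n) := {i : n // i ∉ A}

/-- extension by zero -/
def inc : (Cm A → ℂ) →ₗ[ℝ] (n → ℂ) where
  toFun v := fun i => if h : i ∉ A then v ⟨i, h⟩ else 0
  map_add' u v := by
    funext i
    by_cases h : i ∈ A <;> simp [h]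
  map_smul' c v := by
    funext i
    by_cases h : i ∈ A <;> simp [h]

/-- restriction -/
def pr : (n → ℂ) →ₗ[ℝ] (Cm A → ℂ) where
  toFun v := fun i => v i
  map_add' _ _ := rfl
  map_smul' _ _ := rfl

lemma inc_of {v : Cm A → ℂ} {i : n} (h : i ∉ A) : inc A v i = v ⟨i, h⟩ := by
  simp [inc, h]

lemma inc_mem {v : Cm A → ℂ} {i : n} (h : i ∈ A) : inc A v i = 0 := by
  simp [inc, h]

lemma inc_pr {v : n → ℂ} (h : ∀ i ∈ A, v i = 0) : inc A (pr A v) = v := by
  funext i
  by_cases hi : i ∈ A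
  · rw [inc_mem A hi, h i hi]
  · rw [inc_of A hi]; rfl

/-- the principal submatrix of the coordinates not in `A` -/
def sub (G : Matrix n n ℂ) : Matrix (Cm A) (Cm A) ℂ := G.submatrix Subtype.val Subtype.val

lemma sub_herm {G : Matrix n n ℂ} (h : G.IsHermitian) : (sub A G).IsHermitian :=
  h.submatrix _

lemma bf_inc (G : Matrix n n ℂ) (u v : Cm A → ℂ) :
    bf G (inc A u) (inc A v) = bf (sub A G) u v := by
  rw [bf_apply, bf_apply]
  congr 1
  simp only [dotProduct, Matrix.mulVec, Pi.star_apply]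
  have key : ∀ f : n → ℂ, (∀ i ∈ A, f i = 0) → ∑ i, f i = ∑ i : Cm A, f i := by
    intro f hf
    rw [← Finset.sum_subtype (Finset.univ.filter (· ∉ A)) (by simp) f]
    exact (Finset.sum_filter_of_ne (p := fun i => i ∉ A)
      fun i _ (h : f i ≠ 0) (hi : i ∈ A) => h (hf i hi)).symm
  rw [key _ fun i hi => by rw [inc_mem A hi]; simp]
  refine Finset.sum_congr rfl fun i _ => ?_
  rw [inc_of A i.2, key _ fun j hj => by rw [inc_mem A hj, mul_zero]]
  congr 1
  refine Finset.sum_congr rfl fun j _ => ?_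
  rw [inc_of A j.2]
  rfl

/-- index equivalence -/
def ixe : {x : (Σ _ : n, Fin 2) // x.1 ∉ A} ≃ (Σ _ : Cm A, Fin 2) where
  toFun x := ⟨⟨x.1.1, x.2⟩, x.1.2⟩
  invFun y := ⟨⟨y.1.1, y.2⟩, y.1.2⟩
  left_inv _ := rfl
  right_inv _ := rfl

lemma rb_apply (x : Σ _ : n, Fin 2) : rb n x = Pi.single x.1 (Complex.basisOneI x.2) := by
  unfold rb
  rw [Pi.basis_apply]

lemma rb_repr (v : n → ℂ) (x : Σ _ : n, Fin 2) :
    (rb n).repr v x = Complex.basisOneI.repr (v x.1) x.2 := by
  unfold rb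
  rw [Pi.basis_repr]

lemma inc_rb (x : Σ _ : Cm A, Fin 2) : inc A (rb (Cm A) x) = rb n ⟨x.1, x.2⟩ := by
  rw [rb_apply, rb_apply]
  funext i
  by_cases hi : i ∈ A
  · rw [inc_mem A hi, Pi.single_eq_of_ne]
    rintro rfl
    exact x.1.2 hi
  · rw [inc_of A hi]
    by_cases h : i = x.1
    · have : (⟨i, hi⟩ : Cm A) = x.1 := Subtype.ext h
      rw [this, Pi.single_eq_same, h]
      simp
    · rw [Pi.single_eq_of_ne, Pi.single_eq_of_ne h]
      intro h'
      exact h (congrArg Subtype.val h')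

/-- a real endomorphism which fixes the coordinates in `A` has the determinant of the other block -/
lemma det_block (L : (n → ℂ) →ₗ[ℝ] (n → ℂ)) (hL : ∀ v, ∀ i ∈ A, L v i = v i) :
    LinearMap.det L = LinearMap.det (pr A ∘ₗ L ∘ₗ inc A) := by
  rw [← LinearMap.det_toMatrix (rb n), ← LinearMap.det_toMatrix (rb (Cm A))]
  rw [Matrix.twoBlockTriangular_det _ (fun x : Σ _ : n, Fin 2 => x.1 ∉ A)]
  · have h1 : (Matrix.toSquareBlockProp (LinearMap.toMatrix (rb n) (rb n) L)
        fun x : Σ _ : n, Fin 2 => ¬ x.1 ∉ A) = 1 := by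
      ext x y
      rw [Matrix.toSquareBlockProp_def, Matrix.of_apply, LinearMap.toMatrix_apply, rb_repr,
        hL _ _ (not_not.1 x.2), rb_apply]
      by_cases h : x = y
      · subst h
        rw [Pi.single_eq_same, Module.Basis.repr_self, Finsupp.single_eq_same,
          Matrix.one_apply_eq]
      · rw [Matrix.one_apply_ne h]
        by_cases h' : x.1.1 = y.1.1
        · rw [h', Pi.single_eq_same, Module.Basis.repr_self, Finsupp.single_eq_of_ne]
          intro h''
          exact h (Subtype.ext (Sigma.ext h' (heq_of_eq h'')))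
        · rw [Pi.single_eq_of_ne h']
          simp
    rw [h1, Matrix.det_one, mul_one]
    rw [← Matrix.det_reindex_self (ixe A)]
    congr 1
    ext x y
    rw [Matrix.reindex_apply, Matrix.submatrix_apply, Matrix.toSquareBlockProp_def,
      Matrix.of_apply, LinearMap.toMatrix_apply, LinearMap.toMatrix_apply, rb_repr, rb_repr]
    simp only [LinearMap.comp_apply]
    rw [inc_rb]
    rfl
  · intro x hx y hy
    rw [LinearMap.toMatrix_apply, rb_repr, hL _ _ (not_not.1 hx), rb_apply,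
      Pi.single_eq_of_ne]
    · simp
    · rintro h
      exact hx (h ▸ hy)

/-- **slices**: `L` fixes the coordinates in `A`; the Gram matrices of the other coordinates change
by `|det L|`. -/
theorem det_slice {G₁ G₂ : Matrix n n ℂ} (h₁ : G₁.IsHermitian) (h₂ : G₂.IsHermitian)
    (L : (n → ℂ) →ₗ[ℝ] (n → ℂ)) (hL : ∀ v, ∀ i ∈ A, L v i = v i)
    (h : ∀ v, (∀ i ∈ A, v i = 0) → bf G₁ (L v) (L v) = bf G₂ v v) :
    |LinearMap.det L| * ‖(sub A G₁).det‖ = ‖(sub A G₂).det‖ := by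
  rw [det_block A L hL]
  refine det_hermitian (sub_herm A h₁) (sub_herm A h₂) _ fun v => ?_
  have h0 : ∀ i ∈ A, inc A v i = 0 := fun i hi => inc_mem A hi
  have h3 : inc A (pr A (L (inc A v))) = L (inc A v) :=
    inc_pr A fun i hi => by rw [hL _ _ hi, h0 i hi]
  rw [← bf_inc, ← bf_inc, LinearMap.comp_apply, LinearMap.comp_apply, h3]
  exact h _ h0

end slice

end Crest.Agent.R276.PdL571
end
end

-- ▼ part R276/PdC_571

/-!
# R276, leaf PD (helper571): the Gram matrix of the period metric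

* 442 level: `trace_dd`: `tr (D_u E · D_v E) = -2 Re g(u,v)`, `gg_expand`.
* 735 level: `gP V x` (Gram matrix of the period metric in the coordinate directions), `TE V x v` (real
  derivative of the grading operator in the frame at `x`), `bf_gP`: `Re (uᴴ gPᵀ v) = -½ Re tr (D_u E · D_v E)`.
-/

set_option autoImplicit false
set_option linter.unusedSectionVars false

noncomputable section

open Set Filter Topology Matrix
open scoped ContDiff ComplexConjugate ComplexOrder
open Crest.Agent.R271.Ho51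
open Crest.Agent.R276.Ipc735
open Crest.Agent.R276.PdL571

namespace Crest.Agent.R276.Pd571

/-! ### formulas in the formalism of `VCalc_442` -/

section level442

open VCalc_442

variable {Y : Type*} [NormedAddCommGroup Y] [NormedSpace ℂ Y]
variable {ι : Type*} [Fintype ι] [DecidableEq ι]
variable {w : ℕ} {U : Set Y} {S : Matrix ι ι ℂ} {P : ℕ → Y → Matrix ι ι ℂ} {x : Y}

/-- real derivative, entrywise -/
def Df (F : Y → Matrix ι ι ℂ) (x v : Y) : Matrix ι ι ℂ :=
  Matrix.of fun i j => fderiv ℝ (fun y => F y i j) x v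

lemma Df_eq (F : Y → Matrix ι ι ℂ) (x v : Y) : Df F x v = mW F v x + mB F v x := by
  ext i j
  simp only [Df, mW, mB, Matrix.of_apply, Matrix.add_apply]
  exact fderiv_eq _ _ _

lemma trace_low_low {E a b : Matrix ι ι ℂ} {s : ℂ} (hs : s ≠ 0) (ha : E * a - a * E = s • a)
    (hb : E * b - b * E = s • b) : (a * b).trace = 0 := by
  have h1 : (E * (a * b) - (a * b) * E).trace = 0 := by
    rw [Matrix.trace_sub, Matrix.trace_mul_comm, sub_self]
  have h2 : E * (a * b) - (a * b) * E = (E * a - a * E) * b + a * (E * b - b * E) := by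
    noncomm_ring
  rw [h2, ha, hb, smul_mul_assoc, mul_smul_comm, ← two_nsmul, Matrix.trace_smul,
    Matrix.trace_smul] at h1
  simpa [hs] using h1

attribute [local instance] Matrix.linftyOpNormedRing Matrix.linftyOpNormedAlgebra

lemma mW_low (h : VCalc_442.VHS w U S P) (hx : x ∈ U) (v : Y) :
    grOp w P x * mW (grOp w P) v x - mW (grOp w P) v x * grOp w P x =
      (-1 : ℂ) • mW (grOp w P) v x := by
  rw [h.hor x hx v, neg_one_smul]

lemma mB_up (h : VCalc_442.VHS w U S P) (hx : x ∈ U) (v : Y) :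
    grOp w P x * mB (grOp w P) v x - mB (grOp w P) v x * grOp w P x =
      (1 : ℂ) • mB (grOp w P) v x := by
  have h1 := h.gr.hB x hx v
  rw [← mB_eq_dB (h.dE hx)] at h1
  rw [h1, one_smul]

/-- `tr (D_u E · D_v E) = - (g(u,v) + g(v,u))` -/
theorem trace_dd (h : VCalc_442.VHS w U S P) (hx : x ∈ U) (u v : Y) :
    (Df (grOp w P) x u * Df (grOp w P) x v).trace = - (gg w P u v x + gg w P v u x) := by
  rw [Df_eq, Df_eq, Matrix.add_mul, Matrix.mul_add, Matrix.mul_add]
  simp only [Matrix.trace_add]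
  rw [trace_low_low (by norm_num) (mW_low h hx u) (mW_low h hx v),
    trace_low_low one_ne_zero (mB_up h hx u) (mB_up h hx v)]
  unfold gg th thb
  rw [Matrix.mul_neg, Matrix.mul_neg, Matrix.trace_neg, Matrix.trace_neg,
    Matrix.trace_mul_comm (mB (grOp w P) u x) (mW (grOp w P) v x)]
  ring

theorem trace_dd_re (h : VCalc_442.VHS w U S P) (hx : x ∈ U) (u v : Y) :
    (Df (grOp w P) x u * Df (grOp w P) x v).trace.re = - 2 * (gg w P u v x).re := by
  rw [trace_dd h hx, h.gg_swap hx u v, Complex.neg_re, Complex.add_re]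
  simp only [Complex.star_def, Complex.conj_re]
  ring

end level442

section coord

open VCalc_442

variable {m : ℕ} {ι : Type*} [Fintype ι] [DecidableEq ι]

lemma dB_sum_dir {f : (Fin m → ℂ) → ℂ} (v x : Fin m → ℂ) :
    VCalc_442.dB f v x = ∑ j, conj (v j) * VCalc_442.dB f (Pi.single j 1) x := by
  have h1 : v = ∑ j, v j • (Pi.single j (1 : ℂ) : Fin m → ℂ) := by
    rw [← pi_eq_sum_univ' v]
  have h2 : ∀ s : Finset (Fin m), VCalc_442.dB f (∑ j ∈ s, v j • (Pi.single j (1 : ℂ) : Fin m → ℂ)) x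
      = ∑ j ∈ s, conj (v j) * VCalc_442.dB f (Pi.single j 1) x := by
    intro s
    induction s using Finset.induction_on with
    | empty =>
      simp only [Finset.sum_empty]
      have := VCalc_442.dB_smul_dir f x 0 0
      simpa using this
    | insert j s hj ih =>
      rw [Finset.sum_insert hj, Finset.sum_insert hj, VCalc_442.dB_add_dir, ih,
        VCalc_442.dB_smul_dir, smul_eq_mul]
  conv_lhs => rw [h1]
  exact h2 _

lemma mW_sum_dir (F : (Fin m → ℂ) → Matrix ι ι ℂ) (v x : Fin m → ℂ) :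
    mW F v x = ∑ j, v j • mW F (Pi.single j 1) x := by
  ext i k
  simp only [mW, Matrix.of_apply, Matrix.sum_apply, Matrix.smul_apply, smul_eq_mul]
  exact dW_sum_dir v x

lemma mB_sum_dir (F : (Fin m → ℂ) → Matrix ι ι ℂ) (v x : Fin m → ℂ) :
    mB F v x = ∑ j, conj (v j) • mB F (Pi.single j 1) x := by
  ext i k
  simp only [mB, Matrix.of_apply, Matrix.sum_apply, Matrix.smul_apply, smul_eq_mul]
  exact dB_sum_dir v x

/-- expansion of the period form in the coordinate directions -/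
lemma gg_expand (w : ℕ) (P : ℕ → (Fin m → ℂ) → Matrix ι ι ℂ) (u v x : Fin m → ℂ) :
    gg w P u v x = ∑ k, conj (v k) * ∑ j, gg w P (Pi.single j 1) (Pi.single k 1) x * u j := by
  unfold gg th thb
  rw [mW_sum_dir _ u, mB_sum_dir _ v, ← Finset.sum_neg_distrib, Finset.mul_sum,
    Matrix.trace_sum]
  refine Finset.sum_congr rfl fun k _ => ?_
  rw [← smul_neg, mul_smul_comm, Matrix.trace_smul, smul_eq_mul, Finset.sum_mul,
    Matrix.trace_sum]
  congr 1
  refine Finset.sum_congr rfl fun j _ => ?_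
  rw [smul_mul_assoc, Matrix.trace_smul, smul_eq_mul, mul_comm]

end coord

/-! ### the frozen definitions -/

lemma Df_conj {Y : Type*} [NormedAddCommGroup Y] [NormedSpace ℂ Y] {N : ℕ}
    (M M' : Matrix (Fin N) (Fin N) ℂ) {F : Y → Matrix (Fin N) (Fin N) ℂ} {z : Y}
    (hF : ∀ i j, DifferentiableAt ℝ (fun y => F y i j) z) (u : Y) :
    Df (fun y => M * F y * M') z u = M * Df F z u * M' := by
  ext i j
  have h2 : (fun y => (M * F y * M') i j) = fun y => ∑ l, ∑ k, M i k * F y k l * M' l j := by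
    funext y
    simp only [Matrix.mul_apply, Finset.sum_mul]
  simp only [Df, Matrix.of_apply]
  rw [h2, fderiv_fun_sum (fun l _ => DifferentiableAt.fun_sum fun k _ =>
    ((hF k l).const_mul _).mul_const _)]
  rw [_root_.sum_apply]
  simp only [Matrix.mul_apply, Finset.sum_mul, Matrix.of_apply]
  refine Finset.sum_congr rfl fun l _ => ?_
  rw [fderiv_fun_sum (fun k _ => ((hF k l).const_mul _).mul_const _), _root_.sum_apply]
  refine Finset.sum_congr rfl fun k _ => ?_
  rw [fderiv_mul_const ((hF k l).const_mul _), fderiv_const_mul (hF k l)]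
  simp only [_root_.smul_apply, smul_eq_mul]
  ring

lemma Df_congr {Y : Type*} [NormedAddCommGroup Y] [NormedSpace ℂ Y] {N : ℕ}
    {F F' : Y → Matrix (Fin N) (Fin N) ℂ} {z : Y} (h : F =ᶠ[𝓝 z] F') (u : Y) :
    Df F z u = Df F' z u := by
  ext i j
  simp only [Df, Matrix.of_apply]
  have h1 : (fun y => F y i j) =ᶠ[𝓝 z] fun y => F' y i j := by
    filter_upwards [h] with y hy
    rw [hy]
  rw [h1.fderiv_eq]

lemma mW_congr {Y : Type*} [NormedAddCommGroup Y] [NormedSpace ℂ Y] {N : ℕ}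
    {F F' : Y → Matrix (Fin N) (Fin N) ℂ} {z : Y} (h : F =ᶠ[𝓝 z] F') (u : Y) :
    VCalc_442.mW F u z = VCalc_442.mW F' u z := by
  ext i j
  simp only [VCalc_442.mW, Matrix.of_apply]
  refine VCalc_442.dW_congr ?_ u
  filter_upwards [h] with y hy
  rw [hy]

lemma mB_congr {Y : Type*} [NormedAddCommGroup Y] [NormedSpace ℂ Y] {N : ℕ}
    {F F' : Y → Matrix (Fin N) (Fin N) ℂ} {z : Y} (h : F =ᶠ[𝓝 z] F') (u : Y) :
    VCalc_442.mB F u z = VCalc_442.mB F' u z := by
  ext i j
  simp only [VCalc_442.mB, Matrix.of_apply]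
  refine VCalc_442.dB_congr ?_ u
  filter_upwards [h] with y hy
  rw [hy]

section level735

variable {m N w : ℕ} {X : Type*} [TopologicalSpace X] [RDom m X]

/-- `∂/∂\bar z_j` at `z` of the endomorphism field `A`, in the frame at `z` -/
def dMb {N : ℕ} (P : X → X → GL (Fin N) ℤ) (A : X → Matrix (Fin N) (Fin N) ℂ) (j : Fin m) (z : X) :
    Matrix (Fin N) (Fin N) ℂ := Matrix.of fun i k => db j (fun y => lM P A z y i k) z

variable (V : Ipc735.VHS m X N w)

/-- real derivative at `x` of the grading operator in the frame at `x` -/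
def TE (x : X) (v : Fin m → ℂ) : Mt N := Matrix.of fun i k => D (fun y => lM V.P V.E x y i k) x v

/-- Gram matrix `g_{jk} = tr (θ_j θ̄_k) = - tr (∂_j E · ∂̄_k E)` of the period metric -/
def gP (x : X) : Matrix (Fin m) (Fin m) ℂ :=
  Matrix.of fun j k => - (dM V.P V.E j x * dMb V.P V.E k x).trace

/-- the grading operator in the frame and in the chart at `z` -/
def EL (z : X) (c : Fin m → ℂ) : Mt N := lM V.P V.E z ((ch z).symm c)

/-- the local projectors -/
def PL (z : X) (p : ℕ) (c : Fin m → ℂ) : Mt N := hq w (EL V z c) p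

lemma TE_eq (x : X) (v : Fin m → ℂ) : TE V x v = Df (EL V x) (cp x) v := rfl

lemma dM_eq (x : X) (j : Fin m) :
    dM V.P V.E j x = VCalc_442.mW (EL V x) (Pi.single j 1) (cp x) := by
  ext i k
  simp only [dM, VCalc_442.mW, Matrix.of_apply]
  rw [dz_eq_dW j _ (isCh_ch x) (mem_ch x)]
  rfl

lemma dMb_eq (x : X) (j : Fin m) :
    dMb V.P V.E j x = VCalc_442.mB (EL V x) (Pi.single j 1) (cp x) := by
  ext i k
  simp only [dMb, VCalc_442.mB, Matrix.of_apply]
  rw [db_eq_dB j _ (isCh_ch x) (mem_ch x)]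
  rfl

/-- a good neighbourhood of `cp z` in the chart at `z` -/
structure Nb (z : X) (U : Set (Fin m → ℂ)) : Prop where
  op : IsOpen U
  sub : U ⊆ (ch z).target
  coc : ∀ c ∈ U, ∀ d ∈ U, V.P z ((ch z).symm c) * V.P ((ch z).symm c) ((ch z).symm d) =
    V.P z ((ch z).symm d)
  trS : ∀ c ∈ U, V.S ((ch z).symm c) =
    (cm (V.P z ((ch z).symm c)))ᴴ * V.S z * cm (V.P z ((ch z).symm c))
  loc : VCalc_442.VHS w U (V.S z) (PL V z)

lemma exists_Nb (z : X) : ∃ U, cp z ∈ U ∧ Nb V z U := by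
  obtain ⟨U, h1, h2, h3, h4, h5, h6⟩ := VHS.local V z
  exact ⟨U, h2, h1, h3, h4, h5, h6⟩

variable {V}

namespace Nb

variable {z : X} {U : Set (Fin m → ℂ)}

lemma gr (h : Nb V z U) {c : Fin m → ℂ} (hc : c ∈ U) :
    VCalc_442.grOp w (PL V z) c = EL V z c :=
  grOp_hq ((V.hs _).lM (h.trS c hc))

lemma gr_ev (h : Nb V z U) {c : Fin m → ℂ} (hc : c ∈ U) :
    VCalc_442.grOp w (PL V z) =ᶠ[𝓝 c] EL V z := by
  filter_upwards [h.op.mem_nhds hc] with d hd
  exact h.gr hd


lemma smEL (h : Nb V z U) (i j : Fin N) : ContDiffOn ℝ ∞ (fun c => EL V z c i j) U := by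
  have h1 := h.loc.smE
  rw [VCalc_442.contDiffOn_matrix] at h1
  exact (h1 i j).congr fun c hc => by rw [h.gr hc]

lemma diffEL (h : Nb V z U) {c : Fin m → ℂ} (hc : c ∈ U) (i j : Fin N) :
    DifferentiableAt ℝ (fun c => EL V z c i j) c :=
  ((h.smEL i j).contDiffAt (h.op.mem_nhds hc)).differentiableAt (by simp)

/-- the field in the frame at `z` in terms of the frame at a nearby point -/
lemma EL_change (h : Nb V z U) {c : Fin m → ℂ} (hc : c ∈ U) :
    EL V z =ᶠ[𝓝 c] fun d => cm (V.P z ((ch z).symm c)) * EL V ((ch z).symm c) d *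
      cm (V.P z ((ch z).symm c))⁻¹ := by
  set x := (ch z).symm c with hx
  have hxs : x ∈ (ch z).source := (ch z).map_target (h.sub hc)
  have hcx : cp x = c := (isCh_ch z).cp_symm (h.sub hc)
  have h1 : ∀ᶠ d in 𝓝 c, (ch z).symm d = (ch x).symm d := by
    have := (isCh_ch z).germ (isCh_ch x) hxs (mem_ch x)
    rwa [hcx] at this
  filter_upwards [h.op.mem_nhds hc, h1] with d hd hd1
  unfold EL lM
  rw [← hd1, ← h.coc c hc d hd, Pd571.cm_mul, _root_.mul_inv_rev, Pd571.cm_mul]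
  simp only [Matrix.mul_assoc]
  rfl

lemma diff_x (h : Nb V z U) {c : Fin m → ℂ} (hc : c ∈ U) (i j : Fin N) :
    DifferentiableAt ℝ (fun d => EL V ((ch z).symm c) d i j) c := by
  obtain ⟨W, hW, hN⟩ := exists_Nb V ((ch z).symm c)
  rw [(isCh_ch z).cp_symm (h.sub hc)] at hW
  exact hN.diffEL hW i j

/-- real derivative in the frame at `z` at a nearby point -/
lemma Df_EL (h : Nb V z U) {c : Fin m → ℂ} (hc : c ∈ U) (v : Fin m → ℂ) :
    Df (EL V z) c v = cm (V.P z ((ch z).symm c)) * TE V ((ch z).symm c) v *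
      cm (V.P z ((ch z).symm c))⁻¹ := by
  rw [Df_congr (h.EL_change hc), Df_conj _ _ (h.diff_x hc), TE_eq,
    (isCh_ch z).cp_symm (h.sub hc)]

lemma mW_EL (h : Nb V z U) {c : Fin m → ℂ} (hc : c ∈ U) (j : Fin m) :
    VCalc_442.mW (EL V z) (Pi.single j 1) c = cm (V.P z ((ch z).symm c)) *
      dM V.P V.E j ((ch z).symm c) * cm (V.P z ((ch z).symm c))⁻¹ := by
  rw [mW_congr (h.EL_change hc), Ipc735.mW_conj _ _ (h.diff_x hc), dM_eq,
    (isCh_ch z).cp_symm (h.sub hc)]

lemma mB_EL (h : Nb V z U) {c : Fin m → ℂ} (hc : c ∈ U) (j : Fin m) :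
    VCalc_442.mB (EL V z) (Pi.single j 1) c = cm (V.P z ((ch z).symm c)) *
      dMb V.P V.E j ((ch z).symm c) * cm (V.P z ((ch z).symm c))⁻¹ := by
  have h1 := h.Df_EL hc (Pi.single j 1)
  have h2 := h.mW_EL hc j
  rw [Df_eq, h2] at h1
  have h3 : TE V ((ch z).symm c) (Pi.single j 1) = dM V.P V.E j ((ch z).symm c) +
      dMb V.P V.E j ((ch z).symm c) := by
    rw [TE_eq, Df_eq, dM_eq, dMb_eq]
  rw [h3, Matrix.mul_add, Matrix.add_mul] at h1
  exact add_left_cancel h1

/-- the Gram matrix in the local frame -/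
lemma gg_eq (h : Nb V z U) {c : Fin m → ℂ} (hc : c ∈ U) (j k : Fin m) :
    VCalc_442.gg w (PL V z) (Pi.single j 1) (Pi.single k 1) c = gP V ((ch z).symm c) j k := by
  unfold VCalc_442.gg VCalc_442.th VCalc_442.thb
  rw [mW_congr (h.gr_ev hc), mB_congr (h.gr_ev hc), h.mW_EL hc, h.mB_EL hc]
  simp only [gP, Matrix.of_apply]
  rw [Matrix.mul_neg, Matrix.trace_neg]
  congr 1
  set g := cm (V.P z ((ch z).symm c))
  set g' := cm (V.P z ((ch z).symm c))⁻¹
  set A := dM V.P V.E j ((ch z).symm c)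
  set B := dMb V.P V.E k ((ch z).symm c)
  have h4 : g' * g = 1 := Pd571.cm_inv_mul _
  have h5 : g * A * g' * (g * B * g') = g * (A * B) * g' := by
    calc g * A * g' * (g * B * g') = g * A * (g' * g) * B * g' := by noncomm_ring
      _ = _ := by rw [h4]; noncomm_ring
  rw [h5, Matrix.trace_mul_comm, ← Matrix.mul_assoc, h4, Matrix.one_mul]

end Nb

variable (V)

/-- the coefficients of the Gram matrix as periods of the 442 form at the centre -/
lemma gP_eq (x : X) {U : Set (Fin m → ℂ)} (h : Nb V x U) (hx : cp x ∈ U) (j k : Fin m) :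
    gP V x j k = VCalc_442.gg w (PL V x) (Pi.single j 1) (Pi.single k 1) (cp x) := by
  rw [h.gg_eq hx, symm_cp]

lemma gP_herm (x : X) : (gP V x).IsHermitian := by
  obtain ⟨U, hx, h⟩ := exists_Nb V x
  ext j k
  rw [Matrix.conjTranspose_apply, gP_eq V x h hx, gP_eq V x h hx, ← h.loc.gg_swap hx]

lemma gg_quad (x : X) {U : Set (Fin m → ℂ)} (h : Nb V x U) (hx : cp x ∈ U) (u v : Fin m → ℂ) :
    VCalc_442.gg w (PL V x) u v (cp x) = star v ⬝ᵥ (gP V x)ᵀ *ᵥ u := by
  rw [gg_expand]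
  simp only [dotProduct, Matrix.mulVec, Pi.star_apply, Matrix.transpose_apply]
  refine Finset.sum_congr rfl fun k _ => ?_
  rw [Complex.star_def]
  congr 1
  refine Finset.sum_congr rfl fun j _ => ?_
  rw [gP_eq V x h hx]

lemma Df_gr (x : X) {U : Set (Fin m → ℂ)} (h : Nb V x U) (hx : cp x ∈ U) (v : Fin m → ℂ) :
    Df (VCalc_442.grOp w (PL V x)) (cp x) v = TE V x v := by
  rw [Df_congr (h.gr_ev hx)]; rfl

/-- **the period form through the real derivative**: `Re (uᴴ gᵀ v) = -½ Re tr (D_u E · D_v E)` -/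
theorem bf_gP (x : X) (u v : Fin m → ℂ) :
    bf (gP V x)ᵀ u v = -(1 / 2) * (TE V x u * TE V x v).trace.re := by
  obtain ⟨U, hx, h⟩ := exists_Nb V x
  have h1 := trace_dd_re h.loc hx v u
  rw [Df_gr V x h hx, Df_gr V x h hx, gg_quad V x h hx] at h1
  rw [bf_apply, Matrix.trace_mul_comm, h1]
  ring

lemma gP_transpose_posSemidef (x : X) : ((gP V x)ᵀ).PosSemidef := by
  obtain ⟨U, hx, h⟩ := exists_Nb V x
  refine Matrix.PosSemidef.of_dotProduct_mulVec_nonneg (gP_herm V x).transpose fun v => ?_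
  rw [← gg_quad V x h hx, h.loc.gg_self hx]
  exact_mod_cast h.loc.gden_nonneg hx v

lemma gP_posSemidef (x : X) : (gP V x).PosSemidef := by
  have := (gP_transpose_posSemidef V x).transpose
  rwa [Matrix.transpose_transpose] at this

section nrm

attribute [local instance] Matrix.linftyOpNormedRing Matrix.linftyOpNormedAlgebra

lemma TE_eq_zero_iff (x : X) (v : Fin m → ℂ) : TE V x v = 0 ↔ bf (gP V x)ᵀ v v = 0 := by
  constructor
  · intro h0
    rw [bf_gP, h0]; simp
  · intro h0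
    obtain ⟨U, hx, h⟩ := exists_Nb V x
    rw [bf_apply, ← gg_quad V x h hx] at h0
    have h1 := h.loc.gden_eq_zero hx (v := v) h0
    have h2 : VCalc_442.mB (VCalc_442.grOp w (PL V x)) v (cp x) = 0 := by
      have h3 := h.loc.adj_th hx v
      rw [← h.loc.th_eq hx, h1, Matrix.conjTranspose_zero, Matrix.zero_mul] at h3
      have h4 := h.loc.S_cancel hx (a := 0) (b := VCalc_442.dB (VCalc_442.grOp w (PL V x)) v (cp x))
        (by rw [Matrix.mul_zero]; exact h3)
      rw [VCalc_442.mB_eq_dB (h.loc.dE hx)]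
      exact h4.symm
    rw [← Df_gr V x h hx, Df_eq, h2, add_zero]
    exact h1

end nrm

end level735

end Crest.Agent.R276.Pd571
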