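import Mathlib
import Crest.Agent.R276.PdC_571

/-!
# R276, leaf PD (helper571): invariance of the period metric density on slices

`X` a Riemann domain over `ℂ^(n+1)`; coordinate `0` is the curve coordinate, slices are `y : Fin n → ℂ`
(points `Fin.cons ζ y`); `A : Finset (Fin n)` are the slice coordinates which belong to `z_2..z_a`.

* `Vt N A`: target space; `rho`: linear action of `GL_N(ℤ)`; `Fs V z A ζ y`: the invariant on the slice.
* `contDiffOn_Fs`, `fderiv_Fs`.
* `wt V A x = det (g_yy) · ∏_{i ∈ A} (1+|z_i|²)^{-2}`.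
* `inv_cv`: `wt x * |det L| = wt x'` (hypothesis of `CV_412.change_of_variables`).
-/

set_option autoImplicit false
set_option linter.unusedSectionVars false

noncomputable section

open Set Filter Topology Matrix
open scoped ContDiff ComplexConjugate ComplexOrder
open Crest.Agent.R271.Ho51
open Crest.Agent.R276.Ipc735
open Crest.Agent.R276.PdL571

namespace Crest.Agent.R276.Pd571

/-! ### the target space -/

/-- target space of the invariants -/
abbrev Vt (N : ℕ) (K : Type*) := (Fin N → Fin N → ℂ) × (Fin N → Fin N → ℂ) × (K → ℂ)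

variable {N : ℕ} {K : Type*} [Fintype K]

/-- the point of the target space given by a pair and coordinates -/
def vt (e : Mt N × Mt N) (a : K → ℂ) : Vt N K := (fun i j => e.1 i j, fun i j => e.2 i j, a)

lemma vt_inj {e e' : Mt N × Mt N} {a a' : K → ℂ} (h : vt e a = vt e' a') : e = e' ∧ a = a' := by
  have h1 := congrArg (fun q : Vt N K => q.1) h
  have h2 := congrArg (fun q : Vt N K => q.2.1) h
  have h3 := congrArg (fun q : Vt N K => q.2.2) h
  exact ⟨Prod.ext h1 h2, h3⟩

/-- linear action of `GL_N(ℤ)` -/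
def rhoL (g : GL (Fin N) ℤ) : Vt N K →ₗ[ℝ] Vt N K where
  toFun v := (fun i j => (cm g * (Matrix.of v.1) * cm g⁻¹) i j,
    fun i j => ((cm g⁻¹)ᴴ * (Matrix.of v.2.1) * cm g⁻¹) i j, v.2.2)
  map_add' u v := by
    have h : ∀ a b : Fin N → Fin N → ℂ, Matrix.of (a + b) = Matrix.of a + Matrix.of b :=
      fun _ _ => rfl
    refine Prod.ext ?_ (Prod.ext ?_ rfl)
    · funext i j
      simp only [Prod.fst_add, h, Matrix.mul_add, Matrix.add_mul, Matrix.add_apply, Pi.add_apply]
    · funext i j
      simp only [Prod.fst_add, Prod.snd_add, h, Matrix.mul_add, Matrix.add_mul, Matrix.add_apply,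
        Pi.add_apply]
  map_smul' c v := by
    have h : ∀ a : Fin N → Fin N → ℂ, Matrix.of (c • a) = c • Matrix.of a := fun _ => rfl
    refine Prod.ext ?_ (Prod.ext ?_ rfl)
    · funext i j
      simp only [Prod.smul_fst, h, Matrix.mul_smul, Matrix.smul_mul, Matrix.smul_apply,
        Pi.smul_apply, RingHom.id_apply]
    · funext i j
      simp only [Prod.smul_fst, Prod.smul_snd, h, Matrix.mul_smul, Matrix.smul_mul,
        Matrix.smul_apply, Pi.smul_apply, RingHom.id_apply]

lemma rhoL_vt (g : GL (Fin N) ℤ) (e : Mt N × Mt N) (a : K → ℂ) :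
    rhoL g (vt e a) = vt (act g e) a := rfl

/-- continuous linear action of `GL_N(ℤ)` -/
def rho : GL (Fin N) ℤ →* (Vt N K →L[ℝ] Vt N K) where
  toFun g := LinearMap.toContinuousLinearMap (rhoL g)
  map_one' := by
    ext v <;> simp [rhoL]
  map_mul' g h := by
    have key : ∀ v : Vt N K, rhoL (g * h) v = rhoL g (rhoL h v) := by
      intro v
      have e : v = vt (Matrix.of v.1, Matrix.of v.2.1) v.2.2 := rfl
      rw [e, rhoL_vt, rhoL_vt, rhoL_vt, act_mul]
    refine ContinuousLinearMap.ext fun v => ?_
    exact key v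

lemma rho_vt (g : GL (Fin N) ℤ) (e : Mt N × Mt N) (a : K → ℂ) :
    rho g (vt e a) = vt (act g e) a := rfl

lemma rho_fst (g : GL (Fin N) ℤ) (v : Vt N K) :
    Matrix.of (rho g v).1 = cm g * Matrix.of v.1 * cm g⁻¹ := rfl

lemma rho_snd (g : GL (Fin N) ℤ) (v : Vt N K) : (rho g v).2.2 = v.2.2 := rfl

/-! ### slices -/

variable {n w : ℕ} {X : Type*} [TopologicalSpace X] [RDom (n + 1) X]
variable (V : Ipc735.VHS (n + 1) X N w) (A : Finset (Fin n))




variable {V A}





namespace Nb

variable {z : X} {U : Set (Fin (n + 1) → ℂ)}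




end Nb

variable (V A)

/-- the Gram matrix on the slice -/
def gs (x : X) : Matrix (Fin n) (Fin n) ℂ := (gP V x).submatrix Fin.succ Fin.succ







variable {V A}

lemma trace_conj_sq {g g' T : Mt N} (h : g' * g = 1) :
    ((g * T * g') * (g * T * g')).trace = (T * T).trace := by
  have h5 : g * T * g' * (g * T * g') = g * (T * T) * g' := by
    calc g * T * g' * (g * T * g') = g * T * (g' * g) * T * g' := by noncomm_ring
      _ = _ := by rw [h]; noncomm_ring
  rw [h5, Matrix.trace_mul_comm, ← Matrix.mul_assoc, h, Matrix.one_mul]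


end Crest.Agent.R276.Pd571
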