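import Mathlib
import Crest.Agent.R276.PdW_571
import Crest.Agent.R276.BdNf1_651
import Crest.Agent.R276.BndA_563
import Crest.Agent.R276.Mod3_987
import Crest.Agent.R276.SliH_217
import Crest.Agent.R276.VCalcK_442
import Crest.Agent.R276.VLevi2_327

-- ▼ part R276/PdG_571
section

/-!
# R276, leaf PF-GRO (helper571): growth of the period Gram minors on a model

* `exists_section`: sections of `M.Pts → {h ≠ 0}` over balls, as holomorphic maps (`HM`).
* `exists_radius`: polynomial radius of a ball contained in `{h ≠ 0}`.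
* `gg_eq_gP`: the Gram matrix of 442's calculus along a flat frame of a chart-like map is `gP`.
* `growth_gP`, `growth_det`.
-/

set_option autoImplicit false
set_option linter.unusedSectionVars false

noncomputable section

open Set Filter Topology Matrix
open scoped ContDiff ComplexConjugate ComplexOrder
open Crest.Agent.R271.Ho51
open Crest.Agent.R276.Ipc735
open Crest.Agent.R276.PdL571
open Crest.Agent.R276.Mod1_987
open Crest.Agent.R276.BdNf1_651 (HM Fr exists_fr)

namespace Crest.Agent.R276.Pd571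

section model

variable {K : Type} [Field K] [Algebra ℂ K] {m : ℕ} (M : Mdl K m)

open Crest.Agent.R271.AlgB956 Crest.Agent.R271.Rd692 Crest.Agent.R271.Alg255 Crest.Agent.R271.Defs710

/-- sections over balls -/
theorem exists_section (y : M.Pts) {r : ℝ} (hr : 0 < r)
    (h : ∀ w ∈ Metric.ball (M.pz y) r, MvPolynomial.eval w M.h ≠ 0) :
    ∃ χ : Cn m → M.Pts, HM (Metric.ball (M.pz y) r) χ ∧ χ (M.pz y) = y ∧
      ∀ w ∈ Metric.ball (M.pz y) r, M.pz (χ w) = w := by
  classical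
  set Ω := Metric.ball (M.pz y) r with hΩ
  have hne : Ω.Nonempty := ⟨M.pz y, Metric.mem_ball_self hr⟩
  have hcv : Convex ℝ Ω := convex_ball _ _
  have hc1 : ContractibleSpace Ω := hcv.contractibleSpace hne
  have hc2 : LocallyPathConnectedSpace Ω := Metric.isOpen_ball.locallyPathConnectedSpace
  have hc3 : SimplyConnectedSpace Ω := inferInstance
  let f : C(Ω, M.U) := ⟨fun w => ⟨w.1, h w.1 w.2⟩, by fun_prop⟩
  obtain ⟨F, ⟨hF1, hF2⟩, -⟩ := M.isCoveringMap.existsUnique_continuousMap_lifts f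
    ⟨M.pz y, Metric.mem_ball_self hr⟩ y (Subtype.ext rfl)
  let χ : Cn m → M.Pts := fun w => if hw : w ∈ Ω then F ⟨w, hw⟩ else y
  have hχ : ∀ w (hw : w ∈ Ω), χ w = F ⟨w, hw⟩ := fun w hw => dif_pos hw
  have hpz : ∀ w ∈ Ω, M.pz (χ w) = w := by
    intro w hw
    rw [hχ w hw]
    have h1 := congrFun hF2 ⟨w, hw⟩
    exact congrArg (Subtype.val : M.U → Cn m) h1
  have hcont : ContinuousOn χ Ω := by
    rw [continuousOn_iff_continuous_domRestrict]
    refine F.continuous.congr fun w => ?_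
    exact (hχ w.1 w.2).symm
  refine ⟨χ, ⟨Metric.isOpen_ball, hcv, hne, hcont, ?_⟩, ?_, hpz⟩
  · refine differentiableOn_id.congr fun w hw => ?_
    rw [M.cp_eq, hpz w hw]; rfl
  · rw [hχ _ (Metric.mem_ball_self hr)]; exact hF1

/-- polynomial radius -/
theorem exists_radius (h : MvPolynomial (Fin m) ℂ) : ∃ (C : ℝ) (k : ℕ), 1 ≤ C ∧
    ∀ z : Cn m, MvPolynomial.eval z h ≠ 0 →
      ∀ w ∈ Metric.ball z (‖MvPolynomial.eval z h‖ / (C * (1 + ‖z‖) ^ k)),
        MvPolynomial.eval w h ≠ 0 := by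
  obtain ⟨C, N, hC, H⟩ := SliH_217.poly_bd h
  refine ⟨C, N, hC, fun z hz w hw hw0 => ?_⟩
  have hpos : 0 < C * (1 + ‖z‖) ^ N := by positivity
  have h1 := (H z 0 (by simp)).1
  have h2 : ‖MvPolynomial.eval z h‖ / (C * (1 + ‖z‖) ^ N) ≤ 1 := by
    rw [div_le_one hpos]; exact h1
  rw [Metric.mem_ball, dist_eq_norm] at hw
  have h3 := (H z (w - z) (hw.le.trans h2)).2
  rw [add_sub_cancel, hw0, zero_sub, norm_neg] at h3
  rw [lt_div_iff₀ hpos] at hw
  have h4 : ‖w - z‖ * (C * (1 + ‖z‖) ^ N) = C * (1 + ‖z‖) ^ N * ‖w - z‖ := mul_comm _ _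
  linarith

end model

section frame

variable {m N w : ℕ} {X : Type*} [TopologicalSpace X] [RDom m X]
variable (V : Ipc735.VHS m X N w)

/-- in a flat frame along a section the Gram matrix of 442's calculus is `gP` -/
theorem gg_eq_gP {Ω : Set (Fin m → ℂ)} {χ : (Fin m → ℂ) → X} (h : HM Ω χ) (n : Fr V Ω χ)
    (hcp : ∀ c ∈ Ω, cp (χ c) = c) {c : Fin m → ℂ} (hc : c ∈ Ω) (j k : Fin m) :
    VCalc_442.gg w (fun p z => hq w (n.E z) p) (Pi.single j 1) (Pi.single k 1) c =
      gP V (χ c) j k := by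
  obtain ⟨U, hx, hN⟩ := exists_Nb V (χ c)
  have hgr : VCalc_442.grOp w (fun p z => hq w (n.E z) p) =ᶠ[𝓝 c] n.E := by
    filter_upwards [h.op.mem_nhds hc] with d hd
    exact grOp_hq (n.hs hd)
  have hev : n.E =ᶠ[𝓝 c] fun u => cm (n.g c)⁻¹ * EL V (χ c) u * cm (n.g c) := by
    filter_upwards [n.E_chart h hc, h.op.mem_nhds hc] with u hu hu2
    rw [hu]
    show cm (n.g c)⁻¹ * lM V.P V.E (χ c) ((ch (χ c)).symm (cp (χ u))) * cm (n.g c) = _
    rw [hcp u hu2]
    rfl
  rw [hcp c hc] at hx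
  have hd : ∀ i j, DifferentiableAt ℝ (fun u => EL V (χ c) u i j) c := fun i j => hN.diffEL hx i j
  have hcpc : cp (χ c) = c := hcp c hc
  have hW : VCalc_442.mW n.E (Pi.single j 1) c =
      cm (n.g c)⁻¹ * dM V.P V.E j (χ c) * cm (n.g c) := by
    rw [mW_congr hev, Ipc735.mW_conj _ _ hd, dM_eq, hcpc]
  have hD : Df n.E c (Pi.single k 1) = cm (n.g c)⁻¹ * TE V (χ c) (Pi.single k 1) * cm (n.g c) := by
    rw [Df_congr hev, Df_conj _ _ hd, TE_eq, hcpc]
  have hWk : VCalc_442.mW n.E (Pi.single k 1) c =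
      cm (n.g c)⁻¹ * dM V.P V.E k (χ c) * cm (n.g c) := by
    rw [mW_congr hev, Ipc735.mW_conj _ _ hd, dM_eq, hcpc]
  have hB : VCalc_442.mB n.E (Pi.single k 1) c =
      cm (n.g c)⁻¹ * dMb V.P V.E k (χ c) * cm (n.g c) := by
    rw [Df_eq, hWk] at hD
    have h5 : TE V (χ c) (Pi.single k 1) = dM V.P V.E k (χ c) + dMb V.P V.E k (χ c) := by
      rw [TE_eq, Df_eq, dM_eq, dMb_eq]
    rw [h5, Matrix.mul_add, Matrix.add_mul] at hD
    exact add_left_cancel hD
  unfold VCalc_442.gg VCalc_442.th VCalc_442.thb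
  rw [mW_congr hgr, mB_congr hgr, hW, hB]
  simp only [gP, Matrix.of_apply]
  have h6 : (cm (n.g c)⁻¹ * dM V.P V.E j (χ c) * cm (n.g c)) *
      (cm (n.g c)⁻¹ * dMb V.P V.E k (χ c) * cm (n.g c)) =
      cm (n.g c)⁻¹ * (dM V.P V.E j (χ c) * dMb V.P V.E k (χ c)) * cm (n.g c) := by
    have h7 : cm (n.g c) * cm (n.g c)⁻¹ = 1 := Pd571.cm_mul_inv _
    calc _ = cm (n.g c)⁻¹ * dM V.P V.E j (χ c) * (cm (n.g c) * cm (n.g c)⁻¹) *
        dMb V.P V.E k (χ c) * cm (n.g c) := by noncomm_ring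
      _ = _ := by rw [h7]; noncomm_ring
  rw [Matrix.mul_neg, h6, Matrix.trace_neg, Matrix.trace_mul_comm, ← Matrix.mul_assoc,
    Pd571.cm_mul_inv, Matrix.one_mul]

end frame

section growth

variable {K : Type} [Field K] [Algebra ℂ K] {m N w : ℕ} (M : Mdl K m) (V : Ipc735.VHS m M.Pts N w)

open Crest.Agent.R271.AlgB956 Crest.Agent.R271.Rd692 Crest.Agent.R271.Alg255 Crest.Agent.R271.Defs710

lemma gP_diag_nonneg (y : M.Pts) (j : Fin m) : 0 ≤ (gP V y j j).re :=
  (Complex.le_def.1 (gP_posSemidef V y).diag_nonneg).1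

/-- **Ahlfors-Schwarz** on a ball of `ℂ^m` contained in `{h ≠ 0}` -/
theorem gP_le_ball (y : M.Pts) {r : ℝ} (hr : 0 < r)
    (h : ∀ w ∈ Metric.ball (M.pz y) r, MvPolynomial.eval w M.h ≠ 0) (j : Fin m) :
    (gP V y j j).re ≤ BndA_563.CA (Fin N) / r ^ 2 := by
  obtain ⟨χ, hχ, hy, hpz⟩ := exists_section M y hr h
  obtain ⟨n⟩ := exists_fr (V := V) hχ
  have h1 := BndA_563.gden_le (n.vhs hχ) (M.pz y) (Pi.single j 1) hr subset_rfl
  have h2 := gg_eq_gP V hχ n (fun c hc => by rw [M.cp_eq, hpz c hc])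
    (Metric.mem_ball_self hr) j j
  rw [hy] at h2
  have h3 : VCalc_442.gden w (fun p z => hq w (n.E z) p) (Pi.single j 1) (M.pz y) =
      (gP V y j j).re := by
    rw [← h2]; rfl
  rw [h3] at h1
  have h4 : ‖(Pi.single j 1 : Fin m → ℂ)‖ = 1 := by rw [Pi.norm_single, norm_one]
  rw [h4] at h1
  simpa using h1

/-- **GG**: polynomial growth of the period metric -/
theorem gP_growth : ∃ (C : ℝ) (a : ℕ), 0 ≤ C ∧ ∀ (y : M.Pts) (j : Fin m),
    (gP V y j j).re * ‖MvPolynomial.eval (M.pz y) M.h‖ ^ 2 ≤ C * (1 + ‖M.pz y‖) ^ a := by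
  obtain ⟨C, k, hC, H⟩ := exists_radius M.h
  have hCA : 0 < BndA_563.CA (Fin N) := BndA_563.CA_pos _
  refine ⟨BndA_563.CA (Fin N) * C ^ 2, 2 * k, by positivity, fun y j => ?_⟩
  have hh : 0 < ‖MvPolynomial.eval (M.pz y) M.h‖ := norm_pos_iff.2 (M.eval_h_ne y)
  have hz : 0 < 1 + ‖M.pz y‖ := by positivity
  have h1 := gP_le_ball M V y (r := ‖MvPolynomial.eval (M.pz y) M.h‖ / (C * (1 + ‖M.pz y‖) ^ k))
    (by positivity) (H _ (M.eval_h_ne y)) j
  rw [div_pow, div_div_eq_mul_div, le_div_iff₀ (by positivity)] at h1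
  calc _ ≤ _ := h1
    _ = _ := by rw [mul_pow, ← pow_mul, mul_comm k 2]; ring



/-- growth of the principal minors (in the index format `iota : Fin r → Fin m`) -/
theorem det_growth {r : ℕ} (iota : Fin r → Fin m) : ∃ (C : ℝ) (a l : ℕ), 0 ≤ C ∧ ∀ y : M.Pts,
    ((gP V y).submatrix iota iota).det.re * ‖MvPolynomial.eval (M.pz y) M.h‖ ^ l ≤
      C * (1 + ‖M.pz y‖) ^ a := by
  obtain ⟨C, a, hC, H⟩ := gP_growth M V
  refine ⟨C ^ r, a * r, 2 * r, by positivity, fun y => ?_⟩
  have h1 := Nil_840.det_le_prod_diag ((gP_posSemidef V y).submatrix iota)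
  simp only [Matrix.submatrix_apply] at h1
  set t := ‖MvPolynomial.eval (M.pz y) M.h‖ with ht
  have ht0 : 0 ≤ t := by positivity
  calc ((gP V y).submatrix iota iota).det.re * t ^ (2 * r)
      ≤ (∏ i, (gP V y (iota i) (iota i)).re) * t ^ (2 * r) := by gcongr
    _ = ∏ i : Fin r, ((gP V y (iota i) (iota i)).re * t ^ 2) := by
        rw [Finset.prod_mul_distrib, Finset.prod_const, Finset.card_univ, Fintype.card_fin, pow_mul]
    _ ≤ ∏ _i : Fin r, (C * (1 + ‖M.pz y‖) ^ a) :=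
        Finset.prod_le_prod (fun i _ => mul_nonneg (gP_diag_nonneg M V y _) (by positivity))
          fun i _ => H y (iota i)
    _ = C ^ r * (1 + ‖M.pz y‖) ^ (a * r) := by
        rw [Finset.prod_const, Finset.card_univ, Fintype.card_fin, mul_pow, ← pow_mul]

/-- the same for an arbitrary finite index type -/
theorem det_growth' {κ : Type*} [Fintype κ] [DecidableEq κ] (iota : κ → Fin m) :
    ∃ (C : ℝ) (a l : ℕ), 0 ≤ C ∧ ∀ y : M.Pts,
    ((gP V y).submatrix iota iota).det.re * ‖MvPolynomial.eval (M.pz y) M.h‖ ^ l ≤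
      C * (1 + ‖M.pz y‖) ^ a := by
  obtain ⟨C, a, l, hC, H⟩ := det_growth M V (iota ∘ (Fintype.equivFin κ).symm)
  refine ⟨C, a, l, hC, fun y => ?_⟩
  have h1 : ((gP V y).submatrix iota iota).det = ((gP V y).submatrix
      (iota ∘ (Fintype.equivFin κ).symm) (iota ∘ (Fintype.equivFin κ).symm)).det := by
    rw [← Matrix.det_submatrix_equiv_self (Fintype.equivFin κ).symm ((gP V y).submatrix iota iota)]
    rfl
  rw [h1]
  exact H y

end growth

end Crest.Agent.R276.Pd571
end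
end

-- ▼ part R276/PdH_571

/-!
# R276 (helper571): bridge between `gP` (PdC_571) and `gV`, `gdet` (327's VLevi)

`gV_eq`, `gdet_eq`, `gq_eq`, and the Levi inequalities for `log det` of the Gram matrix `gP` restricted to
any finite family of coordinates (any index type).
-/

set_option autoImplicit false
set_option linter.unusedSectionVars false

noncomputable section

open Set Filter Topology Matrix
open scoped ContDiff ComplexConjugate ComplexOrder
open Crest.Agent.R271.Ho51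
open Crest.Agent.R276.Ipc735
open Crest.Agent.R276.PdL571

namespace Crest.Agent.R276.Pd571

variable {m N w : ℕ} {X : Type*} [TopologicalSpace X] [RDom m X]
variable (V : Ipc735.VHS m X N w)

theorem gV_eq (i j : Fin m) (x : X) : VLevi_327.gV V i j x = gP V x i j := by
  unfold VLevi_327.gV gP
  rw [Matrix.of_apply, Matrix.mul_neg, Matrix.trace_neg]
  rfl

theorem gdet_eq {r : ℕ} (ι : Fin r → Fin m) (x : X) :
    VLevi_327.gdet V ι x = ((gP V x).submatrix ι ι).det.re := by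
  unfold VLevi_327.gdet
  congr 2
  ext i j
  rw [Matrix.of_apply, gV_eq, Matrix.submatrix_apply]



section det

variable {κ : Type*} [Fintype κ] [DecidableEq κ]

lemma det_equiv (ι : κ → Fin m) (x : X) : ((gP V x).submatrix ι ι).det.re =
    VLevi_327.gdet V (ι ∘ (Fintype.equivFin κ).symm) x := by
  rw [gdet_eq]
  congr 1
  rw [← Matrix.det_submatrix_equiv_self (Fintype.equivFin κ).symm ((gP V x).submatrix ι ι)]
  rfl

/-- the Gram minors are smooth -/
theorem sm_minor (ι : κ → Fin m) : Sm (fun x => ((gP V x).submatrix ι ι).det.re) :=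
  (sm_det (G := fun x : X => (gP V x).submatrix ι ι) fun _ _ => sm_gP V _ _).clm Complex.reCLM

theorem minor_nonneg (ι : κ → Fin m) (x : X) : 0 ≤ ((gP V x).submatrix ι ι).det.re :=
  (Complex.nonneg_iff.1 ((gP_posSemidef V x).submatrix ι).det_nonneg).1

/-- `log det` of a Gram minor is plurisubharmonic where it is finite -/
theorem Levi_log_minor_nonneg (ι : κ → Fin m) {x : X}
    (hpos : 0 < ((gP V x).submatrix ι ι).det.re) (v : Fin m → ℂ) :
    0 ≤ Levi (fun y => Real.log ((gP V y).submatrix ι ι).det.re) x v := by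
  simp only [det_equiv] at hpos ⊢
  exact VLevi_327.Levi_log_gdet_nonneg V _ hpos v


/-- a vector of which all coordinates off the minor vanish is in the span -/
lemma mem_span_of {ι : κ → Fin m} {v : Fin m → ℂ} (hv : ∀ j, j ∉ Set.range ι → v j = 0) :
    v ∈ Submodule.span ℂ (Set.range fun i => (Pi.single (ι i) 1 : Fin m → ℂ)) := by
  have h1 : v = ∑ j, v j • (Pi.single j (1 : ℂ) : Fin m → ℂ) := by
    rw [← pi_eq_sum_univ' v]
  rw [h1]
  refine Submodule.sum_mem _ fun j _ => ?_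
  by_cases hj : j ∈ Set.range ι
  · obtain ⟨i, rfl⟩ := hj
    exact Submodule.smul_mem _ _ (Submodule.subset_span ⟨i, rfl⟩)
  · rw [hv j hj, zero_smul]; exact Submodule.zero_mem _

end det

end Crest.Agent.R276.Pd571
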