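import Mathlib
import Crest.Agent.R276.Ahl_25

/-!
# R276, leaf MAXP (helper25): maximum principles for `C²` plurisubharmonic functions

`lev u z v = D²u(z)(v,v) + D²u(z)(iv,iv)` (same formula as `R273.Defs_333.lev`, any complex normed space).
-/

set_option autoImplicit false

open Set Filter Topology Metric InnerProductSpace Laplacian
open scoped ContDiff

namespace Crest.Agent.R276.MaxP_25

open Crest.Agent.R276.Ahl_25

/-! ### the Levi form and the Laplacian on complex lines -/

section lev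

variable {E : Type*} [NormedAddCommGroup E] [NormedSpace ℝ E] [NormedSpace ℂ E]

/-- `D²u(z)(v,v) + D²u(z)(iv,iv)` -/
noncomputable def lev (u : E → ℝ) (z v : E) : ℝ :=
  iteratedFDeriv ℝ 2 u z ![v, v] + iteratedFDeriv ℝ 2 u z ![Complex.I • v, Complex.I • v]

theorem lev_eq (u : E → ℝ) (z v : E) :
    lev u z v = fderiv ℝ (fderiv ℝ u) z v v +
      fderiv ℝ (fderiv ℝ u) z (Complex.I • v) (Complex.I • v) := by
  simp [lev, iteratedFDeriv_two_apply]

theorem lev_add {u w : E → ℝ} {z : E} (hu : ContDiffAt ℝ 2 u z) (hw : ContDiffAt ℝ 2 w z) (v : E) :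
    lev (fun x => u x + w x) z v = lev u z v + lev w z v := by
  have h : iteratedFDeriv ℝ 2 (fun x => u x + w x) z =
      iteratedFDeriv ℝ 2 u z + iteratedFDeriv ℝ 2 w z := by
    exact iteratedFDeriv_add_apply hu hw
  simp only [lev, h, add_apply]
  ring

theorem lev_const_mul {u : E → ℝ} {z : E} (hu : ContDiffAt ℝ 2 u z) (c : ℝ) (v : E) :
    lev (fun x => c * u x) z v = c * lev u z v := by
  have h : iteratedFDeriv ℝ 2 (fun x => c * u x) z = c • iteratedFDeriv ℝ 2 u z := by
    exact iteratedFDeriv_const_smul_apply (a := c) hu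
  simp only [lev, h, smul_apply, smul_eq_mul]
  ring



theorem lev_nonpos_of_isLocalMax {u : E → ℝ} {z : E} (hu : ContDiffAt ℝ 2 u z)
    (hm : IsLocalMax u z) (v : E) : lev u z v ≤ 0 := by
  rw [lev_eq]
  have h1 := snd_nonpos_of_isLocalMax hu hm v
  have h2 := snd_nonpos_of_isLocalMax hu hm (Complex.I • v)
  linarith


variable [IsScalarTower ℝ ℂ E]

theorem hasFDerivAt_cline (z v : E) (t : ℂ) :
    HasFDerivAt (fun s : ℂ => z + s • v) ((ContinuousLinearMap.id ℝ ℂ).smulRight v) t := by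
  have h := (((hasFDerivAt_id (𝕜 := ℂ) t).smul_const v).const_add z).restrictScalars ℝ
  refine h.congr_fderiv ?_
  (ext; simp)

theorem contDiff_cline (z v : E) : ContDiff ℝ 2 (fun s : ℂ => z + s • v) := by
  have : ContDiff ℝ 2 (fun s : ℂ => z + ((ContinuousLinearMap.id ℝ ℂ).smulRight v) s) :=
    contDiff_const.add (ContinuousLinearMap.contDiff _)
  exact this

theorem lap_cline {u : E → ℝ} {z v : E} {t : ℂ} (hu : ContDiffAt ℝ 2 u (z + t • v)) :
    (Δ (fun s : ℂ => u (z + s • v))) t = lev u (z + t • v) v := by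
  have hg : ContDiffAt ℝ 2 (fun s : ℂ => u (z + s • v)) t :=
    hu.comp t (contDiff_cline z v).contDiffAt
  rw [lap_eq, lev_eq, ← deriv2_line hg, ← deriv2_line hg, ← deriv2_line hu, ← deriv2_line hu]
  have e1 : (fun s : ℝ => u (z + (t + s • (1 : ℂ)) • v)) = fun s : ℝ => u (z + t • v + s • v) := by
    funext s
    congr 1
    rw [add_smul, smul_assoc, one_smul, add_assoc]
  have e2 : (fun s : ℝ => u (z + (t + s • Complex.I) • v)) =
      fun s : ℝ => u (z + t • v + s • (Complex.I • v)) := by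
    funext s
    congr 1
    rw [add_smul, smul_assoc, add_assoc]
  rw [e1, e2]

end lev

/-! ### weak maximum principle in one variable -/

theorem lap_normSq (z : ℂ) : (Δ (fun w : ℂ => ‖w‖ ^ 2)) z = 4 := by
  have hc : ContDiffAt ℝ 2 (fun w : ℂ => ‖w‖ ^ 2) z := (contDiff_norm_sq ℝ).contDiffAt
  have key : ∀ v : ℂ, ‖v‖ = 1 → fderiv ℝ (fderiv ℝ (fun w : ℂ => ‖w‖ ^ 2)) z v v = 2 := by
    intro v hv
    rw [← deriv2_line hc]
    set b := z.re * v.re + z.im * v.im with hb
    have hv2 : v.re ^ 2 + v.im ^ 2 = 1 := by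
      have := Complex.normSq_eq_norm_sq v
      rw [hv, Complex.normSq_apply] at this
      linarith
    have e1 : (fun t : ℝ => ‖z + t • v‖ ^ 2) = fun t => ‖z‖ ^ 2 + 2 * b * t + t ^ 2 := by
      funext t
      rw [← Complex.normSq_eq_norm_sq, ← Complex.normSq_eq_norm_sq, Complex.normSq_apply,
        Complex.normSq_apply, hb]
      simp only [Complex.add_re, Complex.add_im, Complex.real_smul, Complex.mul_re,
        Complex.mul_im, Complex.ofReal_re, Complex.ofReal_im, zero_mul, sub_zero, add_zero]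
      linear_combination t ^ 2 * hv2
    rw [e1]
    have hd : deriv (fun t : ℝ => ‖z‖ ^ 2 + 2 * b * t + t ^ 2) = fun t => 2 * b + 2 * t := by
      funext t
      have h1 : HasDerivAt (fun t : ℝ => ‖z‖ ^ 2 + 2 * b * t + t ^ 2) (2 * b + 2 * t) t := by
        have := (((hasDerivAt_id t).const_mul (2 * b)).const_add (‖z‖ ^ 2)).add
          ((hasDerivAt_id t).pow 2)
        refine this.congr_deriv ?_
        simp
      exact h1.deriv
    rw [hd]
    have h2 : HasDerivAt (fun t : ℝ => 2 * b + 2 * t) 2 0 := by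
      have := ((hasDerivAt_id (0 : ℝ)).const_mul 2).const_add (2 * b)
      simpa using this
    exact h2.deriv
  rw [lap_eq, key 1 (by simp), key Complex.I (by simp)]
  norm_num

/-- **weak maximum principle**: `F ⊆ W`, `u ≤ M` on `(K ∩ W) \ F`; at the other points of `K` either `u ≤ M`
or `z` is an interior point where `u` is `C²` with `Δ u ≥ 0`. -/
theorem wmp {K W F : Set ℂ} (hK : IsCompact K) (hW : IsOpen W) (hF : IsClosed F) (hFW : F ⊆ W)
    {u : ℂ → ℝ} {M : ℝ} (hc : ContinuousOn u (K \ W)) (hWM : ∀ z ∈ K, z ∈ W → z ∉ F → u z ≤ M)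
    (hB : ∀ z ∈ K, z ∉ W → u z ≤ M ∨ (K ∈ 𝓝 z ∧ ContDiffAt ℝ 2 u z ∧ 0 ≤ (Δ u) z)) :
    ∀ z ∈ K, z ∉ F → u z ≤ M := by
  intro z0 hz0 hz0F
  by_contra hcon
  push Not at hcon
  have hz0W : z0 ∉ W := fun h => absurd (hWM z0 hz0 h hz0F) (not_le.2 hcon)
  obtain ⟨R, hR⟩ := hK.isBounded.exists_norm_le
  set ε : ℝ := (u z0 - M) / (2 * (R ^ 2 + 1)) with hε
  have hε0 : 0 < ε := div_pos (by linarith) (by positivity)
  have hεR : ε * R ^ 2 < u z0 - M := by
    have : ε * (2 * (R ^ 2 + 1)) = u z0 - M := by rw [hε]; field_simp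
    nlinarith
  set v : ℂ → ℝ := fun z => u z + ε * ‖z‖ ^ 2 with hv
  have hvc : ContinuousOn v (K \ W) := hc.add (by fun_prop)
  obtain ⟨p, hp, hmax⟩ := (hK.diff hW).exists_isMaxOn ⟨z0, hz0, hz0W⟩ hvc
  have hp0 : v z0 ≤ v p := hmax ⟨hz0, hz0W⟩
  have hnn : ∀ z ∈ K, ε * ‖z‖ ^ 2 ≤ ε * R ^ 2 := by
    intro z hz
    have := hR z hz
    have h2 : ‖z‖ ^ 2 ≤ R ^ 2 := by
      have := norm_nonneg z
      nlinarith [hR z hz]
    exact mul_le_mul_of_nonneg_left h2 hε0.le
  have hvp : M + ε * R ^ 2 < v p := by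
    have h1 : u z0 ≤ v z0 := by simp only [hv]; nlinarith [sq_nonneg ‖z0‖]
    linarith
  rcases hB p hp.1 hp.2 with h | ⟨hKp, hC, hlap⟩
  · have := hnn p hp.1
    simp only [hv] at hvp
    linarith
  · have hFc : Fᶜ ∈ 𝓝 p := hF.isOpen_compl.mem_nhds (fun h => hp.2 (hFW h))
    have hloc : IsLocalMax v p := by
      filter_upwards [hKp, hFc] with z hz hzF
      by_cases hzW : z ∈ W
      · have h1 := hWM z hz hzW hzF
        have h2 := hnn z hz
        simp only [hv] at hvp ⊢
        linarith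
      · exact hmax ⟨hz, hzW⟩
    have hCn : ContDiffAt ℝ 2 (fun z : ℂ => ‖z‖ ^ 2) p := (contDiff_norm_sq ℝ).contDiffAt
    have h1 := lap_nonpos_of_isLocalMax (hC.add (hCn.const_smul ε)) hloc
    have h2 : (Δ v) p = (Δ u) p + ε * 4 := by
      have h3 : v = u + ε • (fun z : ℂ => ‖z‖ ^ 2) := rfl
      rw [h3]
      have h4 : (Δ (u + ε • (fun z : ℂ => ‖z‖ ^ 2))) p =
          (Δ u) p + (Δ (ε • (fun z : ℂ => ‖z‖ ^ 2))) p := hC.laplacian_add (hCn.const_smul ε)
      have h5 : (Δ (ε • (fun z : ℂ => ‖z‖ ^ 2))) p = ε • (Δ (fun z : ℂ => ‖z‖ ^ 2)) p :=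
        laplacian_smul ε hCn
      rw [h4, h5, lap_normSq, smul_eq_mul]
    have h6 : (Δ v) p ≤ 0 := h1
    rw [h2] at h6
    linarith

/-- harmonic sum of logarithms -/
theorem harmonicAt_logsum (F : Finset ℂ) (c : ℝ) {z : ℂ} (hz : z ∉ F) :
    HarmonicAt (fun w => ∑ f ∈ F, (Real.log ‖w - f‖ - c)) z := by
  induction F using Finset.induction_on with
  | empty => simp
  | insert f F hf ih =>
    have h1 : z ≠ f := fun h => hz (by simp [h])
    have h2 : z ∉ F := fun h => hz (Finset.mem_insert_of_mem h)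
    have h3 : HarmonicAt (fun w : ℂ => Real.log ‖w - f‖) z :=
      AnalyticAt.harmonicAt_log_norm (by fun_prop) (sub_ne_zero.2 h1)
    have h4 : HarmonicAt (fun w : ℂ => Real.log ‖w - f‖ - c) z := h3.sub (harmonicAt_const c)
    have h5 := h4.add (ih h2)
    refine (harmonicAt_congr_nhds (Eventually.of_forall fun w => ?_)).2 h5
    rw [Finset.sum_insert hf]
    rfl

/-- **removable logarithmic singularities**: `u` is `C²`, subharmonic on `|z| < r` minus the finite set `F`,
continuous up to `|z| = r` and `≤ o(log 1/|z - f|)` at the points `f ∈ F`; then `u` is bounded by its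
maximum on the circle. -/
theorem finite_le {r : ℝ} {F : Finset ℂ} (hFr : ∀ f ∈ F, ‖f‖ < r) {u : ℂ → ℝ}
    (hC : ∀ z : ℂ, ‖z‖ < r → z ∉ F → ContDiffAt ℝ 2 u z ∧ 0 ≤ (Δ u) z)
    (hc : ContinuousOn u (closedBall 0 r \ F))
    (hg : ∀ f ∈ F, ∀ ε : ℝ, 0 < ε → ∀ᶠ z in 𝓝[≠] f, u z ≤ ε * Real.log (1 / ‖z - f‖)) {M : ℝ}
    (hM : ∀ z : ℂ, ‖z‖ = r → u z ≤ M) : ∀ z : ℂ, ‖z‖ ≤ r → z ∉ F → u z ≤ M := by
  intro z0 hz0 hz0F
  rcases hz0.lt_or_eq with hlt | heq
  swap
  · exact hM z0 heq
  have hr : 0 < r := (norm_nonneg _).trans_lt hlt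
  set c : ℝ := Real.log (2 * r) with hcdef
  set H : ℂ → ℝ := fun w => ∑ f ∈ F, (Real.log ‖w - f‖ - c) with hH
  have hdist : ∀ w : ℂ, ‖w‖ ≤ r → ∀ f ∈ F, ‖w - f‖ ≤ 2 * r := by
    intro w hw f hf
    have := norm_sub_le w f
    linarith [hFr f hf]
  have hterm : ∀ w : ℂ, ‖w‖ ≤ r → ∀ f ∈ F, w ≠ f → Real.log ‖w - f‖ - c ≤ 0 := by
    intro w hw f hf hwf
    have h1 : 0 < ‖w - f‖ := norm_pos_iff.2 (sub_ne_zero.2 hwf)
    have := Real.log_le_log h1 (hdist w hw f hf)
    linarith
  have hHle : ∀ w : ℂ, ‖w‖ ≤ r → w ∉ F → H w ≤ 0 := by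
    intro w hw hwF
    exact Finset.sum_nonpos (fun f hf => hterm w hw f hf (fun h => hwF (h ▸ hf)))
  have key : ∀ ε : ℝ, 0 < ε → u z0 + 2 * ε * H z0 ≤ M := by
    intro ε hε
    set v : ℂ → ℝ := fun w => u w + (2 * ε) * H w with hv
    set W : Set ℂ := interior {z | z ∉ F → v z ≤ M} with hWdef
    have hFW : (F : Set ℂ) ⊆ W := by
      intro f hf
      rw [hWdef, mem_interior_iff_mem_nhds]
      have h1 := hg f hf ε hε
      have h2 : Tendsto (fun z : ℂ => ‖z - f‖) (𝓝[≠] f) (𝓝[>] 0) := by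
        rw [tendsto_nhdsWithin_iff]
        constructor
        · have : Continuous (fun z : ℂ => ‖z - f‖) := by fun_prop
          have h3 := this.tendsto f
          simp only [sub_self, norm_zero] at h3
          exact h3.mono_left nhdsWithin_le_nhds
        · filter_upwards [self_mem_nhdsWithin] with z hz
          exact norm_pos_iff.2 (sub_ne_zero.2 hz)
      have h3 : Tendsto (fun z : ℂ => ε * Real.log ‖z - f‖ - 2 * ε * c) (𝓝[≠] f) atBot := by
        have h4 := (Real.tendsto_log_nhdsGT_zero.comp h2).const_mul_atBot hε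
        exact tendsto_atBot_add_const_right _ _ h4
      have h5 : ∀ᶠ z in 𝓝[≠] f, ‖z‖ ≤ r := by
        refine nhdsWithin_le_nhds ?_
        have : ContinuousAt (fun z : ℂ => ‖z‖) f := by fun_prop
        exact (this.eventually (gt_mem_nhds (hFr f hf))).mono fun z hz => le_of_lt hz
      have h6 : ∀ᶠ z in 𝓝[≠] f, z ∉ F → v z ≤ M := by
        filter_upwards [h1, h3.eventually_le_atBot M, h5, self_mem_nhdsWithin] with z hz1 hz3 hz5 hz6
        intro hzF
        have h7 : H z ≤ Real.log ‖z - f‖ - c := by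
          have h8 : H z = (Real.log ‖z - f‖ - c) + ∑ g ∈ F.erase f, (Real.log ‖z - g‖ - c) := by
            simp only [hH]
            rw [Finset.add_sum_erase F (fun g => Real.log ‖z - g‖ - c) hf]
          have h9 : ∑ g ∈ F.erase f, (Real.log ‖z - g‖ - c) ≤ 0 :=
            Finset.sum_nonpos (fun g hg => hterm z hz5 g (Finset.mem_of_mem_erase hg)
              (fun h => hzF (h ▸ (Finset.mem_of_mem_erase hg))))
          linarith
        have h10 : u z ≤ - (ε * Real.log ‖z - f‖) := by
          rw [one_div, Real.log_inv] at hz1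
          linarith
        have h11 : (2 * ε) * H z ≤ (2 * ε) * (Real.log ‖z - f‖ - c) :=
          mul_le_mul_of_nonneg_left h7 (by linarith)
        simp only [hv]
        linarith
      rw [eventually_nhdsWithin_iff] at h6
      filter_upwards [h6] with z hz hzF
      rcases eq_or_ne z f with rfl | hne
      · exact absurd hf hzF
      · exact hz hne hzF
    have hHc : ContinuousOn H (closedBall 0 r \ (F : Set ℂ)) := by
      intro w hw
      exact (harmonicAt_logsum F c hw.2).1.continuousAt.continuousWithinAt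
    have hvc : ContinuousOn v (closedBall 0 r \ W) := by
      have hsub : closedBall 0 r \ W ⊆ closedBall 0 r \ (F : Set ℂ) := fun z hz =>
        ⟨hz.1, fun h => hz.2 (hFW h)⟩
      exact (hc.mono hsub).add (continuousOn_const.mul (hHc.mono hsub))
    have := wmp (K := closedBall 0 r) (W := W) (F := (F : Set ℂ)) (u := v) (M := M)
      (isCompact_closedBall 0 r) isOpen_interior F.finite_toSet.isClosed hFW hvc
      (fun z _ hzW hzF => by
        have := interior_subset hzW
        exact this hzF)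
      (fun z hz hzW => by
        have hzF : z ∉ F := fun h => hzW (hFW h)
        rw [mem_closedBall_zero_iff] at hz
        rcases hz.lt_or_eq with h | h
        · right
          refine ⟨?_, ?_, ?_⟩
          · exact mem_of_superset (isOpen_ball.mem_nhds (by rwa [mem_ball_zero_iff]))
              ball_subset_closedBall
          · exact (hC z h hzF).1.add ((harmonicAt_logsum F c hzF).1.const_smul (2 * ε))
          · have h1 := (hC z h hzF)
            have h2 := harmonicAt_logsum F c hzF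
            have h3 : v = u + (2 * ε) • H := rfl
            have h4 : (Δ (u + (2 * ε) • H)) z = (Δ u) z + (Δ ((2 * ε) • H)) z :=
              h1.1.laplacian_add (h2.1.const_smul (2 * ε))
            have h5 : (Δ ((2 * ε) • H)) z = (2 * ε) • (Δ H) z := laplacian_smul (2 * ε) h2.1
            have h6 : (Δ H) z = 0 := h2.2.self_of_nhds
            rw [h3, h4, h5, h6, smul_zero, add_zero]
            exact h1.2
        · left
          have h1 := hM z h
          have h2 := hHle z h.le hzF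
          simp only [hv]
          nlinarith) z0 (by rwa [mem_closedBall_zero_iff]) hz0F
    exact this
  by_contra hcon
  push Not at hcon
  set s := - H z0 with hs
  have hs0 : 0 ≤ s := by rw [hs]; linarith [hHle z0 hz0 hz0F]
  have := key ((u z0 - M) / (2 * (s + 1)) / 2) (by
    refine div_pos (div_pos (by linarith) (by linarith)) (by norm_num))
  have h2 : 2 * ((u z0 - M) / (2 * (s + 1)) / 2) * H z0 = - ((u z0 - M) * (s / (2 * (s + 1)))) := by
    rw [show H z0 = - s by rw [hs]; ring]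
    field_simp
  rw [h2] at this
  have h3 : s / (2 * (s + 1)) < 1 := by
    rw [div_lt_one (by linarith)]; linarith
  have h4 : (u z0 - M) * (s / (2 * (s + 1))) < (u z0 - M) * 1 :=
    mul_lt_mul_of_pos_left h3 (by linarith)
  linarith


/-! ### strong maximum principle -/


section several

variable {E : Type*} [NormedAddCommGroup E] [NormedSpace ℝ E] [NormedSpace ℂ E]
  [IsScalarTower ℝ ℂ E]



end several

end Crest.Agent.R276.MaxP_25
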