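import Mathlib
import Crest.Agent.R276.MaxP_25
import Crest.Agent.R276.Der_409
import Crest.Agent.R276.Mod3_987
import Crest.Agent.R276.Mass_137
import Crest.Agent.R276.Liou_739
import Crest.Agent.R271.W_792
import Crest.Agent.R276.Mod5_987
import Crest.Agent.R276.CntLow2_804

-- ▼ part R276/RatPlane_437
section

/-!
# R276, leaf ALG-RAT (helper437), part F1: growth against a log-subharmonic weight ⇒ rational

`w` is a nonnegative `C²` weight on `ℂ ∖ P` (`P` finite), `log w` subharmonic where `w > 0`, polynomially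
bounded; a holomorphic function `S` with `|S|² w` polynomially bounded takes every value only finitely
often (maximum principle), hence is rational.
-/

set_option autoImplicit false

open Set Filter Topology Metric InnerProductSpace Laplacian

namespace Crest.Agent.R276.RatPlane_437

open Crest.Agent.R276.Ahl_25 Crest.Agent.R276.MaxP_25

/-! ### Laplacians -/

theorem snd_exp {v : ℂ → ℝ} {z : ℂ} (hv : ContDiffAt ℝ 2 v z) (e : ℂ) :
    fderiv ℝ (fderiv ℝ (fun s => Real.exp (v s))) z e e =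
      Real.exp (v z) * ((fderiv ℝ v z e) ^ 2 + fderiv ℝ (fderiv ℝ v) z e e) := by
  have hE : ContDiffAt ℝ 2 (fun s => Real.exp (v s)) z := hv.exp
  rw [← deriv2_line hE]
  have hev : ∀ᶠ t in 𝓝 (0 : ℝ), ContDiffAt ℝ 2 v (z + t • e) :=
    (tendsto_line z e).eventually (hv.eventually (by simp))
  have h1 : deriv (fun t : ℝ => Real.exp (v (z + t • e))) =ᶠ[𝓝 0]
      fun t => Real.exp (v (z + t • e)) * fderiv ℝ v (z + t • e) e := by
    filter_upwards [hev] with t ht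
    have h2 := ((ht.differentiableAt (by norm_num)).hasFDerivAt.comp_hasDerivAt t
      (hasDerivAt_line z e t))
    exact h2.exp.deriv
  have h2 : HasDerivAt (fun t : ℝ => v (z + t • e)) (fderiv ℝ v z e) 0 := by
    have h3 : HasFDerivAt v (fderiv ℝ v z) (z + (0 : ℝ) • e) := by
      simpa using (hv.differentiableAt (by norm_num)).hasFDerivAt
    exact h3.comp_hasDerivAt (0 : ℝ) (hasDerivAt_line z e 0)
  have h3 := h2.exp.mul (hasDerivAt_line2 (v := e) hv)
  rw [h1.deriv_eq]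
  have h4 := h3.deriv
  simp only [zero_smul, add_zero] at h4
  refine Eq.trans ?_ (h4.trans ?_)
  · rfl
  · ring

theorem lap_exp_nonneg {v : ℂ → ℝ} {z : ℂ} (hv : ContDiffAt ℝ 2 v z) (h : 0 ≤ (Δ v) z) :
    0 ≤ (Δ (fun s => Real.exp (v s))) z := by
  rw [lap_eq] at h ⊢
  rw [snd_exp hv, snd_exp hv]
  have h1 := Real.exp_pos (v z)
  have : 0 ≤ Real.exp (v z) * ((fderiv ℝ v z 1) ^ 2 + (fderiv ℝ v z Complex.I) ^ 2 +
      (fderiv ℝ (fderiv ℝ v) z 1 1 + fderiv ℝ (fderiv ℝ v) z Complex.I Complex.I)) := by positivity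
  linarith

/-- the Laplacian of a `C²` function is continuous -/
theorem continuousAt_lap {v : ℂ → ℝ} {z : ℂ} (hv : ContDiffAt ℝ 2 v z) : ContinuousAt (Δ v) z := by
  have h1 : ContDiffAt ℝ 1 (fderiv ℝ v) z := hv.fderiv_right (by norm_num)
  have h2 : ContDiffAt ℝ 0 (fderiv ℝ (fderiv ℝ v)) z := h1.fderiv_right (by norm_num)
  have h3 : ContinuousAt (fderiv ℝ (fderiv ℝ v)) z := h2.continuousAt
  have h4 : (Δ v) = fun z => fderiv ℝ (fderiv ℝ v) z 1 1 + fderiv ℝ (fderiv ℝ v) z Complex.I Complex.I := by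
    funext z
    exact lap_eq v z
  rw [h4]
  exact ((h3.clm_apply continuousAt_const).clm_apply continuousAt_const).add
    ((h3.clm_apply continuousAt_const).clm_apply continuousAt_const)

/-- `|g|² e^v` is subharmonic where `g` is holomorphic and nonzero and `v` subharmonic -/
theorem lap_mul_nonneg {w : ℂ → ℝ} {g : ℂ → ℂ} {z : ℂ} (hw : ContDiffAt ℝ 2 w z) (hw0 : 0 < w z)
    (hl : 0 ≤ (Δ (fun s => Real.log (w s))) z) (hg : AnalyticAt ℂ g z) (hg0 : g z ≠ 0) :
    0 ≤ (Δ (fun s => w s * ‖g s‖ ^ 2)) z := by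
  have hlog : ContDiffAt ℝ 2 (fun s => Real.log (w s)) z := hw.log hw0.ne'
  have hharm : HarmonicAt (fun s => Real.log ‖g s‖) z := AnalyticAt.harmonicAt_log_norm hg hg0
  have hH2 : ContDiffAt ℝ 2 (fun s => Real.log ‖g s‖) z := hharm.1
  have hH0 : (Δ (fun s => Real.log ‖g s‖)) z = 0 := hharm.2.self_of_nhds
  obtain ⟨c, hc⟩ : ∃ c : ℝ, c = 2 := ⟨2, rfl⟩
  set v : ℂ → ℝ := fun s => Real.log (w s) + c * Real.log ‖g s‖ with hv
  have hvC : ContDiffAt ℝ 2 v z := hlog.add (contDiffAt_const.mul hH2)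
  have hvL : 0 ≤ (Δ v) z := by
    have h1 : v = (fun s => Real.log (w s)) + c • (fun s => Real.log ‖g s‖) := rfl
    have h5 : ContDiffAt ℝ 2 (c • (fun s => Real.log ‖g s‖)) z := hH2.const_smul c
    have h6 : (Δ (c • (fun s => Real.log ‖g s‖))) z = c • (Δ (fun s => Real.log ‖g s‖)) z :=
      laplacian_smul c hH2
    rw [h1, hlog.laplacian_add h5, h6, hH0]
    simpa using hl
  have h2 := lap_exp_nonneg hvC hvL
  have h3 : (fun s => Real.exp (v s)) =ᶠ[𝓝 z] fun s => w s * ‖g s‖ ^ 2 := by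
    have hwp : ∀ᶠ s in 𝓝 z, 0 < w s := hw.continuousAt.eventually (lt_mem_nhds hw0)
    have hgp : ∀ᶠ s in 𝓝 z, g s ≠ 0 := hg.continuousAt.eventually_ne hg0
    filter_upwards [hwp, hgp] with s h1 h2
    simp only [hv]
    rw [hc, Real.exp_add, Real.exp_log h1, two_mul, Real.exp_add, Real.exp_log (norm_pos_iff.2 h2)]
    ring
  rwa [(laplacian_congr_nhds h3).self_of_nhds] at h2

theorem quad_bound {w : ℂ → ℝ} {q : ℂ} (hw : ContDiffAt ℝ 2 w q) (h0 : w q = 0)
    (hn : ∀ᶠ z in 𝓝 q, 0 ≤ w z) : ∃ M, ∀ᶠ z in 𝓝 q, w z ≤ M * ‖z - q‖ ^ 2 := by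
  have hmin : IsLocalMin w q := by
    filter_upwards [hn] with z hz
    rw [h0]; exact hz
  have hd0 : fderiv ℝ w q = 0 := hmin.fderiv_eq_zero
  have h1 : ContDiffAt ℝ 1 (fderiv ℝ w) q := hw.fderiv_right (by norm_num)
  have h2 : (fun z => fderiv ℝ w z - fderiv ℝ w q) =O[𝓝 q] fun z => z - q :=
    (h1.differentiableAt (by norm_num)).isBigO_sub
  obtain ⟨M, hM⟩ := h2.bound
  have hev : ∀ᶠ z in 𝓝 q, DifferentiableAt ℝ w z ∧ ‖fderiv ℝ w z‖ ≤ M * ‖z - q‖ := by
    filter_upwards [hM, hw.eventually (by simp)] with z hz1 hz2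
    refine ⟨hz2.differentiableAt (by norm_num), ?_⟩
    simpa [hd0] using hz1
  obtain ⟨r, hr, hball⟩ := Metric.eventually_nhds_iff_ball.1 hev
  refine ⟨|M|, ?_⟩
  filter_upwards [ball_mem_nhds q hr] with z hz
  have hsub : closedBall q ‖z - q‖ ⊆ ball q r := by
    intro x hx
    rw [mem_closedBall_iff_norm] at hx
    rw [mem_ball_iff_norm] at hz ⊢
    linarith
  have h3 := (convex_closedBall q ‖z - q‖).norm_image_sub_le_of_norm_fderiv_le (𝕜 := ℝ) (f := w)
    (C := |M| * ‖z - q‖) (fun x hx => (hball x (hsub hx)).1) (fun x hx => by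
      refine ((hball x (hsub hx)).2).trans ?_
      rw [mem_closedBall_iff_norm] at hx
      have := le_abs_self M
      have h5 := norm_nonneg (x - q)
      have h6 := abs_nonneg M
      nlinarith) (mem_closedBall_self (norm_nonneg _)) (x := q) (y := z)
      (by rw [mem_closedBall_iff_norm])
  rw [h0, sub_zero, Real.norm_eq_abs] at h3
  calc w z ≤ |w z| := le_abs_self _
    _ ≤ |M| * ‖z - q‖ * ‖z - q‖ := h3
    _ = |M| * ‖z - q‖ ^ 2 := by ring

theorem tendsto_log_inv (f : ℂ) : Tendsto (fun z : ℂ => Real.log (1 / ‖z - f‖)) (𝓝[≠] f) atTop := by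
  have h2 : Tendsto (fun z : ℂ => ‖z - f‖) (𝓝[≠] f) (𝓝[>] 0) := by
    rw [tendsto_nhdsWithin_iff]
    constructor
    · have : Continuous (fun z : ℂ => ‖z - f‖) := by fun_prop
      have h3 := this.tendsto f
      simp only [sub_self, norm_zero] at h3
      exact h3.mono_left nhdsWithin_le_nhds
    · filter_upwards [self_mem_nhdsWithin] with z hz
      exact norm_pos_iff.2 (sub_ne_zero.2 hz)
  have h3 : Tendsto (fun z : ℂ => - Real.log ‖z - f‖) (𝓝[≠] f) atTop :=
    tendsto_neg_atBot_atTop.comp (Real.tendsto_log_nhdsGT_zero.comp h2)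
  refine h3.congr fun z => ?_
  rw [one_div, Real.log_inv]

/-- **counting lemma**: a nonnegative `C²` weight on `ℂ ∖ P`, logarithmically subharmonic where positive,
not identically zero and `≤ C (1+|t|)^N`, has at most `N/2` zeros. -/
theorem count {P Q : Finset ℂ} {w : ℂ → ℝ} {C : ℝ} {N : ℕ}
    (hw2 : ∀ t ∉ P, ContDiffAt ℝ 2 w t) (hw0 : ∀ t ∉ P, 0 ≤ w t)
    (hlap : ∀ t ∉ P, 0 < w t → 0 ≤ (Δ (fun s => Real.log (w s))) t)
    (hpos : ∃ t, t ∉ P ∧ 0 < w t)
    (hg : ∀ t ∉ P, w t ≤ C * (1 + ‖t‖) ^ N)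
    (hQ : ∀ t ∈ Q, t ∉ P ∧ w t = 0) : 2 * Q.card ≤ N := by
  by_contra hcon
  push Not at hcon
  set G : ℂ → ℂ := fun t => (∏ q ∈ Q, (t - q))⁻¹ with hG
  set u : ℂ → ℝ := fun t => w t * ‖G t‖ ^ 2 with hu
  have hprod : ∀ t ∉ Q, (∏ q ∈ Q, (t - q)) ≠ 0 := by
    intro t ht
    rw [Finset.prod_ne_zero_iff]
    intro q hq
    exact sub_ne_zero.2 (fun h => ht (h ▸ hq))
  have hGan : ∀ t ∉ Q, AnalyticAt ℂ G t := by
    intro t ht
    refine AnalyticAt.inv ?_ (hprod t ht)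
    exact Finset.analyticAt_fun_prod _ (fun q _ => by fun_prop)
  have hGne : ∀ t ∉ Q, G t ≠ 0 := fun t ht => inv_ne_zero (hprod t ht)
  have huC : ∀ t ∉ P ∪ Q, ContDiffAt ℝ 2 u t := by
    intro t ht
    rw [Finset.mem_union, not_or] at ht
    have h1 : ContDiffAt ℝ 2 G t := ((hGan t ht.2).contDiffAt (n := 2)).restrict_scalars ℝ
    exact (hw2 t ht.1).mul (h1.norm_sq ℝ)
  have huL : ∀ t ∉ P ∪ Q, 0 ≤ (Δ u) t := by
    intro t ht
    by_contra hneg
    push Not at hneg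
    have hc : ∀ᶠ s in 𝓝 t, (Δ u) s < 0 := (continuousAt_lap (huC t ht)).eventually (gt_mem_nhds hneg)
    have hF : ∀ᶠ s in 𝓝 t, s ∉ P ∪ Q := (Finset.isClosed _).isOpen_compl.mem_nhds ht
    by_cases hd : ∃ᶠ s in 𝓝 t, 0 < w s
    · obtain ⟨s, hs1, hs2, hs3⟩ := (hd.and_eventually (hc.and hF)).exists
      rw [Finset.mem_union, not_or] at hs3
      have := lap_mul_nonneg (hw2 s hs3.1) hs1 (hlap s hs3.1 hs1) (hGan s hs3.2) (hGne s hs3.2)
      exact absurd this (not_le.2 hs2)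
    · rw [not_frequently] at hd
      have h0 : u =ᶠ[𝓝 t] fun _ => 0 := by
        filter_upwards [hd, hF] with s h1 h2
        rw [Finset.mem_union, not_or] at h2
        have h3 : w s = 0 := le_antisymm (not_lt.1 h1) (hw0 s h2.1)
        simp only [hu, h3, zero_mul]
      rw [(laplacian_congr_nhds h0).self_of_nhds, lap_eq] at hneg
      simp at hneg
  -- bounded near the punctures
  have hbd : ∀ f ∈ P ∪ Q, ∃ M, ∀ᶠ z in 𝓝[≠] f, u z ≤ M := by
    intro f hf
    by_cases hfQ : f ∈ Q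
    · obtain ⟨hfP, hf0⟩ := hQ f hfQ
      have hnn : ∀ᶠ z in 𝓝 f, 0 ≤ w z := by
        filter_upwards [P.isClosed.isOpen_compl.mem_nhds (by exact_mod_cast hfP)] with z hz
        exact hw0 z (by exact_mod_cast hz)
      obtain ⟨M, hM⟩ := quad_bound (hw2 f hfP) hf0 hnn
      set g' : ℂ → ℂ := fun t => (∏ q ∈ Q.erase f, (t - q))⁻¹ with hg'
      have hg'c : ContinuousAt (fun z => ‖g' z‖ ^ 2) f := by
        have hne : (∏ q ∈ Q.erase f, (f - q)) ≠ 0 := by
          rw [Finset.prod_ne_zero_iff]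
          intro q hq
          exact sub_ne_zero.2 (fun h => (Finset.ne_of_mem_erase hq) h.symm)
        have hcp : Continuous (fun t : ℂ => ∏ q ∈ Q.erase f, (t - q)) :=
          continuous_finsetProd _ (fun q _ => by fun_prop)
        exact ((hcp.continuousAt (x := f)).inv₀ hne).norm.pow 2
      have hev : ∀ᶠ z in 𝓝 f, ‖g' z‖ ^ 2 < ‖g' f‖ ^ 2 + 1 :=
        hg'c.eventually (gt_mem_nhds (lt_add_one _))
      refine ⟨|M| * (‖g' f‖ ^ 2 + 1), ?_⟩
      filter_upwards [nhdsWithin_le_nhds hM, nhdsWithin_le_nhds hev, nhdsWithin_le_nhds hnn,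
        self_mem_nhdsWithin] with z h1 h2 h3 h4
      have hzf : 0 < ‖z - f‖ := norm_pos_iff.2 (sub_ne_zero.2 h4)
      have hGz : G z = (z - f)⁻¹ * g' z := by
        simp only [hG, hg']
        rw [← Finset.mul_prod_erase Q (fun q => z - q) hfQ, mul_inv]
      simp only [hu]
      rw [hGz, norm_mul, norm_inv, mul_pow, inv_pow, ← mul_assoc]
      have h5 : w z * (‖z - f‖ ^ 2)⁻¹ ≤ |M| := by
        rw [← div_eq_mul_inv, div_le_iff₀ (by positivity)]
        exact h1.trans (mul_le_mul_of_nonneg_right (le_abs_self M) (by positivity))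
      exact mul_le_mul h5 h2.le (by positivity) (abs_nonneg M)
    · have hfP : f ∈ P := by
        rcases Finset.mem_union.1 hf with h | h
        · exact h
        · exact absurd h hfQ
      have hGc : ContinuousAt (fun z => ‖G z‖ ^ 2) f := ((hGan f hfQ).continuousAt.norm).pow 2
      have hev : ∀ᶠ z in 𝓝 f, ‖G z‖ ^ 2 < ‖G f‖ ^ 2 + 1 :=
        hGc.eventually (gt_mem_nhds (lt_add_one _))
      have hev2 : ∀ᶠ z in 𝓝[≠] f, z ∉ P := by
        have h1 : ∀ᶠ z in 𝓝 f, z ∉ P.erase f := (P.erase f).isClosed.isOpen_compl.mem_nhds (by simp)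
        filter_upwards [nhdsWithin_le_nhds h1, self_mem_nhdsWithin] with z h2 h3 h4
        exact h2 (Finset.mem_erase.2 ⟨h3, h4⟩)
      have hev3 : ∀ᶠ z in 𝓝 f, ‖z‖ < ‖f‖ + 1 :=
        continuous_norm.continuousAt.eventually (gt_mem_nhds (lt_add_one _))
      refine ⟨|C| * (1 + (‖f‖ + 1)) ^ N * (‖G f‖ ^ 2 + 1), ?_⟩
      filter_upwards [nhdsWithin_le_nhds hev, hev2, nhdsWithin_le_nhds hev3] with z h1 h2 h3
      simp only [hu]
      have h4 : w z ≤ |C| * (1 + (‖f‖ + 1)) ^ N := by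
        refine (hg z h2).trans ?_
        have h5 : (1 + ‖z‖) ^ N ≤ (1 + (‖f‖ + 1)) ^ N := by gcongr
        calc C * (1 + ‖z‖) ^ N ≤ |C| * (1 + ‖z‖) ^ N :=
              mul_le_mul_of_nonneg_right (le_abs_self C) (by positivity)
          _ ≤ _ := by gcongr
      exact mul_le_mul h4 h1.le (by positivity) (by positivity)
  have hlogb : ∀ f ∈ P ∪ Q, ∀ ε : ℝ, 0 < ε → ∀ᶠ z in 𝓝[≠] f, u z ≤ ε * Real.log (1 / ‖z - f‖) := by
    intro f hf ε hε
    obtain ⟨M, hM⟩ := hbd f hf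
    filter_upwards [hM, (tendsto_log_inv f).eventually (eventually_ge_atTop (M / ε))] with z h1 h2
    refine h1.trans ?_
    rw [div_le_iff₀ hε] at h2
    linarith
  -- a point where `w > 0`
  obtain ⟨z0, hz0F, hz0⟩ : ∃ z0, z0 ∉ P ∪ Q ∧ 0 < w z0 := by
    obtain ⟨t0, ht0, ht1⟩ := hpos
    refine ⟨t0, ?_, ht1⟩
    rw [Finset.mem_union, not_or]
    exact ⟨ht0, fun h => ht1.ne' (hQ t0 h).2⟩
  have hz0' := hz0F
  rw [Finset.mem_union, not_or] at hz0'
  have hu0 : 0 < u z0 := by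
    have := hGne z0 hz0'.2
    simp only [hu]
    positivity
  obtain ⟨R, hR1, hR⟩ : ∃ R : ℝ, 1 ≤ R ∧ ∀ f ∈ P ∪ Q, ‖f‖ ≤ R := by
    obtain ⟨R, hR⟩ := (P ∪ Q).finite_toSet.isBounded.exists_norm_le
    exact ⟨max R 1, le_max_right _ _, fun f hf => (hR f hf).trans (le_max_left _ _)⟩
  have hmain : ∀ r : ℝ, 2 * R + 1 ≤ r → ‖z0‖ ≤ r → u z0 ≤ |C| * 4 ^ Q.card / (1 + r) := by
    intro r hr hz0r
    have hr0 : 0 < r := by linarith
    refine finite_le (r := r) (F := P ∪ Q) (fun f hf => by linarith [hR f hf])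
      (fun z _ hz => ⟨huC z hz, huL z hz⟩) ?_ hlogb ?_ z0 hz0r hz0F
    · intro z hz
      exact (huC z (by simpa using hz.2)).continuousAt.continuousWithinAt
    · intro z hz
      have hzP : z ∉ P := fun h => by
        have := hR z (Finset.mem_union_left _ h)
        linarith
      have h1 : ((1 + r) / 2) ^ Q.card ≤ ‖∏ q ∈ Q, (z - q)‖ := by
        rw [norm_prod, ← Finset.prod_const]
        refine Finset.prod_le_prod (fun q _ => by positivity) (fun q hq => ?_)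
        have h2 := norm_sub_norm_le z q
        have h3 := hR q (Finset.mem_union_right _ hq)
        rw [hz] at h2
        linarith
      have hpos : 0 < ((1 + r) / 2) ^ Q.card := by positivity
      have h2 : ‖G z‖ ^ 2 ≤ ((((1 + r) / 2) ^ Q.card)⁻¹) ^ 2 := by
        simp only [hG, norm_inv]
        gcongr
      have h3 : w z ≤ |C| * (1 + r) ^ N := by
        have := hg z hzP
        rw [hz] at this
        exact this.trans (mul_le_mul_of_nonneg_right (le_abs_self C) (by positivity))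
      have h4 : u z ≤ |C| * (1 + r) ^ N * ((((1 + r) / 2) ^ Q.card)⁻¹) ^ 2 := by
        simp only [hu]
        exact mul_le_mul h3 h2 (by positivity) (by positivity)
      refine h4.trans ?_
      have h5 : ((((1 + r) / 2) ^ Q.card)⁻¹) ^ 2 = 4 ^ Q.card / (1 + r) ^ (2 * Q.card) := by
        rw [inv_pow, ← pow_mul, div_pow, mul_comm Q.card 2, pow_mul (2 : ℝ) 2, inv_div]
        norm_num
      rw [h5]
      have h6 : (1 + r) ^ (N + 1) ≤ (1 + r) ^ (2 * Q.card) :=
        pow_le_pow_right₀ (by linarith) hcon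
      rw [mul_div_assoc', div_le_div_iff₀ (by positivity) (by positivity)]
      calc |C| * (1 + r) ^ N * 4 ^ Q.card * (1 + r) = |C| * 4 ^ Q.card * (1 + r) ^ (N + 1) := by ring
        _ ≤ |C| * 4 ^ Q.card * (1 + r) ^ (2 * Q.card) := by gcongr
  have hlim : Tendsto (fun r : ℝ => |C| * 4 ^ Q.card / (1 + r)) atTop (𝓝 0) :=
    tendsto_const_nhds.div_atTop (tendsto_atTop_add_const_left _ _ tendsto_id)
  have hle : u z0 ≤ 0 := by
    refine ge_of_tendsto hlim ?_
    filter_upwards [eventually_ge_atTop (2 * R + 1), eventually_ge_atTop ‖z0‖] with r h1 h2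
    exact hmain r h1 h2
  linarith

/-! ### finitely many preimages ⇒ no essential singularity -/

theorem meromorphicAt_of_bounded {H : ℂ → ℂ} {a : ℂ} {M : ℝ}
    (hH : ∀ᶠ z in 𝓝[≠] a, AnalyticAt ℂ H z) (hM : ∀ᶠ z in 𝓝[≠] a, ‖H z‖ ≤ M) : MeromorphicAt H a := by
  have h1 := hH.and hM
  rw [eventually_nhdsWithin_iff] at h1
  obtain ⟨r, hr, hball⟩ := Metric.eventually_nhds_iff_ball.1 h1
  have hs : ball a r ∈ 𝓝 a := ball_mem_nhds a hr
  have hd : DifferentiableOn ℂ H (ball a r \ {a}) := fun z hz =>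
    ((hball z hz.1 hz.2).1.differentiableAt).differentiableWithinAt
  have hb : BddAbove (norm ∘ H '' (ball a r \ {a})) := by
    refine ⟨M, ?_⟩
    rintro _ ⟨z, hz, rfl⟩
    exact (hball z hz.1 hz.2).2
  have h2 := Complex.differentiableOn_update_limUnder_of_bddAbove hs hd hb
  have h3 : AnalyticAt ℂ (Function.update H a (limUnder (𝓝[≠] a) H)) a := h2.analyticAt hs
  refine h3.meromorphicAt.congr ?_
  filter_upwards [self_mem_nhdsWithin] with z hz
  exact Function.update_of_ne hz _ _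

/-- Casorati–Weierstrass -/
theorem casorati {G : ℂ → ℂ} {a : ℂ} (hG : ∀ᶠ z in 𝓝[≠] a, AnalyticAt ℂ G z)
    (hm : ¬ MeromorphicAt G a) (c : ℂ) {δ : ℝ} (hδ : 0 < δ) : ∃ᶠ z in 𝓝[≠] a, ‖G z - c‖ < δ := by
  intro hcon
  simp only [not_lt] at hcon
  apply hm
  have hne : ∀ᶠ z in 𝓝[≠] a, G z - c ≠ 0 := by
    filter_upwards [hcon] with z hz h0
    rw [h0, norm_zero] at hz
    linarith
  have h1 : MeromorphicAt (fun z => (G z - c)⁻¹) a := by
    refine meromorphicAt_of_bounded (M := δ⁻¹) ?_ ?_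
    · filter_upwards [hG, hne] with z h1 h2
      exact (h1.sub analyticAt_const).inv h2
    · filter_upwards [hcon] with z h1
      rw [norm_inv]
      gcongr
  have h2 : MeromorphicAt (fun z => ((G z - c)⁻¹)⁻¹ + c) a :=
    h1.inv.add (MeromorphicAt.const c a)
  refine h2.congr ?_
  filter_upwards with z
  simp

theorem mero_of_card {G : ℂ → ℂ} {a : ℂ} {r : ℝ} (hr : 0 < r) {N : ℕ}
    (hG : ∀ z, z ≠ a → ‖z - a‖ < r → AnalyticAt ℂ G z)
    (hcard : ∀ (c : ℂ) (T : Finset ℂ), (∀ t ∈ T, t ≠ a ∧ ‖t - a‖ < r ∧ G t = c) → T.card ≤ N) :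
    MeromorphicAt G a := by
  by_contra hm
  have hGe : ∀ᶠ z in 𝓝[≠] a, AnalyticAt ℂ G z := by
    rw [eventually_nhdsWithin_iff]
    filter_upwards [ball_mem_nhds a hr] with z hz hza
    exact hG z hza (by rwa [mem_ball_iff_norm] at hz)
  have claim : ∀ n : ℕ, ∃ (B : Set ℂ) (η : ℝ), IsOpen B ∧ B.Nonempty ∧ 0 < η ∧ η ≤ r ∧
      ∀ c ∈ B, ∃ T : Finset ℂ, T.card = n ∧ ∀ t ∈ T, η ≤ ‖t - a‖ ∧ ‖t - a‖ < r ∧ G t = c := by
    intro n
    induction n with
    | zero => exact ⟨univ, r, isOpen_univ, univ_nonempty, hr, le_rfl, fun c _ => ⟨∅, by simp, by simp⟩⟩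
    | succ n ih =>
      obtain ⟨B, η, hBo, ⟨c0, hc0⟩, hη, hηr, hB⟩ := ih
      obtain ⟨δ, hδ, hδB⟩ := Metric.isOpen_iff.1 hBo c0 hc0
      have hev : ∀ᶠ z in 𝓝[≠] a, z ≠ a ∧ ‖z - a‖ < η := by
        filter_upwards [self_mem_nhdsWithin, nhdsWithin_le_nhds (ball_mem_nhds a hη)] with z h1 h2
        exact ⟨h1, by rwa [mem_ball_iff_norm] at h2⟩
      obtain ⟨z1, hz1, hz1a, hz1η⟩ := ((casorati hGe hm c0 hδ).and_eventually hev).exists
      have hz1B : G z1 ∈ B := hδB (by rwa [mem_ball_iff_norm])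
      have hpos : 0 < ‖z1 - a‖ := norm_pos_iff.2 (sub_ne_zero.2 hz1a)
      have han := hG z1 hz1a (hz1η.trans_le hηr)
      rcases han.eventually_constant_or_nhds_le_map_nhds with hc | hop
      · exfalso
        have h1 : {z | G z = G z1 ∧ z ≠ a ∧ ‖z - a‖ < r} ∈ 𝓝 z1 := by
          filter_upwards [hc, isOpen_ne.mem_nhds hz1a,
            (isOpen_lt (by fun_prop : Continuous fun z : ℂ => ‖z - a‖) continuous_const).mem_nhds
              (hz1η.trans_le hηr)] with z h1 h2 h3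
          exact ⟨h1, h2, h3⟩
        obtain ⟨T, hT1, hT2⟩ := (infinite_of_mem_nhds z1 h1).exists_subset_card_eq (N + 1)
        have := hcard (G z1) T (fun t ht => ⟨(hT1 ht).2.1, (hT1 ht).2.2, (hT1 ht).1⟩)
        omega
      · set V : Set ℂ := {z | ‖z - a‖ < η ∧ ‖z1 - a‖ / 2 < ‖z - a‖ ∧ G z ∈ B} with hV
        have hVn : V ∈ 𝓝 z1 := by
          filter_upwards [(isOpen_lt (by fun_prop : Continuous fun z : ℂ => ‖z - a‖)
              continuous_const).mem_nhds hz1η,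
            (isOpen_lt continuous_const (by fun_prop : Continuous fun z : ℂ => ‖z - a‖)).mem_nhds
              (show ‖z1 - a‖ / 2 < ‖z1 - a‖ by linarith),
            han.continuousAt.preimage_mem_nhds (hBo.mem_nhds hz1B)] with z h1 h2 h3
          exact ⟨h1, h2, h3⟩
        have himg : G '' V ∈ 𝓝 (G z1) := hop (image_mem_map hVn)
        refine ⟨interior (G '' V), ‖z1 - a‖ / 2, isOpen_interior,
          ⟨G z1, mem_interior_iff_mem_nhds.2 himg⟩, by positivity, by linarith, ?_⟩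
        intro c hc
        obtain ⟨z2, hz2, rfl⟩ := interior_subset hc
        obtain ⟨T, hT1, hT2⟩ := hB (G z2) hz2.2.2
        have hnot : z2 ∉ T := fun h => by
          have := (hT2 z2 h).1
          linarith [hz2.1]
        refine ⟨insert z2 T, by rw [Finset.card_insert_of_notMem hnot, hT1], ?_⟩
        intro t ht
        rcases Finset.mem_insert.1 ht with rfl | h
        · exact ⟨hz2.2.1.le, hz2.1.trans_le hηr, rfl⟩
        · have := hT2 t h
          exact ⟨by linarith [this.1], this.2.1, this.2.2⟩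
  obtain ⟨B, η, _, ⟨c, hc⟩, hη, _, hB⟩ := claim (N + 1)
  obtain ⟨T, hT1, hT2⟩ := hB c hc
  have := hcard c T (fun t ht => ⟨fun h => by
    have := (hT2 t ht).1
    rw [h, sub_self, norm_zero] at this
    linarith, (hT2 t ht).2.1, (hT2 t ht).2.2⟩)
  omega

/-! ### entire functions of polynomial growth -/

theorem poly_of_growth : ∀ (N : ℕ) (E : ℂ → ℂ) (C : ℝ), Differentiable ℂ E →
    (∀ t, ‖E t‖ ≤ C * (1 + ‖t‖) ^ N) → ∃ p : Polynomial ℂ, ∀ t, E t = p.eval t := by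
  intro N
  induction N with
  | zero =>
    intro E C hE hb
    have hb' : Bornology.IsBounded (range E) := by
      rw [isBounded_iff_forall_norm_le]
      refine ⟨C, ?_⟩
      rintro _ ⟨t, rfl⟩
      simpa using hb t
    refine ⟨Polynomial.C (E 0), fun t => ?_⟩
    rw [Polynomial.eval_C]
    exact hE.apply_eq_apply_of_bounded hb' t 0
  | succ N ih =>
    intro E C hE hb
    have hd : Differentiable ℂ (dslope E 0) := by
      have := (Complex.differentiableOn_dslope (s := univ) (c := 0) univ_mem (f := E)).2 hE.differentiableOn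
      exact differentiableOn_univ.1 this
    have hC : 0 ≤ C := by
      have := (norm_nonneg _).trans (hb 0)
      simpa using this
    obtain ⟨M, hM⟩ := ((isCompact_closedBall (0 : ℂ) 1).image hd.continuous).isBounded.exists_norm_le
    have hM' : ∀ t : ℂ, ‖t‖ ≤ 1 → ‖dslope E 0 t‖ ≤ M := fun t ht =>
      hM _ ⟨t, by simpa using ht, rfl⟩
    have hM0 : 0 ≤ M := (norm_nonneg _).trans (hM' 0 (by simp))
    obtain ⟨p, hp⟩ := ih (dslope E 0) (M + 4 * C) hd (by
      intro t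
      have h1 : (1 : ℝ) ≤ (1 + ‖t‖) ^ N := one_le_pow₀ (by linarith [norm_nonneg t])
      rcases le_or_gt ‖t‖ 1 with h | h
      · calc ‖dslope E 0 t‖ ≤ M := hM' t h
          _ ≤ (M + 4 * C) * 1 := by linarith
          _ ≤ (M + 4 * C) * (1 + ‖t‖) ^ N := by gcongr
      · have ht0 : t ≠ 0 := by
          intro h0
          rw [h0, norm_zero] at h
          linarith
        rw [dslope_of_ne _ ht0, slope_def_field, sub_zero, norm_div]
        rw [div_le_iff₀ (by positivity)]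
        have h2 : ‖E t - E 0‖ ≤ C * (1 + ‖t‖) ^ (N + 1) + C := by
          refine (norm_sub_le _ _).trans (add_le_add (hb t) ?_)
          simpa using hb 0
        refine h2.trans ?_
        have h3 : C ≤ C * (1 + ‖t‖) ^ (N + 1) := le_mul_of_one_le_right hC
          (one_le_pow₀ (by linarith [norm_nonneg t]))
        have h4 : (1 + ‖t‖) ^ (N + 1) ≤ (1 + ‖t‖) ^ N * (2 * ‖t‖) := by
          rw [pow_succ]
          gcongr
          linarith
        have h5 : 0 ≤ M * (1 + ‖t‖) ^ N * ‖t‖ := by positivity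
        have h6 := mul_le_mul_of_nonneg_left h4 hC
        nlinarith)
    refine ⟨Polynomial.C (E 0) + Polynomial.X * p, fun t => ?_⟩
    have h1 : (t - 0) • dslope E 0 t = E t - E 0 := sub_smul_dslope E 0 t
    simp only [Polynomial.eval_add, Polynomial.eval_C, Polynomial.eval_mul, Polynomial.eval_X, ← hp t]
    rw [sub_zero, smul_eq_mul] at h1
    linear_combination -h1

/-- meromorphic on the sphere, analytic off `P` ⇒ rational -/
theorem rational_of_mero {P : Finset ℂ} {S : ℂ → ℂ} (hS : ∀ t ∉ P, AnalyticAt ℂ S t)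
    (hP : ∀ a ∈ P, MeromorphicAt S a) (hinf : MeromorphicAt (fun z => S z⁻¹) 0) :
    ∃ p q : Polynomial ℂ, q ≠ 0 ∧ (∀ t ∉ P, q.eval t ≠ 0) ∧ ∀ t ∉ P, q.eval t * S t = p.eval t := by
  classical
  choose! n hn using hP
  set E : ℂ → ℂ := fun z => (∏ a ∈ P, (z - a) ^ n a) * S z with hE
  have hEan : ∀ t, AnalyticAt ℂ E t := by
    intro t
    by_cases ht : t ∈ P
    · have h1 : E = fun z => (∏ a ∈ P.erase t, (z - a) ^ n a) * ((z - t) ^ n t • S z) := by
        funext z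
        simp only [hE, smul_eq_mul]
        rw [← Finset.mul_prod_erase P _ ht]
        ring
      rw [h1]
      exact (Finset.analyticAt_fun_prod _ (fun q _ => by fun_prop)).mul (hn t ht)
    · exact (Finset.analyticAt_fun_prod _ (fun q _ => by fun_prop)).mul (hS t ht)
  have hEd : Differentiable ℂ E := fun t => (hEan t).differentiableAt
  obtain ⟨k, hk⟩ := hinf
  simp only [sub_zero, smul_eq_mul] at hk
  obtain ⟨M, hM⟩ : ∃ M, ∀ᶠ z in 𝓝 (0 : ℂ), ‖z ^ k * S z⁻¹‖ ≤ M :=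
    ⟨_, (hk.continuousAt.norm.eventually (gt_mem_nhds (lt_add_one _))).mono fun z hz => hz.le⟩
  obtain ⟨ρ, hρ, hball⟩ := Metric.eventually_nhds_iff_ball.1 hM
  have hM0 : 0 ≤ M := (norm_nonneg _).trans (hball 0 (mem_ball_self hρ))
  set D : ℕ := ∑ a ∈ P, n a with hD
  obtain ⟨R, hR0, hR⟩ : ∃ R : ℝ, 0 ≤ R ∧ ∀ f ∈ P, ‖f‖ ≤ R := by
    obtain ⟨R, hR⟩ := P.finite_toSet.isBounded.exists_norm_le
    exact ⟨max R 0, le_max_right _ _, fun f hf => (hR f hf).trans (le_max_left _ _)⟩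
  have hprodle : ∀ z : ℂ, ‖∏ a ∈ P, (z - a) ^ n a‖ ≤ ((1 + R) * (1 + ‖z‖)) ^ D := by
    intro z
    rw [norm_prod, hD, ← Finset.prod_pow_eq_pow_sum]
    refine Finset.prod_le_prod (fun _ _ => by positivity) (fun a ha => ?_)
    rw [norm_pow]
    gcongr
    have := norm_sub_le z a
    have h1 := hR a ha
    nlinarith [norm_nonneg z, mul_nonneg hR0 (norm_nonneg z)]
  obtain ⟨B, hB⟩ := ((isCompact_closedBall (0 : ℂ) (ρ⁻¹ + 1)).image hEd.continuous).isBounded.exists_norm_le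
  have hB' : ∀ t : ℂ, ‖t‖ ≤ ρ⁻¹ + 1 → ‖E t‖ ≤ B := fun t ht => hB _ ⟨t, by simpa using ht, rfl⟩
  have hB0 : 0 ≤ B := (norm_nonneg _).trans (hB' 0 (by rw [norm_zero]; positivity))
  obtain ⟨p, hp⟩ := poly_of_growth (D + k) E (B + (1 + R) ^ D * M) hEd (by
    intro t
    have h1 : (1 : ℝ) ≤ (1 + ‖t‖) ^ (D + k) := one_le_pow₀ (by linarith [norm_nonneg t])
    rcases le_or_gt ‖t‖ (ρ⁻¹ + 1) with h | h
    · calc ‖E t‖ ≤ B := hB' t h
        _ ≤ (B + (1 + R) ^ D * M) * 1 := by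
          have : 0 ≤ (1 + R) ^ D * M := by positivity
          linarith
        _ ≤ _ := by gcongr
    · have hρi : 0 < ρ⁻¹ := inv_pos.2 hρ
      have htpos : 0 < ‖t‖ := by linarith
      have ht0 : t ≠ 0 := norm_pos_iff.1 htpos
      have h2 : ‖t⁻¹‖ < ρ := by
        rw [norm_inv]
        exact (inv_lt_comm₀ htpos hρ).2 (by linarith)
      have h3 := hball t⁻¹ (by rwa [mem_ball_zero_iff])
      rw [inv_inv, norm_mul, norm_pow, norm_inv] at h3
      have h4 : ‖S t‖ ≤ M * (1 + ‖t‖) ^ k := by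
        have h5 : ‖S t‖ ≤ M * ‖t‖ ^ k := by
          rw [inv_pow, inv_mul_le_iff₀ (by positivity)] at h3
          linarith
        refine h5.trans ?_
        gcongr
        linarith
      calc ‖E t‖ = ‖∏ a ∈ P, (t - a) ^ n a‖ * ‖S t‖ := norm_mul _ _
        _ ≤ ((1 + R) * (1 + ‖t‖)) ^ D * (M * (1 + ‖t‖) ^ k) := by
          have := hprodle t
          gcongr
        _ = (1 + R) ^ D * M * (1 + ‖t‖) ^ (D + k) := by rw [mul_pow, pow_add]; ring
        _ ≤ _ := by gcongr; linarith)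
  refine ⟨p, ∏ a ∈ P, (Polynomial.X - Polynomial.C a) ^ n a, ?_, ?_, ?_⟩
  · rw [Finset.prod_ne_zero_iff]
    intro a _
    exact pow_ne_zero _ (Polynomial.X_sub_C_ne_zero a)
  · intro t ht
    rw [Polynomial.eval_prod, Finset.prod_ne_zero_iff]
    intro a ha
    rw [Polynomial.eval_pow, Polynomial.eval_sub, Polynomial.eval_X, Polynomial.eval_C]
    exact pow_ne_zero _ (sub_ne_zero.2 (fun h => ht (h ▸ ha)))
  · intro t ht
    rw [← hp t, Polynomial.eval_prod]
    simp only [Polynomial.eval_pow, Polynomial.eval_sub, Polynomial.eval_X, Polynomial.eval_C, hE]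

/-- **ALG-RAT (F1)**: `w ≥ 0` is a `C²` weight on `ℂ ∖ P`, not identically `0`, `log w` subharmonic where
`w > 0`, `w ≤ C (1+|t|)^N`; `S` holomorphic where `w > 0` and `|S|² w ≤ C (1+|t|)^N` there. Then `S` is
a rational function. -/
theorem rational_of_growth {P : Finset ℂ} {S : ℂ → ℂ} {w : ℂ → ℝ} {C : ℝ} {N : ℕ}
    (hw2 : ∀ t ∉ P, ContDiffAt ℝ 2 w t) (hw0 : ∀ t ∉ P, 0 ≤ w t)
    (hlap : ∀ t ∉ P, 0 < w t → 0 ≤ (Δ (fun s => Real.log (w s))) t)
    (hpos : ∃ t, t ∉ P ∧ 0 < w t)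
    (hg : ∀ t ∉ P, w t ≤ C * (1 + ‖t‖) ^ N)
    (hS : ∀ t ∉ P, 0 < w t → AnalyticAt ℂ S t)
    (hSg : ∀ t ∉ P, 0 < w t → ‖S t‖ ^ 2 * w t ≤ C * (1 + ‖t‖) ^ N) :
    ∃ p q : Polynomial ℂ, q ≠ 0 ∧ (∀ t ∉ P, 0 < w t → q.eval t ≠ 0) ∧
      ∀ t ∉ P, 0 < w t → q.eval t * S t = p.eval t := by
  classical
  -- the zero set of `w` is finite
  have hfin : {t | t ∉ P ∧ w t = 0}.Finite := by
    by_contra hinf
    obtain ⟨T, hT1, hT2⟩ := Set.Infinite.exists_subset_card_eq hinf (N + 1)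
    have := count (Q := T) hw2 hw0 hlap hpos hg (fun t ht => hT1 ht)
    omega
  set P' : Finset ℂ := P ∪ hfin.toFinset with hP'
  have hP'1 : ∀ t, t ∉ P' ↔ t ∉ P ∧ 0 < w t := by
    intro t
    simp only [hP', Finset.mem_union, Set.Finite.mem_toFinset, Set.mem_ofPred_eq, not_or, not_and]
    constructor
    · rintro ⟨h1, h2⟩
      exact ⟨h1, lt_of_le_of_ne (hw0 t h1) (Ne.symm (h2 h1))⟩
    · rintro ⟨h1, h2⟩
      exact ⟨h1, fun _ => h2.ne'⟩
  have hSan : ∀ t ∉ P', AnalyticAt ℂ S t := fun t ht => hS t ((hP'1 t).1 ht).1 ((hP'1 t).1 ht).2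
  suffices h : ∃ p q : Polynomial ℂ, q ≠ 0 ∧ (∀ t ∉ P', q.eval t ≠ 0) ∧
      ∀ t ∉ P', q.eval t * S t = p.eval t by
    obtain ⟨p, q, h1, h2, h3⟩ := h
    exact ⟨p, q, h1, fun t ht hw => h2 t ((hP'1 t).2 ⟨ht, hw⟩),
      fun t ht hw => h3 t ((hP'1 t).2 ⟨ht, hw⟩)⟩
  by_cases hconst : ∃ c : ℂ, ∃ t0 ∉ P', ∀ᶠ s in 𝓝 t0, S s = c
  · obtain ⟨c, t0, ht0, hc⟩ := hconst
    have hconn : IsPreconnected ((P' : Set ℂ)ᶜ) :=
      (P'.countable_toSet.isConnected_compl_of_one_lt_rank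
        (by rw [Complex.rank_real_complex]; exact Nat.one_lt_ofNat)).isPreconnected
    have hA : AnalyticOnNhd ℂ S ((P' : Set ℂ)ᶜ) := fun t ht => hSan t (by simpa using ht)
    have heq := hA.eqOn_of_preconnected_of_eventuallyEq (analyticOnNhd_const (v := c)) hconn
      (show t0 ∈ ((P' : Set ℂ)ᶜ) by simpa using ht0) hc
    refine ⟨Polynomial.C c, 1, one_ne_zero, fun t _ => by simp, fun t ht => ?_⟩
    have : S t = c := heq (show t ∈ ((P' : Set ℂ)ᶜ) by simpa using ht)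
    simp [this]
  push Not at hconst
  -- every value is taken at most `N/2` times
  have hcard : ∀ (c : ℂ) (T : Finset ℂ), (∀ t ∈ T, t ∉ P' ∧ S t = c) → T.card ≤ N := by
    intro c T hT
    set wc : ℂ → ℝ := fun t => w t * ‖S t - c‖ ^ 2 with hwc
    have hSc : ∀ t ∉ P', AnalyticAt ℂ (fun t => S t - c) t := fun t ht => (hSan t ht).sub analyticAt_const
    have hposc : ∀ t, t ∉ P' → 0 < wc t → S t - c ≠ 0 := by
      intro t _ h h0
      simp only [hwc, h0, norm_zero] at h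
      norm_num at h
    have hCN : ∀ t ∉ P', wc t ≤ (2 * (1 + ‖c‖ ^ 2) * C) * (1 + ‖t‖) ^ N := by
      intro t ht
      obtain ⟨h1, h2⟩ := (hP'1 t).1 ht
      have h3 := hSg t h1 h2
      have h4 := hg t h1
      have h5 : ‖S t - c‖ ^ 2 ≤ 2 * ‖S t‖ ^ 2 + 2 * ‖c‖ ^ 2 := by
        have := norm_sub_le (S t) c
        have h6 : ‖S t - c‖ ^ 2 ≤ (‖S t‖ + ‖c‖) ^ 2 := by gcongr
        nlinarith [sq_nonneg (‖S t‖ - ‖c‖)]
      have h6 : wc t ≤ w t * (2 * ‖S t‖ ^ 2 + 2 * ‖c‖ ^ 2) := by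
        simp only [hwc]
        exact mul_le_mul_of_nonneg_left h5 h2.le
      have h7 : 0 ≤ ‖c‖ ^ 2 := by positivity
      nlinarith [mul_le_mul_of_nonneg_left h4 h7]
    have := count (P := P') (Q := T) (w := wc) (N := N) (C := 2 * (1 + ‖c‖ ^ 2) * C) ?_ ?_ ?_ ?_ hCN ?_
    · omega
    · intro t ht
      have h1 : ContDiffAt ℝ 2 (fun t => S t - c) t := ((hSc t ht).contDiffAt (n := 2)).restrict_scalars ℝ
      exact (hw2 t ((hP'1 t).1 ht).1).mul (h1.norm_sq ℝ)
    · intro t ht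
      have := hw0 t ((hP'1 t).1 ht).1
      simp only [hwc]
      positivity
    · intro t ht hpt
      obtain ⟨h1, h2⟩ := (hP'1 t).1 ht
      have hne := hposc t ht hpt
      have hwlog : ContDiffAt ℝ 2 (fun s => Real.log (w s)) t := (hw2 t h1).log h2.ne'
      have hharm : HarmonicAt (fun s => Real.log ‖S s - c‖) t :=
        AnalyticAt.harmonicAt_log_norm (hSc t ht) hne
      have hH2 : ContDiffAt ℝ 2 (fun s => Real.log ‖S s - c‖) t := hharm.1
      have hH0 : (Δ (fun s => Real.log ‖S s - c‖)) t = 0 := hharm.2.self_of_nhds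
      obtain ⟨d, hd⟩ : ∃ d : ℝ, d = 2 := ⟨2, rfl⟩
      have hev : (fun s => Real.log (wc s)) =ᶠ[𝓝 t]
          (fun s => Real.log (w s)) + d • (fun s => Real.log ‖S s - c‖) := by
        filter_upwards [(hw2 t h1).continuousAt.eventually (lt_mem_nhds h2),
          (hSc t ht).continuousAt.eventually_ne hne] with s hs1 hs2
        have hs3 : 0 < ‖S s - c‖ := norm_pos_iff.2 hs2
        simp only [hwc, Pi.add_apply, Pi.smul_apply, smul_eq_mul]
        rw [Real.log_mul hs1.ne' (by positivity), Real.log_pow, hd]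
        norm_num
      rw [(laplacian_congr_nhds hev).self_of_nhds]
      have h5 : ContDiffAt ℝ 2 (d • (fun s => Real.log ‖S s - c‖)) t := hH2.const_smul d
      have h6 : (Δ (d • (fun s => Real.log ‖S s - c‖))) t = d • (Δ (fun s => Real.log ‖S s - c‖)) t :=
        laplacian_smul d hH2
      rw [hwlog.laplacian_add h5, h6, hH0]
      simpa using hlap t h1 h2
    · obtain ⟨t, h1, h2⟩ := hpos
      have h3 : ∃ᶠ s in 𝓝 t, S s ≠ c := hconst c t ((hP'1 t).2 ⟨h1, h2⟩)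
      have h4 : ∀ᶠ s in 𝓝 t, 0 < w s := (hw2 t h1).continuousAt.eventually (lt_mem_nhds h2)
      have h5 : ∀ᶠ s in 𝓝 t, s ∉ P := P.isClosed.isOpen_compl.mem_nhds (by exact_mod_cast h1)
      obtain ⟨s, hs1, hs2, hs3⟩ := (h3.and_eventually (h4.and h5)).exists
      have : 0 < ‖S s - c‖ := norm_pos_iff.2 (sub_ne_zero.2 hs1)
      refine ⟨s, (hP'1 s).2 ⟨hs3, hs2⟩, ?_⟩
      simp only [hwc]
      positivity
    · intro t ht
      obtain ⟨h1, h2⟩ := hT t ht
      refine ⟨h1, ?_⟩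
      simp [hwc, h2]
  refine rational_of_mero hSan ?_ ?_
  · intro a ha
    have h1 : ∀ᶠ z in 𝓝 a, z ∉ P'.erase a := (P'.erase a).isClosed.isOpen_compl.mem_nhds (by simp)
    obtain ⟨r, hr, hball⟩ := Metric.eventually_nhds_iff_ball.1 h1
    have h2 : ∀ z, z ≠ a → ‖z - a‖ < r → z ∉ P' := fun z hz1 hz2 hz3 =>
      hball z (by rwa [mem_ball_iff_norm]) (Finset.mem_erase.2 ⟨hz1, hz3⟩)
    exact mero_of_card hr (N := N) (fun z hz1 hz2 => hSan z (h2 z hz1 hz2))
      (fun c T hT => hcard c T (fun t ht => ⟨h2 t (hT t ht).1 (hT t ht).2.1, (hT t ht).2.2⟩))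
  · obtain ⟨R, hR0, hR⟩ : ∃ R : ℝ, 0 < R ∧ ∀ f ∈ P', ‖f‖ ≤ R := by
      obtain ⟨R, hR⟩ := P'.finite_toSet.isBounded.exists_norm_le
      exact ⟨max R 1, by positivity, fun f hf => (hR f hf).trans (le_max_left _ _)⟩
    have h2 : ∀ z : ℂ, z ≠ 0 → ‖z - 0‖ < R⁻¹ → z⁻¹ ∉ P' := by
      intro z hz1 hz2 hz3
      rw [sub_zero] at hz2
      have h3 := hR _ hz3
      rw [norm_inv] at h3
      have h4 : 0 < ‖z‖ := norm_pos_iff.2 hz1
      have h5 : R < ‖z‖⁻¹ := (lt_inv_comm₀ h4 hR0).1 hz2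
      linarith
    refine mero_of_card (r := R⁻¹) (N := N) (inv_pos.2 hR0) ?_ ?_
    · intro z hz1 hz2
      exact (hSan z⁻¹ (h2 z hz1 hz2)).comp (analyticAt_inv hz1)
    · intro c T hT
      have h3 := hcard c (T.image (fun z => z⁻¹)) (by
        intro t ht
        obtain ⟨z, hz, rfl⟩ := Finset.mem_image.1 ht
        obtain ⟨h4, h5, h6⟩ := hT z hz
        exact ⟨h2 z h4 h5, h6⟩)
      rwa [Finset.card_image_of_injective _ inv_injective] at h3

end Crest.Agent.R276.RatPlane_437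
end

-- ▼ part R276/RatLine_437
section

/-!
# R276, leaf ALG-RAT (helper437), part F2: rational on lines ⇒ rational

`f` analytic at `z0 ∈ ℂ^m`; for every direction `v` in a nonempty open set the function `t ↦ f (z0 + t v)`
is rational near `0`.  Then `f` is rational near `z0` (Baire + Kronecker).
-/

set_option autoImplicit false

open Set Filter Topology Metric

namespace Crest.Agent.R276.RatLine_437

/-! ### power series in one variable -/

theorem coeff_eq_zero {c : ℕ → ℂ} (h : ∀ᶠ t in 𝓝 (0 : ℂ), HasSum (fun n => c n * t ^ n) 0) (n : ℕ) :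
    c n = 0 := by
  have h1 : HasFPowerSeriesAt (0 : ℂ → ℂ) (FormalMultilinearSeries.ofScalars ℂ c) 0 := by
    rw [hasFPowerSeriesAt_iff]
    filter_upwards [h] with t ht
    simp only [FormalMultilinearSeries.coeff_ofScalars, smul_eq_mul, Pi.zero_apply]
    simpa [mul_comm] using ht
  have h2 := h1.eq_zero
  have h3 : (FormalMultilinearSeries.ofScalars ℂ c).coeff n = 0 := by rw [h2]; rfl
  simpa using h3

/-- Cauchy product with a polynomial -/
theorem hasSum_mul {A : ℕ → ℂ} {N : ℕ} (q : Fin (N + 1) → ℂ) {t g : ℂ}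
    (h : HasSum (fun n => A n * t ^ n) g) :
    HasSum (fun n => (∑ i : Fin (N + 1), if (i : ℕ) ≤ n then q i * A (n - i) else 0) * t ^ n)
      ((∑ i, q i * t ^ (i : ℕ)) * g) := by
  rw [Finset.sum_mul]
  have h1 : ∀ i : Fin (N + 1), HasSum (fun n => (if (i : ℕ) ≤ n then q i * A (n - i) else 0) * t ^ n)
      (q i * t ^ (i : ℕ) * g) := by
    intro i
    have h2 : HasSum (fun n => q i * t ^ (i : ℕ) * (A n * t ^ n)) (q i * t ^ (i : ℕ) * g) := h.mul_left _
    have h3 := (hasSum_nat_add_iff (f := fun n => (if (i : ℕ) ≤ n then q i * A (n - i) else 0) * t ^ n)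
      (i : ℕ) (g := q i * t ^ (i : ℕ) * g)).1 (h2.congr_fun (fun n => by
        rw [if_pos (Nat.le_add_left _ _), Nat.add_sub_cancel, pow_add]
        ring))
    have h4 : ∑ n ∈ Finset.range (i : ℕ), (if (i : ℕ) ≤ n then q i * A (n - i) else 0) * t ^ n = 0 := by
      refine Finset.sum_eq_zero fun n hn => ?_
      rw [if_neg (by have := Finset.mem_range.1 hn; omega), zero_mul]
    rwa [h4, add_zero] at h3
  have h2 := hasSum_sum (s := Finset.univ) (fun i _ => h1 i)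
  exact h2.congr_fun (fun n => by rw [Finset.sum_mul])

/-- a polynomial relation gives a recurrence for the coefficients -/
theorem recurrence {A : ℕ → ℂ} {g : ℂ → ℂ} (h : ∀ᶠ t in 𝓝 (0 : ℂ), HasSum (fun n => A n * t ^ n) (g t))
    {p q : Polynomial ℂ} (hpq : ∀ᶠ t in 𝓝 (0 : ℂ), q.eval t * g t = p.eval t) {N : ℕ}
    (hq : q.natDegree ≤ N) (hp : p.natDegree ≤ N) {n : ℕ} (hn : N < n) :
    ∑ i : Fin (N + 1), q.coeff i * A (n - i) = 0 := by
  have h1 : ∀ᶠ t in 𝓝 (0 : ℂ), HasSum (fun n => ((∑ i : Fin (N + 1), if (i : ℕ) ≤ n then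
      q.coeff i * A (n - i) else 0) - p.coeff n) * t ^ n) 0 := by
    filter_upwards [h, hpq] with t h1 h2
    have h3 := hasSum_mul (fun i : Fin (N + 1) => q.coeff i) h1
    have h4 : (∑ i : Fin (N + 1), q.coeff (i : ℕ) * t ^ (i : ℕ)) = q.eval t := by
      rw [Fin.sum_univ_eq_sum_range (fun i => q.coeff i * t ^ i) (N + 1)]
      exact (Polynomial.eval_eq_sum_range' (Nat.lt_succ_of_le hq) t).symm
    rw [h4, h2] at h3
    have h5 : HasSum (fun n => p.coeff n * t ^ n) (p.eval t) := by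
      rw [Polynomial.eval_eq_sum_range' (Nat.lt_succ_of_le hp) t]
      refine hasSum_sum_of_ne_finset_zero fun n hn => ?_
      rw [Finset.mem_range, not_lt] at hn
      rw [Polynomial.coeff_eq_zero_of_natDegree_lt (by omega), zero_mul]
    have h6 := h3.sub h5
    rw [sub_self] at h6
    exact h6.congr_fun (fun n => by ring)
  have h2 := coeff_eq_zero h1 n
  rw [Polynomial.coeff_eq_zero_of_natDegree_lt (by omega), sub_zero] at h2
  rw [← h2]
  refine Finset.sum_congr rfl fun i _ => ?_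
  rw [if_pos (by have := i.2; omega)]

/-! ### polynomials -/

/-- a polynomial vanishing on a nonempty open set is zero -/
theorem eq_zero_of_open {m : ℕ} {P : MvPolynomial (Fin m) ℂ} {W : Set (Fin m → ℂ)} (hW : IsOpen W)
    (hne : W.Nonempty) (h : ∀ v ∈ W, MvPolynomial.eval v P = 0) : P = 0 := by
  obtain ⟨v0, hv0⟩ := hne
  obtain ⟨r, hr, hball⟩ := Metric.isOpen_iff.1 hW v0 hv0
  refine MvPolynomial.funext_set (fun i => ball (v0 i) r)
    (fun i => infinite_of_mem_nhds (v0 i) (ball_mem_nhds _ hr)) ?_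
  intro x hx
  rw [map_zero]
  apply h x (hball _)
  rw [mem_ball, dist_pi_lt_iff hr]
  intro i
  exact hx i (mem_univ i)

/-- homogeneous parts of a power series as polynomials -/
theorem exists_mv {m n : ℕ} (p : ContinuousMultilinearMap ℂ (fun _ : Fin n => (Fin m → ℂ)) ℂ) :
    ∃ a : MvPolynomial (Fin m) ℂ, ∀ v, MvPolynomial.eval v a = p (fun _ => v) := by
  classical
  refine ⟨∑ s : Fin n → Fin m, (∏ i, MvPolynomial.X (s i)) *
    MvPolynomial.C (p (fun i => Pi.single (s i) 1)), fun v => ?_⟩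
  have h1 : (fun _ : Fin n => v) = fun _ : Fin n => ∑ j : Fin m, v j • (Pi.single j (1 : ℂ) : Fin m → ℂ) := by
    funext i
    conv_lhs => rw [pi_eq_sum_univ v]
    refine Finset.sum_congr rfl fun j _ => ?_
    congr 1
    funext k
    simp [Pi.single_apply, eq_comm]
  rw [h1, ContinuousMultilinearMap.map_sum]
  rw [map_sum]
  refine Finset.sum_congr rfl fun s _ => ?_
  rw [ContinuousMultilinearMap.map_smul_univ]
  simp [map_mul, map_prod, smul_eq_mul]

theorem eval_aeval {m : ℕ} (sub : Fin m → MvPolynomial (Fin m) ℂ) (z : Fin m → ℂ)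
    (R : MvPolynomial (Fin m) ℂ) :
    MvPolynomial.eval z (MvPolynomial.aeval sub R) =
      MvPolynomial.eval (fun j => MvPolynomial.eval z (sub j)) R := by
  induction R using MvPolynomial.induction_on with
  | C c => simp
  | add p q hp hq => rw [map_add, map_add, map_add, hp, hq]
  | mul_X p i hp => rw [map_mul, map_mul, map_mul, hp, MvPolynomial.aeval_X, MvPolynomial.eval_X]

open MvPolynomial in
/-- **ALG-RAT (F2)** -/
theorem rational_of_lines {m : ℕ} {f : (Fin m → ℂ) → ℂ} {z0 : Fin m → ℂ} (hf : AnalyticAt ℂ f z0)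
    {U : Set (Fin m → ℂ)} (hU : IsOpen U) (hne : U.Nonempty)
    (h : ∀ v ∈ U, ∃ p q : Polynomial ℂ, q ≠ 0 ∧
      ∀ᶠ t in 𝓝 (0 : ℂ), q.eval t * f (z0 + t • v) = p.eval t) :
    ∃ P Q : MvPolynomial (Fin m) ℂ, Q ≠ 0 ∧ ∀ᶠ z in 𝓝 z0, eval z Q * f z = eval z P := by
  classical
  obtain ⟨ps, r, hr⟩ := hf
  obtain ⟨δ, hδ, hps⟩ : ∃ δ : ℝ, 0 < δ ∧ ∀ y : Fin m → ℂ, ‖y‖ < δ →
      HasSum (fun n => ps n fun _ => y) (f (z0 + y)) := by
    have h1 : Metric.eball (0 : Fin m → ℂ) r ∈ 𝓝 0 := Metric.eball_mem_nhds _ hr.r_pos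
    obtain ⟨δ, hδ, hball⟩ := Metric.mem_nhds_iff.1 h1
    exact ⟨δ, hδ, fun y hy => hr.hasSum (hball (by rwa [mem_ball_zero_iff]))⟩
  choose a ha using fun n => exists_mv (ps n)
  have hsum : ∀ (v : Fin m → ℂ) (t : ℂ), ‖t • v‖ < δ →
      HasSum (fun n => eval v (a n) * t ^ n) (f (z0 + t • v)) := by
    intro v t ht
    refine (hps _ ht).congr_fun (fun n => ?_)
    have h1 := (ps n).map_smul_univ (fun _ => t) (fun _ => v)
    simp only [Finset.prod_const, Finset.card_univ, Fintype.card_fin, smul_eq_mul] at h1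
    rw [ha n, h1, mul_comm]
  -- minors
  let Dp : (N : ℕ) → (Fin (N + 1) → ℕ) → MvPolynomial (Fin m) ℂ := fun N ν =>
    (Matrix.of fun j i : Fin (N + 1) => a (ν j - i)).det
  have hDp : ∀ N ν v, eval v (Dp N ν) = (Matrix.of fun j i : Fin (N + 1) => eval v (a (ν j - i))).det := by
    intro N ν v
    simp only [Dp, RingHom.map_det]
    rfl
  let F : ℕ → Set (Fin m → ℂ) := fun N =>
    {v | ∀ ν : Fin (N + 1) → ℕ, (∀ j, N < ν j) → eval v (Dp N ν) = 0}
  have hFc : ∀ N, IsClosed (F N) := by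
    intro N
    have : F N = ⋂ (ν : Fin (N + 1) → ℕ), ⋂ (_ : ∀ j, N < ν j), {v | eval v (Dp N ν) = 0} := by
      ext v; simp [F]
    rw [this]
    refine isClosed_iInter fun ν => isClosed_iInter fun _ => ?_
    exact isClosed_eq (MvPolynomial.continuous_eval _) continuous_const
  have hcov : U ⊆ ⋃ N, F N := by
    intro v hv
    obtain ⟨p, q, hq, hpq⟩ := h v hv
    refine mem_iUnion.2 ⟨max q.natDegree p.natDegree, ?_⟩
    intro ν hν
    rw [hDp]
    have hev : ∀ᶠ t in 𝓝 (0 : ℂ), HasSum (fun n => eval v (a n) * t ^ n) (f (z0 + t • v)) := by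
      have h1 : Tendsto (fun t : ℂ => ‖t • v‖) (𝓝 0) (𝓝 0) := by
        have h2 : Continuous (fun t : ℂ => ‖t • v‖) := by fun_prop
        have h3 := h2.tendsto 0
        simpa using h3
      filter_upwards [h1.eventually (gt_mem_nhds hδ)] with t ht
      exact hsum v t ht
    rw [← Matrix.exists_mulVec_eq_zero_iff]
    refine ⟨fun i => q.coeff i, ?_, ?_⟩
    · intro h0
      apply hq
      ext n
      rw [Polynomial.coeff_zero]
      rcases lt_or_ge q.natDegree n with h1 | h1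
      · exact Polynomial.coeff_eq_zero_of_natDegree_lt h1
      · have := congrFun h0 ⟨n, by omega⟩
        simpa using this
    · funext j
      have := recurrence hev hpq (N := max q.natDegree p.natDegree) (le_max_left _ _)
        (le_max_right _ _) (hν j)
      rw [Pi.zero_apply, ← this]
      simp only [Matrix.mulVec, dotProduct, Matrix.of_apply]
      refine Finset.sum_congr rfl fun i _ => ?_
      ring
  obtain ⟨N, hN⟩ : ∃ N, (interior (F N)).Nonempty := by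
    by_contra hcon
    push Not at hcon
    have h1 : Dense (⋂ N, (F N)ᶜ) := by
      refine dense_iInter_of_isOpen_nat (fun N => (hFc N).isOpen_compl) (fun N => ?_)
      rw [← interior_eq_empty_iff_dense_compl]
      exact hcon N
    obtain ⟨v, hv1, hv2⟩ := h1.inter_open_nonempty U hU hne
    obtain ⟨N, hN⟩ := mem_iUnion.1 (hcov hv1)
    exact (mem_iInter.1 hv2 N) hN
  have hD : ∀ ν : Fin (N + 1) → ℕ, (∀ j, N < ν j) → Dp N ν = 0 := fun ν hν =>
    eq_zero_of_open isOpen_interior hN (fun v hv => interior_subset hv ν hν)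
  -- linear dependence over the fraction field
  let K := FractionRing (MvPolynomial (Fin m) ℂ)
  let col : Fin (N + 1) → ({n : ℕ // N < n} → K) := fun i n =>
    algebraMap (MvPolynomial (Fin m) ℂ) K (a (n.1 - i))
  have hdep : ¬ LinearIndependent K col := by
    intro hli
    obtain ⟨ρ, hρ⟩ := Crest.Agent.R276.Der_409.exists_minor hli
    apply hρ
    have h1 : (Matrix.of fun (j i : Fin (N + 1)) => col i (ρ j)) =
        (algebraMap (MvPolynomial (Fin m) ℂ) K).mapMatrix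
          (Matrix.of fun j i : Fin (N + 1) => a ((ρ j).1 - i)) := by
      ext j i
      simp [col]
    rw [h1, ← RingHom.map_det]
    have h2 := hD (fun j => (ρ j).1) (fun j => (ρ j).2)
    simp only [Dp] at h2
    rw [h2, map_zero]
  rw [Fintype.not_linearIndependent_iff] at hdep
  obtain ⟨g, hg, i0, hi0⟩ := hdep
  obtain ⟨b, hb⟩ := IsLocalization.exist_integer_multiples_of_finite
    (nonZeroDivisors (MvPolynomial (Fin m) ℂ)) g
  choose Q hQ using hb
  have hinj : Function.Injective (algebraMap (MvPolynomial (Fin m) ℂ) K) :=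
    IsFractionRing.injective _ _
  have hb0 : algebraMap (MvPolynomial (Fin m) ℂ) K b.1 ≠ 0 := by
    rw [Ne, map_eq_zero_iff _ hinj]
    exact nonZeroDivisors.ne_zero b.2
  have hQ0 : Q i0 ≠ 0 := by
    intro h0
    have h1 := hQ i0
    rw [h0, map_zero, Algebra.smul_def] at h1
    rcases mul_eq_zero.1 h1.symm with h2 | h2
    · exact hb0 h2
    · exact hi0 h2
  have hrec : ∀ n, N < n → ∑ i : Fin (N + 1), Q i * a (n - i) = 0 := by
    intro n hn
    apply hinj
    rw [map_zero, map_sum]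
    have h1 := congrFun hg ⟨n, hn⟩
    simp only [Finset.sum_apply, Pi.smul_apply, smul_eq_mul, Pi.zero_apply, col] at h1
    have h2 : ∑ i : Fin (N + 1), algebraMap (MvPolynomial (Fin m) ℂ) K (Q i * a (n - i)) =
        algebraMap (MvPolynomial (Fin m) ℂ) K b.1 *
          ∑ i : Fin (N + 1), g i * algebraMap (MvPolynomial (Fin m) ℂ) K (a (n - i)) := by
      rw [Finset.mul_sum]
      refine Finset.sum_congr rfl fun i _ => ?_
      rw [map_mul, hQ i, Algebra.smul_def, mul_assoc]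
    rw [h2, h1, mul_zero]
  -- a good scaling
  obtain ⟨v0, hv0⟩ : ∃ v0, eval v0 (Q i0) ≠ 0 := by
    by_contra hcon
    push Not at hcon
    exact hQ0 (eq_zero_of_open isOpen_univ univ_nonempty (fun v _ => hcon v))
  set q0 : Polynomial ℂ := ∑ i : Fin (N + 1), Polynomial.monomial (i : ℕ) (eval v0 (Q i)) with hq0
  have hq00 : q0 ≠ 0 := by
    intro h0
    have h1 : q0.coeff i0 = eval v0 (Q i0) := by
      rw [hq0, Polynomial.finsetSum_coeff]
      rw [Finset.sum_eq_single i0]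
      · simp
      · intro i _ hi
        rw [Polynomial.coeff_monomial, if_neg]
        exact fun h => hi (Fin.ext h)
      · simp
    rw [h0, Polynomial.coeff_zero] at h1
    exact hv0 h1.symm
  obtain ⟨s, hs⟩ := Infinite.exists_notMem_finset (q0.roots.toFinset ∪ {0})
  rw [Finset.mem_union, not_or, Finset.mem_singleton, Multiset.mem_toFinset,
    Polynomial.mem_roots hq00, Polynomial.IsRoot.def] at hs
  obtain ⟨hs1, hs0⟩ := hs
  let sub : Fin m → MvPolynomial (Fin m) ℂ := fun j => C s⁻¹ * (X j - C (z0 j))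
  have hsub : ∀ z, (fun j => eval z (sub j)) = s⁻¹ • (z - z0) := by
    intro z
    funext j
    simp [sub]
  refine ⟨∑ n ∈ Finset.range (N + 1), aeval sub (∑ i : Fin (N + 1), if (i : ℕ) ≤ n then
    Q i * a (n - i) else 0) * C (s ^ n), ∑ i : Fin (N + 1), aeval sub (Q i) * C (s ^ (i : ℕ)), ?_, ?_⟩
  · intro h0
    have h1 := congrArg (eval (z0 + s • v0)) h0
    rw [map_zero, map_sum] at h1
    apply hs1
    rw [← h1, hq0, Polynomial.eval_finsetSum]
    refine Finset.sum_congr rfl fun i _ => ?_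
    rw [map_mul, eval_aeval, hsub, eval_C, Polynomial.eval_monomial]
    congr 3
    rw [add_sub_cancel_left, smul_smul, inv_mul_cancel₀ hs0, one_smul]
  · filter_upwards [ball_mem_nhds z0 hδ] with z hz
    rw [mem_ball_iff_norm] at hz
    set v : Fin m → ℂ := s⁻¹ • (z - z0) with hv
    have hsv : s • v = z - z0 := by rw [hv, smul_smul, mul_inv_cancel₀ hs0, one_smul]
    have h1 := hsum v s (by rwa [hsv])
    rw [hsv, add_sub_cancel] at h1
    have h2 := hasSum_mul (fun i : Fin (N + 1) => eval v (Q i)) h1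
    have h3 : (∑ i : Fin (N + 1), eval v (Q i) * s ^ (i : ℕ)) =
        eval z (∑ i : Fin (N + 1), aeval sub (Q i) * C (s ^ (i : ℕ))) := by
      rw [map_sum]
      refine Finset.sum_congr rfl fun i _ => ?_
      rw [map_mul, eval_aeval, hsub, eval_C]
    rw [h3] at h2
    have h4 : HasSum (fun n => (∑ i : Fin (N + 1), if (i : ℕ) ≤ n then
        eval v (Q i) * eval v (a (n - i)) else 0) * s ^ n)
        (∑ n ∈ Finset.range (N + 1), (∑ i : Fin (N + 1), if (i : ℕ) ≤ n then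
        eval v (Q i) * eval v (a (n - i)) else 0) * s ^ n) := by
      refine hasSum_sum_of_ne_finset_zero fun n hn => ?_
      rw [Finset.mem_range, not_lt] at hn
      have h5 := congrArg (eval v) (hrec n (by omega))
      rw [map_sum, map_zero] at h5
      have h6 : (∑ i : Fin (N + 1), if (i : ℕ) ≤ n then
        eval v (Q i) * eval v (a (n - i)) else 0) = 0 := by
        rw [← h5]
        refine Finset.sum_congr rfl fun i _ => ?_
        rw [if_pos (by have := i.2; omega), map_mul]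
      rw [h6, zero_mul]
    rw [h2.unique h4, map_sum]
    refine Finset.sum_congr rfl fun n _ => ?_
    rw [map_mul, eval_aeval, hsub, eval_C, map_sum]
    congr 1
    refine Finset.sum_congr rfl fun i _ => ?_
    split_ifs
    · rw [map_mul]
    · rw [map_zero]

end Crest.Agent.R276.RatLine_437
end

-- ▼ part R276/RatMod_437
section

/-!
# R276, leaf ALG-RAT (helper437), part F4': meromorphic functions on a model with a log-psh weight are rational

`M : Mdl K n`; `g ≥ 0` smooth on `M`, `log g` psh where `g > 0`, `{g > 0}` dense, `f` holomorphic where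
`g > 0`, `g` and `|f|² g` of polynomial growth in `z`, `1/h`.  Then `f` is (the evaluation of) an element
of `K = Frac B`.
-/

set_option autoImplicit false

open Set Filter Topology Metric InnerProductSpace Laplacian

noncomputable section

namespace Crest.Agent.R276.RatMod_437

open Crest.Agent.R271.Defs710 Crest.Agent.R271.Rd692
open Crest.Agent.R271.AlgB956 Crest.Agent.R271.Ho51
open Crest.Agent.R276.Mod1_987 Crest.Agent.R276.NL_137

theorem two_le_top : (2 : WithTop ℕ∞) ≤ ((⊤ : ℕ∞) : WithTop ℕ∞) := by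
  have h : (2 : WithTop ℕ∞) = ((2 : ℕ∞) : WithTop ℕ∞) := rfl
  rw [h]
  exact WithTop.coe_le_coe.2 le_top

/-! ### Levi form and Laplacians on lines -/

section levi

variable {n : ℕ} {M : Type*} [TopologicalSpace M] [RDom n M]

theorem D_D {φ : M → ℝ} (hφ : Sm φ) (x : M) (v w : Fin n → ℂ) :
    D (fun y => D φ y v) x w =
      fderiv ℝ (fderiv ℝ (φ ∘ (ch x).symm)) (cp x) w v := by
  have h1 : ((fun y => D φ y v) ∘ (ch x).symm) =ᶠ[𝓝 (cp x)]
      fun z => fderiv ℝ (φ ∘ (ch x).symm) z v := by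
    filter_upwards [(ch x).open_target.mem_nhds ((isCh_ch x).cp_mem (mem_ch x))] with z hz
    simp only [Function.comp_apply]
    rw [D_symm (isCh_ch x) hz φ]
  have h2 : D (fun y => D φ y v) x = fderiv ℝ ((fun y => D φ y v) ∘ (ch x).symm) (cp x) := rfl
  rw [h2, h1.fderiv_eq]
  have h3 : ContDiffAt ℝ (⊤ : ℕ∞) (fderiv ℝ (φ ∘ (ch x).symm)) (cp x) :=
    (hφ x).fderiv_right (m := (⊤ : ℕ∞)) (by exact_mod_cast le_top)
  have h4 := ((h3.differentiableAt (by simp)).hasFDerivAt.clm_apply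
    (hasFDerivAt_const v (cp x))).fderiv
  rw [h4]
  simp

theorem lev_eq_Levi {φ : M → ℝ} (hφ : Sm φ) (x : M) (w : Fin n → ℂ) :
    MaxP_25.lev (φ ∘ (ch x).symm) (cp x) w = 4 * Levi φ x w := by
  rw [Crest.Agent.R271.W792.Levi_eq_lev hφ, Crest.Agent.R271.W792.lev, D_D hφ, D_D hφ,
    MaxP_25.lev_eq]
  ring

theorem lev_congr {E : Type*} [NormedAddCommGroup E] [NormedSpace ℝ E] [NormedSpace ℂ E]
    {u v : E → ℝ} {z : E} (h : u =ᶠ[𝓝 z] v) (w : E) : MaxP_25.lev u z w = MaxP_25.lev v z w := by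
  rw [MaxP_25.lev_eq, MaxP_25.lev_eq, h.fderiv.fderiv_eq]

theorem log_eq_VL' {D : M → ℝ} (hD : Continuous D) {x : M} (hx : 0 < D x) :
    ∃ J : ℝ, (fun y => Real.log (D y)) =ᶠ[𝓝 x] fun y => VL J (D y) := by
  refine ⟨1 - Real.log (D x / 2), ?_⟩
  have h1 : ∀ᶠ y in 𝓝 x, D x / 2 < D y := hD.continuousAt.eventually (lt_mem_nhds (by linarith))
  filter_upwards [h1] with y hy
  rw [VL_large]
  rw [show -(1 - Real.log (D x / 2)) + 1 = Real.log (D x / 2) by ring,
    Real.exp_log (by linarith)]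
  exact hy.le

theorem lev_log_nonneg {g : M → ℝ} (hg : Sm g) {x : M} (hx : 0 < g x) {w : Fin n → ℂ}
    (h : 0 ≤ Levi (fun y => Real.log (g y)) x w) :
    0 ≤ MaxP_25.lev (fun z => Real.log (g ((ch x).symm z))) (cp x) w := by
  obtain ⟨J, hJ⟩ := log_eq_VL' hg.continuous hx
  have hs : Sm (fun y => VL J (g y)) := Sm.comp (VL_contDiff J) hg
  rw [Levi_congr hJ] at h
  have h1 : (fun z => Real.log (g ((ch x).symm z))) =ᶠ[𝓝 (cp x)]
      (fun y => VL J (g y)) ∘ (ch x).symm := by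
    have h2 : Tendsto (ch x).symm (𝓝 (cp x)) (𝓝 x) := by
      have := (ch x).symm.continuousAt (x := cp x) (by simpa using (isCh_ch x).cp_mem (mem_ch x))
      rwa [ContinuousAt, (isCh_ch x).symm_cp (mem_ch x)] at this
    exact h2.eventually hJ
  rw [lev_congr h1, lev_eq_Levi hs]
  linarith

theorem contDiffAt_log_symm {g : M → ℝ} (hg : Sm g) {x : M} (hx : 0 < g x) :
    ContDiffAt ℝ 2 (fun z => Real.log (g ((ch x).symm z))) (cp x) := by
  have h1 : ContDiffAt ℝ 2 (g ∘ (ch x).symm) (cp x) := (hg x).of_le two_le_top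
  refine h1.log ?_
  simp only [Function.comp_apply]
  rw [(isCh_ch x).symm_cp (mem_ch x)]
  exact hx.ne'

theorem tendsto_symm (x : M) : Tendsto (ch x).symm (𝓝 (cp x)) (𝓝 x) := by
  have := (ch x).symm.continuousAt (x := cp x) (by simpa using (isCh_ch x).cp_mem (mem_ch x))
  rwa [ContinuousAt, (isCh_ch x).symm_cp (mem_ch x)] at this

end levi

/-! ### subharmonic germs -/

/-- `u` is `C²` at `t` with `Δ u t ≥ 0` -/
def SH (u : ℂ → ℝ) (t : ℂ) : Prop := ContDiffAt ℝ 2 u t ∧ 0 ≤ (Δ u) t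

theorem SH.add {u v : ℂ → ℝ} {t : ℂ} (hu : SH u t) (hv : SH v t) : SH (fun s => u s + v s) t := by
  refine ⟨hu.1.add hv.1, ?_⟩
  have h1 : (Δ (u + v)) t = (Δ u) t + (Δ v) t := hu.1.laplacian_add hv.1
  have h2 : (fun s => u s + v s) = u + v := rfl
  rw [h2, h1]
  exact add_nonneg hu.2 hv.2

theorem SH.zero {t : ℂ} : SH (fun _ => 0) t := by
  refine ⟨contDiffAt_const, ?_⟩
  rw [Ahl_25.lap_eq]
  simp

theorem SH.sum {ι : Type*} (s : Finset ι) {u : ι → ℂ → ℝ} {t : ℂ} (h : ∀ i ∈ s, SH (u i) t) :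
    SH (fun x => ∑ i ∈ s, u i x) t := by
  classical
  induction s using Finset.induction_on with
  | empty => simpa using SH.zero
  | insert i s hi ih =>
    have h1 := (h i (Finset.mem_insert_self _ _)).add
      (ih fun j hj => h j (Finset.mem_insert_of_mem hj))
    simpa [Finset.sum_insert hi] using h1

theorem SH.smul {u : ℂ → ℝ} {t : ℂ} (hu : SH u t) {c : ℝ} (hc : 0 ≤ c) : SH (fun s => c * u s) t := by
  refine ⟨contDiffAt_const.mul hu.1, ?_⟩
  have h1 : (Δ (c • u)) t = c • (Δ u) t := laplacian_smul c hu.1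
  have h2 : (fun s => c * u s) = c • u := rfl
  rw [h2, h1, smul_eq_mul]
  exact mul_nonneg hc hu.2

theorem SH.log_norm {F : ℂ → ℂ} {t : ℂ} (hF : AnalyticAt ℂ F t) (h0 : F t ≠ 0) :
    SH (fun s => Real.log ‖F s‖) t := by
  have hharm : HarmonicAt (fun s => Real.log ‖F s‖) t := AnalyticAt.harmonicAt_log_norm hF h0
  have hH0 : (Δ (fun s => Real.log ‖F s‖)) t = 0 := hharm.2.self_of_nhds
  exact ⟨hharm.1, hH0.ge⟩

/-! ### fibres of a model -/

section mdl

variable {K : Type} [Field K] [Algebra ℂ K] {n : ℕ} (M : Mdl K n)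

lemma finite_fib {ζ : Cn n} (hζ : MvPolynomial.eval ζ M.h ≠ 0) : Finite (Fib M.z ζ) :=
  (natCard_fib M.fd hζ).2

lemma cp_fib {ζ : Cn n} (y : Fib M.z ζ) : cp (y.1 : M.Pts) = ζ := funext y.2

lemma eventually_h {ζ0 : Cn n} (h0 : MvPolynomial.eval ζ0 M.h ≠ 0) :
    ∀ᶠ ζ in 𝓝 ζ0, MvPolynomial.eval ζ M.h ≠ 0 :=
  (MvPolynomial.continuous_eval M.h).continuousAt.eventually_ne h0

/-- the sheets over a neighbourhood of `ζ0` -/
theorem sheets {ζ0 : Cn n} (h0 : MvPolynomial.eval ζ0 M.h ≠ 0) :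
    ∀ᶠ ζ in 𝓝 ζ0, MvPolynomial.eval ζ M.h ≠ 0 ∧ ∃ φ : Fib M.z ζ0 → Fib M.z ζ,
      Function.Bijective φ ∧ ∀ y, (φ y).1 = (ch (y.1 : M.Pts)).symm ζ := by
  have := finite_fib M h0
  have h1 : ∀ᶠ ζ in 𝓝 ζ0, ∀ y : Fib M.z ζ0, ζ ∈ (ch (y.1 : M.Pts)).target := by
    rw [eventually_all]
    intro y
    have h := (isCh_ch (y.1 : M.Pts)).cp_mem (mem_ch (y.1 : M.Pts))
    rw [cp_fib M y] at h
    exact (ch (y.1 : M.Pts)).open_target.mem_nhds h
  have htend : ∀ y : Fib M.z ζ0, Tendsto (ch (y.1 : M.Pts)).symm (𝓝 ζ0) (𝓝 y.1) := by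
    intro y
    have h := tendsto_symm (y.1 : M.Pts)
    rwa [cp_fib M y] at h
  have h2 : ∀ᶠ ζ in 𝓝 ζ0, ∀ y y' : Fib M.z ζ0, y ≠ y' →
      (ch (y.1 : M.Pts)).symm ζ ≠ (ch (y'.1 : M.Pts)).symm ζ := by
    rw [eventually_all]; intro y
    rw [eventually_all]; intro y'
    by_cases hyy : y = y'
    · simp [hyy]
    · have h3 : (y.1 : M.Pts) ≠ y'.1 := fun h => hyy (Subtype.ext h)
      have h4 := (htend y).prodMk_nhds (htend y')
      have h5 : {q : M.Pts × M.Pts | q.1 ≠ q.2} ∈ 𝓝 ((y.1 : M.Pts), (y'.1 : M.Pts)) :=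
        (isOpen_ne_fun continuous_fst continuous_snd).mem_nhds h3
      filter_upwards [h4.eventually h5] with ζ hζ _
      exact hζ
  filter_upwards [h1, h2, eventually_h M h0] with ζ hζ1 hζ2 hζ3
  refine ⟨hζ3, fun y => ⟨(ch (y.1 : M.Pts)).symm ζ, fun i => ?_⟩, ?_, fun y => rfl⟩
  · exact congrFun ((isCh_ch (y.1 : M.Pts)).cp_symm (hζ1 y)) i
  · have hfin' := finite_fib M hζ3
    have _ : Fintype (Fib M.z ζ) := Fintype.ofFinite _
    have _ : Fintype (Fib M.z ζ0) := Fintype.ofFinite _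
    have hcard : Fintype.card (Fib M.z ζ0) = Fintype.card (Fib M.z ζ) := by
      rw [← Nat.card_eq_fintype_card, ← Nat.card_eq_fintype_card, (natCard_fib M.fd h0).1,
        (natCard_fib M.fd hζ3).1]
    refine (Fintype.bijective_iff_injective_and_card _).mpr ⟨?_, hcard⟩
    intro y y' hyy
    by_contra hne
    exact hζ2 y y' hne (congrArg Subtype.val hyy)

/-- evaluations are holomorphic -/
theorem analyticAt_ev (b : M.B) (y : M.Pts) :
    AnalyticAt ℂ (fun ζ => ((ch y).symm ζ : M.Pts) b) (cp y) := by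
  obtain ⟨C⟩ := M.hch y
  have h1 : (fun w => (ch y).symm w) =ᶠ[𝓝 (cp y)] fun w => C.s (w - cp y) :=
    (isCh_ch y).germ (show IsCh (chartHomeo M.hch C) from rfl) (mem_ch y) (self_mem_sheet C)
  have h2 : AnalyticAt ℂ (fun w : Cn n => w - cp y) (cp y) := analyticAt_id.sub analyticAt_const
  have h3 : AnalyticAt ℂ (fun ζ => C.s ζ b) ((fun w : Cn n => w - cp y) (cp y)) := by
    simpa using C.anal b 0 (Metric.mem_ball_self C.r_pos)
  have h4 := AnalyticAt.comp (g := fun ζ => C.s ζ b) (f := fun w : Cn n => w - cp y) h3 h2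
  refine h4.congr ?_
  filter_upwards [h1] with w hw
  simp only [Function.comp_apply, hw]

/-- the weight on the base -/
def W (g : M.Pts → ℝ) (L : ℕ) (ζ : Cn n) : ℝ :=
  (∏ᶠ y : Fib M.z ζ, g y.1) * ‖MvPolynomial.eval ζ M.h‖ ^ (2 * L)

/-- the fibre sums -/
def S (f : M.Pts → ℂ) (k : ℕ) (ζ : Cn n) : ℂ := HH M.z M.θ M.μ M.h f k ζ

/-- the coefficients of the dual basis -/
def cf (k : ℕ) : M.B := (qq M.z M.θ M.μ).coeff k

variable {g : M.Pts → ℝ} {f : M.Pts → ℂ}

theorem W_local (L : ℕ) {ζ0 : Cn n} (h0 : MvPolynomial.eval ζ0 M.h ≠ 0) [Fintype (Fib M.z ζ0)] :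
    W M g L =ᶠ[𝓝 ζ0] fun ζ => (∏ y : Fib M.z ζ0, g ((ch (y.1 : M.Pts)).symm ζ)) *
      ‖MvPolynomial.eval ζ M.h‖ ^ (2 * L) := by
  filter_upwards [sheets M h0] with ζ hζ
  obtain ⟨hζ3, φ, hφ, hφ2⟩ := hζ
  have := finite_fib M hζ3
  unfold W
  congr 1
  rw [← finprod_comp φ hφ, finprod_eq_prod_of_fintype]
  exact Finset.prod_congr rfl fun y _ => by rw [hφ2]

theorem S_local (k : ℕ) {ζ0 : Cn n} (h0 : MvPolynomial.eval ζ0 M.h ≠ 0) [Fintype (Fib M.z ζ0)] :
    S M f k =ᶠ[𝓝 ζ0] fun ζ => ∑ y : Fib M.z ζ0, f ((ch (y.1 : M.Pts)).symm ζ) *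
      ((ch (y.1 : M.Pts)).symm ζ : M.Pts) (cf M k) := by
  filter_upwards [sheets M h0] with ζ hζ
  obtain ⟨hζ3, φ, hφ, hφ2⟩ := hζ
  have := finite_fib M hζ3
  have _ : Fintype (Fib M.z ζ) := Fintype.ofFinite _
  unfold S
  rw [HH_eq M.fd f k hζ3, ← hφ.sum_comp]
  exact Finset.sum_congr rfl fun y _ => by rw [hφ2]; rfl

theorem W_nonneg (hg0 : ∀ y, 0 ≤ g y) (L : ℕ) (ζ : Cn n) : 0 ≤ W M g L ζ := by
  unfold W
  exact mul_nonneg (finprod_nonneg fun y => hg0 y.1) (by positivity)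

theorem W_pos_iff (hg0 : ∀ y, 0 ≤ g y) (L : ℕ) {ζ : Cn n} (h0 : MvPolynomial.eval ζ M.h ≠ 0) :
    0 < W M g L ζ ↔ ∀ y : Fib M.z ζ, 0 < g y.1 := by
  have := finite_fib M h0
  have _ : Fintype (Fib M.z ζ) := Fintype.ofFinite _
  unfold W
  rw [finprod_eq_prod_of_fintype]
  have h1 : 0 < ‖MvPolynomial.eval ζ M.h‖ ^ (2 * L) := by positivity
  rw [mul_pos_iff_of_pos_right h1]
  constructor
  · intro h y
    refine lt_of_le_of_ne (hg0 y.1) (fun h2 => ?_)
    rw [Finset.prod_eq_zero (Finset.mem_univ y) h2.symm] at h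
    exact lt_irrefl _ h
  · intro h
    exact Finset.prod_pos fun y _ => h y

/-- good base points are dense -/
theorem dense_good (hg : Sm g) (hd : Dense {y : M.Pts | 0 < g y}) {ζ0 : Cn n}
    (h0 : MvPolynomial.eval ζ0 M.h ≠ 0) :
    ∃ᶠ ζ in 𝓝 ζ0, MvPolynomial.eval ζ M.h ≠ 0 ∧ ∀ y : Fib M.z ζ, 0 < g y.1 := by
  classical
  have := finite_fib M h0
  have _ : Fintype (Fib M.z ζ0) := Fintype.ofFinite _
  rw [frequently_iff]
  intro U hU
  have h1 : ∀ᶠ ζ in 𝓝 ζ0, ∀ y : Fib M.z ζ0, ζ ∈ (ch (y.1 : M.Pts)).target := by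
    rw [eventually_all]
    intro y
    have h := (isCh_ch (y.1 : M.Pts)).cp_mem (mem_ch (y.1 : M.Pts))
    rw [cp_fib M y] at h
    exact (ch (y.1 : M.Pts)).open_target.mem_nhds h
  obtain ⟨O, hO, hOo, hO0⟩ := _root_.mem_nhds_iff.1 (inter_mem hU ((sheets M h0).and h1))
  have key : ∀ s : Finset (Fib M.z ζ0), ∃ O' ⊆ O, IsOpen O' ∧ O'.Nonempty ∧
      ∀ y ∈ s, ∀ ζ ∈ O', 0 < g ((ch (y.1 : M.Pts)).symm ζ) := by
    intro s
    induction s using Finset.induction_on with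
    | empty => exact ⟨O, subset_rfl, hOo, ⟨ζ0, hO0⟩, by simp⟩
    | insert y s hy ih =>
      obtain ⟨O', hO'1, hO'2, ⟨ζ1, hζ1⟩, hO'3⟩ := ih
      have hζ1t : ζ1 ∈ (ch (y.1 : M.Pts)).target := (hO (hO'1 hζ1)).2.2 y
      have hopen : IsOpen ((ch (y.1 : M.Pts)).source ∩ (ch (y.1 : M.Pts)) ⁻¹' O') :=
        (ch (y.1 : M.Pts)).isOpen_inter_preimage hO'2
      have hne : ((ch (y.1 : M.Pts)).source ∩ (ch (y.1 : M.Pts)) ⁻¹' O').Nonempty := by
        refine ⟨(ch (y.1 : M.Pts)).symm ζ1, (ch (y.1 : M.Pts)).map_target hζ1t, ?_⟩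
        rw [mem_preimage, (ch (y.1 : M.Pts)).right_inv hζ1t]
        exact hζ1
      obtain ⟨y', hy'1, hy'2⟩ := hd.inter_open_nonempty _ hopen hne
      have hy'2' : 0 < g y' := hy'2
      set e := ch (y.1 : M.Pts) with he
      have hsy : e.symm (e y') = y' := e.left_inv hy'1.1
      have hct : ContinuousAt (fun ζ => g (e.symm ζ)) (e y') := by
        have h2 : ContinuousAt e.symm (e y') := e.symm.continuousAt (by simpa using e.map_source hy'1.1)
        exact ContinuousAt.comp (g := g) hg.continuous.continuousAt h2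
      have hev : ∀ᶠ ζ in 𝓝 (e y'), 0 < g (e.symm ζ) := by
        refine hct.eventually (lt_mem_nhds ?_)
        show 0 < g (e.symm (e y'))
        rw [hsy]
        exact hy'2'
      obtain ⟨O2, hO2, hO2o, hO20⟩ := _root_.mem_nhds_iff.1 (inter_mem hev (hO'2.mem_nhds hy'1.2))
      refine ⟨O2, fun ζ hζ => hO'1 (hO2 hζ).2, hO2o, ⟨_, hO20⟩, ?_⟩
      intro y2 hy2 ζ hζ
      rcases Finset.mem_insert.1 hy2 with rfl | h
      · exact (hO2 hζ).1
      · exact hO'3 y2 h ζ (hO2 hζ).2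
  obtain ⟨O', hO'1, _, ⟨ζ, hζ⟩, hO'3⟩ := key Finset.univ
  obtain ⟨hζU, ⟨hζ3, φ, hφ, hφ2⟩, _⟩ := hO (hO'1 hζ)
  refine ⟨ζ, hζU, hζ3, fun y => ?_⟩
  obtain ⟨y0, rfl⟩ := hφ.2 y
  rw [hφ2]
  exact hO'3 y0 (Finset.mem_univ _) ζ hζ

/-- the line `t ↦ z0 + t v` -/
abbrev ln (z0 v : Cn n) (t : ℂ) : Cn n := z0 + t • v

theorem analyticAt_ln (z0 v : Cn n) (t : ℂ) : AnalyticAt ℂ (ln z0 v) t := by
  unfold ln
  fun_prop

theorem contDiffAt_ln (z0 v : Cn n) (t : ℂ) : ContDiffAt ℝ 2 (ln z0 v) t :=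
  ((analyticAt_ln z0 v t).contDiffAt (n := 2)).restrict_scalars ℝ

/-- `C²` along lines -/
theorem contDiffAt_W (hg : Sm g) (L : ℕ) {z0 v : Cn n} {t : ℂ}
    (h0 : MvPolynomial.eval (ln z0 v t) M.h ≠ 0) :
    ContDiffAt ℝ 2 (fun s => W M g L (ln z0 v s)) t := by
  have := finite_fib M h0
  have _ : Fintype (Fib M.z (ln z0 v t)) := Fintype.ofFinite _
  have hev := (analyticAt_ln z0 v t).continuousAt.eventually (W_local M (g := g) L h0)
  refine ContDiffAt.congr_of_eventuallyEq ?_ hev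
  refine ContDiffAt.mul ?_ ?_
  · refine contDiffAt_prod fun y _ => ?_
    have h1 : ContDiffAt ℝ 2 (g ∘ (ch (y.1 : M.Pts)).symm) (ln z0 v t) := by
      have h2 : ContDiffAt ℝ 2 (g ∘ (ch (y.1 : M.Pts)).symm) (cp (y.1 : M.Pts)) :=
        (hg (y.1 : M.Pts)).of_le two_le_top
      rwa [cp_fib M y] at h2
    exact h1.comp t (contDiffAt_ln z0 v t)
  · have h1 : ContDiffAt ℝ 2 (fun s => MvPolynomial.eval (ln z0 v s) M.h) t := by
      have h2 : AnalyticAt ℂ (fun ζ : Cn n => MvPolynomial.eval ζ M.h) (ln z0 v t) :=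
        Crest.Agent.R271.RExt747.analyticAt_eval M.h _
      have h3 : AnalyticAt ℂ (fun s => MvPolynomial.eval (ln z0 v s) M.h) t :=
        AnalyticAt.comp (g := fun ζ : Cn n => MvPolynomial.eval ζ M.h) h2 (analyticAt_ln z0 v t)
      exact (h3.contDiffAt (n := 2)).restrict_scalars ℝ
    have h2 : (fun s => ‖MvPolynomial.eval (ln z0 v s) M.h‖ ^ (2 * L)) =
        fun s => (‖MvPolynomial.eval (ln z0 v s) M.h‖ ^ 2) ^ L := by
      funext s; rw [pow_mul]
    rw [h2]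
    exact (h1.norm_sq ℝ).pow L

/-- `log W` is subharmonic along lines -/
theorem lap_W (hg : Sm g) (hg0 : ∀ y, 0 ≤ g y)
    (hpsh : ∀ y : M.Pts, 0 < g y → ∀ w, 0 ≤ Levi (fun y => Real.log (g y)) y w) (L : ℕ)
    {z0 v : Cn n} {t : ℂ} (h0 : MvPolynomial.eval (ln z0 v t) M.h ≠ 0)
    (hpos : 0 < W M g L (ln z0 v t)) :
    0 ≤ (Δ (fun s => Real.log (W M g L (ln z0 v s)))) t := by
  have := finite_fib M h0
  have _ : Fintype (Fib M.z (ln z0 v t)) := Fintype.ofFinite _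
  have hgy := (W_pos_iff M hg0 L h0).1 hpos
  have hgc : ∀ y : Fib M.z (ln z0 v t), ContinuousAt (fun ζ => g ((ch (y.1 : M.Pts)).symm ζ))
      (ln z0 v t) := by
    intro y
    have h2 := tendsto_symm (y.1 : M.Pts)
    have h3 : (ch (y.1 : M.Pts)).symm (cp (y.1 : M.Pts)) = y.1 :=
      (isCh_ch (y.1 : M.Pts)).symm_cp (mem_ch _)
    have h4 : ContinuousAt (fun ζ => g ((ch (y.1 : M.Pts)).symm ζ)) (cp (y.1 : M.Pts)) := by
      have h5 : ContinuousAt (ch (y.1 : M.Pts)).symm (cp (y.1 : M.Pts)) := by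
        rw [ContinuousAt, h3]; exact h2
      exact ContinuousAt.comp (g := g) hg.continuous.continuousAt h5
    rwa [cp_fib M y] at h4
  have hgpos : ∀ᶠ ζ in 𝓝 (ln z0 v t), ∀ y : Fib M.z (ln z0 v t),
      0 < g ((ch (y.1 : M.Pts)).symm ζ) := by
    rw [eventually_all]
    intro y
    refine (hgc y).eventually (lt_mem_nhds ?_)
    have h3 : (ch (y.1 : M.Pts)).symm (cp (y.1 : M.Pts)) = y.1 :=
      (isCh_ch (y.1 : M.Pts)).symm_cp (mem_ch _)
    rw [cp_fib M y] at h3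
    show 0 < g ((ch (y.1 : M.Pts)).symm (ln z0 v t))
    rw [h3]
    exact hgy y
  have hlog : (fun ζ => Real.log (W M g L ζ)) =ᶠ[𝓝 (ln z0 v t)] fun ζ =>
      (∑ y : Fib M.z (ln z0 v t), Real.log (g ((ch (y.1 : M.Pts)).symm ζ))) +
        (2 * L : ℕ) * Real.log ‖MvPolynomial.eval ζ M.h‖ := by
    filter_upwards [W_local M (g := g) L h0, hgpos, eventually_h M h0] with ζ h1 h2 h3
    rw [h1, Real.log_mul (Finset.prod_pos fun y _ => h2 y).ne' (by positivity),
      Real.log_prod (fun y _ => (h2 y).ne'), Real.log_pow]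
  have hev := (analyticAt_ln z0 v t).continuousAt.eventually hlog
  rw [(laplacian_congr_nhds hev).self_of_nhds]
  have hSH : SH (fun s => (∑ y : Fib M.z (ln z0 v t), Real.log (g ((ch (y.1 : M.Pts)).symm (ln z0 v s)))) +
        (2 * L : ℕ) * Real.log ‖MvPolynomial.eval (ln z0 v s) M.h‖) t := by
    refine SH.add (SH.sum _ fun y _ => ?_) (SH.smul (SH.log_norm ?_ h0) (by positivity))
    · have hc := contDiffAt_log_symm hg (hgy y)
      have hl := lev_log_nonneg hg (hgy y) (hpsh y.1 (hgy y) v)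
      rw [cp_fib M y] at hc hl
      refine ⟨hc.comp t (contDiffAt_ln z0 v t), ?_⟩
      have := MaxP_25.lap_cline (u := fun z => Real.log (g ((ch (y.1 : M.Pts)).symm z)))
        (z := z0) (v := v) (t := t) hc
      rw [this]
      exact hl
    · exact AnalyticAt.comp (g := fun ζ : Cn n => MvPolynomial.eval ζ M.h)
        (Crest.Agent.R271.RExt747.analyticAt_eval M.h _) (analyticAt_ln z0 v t)
  exact hSH.2

/-- the fibre sums are holomorphic at good points -/
theorem analyticAt_S (hf : ∀ y : M.Pts, 0 < g y → AnalyticAt ℂ (f ∘ (ch y).symm) (cp y)) (k : ℕ)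
    {ζ0 : Cn n} (h0 : MvPolynomial.eval ζ0 M.h ≠ 0) (hgy : ∀ y : Fib M.z ζ0, 0 < g y.1) :
    AnalyticAt ℂ (S M f k) ζ0 := by
  have := finite_fib M h0
  have _ : Fintype (Fib M.z ζ0) := Fintype.ofFinite _
  refine AnalyticAt.congr ?_ (S_local M (f := f) k h0).symm
  refine Finset.analyticAt_fun_sum _ fun y _ => ?_
  have h1 := hf y.1 (hgy y)
  have h2 := analyticAt_ev M (cf M k) y.1
  rw [cp_fib M y] at h1 h2
  exact h1.mul h2

/-- the estimates along a line, `X` = a common bound -/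
theorem bounds (hg0 : ∀ y, 0 ≤ g y) {k l l1 : ℕ} {ζ : Cn n}
    (h0 : MvPolynomial.eval ζ M.h ≠ 0) {X : ℝ} (hX : 1 ≤ X)
    (hH : ‖MvPolynomial.eval ζ M.h‖ ≤ X)
    (hgX : ∀ y : Fib M.z ζ, g y.1 * ‖MvPolynomial.eval ζ M.h‖ ^ l ≤ X)
    (hbX : ∀ y : Fib M.z ζ, ‖MvPolynomial.eval ζ M.h‖ ^ l1 * ‖y.1 (cf M k)‖ ≤ X) :
    W M g (l * M.deg + l1) ζ ≤ X ^ (M.deg + l * M.deg + 2 * l1 + 3) ∧
    ((∀ y : Fib M.z ζ, ‖f y.1‖ ^ 2 * g y.1 * ‖MvPolynomial.eval ζ M.h‖ ^ l ≤ X) →
      ‖S M f k ζ‖ ^ 2 * W M g (l * M.deg + l1) ζ ≤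
        (M.deg : ℝ) ^ 2 * X ^ (M.deg + l * M.deg + 2 * l1 + 3)) := by
  classical
  have := finite_fib M h0
  have _ : Fintype (Fib M.z ζ) := Fintype.ofFinite _
  set H := ‖MvPolynomial.eval ζ M.h‖ with hHdef
  have hH0 : 0 < H := by positivity
  have hcard : (Finset.univ : Finset (Fib M.z ζ)).card = M.deg := by
    rw [Finset.card_univ, ← Nat.card_eq_fintype_card, (natCard_fib M.fd h0).1]
  have hW : W M g (l * M.deg + l1) ζ =
      (∏ y : Fib M.z ζ, (g y.1 * H ^ l)) * H ^ (l * M.deg + 2 * l1) := by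
    unfold W
    rw [finprod_eq_prod_of_fintype, Finset.prod_mul_distrib, Finset.prod_const, hcard, ← hHdef]
    ring
  have hg1 : ∀ y : Fib M.z ζ, 0 ≤ g y.1 * H ^ l := fun y => mul_nonneg (hg0 _) (by positivity)
  constructor
  · rw [hW]
    calc (∏ y : Fib M.z ζ, (g y.1 * H ^ l)) * H ^ (l * M.deg + 2 * l1)
        ≤ X ^ M.deg * X ^ (l * M.deg + 2 * l1) := by
          gcongr
          rw [← hcard, ← Finset.prod_const]
          exact Finset.prod_le_prod (fun y _ => hg1 y) (fun y _ => hgX y)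
      _ = X ^ (M.deg + l * M.deg + 2 * l1) := by rw [← pow_add, add_assoc]
      _ ≤ _ := pow_le_pow_right₀ hX (by omega)
  · intro hfX
    have hterm : ∀ y : Fib M.z ζ, ‖f y.1‖ ^ 2 * ‖y.1 (cf M k)‖ ^ 2 * W M g (l * M.deg + l1) ζ ≤
        X ^ (M.deg + l * M.deg + 2 * l1 + 3) := by
      intro y
      rw [hW, ← Finset.mul_prod_erase _ _ (Finset.mem_univ y)]
      have h1 : ‖f y.1‖ ^ 2 * ‖y.1 (cf M k)‖ ^ 2 *
          (g y.1 * H ^ l * (∏ x ∈ Finset.univ.erase y, (g x.1 * H ^ l)) *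
            H ^ (l * M.deg + 2 * l1)) =
          (‖f y.1‖ ^ 2 * g y.1 * H ^ l) * (∏ x ∈ Finset.univ.erase y, (g x.1 * H ^ l)) *
            (H ^ l1 * ‖y.1 (cf M k)‖) ^ 2 * H ^ (l * M.deg) := by ring
      rw [h1]
      have h2 : (∏ x ∈ Finset.univ.erase y, (g x.1 * H ^ l)) ≤ X ^ M.deg := by
        calc (∏ x ∈ Finset.univ.erase y, (g x.1 * H ^ l)) ≤ X ^ (Finset.univ.erase y).card := by
              rw [← Finset.prod_const]
              exact Finset.prod_le_prod (fun x _ => hg1 x) (fun x _ => hgX x)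
          _ ≤ X ^ M.deg := pow_le_pow_right₀ hX (by
              rw [← hcard]; exact Finset.card_le_card (Finset.erase_subset _ _))
      have h3 : 0 ≤ (∏ x ∈ Finset.univ.erase y, (g x.1 * H ^ l)) :=
        Finset.prod_nonneg fun x _ => hg1 x
      have h4 : 0 ≤ ‖f y.1‖ ^ 2 * g y.1 * H ^ l :=
        mul_nonneg (mul_nonneg (by positivity) (hg0 _)) (by positivity)
      calc (‖f y.1‖ ^ 2 * g y.1 * H ^ l) * (∏ x ∈ Finset.univ.erase y, (g x.1 * H ^ l)) *
            (H ^ l1 * ‖y.1 (cf M k)‖) ^ 2 * H ^ (l * M.deg)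
          ≤ X * X ^ M.deg * X ^ 2 * X ^ (l * M.deg) := by
            gcongr
            · exact hfX y
            · exact hbX y
        _ = X ^ (M.deg + l * M.deg + 3) := by ring
        _ ≤ _ := pow_le_pow_right₀ hX (by omega)
    have hWn := W_nonneg M hg0 (l * M.deg + l1) ζ
    have h1 : ‖S M f k ζ‖ ^ 2 ≤ M.deg * ∑ y : Fib M.z ζ, ‖f y.1‖ ^ 2 * ‖y.1 (cf M k)‖ ^ 2 := by
      have h2 : S M f k ζ = ∑ y : Fib M.z ζ, f y.1 * y.1 (cf M k) := HH_eq M.fd f k h0
      rw [h2]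
      calc ‖∑ y : Fib M.z ζ, f y.1 * y.1 (cf M k)‖ ^ 2
          ≤ (∑ y : Fib M.z ζ, ‖f y.1‖ * ‖y.1 (cf M k)‖) ^ 2 := by
            gcongr
            refine (norm_sum_le _ _).trans (Finset.sum_le_sum fun y _ => ?_)
            rw [norm_mul]
        _ ≤ (Finset.univ : Finset (Fib M.z ζ)).card *
            ∑ y : Fib M.z ζ, (‖f y.1‖ * ‖y.1 (cf M k)‖) ^ 2 := sq_sum_le_card_mul_sum_sq
        _ = _ := by
          rw [hcard]
          congr 1
          exact Finset.sum_congr rfl fun y _ => by rw [mul_pow]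
    calc ‖S M f k ζ‖ ^ 2 * W M g (l * M.deg + l1) ζ
        ≤ (M.deg * ∑ y : Fib M.z ζ, ‖f y.1‖ ^ 2 * ‖y.1 (cf M k)‖ ^ 2) *
            W M g (l * M.deg + l1) ζ := by gcongr
      _ = M.deg * ∑ y : Fib M.z ζ, ‖f y.1‖ ^ 2 * ‖y.1 (cf M k)‖ ^ 2 *
            W M g (l * M.deg + l1) ζ := by rw [mul_assoc, Finset.sum_mul]
      _ ≤ M.deg * ∑ _y : Fib M.z ζ, X ^ (M.deg + l * M.deg + 2 * l1 + 3) := by
          gcongr with y _
          exact hterm y
      _ = _ := by
          rw [Finset.sum_const, hcard, nsmul_eq_mul]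
          ring

theorem norm_ln_le (z0 v : Cn n) (t : ℂ) :
    1 + ‖ln z0 v t‖ ≤ (1 + ‖z0‖ + ‖v‖) * (1 + ‖t‖) := by
  have h1 : ‖ln z0 v t‖ ≤ ‖z0‖ + ‖t‖ * ‖v‖ := by
    refine (norm_add_le _ _).trans ?_
    rw [norm_smul]
  have h2 := norm_nonneg z0
  have h3 := norm_nonneg v
  have h4 := norm_nonneg t
  nlinarith [mul_nonneg h2 h4]

/-- rational on lines -/
theorem rational_line (hg : Sm g) (hg0 : ∀ y, 0 ≤ g y)
    (hpsh : ∀ y : M.Pts, 0 < g y → ∀ w, 0 ≤ Levi (fun y => Real.log (g y)) y w)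
    (hf : ∀ y : M.Pts, 0 < g y → AnalyticAt ℂ (f ∘ (ch y).symm) (cp y))
    {C : ℝ} {a l : ℕ}
    (hgb : ∀ y : M.Pts, g y * ‖MvPolynomial.eval (M.pz y) M.h‖ ^ l ≤ C * (1 + ‖M.pz y‖) ^ a)
    (hfb : ∀ y : M.Pts, 0 < g y → ‖f y‖ ^ 2 * g y * ‖MvPolynomial.eval (M.pz y) M.h‖ ^ l ≤
      C * (1 + ‖M.pz y‖) ^ a) (k : ℕ) {z0 : Cn n} (h0 : MvPolynomial.eval z0 M.h ≠ 0)
    (hgood : ∀ y : Fib M.z z0, 0 < g y.1) (v : Cn n) :
    ∃ p q : Polynomial ℂ, q ≠ 0 ∧ ∀ t, MvPolynomial.eval (ln z0 v t) M.h ≠ 0 →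
      (∀ y : Fib M.z (ln z0 v t), 0 < g y.1) →
      q.eval t ≠ 0 ∧ q.eval t * S M f k (ln z0 v t) = p.eval t := by
  classical
  obtain ⟨C1, k1, l1, hC1, hb⟩ := M.growth (cf M k)
  set q0 := Liou_739.lpoly M.h z0 v with hq0
  obtain ⟨C2, hC2, hq0g⟩ := Liou_739.poly_growth q0
  have hq0e : ∀ t, q0.eval t = MvPolynomial.eval (ln z0 v t) M.h := Liou_739.lpoly_eval M.h z0 v
  have hln0 : ln z0 v 0 = z0 := by simp [ln]
  have hq00 : q0 ≠ 0 := by
    intro h
    apply h0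
    have := hq0e 0
    rw [h, Polynomial.eval_zero, hln0] at this
    exact this.symm
  set L := l * M.deg + l1 with hL
  set A := 1 + ‖z0‖ + ‖v‖ with hA
  have hA1 : 1 ≤ A := by have := norm_nonneg z0; have := norm_nonneg v; linarith
  have hE : ∀ t : ℂ, (1 : ℝ) ≤ 1 + ‖t‖ := fun t => by linarith [norm_nonneg t]
  have hln : ∀ t, 1 + ‖ln z0 v t‖ ≤ A * (1 + ‖t‖) := norm_ln_le z0 v
  -- the common bound
  set B0 : ℝ := 1 + C2 + |C| * A ^ a + C1 * (1 + n) ^ k1 * A ^ (2 * k1) with hB0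
  set m : ℕ := q0.natDegree + a + 2 * k1 with hm
  have hB01 : 1 ≤ B0 := by
    have h1 : 0 ≤ |C| * A ^ a := by positivity
    have h2 : 0 ≤ C1 * (1 + (n : ℝ)) ^ k1 * A ^ (2 * k1) := by positivity
    linarith
  have hX : ∀ t : ℂ, 1 ≤ B0 * (1 + ‖t‖) ^ m := fun t => by
    have := one_le_pow₀ (hE t) (n := m)
    nlinarith
  have hX1 : ∀ (t : ℂ) (c : ℝ) (j : ℕ), 0 ≤ c → c ≤ B0 → j ≤ m → c * (1 + ‖t‖) ^ j ≤
      B0 * (1 + ‖t‖) ^ m := by
    intro t c j hc hcB hj
    exact mul_le_mul hcB (pow_le_pow_right₀ (hE t) hj) (by positivity) (by linarith)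
  have hXC : ∀ t : ℂ, C * (1 + ‖ln z0 v t‖) ^ a ≤ B0 * (1 + ‖t‖) ^ m := by
    intro t
    calc C * (1 + ‖ln z0 v t‖) ^ a ≤ |C| * (A * (1 + ‖t‖)) ^ a := by
          have h1 := hln t
          have h2 := le_abs_self C
          gcongr
      _ = (|C| * A ^ a) * (1 + ‖t‖) ^ a := by rw [mul_pow]; ring
      _ ≤ _ := by
          refine hX1 t _ a (by positivity) ?_ (by omega)
          have h2 : 0 ≤ C1 * (1 + (n : ℝ)) ^ k1 * A ^ (2 * k1) := by positivity
          linarith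
  have hbounds : ∀ t : ℂ, MvPolynomial.eval (ln z0 v t) M.h ≠ 0 →
      W M g L (ln z0 v t) ≤ (B0 * (1 + ‖t‖) ^ m) ^ (M.deg + l * M.deg + 2 * l1 + 3) ∧
      ((∀ y : Fib M.z (ln z0 v t), 0 < g y.1) →
        ‖S M f k (ln z0 v t)‖ ^ 2 * W M g L (ln z0 v t) ≤
        (M.deg : ℝ) ^ 2 * (B0 * (1 + ‖t‖) ^ m) ^ (M.deg + l * M.deg + 2 * l1 + 3)) := by
    intro t ht
    have hpz : ∀ y : Fib M.z (ln z0 v t), M.pz y.1 = ln z0 v t := fun y => funext y.2
    have hbd := bounds M (g := g) (f := f) hg0 (k := k) (l := l) (l1 := l1) ht (hX t) ?_ ?_ ?_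
    · refine ⟨hbd.1, fun hy => hbd.2 fun y => ?_⟩
      have h1 := hfb y.1 (hy y)
      rw [hpz y] at h1
      exact h1.trans (hXC t)
    · rw [← hq0e]
      refine (hq0g t).trans (hX1 t C2 _ hC2 ?_ (by omega))
      have h1 : 0 ≤ |C| * A ^ a := by positivity
      have h2 : 0 ≤ C1 * (1 + (n : ℝ)) ^ k1 * A ^ (2 * k1) := by positivity
      linarith
    · intro y
      have h1 := hgb y.1
      rw [hpz y] at h1
      exact h1.trans (hXC t)
    · intro y
      have h1 := hb y.1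
      rw [hpz y] at h1
      refine h1.trans ?_
      have h2 : (1 : ℝ) + ∑ i, ‖y.1 (M.z i)‖ ^ 2 ≤ (1 + n) * (A * (1 + ‖t‖)) ^ 2 := by
        have h3 : ∀ i, ‖y.1 (M.z i)‖ ^ 2 ≤ (A * (1 + ‖t‖)) ^ 2 := by
          intro i
          have h4 : ‖y.1 (M.z i)‖ ≤ A * (1 + ‖t‖) := by
            have h5 : y.1 (M.z i) = ln z0 v t i := y.2 i
            rw [h5]
            have h6 := norm_le_pi_norm (ln z0 v t) i
            have h7 := hln t
            linarith
          gcongr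
        have h4 : ∑ i : Fin n, ‖y.1 (M.z i)‖ ^ 2 ≤ n * (A * (1 + ‖t‖)) ^ 2 := by
          have := Finset.sum_le_card_nsmul Finset.univ (fun i : Fin n => ‖y.1 (M.z i)‖ ^ 2) _
            (fun i _ => h3 i)
          simpa using this
        have h5 : (1 : ℝ) ≤ (A * (1 + ‖t‖)) ^ 2 := by
          have h6 : 1 ≤ A * (1 + ‖t‖) := by nlinarith [hE t]
          exact one_le_pow₀ h6
        nlinarith
      calc C1 * (1 + ∑ i, ‖y.1 (M.z i)‖ ^ 2) ^ k1
          ≤ C1 * ((1 + n) * (A * (1 + ‖t‖)) ^ 2) ^ k1 := by gcongr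
        _ = (C1 * (1 + n) ^ k1 * A ^ (2 * k1)) * (1 + ‖t‖) ^ (2 * k1) := by
          rw [mul_pow, ← pow_mul, mul_pow]; ring
        _ ≤ _ := by
          refine hX1 t _ _ (by positivity) ?_ (by omega)
          have h1 : 0 ≤ |C| * A ^ a := by positivity
          linarith
  have hP : ∀ t, t ∉ q0.roots.toFinset ↔ MvPolynomial.eval (ln z0 v t) M.h ≠ 0 := by
    intro t
    rw [Multiset.mem_toFinset, Polynomial.mem_roots hq00, Polynomial.IsRoot.def, hq0e]
  set T := M.deg + l * M.deg + 2 * l1 + 3 with hT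
  have hfin : ∀ t : ℂ, (B0 * (1 + ‖t‖) ^ m) ^ T = B0 ^ T * (1 + ‖t‖) ^ (m * T) := by
    intro t; rw [mul_pow, ← pow_mul]
  have hmain := RatPlane_437.rational_of_growth (P := q0.roots.toFinset)
    (S := fun t => S M f k (ln z0 v t)) (w := fun t => W M g L (ln z0 v t))
    (C := (1 + (M.deg : ℝ) ^ 2) * B0 ^ T) (N := m * T) ?_ ?_ ?_ ?_ ?_ ?_ ?_
  · obtain ⟨p, q, hq, h1, h2⟩ := hmain
    refine ⟨p, q, hq, fun t ht hy => ?_⟩
    have hw : 0 < W M g L (ln z0 v t) := (W_pos_iff M hg0 L ht).2 hy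
    exact ⟨h1 t ((hP t).2 ht) hw, h2 t ((hP t).2 ht) hw⟩
  · intro t ht
    exact contDiffAt_W M hg L ((hP t).1 ht)
  · intro t ht
    exact W_nonneg M hg0 L _
  · intro t ht hw
    exact lap_W M hg hg0 hpsh L ((hP t).1 ht) hw
  · refine ⟨0, ?_, ?_⟩
    · rw [hP, hln0]; exact h0
    · show 0 < W M g L (ln z0 v 0)
      rw [hln0]
      exact (W_pos_iff M hg0 L h0).2 hgood
  · intro t ht
    refine ((hbounds t ((hP t).1 ht)).1).trans ?_
    rw [hfin]
    have h1 : 0 ≤ (M.deg : ℝ) ^ 2 * (B0 ^ T * (1 + ‖t‖) ^ (m * T)) := by positivity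
    nlinarith
  · intro t ht hw
    have ht' := (hP t).1 ht
    have h1 := analyticAt_S M hf k ht' ((W_pos_iff M hg0 L ht').1 hw)
    exact AnalyticAt.comp (g := S M f k) h1 (analyticAt_ln z0 v t)
  · intro t ht hw
    have ht' := (hP t).1 ht
    refine ((hbounds t ht').2 ((W_pos_iff M hg0 L ht').1 hw)).trans ?_
    rw [hfin]
    have h1 : 0 ≤ B0 ^ T * (1 + ‖t‖) ^ (m * T) := by positivity
    nlinarith

theorem eventually_good (hg : Sm g) {ζ0 : Cn n} (h0 : MvPolynomial.eval ζ0 M.h ≠ 0)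
    (hgood : ∀ y : Fib M.z ζ0, 0 < g y.1) :
    ∀ᶠ ζ in 𝓝 ζ0, MvPolynomial.eval ζ M.h ≠ 0 ∧ ∀ y : Fib M.z ζ, 0 < g y.1 := by
  have := finite_fib M h0
  have h1 : ∀ᶠ ζ in 𝓝 ζ0, ∀ y : Fib M.z ζ0, 0 < g ((ch (y.1 : M.Pts)).symm ζ) := by
    rw [eventually_all]
    intro y
    have h2 := tendsto_symm (y.1 : M.Pts)
    rw [cp_fib M y] at h2
    exact h2.eventually (hg.continuous.continuousAt.eventually (lt_mem_nhds (hgood y)))
  filter_upwards [h1, sheets M h0] with ζ hζ1 hζ2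
  obtain ⟨hζ3, φ, hφ, hφ2⟩ := hζ2
  refine ⟨hζ3, fun y => ?_⟩
  obtain ⟨y0, rfl⟩ := hφ.2 y
  rw [hφ2]
  exact hζ1 y0

/-- **ALG-RAT (F4')**: a function on a model which is holomorphic where a smooth weight `g ≥ 0` with `log g`
psh (where `g > 0`) is positive, with `g` and `|f|² g` of polynomial growth in `z` and `1/h`, is an element
of the function field. -/
theorem mem_frac (hg : Sm g) (hg0 : ∀ y, 0 ≤ g y)
    (hpsh : ∀ y : M.Pts, 0 < g y → ∀ w, 0 ≤ Levi (fun y => Real.log (g y)) y w)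
    (hd : Dense {y : M.Pts | 0 < g y})
    (hf : ∀ y : M.Pts, 0 < g y → AnalyticAt ℂ (f ∘ (ch y).symm) (cp y))
    {C : ℝ} {a l : ℕ}
    (hgb : ∀ y : M.Pts, g y * ‖MvPolynomial.eval (M.pz y) M.h‖ ^ l ≤ C * (1 + ‖M.pz y‖) ^ a)
    (hfb : ∀ y : M.Pts, 0 < g y → ‖f y‖ ^ 2 * g y * ‖MvPolynomial.eval (M.pz y) M.h‖ ^ l ≤
      C * (1 + ‖M.pz y‖) ^ a) :
    ∃ b1 b2 : M.B, b2 ≠ 0 ∧ ∀ y : M.Pts, 0 < g y → y b2 * f y = y b1 := by
  classical
  obtain ⟨ζ1, hζ1⟩ : ∃ ζ : Cn n, MvPolynomial.eval ζ M.h ≠ 0 := by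
    by_contra hcon
    push Not at hcon
    exact M.h_ne (RatLine_437.eq_zero_of_open isOpen_univ univ_nonempty (fun v _ => hcon v))
  obtain ⟨z0, h0, hgood⟩ := (dense_good M hg hd hζ1).exists
  have hln0 : ∀ v, ln z0 v 0 = z0 := fun v => by simp [ln]
  have hS : ∀ k, ∃ P Q : MvPolynomial (Fin n) ℂ, Q ≠ 0 ∧
      ∀ ζ, MvPolynomial.eval ζ M.h ≠ 0 → (∀ y : Fib M.z ζ, 0 < g y.1) →
        MvPolynomial.eval ζ Q * S M f k ζ = MvPolynomial.eval ζ P := by
    intro k
    have hline := fun v => rational_line M hg hg0 hpsh hf hgb hfb k h0 hgood v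
    have hnear : ∀ v : Cn n, ∀ᶠ t in 𝓝 (0 : ℂ), MvPolynomial.eval (ln z0 v t) M.h ≠ 0 ∧
        ∀ y : Fib M.z (ln z0 v t), 0 < g y.1 := by
      intro v
      have h1 := (analyticAt_ln z0 v 0).continuousAt
      rw [ContinuousAt, hln0 v] at h1
      exact h1.eventually (eventually_good M hg h0 hgood)
    obtain ⟨P, Q, hQ, hPQ⟩ := RatLine_437.rational_of_lines (f := S M f k) (z0 := z0)
      (analyticAt_S M hf k h0 hgood) isOpen_univ univ_nonempty (by
        intro v _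
        obtain ⟨p, q, hq, h1⟩ := hline v
        refine ⟨p, q, hq, ?_⟩
        filter_upwards [hnear v] with t ht
        exact (h1 t ht.1 ht.2).2)
    refine ⟨P, Q, hQ, fun ζ hζ hy => ?_⟩
    -- the line from `z0` to `ζ`
    obtain ⟨p, q, hq, h1⟩ := hline (ζ - z0)
    have h1ζ : ln z0 (ζ - z0) 1 = ζ := by simp [ln]
    have hone := h1 1 (by rw [h1ζ]; exact hζ) (by rw [h1ζ]; exact hy)
    rw [h1ζ] at hone
    have hpoly : q * Liou_739.lpoly P z0 (ζ - z0) = Liou_739.lpoly Q z0 (ζ - z0) * p := by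
      refine Polynomial.eq_of_infinite_eval_eq _ _ ?_
      have hev : ∀ᶠ t in 𝓝 (0 : ℂ),
          MvPolynomial.eval (ln z0 (ζ - z0) t) Q * S M f k (ln z0 (ζ - z0) t) =
            MvPolynomial.eval (ln z0 (ζ - z0) t) P := by
        have h2 := (analyticAt_ln z0 (ζ - z0) 0).continuousAt
        rw [ContinuousAt, hln0] at h2
        exact h2.eventually hPQ
      have hmem : {t : ℂ | (q * Liou_739.lpoly P z0 (ζ - z0)).eval t =
          (Liou_739.lpoly Q z0 (ζ - z0) * p).eval t} ∈ 𝓝 (0 : ℂ) := by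
        filter_upwards [hnear (ζ - z0), hev] with t ht1 ht2
        have h3 := (h1 t ht1.1 ht1.2).2
        simp only [Polynomial.eval_mul, Liou_739.lpoly_eval]
        rw [← h3]
        have h4 : MvPolynomial.eval (z0 + t • (ζ - z0)) P =
            MvPolynomial.eval (z0 + t • (ζ - z0)) Q * S M f k (z0 + t • (ζ - z0)) := ht2.symm
        rw [h4]
        simp only [ln]
        ring
      exact infinite_of_mem_nhds 0 hmem
    have h2 := congrArg (Polynomial.eval 1) hpoly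
    simp only [Polynomial.eval_mul, Liou_739.lpoly_eval] at h2
    have h3 : z0 + (1 : ℂ) • (ζ - z0) = ζ := h1ζ
    rw [h3, ← hone.2] at h2
    have h4 : q.eval 1 * (MvPolynomial.eval ζ Q * S M f k ζ - MvPolynomial.eval ζ P) = 0 := by
      linear_combination -h2
    exact sub_eq_zero.1 ((mul_eq_zero.1 h4).resolve_left hone.1)
  choose P Q hQ hPQ using hS
  set N := (qq M.z M.θ M.μ).natDegree + 1 with hN
  set R := Finset.range N with hR
  let az : MvPolynomial (Fin n) ℂ → M.B := fun p => MvPolynomial.aeval M.z p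
  refine ⟨∑ k ∈ R, MvPolynomial.aeval M.z (P k * ∏ j ∈ R.erase k, Q j) * M.θ ^ k,
    MvPolynomial.aeval M.z (∏ j ∈ R, Q j) * dd M.z M.θ M.μ, ?_, ?_⟩
  · refine mul_ne_zero ?_ M.fd.der
    intro h
    have h1 : (∏ j ∈ R, Q j) = 0 := by
      apply M.az_injective
      rw [map_zero]
      exact h
    rw [Finset.prod_eq_zero_iff] at h1
    obtain ⟨j, _, hj⟩ := h1
    exact hQ j hj
  · -- the identity over good base points
    have hgoodid : ∀ y : M.Pts, (∀ y' : Fib M.z (M.pz y), 0 < g y'.1) →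
        y (MvPolynomial.aeval M.z (∏ j ∈ R, Q j) * dd M.z M.θ M.μ) * f y =
          y (∑ k ∈ R, MvPolynomial.aeval M.z (P k * ∏ j ∈ R.erase k, Q j) * M.θ ^ k) := by
      intro y hy
      have hζ := M.eval_h_ne y
      have h1 := interp M.fd f hζ y (fun _ => rfl)
      have h2 : ∀ p : MvPolynomial (Fin n) ℂ, y (MvPolynomial.aeval M.z p) =
          MvPolynomial.eval (M.pz y) p := fun p => comp_aeval' y p
      rw [map_mul, h2, map_sum]
      have h3 : MvPolynomial.eval (M.pz y) (∏ j ∈ R, Q j) * y (dd M.z M.θ M.μ) * f y =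
          MvPolynomial.eval (M.pz y) (∏ j ∈ R, Q j) * (f y * y (dd M.z M.θ M.μ)) := by ring
      rw [h3, h1, Finset.mul_sum]
      refine Finset.sum_congr rfl fun k hk => ?_
      rw [map_mul, map_pow, h2, map_mul, ← Finset.mul_prod_erase R Q hk, map_mul]
      have h4 : MvPolynomial.eval (M.pz y) (Q k) * HH M.z M.θ M.μ M.h f k (M.pz y) =
          MvPolynomial.eval (M.pz y) (P k) := hPQ k (M.pz y) hζ hy
      rw [← h4]
      ring
    intro y1 hy1
    by_contra hne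
    set e := ch y1 with he
    set b2 : M.B := MvPolynomial.aeval M.z (∏ j ∈ R, Q j) * dd M.z M.θ M.μ with hb2
    set b1 : M.B := ∑ k ∈ R, MvPolynomial.aeval M.z (P k * ∏ j ∈ R.erase k, Q j) * M.θ ^ k with hb1
    have hcont : ContinuousAt (fun ζ => (e.symm ζ : M.Pts) b2 * f (e.symm ζ) - (e.symm ζ : M.Pts) b1)
        (cp y1) :=
      ((analyticAt_ev M b2 y1).continuousAt.mul (hf y1 hy1).continuousAt).sub
        (analyticAt_ev M b1 y1).continuousAt
    have hsy : e.symm (cp y1) = y1 := (isCh_ch y1).symm_cp (mem_ch y1)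
    have hev : ∀ᶠ ζ in 𝓝 (cp y1),
        (e.symm ζ : M.Pts) b2 * f (e.symm ζ) - (e.symm ζ : M.Pts) b1 ≠ 0 := by
      refine hcont.eventually_ne ?_
      rw [hsy]
      exact sub_ne_zero.2 hne
    have hev2 : ∀ᶠ ζ in 𝓝 (cp y1), cp (e.symm ζ : M.Pts) = ζ := by
      filter_upwards [e.open_target.mem_nhds ((isCh_ch y1).cp_mem (mem_ch y1))] with ζ hζ
      exact (isCh_ch y1).cp_symm hζ
    obtain ⟨ζ, hζ1, hζ2, hζ3⟩ := ((dense_good M hg hd (M.eval_h_ne y1)).and_eventually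
      (hev.and hev2)).exists
    apply hζ2
    rw [hgoodid (e.symm ζ), sub_self]
    intro y'
    have h5 : M.pz (e.symm ζ) = ζ := hζ3
    have h6 := hζ1.2 ⟨y'.1, fun i => by rw [y'.2 i, h5]⟩
    exact h6

end mdl

end Crest.Agent.R276.RatMod_437
end
end

-- ▼ part R276/ZS_437

/-!
# Row 276, ALG-FOL (helper437): zero sets of smooth log-psh functions of algebraic growth

`M : Mdl K n`, `g : M.Pts → ℝ` smooth, `≥ 0`, `|∂g|² ≤ g ∂∂̄g` (i.e. `log g` psh), of polynomial growth,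
not identically zero.  Then

* `exists_sigma` : there is `σ ∈ B`, `σ ≠ 0`, vanishing on `{g = 0}`;
* `exists_poly` : there is `p ≠ 0` with `g y = 0 → p (z y) = 0`;
* `dense_pos` : `{g > 0}` is dense.
-/

set_option autoImplicit false

noncomputable section

open Set Filter Topology MeasureTheory Metric
open scoped ENNReal

namespace Crest.Agent.R276.ZS_437

open Crest.Agent.R271 Crest.Agent.R271.Defs710 Crest.Agent.R271.Rd692
open Crest.Agent.R271.AlgB956 Crest.Agent.R271.Ho51 Crest.Agent.R271.W792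
open Crest.Agent.R271.Alg255 Crest.Agent.R276.AB2_590
open Crest.Agent.R276.Mod1_987 Crest.Agent.R276.CntLowD_804 Crest.Agent.R276.CntLow2_804

section form

variable {n : ℕ} {M : Type*} [TopologicalSpace M] [RDom n M]

lemma D_mulR' {f g : M → ℝ} (hf : Sm f) (hg : Sm g) (x : M) (v : Fin n → ℂ) :
    D (fun x => f x * g x) x v = D f x v * g x + f x * D g x v := by
  have := D_smul (G := ℝ) hf hg x v
  simp only [smul_eq_mul] at this
  exact this

lemma dsq_mul {f g : M → ℝ} (hf : Sm f) (hg : Sm g) (x : M) (w : Fin n → ℂ) :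
    dsq (fun x => f x * g x) x w = g x ^ 2 * dsq f x w + f x ^ 2 * dsq g x w +
      2 * f x * g x * ((1 / 4) * (D f x w * D g x w +
        D f x (Complex.I • w) * D g x (Complex.I • w))) := by
  unfold dsq
  rw [D_mulR' hf hg, D_mulR' hf hg]
  ring

lemma lev_mul {f g : M → ℝ} (hf : Sm f) (hg : Sm g) (x : M) (w : Fin n → ℂ) :
    lev (fun x => f x * g x) x w = g x * lev f x w + f x * lev g x w +
      2 * ((1 / 4) * (D f x w * D g x w +
        D f x (Complex.I • w) * D g x (Complex.I • w))) := by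
  have h : ∀ v : Fin n → ℂ, D (fun y => D (fun y => f y * g y) y v) x v =
      D (fun y => D f y v) x v * g x + f x * D (fun y => D g y v) x v +
        2 * (D f x v * D g x v) := by
    intro v
    have h1 : (fun y => D (fun y => f y * g y) y v) =
        fun y => D f y v * g y + f y * D g y v := by
      funext y
      exact D_mulR' hf hg y v
    rw [h1, D_add ((hf.D.apply v).mulR hg) (hf.mulR (hg.D.apply v)),
      _root_.add_apply, D_mulR' (hf.D.apply v) hg, D_mulR' hf (hg.D.apply v)]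
    ring
  unfold lev
  rw [h, h]
  ring

/-- defect of log plurisubharmonicity of a product -/
lemma defect_mul {f g : M → ℝ} (hf : Sm f) (hg : Sm g) (x : M) (w : Fin n → ℂ) :
    (f x * g x) * lev (fun x => f x * g x) x w - dsq (fun x => f x * g x) x w =
      g x ^ 2 * (f x * lev f x w - dsq f x w) + f x ^ 2 * (g x * lev g x w - dsq g x w) := by
  rw [dsq_mul hf hg, lev_mul hf hg]
  ring

/-- at a zero of `g ≥ 0` -/
lemma lev_nonneg_of_zero {g : M → ℝ} (hg : Sm g) (hg0 : ∀ x, 0 ≤ g x) {x : M} (hx : g x = 0)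
    (w : Fin n → ℂ) : 0 ≤ lev g x w := by
  have hc : ContDiffAt ℝ 2 (g ∘ (ch x).symm) (cp x) := (hg x).of_le RatMod_437.two_le_top
  have h0 : (g ∘ (ch x).symm) (cp x) = 0 := by
    simp only [Function.comp_apply]
    rw [(isCh_ch x).symm_cp (mem_ch x), hx]
  have key : ∀ v : Fin n → ℂ, 0 ≤ D (fun y => D g y v) x v := by
    intro v
    rw [RatMod_437.D_D hg]
    have h1 : ContDiffAt ℝ 2 (fun z => -(g ∘ (ch x).symm) z) (cp x) := hc.neg
    have h2 : IsLocalMax (fun z => -(g ∘ (ch x).symm) z) (cp x) := by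
      refine Eventually.of_forall fun z => ?_
      have h3 : 0 ≤ (g ∘ (ch x).symm) z := hg0 _
      show -(g ∘ (ch x).symm) z ≤ -(g ∘ (ch x).symm) (cp x)
      rw [h0]
      linarith
    have h3 := Ahl_25.snd_nonpos_of_isLocalMax h1 h2 v
    have h4 : fderiv ℝ (fderiv ℝ (fun z => -(g ∘ (ch x).symm) z)) (cp x) v v =
        -(fderiv ℝ (fderiv ℝ (g ∘ (ch x).symm)) (cp x) v v) := by
      have h5 : fderiv ℝ (fun z => -(g ∘ (ch x).symm) z) =
          fun z => -(fderiv ℝ (g ∘ (ch x).symm) z) := by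
        funext z
        exact fderiv_fun_neg
      rw [h5, fderiv_fun_neg]
      rfl
    rw [h4] at h3
    linarith
  unfold lev
  have := key w
  have := key (Complex.I • w)
  linarith

/-- first derivative at a zero -/
lemma dsq_of_zero {g : M → ℝ} (hg0 : ∀ x, 0 ≤ g x) {x : M} (hx : g x = 0)
    (w : Fin n → ℂ) : dsq g x w = 0 := by
  have h0 : (g ∘ (ch x).symm) (cp x) = 0 := by
    simp only [Function.comp_apply]
    rw [(isCh_ch x).symm_cp (mem_ch x), hx]
  have h1 : D g x = 0 := by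
    show fderiv ℝ (g ∘ (ch x).symm) (cp x) = 0
    apply IsLocalMin.fderiv_eq_zero
    refine Eventually.of_forall fun z => ?_
    have h3 : 0 ≤ (g ∘ (ch x).symm) z := hg0 _
    rw [h0]
    exact h3
  unfold dsq
  rw [h1]
  simp

lemma lev_nonneg {g : M → ℝ} (hg : Sm g) (hg0 : ∀ x, 0 ≤ g x)
    (hE : ∀ x, 0 < g x → ∀ w, dsq g x w ≤ g x * lev g x w) (x : M) (w : Fin n → ℂ) :
    0 ≤ lev g x w := by
  rcases (hg0 x).eq_or_lt with h | h
  · exact lev_nonneg_of_zero hg hg0 h.symm w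
  · have h1 := hE x h w
    have h2 := dsq_nonneg g x w
    by_contra hc
    push Not at hc
    nlinarith

lemma defect_nonneg {g : M → ℝ} (hg0 : ∀ x, 0 ≤ g x)
    (hE : ∀ x, 0 < g x → ∀ w, dsq g x w ≤ g x * lev g x w) (x : M) (w : Fin n → ℂ) :
    dsq g x w ≤ g x * lev g x w := by
  rcases (hg0 x).eq_or_lt with h | h
  · rw [dsq_of_zero hg0 h.symm, ← h, zero_mul]
  · exact hE x h w

/-- the form `|∂g|² ≤ g ∂∂̄g` from `Levi (log g) ≥ 0` -/
lemma defect_of_Levi {g : M → ℝ} (hg : Sm g) {x : M} (hx : 0 < g x) {w : Fin n → ℂ}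
    (h : 0 ≤ Levi (fun y => Real.log (g y)) x w) : dsq g x w ≤ g x * lev g x w := by
  set J : ℝ := 1 - Real.log (g x / 2) with hJ
  have hJ1 : Real.exp (-J + 1) = g x / 2 := by
    rw [show -J + 1 = Real.log (g x / 2) by rw [hJ]; ring, Real.exp_log (by linarith)]
  have hev : ∀ᶠ t in 𝓝 (g x), NL_137.VL J t = Real.log t := by
    filter_upwards [lt_mem_nhds (show g x / 2 < g x by linarith)] with t ht
    exact NL_137.VL_large J (by rw [hJ1]; exact ht.le)
  have hs : Sm (fun y => NL_137.VL J (g y)) := Sm.comp (NL_137.VL_contDiff J) hg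
  have hcd : ContDiff ℝ (⊤ : ℕ∞) (deriv (NL_137.VL J)) :=
    ((contDiff_infty_iff_deriv).1 (NL_137.VL_contDiff J)).2
  have hs' : Sm (fun y => deriv (NL_137.VL J) (g y)) := Sm.comp hcd hg
  have h1 : (fun y => Real.log (g y)) =ᶠ[𝓝 x] fun y => NL_137.VL J (g y) := by
    filter_upwards [hg.continuous.continuousAt.eventually hev] with y hy
    exact hy.symm
  rw [NL_137.Levi_congr h1, Levi_eq_lev hs] at h
  have hd : ∀ᶠ t in 𝓝 (g x), HasDerivAt (NL_137.VL J) (deriv (NL_137.VL J) t) t :=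
    Eventually.of_forall fun t =>
      ((NL_137.VL_contDiff J).differentiable (by simp) t).hasDerivAt
  have hev2 : deriv (NL_137.VL J) =ᶠ[𝓝 (g x)] fun t => t⁻¹ := by
    have h2 : NL_137.VL J =ᶠ[𝓝 (g x)] Real.log := hev
    filter_upwards [h2.eventuallyEq_nhds] with t ht
    rw [ht.deriv_eq, Real.deriv_log]
  have hd2 : HasDerivAt (deriv (NL_137.VL J)) (-(g x ^ 2)⁻¹) (g x) :=
    (hasDerivAt_inv hx.ne').congr_of_eventuallyEq hev2
  have h3 := lev_comp hg x hd hd2 w hs'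
  have h4 : deriv (NL_137.VL J) (g x) = (g x)⁻¹ := hev2.self_of_nhds
  rw [h3, h4] at h
  have h5 : 0 < g x ^ 2 := by positivity
  have h6 : 0 ≤ g x ^ 2 * (-(g x ^ 2)⁻¹ * dsq g x w + (g x)⁻¹ * lev g x w) :=
    mul_nonneg h5.le h
  have h7 : g x ^ 2 * (-(g x ^ 2)⁻¹ * dsq g x w + (g x)⁻¹ * lev g x w) =
      g x * lev g x w - dsq g x w := by
    field_simp
    ring
  linarith

end form

/-! ### a smooth nonnegative function is quadratically small near a zero -/

lemma quad {E : Type*} [NormedAddCommGroup E] [NormedSpace ℝ E] {u : E → ℝ} {a : E}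
    (hu : ContDiffAt ℝ 2 u a) (h0 : u a = 0) (hm : ∀ z, 0 ≤ u z) :
    ∃ C r : ℝ, 0 < C ∧ 0 < r ∧ ∀ z ∈ ball a r, u z ≤ C * ‖z - a‖ ^ 2 := by
  have hd : fderiv ℝ u a = 0 :=
    IsLocalMin.fderiv_eq_zero (Eventually.of_forall fun z => by rw [h0]; exact hm z)
  have h1 : ContDiffAt ℝ 1 (fderiv ℝ u) a := hu.fderiv_right (by norm_num)
  obtain ⟨K, t, ht, hK⟩ := h1.exists_lipschitzOnWith
  have h2 : ∀ᶠ z in 𝓝 a, DifferentiableAt ℝ u z := by
    filter_upwards [hu.eventually (by simp)] with z hz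
    exact hz.differentiableAt (by norm_num)
  obtain ⟨r, hr, hb⟩ := Metric.mem_nhds_iff.1 (Filter.inter_mem ht h2)
  refine ⟨K + 1, r, by positivity, hr, fun z hz => ?_⟩
  have hat : a ∈ t := mem_of_mem_nhds ht
  have hseg : ∀ x ∈ closedBall a ‖z - a‖, ‖fderiv ℝ u x‖ ≤ K * ‖z - a‖ := by
    intro x hx
    have hzr : ‖z - a‖ < r := by rwa [mem_ball, dist_eq_norm] at hz
    have hxr : x ∈ ball a r := closedBall_subset_ball hzr hx
    have h3 := hK.dist_le_mul x (hb hxr).1 a hat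
    rw [hd, dist_zero_right] at h3
    refine h3.trans ?_
    gcongr
    exact mem_closedBall.1 hx
  have hconv : Convex ℝ (closedBall a ‖z - a‖) := convex_closedBall _ _
  have h4 := hconv.norm_image_sub_le_of_norm_fderiv_le (𝕜 := ℝ) (f := u)
    (fun x hx => (hb (closedBall_subset_ball (by rwa [mem_ball, dist_eq_norm] at hz) hx)).2)
    hseg (mem_closedBall_self (norm_nonneg _)) (y := z)
    (by rw [mem_closedBall, dist_eq_norm])
  rw [h0, sub_zero, Real.norm_eq_abs] at h4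
  have h5 := le_abs_self (u z)
  have h6 : K * ‖z - a‖ * ‖z - a‖ ≤ (K + 1) * ‖z - a‖ ^ 2 := by
    nlinarith [sq_nonneg ‖z - a‖]
  linarith

/-! ### existence -/

section mdl

variable {K : Type} [Field K] [Algebra ℂ K] {n : ℕ} (M : Mdl K n)

/-- `1 + |z|²` -/
def qq (y : M.Pts) : ℝ := 1 + nS (fun (i : Fin n) (y : M.Pts) => y (M.z i)) y

lemma qq_pos (y : M.Pts) : 1 ≤ qq M y := by
  unfold qq
  have := nS_nonneg (fun (i : Fin n) (y : M.Pts) => y (M.z i)) y
  linarith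

lemma sm_qq : Sm (qq M) := (Sm.const 1).add (sm_nS fun i => (M.hol792_ev (M.z i)).sm)

lemma qq_eq (y : M.Pts) : qq M y = 1 + ∑ i, ‖y (M.z i)‖ ^ 2 := rfl

lemma D_z (i : Fin n) (y : M.Pts) (w : Fin n → ℂ) :
    D (fun y : M.Pts => y (M.z i)) y w = w i := G792.D_coord (M := M.Pts) i y w

lemma lev_qq (y : M.Pts) (w : Fin n → ℂ) : lev (qq M) y w = nsq w := by
  unfold qq
  rw [lev_add (Sm.const 1) (sm_nS fun i => (M.hol792_ev (M.z i)).sm), lev_const,
    lev_nS (fun i => M.hol792_ev (M.z i))]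
  unfold nT nsq
  simp only [D_z, zero_add]

lemma dsq_qq_le (y : M.Pts) (w : Fin n → ℂ) : dsq (qq M) y w ≤ (qq M y - 1) * nsq w := by
  have h1 : dsq (qq M) y w = dsq (nS (fun (i : Fin n) (y : M.Pts) => y (M.z i))) y w := by
    unfold dsq
    have h2 : D (qq M) y = D (nS (fun (i : Fin n) (y : M.Pts) => y (M.z i))) y := by
      unfold qq
      rw [D_add (Sm.const 1) (sm_nS fun i => (M.hol792_ev (M.z i)).sm), D_const, zero_add]
    rw [h2]
  rw [h1]
  have h3 := CntLowA_804.dsq_nS_le (f := fun (i : Fin n) (y : M.Pts) => y (M.z i))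
    (fun i => (M.hol792_ev (M.z i)).sm) (x := y)
    (fun i => Eventually.of_forall fun y w => (M.hol792_ev (M.z i)).cl y w) w
  refine h3.trans (le_of_eq ?_)
  unfold qq nT nsq
  simp only [D_z]
  ring

lemma norm_le_qq (y : M.Pts) : 1 + ‖M.pz y‖ ≤ 2 * qq M y := by
  have h1 : ‖M.pz y‖ ^ 2 ≤ ∑ i, ‖y (M.z i)‖ ^ 2 := by
    have h5 : ‖M.pz y‖ ≤ Real.sqrt (∑ i, ‖y (M.z i)‖ ^ 2) := by
      rw [pi_norm_le_iff_of_nonneg (Real.sqrt_nonneg _)]
      intro i
      apply Real.le_sqrt_of_sq_le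
      exact Finset.single_le_sum (f := fun i => ‖y (M.z i)‖ ^ 2) (fun _ _ => by positivity)
        (Finset.mem_univ i)
    calc ‖M.pz y‖ ^ 2 ≤ (Real.sqrt (∑ i, ‖y (M.z i)‖ ^ 2)) ^ 2 := by gcongr
      _ = _ := Real.sq_sqrt (Finset.sum_nonneg fun _ _ => by positivity)
  rw [qq_eq]
  nlinarith [sq_nonneg (‖M.pz y‖ - 1)]

/-- growth of `h` -/
lemma growth_h : ∃ (C : ℝ) (k : ℕ), 0 ≤ C ∧ ∀ y : M.Pts,
    ‖MvPolynomial.eval (M.pz y) M.h‖ ≤ C * qq M y ^ k := by
  have hp : PG M.z (az M.z M.h) := by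
    apply PG.adjoin
    rw [Algebra.adjoin_range_eq_range_aeval]
    exact ⟨M.h, rfl⟩
  obtain ⟨C, k, hC, h⟩ := hp
  refine ⟨C, k, hC, fun y => ?_⟩
  have := h y
  rw [M.apply_az'] at this
  exact this

lemma weight_ge {g : M.Pts → ℝ} (hg0 : ∀ y, 0 ≤ g y) {C : ℝ} {a l : ℕ}
    (hgr : ∀ y : M.Pts, g y * ‖MvPolynomial.eval (M.pz y) M.h‖ ^ l ≤ C * (1 + ‖M.pz y‖) ^ a)
    (N : ℕ) : ∃ (c : ℝ) (A B : ℕ), 0 < c ∧ ∀ y : M.Pts,
      ENNReal.ofReal (c * ‖y (az M.z M.h)‖ ^ (2 * A) / (1 + ∑ i, ‖y (M.z i)‖ ^ 2) ^ B) ≤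
        ((ENNReal.ofReal (g y * qq M y))⁻¹) ^ N := by
  obtain ⟨Ch, k, hCh, hh⟩ := growth_h M
  set C' : ℝ := (|C| + 1) * 2 ^ a * (Ch + 1) ^ l with hC'
  have hC'0 : 0 < C' := by positivity
  refine ⟨(C' ^ N)⁻¹, l * N, (a + k * l + 1) * N, by positivity, fun y => ?_⟩
  have hq := qq_pos M y
  have hq0 : 0 < qq M y := by linarith
  set H : ℝ := ‖MvPolynomial.eval (M.pz y) M.h‖ with hH
  have hH0 : 0 ≤ H := norm_nonneg _
  have h1 : g y * qq M y * H ^ (2 * l) ≤ C' * qq M y ^ (a + k * l + 1) := by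
    have h2 : g y * H ^ l ≤ (|C| + 1) * (2 * qq M y) ^ a := by
      refine (hgr y).trans ?_
      have h3 : (1 + ‖M.pz y‖) ^ a ≤ (2 * qq M y) ^ a := by
        have := norm_le_qq M y
        gcongr
      have h4 : C ≤ |C| + 1 := by have := le_abs_self C; linarith
      calc C * (1 + ‖M.pz y‖) ^ a ≤ (|C| + 1) * (1 + ‖M.pz y‖) ^ a := by gcongr
        _ ≤ _ := by gcongr
    have h5 : H ^ l ≤ ((Ch + 1) * qq M y ^ k) ^ l := by
      have := hh y
      have h6 : Ch * qq M y ^ k ≤ (Ch + 1) * qq M y ^ k := by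
        gcongr
        linarith
      gcongr
      linarith
    calc g y * qq M y * H ^ (2 * l) = (g y * H ^ l) * H ^ l * qq M y := by ring
      _ ≤ ((|C| + 1) * (2 * qq M y) ^ a) * ((Ch + 1) * qq M y ^ k) ^ l * qq M y := by
          have := hg0 y
          gcongr
      _ = C' * qq M y ^ (a + k * l + 1) := by
          rw [hC', mul_pow, mul_pow (Ch + 1), ← pow_mul, pow_succ, pow_add]
          ring
  have h6 : y (az M.z M.h) = MvPolynomial.eval (M.pz y) M.h := M.apply_az' y _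
  rw [h6, ← qq_eq M y]
  have h7 : (C' ^ N)⁻¹ * ‖MvPolynomial.eval (M.pz y) M.h‖ ^ (2 * (l * N)) /
      qq M y ^ ((a + k * l + 1) * N) =
      (H ^ (2 * l) / (C' * qq M y ^ (a + k * l + 1))) ^ N := by
    have e1 : (C' * qq M y ^ (a + k * l + 1)) ^ N = C' ^ N * qq M y ^ ((a + k * l + 1) * N) := by
      rw [mul_pow, ← pow_mul]
    rw [div_pow, e1, ← pow_mul, ← hH, show 2 * (l * N) = 2 * l * N by ring]
    clear_value C'
    field_simp
  rw [h7, ENNReal.ofReal_pow (by positivity)]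
  gcongr
  rw [ENNReal.le_inv_iff_mul_le, ← ENNReal.ofReal_mul (by positivity)]
  refine ENNReal.ofReal_le_one.2 ?_
  rw [div_mul_eq_mul_div, div_le_one (by positivity)]
  calc H ^ (2 * l) * (g y * qq M y) = g y * qq M y * H ^ (2 * l) := by ring
    _ ≤ _ := h1

/-- vanishing at a zero of `g` -/
lemma vanish {μ : Measure M.Pts} (hμ : IsLeb μ) {g : M.Pts → ℝ} (hg : Sm g)
    (hg0 : ∀ y, 0 ≤ g y) {F : M.Pts → ℂ} (hF : Ho51.Hol F) {N : ℕ} (hN : n < N)
    (hint : ∫⁻ x, ENNReal.ofReal (‖F x‖ ^ 2) *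
      ((ENNReal.ofReal (g x * qq M x))⁻¹) ^ N ∂μ < ⊤) {y : M.Pts} (hy : g y = 0) : F y = 0 := by
  set e := ch y with he
  have hye : y ∈ e.source := mem_ch y
  have hzt : cp y ∈ e.target := (isCh_ch y).cp_mem hye
  have hes : e.symm (cp y) = y := (isCh_ch y).symm_cp hye
  -- bounds near `y`
  have hc : ContDiffAt ℝ 2 (g ∘ e.symm) (cp y) := (hg y).of_le RatMod_437.two_le_top
  obtain ⟨A, r1, hA, hr1, hquad⟩ := quad hc (by simp only [Function.comp_apply]; rw [hes, hy])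
    (fun z => hg0 _)
  have hqc : ContinuousAt (fun z => qq M (e.symm z)) (cp y) := by
    have h1 : ContinuousAt (qq M) (e.symm (cp y)) := (sm_qq M).continuous.continuousAt
    exact ContinuousAt.comp (g := qq M) h1 (e.continuousAt_symm hzt)
  have hq1 : ∀ᶠ z in 𝓝 (cp y), qq M (e.symm z) < qq M y + 1 := by
    refine hqc.eventually (gt_mem_nhds ?_)
    show qq M (e.symm (cp y)) < qq M y + 1
    rw [hes]; linarith
  obtain ⟨r2, hr2, hb2⟩ := Metric.mem_nhds_iff.1
    (Filter.inter_mem hq1 (e.open_target.mem_nhds hzt))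
  set R : ℝ := min r1 r2 with hR
  have hR0 : 0 < R := lt_min hr1 hr2
  have hq0 : 0 < qq M y + 1 := by have := qq_pos M y; linarith
  -- measurability
  have hFc : Continuous F := CntLowE_804.hol_continuous hF
  have hmeas : Measurable (fun x => ENNReal.ofReal (‖F x‖ ^ 2) *
      ((ENNReal.ofReal (g x * qq M x))⁻¹) ^ N) := by
    apply Measurable.mul
    · exact (hFc.norm.pow 2).measurable.ennreal_ofReal
    · exact ((hg.continuous.mul (sm_qq M).continuous).measurable.ennreal_ofReal.inv).pow_const _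
  have hchart := lintegral_chart hμ (isCh_ch y) (f := fun x => ENNReal.ofReal (‖F x‖ ^ 2) *
      ((ENNReal.ofReal (g x * qq M x))⁻¹) ^ N) hmeas.aemeasurable
  have hT : ∫⁻ z in e.target, ENNReal.ofReal (‖F (e.symm z)‖ ^ 2) *
      ((ENNReal.ofReal (g (e.symm z) * qq M (e.symm z)))⁻¹) ^ N ≤
      ∫⁻ x, ENNReal.ofReal (‖F x‖ ^ 2) * ((ENNReal.ofReal (g x * qq M x))⁻¹) ^ N ∂μ := by
    rw [← hchart]
    exact setLIntegral_le_lintegral _ _
  have hfd : DifferentiableOn ℂ (F ∘ e.symm) (ball (cp y) R) :=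
    (hF e (isCh_ch y)).mono fun z hz =>
      (hb2 (ball_subset_ball (min_le_right _ _) hz)).2
  obtain ⟨C, hC⟩ := CntLowC_804.order_of_decay (p := N) hfd hN (A := A * (qq M y + 1)) (R' := R)
    (by positivity) hR0 le_rfl hint (fun s hs hsR => by
      have hsub : closedBall (cp y) s ⊆ ball (cp y) R := closedBall_subset_ball hsR
      calc ∫⁻ z in closedBall (cp y) s, ‖(F ∘ e.symm) z‖ₑ ^ 2
          ≤ ∫⁻ z in closedBall (cp y) s, ENNReal.ofReal ((A * (qq M y + 1) * s ^ 2) ^ N) *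
              (ENNReal.ofReal (‖F (e.symm z)‖ ^ 2) *
                ((ENNReal.ofReal (g (e.symm z) * qq M (e.symm z)))⁻¹) ^ N) := by
            refine setLIntegral_mono' measurableSet_closedBall fun z hz => ?_
            have hzR := hsub hz
            have h1 : g (e.symm z) ≤ A * s ^ 2 := by
              refine (hquad z (ball_subset_ball (min_le_left _ _) hzR)).trans ?_
              have h2 : ‖z - cp y‖ ≤ s := by rw [← dist_eq_norm]; exact hz
              gcongr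
            have h2 : qq M (e.symm z) ≤ qq M y + 1 :=
              (hb2 (ball_subset_ball (min_le_right _ _) hzR)).1.le
            have h3 : g (e.symm z) * qq M (e.symm z) ≤ A * (qq M y + 1) * s ^ 2 := by
              calc g (e.symm z) * qq M (e.symm z) ≤ (A * s ^ 2) * (qq M y + 1) := by
                    have := hg0 (e.symm z)
                    have := qq_pos M (e.symm z)
                    gcongr
                _ = _ := by ring
            have h4 : (1 : ℝ≥0∞) ≤ ENNReal.ofReal ((A * (qq M y + 1) * s ^ 2) ^ N) *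
                ((ENNReal.ofReal (g (e.symm z) * qq M (e.symm z)))⁻¹) ^ N := by
              rw [ENNReal.ofReal_pow (by positivity), ← mul_pow]
              refine one_le_pow₀ ?_
              have h5 : ENNReal.ofReal (g (e.symm z) * qq M (e.symm z)) ≤
                  ENNReal.ofReal (A * (qq M y + 1) * s ^ 2) := ENNReal.ofReal_le_ofReal h3
              have h6 : ENNReal.ofReal (A * (qq M y + 1) * s ^ 2) ≠ 0 := by
                rw [Ne, ENNReal.ofReal_eq_zero, not_le]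
                positivity
              calc (1 : ℝ≥0∞) = ENNReal.ofReal (A * (qq M y + 1) * s ^ 2) *
                    (ENNReal.ofReal (A * (qq M y + 1) * s ^ 2))⁻¹ :=
                    (ENNReal.mul_inv_cancel h6 ENNReal.ofReal_ne_top).symm
                _ ≤ _ := by gcongr
            have h5 : ‖(F ∘ e.symm) z‖ₑ ^ 2 = ENNReal.ofReal (‖F (e.symm z)‖ ^ 2) := by
              rw [Function.comp_apply, ENNReal.ofReal_pow (norm_nonneg _), ofReal_norm]
            rw [h5]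
            calc ENNReal.ofReal (‖F (e.symm z)‖ ^ 2) = 1 * ENNReal.ofReal (‖F (e.symm z)‖ ^ 2) := by
                  rw [one_mul]
              _ ≤ (ENNReal.ofReal ((A * (qq M y + 1) * s ^ 2) ^ N) *
                ((ENNReal.ofReal (g (e.symm z) * qq M (e.symm z)))⁻¹) ^ N) *
                  ENNReal.ofReal (‖F (e.symm z)‖ ^ 2) := by gcongr
              _ = _ := by ring
        _ = ENNReal.ofReal ((A * (qq M y + 1) * s ^ 2) ^ N) *
            ∫⁻ z in closedBall (cp y) s, (ENNReal.ofReal (‖F (e.symm z)‖ ^ 2) *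
                ((ENNReal.ofReal (g (e.symm z) * qq M (e.symm z)))⁻¹) ^ N) :=
            lintegral_const_mul' _ _ ENNReal.ofReal_ne_top
        _ ≤ ENNReal.ofReal ((A * (qq M y + 1) * s ^ 2) ^ N) *
            ∫⁻ x, ENNReal.ofReal (‖F x‖ ^ 2) *
              ((ENNReal.ofReal (g x * qq M x))⁻¹) ^ N ∂μ := by
            gcongr
            refine le_trans ?_ hT
            refine lintegral_mono_set ?_
            exact fun z hz => (hb2 (ball_subset_ball (min_le_right _ _) (hsub hz))).2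
        _ = _ := mul_comm _ _)
  have h1 := hC.self_of_nhds
  rw [sub_self, norm_zero, zero_pow (by omega), mul_zero] at h1
  have h2 := norm_le_zero_iff.1 h1
  simp only [Function.comp_apply] at h2
  rw [hes] at h2
  exact h2

variable {M}

/-- **zero sets of smooth log-psh functions of algebraic growth are algebraic-small** -/
theorem exists_sigma {g : M.Pts → ℝ} (hg : Sm g) (hg0 : ∀ y, 0 ≤ g y)
    (hE : ∀ y, 0 < g y → ∀ w, dsq g y w ≤ g y * lev g y w) {y0 : M.Pts} (hy0 : 0 < g y0)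
    {C : ℝ} {a l : ℕ}
    (hgr : ∀ y : M.Pts, g y * ‖MvPolynomial.eval (M.pz y) M.h‖ ^ l ≤ C * (1 + ‖M.pz y‖) ^ a) :
    ∃ σ : M.B, σ ≠ 0 ∧ ∀ y : M.Pts, g y = 0 → y σ = 0 := by
  let _ : MeasurableSpace (M.B →ₐ[ℂ] ℂ) := borel _
  have _ : BorelSpace (M.B →ₐ[ℂ] ℂ) := ⟨rfl⟩
  obtain ⟨ρ, hρ, hcpt, hL⟩ := M.exists_rho
  obtain ⟨μ, hμ⟩ := M.exists_leb
  -- the chart
  set e := ch y0 with he
  have hye : y0 ∈ e.source := mem_ch y0
  have hzt : cp y0 ∈ e.target := (isCh_ch y0).cp_mem hye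
  have hes : e.symm (cp y0) = y0 := (isCh_ch y0).symm_cp hye
  have hgc : ContinuousAt (fun z => g (e.symm z)) (cp y0) := by
    have h1 : ContinuousAt g (e.symm (cp y0)) := hg.continuous.continuousAt
    exact ContinuousAt.comp (g := g) h1 (e.continuousAt_symm hzt)
  have hqc : ContinuousAt (fun z => qq M (e.symm z)) (cp y0) := by
    have h1 : ContinuousAt (qq M) (e.symm (cp y0)) := (sm_qq M).continuous.continuousAt
    exact ContinuousAt.comp (g := qq M) h1 (e.continuousAt_symm hzt)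
  have hg1 : ∀ᶠ z in 𝓝 (cp y0), g y0 / 2 < g (e.symm z) := by
    refine hgc.eventually (lt_mem_nhds ?_)
    show g y0 / 2 < g (e.symm (cp y0))
    rw [hes]; linarith
  have hq1 : ∀ᶠ z in 𝓝 (cp y0), qq M (e.symm z) < qq M y0 + 1 := by
    refine hqc.eventually (gt_mem_nhds ?_)
    show qq M (e.symm (cp y0)) < qq M y0 + 1
    rw [hes]; linarith
  obtain ⟨r, hr, hb⟩ := Metric.mem_nhds_iff.1
    (Filter.inter_mem (Filter.inter_mem hg1 hq1) (e.open_target.mem_nhds hzt))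
  let S : LD n 0 M.Pts :=
    { e := e
      he := isCh_ch y0
      z0 := cp y0
      r := r
      hr := hr
      hB := fun z hz => (hb hz).2
      β := fun _ => 0
      hβ := differentiableOn_const _ }
  have hq0 : 0 < qq M y0 + 1 := by have := qq_pos M y0; linarith
  set E : M.Pts → ℝ := fun y => g y * qq M y with hEdef
  have hEs : Sm E := hg.mulR (sm_qq M)
  have hE0 : ∀ y, 0 ≤ E y := fun y => mul_nonneg (hg0 y) (by have := qq_pos M y; linarith)
  have hdef : ∀ (y : M.Pts) (w : Fin n → ℂ), g y ^ 2 * nsq w ≤ E y * lev E y w - dsq E y w := by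
    intro y w
    have h1 := defect_mul hg (sm_qq M) y w
    have h2 := defect_nonneg hg0 hE y w
    have h3 := dsq_qq_le M y w
    have h4 := lev_qq M y w
    have h5 : nsq w ≤ qq M y * lev (qq M) y w - dsq (qq M) y w := by
      rw [h4]; linarith
    have h6 : 0 ≤ qq M y ^ 2 * (g y * lev g y w - dsq g y w) :=
      mul_nonneg (by positivity) (by linarith)
    have h7 : g y ^ 2 * nsq w ≤ g y ^ 2 * (qq M y * lev (qq M) y w - dsq (qq M) y w) := by
      gcongr
    have h8 : E y * lev E y w - dsq E y w = qq M y ^ 2 * (g y * lev g y w - dsq g y w) +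
        g y ^ 2 * (qq M y * lev (qq M) y w - dsq (qq M) y w) := h1
    linarith
  have hE1 : ∀ y w, dsq E y w ≤ E y * lev E y w := by
    intro y w
    have h1 := hdef y w
    have h2 : 0 ≤ g y ^ 2 * nsq w := mul_nonneg (by positivity) (nsq_nonneg w)
    linarith
  have hE2 : ∀ y w, 0 ≤ lev E y w := lev_nonneg hEs hE0 (fun y _ w => hE1 y w)
  obtain ⟨c1, hc1, N0, hN0⟩ := count_low_log (μ := μ) hμ hρ hcpt hL hEs hE0 hE1 hE2
    (ψ := fun _ => 0) (Sm.const 0)
    (fun y w => by rw [Levi_eq_lev (Sm.const 0), lev_const]) S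
    (fun v => ⟨0, Subsingleton.elim _ _⟩) (c := ((qq M y0 + 1) ^ 2)⁻¹) (e0 := g y0 / 2)
    (by positivity) (by linarith)
    (fun z hz => by
      have h1 := (hb hz).1.1
      have h2 := qq_pos M (e.symm z)
      have h3 : 0 ≤ g (e.symm z) := hg0 _
      show g y0 / 2 ≤ g (e.symm z) * qq M (e.symm z)
      have h4 : g y0 / 2 < g (e.symm z) := h1
      nlinarith)
    (fun z hz w => by
      have h1 := (hb hz).1.2
      have h2 := qq_pos M (e.symm z)
      have h3 := hdef (e.symm z) w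
      have h4 : ((qq M y0 + 1) ^ 2)⁻¹ * E (e.symm z) ^ 2 * nsq w ≤
          g (e.symm z) ^ 2 * nsq w := by
        have h5 : ((qq M y0 + 1) ^ 2)⁻¹ * E (e.symm z) ^ 2 ≤ g (e.symm z) ^ 2 := by
          rw [inv_mul_le_iff₀ (by positivity)]
          show (g (e.symm z) * qq M (e.symm z)) ^ 2 ≤ _
          rw [mul_pow, mul_comm]
          have h6 : qq M (e.symm z) < qq M y0 + 1 := h1
          gcongr
        have := nsq_nonneg w
        gcongr
      show dsq E (e.symm z) w + ((qq M y0 + 1) ^ 2)⁻¹ * E (e.symm z) ^ 2 * nsq w ≤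
        E (e.symm z) * lev E (e.symm z) w
      linarith)
    (fun z hz w => by
      rw [Levi_eq_lev (Sm.const 0), lev_const]
      simp)
  obtain ⟨ι, hι, f, hf, hfp, hcard⟩ := hN0 (max N0 (n + 2)) (le_max_left _ _) 1 le_rfl
  set N := max N0 (n + 2) with hN
  have hNn : n < N - 1 := by
    have : n + 2 ≤ N := le_max_right _ _
    omega
  have hcard' : 0 < (Fintype.card ι : ℝ) := by
    refine lt_of_lt_of_le ?_ hcard
    have : 0 < N := by omega
    positivity
  have hne : Nonempty ι := Fintype.card_pos_iff.1 (by exact_mod_cast hcard')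
  obtain ⟨i0⟩ := hne
  obtain ⟨hF, hint⟩ := hfp i0
  have hF0 : f i0 ≠ 0 := hf.ne_zero i0
  have hint' : ∫⁻ x, ENNReal.ofReal (‖f i0 x‖ ^ 2) *
      ((ENNReal.ofReal (g x * qq M x))⁻¹) ^ (N - 1) ∂μ < ⊤ := by
    refine lt_of_le_of_lt (le_of_eq ?_) hint
    refine lintegral_congr fun x => ?_
    show _ = ENNReal.ofReal (‖f i0 x‖ ^ 2 * Real.exp (-((N : ℝ) * 1 * 0))) *
      ((ENNReal.ofReal (g x * qq M x))⁻¹) ^ (N - 1)
    rw [mul_zero, neg_zero, Real.exp_zero, mul_one]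
  -- algebraicity
  obtain ⟨c, A, B, hc, hW⟩ := weight_ge M hg0 hgr (N - 1)
  have hFc : Continuous (f i0) := CntLowE_804.hol_continuous hF
  have hmeas : Measurable (fun x => ENNReal.ofReal (‖f i0 x‖ ^ 2) *
      ((ENNReal.ofReal (g x * qq M x))⁻¹) ^ (N - 1)) := by
    apply Measurable.mul
    · exact (hFc.norm.pow 2).measurable.ennreal_ofReal
    · exact ((hg.continuous.mul (sm_qq M).continuous).measurable.ennreal_ofReal.inv).pow_const _
  obtain ⟨σ, hσ⟩ := mem_of_weight M.het (holB_of_51 M.hch hF) (u := az M.z M.h) (v := 1)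
    M.h_unit.ne_zero one_ne_zero A B hc (W := fun y => ((ENNReal.ofReal (g y * qq M y))⁻¹) ^ (N - 1))
    (fun y _ => hW y) (by
      rw [M.lintM_eq hμ hmeas]
      exact hint')
  refine ⟨σ, ?_, fun y hy => ?_⟩
  · rintro rfl
    apply hF0
    funext y
    rw [hσ y, map_zero]
    rfl
  · rw [← hσ y]
    exact vanish M hμ hg hg0 hF hNn hint' hy

/-- every nonzero element of `B` divides a nonzero polynomial in the coordinates -/
theorem exists_poly_of {σ : M.B} (hσ : σ ≠ 0) : ∃ p : MvPolynomial (Fin n) ℂ, p ≠ 0 ∧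
    ∀ y : M.Pts, y σ = 0 → MvPolynomial.eval (M.pz y) p = 0 := by
  obtain ⟨p, hp, b, hb⟩ := exists_poly_dvd M.het hσ
  refine ⟨p, hp, fun y hy => ?_⟩
  rw [← M.apply_az' y p]
  have h1 : az M.z p = σ * b := hb
  rw [h1, map_mul, hy, zero_mul]

theorem exists_poly {g : M.Pts → ℝ} (hg : Sm g) (hg0 : ∀ y, 0 ≤ g y)
    (hE : ∀ y, 0 < g y → ∀ w, dsq g y w ≤ g y * lev g y w) {y0 : M.Pts} (hy0 : 0 < g y0)
    {C : ℝ} {a l : ℕ}
    (hgr : ∀ y : M.Pts, g y * ‖MvPolynomial.eval (M.pz y) M.h‖ ^ l ≤ C * (1 + ‖M.pz y‖) ^ a) :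
    ∃ p : MvPolynomial (Fin n) ℂ, p ≠ 0 ∧
      ∀ y : M.Pts, g y = 0 → MvPolynomial.eval (M.pz y) p = 0 := by
  obtain ⟨σ, hσ, h⟩ := exists_sigma hg hg0 hE hy0 hgr
  obtain ⟨p, hp, h2⟩ := exists_poly_of hσ
  exact ⟨p, hp, fun y hy => h2 y (h y hy)⟩

/-- the complement of an algebraic hypersurface is dense -/
theorem dense_poly {p : MvPolynomial (Fin n) ℂ} (hp : p ≠ 0) :
    Dense {y : M.Pts | MvPolynomial.eval (M.pz y) p ≠ 0} := by
  have h1 : Dense {ζ : Cn n | MvPolynomial.eval ζ p ≠ 0} := by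
    rw [dense_iff_inter_open]
    intro U hU hUn
    by_contra hcon
    apply hp
    refine RatLine_437.eq_zero_of_open hU hUn fun v hv => ?_
    by_contra h2
    exact hcon ⟨v, hv, h2⟩
  have h2 : IsOpenMap M.pz := (isLocalHomeomorph_pr M.hch).isOpenMap
  exact h1.preimage h2

theorem dense_pos {g : M.Pts → ℝ} (hg : Sm g) (hg0 : ∀ y, 0 ≤ g y)
    (hE : ∀ y, 0 < g y → ∀ w, dsq g y w ≤ g y * lev g y w) {y0 : M.Pts} (hy0 : 0 < g y0)
    {C : ℝ} {a l : ℕ}
    (hgr : ∀ y : M.Pts, g y * ‖MvPolynomial.eval (M.pz y) M.h‖ ^ l ≤ C * (1 + ‖M.pz y‖) ^ a) :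
    Dense {y : M.Pts | 0 < g y} := by
  obtain ⟨p, hp, h⟩ := exists_poly hg hg0 hE hy0 hgr
  refine (dense_poly hp).mono fun y hy => ?_
  exact lt_of_le_of_ne (hg0 y) fun h0 => hy (h y h0.symm)

end mdl

end Crest.Agent.R276.ZS_437
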