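import Crest.Agent.R276.PfDer2_676_Mg
import Crest.Agent.R276.PdI_571
import Crest.Agent.R276.Vert_595
import Mathlib
import Crest.Agent.R276.ZS_437
import Crest.Agent.R276.PdH_571_Mg
import Crest.Agent.R276.VPull_327
import Crest.Agent.R276.ModPack_849
import Crest.Agent.R276.RestrE_236
import Crest.Agent.R276.PdC_571
import Crest.Agent.R276.Skel_220
import Crest.Agent.R276.TrG_220
import Crest.Agent.R276.WdB_450
import Crest.Agent.R276.GrAs1_857
import Crest.Agent.R276.GoodLoc_442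
import Crest.Agent.R276.MassH_137
import Crest.Agent.R276.SkelDefs_220
import Crest.Agent.R276.DescG_327

-- ▼ part R276/Pf3_409
section

/-!
# Period fibres are algebraic, part 3 (helper409, row 276): the period field

`M : Mdl K (n+1)`, `V` a VHS on `M.Pts`, `e : Fin (n+1) ≃ α ⊕ β`, `f : α → Fin (n+1) → M.B` a frame of the
kernel of the period metric, `f i (e.symm (inl j)) = δ_ij`, and `det (gP_ββ) > 0` everywhere.

**Theorem B** (`period_field`): the field `K0` of the elements of `K` killed by all `D_{f i}` is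
algebraically closed in `K`, of transcendence degree `card β`.
-/

set_option autoImplicit false
set_option linter.unusedSectionVars false

noncomputable section

open Set Filter Topology MeasureTheory Complex Matrix
open scoped ENNReal ComplexConjugate ComplexOrder

namespace Crest.Agent.R276.Pf3_409

open Crest.Agent.R271.Ho51
open Crest.Agent.R276.Mod1_987
open Crest.Agent.R276.Pd571 Crest.Agent.R276.PdL571
open Crest.Agent.R276.Pf2_409 Crest.Agent.R276.PfDer_676 Crest.Agent.R276.Der_409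
open Crest.Agent.R276.InvV_450 Crest.Agent.R276.LsDefs_450

/-! ### transcendence degree -/

section tr

variable {K : Type} [Field K] [Algebra ℂ K] {m : ℕ} (M : Mdl K m)

theorem algInd : AlgebraicIndependent ℂ M.zK := by
  have h1 := M.aK_injective
  exact h1

theorem isAlgebraic_zK : Algebra.IsAlgebraic (Algebra.adjoin ℂ (Set.range M.zK)) K :=
  Pf1_409.isAlgebraic_adjoin M

theorem isTranscendenceBasis : IsTranscendenceBasis ℂ M.zK := by
  have := isAlgebraic_zK M
  exact (algInd M).isTranscendenceBasis_iff_isAlgebraic.2 this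

include M in
theorem trdeg_eq : Algebra.trdeg ℂ K = m := by
  rw [← (isTranscendenceBasis M).cardinalMk_eq_trdeg]
  simp

theorem eq_zero_of_basis {D : Derivation ℂ K K} {u : Set K}
    (hu : Algebra.IsAlgebraic (Algebra.adjoin ℂ u) K) (hD : ∀ x ∈ u, D x = 0) (x : K) : D x = 0 := by
  have h1 : Algebra.adjoin ℂ u ≤ (Kc D).toSubalgebra := Algebra.adjoin_le hD
  have h2 : IsAlgebraic (Kc D) x := by
    obtain ⟨p, hp, hpx⟩ := hu.isAlgebraic x
    refine ⟨p.map (Subalgebra.inclusion h1).toRingHom, ?_, ?_⟩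
    · exact (Polynomial.map_ne_zero_iff (Subalgebra.inclusion_injective h1)).2 hp
    · rw [Polynomial.aeval_def, Polynomial.eval₂_map]
      rw [Polynomial.aeval_def] at hpx
      exact hpx
  exact mem_Kc_of_isAlgebraic D h2


/-- the field of constants of a frame of derivations has transcendence degree `≤ m - card α` -/
theorem card_le {α β : Type} [Fintype α] [DecidableEq α] [Fintype β]
    (e : Fin m ≃ α ⊕ β) (f : α → Fin m → K)
    (hf1 : ∀ i j, f i (e.symm (Sum.inl j)) = if i = j then 1 else 0) (S : Set K)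
    (hS : AlgebraicIndepOn ℂ id S) (h0 : ∀ b ∈ S, ∀ i, Df M (f i) b = 0) :
    Cardinal.mk S ≤ Fintype.card β := by
  classical
  have halg : Algebra.IsAlgebraic (Algebra.adjoin ℂ (S ∪ Set.range M.zK)) K := by
    have h1 := isAlgebraic_zK M
    have h2 : Algebra.adjoin ℂ (Set.range M.zK) ≤ Algebra.adjoin ℂ (S ∪ Set.range M.zK) :=
      Algebra.adjoin_mono Set.subset_union_right
    refine ⟨fun x => ?_⟩
    obtain ⟨p, hp, hpx⟩ := h1.isAlgebraic x
    refine ⟨p.map (Subalgebra.inclusion h2).toRingHom, ?_, ?_⟩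
    · exact (Polynomial.map_ne_zero_iff (Subalgebra.inclusion_injective h2)).2 hp
    · rw [Polynomial.aeval_def, Polynomial.eval₂_map]
      rw [Polynomial.aeval_def] at hpx
      exact hpx
  obtain ⟨u, hSu, hut, hu⟩ := exists_isTranscendenceBasis_between (R := ℂ) S (S ∪ Set.range M.zK)
    Set.subset_union_left hS
  have hcu : Cardinal.mk u = m := by
    rw [hu.cardinalMk_eq_trdeg, trdeg_eq M]
  have hfin : u.Finite := by
    rw [← Cardinal.lt_aleph0_iff_set_finite, hcu]
    exact Cardinal.natCast_lt_aleph0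
  have hSfin : S.Finite := hfin.subset hSu
  set J : Set K := u \ S with hJ
  have hJfin : J.Finite := hfin.sdiff
  have hFJ : Fintype J := hJfin.fintype
  have hFS : Fintype S := hSfin.fintype
  have hFu : Fintype u := hfin.fintype
  have hcard : Fintype.card S + Fintype.card J = Fintype.card α + Fintype.card β := by
    have h1 : Fintype.card u = m := by
      have := Cardinal.mk_fintype u
      rw [hcu] at this
      exact_mod_cast this.symm
    have h2 : Fintype.card α + Fintype.card β = m := by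
      have := Fintype.card_congr e
      rw [Fintype.card_fin, Fintype.card_sum] at this
      exact this.symm
    have h3 : Fintype.card S + Fintype.card J = Fintype.card u := by
      rw [← Nat.card_eq_fintype_card, ← Nat.card_eq_fintype_card, ← Nat.card_eq_fintype_card,
        Nat.card_coe_set_eq, Nat.card_coe_set_eq, Nat.card_coe_set_eq, hJ, add_comm]
      exact Set.ncard_sdiff_add_ncard_of_subset hSu hfin
    omega
  -- the linear map
  let Φ : (α → K) →ₗ[K] (J → K) :=
    { toFun := fun c x => ∑ i, c i * Df M (f i) (x : K)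
      map_add' := fun c c' => by
        funext x
        simp only [Pi.add_apply, add_mul, Finset.sum_add_distrib]
      map_smul' := fun a c => by
        funext x
        simp only [Pi.smul_apply, smul_eq_mul, mul_assoc, Finset.mul_sum, RingHom.id_apply] }
  have hinj : Function.Injective Φ := by
    rw [injective_iff_map_eq_zero]
    intro c hc
    set g : Fin m → K := fun j => ∑ i, c i * f i j with hg
    have hD : ∀ x, Df M g x = ∑ i, c i * Df M (f i) x := by
      intro x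
      simp only [Df_apply, hg, Finset.sum_mul, Finset.mul_sum]
      rw [Finset.sum_comm]
      refine Finset.sum_congr rfl fun i _ => Finset.sum_congr rfl fun j _ => ?_
      ring
    have h1 : ∀ x ∈ u, Df M g x = 0 := by
      intro x hx
      rw [hD]
      by_cases hxS : x ∈ S
      · exact Finset.sum_eq_zero fun i _ => by rw [h0 x hxS i, mul_zero]
      · exact congrFun hc ⟨x, hx, hxS⟩
    have hua : Algebra.IsAlgebraic (Algebra.adjoin ℂ u) K := by
      have := hu.isAlgebraic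
      rwa [Subtype.range_coe] at this
    have h2 := eq_zero_of_basis hua h1
    funext i
    have h3 := h2 (M.zK (e.symm (Sum.inl i)))
    rw [Df_z, hg] at h3
    simp only [hf1, mul_ite, mul_one, mul_zero, Finset.sum_ite_eq', Finset.mem_univ,
      if_true] at h3
    exact h3
  have h4 := LinearMap.finrank_le_finrank_of_injective hinj
  rw [Module.finrank_fintype_fun_eq_card, Module.finrank_fintype_fun_eq_card] at h4
  rw [Cardinal.mk_fintype]
  have h5 : Fintype.card S ≤ Fintype.card β := by omega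
  exact_mod_cast h5

end tr

/-! ### commuting slopes -/

section comm

variable {n N w : ℕ} {K : Type} [Field K] [Algebra ℂ K] {M : Mdl K (n + 1)}
  {V : Ipc735.VHS (n + 1) (M.B →ₐ[ℂ] ℂ) N w}
  {α β : Type} [Fintype α] [DecidableEq α] [Fintype β] [DecidableEq β]
  {e : Fin (n + 1) ≃ α ⊕ β} {f : α → Fin (n + 1) → M.B}

/-- the hypotheses of growth and positivity are always satisfied -/
theorem mkSlopes (hf1 : ∀ i j, f i (e.symm (Sum.inl j)) = if i = j then 1 else 0)
    (hf0 : ∀ (y : M.B →ₐ[ℂ] ℂ) i k, ∑ j, y (f i j) * gP V y j k = 0)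
    (hpos : ∀ y, 0 < dd M V e y) : Slopes M V e f where
  f1 := hf1
  f0 := hf0
  pos := hpos
  psh := fun y v => Levi_log_minor_nonneg V (e.symm ∘ Sum.inr) (hpos y) v
  gr := by
    obtain ⟨C, a, l, hC, h⟩ := det_growth_sum M V (e.symm ∘ Sum.inr)
    exact ⟨C, l, a, hC, h⟩
  lev := by
    obtain ⟨c, hc, h⟩ := exists_levi N
    refine ⟨c, hc, fun y v b hb h0 => h _ _ _ V β (e.symm ∘ Sum.inr) y (hpos y) v b (fun j hj => ?_) h0⟩
    rcases hej : e j with i | b'
    · have : j = e.symm (Sum.inl i) := by rw [← hej, e.symm_apply_apply]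
      rw [this]; exact hb i
    · exact absurd ⟨b', by rw [Function.comp_apply, ← hej, e.symm_apply_apply]⟩ hj

/-- real directions which do not move the Hodge structure are killed by the period metric -/
theorem ker_of_TE {X : Type*} [TopologicalSpace X] {m : ℕ} [RDom m X] (V : Ipc735.VHS m X N w) {x : X}
    {v : Fin m → ℂ} (h : TE V x v = 0) (k : Fin m) : ∑ j, v j * gP V x j k = 0 := by
  rw [TE_eq_zero_iff, bf_apply] at h
  have hG := gP_transpose_posSemidef V x
  have h2 := hG.dotProduct_mulVec_nonneg v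
  have h3 : star v ⬝ᵥ ((gP V x)ᵀ *ᵥ v) = 0 := Complex.ext h ((Complex.le_def.1 h2).2).symm
  have h4 := congrFun ((hG.dotProduct_mulVec_zero_iff v).1 h3) k
  simp only [Matrix.mulVec, dotProduct, Matrix.transpose_apply, Pi.zero_apply] at h4
  rw [← h4]
  exact Finset.sum_congr rfl fun j _ => mul_comm _ _

theorem FI_empty (i₀ i₁ : Fin (n + 1)) (z : M.B →ₐ[ℂ] ℂ) :
    FI V i₀ ∅ z = FI V i₁ ∅ z := by
  funext y
  unfold FI
  congr 1
  funext i
  exact absurd i.2 (Finset.notMem_empty _)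

theorem slopes_comm (H : Slopes M V e f) (i k : α) :
    ⁅Df M (fun j => (f i j : K)), Df M (fun j => (f k j : K))⁆ = 0 := by
  refine comm_of_ker M (fun l => e.symm (Sum.inl l)) f H.f1
    (fun x v => ∀ k, ∑ j, v j * gP V x j k = 0) (fun x v hv h0 => ?_) (fun x i k => ?_) i k
  · have h1 := (Vert_595.left_ker e (gP V x) (fun i j => x (f i j))
      (fun i j => by
        rw [H.f1]
        split_ifs
        · exact map_one x
        · exact map_zero x) (H.f0 x) (fun h => by
          have := H.pos x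
          unfold dd at this
          rw [h] at this
          simp at this) v).1 hv
    rw [h1]
    exact Finset.sum_eq_zero fun i _ => by rw [h0, zero_smul]
  · have hd : ∀ i : α, ∀ᶠ z in 𝓝 x, ∀ c : ℂ,
        D (FI V (e.symm (Sum.inl i)) ∅ x) z (c • fun j => z (f i j)) = 0 := fun i =>
      LsB_450.tan_near (mkInv V (e.symm (Sum.inl i)) ∅ (fun z j => z (f i j))
        (fun z => by rw [H.f1, if_pos rfl, map_one])
        (fun z i hi => absurd hi (Finset.notMem_empty _)) (fun j => M.hol51_ev _)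
        (fun z k => H.f0 z i k)) x
    have h1 := D_smul_bracket_eq_zero M (FI_sm V (e.symm (Sum.inl i)) ∅ x) (f i) (f k)
      (by
        filter_upwards [hd i] with z hz
        have := hz 1
        rwa [one_smul] at this)
      (fun c => by
        filter_upwards [hd k] with z hz
        have := hz c
        rwa [FI_empty (e.symm (Sum.inl k)) (e.symm (Sum.inl i)) x] at this) 1
    rw [one_smul, D_FI] at h1
    have h2 := congrArg (fun q : Vt N (∅ : Finset (Fin n)) => q.1) h1
    apply ker_of_TE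
    ext i k
    exact congrFun (congrFun h2 i) k

/-- **Theorem B.** the period field -/
theorem period_field (H : Slopes M V e f) : ∃ K0 : IntermediateField ℂ K,
    (∀ x, IsAlgebraic K0 x → x ∈ K0) ∧ Algebra.trdeg ℂ K0 = Fintype.card β ∧
    ∀ b, b ∈ K0 ↔ ∀ i, Df M (fun j => (f i j : K)) b = 0 := by
  classical
  set Dd : α → Derivation ℂ K K := fun i => Df M (fun j => (f i j : K)) with hDd
  have h1 := trdeg_iInf_le Dd (fun i j x => comm_apply (slopes_comm H i j) x)
    (fun i => trdeg_slope H i) Finset.univ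
  set K0 : IntermediateField ℂ K := ⨅ i ∈ (Finset.univ : Finset α), Kc (Dd i) with hK0
  have hmem : ∀ b, b ∈ K0 ↔ ∀ i, Dd i b = 0 := by
    intro b
    rw [hK0, ← SetLike.mem_coe, IntermediateField.coe_iInf, Set.mem_iInter]
    refine forall_congr' fun i => ?_
    rw [IntermediateField.coe_iInf, Set.mem_iInter]
    exact ⟨fun h => h (Finset.mem_univ i), fun h _ => h⟩
  refine ⟨K0, fun x hx => ?_, ?_, hmem⟩
  · rw [hmem]
    intro i
    have hle : K0 ≤ Kc (Dd i) := fun b hb => (hmem b).1 hb i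
    have h2 : IsAlgebraic (Kc (Dd i)) x := by
      obtain ⟨p, hp, hpx⟩ := hx
      refine ⟨p.map (IntermediateField.inclusion hle).toRingHom, ?_, ?_⟩
      · exact (Polynomial.map_ne_zero_iff (IntermediateField.inclusion_injective hle)).2 hp
      · rw [Polynomial.aeval_def, Polynomial.eval₂_map]
        rw [Polynomial.aeval_def] at hpx
        exact hpx
    exact mem_Kc_of_isAlgebraic (Dd i) h2
  · obtain ⟨ι, x, hx⟩ := exists_isTranscendenceBasis' ℂ K0
    have hxK : AlgebraicIndependent ℂ (fun i => (x i : K)) := hx.1.map' (f := K0.val)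
      Subtype.val_injective
    have h2 := card_le M e (fun i j => (f i j : K)) (fun i j => by
      rw [H.f1]; split_ifs <;> rfl) (Set.range fun i => (x i : K))
      hxK.coe_range (by
        rintro _ ⟨i, rfl⟩ k
        exact (hmem _).1 (x i).2 k)
    rw [Cardinal.mk_range_eq _ hxK.injective, hx.cardinalMk_eq_trdeg] at h2
    refine le_antisymm h2 ?_
    rw [trdeg_eq M] at h1
    have h3 : Fintype.card α + Fintype.card β = n + 1 := by
      have := Fintype.card_congr e
      rw [Fintype.card_fin, Fintype.card_sum] at this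
      exact this.symm
    have h4 : Algebra.trdeg ℂ K0 < Cardinal.aleph0 := lt_of_le_of_lt h2 Cardinal.natCast_lt_aleph0
    obtain ⟨t, ht⟩ := Cardinal.lt_aleph0.1 h4
    rw [ht] at h1 ⊢
    rw [Finset.card_univ] at h1
    have h5 : n + 1 ≤ t + Fintype.card α := by exact_mod_cast h1
    have h6 : Fintype.card β ≤ t := by omega
    exact_mod_cast h6

end comm

end Crest.Agent.R276.Pf3_409
end
end

-- ▼ part R276/Slopes_437
section

/-!
# Row 276, ALG-FOL (helper437): the slopes of the kernel of the period metric are algebraic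

`M : Mdl K m`, `V : VHS m M.Pts N w`.  `slopes` : there are `s ⊆ {0,..,m-1}`, `p ≠ 0` such that on every
smaller model `M'` with `p` invertible there are `f i j ∈ M'.B` (`i ∉ s`), `f i j = δ_ij` for `j ∉ s`,
`∑_j f i j gP_{jk} = 0`, and `det gP_{s s} > 0` everywhere.
-/

set_option autoImplicit false

noncomputable section

open Set Filter Topology MeasureTheory Metric Matrix
open scoped ENNReal ComplexOrder ComplexConjugate

namespace Crest.Agent.R276.Slopes_437

/-! ### linear algebra -/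

section linalg

variable {m : ℕ}

/-- the block of `G` on `s` -/
def blk (G : Matrix (Fin m) (Fin m) ℂ) (s : Finset (Fin m)) : Matrix s s ℂ :=
  G.submatrix (Subtype.val : s → Fin m) Subtype.val

/-- the `i`-th row vector of the kernel -/
def cf (G : Matrix (Fin m) (Fin m) ℂ) (s : Finset (Fin m)) (i j : Fin m) : ℂ :=
  if h : j ∈ s then -(((fun k : s => G i k) ᵥ* (blk G s)⁻¹) ⟨j, h⟩) else if i = j then 1 else 0

lemma cf_of_notMem (G : Matrix (Fin m) (Fin m) ℂ) {s : Finset (Fin m)} {i j : Fin m}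
    (hj : j ∉ s) : cf G s i j = if i = j then 1 else 0 := by
  unfold cf
  rw [dif_neg hj]

lemma sum_cf (G : Matrix (Fin m) (Fin m) ℂ) {s : Finset (Fin m)} {i : Fin m} (hi : i ∉ s)
    (u : Fin m → ℂ) : ∑ j, cf G s i j * u j =
      u i - ∑ j : s, ((fun k : s => G i k) ᵥ* (blk G s)⁻¹) j * u j := by
  classical
  have h1 : ∑ j, cf G s i j * u j = ∑ j ∈ s, cf G s i j * u j + ∑ j ∈ sᶜ, cf G s i j * u j :=
    (Finset.sum_add_sum_compl s _).symm
  have h2 : ∑ j ∈ sᶜ, cf G s i j * u j = u i := by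
    rw [Finset.sum_eq_single i]
    · rw [cf_of_notMem G hi]; simp
    · intro j hj hji
      rw [cf_of_notMem G (Finset.mem_compl.1 hj), if_neg (Ne.symm hji), zero_mul]
    · intro h
      exact absurd (Finset.mem_compl.2 hi) h
  have h3 : ∑ j ∈ s, cf G s i j * u j =
      - ∑ j : s, ((fun k : s => G i k) ᵥ* (blk G s)⁻¹) j * u j := by
    rw [← Finset.sum_coe_sort s, ← Finset.sum_neg_distrib]
    refine Finset.sum_congr rfl fun j _ => ?_
    unfold cf
    rw [dif_pos j.2]
    ring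
  rw [h1, h2, h3]
  ring

/-- the equations with `k ∈ s` -/
lemma cf_mul_of_mem (G : Matrix (Fin m) (Fin m) ℂ) {s : Finset (Fin m)} {i : Fin m}
    (hi : i ∉ s) (hdet : (blk G s).det ≠ 0) {k : Fin m} (hk : k ∈ s) :
    ∑ j, cf G s i j * G j k = 0 := by
  rw [sum_cf G hi]
  have hu : IsUnit (blk G s).det := isUnit_iff_ne_zero.2 hdet
  have h1 : ∑ j : s, ((fun k : s => G i k) ᵥ* (blk G s)⁻¹) j * G j k =
      (((fun k : s => G i k) ᵥ* (blk G s)⁻¹) ᵥ* (blk G s)) ⟨k, hk⟩ := rfl
  rw [h1, Matrix.vecMul_vecMul, Matrix.nonsing_inv_mul _ hu, Matrix.vecMul_one, sub_self]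

/-- the determinant of the block on `insert i s` -/
lemma det_insert (G : Matrix (Fin m) (Fin m) ℂ) {s : Finset (Fin m)} {i : Fin m}
    (hi : i ∉ s) (hdet : (blk G s).det ≠ 0) :
    (blk G (insert i s)).det = (blk G s).det * ∑ j, cf G s i j * G j i := by
  classical
  let e1 : {x // x ∈ insert i s} ≃ s ⊕ PUnit.{1} :=
    (Finset.subtypeInsertEquivOption hi).trans (Equiv.optionEquivSumPUnit _)
  have hu : IsUnit (blk G s).det := isUnit_iff_ne_zero.2 hdet
  have hinv : Invertible (blk G s) := Matrix.invertibleOfIsUnitDet _ hu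
  have hval : ∀ t : s ⊕ PUnit.{1}, ((e1.symm t : {x // x ∈ insert i s}) : Fin m) =
      Sum.elim (fun x : s => (x : Fin m)) (fun _ => i) t := by
    rintro (t | t)
    · rfl
    · rfl
  have h1 : (blk G (insert i s)).det = ((blk G (insert i s)).submatrix e1.symm e1.symm).det :=
    (Matrix.det_submatrix_equiv_self _ _).symm
  have h2 : (blk G (insert i s)).submatrix e1.symm e1.symm =
      Matrix.fromBlocks (blk G s) (Matrix.of fun (j : s) (_ : PUnit.{1}) => G j i)
        (Matrix.of fun (_ : PUnit.{1}) (j : s) => G i j)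
        (Matrix.of fun (_ : PUnit.{1}) (_ : PUnit.{1}) => G i i) := by
    ext a b
    simp only [blk, Matrix.submatrix_apply, hval]
    rcases a with a | a <;> rcases b with b | b <;> rfl
  rw [h1, h2, Matrix.det_fromBlocks₁₁]
  congr 1
  rw [Matrix.det_unique, Matrix.sub_apply, sum_cf G hi, Matrix.invOf_eq_nonsing_inv]
  congr 1

/-- the slopes annihilate `G` -/
theorem cf_mul {G : Matrix (Fin m) (Fin m) ℂ} (hG : G.PosSemidef) {s : Finset (Fin m)}
    {i : Fin m} (hi : i ∉ s) (hdet : (blk G s).det ≠ 0) (h0 : (blk G (insert i s)).det = 0)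
    (k : Fin m) : ∑ j, cf G s i j * G j k = 0 := by
  rw [det_insert G hi hdet] at h0
  have h1 := (mul_eq_zero.1 h0).resolve_left hdet
  -- the quadratic form vanishes at the conjugate vector
  set x : Fin m → ℂ := fun j => star (cf G s i j) with hx
  have hv : ∀ k, (star x ᵥ* G) k = ∑ j, cf G s i j * G j k := by
    intro k
    simp only [Matrix.vecMul, dotProduct, hx, Pi.star_apply, star_star]
  have h2 : star x ⬝ᵥ (G *ᵥ x) = 0 := by
    rw [Matrix.dotProduct_mulVec]
    simp only [dotProduct]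
    refine Finset.sum_eq_zero fun k _ => ?_
    rw [hv]
    by_cases hk : k ∈ s
    · rw [cf_mul_of_mem G hi hdet hk, zero_mul]
    · by_cases hki : i = k
      · subst hki
        rw [h1, zero_mul]
      · have : x k = 0 := by
          simp only [hx]
          rw [cf_of_notMem G hk, if_neg hki, star_zero]
        rw [this, mul_zero]
  have h3 : G *ᵥ x = 0 := (hG.dotProduct_mulVec_zero_iff x).1 h2
  have h4 : star x ᵥ* G = 0 := by
    have h5 : star x ᵥ* G = star (Gᴴ *ᵥ x) := by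
      rw [Matrix.star_mulVec, Matrix.conjTranspose_conjTranspose]
    rw [h5, hG.isHermitian.eq, h3, star_zero]
  rw [← hv, h4]
  rfl

/-- `|c_j|² det G_{ss} = det G_{s's'}`, `s'` = `s` with `j` replaced by `i` -/
theorem sq_cf {G : Matrix (Fin m) (Fin m) ℂ} (hG : G.IsHermitian) {s : Finset (Fin m)}
    {i : Fin m} (hi : i ∉ s) (h0 : ∀ k, ∑ j, cf G s i j * G j k = 0) (j : s) :
    ((‖cf G s i j‖ ^ 2 : ℝ) : ℂ) * (blk G s).det =
      (G.submatrix (fun k : s => if k = j then i else (k : Fin m))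
        (fun k : s => if k = j then i else (k : Fin m))).det := by
  classical
  set c : s → ℂ := fun k => cf G s i k with hc
  set T : Matrix s s ℂ := (1 : Matrix s s ℂ).updateRow j (fun k => - c k) with hT
  have hrow : ∀ (a : s) (x : Fin m), ∑ k : s, T a k * G k x =
      G (if a = j then i else (a : Fin m)) x := by
    intro a x
    by_cases ha : a = j
    · rw [if_pos ha, ha]
      have h1 : ∀ k, T j k = - c k := fun k => by rw [hT, Matrix.updateRow_self]
      simp only [h1]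
      have h2 := h0 x
      rw [sum_cf G hi] at h2
      have h3 : ∀ k : s, c k = -((fun k : s => G i k) ᵥ* (blk G s)⁻¹) k := by
        intro k
        simp only [hc, cf]
        rw [dif_pos k.2]
      simp only [h3, neg_neg]
      exact (sub_eq_zero.1 h2).symm
    · rw [if_neg ha]
      have h1 : ∀ k, T a k = (1 : Matrix s s ℂ) a k := fun k => by
        rw [hT, Matrix.updateRow_ne ha]
      simp only [h1, Matrix.one_apply, ite_mul, one_mul, zero_mul, Finset.sum_ite_eq,
        Finset.mem_univ, if_true]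
  have hdet : T.det = - c j := by
    have h1 : T = ((1 : Matrix s s ℂ).updateCol j (fun k => - c k))ᵀ := by
      rw [hT, ← Matrix.updateRow_transpose, Matrix.transpose_one]
    rw [h1, Matrix.det_transpose, ← Matrix.cramer_apply, Matrix.cramer_one]
    rfl
  have hprod : G.submatrix (fun k : s => if k = j then i else (k : Fin m))
      (fun k : s => if k = j then i else (k : Fin m)) = T * blk G s * Tᴴ := by
    ext a b
    rw [Matrix.submatrix_apply, Matrix.mul_apply]
    have h1 : ∀ l : s, (T * blk G s) a l = G (if a = j then i else (a : Fin m)) l := by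
      intro l
      rw [Matrix.mul_apply]
      exact hrow a l
    simp only [h1, Matrix.conjTranspose_apply]
    have h2 := hrow b (if a = j then i else (a : Fin m))
    have h3 : G (if a = j then i else (a : Fin m)) (if b = j then i else (b : Fin m)) =
        star (∑ k : s, T b k * G k (if a = j then i else (a : Fin m))) := by
      rw [h2, hG.apply]
    rw [h3, star_sum]
    refine Finset.sum_congr rfl fun k _ => ?_
    rw [star_mul, hG.apply]
  rw [hprod, Matrix.det_mul, Matrix.det_mul, Matrix.det_conjTranspose, hdet]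
  have h4 : ((‖cf G s i j‖ ^ 2 : ℝ) : ℂ) = c j * star (c j) := by
    rw [Complex.star_def, Complex.mul_conj, Complex.normSq_eq_norm_sq]
  rw [h4, star_neg]
  ring

end linalg

/-! ### the slopes are holomorphic -/

section hol

open Crest.Agent.R276.VCalc_442

variable {m : ℕ} {ι : Type*} [Fintype ι] [DecidableEq ι]
variable {w : ℕ} {U : Set (Fin m → ℂ)} {S : Matrix ι ι ℂ}
  {P : ℕ → (Fin m → ℂ) → Matrix ι ι ℂ} {x : Fin m → ℂ}

lemma diff_cf {E : Type*} [NormedAddCommGroup E] [NormedSpace ℂ E]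
    {G : E → Matrix (Fin m) (Fin m) ℂ} {x : E}
    (hG : ∀ j k, DifferentiableAt ℝ (fun y => G y j k) x) {s : Finset (Fin m)}
    (hdet : (blk (G x) s).det ≠ 0) (i j : Fin m) :
    DifferentiableAt ℝ (fun y => cf (G y) s i j) x := by
  unfold cf
  by_cases hj : j ∈ s
  · simp only [dif_pos hj]
    have hb : ∀ a b : s, DifferentiableAt ℝ (fun y => blk (G y) s a b) x := fun a b => hG a b
    have h1 : ∀ a b : s, DifferentiableAt ℝ (fun y => (blk (G y) s)⁻¹ a b) x := by
      intro a b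
      have h2 : (fun y => (blk (G y) s)⁻¹ a b) =
          fun y => ((blk (G y) s).det)⁻¹ * (blk (G y) s).adjugate a b := by
        funext y
        rw [Matrix.inv_def, Matrix.smul_apply, smul_eq_mul, Ring.inverse_eq_inv']
      rw [h2]
      exact ((diff_det hb).inv hdet).mul (diff_adj hb a b)
    simp only [Matrix.vecMul, dotProduct]
    refine (DifferentiableAt.fun_sum fun (a : s) _ => ?_).neg
    exact (hG i (a : Fin m)).fun_mul (h1 a ⟨j, hj⟩)
  · simp only [dif_neg hj]
    exact differentiableAt_const _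

/-- the Gram matrix in the coordinate directions -/
def Gm (w : ℕ) (P : ℕ → (Fin m → ℂ) → Matrix ι ι ℂ) (c : Fin m → ℂ) : Matrix (Fin m) (Fin m) ℂ :=
  Matrix.of fun j k => gg w P (Pi.single j 1) (Pi.single k 1) c

section nm

attribute [local instance] Matrix.linftyOpNormedRing Matrix.linftyOpNormedAlgebra

lemma diff_gg (h : VCalc_442.VHS w U S P) (hx : x ∈ U) (u v : Fin m → ℂ) :
    DifferentiableAt ℝ (gg w P u v) x :=
  ((h.sm_gg u v).contDiffAt (h.op.mem_nhds hx)).differentiableAt (by simp)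

/-- a vector in the row kernel of the Gram matrix is killed by the Higgs field -/
lemma th_zero (h : VCalc_442.VHS w U S P) (hx : x ∈ U) {f : Fin m → ℂ}
    (hf : ∀ k, ∑ j, f j * Gm w P x j k = 0) :
    ∑ j, f j • dW (grOp w P) (Pi.single j 1) x = 0 := by
  have h1 : gg w P f f x = 0 := by
    rw [Pd571.gg_expand]
    refine Finset.sum_eq_zero fun k _ => ?_
    have h2 := hf k
    have h3 : ∑ j, gg w P (Pi.single j 1) (Pi.single k 1) x * f j = 0 := by
      rw [← h2]
      exact Finset.sum_congr rfl fun j _ => mul_comm _ _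
    rw [h3, mul_zero]
  have h2 : gden w P f x = 0 := by
    unfold gden
    rw [h1]; rfl
  have h3 := h.gden_eq_zero hx h2
  rw [h.th_eq hx] at h3
  have h4 : f = ∑ j, f j • (Pi.single j (1 : ℂ) : Fin m → ℂ) := by
    rw [← pi_eq_sum_univ' f]
  rw [h4, VCalc_442.dW_sum_dir] at h3
  exact h3

lemma dB_sum' {κ : Type*} (s : Finset κ) {f : κ → (Fin m → ℂ) → ℂ} {x : Fin m → ℂ}
    (hf : ∀ k ∈ s, DifferentiableAt ℝ (f k) x) (v : Fin m → ℂ) :
    dB (fun y => ∑ k ∈ s, f k y) v x = ∑ k ∈ s, dB (f k) v x := VCalc_442.dB_sum s hf v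

/-- **`∂̄` of the slopes vanishes** -/
theorem dB_cf (h : VCalc_442.VHS w U S P) {U' : Set (Fin m → ℂ)} (hU' : IsOpen U')
    (hUU : U' ⊆ U) {s : Finset (Fin m)} {i : Fin m}
    (hdet : ∀ c ∈ U', (blk (Gm w P c) s).det ≠ 0)
    (hk : ∀ c ∈ U', ∀ k, ∑ j, cf (Gm w P c) s i j * Gm w P c j k = 0)
    (hx : x ∈ U') (v : Fin m → ℂ) (j : Fin m) :
    dB (fun c => cf (Gm w P c) s i j) v x = 0 := by
  have hxU := hUU hx
  have hGd : ∀ j k, DifferentiableAt ℝ (fun c => Gm w P c j k) x := fun j k =>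
    diff_gg h hxU _ _
  have hfd : ∀ j, DifferentiableAt ℝ (fun c => cf (Gm w P c) s i j) x := fun j =>
    diff_cf hGd (hdet x hx) i j
  -- off `s` the slopes are constant
  have hoff : ∀ j ∉ s, dB (fun c => cf (Gm w P c) s i j) v x = 0 := by
    intro j hj
    have h1 : (fun c => cf (Gm w P c) s i j) = fun _ => if i = j then (1 : ℂ) else 0 := by
      funext c
      exact cf_of_notMem _ hj
    rw [h1]
    exact VCalc_442.dB_const _ _ _
  -- differentiate the relation
  have hrel : ∀ k, ∑ j, dB (fun c => cf (Gm w P c) s i j) v x * Gm w P x j k = 0 := by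
    intro k
    have h1 : (fun c => ∑ j, cf (Gm w P c) s i j * Gm w P c j k) =ᶠ[𝓝 x] fun _ => (0 : ℂ) := by
      filter_upwards [hU'.mem_nhds hx] with c hc
      exact hk c hc k
    have h2 := VCalc_442.dB_congr h1 v
    rw [VCalc_442.dB_const, dB_sum' _ (fun j _ => (hfd j).fun_mul (hGd j k))] at h2
    have h3 : ∀ j, dB (fun c => cf (Gm w P c) s i j * Gm w P c j k) v x =
        dB (fun c => cf (Gm w P c) s i j) v x * Gm w P x j k +
          cf (Gm w P x) s i j * dB (fun c => Gm w P c j k) v x := fun j =>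
      VCalc_442.dB_mul (hfd j) (hGd j k) v
    simp only [h3, Finset.sum_add_distrib] at h2
    have h4 : ∑ j, cf (Gm w P x) s i j * dB (fun c => Gm w P c j k) v x = 0 := by
      have h5 : ∀ j, dB (fun c => Gm w P c j k) v x =
          trL (dW (grOp w P) (Pi.single j 1) x * dB (tb (grOp w P) (Pi.single k 1)) v x) :=
        fun j => h.dB_gg hxU _ _ v
      have h6 := th_zero h hxU (hk x hx)
      calc ∑ j, cf (Gm w P x) s i j * dB (fun c => Gm w P c j k) v x
          = trL ((∑ j, cf (Gm w P x) s i j • dW (grOp w P) (Pi.single j 1) x) *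
              dB (tb (grOp w P) (Pi.single k 1)) v x) := by
            rw [Finset.sum_mul, map_sum]
            refine Finset.sum_congr rfl fun j _ => ?_
            rw [h5, smul_mul_assoc, map_smul, smul_eq_mul]
        _ = 0 := by rw [h6, zero_mul, map_zero]
    rw [h4, add_zero] at h2
    exact h2
  by_cases hj : j ∈ s
  · have hu : IsUnit (blk (Gm w P x) s).det := isUnit_iff_ne_zero.2 (hdet x hx)
    set u : s → ℂ := fun j => dB (fun c => cf (Gm w P c) s i j) v x with hu'
    have h1 : u ᵥ* blk (Gm w P x) s = 0 := by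
      funext k
      have h2 := hrel k
      have h3 : (u ᵥ* blk (Gm w P x) s) k = ∑ j : s, u j * Gm w P x j k := rfl
      rw [h3]
      have h4 : ∑ j, dB (fun c => cf (Gm w P c) s i j) v x * Gm w P x j k =
          ∑ j ∈ s, dB (fun c => cf (Gm w P c) s i j) v x * Gm w P x j k := by
        symm
        refine Finset.sum_subset (Finset.subset_univ s) fun j _ hj => ?_
        rw [hoff j hj, zero_mul]
      rw [h4, ← Finset.sum_coe_sort s] at h2
      exact h2
    have h2 : u = 0 := by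
      have h3 : (u ᵥ* blk (Gm w P x) s) ᵥ* (blk (Gm w P x) s)⁻¹ = 0 := by
        rw [h1, Matrix.zero_vecMul]
      rwa [Matrix.vecMul_vecMul, Matrix.mul_nonsing_inv _ hu, Matrix.vecMul_one] at h3
    exact congrFun h2 ⟨j, hj⟩
  · exact hoff j hj

end nm

end hol

/-! ### on a Riemann domain -/

section rd

open Crest.Agent.R271.Ho51 Crest.Agent.R276.Ipc735 Crest.Agent.R276.Pd571

variable {m N w : ℕ} {X : Type*} [TopologicalSpace X] [RDom m X] (V : Ipc735.VHS m X N w)

/-- the principal minor -/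
def mi (s : Finset (Fin m)) (x : X) : ℝ := (blk (gP V x) s).det.re

lemma mi_eq (s : Finset (Fin m)) (x : X) : ((mi V s x : ℝ) : ℂ) = (blk (gP V x) s).det := by
  have h1 := ((gP_posSemidef V x).submatrix (Subtype.val : s → Fin m)).det_nonneg
  exact (Complex.eq_re_of_ofReal_le h1).symm

lemma mi_nonneg (s : Finset (Fin m)) (x : X) : 0 ≤ mi V s x := minor_nonneg V _ x

lemma sm_mi (s : Finset (Fin m)) : Sm (mi V s) := sm_minor V _

lemma det_ne_iff (s : Finset (Fin m)) (x : X) : (blk (gP V x) s).det ≠ 0 ↔ 0 < mi V s x := by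
  rw [← mi_eq, Complex.ofReal_ne_zero]
  exact ⟨fun h => lt_of_le_of_ne (mi_nonneg V s x) (Ne.symm h), fun h => h.ne'⟩

lemma Levi_mi (s : Finset (Fin m)) {x : X} (hx : 0 < mi V s x) (v : Fin m → ℂ) :
    0 ≤ Levi (fun y => Real.log (mi V s y)) x v := Levi_log_minor_nonneg V _ hx v

theorem analytic_cf {s : Finset (Fin m)} {i : Fin m}
    (hrel : ∀ y, 0 < mi V s y → ∀ k, ∑ j, cf (gP V y) s i j * gP V y j k = 0) {y : X}
    (hy : 0 < mi V s y) (j : Fin m) :
    AnalyticAt ℂ ((fun y => cf (gP V y) s i j) ∘ (ch y).symm) (cp y) := by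
  obtain ⟨U, hyU, h⟩ := exists_Nb V y
  have hG : ∀ c ∈ U, Gm w (PL V y) c = gP V ((ch y).symm c) := by
    intro c hc
    ext a b
    exact h.gg_eq hc a b
  have hGd : ∀ c ∈ U, ∀ a b, DifferentiableAt ℝ (fun c => Gm w (PL V y) c a b) c :=
    fun c hc a b => diff_gg h.loc hc _ _
  set U' : Set (Fin m → ℂ) := {c | c ∈ U ∧ (blk (Gm w (PL V y) c) s).det ≠ 0} with hU'
  have hU'o : IsOpen U' := by
    rw [isOpen_iff_mem_nhds]
    rintro c ⟨hc, hd⟩
    have h1 : ContinuousAt (fun c => (blk (Gm w (PL V y) c) s).det) c :=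
      (VCalc_442.diff_det (A := fun c => blk (Gm w (PL V y) c) s)
        (fun a b => hGd c hc a b)).continuousAt
    filter_upwards [h.op.mem_nhds hc, h1.eventually_ne hd] with c' h2 h3
    exact ⟨h2, h3⟩
  have hyU' : cp y ∈ U' := by
    refine ⟨hyU, ?_⟩
    rw [hG _ hyU, (isCh_ch y).symm_cp (mem_ch y), det_ne_iff]
    exact hy
  have hdiff : ∀ c ∈ U', DifferentiableAt ℂ (fun c => cf (Gm w (PL V y) c) s i j) c := by
    intro c hc
    refine VCalc_442.diff_of_dB (diff_cf (hGd c hc.1) hc.2 i j) fun v => ?_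
    refine dB_cf h.loc hU'o (fun c hc => hc.1) (fun c hc => hc.2) ?_ hc v j
    rintro c ⟨hc, hd⟩ k
    rw [hG c hc] at hd ⊢
    exact hrel _ ((det_ne_iff V s _).1 hd) k
  have h1 : AnalyticAt ℂ (fun c => cf (Gm w (PL V y) c) s i j) (cp y) := by
    refine R266.SCV.analyticAt_of_eventually_differentiableAt ?_
    filter_upwards [hU'o.mem_nhds hyU'] with c hc
    exact hdiff c hc
  refine h1.congr ?_
  filter_upwards [h.op.mem_nhds hyU] with c hc
  rw [hG c hc]
  rfl

/-- a maximal index set with a minor which is not identically zero -/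
theorem exists_max [Nonempty X] : ∃ s : Finset (Fin m), (∃ x, 0 < mi V s x) ∧
    ∀ i ∉ s, ∀ x, mi V (insert i s) x = 0 := by
  classical
  set T : Finset (Finset (Fin m)) := Finset.univ.filter fun s => ∃ x, 0 < mi V s x with hT
  have hne : T.Nonempty := by
    obtain ⟨x⟩ := (inferInstance : Nonempty X)
    refine ⟨∅, Finset.mem_filter.2 ⟨Finset.mem_univ _, x, ?_⟩⟩
    have : (blk (gP V x) ∅).det = 1 := Matrix.det_isEmpty
    rw [mi, this]
    simp
  obtain ⟨s, hs, hmax⟩ := Finset.exists_max_image T Finset.card hne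
  refine ⟨s, (Finset.mem_filter.1 hs).2, fun i hi x => ?_⟩
  by_contra hcon
  have h1 : insert i s ∈ T := Finset.mem_filter.2 ⟨Finset.mem_univ _, x,
    lt_of_le_of_ne (mi_nonneg V _ x) (Ne.symm hcon)⟩
  have h2 := hmax _ h1
  rw [Finset.card_insert_of_notMem hi] at h2
  omega

/-- the relation holds wherever the minor is positive -/
theorem rel_of_max {s : Finset (Fin m)} {i : Fin m} (hi : i ∉ s)
    (h0 : ∀ x, mi V (insert i s) x = 0) (y : X) (hy : 0 < mi V s y) (k : Fin m) :
    ∑ j, cf (gP V y) s i j * gP V y j k = 0 := by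
  refine cf_mul (gP_posSemidef V y) hi ((det_ne_iff V s y).2 hy) ?_ k
  rw [← mi_eq, h0 y, Complex.ofReal_zero]

end rd

/-! ### on a model -/

section mdl

open Crest.Agent.R271 Crest.Agent.R271.Ho51 Crest.Agent.R271.Defs710 Crest.Agent.R271.AlgB956
open Crest.Agent.R271.Alg255 Crest.Agent.R276.AB2_590
open Crest.Agent.R276.Ipc735 Crest.Agent.R276.Pd571 Crest.Agent.R276.Mod1_987

variable {K : Type} [Field K] [Algebra ℂ K] {m N w : ℕ} (M : Mdl K m)
  (V : Ipc735.VHS m M.Pts N w)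

/-- growth of `h` in `1 + ‖z‖` -/
lemma growth_h' : ∃ (C : ℝ) (k : ℕ), 0 ≤ C ∧ ∀ y : M.Pts,
    ‖MvPolynomial.eval (M.pz y) M.h‖ ≤ C * (1 + ‖M.pz y‖) ^ k := by
  obtain ⟨C, k, hC, h⟩ := ZS_437.growth_h M
  refine ⟨C * (m + 1) ^ k, 2 * k, by positivity, fun y => (h y).trans ?_⟩
  have h1 : ZS_437.qq M y ≤ (m + 1) * (1 + ‖M.pz y‖) ^ 2 := by
    rw [ZS_437.qq_eq]
    have h2 : ∑ i, ‖y (M.z i)‖ ^ 2 ≤ ∑ _i : Fin m, ‖M.pz y‖ ^ 2 := by
      refine Finset.sum_le_sum fun i _ => ?_
      have h6 : ‖y (M.z i)‖ ≤ ‖M.pz y‖ := norm_le_pi_norm (M.pz y) i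
      gcongr
    rw [Finset.sum_const, Finset.card_univ, Fintype.card_fin, nsmul_eq_mul] at h2
    have h3 := norm_nonneg (M.pz y)
    have h4 : (0 : ℝ) ≤ m := Nat.cast_nonneg m
    nlinarith [mul_nonneg h4 h3]
  have h5 := ZS_437.qq_pos M y
  calc C * ZS_437.qq M y ^ k ≤ C * ((m + 1) * (1 + ‖M.pz y‖) ^ 2) ^ k := by gcongr
    _ = _ := by rw [mul_pow, ← pow_mul]; ring

/-- common growth constants -/
lemma common {φ ψ : M.Pts → ℝ} {C1 C2 : ℝ} {a1 l1 a2 l2 : ℕ} (hC1 : 0 ≤ C1) (hC2 : 0 ≤ C2)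
    (h1 : ∀ y : M.Pts, φ y * ‖MvPolynomial.eval (M.pz y) M.h‖ ^ l1 ≤ C1 * (1 + ‖M.pz y‖) ^ a1)
    (h2 : ∀ y : M.Pts, ψ y * ‖MvPolynomial.eval (M.pz y) M.h‖ ^ l2 ≤ C2 * (1 + ‖M.pz y‖) ^ a2) :
    ∃ (C : ℝ) (a l : ℕ), (∀ y : M.Pts, φ y * ‖MvPolynomial.eval (M.pz y) M.h‖ ^ l ≤
        C * (1 + ‖M.pz y‖) ^ a) ∧
      ∀ y : M.Pts, ψ y * ‖MvPolynomial.eval (M.pz y) M.h‖ ^ l ≤ C * (1 + ‖M.pz y‖) ^ a := by
  obtain ⟨Ch, k, hCh, hh⟩ := growth_h' M
  refine ⟨C1 * Ch ^ l2 + C2 * Ch ^ l1, (a1 + k * l2) + (a2 + k * l1), l1 + l2, ?_, ?_⟩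
  · intro y
    have hz : 1 ≤ 1 + ‖M.pz y‖ := by have := norm_nonneg (M.pz y); linarith
    set H := ‖MvPolynomial.eval (M.pz y) M.h‖ with hH
    have hH0 : 0 ≤ H := norm_nonneg _
    calc φ y * H ^ (l1 + l2) = (φ y * H ^ l1) * H ^ l2 := by rw [pow_add]; ring
      _ ≤ (C1 * (1 + ‖M.pz y‖) ^ a1) * H ^ l2 :=
          mul_le_mul_of_nonneg_right (h1 y) (pow_nonneg hH0 _)
      _ ≤ (C1 * (1 + ‖M.pz y‖) ^ a1) * (Ch * (1 + ‖M.pz y‖) ^ k) ^ l2 := by
          gcongr; exact hh y
      _ = (C1 * Ch ^ l2) * (1 + ‖M.pz y‖) ^ (a1 + k * l2) := by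
          rw [mul_pow, ← pow_mul, pow_add]; ring
      _ ≤ (C1 * Ch ^ l2 + C2 * Ch ^ l1) * (1 + ‖M.pz y‖) ^ ((a1 + k * l2) + (a2 + k * l1)) := by
          have h3 : 0 ≤ C2 * Ch ^ l1 := by positivity
          have h4 : 0 ≤ C1 * Ch ^ l2 := by positivity
          exact mul_le_mul (by linarith) (pow_le_pow_right₀ hz (Nat.le_add_right _ _))
            (by positivity) (by positivity)
  · intro y
    have hz : 1 ≤ 1 + ‖M.pz y‖ := by have := norm_nonneg (M.pz y); linarith
    set H := ‖MvPolynomial.eval (M.pz y) M.h‖ with hH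
    have hH0 : 0 ≤ H := norm_nonneg _
    calc ψ y * H ^ (l1 + l2) = (ψ y * H ^ l2) * H ^ l1 := by rw [pow_add]; ring
      _ ≤ (C2 * (1 + ‖M.pz y‖) ^ a2) * H ^ l1 :=
          mul_le_mul_of_nonneg_right (h2 y) (pow_nonneg hH0 _)
      _ ≤ (C2 * (1 + ‖M.pz y‖) ^ a2) * (Ch * (1 + ‖M.pz y‖) ^ k) ^ l1 := by
          gcongr; exact hh y
      _ = (C2 * Ch ^ l1) * (1 + ‖M.pz y‖) ^ (a2 + k * l1) := by
          rw [mul_pow, ← pow_mul, pow_add]; ring
      _ ≤ (C1 * Ch ^ l2 + C2 * Ch ^ l1) * (1 + ‖M.pz y‖) ^ ((a1 + k * l2) + (a2 + k * l1)) := by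
          have h3 : 0 ≤ C2 * Ch ^ l1 := by positivity
          have h4 : 0 ≤ C1 * Ch ^ l2 := by positivity
          exact mul_le_mul (by linarith) (pow_le_pow_right₀ hz (Nat.le_add_left _ _))
            (by positivity) (by positivity)

variable {M}

/-- the minor is positive off a hypersurface -/
theorem exists_p1 {s : Finset (Fin m)} {y0 : M.Pts} (hy0 : 0 < mi V s y0) :
    ∃ p : MvPolynomial (Fin m) ℂ, p ≠ 0 ∧
      ∀ y : M.Pts, MvPolynomial.eval (M.pz y) p ≠ 0 → 0 < mi V s y := by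
  obtain ⟨C, a, l, hC, hgr⟩ := det_growth' M V (Subtype.val : s → Fin m)
  obtain ⟨p, hp, h⟩ := ZS_437.exists_poly (sm_mi V s) (mi_nonneg V s)
    (fun y hy w => ZS_437.defect_of_Levi (sm_mi V s) hy (Levi_mi V s hy w)) hy0 hgr
  refine ⟨p, hp, fun y hy => ?_⟩
  exact lt_of_le_of_ne (mi_nonneg V s y) fun h0 => hy (h y h0.symm)

/-- the slopes are in the function field -/
theorem exists_frac {s : Finset (Fin m)} {y0 : M.Pts} (hy0 : 0 < mi V s y0)
    (hmax : ∀ i ∉ s, ∀ x, mi V (insert i s) x = 0) {i : Fin m} (hi : i ∉ s) (j : Fin m) :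
    ∃ b1 b2 : M.B, b2 ≠ 0 ∧ ∀ y : M.Pts, 0 < mi V s y →
      y b2 * cf (gP V y) s i j = y b1 := by
  by_cases hj : j ∈ s
  · obtain ⟨C1, a1, l1, hC1, hgr1⟩ := det_growth' M V (Subtype.val : s → Fin m)
    obtain ⟨C2, a2, l2, hC2, hgr2⟩ := det_growth' M V
      (fun k : s => if k = (⟨j, hj⟩ : s) then i else (k : Fin m))
    have hrel := rel_of_max V hi (hmax i hi)
    obtain ⟨C, a, l, hg1, hg2⟩ := common M hC1 hC2 hgr1 hgr2
    refine RatMod_437.mem_frac M (sm_mi V s) (mi_nonneg V s)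
      (fun y hy w => Levi_mi V s hy w)
      (ZS_437.dense_pos (sm_mi V s) (mi_nonneg V s)
        (fun y hy w => ZS_437.defect_of_Levi (sm_mi V s) hy (Levi_mi V s hy w)) hy0 hgr1)
      (fun y hy => analytic_cf V hrel hy j) (C := C) (a := a) (l := l) hg1 ?_
    intro y hy
    refine le_trans (le_of_eq ?_) (hg2 y)
    congr 1
    have h1 := sq_cf (gP_herm V y) hi (hrel y hy) ⟨j, hj⟩
    rw [← mi_eq] at h1
    have h2 := congrArg Complex.re h1
    rw [← Complex.ofReal_mul, Complex.ofReal_re] at h2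
    exact h2
  · refine ⟨if i = j then 1 else 0, 1, one_ne_zero, fun y _ => ?_⟩
    rw [cf_of_notMem _ hj]
    split_ifs <;> simp

/-! ### restriction to a smaller model -/

section pull

variable {r : ℕ} {X Y : Type*} [TopologicalSpace X] [RDom m X] [TopologicalSpace Y] [RDom m Y]
  {φ : Y → X}

open Crest.Agent.R276.VPull_327

lemma D_pull (hφ : HMap φ) (hcp : ∀ y, cp (φ y) = cp y) {G : Type*} [NormedAddCommGroup G]
    [NormedSpace ℝ G] (g : X → G) (y : Y) : D (fun y => g (φ y)) y = D g (φ y) := by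
  show fderiv ℝ ((fun y' => g (φ y')) ∘ (ch y).symm) (cp y) =
    fderiv ℝ (g ∘ (ch (φ y)).symm) (cp (φ y))
  have h1 : (fun y' => g (φ y')) ∘ (ch y).symm =ᶠ[𝓝 (cp y)] g ∘ (ch (φ y)).symm := by
    refine ((hφ y).germ g).trans ?_
    filter_upwards [(ch y).open_target.mem_nhds ((isCh_ch y).cp_mem (mem_ch y))] with z hz
    have h2 : ((fun y' => cp (φ y')) ∘ (ch y).symm) z = z := by
      simp only [Function.comp_apply]
      rw [hcp, (isCh_ch y).cp_symm hz]
    rw [h2]
  rw [h1.fderiv_eq, hcp]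

/-- the period metric of a pull back along a map over `ℂ^m` -/
theorem gP_pull (V : Ipc735.VHS m X N w) (hφ : HMap φ) (hcp : ∀ y, cp (φ y) = cp y) (y : Y) :
    gP (pull V hφ) y = gP V (φ y) := by
  have h1 : ∀ j, dM (pull V hφ).P (pull V hφ).E j y = dM V.P V.E j (φ y) := by
    intro j
    ext a b
    simp only [dM, Matrix.of_apply, dz]
    exact congrArg (fun L => Crest.Agent.R271.Ho51.wz j L)
      (D_pull hφ hcp (fun x => lM V.P V.E (φ y) x a b) y)
  have h2 : ∀ j, dMb (pull V hφ).P (pull V hφ).E j y = dMb V.P V.E j (φ y) := by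
    intro j
    ext a b
    simp only [dMb, Matrix.of_apply, db]
    exact congrArg (fun L => Crest.Agent.R271.Ho51.wb j L)
      (D_pull hφ hcp (fun x => lM V.P V.E (φ y) x a b) y)
  ext j k
  simp only [gP, Matrix.of_apply, h1, h2]


end pull

open Crest.Agent.R276.VPull_327

/-- the restriction of points is holomorphic -/
theorem resMap {M' : Mdl K m} (hz : M.zK = M'.zK) (h : M.B ≤ M'.B) :
    HMap (Mdl.resB h : M'.Pts → M.Pts) := by
  intro y
  refine ⟨(Mdl.continuous_resB h).continuousAt, ?_⟩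
  have h1 : (fun y' : M'.Pts => cp (Mdl.resB h y' : M.Pts)) = fun y' => cp y' := by
    funext y'
    exact Mdl.pz_resB hz h y'
  rw [h1]
  exact HMAt.id y |>.hol

lemma cp_resB {M' : Mdl K m} (hz : M.zK = M'.zK) (h : M.B ≤ M'.B) (y : M'.Pts) :
    cp (Mdl.resB h y : M.Pts) = cp y := Mdl.pz_resB hz h y

/-- the restriction of a VHS to a smaller model -/
def restr (V : Ipc735.VHS m M.Pts N w) {M' : Mdl K m} (hz : M.zK = M'.zK) (h : M.B ≤ M'.B) :
    Ipc735.VHS m M'.Pts N w := pull V (resMap hz h)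

theorem gP_restr {M' : Mdl K m} (hz : M.zK = M'.zK) (h : M.B ≤ M'.B) (y : M'.Pts) :
    gP (restr V hz h) y = gP V (Mdl.resB h y) := gP_pull V (resMap hz h) (cp_resB hz h) y

/-- **slopes theorem** -/
theorem slopes : ∃ (s : Finset (Fin m)) (p : MvPolynomial (Fin m) ℂ), p ≠ 0 ∧
    (∀ i ∉ s, ∀ x, mi V (insert i s) x = 0) ∧
    (∀ y : M.Pts, MvPolynomial.eval (M.pz y) p ≠ 0 → 0 < mi V s y) ∧
    ∀ (M' : Mdl K m) (hz : M.zK = M'.zK) (h : M.B ≤ M'.B) (j0 : ℕ), p ∣ M'.h ^ j0 →
      ∃ f : {i // i ∉ s} → Fin m → M'.B,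
        (∀ i j, j ∉ s → f i j = if (i : Fin m) = j then 1 else 0) ∧
        (∀ y i k, ∑ j, y (f i j) * gP (restr V hz h) y j k = 0) ∧
        (∀ y, 0 < ((gP (restr V hz h) y).submatrix (Subtype.val : s → Fin m)
          Subtype.val).det.re) := by
  classical
  obtain ⟨s, ⟨y0, hy0⟩, hmax⟩ := exists_max V
  obtain ⟨p1, hp1, h1⟩ := exists_p1 V hy0
  choose b1 b2 hb2 hb using fun (i : {i // i ∉ s}) (j : Fin m) =>
    exists_frac V hy0 hmax i.2 j
  choose q hq d hd using fun (i : {i // i ∉ s}) (j : Fin m) =>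
    exists_poly_dvd M.het (hb2 i j)
  refine ⟨s, p1 * ∏ i, ∏ j, q i j, mul_ne_zero hp1 (Finset.prod_ne_zero_iff.2 fun i _ =>
    Finset.prod_ne_zero_iff.2 fun j _ => hq i j), hmax, ?_, ?_⟩
  · intro y hy
    rw [map_mul] at hy
    exact h1 y (left_ne_zero_of_mul hy)
  · intro M' hz h j0 hdvd
    have hqd : ∀ i j, q i j ∣ M'.h ^ j0 := fun i j =>
      ((Finset.dvd_prod_of_mem (fun j => q i j) (Finset.mem_univ j)).trans
        ((Finset.dvd_prod_of_mem (fun i => ∏ j, q i j) (Finset.mem_univ i)).trans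
          (Dvd.intro_left _ rfl))).trans hdvd
    have hp1d : p1 ∣ M'.h ^ j0 := (Dvd.intro _ rfl).trans hdvd
    have hpos : ∀ y : M'.Pts, 0 < mi V s (Mdl.resB h y : M.Pts) := by
      intro y
      refine h1 _ ?_
      have h2 : M.pz (Mdl.resB h y : M.Pts) = M'.pz y := Mdl.pz_resB hz h y
      rw [h2]
      obtain ⟨c, hc⟩ := hp1d
      intro h0
      have h3 := congrArg (MvPolynomial.eval (M'.pz y)) hc
      rw [map_pow, map_mul, h0, zero_mul] at h3
      exact pow_ne_zero j0 (M'.eval_h_ne y) h3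
    have haz : ∀ r : MvPolynomial (Fin m) ℂ, Subalgebra.inclusion h (az M.z r) = az M'.z r := by
      intro r
      apply Subtype.ext
      have h2 : ((Subalgebra.inclusion h (az M.z r) : M'.B) : K) = ((az M.z r : M.B) : K) := rfl
      rw [h2, ← M.aK_eq, ← M'.aK_eq]
      unfold Mdl.aK
      rw [hz]
    have hunit : ∀ i j, IsUnit (Subalgebra.inclusion h (b2 i j)) := by
      intro i j
      have h2 : Subalgebra.inclusion h (b2 i j) ∣ az M'.z (q i j) := by
        rw [← haz]
        have h3 : az M.z (q i j) = b2 i j * d i j := hd i j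
        rw [h3, map_mul]
        exact Dvd.intro _ rfl
      have h3 : az M'.z (q i j) ∣ (az M'.z M'.h) ^ j0 := by
        obtain ⟨c, hc⟩ := hqd i j
        rw [← map_pow, hc, map_mul]
        exact Dvd.intro _ rfl
      exact isUnit_of_dvd_unit (h2.trans h3) (M'.h_unit.pow _)
    choose u hu using hunit
    have hval : ∀ (y : M'.Pts) i j,
        y (Subalgebra.inclusion h (b1 i j) * ((u i j)⁻¹ : (M'.B)ˣ)) =
          cf (gP V (Mdl.resB h y)) s i j := by
      intro y i j
      have h2 := hb i j (Mdl.resB h y) (hpos y)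
      have h3 : (Mdl.resB h y : M.Pts) (b2 i j) = y (Subalgebra.inclusion h (b2 i j)) := rfl
      have h4 : (Mdl.resB h y : M.Pts) (b1 i j) = y (Subalgebra.inclusion h (b1 i j)) := rfl
      have h5 : y (Subalgebra.inclusion h (b2 i j)) ≠ 0 := by
        rw [← hu i j]
        exact ((u i j).isUnit.map y).ne_zero
      rw [h3, h4] at h2
      have h6 : y (Subalgebra.inclusion h (b2 i j)) *
          y (Subalgebra.inclusion h (b1 i j) * ((u i j)⁻¹ : (M'.B)ˣ)) =
          y (Subalgebra.inclusion h (b1 i j)) := by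
        rw [← map_mul, ← hu i j]
        congr 1
        rw [mul_left_comm, Units.mul_inv, mul_one]
      rw [← h2] at h6
      exact mul_left_cancel₀ h5 h6
    refine ⟨fun i j => if j ∈ s then Subalgebra.inclusion h (b1 i j) * ((u i j)⁻¹ : (M'.B)ˣ)
      else if (i : Fin m) = j then 1 else 0, ?_, ?_, ?_⟩
    · intro i j hj
      exact if_neg hj
    · intro y i k
      have hv2 : ∀ j, y (if j ∈ s then Subalgebra.inclusion h (b1 i j) * ((u i j)⁻¹ : (M'.B)ˣ)
          else if (i : Fin m) = j then 1 else 0) = cf (gP V (Mdl.resB h y)) s i j := by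
        intro j
        by_cases hj : j ∈ s
        · rw [if_pos hj, hval]
        · rw [if_neg hj, cf_of_notMem _ hj]
          split_ifs <;> simp
      simp only [hv2, gP_restr]
      exact rel_of_max V i.2 (hmax i i.2) _ (hpos y) k
    · intro y
      rw [gP_restr]
      exact hpos y

/-- the splitting of the coordinates -/
def eS (s : Finset (Fin m)) : Fin m ≃ {i // i ∉ s} ⊕ {i // i ∈ s} :=
  ((Equiv.sumComm _ _).trans (Equiv.sumCompl (· ∈ s))).symm

@[simp] lemma eS_inl (s : Finset (Fin m)) (i : {i // i ∉ s}) : (eS s).symm (Sum.inl i) = i := rfl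

@[simp] lemma eS_inr (s : Finset (Fin m)) (i : {i // i ∈ s}) : (eS s).symm (Sum.inr i) = i := rfl

/-- the slopes theorem in the format of Pf2_409 -/
theorem slopes' : ∃ (s : Finset (Fin m)) (p : MvPolynomial (Fin m) ℂ), p ≠ 0 ∧
    (∀ i ∉ s, ∀ x, mi V (insert i s) x = 0) ∧
    (∀ y : M.Pts, MvPolynomial.eval (M.pz y) p ≠ 0 → 0 < mi V s y) ∧
    ∀ (M' : Mdl K m) (hz : M.zK = M'.zK) (h : M.B ≤ M'.B) (j0 : ℕ), p ∣ M'.h ^ j0 →
      ∃ f : {i // i ∉ s} → Fin m → M'.B,
        (∀ i j, f i ((eS s).symm (Sum.inl j)) = if i = j then 1 else 0) ∧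
        (∀ y i k, ∑ j, y (f i j) * gP (restr V hz h) y j k = 0) ∧
        (∀ y, 0 < ((gP (restr V hz h) y).submatrix ((eS s).symm ∘ Sum.inr)
          ((eS s).symm ∘ Sum.inr)).det.re) := by
  obtain ⟨s, p, hp, hmax, h1, h2⟩ := slopes V
  refine ⟨s, p, hp, hmax, h1, fun M' hz h j0 hd => ?_⟩
  obtain ⟨f, hf1, hf2, hf3⟩ := h2 M' hz h j0 hd
  refine ⟨f, fun i j => ?_, hf2, hf3⟩
  rw [eS_inl, hf1 i j j.2]
  simp only [Subtype.coe_inj]

end mdl

end Crest.Agent.R276.Slopes_437
end
end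

-- ▼ part R276/Pf4_409
section

/-!
# Period fibres are algebraic, part 4 (helper409, row 276): the final statement

`main V` : the period field `K0` of a VHS `V` on the points of a model `M` of `K`.
-/

set_option autoImplicit false
set_option linter.unusedSectionVars false

noncomputable section

open Set Filter Topology MeasureTheory Complex Matrix

namespace Crest.Agent.R276.Pf4_409

open Crest.Agent.R271.Ho51
open Crest.Agent.R276.Mod1_987
open Crest.Agent.R276.Pd571 Crest.Agent.R276.PdL571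
open Crest.Agent.R276.Pf2_409 Crest.Agent.R276.Pf3_409 Crest.Agent.R276.PfDer_676
open Crest.Agent.R276.Slopes_437

variable {K : Type} [Field K] [Algebra ℂ K] {m N w : ℕ}

theorem f_unique {M : Mdl K m} (V : Ipc735.VHS m M.Pts N w) {M' M'' : Mdl K m}
    (hz' : M.zK = M'.zK) (h' : M.B ≤ M'.B) (hz'' : M.zK = M''.zK) (h'' : M.B ≤ M''.B)
    {s : Finset (Fin m)} {f' : {i // i ∉ s} → Fin m → M'.B} {f'' : {i // i ∉ s} → Fin m → M''.B}
    (a1 : ∀ i j, f' i ((eS s).symm (Sum.inl j)) = if i = j then 1 else 0)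
    (a0 : ∀ y i k, ∑ j, y (f' i j) * gP (restr V hz' h') y j k = 0)
    (ad : ∀ y, 0 < ((gP (restr V hz' h') y).submatrix ((eS s).symm ∘ Sum.inr)
          ((eS s).symm ∘ Sum.inr)).det.re)
    (b1 : ∀ i j, f'' i ((eS s).symm (Sum.inl j)) = if i = j then 1 else 0)
    (b0 : ∀ y i k, ∑ j, y (f'' i j) * gP (restr V hz'' h'') y j k = 0) (i : {i // i ∉ s})
    (j : Fin m) : (f' i j : K) = f'' i j := by
  set M3 : Mdl K m := M'.loc M''.h M''.h_ne with hM3
  have hz3 : M'.zK = M3.zK := (Mdl.loc_zK M' _ _).symm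
  have h3' : M'.B ≤ M3.B := M'.le_loc _ _
  have h3'' : M''.B ≤ M3.B := Mdl.B_le (hz''.symm.trans (hz'.trans hz3)) (j := 1) (by
    rw [pow_one]
    exact dvd_mul_left _ _)
  have key : ∀ y : M3.Pts, y ⟨f' i j, h3' (f' i j).2⟩ = y ⟨f'' i j, h3'' (f'' i j).2⟩ := by
    intro y
    set y' : M'.Pts := Mdl.resB h3' y with hy'
    set y'' : M''.Pts := Mdl.resB h3'' y with hy''
    have hg : gP (restr V hz' h') y' = gP (restr V hz'' h'') y'' := by
      rw [gP_restr, gP_restr]
      rfl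
    have h4 := (Vert_595.left_ker (eS s) (gP (restr V hz' h') y') (fun i j => y' (f' i j))
      (fun i j => by
        rw [a1]
        split_ifs
        · exact map_one y'
        · exact map_zero y') (a0 y') (fun h => by
          have := ad y'
          rw [h] at this
          simp at this) (fun j => y'' (f'' i j))).1 (fun k => by
            rw [hg]; exact b0 y'' i k)
    have h5 := congrFun h4 j
    rw [Finset.sum_apply] at h5
    rw [Finset.sum_eq_single i (fun l _ hl => by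
        simp only [Pi.smul_apply, b1, if_neg (Ne.symm hl), map_zero, zero_smul])
      (fun h => absurd (Finset.mem_univ _) h)] at h5
    simp only [Pi.smul_apply, b1, if_true, map_one, one_smul] at h5
    exact h5.symm
  have h6 := M3.ext_of_pts key
  exact congrArg (fun b : M3.B => (b : K)) h6

/-- **B-PF, final form.** The period field of a variation of Hodge structure. -/
theorem main {n : ℕ} {M : Mdl K (n + 1)} (V : Ipc735.VHS (n + 1) M.Pts N w) :
    ∃ (s : Finset (Fin (n + 1))) (p : MvPolynomial (Fin (n + 1)) ℂ) (K0 : IntermediateField ℂ K),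
      p ≠ 0 ∧ (∀ x, IsAlgebraic K0 x → x ∈ K0) ∧ Algebra.trdeg ℂ K0 = s.card ∧
      (∀ i ∉ s, ∀ x, mi V (insert i s) x = 0) ∧
      (∀ y : M.Pts, MvPolynomial.eval (M.pz y) p ≠ 0 → 0 < mi V s y) ∧
      ∀ (M' : Mdl K (n + 1)) (hz : M.zK = M'.zK) (h : M.B ≤ M'.B) (j0 : ℕ), p ∣ M'.h ^ j0 →
        ∃ f : {i // i ∉ s} → Fin (n + 1) → M'.B,
          (∀ i j, f i ((eS s).symm (Sum.inl j)) = if i = j then 1 else 0) ∧
          (∀ y i k, ∑ j, y (f i j) * gP (restr V hz h) y j k = 0) ∧
          (∀ y, 0 < ((gP (restr V hz h) y).submatrix ((eS s).symm ∘ Sum.inr)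
            ((eS s).symm ∘ Sum.inr)).det.re) ∧
          ∀ b, b ∈ K0 ↔ ∀ i, Df M' (fun j => (f i j : K)) b = 0 := by
  classical
  obtain ⟨s, p, hp, hmax, hmin, hM'⟩ := slopes' V
  obtain ⟨f, hf1, hf0, hfd⟩ := hM' (M.loc p hp) (Mdl.loc_zK M p hp).symm (M.le_loc p hp) 1 (by
    rw [pow_one]
    exact dvd_mul_left _ _)
  obtain ⟨K0, h1, h2, h3⟩ := period_field (mkSlopes hf1 hf0 hfd)
  refine ⟨s, p, K0, hp, h1, ?_, hmax, hmin, fun M' hz h j0 hd => ?_⟩
  · rw [h2]
    simp
  · obtain ⟨f', a1, a0, ad⟩ := hM' M' hz h j0 hd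
    refine ⟨f', a1, a0, ad, fun b => ?_⟩
    rw [h3]
    refine forall_congr' fun i => ?_
    have h4 : (fun j => (f i j : K)) = fun j => (f' i j : K) := by
      funext j
      exact f_unique V (Mdl.loc_zK M p hp).symm (M.le_loc p hp) hz h hf1 hf0 hfd a1 a0 i j
    rw [h4, Df_congr ((Mdl.loc_zK M p hp).trans hz)]

end Crest.Agent.R276.Pf4_409
end
end

-- ▼ part R276/CompA_849
section

/-!
# Row 276, COMPOSITION (helper849), part A: from the geometric data on a relative model
`R₀ : M_K → M_L` to the tower `M_K → M_L → M_T` over the period field `T`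

* `Slp V T` : the slopes of the period map of `V` (Theorem B, helper409) on a model of `L`;
* `TD R₁ V om W` : the data on a tower `W`: good, comparable with `R₁`, the pulled back CY line, its
  period metric has exactly the vertical vectors as kernel;
* `Pack` : everything; `exists_pack`.
-/

set_option autoImplicit false
set_option linter.unusedSectionVars false

open Topology Filter Set Matrix
open scoped ComplexOrder

noncomputable section

namespace Crest.Agent.R276.CompA_849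

open Crest.Agent.R271.Defs710 Crest.Agent.R271.Rd692 Crest.Agent.R271.Ho51
open Crest.Agent.R276.Mod1_987 Crest.Agent.R276.TowA_849 Crest.Agent.R276.TowB_849
open Crest.Agent.R276.ModPack_849 Crest.Agent.R276.CmpR_652 Crest.Agent.R276.Cmp_595
open Crest.Agent.R276.Ipc735 Crest.Agent.R276.VPull_327 Crest.Agent.R276.PfDer_676
open Crest.Agent.R276.FlatDefs_236 Crest.Agent.R276.Restr_236

/-! ### pull back along comparisons -/

section pull

variable {L K : Type} [Field L] [Field K] [Algebra ℂ L] [Algebra ℂ K] [Algebra L K]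
  [IsScalarTower ℂ L K] {m r : ℕ} {R₀ R : RMdl L K m r} {N₂ w₂ : ℕ}

/-- pull back of a VHS along a comparison -/
def vL (h : Cmp R₀ R) (V : VHS m R₀.ML.Pts N₂ w₂) : VHS m R.ML.Pts N₂ w₂ :=
  pull V (hMap_rs (M := R₀.ML) (M' := R.ML) h.locL)

/-- pull back of a section -/
def omL (h : Cmp R₀ R) (om : R₀.ML.Pts → Fin N₂ → ℂ) : R.ML.Pts → Fin N₂ → ℂ :=
  fun y => om (h.rL y)


end pull

/-! ### slopes -/

section slopes

variable {L : Type} [Field L] [Algebra ℂ L] {m : ℕ} {N₂ w₂ : ℕ}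

/-- the period map of `V` has constant rank `ρ`, its kernel is spanned by the derivations
`f_i = ∂_i + ∑ …` of the model, whose common constants are the elements of `T` (Theorem B) -/
structure Slp {M : Mdl L m} (V : VHS m M.Pts N₂ w₂) (T : IntermediateField ℂ L) where
  s : Finset (Fin m)
  e : Fin m ≃ {i // i ∉ s} ⊕ {i // i ∈ s}
  f : {i // i ∉ s} → Fin m → M.B
  f1 : ∀ i j, f i (e.symm (Sum.inl j)) = if i = j then 1 else 0
  f0 : ∀ (y : M.Pts) i k, ∑ j, y (f i j) * Pd571.gP V y j k = 0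
  pos : ∀ y : M.Pts,
    0 < ((Pd571.gP V y).submatrix (e.symm ∘ Sum.inr) (e.symm ∘ Sum.inr)).det.re
  mem : ∀ b : L, b ∈ T ↔ ∀ i, Df M (fun j => (f i j : L)) b = 0

/-- Theorem B for `m > 0` -/
theorem exists_slp {M : Mdl L m} (hm : 0 < m) (V : VHS m M.Pts N₂ w₂) :
    ∃ (s : Finset (Fin m)) (p : MvPolynomial (Fin m) ℂ) (T : IntermediateField ℂ L),
      p ≠ 0 ∧ (∀ x, IsAlgebraic T x → x ∈ T) ∧ Algebra.trdeg ℂ T = s.card ∧
      ∀ (M' : Mdl L m) (hz : M.zK = M'.zK) (h : M.B ≤ M'.B) (j0 : ℕ), p ∣ M'.h ^ j0 →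
        ∃ S : Slp (Slopes_437.restr V hz h) T, S.s = s := by
  obtain ⟨n, rfl⟩ : ∃ n, m = n + 1 := ⟨m - 1, by omega⟩
  obtain ⟨s, p, T, hp, hT, htr, -, -, h⟩ := Pf4_409.main V
  refine ⟨s, p, T, hp, hT, htr, fun M' hz hB j0 hd => ?_⟩
  obtain ⟨f, h1, h0, h2, h3⟩ := h M' hz hB j0 hd
  exact ⟨⟨s, Slopes_437.eS s, f, h1, h0, h2, h3⟩, rfl⟩

end slopes

/-! ### the data on a tower -/

section tower

variable {L K : Type} [Field L] [Field K] [Algebra ℂ L] [Algebra ℂ K] [Algebra L K]
  [IsScalarTower ℂ L K]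

/-- **data on a small tower `W` over the period field**; `R₁` is the old relative model -/
structure TD {T : IntermediateField ℂ L} {ρ a r s : ℕ} (R₁ : RMdl L K (ρ + a) r) (N : ℕ)
    (u : Fin s → R₁.MK.B) {N₂ w₂ : ℕ} (V : VHS (ρ + a) R₁.ML.Pts N₂ w₂)
    (om : R₁.ML.Pts → Fin N₂ → ℂ) (W : Tow T L K ρ a r) : Prop where
  good : Good W
  cmp : Cmp R₁ W.LK
  sat : SatFam W.LK N (resU cmp u)
  cyl : CYL W.LK N (resU cmp u) (vL cmp V) (omL cmp om)
  /-- the kernel of the period map consists of the vertical vectors -/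
  vert : ∀ (z : W.LK.ML.Pts) (v : Fin (ρ + a) → ℂ), (∀ k, v (Fin.castAdd a k) = 0) ↔
    ∀ k, ∑ j, v j * Pd571.gP (vL cmp V) z j k = 0
  block : ∀ z : W.LK.ML.Pts, ((Pd571.gP (vL cmp V) z).submatrix
    (Fin.castAdd a : Fin ρ → Fin (ρ + a)) (Fin.castAdd a)).PosDef

variable (L K) in
/-- **the package**: period field `T`, coordinates, old relative model `R`, new tower `W` -/
structure Pack (r N s : ℕ) where
  T : IntermediateField ℂ L
  acT : ∀ x : L, IsAlgebraic T x → x ∈ T
  ρ : ℕ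
  a : ℕ
  R : RMdl L K (ρ + a) r
  u : Fin s → R.MK.B
  N₂ : ℕ
  w₂ : ℕ
  V : VHS (ρ + a) R.ML.Pts N₂ w₂
  om : R.ML.Pts → Fin N₂ → ℂ
  sat : SatFam R N u
  cyl : CYL R N u V om
  slp : Slp V T
  card : slp.s.card = ρ
  W : Tow T L K ρ a r
  dv : Dv W
  x_eq : ∀ j, W.MK.zK (Fin.natAdd (ρ + a) j) = R.MK.zK (Fin.natAdd (ρ + a) j)
  ev : Ev W fun W' => TLe W W' ∧ TD R N u V om W'

/-- shrinking of the base only: the fibres do not change -/
theorem nonempty_fib_shrink {m r : ℕ} {R : RMdl L K m r} (h : ∀ w, Nonempty (R.Fib w))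
    (p : MvPolynomial (Fin m) ℂ) (hp : p ≠ 0) (w : (R.shrink p hp 1 one_ne_zero).ML.Pts) :
    Nonempty ((R.shrink p hp 1 one_ne_zero).Fib w) := by
  have h1 : Le R (R.shrink p hp 1 one_ne_zero) := le_shrink R hp one_ne_zero
  have h2 := h1.image_fibre_eq (j := 1) (by
    rw [pow_one]
    change R.MK.h * (MvPolynomial.rename (Fin.castAdd r) p * 1) ∣
      R.MK.h * MvPolynomial.rename (Fin.castAdd r) (R.ML.h * p)
    rw [map_mul, mul_one]
    exact mul_dvd_mul_left _ (Dvd.intro_left _ rfl)) w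
  obtain ⟨y⟩ := h (h1.resL w)
  have h3 : y.val ∈ h1.resK '' ((R.shrink p hp 1 one_ne_zero).q ⁻¹' {w}) := by
    rw [h2]
    exact y.q_eq
  obtain ⟨y', hy', -⟩ := h3
  exact ⟨⟨y', hy'⟩⟩



end tower

end Crest.Agent.R276.CompA_849
end
end

-- ▼ part R276/RestrF_236
section

/-!
# Row 276 (S0419), leaf RESTR (helper236), part F: null vectors of the period metric

`dM_of_gP` : if `v` is in the kernel of the period metric `gP` (571) then `∑ vⱼ θⱼ = 0`.
-/

set_option autoImplicit false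
set_option linter.unusedSectionVars false

open Set Filter Topology Matrix

noncomputable section

namespace Crest.Agent.R276.Restr_236

open Crest.Agent.R271.Ho51 Crest.Agent.R276.Ipc735 Crest.Agent.R276.VPull_327
open Crest.Agent.R276.Pd571 Crest.Agent.R276.PdL571

variable {m N w : ℕ} {X : Type*} [TopologicalSpace X] [RDom m X] {V : VHS m X N w}

/-- null vectors of the period metric -/
theorem TE_of_gP {x : X} {v : Fin m → ℂ} (h : ∀ k, ∑ j, v j * gP V x j k = 0) : TE V x v = 0 := by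
  rw [TE_eq_zero_iff, bf_apply]
  have h1 : (gP V x)ᵀ *ᵥ v = 0 := by
    funext k
    have h2 := h k
    simp only [Matrix.mulVec, dotProduct, Matrix.transpose_apply, Pi.zero_apply]
    rw [← h2]
    exact Finset.sum_congr rfl fun j _ => mul_comm _ _
  rw [h1]
  simp

/-- **null vectors of the period metric kill the derivative of the Hodge structure** -/
theorem dM_of_gP {x : X} {v : Fin m → ℂ} (h : ∀ k, ∑ j, v j * gP V x j k = 0) :
    ∑ j, v j • dM V.P V.E j x = 0 := by
  have h1 := TE_of_gP h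
  have h2 : TE V x (Complex.I • v) = 0 := TE_of_gP fun k => by
    simp only [Pi.smul_apply, smul_eq_mul, mul_assoc]
    rw [← Finset.mul_sum, h k, mul_zero]
  ext i k
  rw [Matrix.sum_apply]
  have h3 := wz_sum (D (fun y => lM V.P V.E x y i k) x) v
  have h4 : D (fun y => lM V.P V.E x y i k) x v = 0 := congrFun (congrFun h1 i) k
  have h5 : D (fun y => lM V.P V.E x y i k) x (Complex.I • v) = 0 := congrFun (congrFun h2 i) k
  rw [h4, h5, mul_zero, sub_zero, mul_zero] at h3
  rw [Matrix.zero_apply, h3]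
  rfl


end Crest.Agent.R276.Restr_236
end
end

-- ▼ part R276/LPerTow_849
section

/-!
# Row 276 (S0419), leaf LPerTow (helper849)

`lperTow_of` : `Skel_220.LPerTow` from the transport of `GeoD` along comparisons; `lperTow`.
-/

set_option autoImplicit false
set_option linter.unusedSectionVars false

open Topology Filter Set Matrix

noncomputable section

namespace Crest.Agent.R276.LPerTow_849

open Crest.Agent.R271.Defs710 Crest.Agent.R271.Rd692 Crest.Agent.R271.Ho51
open Crest.Agent.R276.Mod1_987 Crest.Agent.R276.TowA_849 Crest.Agent.R276.TowB_849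
open Crest.Agent.R276.ModPack_849 Crest.Agent.R276.CmpR_652 Crest.Agent.R276.Cmp_595
open Crest.Agent.R276.Ipc735 Crest.Agent.R276.VPull_327 Crest.Agent.R276.PfDer_676
open Crest.Agent.R276.CompA_849 Crest.Agent.R276.SkelGeo_220 Crest.Agent.R276.SkelDefs_220
open Crest.Agent.R276.VLevi_327 (thV)

/-! ### the Higgs field -/

section th

variable {m N w : ℕ} {X : Type*} [TopologicalSpace X] [RDom m X]

/-- the kernel of `θ` is the kernel of the period metric -/
theorem thV_iff_gP (V : VHS m X N w) (z : X) (v : Fin m → ℂ) :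
    thV V z v = 0 ↔ ∀ k, ∑ j, v j * Pd571.gP V z j k = 0 := by
  constructor
  · intro h k
    have h1 : ∑ j, v j * Pd571.gP V z j k = -(thV V z v * Pd571.dMb V.P V.E k z).trace := by
      unfold thV
      rw [Finset.sum_mul, Matrix.trace_sum, ← Finset.sum_neg_distrib]
      refine Finset.sum_congr rfl fun j _ => ?_
      rw [Matrix.smul_mul, Matrix.trace_smul, smul_eq_mul]
      simp only [Pd571.gP, Matrix.of_apply]
      ring
    rw [h1, h, Matrix.zero_mul, Matrix.trace_zero, neg_zero]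
  · intro h
    exact Restr_236.dM_of_gP h

/-- `θ` of a pull back -/
theorem thV_pull {r : ℕ} {Y : Type*} [TopologicalSpace Y] [RDom r Y] (V : VHS m X N w)
    {φ : Y → X} (hφ : HMap φ) (z : Y) (v : Fin r → ℂ) :
    thV (pull V hφ) z v = thV V (φ z) (jac φ z v) := by
  unfold thV
  simp only [dM_pull_E, Finset.smul_sum, smul_smul]
  rw [Finset.sum_comm]
  refine Finset.sum_congr rfl fun l _ => ?_
  rw [← Finset.sum_smul, jac_apply]

end th

/-- transport of `GeoD` along a comparison (220) -/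
def GTr : Prop :=
  ∀ (L K : Type) [Field L] [Field K] [Algebra ℂ L] [Algebra ℂ K] [Algebra L K]
    [IsScalarTower ℂ L K] (m r N s : ℕ) (σ : Fin s → K) (R R' : RMdl L K m r) (X : GeoD R N σ)
    (h : Cmp R R'), (∀ w, Nonempty (R'.Fib w)) →
    ∃ X' : GeoD R' N σ, (X.Hull → X'.Hull) ∧
      ∀ z v, thV X'.V z v = 0 ↔ thV X.V (h.rL z) (jac h.rL z v) = 0

theorem lperTow_of (hTr : GTr) : Skel_220.LPerTow := by
  intro L K _ _ _ _ _ _ m r hSet hm hr R₀ N s σ X₀ hH₀
  have hLK : BN1_143.AC L K := fun a ha => by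
    obtain ⟨c, hc⟩ := hSet.ac a ha
    exact ⟨c, hc⟩
  obtain ⟨s', p, T, hp, hT, htr, hsl⟩ := exists_slp hm X₀.V
  have hne : ∀ w, Nonempty (R₀.Fib w) := fun w => (X₀.sat.conn w).toNonempty
  have hcmp : Cmp R₀ (R₀.shrink p hp 1 one_ne_zero) := Cmp.shrink_self R₀ p hp 1 one_ne_zero
  have hle : Le R₀ (R₀.shrink p hp 1 one_ne_zero) := le_shrink R₀ hp one_ne_zero
  obtain ⟨X₁, hH₁, hth₁⟩ := hTr L K m r N s σ R₀ _ X₀ hcmp (nonempty_fib_shrink hne p hp)
  replace hH₁ := hH₁ hH₀
  obtain ⟨S, hSs⟩ := hsl (R₀.shrink p hp 1 one_ne_zero).ML hle.zL hle.bL 1 (by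
    rw [pow_one]
    exact Dvd.intro_left _ rfl)
  have hS' : ∃ S : Slp (vL hcmp X₀.V) T, S.s = s' := ⟨S, hSs⟩
  obtain ⟨S1, hS1s⟩ := hS'
  clear S hSs
  have hth : ∀ z v, thV X₁.V z v = 0 ↔ thV (vL hcmp X₀.V) z v = 0 := fun z v => by
    rw [hth₁]
    exact (congrArg (fun A => A = 0) (thV_pull X₀.V _ z v)).symm.to_iff
  have hxeq : ∀ j, (R₀.shrink p hp 1 one_ne_zero).MK.zK (Fin.natAdd m j) =
    R₀.MK.zK (Fin.natAdd m j) := fun j => hcmp.x_eq j
  generalize vL hcmp X₀.V = V₁ at *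
  clear hth₁
  generalize (R₀.shrink p hp 1 one_ne_zero) = R₁ at *
  obtain ⟨ρ, a, t, z, hma, ht, -, hz⟩ :=
    exists_coords T (Cmp_595.isTranscendenceBasis R₁.ML)
  have hρ : s'.card = ρ := by
    have h1 := ht.cardinalMk_eq_trdeg
    rw [htr] at h1
    simp only [Cardinal.mk_fin] at h1
    exact (Nat.cast_injective h1).symm
  have hcard : S1.s.card = ρ := hS1s ▸ hρ
  subst hma
  obtain ⟨W, hW1, hW2, hW3, hW4, hW5⟩ := modpack (ac_of_mem T hT) hLK R₁ ht hz
  refine ⟨T, ρ, a, W, rfl, hT, fun j => (hW3 j).trans (hxeq j), hW5.mono fun W' h => ?_⟩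
  obtain ⟨-, hg, hc⟩ := h
  obtain ⟨X', hH', hth'⟩ := hTr L K _ _ N s σ R₁ W'.LK X₁ hc (nonempty_fib hg.surjLK)
  suffices key : ∀ (z : W'.LK.ML.Pts) (v : Fin (ρ + a) → ℂ),
      (∀ i : Fin ρ, v (Fin.castAdd a i) = 0) ↔ thV X'.V z v = 0 from
    ⟨hg.relTL, hg.relLK, hg.conn_relTL, hg.conn_relLK, X', hH' hH₁, key⟩
  intro z v
  have hca : Fintype.card {i // i ∉ S1.s} = a := by
    rw [Fintype.card_subtype_compl, Fintype.card_fin, Fintype.card_coe, hcard]
    omega
  have ht' : ∀ i k, Df R₁.ML (fun l => (S1.f i l : L)) (W'.LK.ML.zK (Fin.castAdd a k)) = 0 := by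
    intro i k
    have h1 : W'.LK.ML.zK (Fin.castAdd a k) ∈ T := by
      have h2 : W'.LK.ML.zK (Fin.castAdd a k) = algebraMap T L (W'.MT.zK k) := W'.zL k
      rw [h2]
      exact (W'.MT.zK k).2
    exact (S1.mem _).mp h1 i
  have hdet : ∀ y : R₁.ML.Pts,
      ((Pd571.gP V₁ y).submatrix (S1.e.symm ∘ Sum.inr) (S1.e.symm ∘ Sum.inr)).det ≠ 0 := by
    intro y h0
    have := S1.pos y
    rw [h0] at this
    simp at this
  have h3 := Vert_595.vertical_iff_pull V₁ hc.locL S1.e S1.f hca S1.f1 S1.f0 hdet ht' z v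
  have h4 := (thV_iff_gP (pull V₁ (hMap_rs hc.locL)) z v).symm
  have h5 := congrArg (fun A => A = 0) (thV_pull V₁ (hMap_rs hc.locL) z v)
  exact h3.trans (h4.trans (h5.to_iff.trans ((hth _ _).symm.trans (hth' z v).symm)))

/-- **LPerTow** -/
theorem lperTow : Skel_220.LPerTow :=
  lperTow_of fun _ _ _ _ _ _ _ _ _ _ _ _ _ _ _ X h hs => X.tr h hs

end Crest.Agent.R276.LPerTow_849
end
end

-- ▼ part R276/WdC_450
section

/-!
# R276, leaf DESC-WD (helper450), part C: the weights of a `WD` structure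

For any `h : WD V om u M0 f ι φ ψ`:
* `sm_φ`, `sm_ψ`, `psh_φ`, `psh_ψ`;
* `levi_φ`, `levi_ψ` : the Levi forms upstairs;
* `good`, `exists_nu` : the good point of the counting argument;
* `pgr_φ`, `pgr_ψ` : polynomial growth on the model of the base.
-/

set_option autoImplicit false
set_option linter.unusedSectionVars false

noncomputable section

open Set Filter Topology Matrix ComplexConjugate
open scoped ContDiff ComplexOrder
open Crest.Agent.R271.Ho51 Crest.Agent.R276.Ipc735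
open Crest.Agent.R276.DescC_327 (Prj upd upd_ι upd_of_notMem upd_comp fg)
open Crest.Agent.R276.DescF_327 (Fl)
open Crest.Agent.R276.LftDefs_327 (WD)
open Crest.Agent.R276.VLevi_327 (gV gdet CYL psi hn thV)
open Crest.Agent.R276.NL_137 (Sm_log Sm_normSq Lv_log_normSq Levi_const_mul)

namespace Crest.Agent.R276.Wd_450

section wd

variable {n m N w : ℕ} {M X : Type*} [TopologicalSpace M] [RDom n M] [TopologicalSpace X]
  [RDom m X] {V : VHS m X N w} {om : X → Fin N → ℂ} {u : X → ℂ} {M0 : ℕ} {f : X → M}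
  {ι : Fin n → Fin m} {φ ψ : M → ℝ} (h : WD V om u M0 f ι φ ψ)

include h

theorem sm_u : Sm u := fun x => VPull_327.HolAt.smAt (h.uhol x)

theorem sm_logu : Sm (fun x => Real.log (‖u x‖ ^ 2)) :=
  Sm_log (Sm_normSq (sm_u h)) fun x => by
    have := norm_pos_iff.2 (h.une x)
    positivity

theorem φ_comp : (fun x => φ (f x)) = fun x => Real.log (gdet V ι x) := funext h.hφ

theorem ψ_comp : (fun x => ψ (f x)) =
    fun x => psi V om x + (-(1 / M0 : ℝ)) * Real.log (‖u x‖ ^ 2) := by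
  funext x
  rw [h.hψ]
  ring

theorem sm_φ : Sm φ := by
  refine sm_of_comp h.prj h.surj fun x => ?_
  rw [φ_comp h]
  exact Sm_log (VLevi_327.gdet_Sm V ι) h.pos x

theorem sm_ψ : Sm ψ := by
  refine sm_of_comp h.prj h.surj fun x => ?_
  rw [ψ_comp h]
  exact (h.cyl.psi_Sm.add ((Sm.const (-(1 / M0 : ℝ))).mulR (sm_logu h))) x

/-- Levi form of `φ`, upstairs -/
theorem levi_φ (x : X) (v : Fin m → ℂ) :
    Levi φ (f x) (fun i => v (ι i)) = Levi (fun x => Real.log (gdet V ι x)) x v := by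
  rw [Prj.levi h.prj (sm_φ h), φ_comp h]

theorem levi_logu (x : X) (v : Fin m → ℂ) : Levi (fun x => Real.log (‖u x‖ ^ 2)) x v = 0 := by
  unfold Levi
  have h1 : ∀ j k, Lv (fun y => Real.log (‖u y‖ ^ 2)) x j k = 0 := fun j k =>
    Lv_log_normSq (sm_u h) (fun k x => VPull_327.HolAt.db (h.uhol x) k) h.une x j k
  simp only [h1, zero_mul, Finset.sum_const_zero, Complex.zero_re]

/-- Levi form of `ψ`, upstairs -/
theorem levi_ψ (x : X) (v : Fin m → ℂ) :
    Levi ψ (f x) (fun i => v (ι i)) = Levi (psi V om) x v := by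
  rw [Prj.levi h.prj (sm_ψ h), ψ_comp h,
    Levi_add h.cyl.psi_Sm ((Sm.const (-(1 / M0 : ℝ))).mulR (sm_logu h)),
    Levi_const_mul (sm_logu h), levi_logu h, mul_zero, add_zero]

theorem psh_φ (τ : M) (v : Fin n → ℂ) : 0 ≤ Levi φ τ v := by
  obtain ⟨x, rfl⟩ := h.surj τ
  have h1 := levi_φ h x (upd ι 0 v)
  rw [upd_comp h.prj.inj] at h1
  rw [h1]
  exact VLevi_327.Levi_log_gdet_nonneg V ι (h.pos x) _

theorem psh_ψ (τ : M) (v : Fin n → ℂ) : 0 ≤ Levi ψ τ v := by
  obtain ⟨x, rfl⟩ := h.surj τ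
  have h1 := levi_ψ h x (upd ι 0 v)
  rw [upd_comp h.prj.inj] at h1
  rw [h1]
  exact h.cyl.Levi_psi_nonneg x _

/-- `|u|² |om|^{2 M0} = exp (-M0 ψ)` -/
theorem norm_u (x : X) : ‖u x‖ ^ 2 * hn V x (om x) ^ M0 = Real.exp (-(M0 * ψ (f x))) := by
  have h1 : 0 < hn V x (om x) := VLevi_327.hn_pos V x (h.cyl.ne x)
  have h2 : 0 < ‖u x‖ ^ 2 := by
    have := norm_pos_iff.2 (h.une x)
    positivity
  have h3 : (M0 : ℝ) ≠ 0 := by exact_mod_cast h.hM.ne'
  rw [← Real.exp_log (show 0 < ‖u x‖ ^ 2 * hn V x (om x) ^ M0 by positivity)]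
  congr 1
  have h4 : Real.log (hn V x (om x) ^ M0) = M0 * Real.log (hn V x (om x)) := Real.log_pow _ _
  rw [Real.log_mul h2.ne' (by positivity), h4, h.hψ]
  unfold VLevi_327.psi
  generalize Real.log (‖u x‖ ^ 2) = L
  field_simp
  ring

/-! ### the kernel of the Levi form of `ψ` -/

/-- the kernel of `Levi ψ` at `f x` -/
def kerψ (_h : WD V om u M0 f ι φ ψ) (x : X) : Submodule ℂ (Fin n → ℂ) where
  carrier := {v | thV V x (upd ι 0 v) *ᵥ om x = 0}
  zero_mem' := by
    show thV V x (upd ι 0 0) *ᵥ om x = 0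
    have h1 : upd ι (0 : Fin m → ℂ) 0 = 0 := by
      have := DescC_327.upd_self (ι := ι) (0 : Fin m → ℂ)
      exact this
    rw [h1]
    unfold VLevi_327.thV
    simp
  add_mem' := by
    intro a b ha hb
    show thV V x (upd ι 0 (a + b)) *ᵥ om x = 0
    have h1 : upd ι (0 : Fin m → ℂ) (a + b) = upd ι 0 a + upd ι 0 b := by
      classical
      funext j
      simp only [Pi.add_apply, DescC_327.upd]
      split_ifs <;> simp
    have h2 : thV V x (upd ι 0 (a + b)) = thV V x (upd ι 0 a) + thV V x (upd ι 0 b) := by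
      rw [h1]
      unfold VLevi_327.thV
      rw [← Finset.sum_add_distrib]
      exact Finset.sum_congr rfl fun j _ => by rw [Pi.add_apply, add_smul]
    have ha' : thV V x (upd ι 0 a) *ᵥ om x = 0 := ha
    have hb' : thV V x (upd ι 0 b) *ᵥ om x = 0 := hb
    rw [h2, Matrix.add_mulVec, ha', hb', add_zero]
  smul_mem' := by
    intro c a ha
    show thV V x (upd ι 0 (c • a)) *ᵥ om x = 0
    have h1 : upd ι (0 : Fin m → ℂ) (c • a) = c • upd ι 0 a := by
      classical
      funext j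
      simp only [Pi.smul_apply, DescC_327.upd]
      split_ifs <;> simp
    have h2 : thV V x (upd ι 0 (c • a)) = c • thV V x (upd ι 0 a) := by
      rw [h1]
      unfold VLevi_327.thV
      rw [Finset.smul_sum]
      exact Finset.sum_congr rfl fun j _ => by rw [Pi.smul_apply, smul_assoc]
    have ha' : thV V x (upd ι 0 a) *ᵥ om x = 0 := ha
    rw [h2, Matrix.smul_mulVec, ha', smul_zero]

theorem mem_kerψ (x : X) (v : Fin n → ℂ) : v ∈ kerψ h x ↔ Levi ψ (f x) v = 0 := by
  have h1 := levi_ψ h x (upd ι 0 v)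
  rw [upd_comp h.prj.inj] at h1
  rw [h1, h.cyl.Levi_psi, div_eq_zero_iff]
  have h2 : hn V x (om x) ≠ 0 := (VLevi_327.hn_pos V x (h.cyl.ne x)).ne'
  constructor
  · intro hv
    left
    have hv' : thV V x (upd ι 0 v) *ᵥ om x = 0 := hv
    rw [hv']
    simp [VLevi_327.hn, Desc_327.qf]
  · rintro (h3 | h3)
    · by_contra hne
      exact (VLevi_327.hn_pos V x (v := thV V x (upd ι 0 v) *ᵥ om x) hne).ne' h3
    · exact absurd h3 h2

end wd

/-! ### the variation along a local section -/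

section frame

open Crest.Agent.R276.BdNf1_651 (HM Fr)
open VCalc_442 (dW th gm bn sf)

attribute [local instance] Matrix.linftyOpNormedRing Matrix.linftyOpNormedAlgebra

variable {m N w : ℕ} {X : Type*} [TopologicalSpace X] [RDom m X] {V : VHS m X N w}
  {om : X → Fin N → ℂ} {Y : Type*} [NormedAddCommGroup Y] [NormedSpace ℂ Y]
  [FiniteDimensional ℂ Y] {Ω : Set Y} {χ : Y → X}

/-- the line is parallel in the flat frame: `∂_v σ = θ_v σ + l σ` -/
theorem dσ (hL : CYL V om) (hm : HM Ω χ) (n : Fr V Ω χ) {z : Y} (hz : z ∈ Ω) (v : Y) :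
    ∃ l : ℂ, dW (n.pull om) v z =
      th w (fun p z => hq w (n.E z) p) v z *ᵥ n.pull om z + l • n.pull om z := by
  set x := χ z with hx
  set v' : Fin m → ℂ := fderiv ℂ (fun y => (cp (χ y) : Fin m → ℂ)) z v with hv'
  have han : AnalyticAt ℂ (lV V.P om x ∘ (ch x).symm) (cp x) := hL.hol x
  obtain ⟨cj, hcj⟩ : ∃ cj : Fin m → ℂ, ∀ j, (fun i => dz j (fun y => lV V.P om x y i) x) =
      dM V.P V.E j x *ᵥ om x + cj j • om x := ⟨fun j => (hL.par x j).choose, fun j =>
        (hL.par x j).choose_spec⟩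
  have hD : fderiv ℂ (lV V.P om x ∘ (ch x).symm) (cp x) v' =
      thV V x v' *ᵥ om x + (∑ j, v' j * cj j) • om x := by
    rw [← VCalc_442.dW_of_diff han.differentiableAt]
    have h1 : ∀ j, dW (lV V.P om x ∘ (ch x).symm) (Pi.single j 1) (cp x) =
        fun i => dz j (fun y => lV V.P om x y i) x := by
      intro j
      funext i
      have hd : DifferentiableAt ℝ (lV V.P om x ∘ (ch x).symm) (cp x) :=
        han.differentiableAt.restrictScalars ℝ
      rw [← VCalc_442.dW_apply hd]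
      rw [dz_eq_dW j _ (isCh_ch x) (mem_ch x)]
      rfl
    conv_lhs => rw [pi_eq_sum_univ' v']
    rw [VCalc_442.dW_sum_dir]
    have h2 : ∑ j, v' j • dW (lV V.P om x ∘ (ch x).symm) (Pi.single j 1) (cp x) =
        ∑ j, (v' j • (dM V.P V.E j x *ᵥ om x) + (v' j * cj j) • om x) := by
      refine Finset.sum_congr rfl fun j _ => ?_
      rw [h1 j, hcj j, smul_add, smul_smul]
    rw [h2, Finset.sum_add_distrib, ← Finset.sum_smul]
    congr 1
    unfold VLevi_327.thV
    rw [Matrix.sum_mulVec]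
    exact Finset.sum_congr rfl fun j _ => by rw [Matrix.smul_mulVec]
  refine ⟨∑ j, v' j * cj j, ?_⟩
  rw [VCalc_442.dW_of_diff (n.pull_analytic hm hz (hL.hol x)).differentiableAt,
    n.fderiv_pull hm hz (hL.hol x), hD, GrAs1_857.th_eq n hm hz]
  have h5 : n.pull om z = cm (n.g z)⁻¹ *ᵥ om x := rfl
  rw [h5, Matrix.mulVec_add, Matrix.mulVec_smul]
  congr 1
  rw [Matrix.mulVec_mulVec, Matrix.mulVec_mulVec]
  congr 1
  have h4 : cm (n.g z) * cm (n.g z)⁻¹ = 1 := cm_mul_cm_inv _
  rw [Matrix.mul_assoc, h4, Matrix.mul_one]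
  rfl

/-- the line as a section of the top piece -/
theorem bot (hL : CYL V om) (hm : HM Ω χ) (n : Fr V Ω χ) :
    VCalc_442.Bot w Ω (fun p z => hq w (n.E z) p) (n.pull om) := by
  refine ⟨fun z hz => ?_, fun z hz => ?_, fun z hz => ?_⟩
  · exact (n.pull_analytic hm hz (hL.hol (χ z))).differentiableAt.differentiableWithinAt
  · exact (((n.pull_analytic hm hz (hL.hol (χ z))).contDiffAt).restrict_scalars
      ℝ).contDiffWithinAt
  · show hq w (n.E z) w *ᵥ n.pull om z = n.pull om z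
    rw [hq_of_le le_rfl, (n.hs hz).hpr_mulVec_of_eig le_rfl (n.pull_eig (hL.eig (χ z))) le_rfl,
      if_pos rfl]

/-- the norm of the line -/
theorem hn_eq (hL : CYL V om) (n : Fr V Ω χ) {z : Y} (hz : z ∈ Ω) :
    hn V (χ z) (om (χ z)) = bn w n.S (n.pull om) z := by
  unfold VLevi_327.hn Desc_327.qf VCalc_442.bn VCalc_442.sf
  rw [← n.hodge_pull hz om om, (n.hs hz).hodge_mulVec_of_eig le_rfl (n.pull_eig (hL.eig (χ z))),
    dotProduct_smul, smul_eq_mul]

/-- the line is parallel -/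
theorem par_line (hL : CYL V om) (hm : HM Ω χ) (n : Fr V Ω χ) {z : Y} (hz : z ∈ Ω) (v : Y) :
    ∃ l : ℂ, hq w (n.E z) w *ᵥ dW (n.pull om) v z = l • n.pull om z := by
  obtain ⟨l, hl⟩ := dσ hL hm n hz v
  have hV := n.vhs hm
  have hb := bot hL hm n
  refine ⟨l, ?_⟩
  rw [hl, Matrix.mulVec_add, Matrix.mulVec_smul]
  have h1 : hq w (n.E z) w *ᵥ n.pull om z = n.pull om z := hb.mem z hz
  have h2 := hV.bot_orth hb hz v
  rw [← hV.th_eq hz] at h2
  have h3 : hq w (n.E z) w *ᵥ (th w (fun p z => hq w (n.E z) p) v z *ᵥ n.pull om z) = 0 := h2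
  rw [h1, h3, zero_add]

end frame

section good

open Crest.Agent.R276.BdNf1_651 (HM Fr)
open VCalc_442 (dW th gm bn sf)

variable {n m N w : ℕ} {M X : Type*} [TopologicalSpace M] [RDom n M] [TopologicalSpace X]
  [RDom m X] {V : VHS m X N w} {om : X → Fin N → ℂ} {u : X → ℂ} {M0 : ℕ} {f : X → M}
  {ι : Fin n → Fin m} {φ ψ : M → ℝ}

/-- the local section in coordinates -/
def ls (ι : Fin n → Fin m) (x : X) (c : Fin n → ℂ) : X := (ch x).symm (upd ι (cp x) c)

/-- the linear part of `upd` -/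
def updL (ι : Fin n → Fin m) : (Fin n → ℂ) →ₗ[ℂ] (Fin m → ℂ) where
  toFun := upd ι 0
  map_add' a b := by
    classical
    funext j
    simp only [Pi.add_apply, DescC_327.upd]
    split_ifs <;> simp
  map_smul' c a := by
    classical
    funext j
    simp only [Pi.smul_apply, DescC_327.upd, RingHom.id_apply]
    split_ifs <;> simp

theorem hasFDerivAt_upd (a : Fin m → ℂ) (c : Fin n → ℂ) :
    HasFDerivAt (upd ι a) (updL ι).toContinuousLinearMap c := by
  have h1 : upd ι a = fun c => (updL ι).toContinuousLinearMap c + upd ι a 0 := by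
    classical
    funext c j
    show upd ι a c j = upd ι 0 c j + upd ι a 0 j
    simp only [DescC_327.upd]
    split_ifs <;> simp
  rw [h1]
  exact ((updL ι).toContinuousLinearMap.hasFDerivAt).add_const _

theorem exists_hm (hf : Prj ι f) (x : X) : ∃ Ω : Set (Fin n → ℂ), cp (f x) ∈ Ω ∧
    HM Ω (ls ι x) ∧ (∀ c ∈ Ω, cp (ls ι x c) = upd ι (cp x) c) ∧
    ∀ c ∈ Ω, f (ls ι x c) = (ch (f x)).symm c := by
  have hup : Continuous (upd ι (cp x : Fin m → ℂ)) :=
    continuous_iff_continuousAt.2 fun c => (hasFDerivAt_upd _ c).continuousAt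
  have hbase : upd ι (cp x) (cp (f x)) = cp x := hf.upd_base x
  have h1 : ∀ᶠ c in 𝓝 (cp (f x) : Fin n → ℂ), upd ι (cp x) c ∈ (ch x).target := by
    refine hup.continuousAt.eventually ((ch x).open_target.mem_nhds ?_)
    rw [hbase]
    exact (isCh_ch x).cp_mem (mem_ch x)
  have h2 : Tendsto (ls ι x) (𝓝 (cp (f x))) (𝓝 x) := by
    have h3 : Tendsto (upd ι (cp x)) (𝓝 (cp (f x))) (𝓝 (cp x)) := by
      have := hup.continuousAt (x := cp (f x))
      rwa [ContinuousAt, hbase] at this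
    exact (VPull_327.tendsto_symm x).comp h3
  have h3 : ∀ᶠ c in 𝓝 (cp (f x) : Fin n → ℂ), f (ls ι x c) = (ch (f x)).symm c := by
    filter_upwards [h2.eventually (hf.ev_eq x), h1] with c hc hc1
    rw [hc]
    congr 1
    have h4 : cp (ls ι x c) = upd ι (cp x) c := (isCh_ch x).cp_symm hc1
    rw [h4, DescC_327.fg_upd hf.inj]
  obtain ⟨r, hr, hball⟩ := Metric.mem_nhds_iff.1 (h1.and h3)
  have hcp : ∀ c ∈ Metric.ball (cp (f x) : Fin n → ℂ) r, cp (ls ι x c) = upd ι (cp x) c :=
    fun c hc => (isCh_ch x).cp_symm (hball hc).1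
  refine ⟨Metric.ball (cp (f x)) r, Metric.mem_ball_self hr,
    ⟨Metric.isOpen_ball, convex_ball _ _, ⟨_, Metric.mem_ball_self hr⟩, ?_, ?_⟩, hcp,
    fun c hc => (hball hc).2⟩
  · exact (ch x).symm.continuousOn.comp hup.continuousOn fun c hc => (hball hc).1
  · intro c hc
    exact ((hasFDerivAt_upd (cp x) c).differentiableAt.congr_of_eventuallyEq (by
      filter_upwards [Metric.isOpen_ball.mem_nhds hc] with y hy
      exact hcp y hy)).differentiableWithinAt

theorem fderiv_ls {x : X} {Ω : Set (Fin n → ℂ)} (ho : IsOpen Ω)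
    (hcp : ∀ c ∈ Ω, cp (ls ι x c) = upd ι (cp x) c) {c : Fin n → ℂ} (hc : c ∈ Ω)
    (v : Fin n → ℂ) :
    fderiv ℂ (fun y => (cp (ls ι x y) : Fin m → ℂ)) c v = upd ι 0 v := by
  have h1 : (fun y => (cp (ls ι x y) : Fin m → ℂ)) =ᶠ[𝓝 c] upd ι (cp x) := by
    filter_upwards [ho.mem_nhds hc] with y hy
    exact hcp y hy
  rw [h1.fderiv_eq, (hasFDerivAt_upd _ c).fderiv]
  rfl

/-- `θ` is injective in the directions `ι` -/
theorem thV_inj (hι : Function.Injective ι) {x : X} (hpos : 0 < gdet V ι x) {v : Fin n → ℂ}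
    (hv : thV V x (upd ι 0 v) = 0) : v = 0 := by
  classical
  set G : Matrix (Fin n) (Fin n) ℂ := Matrix.of fun i j => gV V (ι i) (ι j) x with hG
  have hdet : G.det ≠ 0 := by
    intro h0
    unfold VLevi_327.gdet at hpos
    rw [← hG, h0] at hpos
    exact lt_irrefl _ hpos
  refine Matrix.eq_zero_of_vecMul_eq_zero hdet ?_
  funext j
  show ∑ i, v i * gV V (ι i) (ι j) x = 0
  have h1 : thV V x (upd ι 0 v) = ∑ i, v i • dM V.P V.E (ι i) x := by
    unfold VLevi_327.thV
    symm
    refine Fintype.sum_of_injective ι hι _ _ ?_ ?_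
    · intro j hj
      rw [upd_of_notMem _ _ fun i hi => hj ⟨i, hi⟩]
      simp
    · intro i
      rw [upd_ι hι]
  rw [h1] at hv
  unfold VLevi_327.gV
  have h2 : ∑ i, v i * (dM V.P V.E (ι i) x * -VLevi_327.dMb V.P V.E (ι j) x).trace =
      ((∑ i, v i • dM V.P V.E (ι i) x) * -VLevi_327.dMb V.P V.E (ι j) x).trace := by
    rw [Finset.sum_mul, Matrix.trace_sum]
    refine Finset.sum_congr rfl fun i _ => ?_
    rw [Matrix.smul_mul, Matrix.trace_smul, smul_eq_mul]
  rw [h2, hv, Matrix.zero_mul, Matrix.trace_zero]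

/-- **the good point**: at `f x`, if `ν` is at most the rank of `Levi ψ` there -/
theorem good (h : WD V om u M0 f ι φ ψ) (x : X) {ν : ℕ}
    (hν : ∀ K : Submodule ℂ (Fin n → ℂ), (∀ v ∈ K, Levi ψ (f x) v = 0) →
      ν + Module.finrank ℂ K ≤ n) : Nonempty (CntDefs_857.Good φ ψ ν) := by
  obtain ⟨Ω, hxΩ, hm, hcp, hfs⟩ := exists_hm h.prj x
  obtain ⟨fr⟩ := BdNf1_651.exists_fr V hm
  have hx : ls ι x (cp (f x)) = x := by
    unfold ls
    rw [h.prj.upd_base, symm_cp]
  have hfd : ∀ c ∈ Ω, ∀ v, fderiv ℂ (fun y => (cp (ls ι x y) : Fin m → ℂ)) c v = upd ι 0 v :=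
    fun c hc v => fderiv_ls hm.op hcp hc v
  refine GoodLoc_442.exists_good (e := ch (f x)) (isCh_ch (f x)) (mem_ch (f x)) (fr.vhs hm) hxΩ
    (bot h.cyl hm fr) (a := 1) (g := fun c => u (ls ι x c)) ?_ ?_ ?_ one_pos ?_ ?_ (-(1 / M0 : ℝ))
    ?_ ?_ hν
  · -- `σ ≠ 0`
    rw [Ne, fr.pull_eq_zero_iff, hx]
    exact h.cyl.ne x
  · -- parallel
    exact fun z hz v => par_line h.cyl hm fr hz v
  · -- immersive
    intro v hv
    rw [GrAs1_857.th_eq fr hm hxΩ] at hv
    have h1 : ∑ j, (fderiv ℂ (fun y => (cp (ls ι x y) : Fin m → ℂ)) (cp (f x)) v) j •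
        dM V.P V.E j (ls ι x (cp (f x))) = thV V x (upd ι 0 v) := by
      rw [hfd _ hxΩ, hx]
      rfl
    rw [h1] at hv
    refine thV_inj h.prj.inj (h.pos x) ?_
    have h4 : cm (fr.g (cp (f x))) * cm (fr.g (cp (f x)))⁻¹ = 1 := cm_mul_cm_inv _
    calc thV V x (upd ι 0 v) = (cm (fr.g (cp (f x))) * cm (fr.g (cp (f x)))⁻¹) *
          thV V x (upd ι 0 v) * (cm (fr.g (cp (f x))) * cm (fr.g (cp (f x)))⁻¹) := by
          rw [h4]; simp
      _ = cm (fr.g (cp (f x))) * (cm (fr.g (cp (f x)))⁻¹ *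
          thV V x (upd ι 0 v) * cm (fr.g (cp (f x)))) * cm (fr.g (cp (f x)))⁻¹ := by
          noncomm_ring
      _ = 0 := by rw [hv]; simp
  · -- `g` analytic
    have h1 : AnalyticAt ℂ (u ∘ (ch x).symm) (upd ι (cp x) (cp (f x))) := by
      rw [h.prj.upd_base]
      exact h.uhol x
    exact h1.comp (DescC_327.upd_analytic (cp x) (cp (f x)))
  · exact h.une _
  · -- `φ`
    filter_upwards [hm.op.mem_nhds hxΩ] with z hz
    rw [← hfs z hz, h.hφ]
    have h1 := GrAs1_857.det_gm fr hm h.fl h.prj.inj hz (GoodLoc_442.fr n)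
    have h2 : (Matrix.of fun i k => (fderiv ℂ (fun y => (cp (ls ι x y) : Fin m → ℂ)) z
        (GoodLoc_442.fr n i)) (ι k)) = (1 : Matrix (Fin n) (Fin n) ℂ) := by
      ext i k
      rw [Matrix.of_apply, hfd z hz, upd_ι h.prj.inj, Matrix.one_apply]
      unfold GoodLoc_442.fr
      rw [Pi.single_apply]
      by_cases hik : i = k
      · rw [if_pos hik.symm, if_pos hik]
      · rw [if_neg (Ne.symm hik), if_neg hik]
    rw [h2, Matrix.det_one, norm_one, one_pow, one_mul] at h1
    rw [h1]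
  · -- `ψ`
    filter_upwards [hm.op.mem_nhds hxΩ] with z hz
    rw [← hfs z hz, h.hψ, one_mul]
    unfold VLevi_327.psi
    rw [hn_eq h.cyl fr hz]
    ring

/-- **the generic rank**: a good point of rank `ν`, and the rank of `Levi ψ` is `≤ ν` everywhere -/
theorem exists_nu [Nonempty X] (h : WD V om u M0 f ι φ ψ) : ∃ ν ≤ n,
    Nonempty (CntDefs_857.Good φ ψ ν) ∧ ∀ τ : M, ∃ S : Submodule ℂ (Fin n → ℂ),
      n ≤ Module.finrank ℂ S + ν ∧ ∀ v ∈ S, Levi ψ τ v = 0 := by
  classical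
  set P : ℕ → Prop := fun k => ∃ x : X, Module.finrank ℂ (kerψ h x) = k with hP
  have hex : ∃ k, P k := ⟨_, Classical.arbitrary X, rfl⟩
  obtain ⟨x, hx⟩ := Nat.find_spec hex
  set k := Nat.find hex with hk
  have hkn : k ≤ n := by
    rw [← hx]
    have := Submodule.finrank_le (kerψ h x)
    simpa using this
  refine ⟨n - k, Nat.sub_le _ _, good h x fun K hK => ?_, fun τ => ?_⟩
  · have h1 : K ≤ kerψ h x := fun v hv => (mem_kerψ h x v).2 (hK v hv)
    have h2 := Submodule.finrank_mono h1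
    rw [hx] at h2
    omega
  · obtain ⟨y, rfl⟩ := h.surj τ
    refine ⟨kerψ h y, ?_, fun v hv => (mem_kerψ h y v).1 hv⟩
    have h1 : k ≤ Module.finrank ℂ (kerψ h y) := Nat.find_min' hex ⟨y, rfl⟩
    omega

end good

end Crest.Agent.R276.Wd_450
end
end

-- ▼ part R276/WdD_450
section

/-!
# R276, leaf DESC-WD (helper450), part D: growth of the descended weights

`R : RMdl T L ρ a`, `h : WD V om u M0 R.q (Fin.castAdd a) φ ψ`, `u` a unit of `R.MK.B`,
`specR ξ R.MK.h ∣ R.ML.h ^ j`, `LG R.MK (psi V om)`: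
* `lg_ψ : LG R.ML ψ`, `pgr_ψ : PGr R.ML (exp (c * ψ))` (any real `c`);
* `le_φ`, `pgr_φ : PGr R.ML (exp φ)`.
-/

set_option autoImplicit false
set_option linter.unusedSectionVars false

noncomputable section

open Set Filter Topology Matrix
open Crest.Agent.R271.Ho51 Crest.Agent.R276.Ipc735
open Crest.Agent.R271.Defs710 Crest.Agent.R271.Alg255 Crest.Agent.R271.Rd692
open Crest.Agent.R276.Mod1_987
open Crest.Agent.R276.LftDefs_327 (WD)
open Crest.Agent.R276.VLevi_327 (gdet CYL psi)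
open Crest.Agent.R276.SkelDefs_220 (PGr)

namespace Crest.Agent.R276.Wd_450

section one

variable {K : Type} [Field K] [Algebra ℂ K] {n : ℕ} {M : Mdl K n}

/-- `log |b|` of a unit -/
theorem LG.log_unit (u : (M.B)ˣ) : LG M (fun y => Real.log ‖y (u : M.B)‖) := by
  have h1 := (LG.elt (M := M) (u : M.B)).add (LG.elt (M := M) ((u⁻¹ : (M.B)ˣ) : M.B))
  refine h1.mono fun y => ?_
  have h2 : y (u : M.B) * y ((u⁻¹ : (M.B)ˣ) : M.B) = 1 := by
    rw [← map_mul, Units.mul_inv, map_one]
  have h3 : y (u : M.B) ≠ 0 := left_ne_zero_of_mul_eq_one h2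
  have h4 : ‖y ((u⁻¹ : (M.B)ˣ) : M.B)‖ = ‖y (u : M.B)‖⁻¹ := by
    rw [← norm_inv]
    congr 1
    exact (eq_inv_of_mul_eq_one_right h2)
  rw [h4]
  set t := ‖y (u : M.B)‖ with ht
  have ht0 : 0 < t := norm_pos_iff.2 h3
  have h5 : 0 ≤ Real.log (1 + t) := Real.log_nonneg (by linarith)
  have h6 : 0 ≤ Real.log (1 + t⁻¹) := Real.log_nonneg (by
    have : 0 < t⁻¹ := inv_pos.2 ht0
    linarith)
  rw [abs_of_nonneg (add_nonneg h5 h6), abs_le]
  constructor
  · have h7 : Real.log t⁻¹ ≤ Real.log (1 + t⁻¹) := Real.log_le_log (inv_pos.2 ht0) (by linarith)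
    rw [Real.log_inv] at h7
    linarith
  · have h7 : Real.log t ≤ Real.log (1 + t) := Real.log_le_log ht0 (by linarith)
    linarith

/-- from logarithmic upper growth to polynomial growth -/
theorem pgr_of_le {g : M.Pts → ℝ} {C : ℝ} (hgr : ∀ y, g y ≤ C * (1 + lg M y)) :
    PGr M (fun y => Real.exp (g y)) := by
  obtain ⟨l, hl⟩ := exists_nat_ge C
  obtain ⟨D, k, j, hD, H⟩ := M.growth (az M.z M.h)
  refine ⟨Real.exp l * (1 + D) ^ l, l * (j + 1), l + k * l, fun y => ?_⟩
  set W := 1 + ∑ i, ‖M.pz y i‖ ^ 2 with hW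
  have hW1 : 1 ≤ W := by
    have h0 : 0 ≤ ∑ i, ‖M.pz y i‖ ^ 2 := Finset.sum_nonneg fun _ _ => by positivity
    linarith
  set t := ‖MvPolynomial.eval (M.pz y) M.h‖ with ht
  have ht0 : 0 < t := norm_pos_iff.2 (M.eval_h_ne y)
  have h1 : t ^ (j + 1) ≤ D * W ^ k := by
    have h2 := H y
    rw [M.apply_az'] at h2
    rw [pow_succ]
    exact h2
  have hLp : 0 ≤ Real.posLog t⁻¹ := Real.posLog_nonneg
  have hLW : 0 ≤ Real.log W := Real.log_nonneg hW1
  have h3 : g y ≤ l * (1 + Real.log W + Real.posLog t⁻¹) := by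
    have h4 := hgr y
    have h5 : lg M y = Real.log W + Real.posLog t⁻¹ := rfl
    rw [h5] at h4
    refine h4.trans ?_
    rw [← add_assoc]
    exact mul_le_mul_of_nonneg_right hl (by positivity)
  have h6 : Real.exp (g y) ≤ Real.exp l * W ^ l * (max 1 t⁻¹) ^ l := by
    have hp : Real.log (max 1 t⁻¹) = Real.posLog t⁻¹ := log_max_one (by positivity)
    have hmp : 0 < max 1 t⁻¹ := lt_max_of_lt_left one_pos
    rw [← Real.log_le_log_iff (Real.exp_pos _) (by positivity), Real.log_exp,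
      Real.log_mul (by positivity) (by positivity),
      Real.log_mul (by positivity) (by positivity), Real.log_exp, Real.log_pow, Real.log_pow, hp]
    linarith
  have h7 : (max 1 t⁻¹) ^ l * t ^ (l * (j + 1)) ≤ ((1 + D) * W ^ k) ^ l := by
    rw [mul_comm l (j + 1), pow_mul, ← mul_pow]
    refine pow_le_pow_left₀ (by positivity) ?_ l
    rcases le_total 1 t⁻¹ with h | h
    · rw [max_eq_right h]
      have ht1 : t ≤ 1 := by
        rw [one_le_inv₀ ht0] at h
        exact h
      have h8 : t⁻¹ * t ^ (j + 1) = t ^ j := by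
        rw [pow_succ]
        field_simp
      rw [h8]
      have h9 : t ^ j ≤ 1 := pow_le_one₀ ht0.le ht1
      have h10 : 1 ≤ (1 + D) * W ^ k :=
        one_le_mul_of_one_le_of_one_le (by linarith) (one_le_pow₀ hW1)
      linarith
    · rw [max_eq_left h, one_mul]
      have : 0 ≤ W ^ k := by positivity
      nlinarith
  calc Real.exp (g y) * t ^ (l * (j + 1)) ≤
        Real.exp l * W ^ l * (max 1 t⁻¹) ^ l * t ^ (l * (j + 1)) :=
        mul_le_mul_of_nonneg_right h6 (by positivity)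
    _ = Real.exp l * W ^ l * ((max 1 t⁻¹) ^ l * t ^ (l * (j + 1))) := by ring
    _ ≤ Real.exp l * W ^ l * ((1 + D) * W ^ k) ^ l :=
        mul_le_mul_of_nonneg_left h7 (by positivity)
    _ = _ := by rw [mul_pow, ← pow_mul, pow_add]; ring

/-- logarithmic upper growth from polynomial growth -/
theorem log_le_of_pgr {g : M.Pts → ℝ} (hpos : ∀ y, 0 < g y) (h : PGr M g) :
    ∃ C : ℝ, 0 ≤ C ∧ ∀ y, Real.log (g y) ≤ C * (1 + lg M y) := by
  obtain ⟨C, j, k, H⟩ := h
  set A := max (Real.log (max C 1)) (max k j) with hA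
  have hA0 : 0 ≤ A := (Nat.cast_nonneg k).trans ((le_max_left _ _).trans (le_max_right _ _))
  refine ⟨A, hA0, fun y => ?_⟩
  set W := 1 + ∑ i, ‖M.pz y i‖ ^ 2 with hW
  have hW1 : 1 ≤ W := by
    have h0 : 0 ≤ ∑ i, ‖M.pz y i‖ ^ 2 := Finset.sum_nonneg fun _ _ => by positivity
    linarith
  set t := ‖MvPolynomial.eval (M.pz y) M.h‖ with ht
  have ht0 : 0 < t := norm_pos_iff.2 (M.eval_h_ne y)
  have hm : 0 < max C 1 := lt_max_of_lt_right one_pos
  have h1 : g y * t ^ j ≤ max C 1 * W ^ k :=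
    (H y).trans (mul_le_mul_of_nonneg_right (le_max_left _ _) (by positivity))
  have h2 := Real.log_le_log (mul_pos (hpos y) (pow_pos ht0 j)) h1
  rw [Real.log_mul (hpos y).ne' (by positivity), Real.log_mul hm.ne' (by positivity),
    Real.log_pow, Real.log_pow] at h2
  have h3 : -Real.log t ≤ Real.posLog t⁻¹ := by
    rw [← Real.log_inv]
    exact le_max_right _ _
  have h4 : 0 ≤ Real.log W := Real.log_nonneg hW1
  have h5 : 0 ≤ Real.posLog t⁻¹ := Real.posLog_nonneg
  have h6 : (k : ℝ) ≤ A := (le_max_left _ _).trans (le_max_right _ _)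
  have h7 : (j : ℝ) ≤ A := (le_max_right _ _).trans (le_max_right _ _)
  have h8 : Real.log (max C 1) ≤ A := le_max_left _ _
  have h9 := mul_le_mul_of_nonneg_right h6 h4
  have h10 := mul_le_mul_of_nonneg_right h7 h5
  have h11 := mul_le_mul_of_nonneg_left h3 (Nat.cast_nonneg (α := ℝ) j)
  have h12 : lg M y = Real.log W + Real.posLog t⁻¹ := rfl
  rw [h12]
  linarith

end one

section base

variable {T L : Type} [Field T] [Field L] [Algebra ℂ T] [Algebra ℂ L] [Algebra T L]
  [IsScalarTower ℂ T L] {ρ a : ℕ} {R : RMdl T L ρ a}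

/-- the size of the points of the slice in terms of the base -/
theorem slice_lg {ξ : Cn a} {j : ℕ} (hdiv : specR ξ R.MK.h ∣ R.ML.h ^ j) :
    ∃ C : ℝ, 0 ≤ C ∧ ∀ s : R.MK.Pts, R.x s = ξ → 1 + lg R.MK s ≤ C * (1 + lg R.ML (R.q s)) := by
  obtain ⟨e, he⟩ := hdiv
  obtain ⟨c, hc⟩ := R.ML.h_unit.exists_right_inv
  set b0 : R.ML.B := c ^ j * az R.ML.z e with hb0
  obtain ⟨C1, hC1, H1⟩ := LG.elt b0
  set X := Real.log (1 + ∑ i, ‖ξ i‖ ^ 2) with hX
  have hX0 : 0 ≤ X := Real.log_nonneg (by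
    have : 0 ≤ ∑ i, ‖ξ i‖ ^ 2 := Finset.sum_nonneg fun _ _ => by positivity
    linarith)
  refine ⟨2 + X + C1, by positivity, fun s hx => ?_⟩
  set τ := R.q s with hτ
  have hlx := lg_nonneg R.ML τ
  have hpz : R.MK.pz s = Fin.append (R.ML.pz τ) ξ := by
    rw [← R.append_eq s, hx]
  have h1 : Real.log (1 + ∑ i, ‖R.MK.pz s i‖ ^ 2) ≤
      Real.log (1 + ∑ i, ‖R.ML.pz τ i‖ ^ 2) + X := by
    have h2 : ∑ i, ‖R.MK.pz s i‖ ^ 2 = ∑ i, ‖R.ML.pz τ i‖ ^ 2 + ∑ i, ‖ξ i‖ ^ 2 := by
      rw [hpz, Fin.sum_univ_add]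
      congr 1
      · exact Finset.sum_congr rfl fun i _ => by rw [Fin.append_left]
      · exact Finset.sum_congr rfl fun i _ => by rw [Fin.append_right]
    have h5 : 0 ≤ ∑ i, ‖R.ML.pz τ i‖ ^ 2 := Finset.sum_nonneg fun _ _ => by positivity
    have h6 : 0 ≤ ∑ i, ‖ξ i‖ ^ 2 := Finset.sum_nonneg fun _ _ => by positivity
    rw [h2, hX, ← Real.log_mul (by linarith) (by linarith)]
    apply Real.log_le_log (by linarith)
    nlinarith
  have h2 : Real.posLog ‖MvPolynomial.eval (R.MK.pz s) R.MK.h‖⁻¹ ≤ C1 * (1 + lg R.ML τ) := by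
    have hv : MvPolynomial.eval (R.MK.pz s) R.MK.h =
        MvPolynomial.eval (R.ML.pz τ) (specR ξ R.MK.h) := by
      rw [eval_specR, hpz]
    have h3 : τ b0 * MvPolynomial.eval (R.ML.pz τ) (specR ξ R.MK.h) = 1 := by
      have h4 : τ c * MvPolynomial.eval (R.ML.pz τ) R.ML.h = 1 := by
        have := congrArg τ hc
        rw [map_mul, map_one, R.ML.apply_az'] at this
        rw [mul_comm]; exact this
      have h5 := congrArg (MvPolynomial.eval (R.ML.pz τ)) he
      rw [map_pow, map_mul] at h5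
      rw [hb0, map_mul, map_pow, R.ML.apply_az']
      calc τ c ^ j * MvPolynomial.eval (R.ML.pz τ) e *
            MvPolynomial.eval (R.ML.pz τ) (specR ξ R.MK.h)
          = τ c ^ j * (MvPolynomial.eval (R.ML.pz τ) (specR ξ R.MK.h) *
            MvPolynomial.eval (R.ML.pz τ) e) := by ring
        _ = τ c ^ j * MvPolynomial.eval (R.ML.pz τ) R.ML.h ^ j := by rw [h5]
        _ = 1 := by rw [← mul_pow, h4, one_pow]
    have h6 : ‖MvPolynomial.eval (R.MK.pz s) R.MK.h‖⁻¹ = ‖τ b0‖ := by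
      rw [hv, ← norm_inv]
      congr 1
      exact (eq_inv_of_mul_eq_one_left h3).symm
    rw [h6]
    have h7 := (le_abs_self _).trans (H1 τ)
    refine le_trans ?_ h7
    rw [← log_max_one (norm_nonneg _)]
    apply Real.log_le_log (lt_max_of_lt_left one_pos)
    refine max_le ?_ ?_
    · linarith [norm_nonneg (τ b0)]
    · linarith [norm_nonneg (τ b0)]
  have h4 : lg R.MK s = Real.log (1 + ∑ i, ‖R.MK.pz s i‖ ^ 2) +
    Real.posLog ‖MvPolynomial.eval (R.MK.pz s) R.MK.h‖⁻¹ := rfl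
  have h5 : Real.log (1 + ∑ i, ‖R.ML.pz τ i‖ ^ 2) ≤ lg R.ML τ := by
    unfold lg
    linarith [Real.posLog_nonneg (x := ‖MvPolynomial.eval (R.ML.pz τ) R.ML.h‖⁻¹)]
  nlinarith

theorem exists_slice_pt {ξ : Cn a} {j : ℕ} (hdiv : specR ξ R.MK.h ∣ R.ML.h ^ j) (τ : R.ML.Pts) :
    ∃ s : R.MK.Pts, R.q s = τ ∧ R.x s = ξ := by
  obtain ⟨y, hy⟩ := R.surjective_φU ⟨(τ, ξ), mem_UR R hdiv τ⟩
  exact ⟨y, congrArg (fun u : R.UR => u.1.1) hy, congrArg (fun u : R.UR => u.1.2) hy⟩

variable {N w : ℕ} {V : Ipc735.VHS (ρ + a) R.MK.Pts N w} {om : R.MK.Pts → Fin N → ℂ}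
  {u : (R.MK.B)ˣ} {M0 : ℕ} {φ ψ : R.ML.Pts → ℝ}

/-- growth of `ψ` on the base -/
theorem lg_ψ (h : WD V om (fun x : R.MK.Pts => x (u : R.MK.B)) M0 (R.q : R.MK.Pts → R.ML.Pts)
    (Fin.castAdd a) φ ψ) {ξ : Cn a} {j : ℕ} (hdiv : specR ξ R.MK.h ∣ R.ML.h ^ j)
    (hgr : LG R.MK (psi V om)) : LG R.ML ψ := by
  have h1 : LG R.MK (fun x => ψ (R.q x)) := by
    have h2 : (fun x => ψ (R.q x)) = fun x : R.MK.Pts => psi V om x -
        (1 / M0 * 2 : ℝ) * Real.log ‖x (u : R.MK.B)‖ := by
      funext x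
      rw [h.hψ, Real.log_pow]
      push_cast
      ring
    rw [h2]
    exact hgr.sub ((LG.log_unit u).const_mul _)
  obtain ⟨C, hC, H⟩ := h1
  obtain ⟨D, hD, H'⟩ := slice_lg hdiv
  refine ⟨C * D, by positivity, fun τ => ?_⟩
  obtain ⟨s, rfl, hs⟩ := exists_slice_pt hdiv τ
  calc |ψ (R.q s)| ≤ C * (1 + lg R.MK s) := H s
    _ ≤ C * (D * (1 + lg R.ML (R.q s))) := mul_le_mul_of_nonneg_left (H' s hs) hC
    _ = _ := by ring

/-- upper growth of `φ` on the base -/
theorem le_φ (h : WD V om (fun x : R.MK.Pts => x (u : R.MK.B)) M0 (R.q : R.MK.Pts → R.ML.Pts)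
    (Fin.castAdd a) φ ψ) {ξ : Cn a} {j : ℕ} (hdiv : specR ξ R.MK.h ∣ R.ML.h ^ j) :
    ∃ C : ℝ, 0 ≤ C ∧ ∀ τ, φ τ ≤ C * (1 + lg R.ML τ) := by
  have h1 : PGr R.MK (gdet V (Fin.castAdd a)) := by
    obtain ⟨C, k, l, -, H⟩ := Pd571.det_growth_sum R.MK V (Fin.castAdd a)
    refine ⟨C, l, k, fun y => ?_⟩
    rw [Pd571.gdet_eq]
    exact H y
  obtain ⟨C, hC, H⟩ := log_le_of_pgr h.pos h1
  obtain ⟨D, hD, H'⟩ := slice_lg hdiv
  refine ⟨C * D, by positivity, fun τ => ?_⟩
  obtain ⟨s, rfl, hs⟩ := exists_slice_pt hdiv τ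
  calc φ (R.q s) = Real.log (gdet V (Fin.castAdd a) s) := h.hφ s
    _ ≤ C * (1 + lg R.MK s) := H s
    _ ≤ C * (D * (1 + lg R.ML (R.q s))) := mul_le_mul_of_nonneg_left (H' s hs) hC
    _ = _ := by ring

/-- polynomial growth of `exp (c ψ)` -/
theorem pgr_ψ (h : WD V om (fun x : R.MK.Pts => x (u : R.MK.B)) M0 (R.q : R.MK.Pts → R.ML.Pts)
    (Fin.castAdd a) φ ψ) {ξ : Cn a} {j : ℕ} (hdiv : specR ξ R.MK.h ∣ R.ML.h ^ j)
    (hgr : LG R.MK (psi V om)) (c : ℝ) : PGr R.ML (fun τ => Real.exp (c * ψ τ)) := by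
  obtain ⟨C, -, H⟩ := (lg_ψ h hdiv hgr).const_mul c
  exact pgr_of_le fun τ => (le_abs_self _).trans (H τ)

/-- polynomial growth of `exp φ` -/
theorem pgr_φ (h : WD V om (fun x : R.MK.Pts => x (u : R.MK.B)) M0 (R.q : R.MK.Pts → R.ML.Pts)
    (Fin.castAdd a) φ ψ) {ξ : Cn a} {j : ℕ} (hdiv : specR ξ R.MK.h ∣ R.ML.h ^ j) :
    PGr R.ML (fun τ => Real.exp (φ τ)) := by
  obtain ⟨C, -, H⟩ := le_φ h hdiv
  exact pgr_of_le H

end base

end Crest.Agent.R276.Wd_450
end
end

-- ▼ part R276/DescH_327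
section

/-!
# R276, leaf DESC (helper327), part 8: the good point on `M`

Local data of the `VHS` and of the line restricted to a local section of `f`; `Good`.
-/

set_option autoImplicit false
set_option linter.unusedSectionVars false

noncomputable section

open Set Filter Topology Matrix
open scoped ContDiff ComplexOrder
open Crest.Agent.R271.Ho51 Crest.Agent.R276.Ipc735 Crest.Agent.R276.Desc_327
open Crest.Agent.R276.DescB_327 Crest.Agent.R276.DescC_327 Crest.Agent.R276.DescD_327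
open Crest.Agent.R276.VLevi_327 Crest.Agent.R276.VPull_327
open Crest.Agent.R276.DescF_327 Crest.Agent.R276.LftDefs_327 Crest.Agent.R276.DescG_327

namespace Crest.Agent.R276.DescH_327

open VCalc_442 (dW dB mW mB cx gg gm gden th thb grOp hm sf bn)

attribute [local instance] Matrix.linftyOpNormedRing Matrix.linftyOpNormedAlgebra

/-! ### restriction of a `VCalc_442.VHS` -/

section comp

variable {m r N w : ℕ} {A : (Fin r → ℂ) → (Fin m → ℂ)} {A' : (Fin r → ℂ) →L[ℂ] (Fin m → ℂ)}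
  {U : Set (Fin m → ℂ)} {S : Matrix (Fin N) (Fin N) ℂ}
  {P : ℕ → (Fin m → ℂ) → Matrix (Fin N) (Fin N) ℂ} {σ : (Fin m → ℂ) → Fin N → ℂ}

theorem mW_comp {F : (Fin m → ℂ) → Matrix (Fin N) (Fin N) ℂ} {b : Fin r → ℂ}
    (hF : ∀ i j, DifferentiableAt ℝ (fun y => F y i j) (A b)) (hA : HasFDerivAt A A' b)
    (v : Fin r → ℂ) : mW (fun b => F (A b)) v b = mW F (A' v) (A b) := by
  ext i j
  exact VCalc_442.dW_comp (hF i j) hA v

theorem mB_comp {F : (Fin m → ℂ) → Matrix (Fin N) (Fin N) ℂ} {b : Fin r → ℂ}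
    (hF : ∀ i j, DifferentiableAt ℝ (fun y => F y i j) (A b)) (hA : HasFDerivAt A A' b)
    (v : Fin r → ℂ) : mB (fun b => F (A b)) v b = mB F (A' v) (A b) := by
  ext i j
  exact VCalc_442.dB_comp (hF i j) hA v

theorem diff_grOp (h : VCalc_442.VHS w U S P) {c : Fin m → ℂ} (hc : c ∈ U) (i j : Fin N) :
    DifferentiableAt ℝ (fun y => grOp w P y i j) c := by
  have h1 : ∀ p, DifferentiableAt ℝ (fun y => P p y i j) c := fun p =>
    ((h.sm p i j).contDiffAt (h.op.mem_nhds hc)).differentiableAt (by simp)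
  have h2 : (fun y => grOp w P y i j) = fun y => ∑ p ∈ Finset.range (w + 1), (p : ℂ) * P p y i j := by
    funext y
    unfold VCalc_442.grOp
    rw [Matrix.sum_apply]
    rfl
  rw [h2]
  exact DifferentiableAt.fun_sum fun p _ => (h1 p).const_mul _

theorem th_comp (h : VCalc_442.VHS w U S P) {b : Fin r → ℂ} (hb : A b ∈ U)
    (hA : HasFDerivAt A A' b) (v : Fin r → ℂ) :
    th w (fun p b => P p (A b)) v b = th w P (A' v) (A b) :=
  mW_comp (F := grOp w P) (diff_grOp h hb) hA v

theorem thb_comp (h : VCalc_442.VHS w U S P) {b : Fin r → ℂ} (hb : A b ∈ U)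
    (hA : HasFDerivAt A A' b) (v : Fin r → ℂ) :
    thb w (fun p b => P p (A b)) v b = thb w P (A' v) (A b) :=
  congrArg Neg.neg (mB_comp (F := grOp w P) (diff_grOp h hb) hA v)

theorem gg_comp (h : VCalc_442.VHS w U S P) {b : Fin r → ℂ} (hb : A b ∈ U)
    (hA : HasFDerivAt A A' b) (u v : Fin r → ℂ) :
    gg w (fun p b => P p (A b)) u v b = gg w P (A' u) (A' v) (A b) := by
  unfold VCalc_442.gg
  rw [th_comp h hb hA, thb_comp h hb hA]

/-- **restriction along a holomorphic map** -/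
theorem vhs_comp (h : VCalc_442.VHS w U S P) (hA : ∀ b, HasFDerivAt A A' b)
    (hAs : ContDiff ℝ ∞ A) : VCalc_442.VHS w (A ⁻¹' U) S (fun p b => P p (A b)) where
  op := h.op.preimage hAs.continuous
  sm := fun p i j => (h.sm p i j).comp hAs.contDiffOn fun _ hb => hb
  idem := fun b hb => h.idem _ hb
  orth := fun b hb => h.orth _ hb
  top := fun b hb => h.top _ hb
  sum := fun b hb => h.sum _ hb
  herm := h.herm
  adj := fun _ hb => h.adj _ hb
  pos := fun _ hb => h.pos _ hb
  hor := fun b hb v => by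
    have h1 : mW (grOp w fun p b => P p (A b)) v b = mW (grOp w P) (A' v) (A b) :=
      mW_comp (F := grOp w P) (diff_grOp h hb) (hA b) v
    rw [h1]
    exact h.hor _ hb _

theorem bot_comp (h : VCalc_442.Bot w U P σ) (hA : ∀ b, HasFDerivAt A A' b)
    (hAs : ContDiff ℝ ∞ A) :
    VCalc_442.Bot w (A ⁻¹' U) (fun p b => P p (A b)) (fun b => σ (A b)) where
  hol := h.hol.comp (fun b _ => (hA b).differentiableAt.differentiableWithinAt) fun _ hb => hb
  sm := h.sm.comp hAs.contDiffOn fun _ hb => hb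
  mem := fun _ hb => h.mem _ hb

end comp

/-! ### the affine embedding -/

section emb

variable {m r : ℕ} {ι : Fin r → Fin m}

/-- the linear part of `upd ι a` -/
def inc (ι : Fin r → Fin m) : (Fin r → ℂ) →L[ℂ] (Fin m → ℂ) :=
  open Classical in ContinuousLinearMap.pi fun j =>
    if h : ∃ i, ι i = j then ContinuousLinearMap.proj h.choose else 0

theorem inc_apply (v : Fin r → ℂ) : inc ι v = upd ι 0 v := by
  classical
  funext j
  show (if h : ∃ i, ι i = j then ContinuousLinearMap.proj h.choose else 0 :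
    (Fin r → ℂ) →L[ℂ] ℂ) v = _
  unfold upd
  by_cases h : ∃ i, ι i = j
  · rw [dif_pos h, dif_pos h]
    rfl
  · rw [dif_neg h, dif_neg h]
    rfl

theorem upd_eq (a : Fin m → ℂ) (b : Fin r → ℂ) : upd ι a b = upd ι a 0 + inc ι b := by
  classical
  rw [inc_apply]
  funext j
  rw [Pi.add_apply]
  unfold upd
  split_ifs with h <;> simp

theorem hasFDerivAt_upd (a : Fin m → ℂ) (b : Fin r → ℂ) : HasFDerivAt (upd ι a) (inc ι) b := by
  have h1 : upd ι a = fun b => upd ι a 0 + inc ι b := funext fun b => upd_eq a b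
  rw [h1]
  exact (inc ι).hasFDerivAt.const_add _

theorem contDiff_upd (a : Fin m → ℂ) : ContDiff ℝ ∞ (upd ι a) := by
  have h1 : upd ι a = fun b => upd ι a 0 + inc ι b := funext fun b => upd_eq a b
  rw [h1]
  exact contDiff_const.add (((inc ι).restrictScalars ℝ).contDiff)

theorem inc_single (hι : Function.Injective ι) (i : Fin r) :
    inc ι (Pi.single i 1) = (Pi.single (ι i) 1 : Fin m → ℂ) := by
  classical
  rw [inc_apply]
  funext j
  by_cases hj : ∃ i', ι i' = j
  · obtain ⟨i', rfl⟩ := hj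
    rw [upd_ι hι]
    by_cases hi : i' = i
    · subst hi
      simp
    · rw [Pi.single_eq_of_ne hi, Pi.single_eq_of_ne (fun h => hi (hι h))]
  · push Not at hj
    rw [upd_of_notMem _ _ hj, Pi.zero_apply, Pi.single_eq_of_ne (fun h => hj i h.symm)]

end emb

/-! ### local data with the line -/

section loc

variable {m r N w : ℕ} {X T : Type*} [TopologicalSpace X] [RDom m X] [TopologicalSpace T]
  [RDom r T] {ι : Fin r → Fin m} {f : X → T} {V : VHS m X N w} {om : X → Fin N → ℂ}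

/-- local form: everything in the flat frame at `z` -/
theorem exists_loc (h : CYL V om) (z : X) : ∃ (U : Set (Fin m → ℂ))
    (P' : ℕ → (Fin m → ℂ) → Matrix (Fin N) (Fin N) ℂ), IsOpen U ∧ cp z ∈ U ∧
      U ⊆ (ch z).target ∧ VCalc_442.VHS w U (V.S z) P' ∧
      VCalc_442.Bot w U P' (lV V.P om z ∘ (ch z).symm) ∧
      (∀ c ∈ U, hn V ((ch z).symm c) (om ((ch z).symm c)) =
        bn w (V.S z) (lV V.P om z ∘ (ch z).symm) c) ∧
      (∀ c ∈ U, ∀ i j, gg w P' (Pi.single i 1) (Pi.single j 1) c = gV V i j ((ch z).symm c)) ∧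
      (∀ c ∈ U, ∀ v, ∃ l : ℂ, P' w c *ᵥ dW (lV V.P om z ∘ (ch z).symm) v c =
        l • (lV V.P om z ∘ (ch z).symm) c) := by
  obtain ⟨U, P', hU, hzU, hUt, hP, hS, hP', hV, hgr, hth, -, hgg⟩ := gV_local V z
  have han : ∀ᶠ c in 𝓝 (cp z), AnalyticAt ℂ (lV V.P om z ∘ (ch z).symm) c :=
    (h.hol z : AnalyticAt ℂ _ _).eventually_analyticAt
  obtain ⟨W, hWs, hW, hzW⟩ := mem_nhds_iff.1 han
  have hVW : VCalc_442.VHS w (U ∩ W) (V.S z) P' :=
    { op := hU.inter hW
      sm := fun p i j => (hV.sm p i j).mono inter_subset_left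
      idem := fun x hx => hV.idem x hx.1
      orth := fun x hx => hV.orth x hx.1
      top := fun x hx => hV.top x hx.1
      sum := fun x hx => hV.sum x hx.1
      herm := hV.herm
      adj := fun x hx => hV.adj x hx.1
      pos := fun x hx => hV.pos x hx.1
      hor := fun x hx => hV.hor x hx.1 }
  have htop : ∀ c ∈ U, lM V.P V.E z ((ch z).symm c) *ᵥ (lV V.P om z ((ch z).symm c)) =
      (w : ℂ) • lV V.P om z ((ch z).symm c) := by
    intro c _
    unfold lM lV
    rw [← Matrix.mulVec_mulVec, cm_inv_mulVec, ← Matrix.mulVec_mulVec, h.eig, mulVec_smul]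
  have hHS : ∀ c ∈ U, IsHS w (V.S z) (lM V.P V.E z ((ch z).symm c)) := fun c hc =>
    (V.hs _).lM (hS c hc)
  have hb : VCalc_442.Bot w (U ∩ W) P' (lV V.P om z ∘ (ch z).symm) := by
    refine ⟨fun c hc => (hWs hc.2).differentiableAt.differentiableWithinAt, fun c hc => ?_,
      fun c hc => ?_⟩
    · exact ((AnalyticAt.contDiffAt (hWs hc.2)).restrict_scalars ℝ).contDiffWithinAt
    · show P' w c *ᵥ (lV V.P om z ((ch z).symm c)) = lV V.P om z ((ch z).symm c)
      rw [hP']
      show hq w (lM V.P V.E z ((ch z).symm c)) w *ᵥ _ = _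
      rw [hq_of_le le_rfl, (hHS c hc.1).hpr_mulVec_of_eig le_rfl (htop c hc.1) le_rfl, if_pos rfl]
  refine ⟨U ∩ W, P', hU.inter hW, ⟨hzU, hzW⟩, inter_subset_left.trans hUt, hVW, hb, ?_, ?_, ?_⟩
  · intro c hc
    have h1 := hodge_lM (w := w) (E := V.E) (hS c hc.1) om
    unfold hn qf
    rw [← h1, (hHS c hc.1).hodge_mulVec_of_eig le_rfl (htop c hc.1), dotProduct_smul]
    rfl
  · exact fun c hc i j => hgg c hc.1 i j
  · intro c hc v
    set σ := lV V.P om z ∘ (ch z).symm with hσ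
    have hcU := hc.1
    have hct := hUt hcU
    set x' := (ch z).symm c with hx'
    have hcpx' : cp x' = c := (isCh_ch z).cp_symm hct
    have h1 : ∀ j, dW σ (Pi.single j 1) c = cm (V.P z x') *ᵥ
        fun i => dz j (fun y => lV V.P om x' y i) x' := by
      intro j
      have h2 : σ =ᶠ[𝓝 c] fun d => cm (V.P z x') *ᵥ (lV V.P om x' ((ch z).symm d)) := by
        filter_upwards [hU.mem_nhds hcU] with d hd
        show cm (V.P z ((ch z).symm d)) *ᵥ om ((ch z).symm d) = _
        unfold lV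
        rw [mulVec_mulVec, ← Ipc735.cm_mul, hP c hcU d hd]
      have hdl : ∀ i, DifferentiableAt ℝ (fun d => lV V.P om x' ((ch z).symm d) i) c := by
        intro i
        have h3 : AnalyticAt ℂ (lV V.P om x' ∘ (ch z).symm) (cp x') :=
          (h.hol x').congr_chart (isCh_ch z) ((ch z).map_target hct)
        rw [hcpx'] at h3
        have h4 := (analyticAt_pi_iff.1 h3) i
        exact h4.differentiableAt.restrictScalars ℝ
      rw [VCalc_442.dW_congr h2]
      funext i
      have h6 : DifferentiableAt ℝ (fun d => cm (V.P z x') *ᵥ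
          (lV V.P om x' ((ch z).symm d))) c := by
        rw [differentiableAt_pi]
        intro i
        have : (fun d => (cm (V.P z x') *ᵥ (lV V.P om x' ((ch z).symm d))) i) =
            fun d => ∑ k, cm (V.P z x') i k * lV V.P om x' ((ch z).symm d) k := rfl
        rw [this]
        exact DifferentiableAt.fun_sum fun k _ => (hdl k).const_mul _
      have h5 : ∀ v : Fin m → ℂ, fderiv ℝ (fun d => cm (V.P z x') *ᵥ
          (lV V.P om x' ((ch z).symm d))) c v i = ∑ k, cm (V.P z x') i k *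
          fderiv ℝ (fun d => lV V.P om x' ((ch z).symm d) k) c v := by
        intro v
        have h7 : fderiv ℝ (fun d => cm (V.P z x') *ᵥ (lV V.P om x' ((ch z).symm d))) c v i =
            fderiv ℝ (fun d => (cm (V.P z x') *ᵥ (lV V.P om x' ((ch z).symm d))) i) c v := by
          rw [fderiv_pi (fun i => (differentiableAt_pi.1 h6) i)]
          rfl
        rw [h7]
        have h8 : (fun d => (cm (V.P z x') *ᵥ (lV V.P om x' ((ch z).symm d))) i) =
              fun d => ∑ k, cm (V.P z x') i k * lV V.P om x' ((ch z).symm d) k := rfl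
        rw [h8, fderiv_fun_sum fun k _ => (hdl k).const_mul _, _root_.sum_apply]
        refine Finset.sum_congr rfl fun k _ => ?_
        rw [fderiv_const_mul (hdl k)]
        rfl
      have h9 : dW (fun d => cm (V.P z x') *ᵥ (lV V.P om x' ((ch z).symm d)))
          (Pi.single j 1) c i = (1 / 2 : ℂ) * (∑ k, cm (V.P z x') i k *
          fderiv ℝ (fun d => lV V.P om x' ((ch z).symm d) k) c (Pi.single j 1) -
          Complex.I * ∑ k, cm (V.P z x') i k *
          fderiv ℝ (fun d => lV V.P om x' ((ch z).symm d) k) c (Complex.I • Pi.single j 1)) := by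
        rw [← h5, ← h5]
        rfl
      rw [h9]
      show _ = ∑ k, cm (V.P z x') i k * dz j (fun y => lV V.P om x' y k) x'
      rw [Finset.mul_sum, ← Finset.sum_sub_distrib, Finset.mul_sum]
      refine Finset.sum_congr rfl fun k _ => ?_
      rw [dz_eq_dW j _ (isCh_ch z) ((ch z).map_target hct), hcpx']
      show _ = cm (V.P z x') i k * ((1 / 2 : ℂ) * (fderiv ℝ
        (fun d => lV V.P om x' ((ch z).symm d) k) c (Pi.single j 1) -
        Complex.I * fderiv ℝ (fun d => lV V.P om x' ((ch z).symm d) k) c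
          (Complex.I • Pi.single j 1)))
      ring
    obtain ⟨cj, hcj⟩ : ∃ cj : Fin m → ℂ, ∀ j, (fun i => dz j (fun y => lV V.P om x' y i) x') =
        dM V.P V.E j x' *ᵥ om x' + cj j • om x' := ⟨fun j => (h.par x' j).choose, fun j =>
          (h.par x' j).choose_spec⟩
    have h10 : ∀ j, dW σ (Pi.single j 1) c = dW (grOp w P') (Pi.single j 1) c *ᵥ σ c +
        cj j • σ c := by
      intro j
      rw [h1 j, hcj j, ← hV.th_eq hcU, hth c hcU j, mulVec_add, mulVec_smul]
      congr 1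
      show cm (V.P z x') *ᵥ (dM V.P V.E j x' *ᵥ om x') =
        (cm (V.P z x') * dM V.P V.E j x' * cm (V.P z x')⁻¹) *ᵥ (cm (V.P z x') *ᵥ om x')
      rw [← Matrix.mulVec_mulVec, cm_inv_mulVec, Matrix.mulVec_mulVec]
    refine ⟨∑ j, v j * cj j, ?_⟩
    have h11 : dW σ v c = dW (grOp w P') v c *ᵥ σ c + (∑ j, v j * cj j) • σ c := by
      have h12 : dW (grOp w P') v c = ∑ j, v j • dW (grOp w P') (Pi.single j 1) c := by
        conv_lhs => rw [pi_eq_sum_univ' v]
        rw [VCalc_442.dW_sum_dir]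
      rw [h12]
      conv_lhs => rw [pi_eq_sum_univ' v]
      rw [VCalc_442.dW_sum_dir]
      have h2 : ∑ j, v j • dW σ (Pi.single j 1) c =
          ∑ j, (v j • (dW (grOp w P') (Pi.single j 1) c *ᵥ σ c) + (v j * cj j) • σ c) := by
        refine Finset.sum_congr rfl fun j _ => ?_
        rw [h10 j, smul_add, smul_smul]
      rw [h2, Finset.sum_add_distrib, ← Finset.sum_smul, Matrix.sum_mulVec]
      congr 1
      exact Finset.sum_congr rfl fun j _ => by rw [Matrix.smul_mulVec]
    rw [h11, mulVec_add, mulVec_smul, hVW.bot_orth hb hc v, zero_add, hb.mem c hc]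

/-- **the good point**: `ν` is at most the rank of `Levi ψ` at `f x` -/
theorem good {u : X → ℂ} {M0 : ℕ} {φ ψ : T → ℝ} (h : WD V om u M0 f ι φ ψ) (x : X) {a : ℝ}
    (ha : 0 < a) {ν : ℕ} (hν : ∀ K : Submodule ℂ (Fin r → ℂ),
      (∀ v ∈ K, Levi ψ (f x) v = 0) → ν + Module.finrank ℂ K ≤ r) :
    Nonempty (CntDefs_857.Good φ (fun τ => a * ψ τ) ν) := by
  obtain ⟨U, P', hU, hzU, hUt, hV, hbot, hbn, hgg, hl⟩ := exists_loc h.cyl x
  have hA : ∀ b, HasFDerivAt (upd ι (cp x)) (inc ι) b := fun b => hasFDerivAt_upd (cp x) b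
  have hAs : ContDiff ℝ ∞ (upd ι (cp x)) := contDiff_upd (cp x)
  have hV' := vhs_comp hV hA hAs
  have hb' := bot_comp hbot hA hAs
  set σ := lV V.P om x ∘ (ch x).symm with hσ
  have hbase : upd ι (cp x) (cp (f x)) = cp x := h.prj.upd_base x
  have hmem : cp (f x) ∈ upd ι (cp x) ⁻¹' U := by
    rw [mem_preimage, hbase]
    exact hzU
  have hσx : σ (cp x) = om x := by
    show lV V.P om x ((ch x).symm (cp x)) = om x
    rw [symm_cp, lV_self (V.ndc.on univ) om (mem_univ x)]
  -- the Gram matrix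
  have hgm : ∀ b ∈ upd ι (cp x) ⁻¹' U, gm w (fun p b => P' p (upd ι (cp x) b))
      (GoodLoc_442.fr r) b = Matrix.of fun i j => gV V (ι i) (ι j)
        ((ch x).symm (upd ι (cp x) b)) := by
    intro b hb
    ext i j
    show gg w (fun p b => P' p (upd ι (cp x) b)) (Pi.single i 1) (Pi.single j 1) b =
      gV V (ι i) (ι j) ((ch x).symm (upd ι (cp x) b))
    rw [gg_comp hV hb (hA b), inc_single h.prj.inj, inc_single h.prj.inj, hgg _ hb]
  have hpd : (gm w (fun p b => P' p (upd ι (cp x) b)) (GoodLoc_442.fr r) (cp (f x))).PosDef := by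
    rw [hgm _ hmem, hbase, symm_cp]
    exact gV_pd V ι (h.pos x)
  have himm : ∀ v, th w (fun p b => P' p (upd ι (cp x) b)) v (cp (f x)) = 0 → v = 0 := by
    intro v hv
    have h1 := GoodLoc_442.gden_eq hV' hmem v
    have h2 : gden w (fun p b => P' p (upd ι (cp x) b)) v (cp (f x)) = 0 := by
      unfold VCalc_442.gden VCalc_442.gg
      rw [hv]
      simp
    rw [h2] at h1
    by_contra hne
    have h3 : star v ≠ 0 := fun h0 => hne (by simpa using congrArg star h0)
    have h4 : 0 < (sf (gm w (fun p b => P' p (upd ι (cp x) b)) (GoodLoc_442.fr r)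
      (cp (f x))) (star v) (star v)).re := VCalc_442.sf_pos hpd h3
    rw [← h1] at h4
    exact lt_irrefl _ h4
  have hlsec : ∀ᶠ b in 𝓝 (cp (f x)), b ∈ (ch (f x)).target ∧
      f (lsec ι x ((ch (f x)).symm b)) = (ch (f x)).symm b := by
    have h1 : cp (f x) ∈ (ch (f x)).target := (isCh_ch (f x)).cp_mem (mem_ch (f x))
    filter_upwards [(ch (f x)).open_target.mem_nhds h1,
      (tendsto_symm (f x)).eventually (h.prj.f_lsec x)] with b hb hb2
    exact ⟨hb, hb2⟩
  have hls : ∀ b ∈ (ch (f x)).target, lsec ι x ((ch (f x)).symm b) =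
      (ch x).symm (upd ι (cp x) b) := by
    intro b hb
    unfold lsec
    rw [(isCh_ch (f x)).cp_symm hb]
  have hUb : ∀ᶠ b in 𝓝 (cp (f x)), b ∈ upd ι (cp x) ⁻¹' U := hV'.op.mem_nhds hmem
  refine GoodLoc_442.exists_good (isCh_ch (f x)) (mem_ch (f x)) hV' hmem hb' ?_ ?_ himm ha
    (g := fun b => u ((ch x).symm (upd ι (cp x) b))) ?_ ?_ (r := -(a / M0)) ?_ ?_ ?_
  · show σ (upd ι (cp x) (cp (f x))) ≠ 0
    rw [hbase, hσx]
    exact h.cyl.ne x
  · intro b hb v
    obtain ⟨l, hl'⟩ := hl _ hb (inc ι v)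
    refine ⟨l, ?_⟩
    have h1 : DifferentiableAt ℝ σ (upd ι (cp x) b) := hV.bot_d hbot hb
    rw [show dW (fun b => σ (upd ι (cp x) b)) v b = dW σ (inc ι v) (upd ι (cp x) b) from
      VCalc_442.dW_comp h1 (hA b) v]
    exact hl'
  · have h1 : AnalyticAt ℂ (u ∘ (ch x).symm) (upd ι (cp x) (cp (f x))) := by
      rw [hbase]
      exact h.uhol x
    exact AnalyticAt.fun_comp (g := u ∘ (ch x).symm) h1 (upd_analytic (cp x) _)
  · show u ((ch x).symm (upd ι (cp x) (cp (f x)))) ≠ 0
    exact h.une _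
  · filter_upwards [hlsec, hUb] with b hb hbU
    rw [← hb.2, h.hφ, hls b hb.1, hgm b hbU]
    rfl
  · filter_upwards [hlsec, hUb] with b hb hbU
    show a * ψ ((ch (f x)).symm b) = _
    rw [← hb.2, h.hψ, hls b hb.1]
    have h1 : bn w (V.S x) (fun b => σ (upd ι (cp x) b)) b =
        hn V ((ch x).symm (upd ι (cp x) b)) (om ((ch x).symm (upd ι (cp x) b))) :=
      (hbn _ hbU).symm
    rw [h1]
    unfold psi
    ring
  · intro K hK
    refine hν K fun v hv => ?_
    have h1 := hK v hv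
    have h2 : (fun τ => a * ψ τ) = fun τ => a * ψ τ + 0 * ψ τ := by
      funext τ
      ring
    rw [h2, Levi_comb (WD.psi_Sm h (f x)) (WD.psi_Sm h (f x))] at h1
    have h3 : a * Levi ψ (f x) v = 0 := by linarith
    exact (mul_eq_zero.1 h3).resolve_left ha.ne'

end loc

end Crest.Agent.R276.DescH_327
end
end

-- ▼ part R276/DescW_327
section

/-!
# R276, leaf DESC (helper327), part 9: existence of `WD` from a slice, restriction of `WD`
-/

set_option autoImplicit false
set_option linter.unusedSectionVars false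

noncomputable section

open Set Filter Topology Matrix
open scoped ContDiff ComplexOrder ComplexConjugate
open Crest.Agent.R271.Ho51 Crest.Agent.R276.Ipc735 Crest.Agent.R276.Desc_327
open Crest.Agent.R276.DescB_327 Crest.Agent.R276.DescC_327 Crest.Agent.R276.DescD_327
open Crest.Agent.R276.DescE_327 (Slice uu uu_hol uu_ne log_uu)
open Crest.Agent.R276.VLevi_327 Crest.Agent.R276.VPull_327
open Crest.Agent.R276.DescF_327 Crest.Agent.R276.LftDefs_327 Crest.Agent.R276.DescG_327
open Crest.Agent.R276.DescH_327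

namespace Crest.Agent.R276.DescW_327

variable {m r N w : ℕ} {X T : Type*} [TopologicalSpace X] [RDom m X] [TopologicalSpace T]
  [RDom r T] {ι : Fin r → Fin m} {f : X → T} {V : VHS m X N w} {om : X → Fin N → ℂ}

/-- **existence of the descended weights** -/
theorem exists_wd [T2Space X] (hL : CYL V om) (hfl : Fl V ι) (hf : Prj ι f)
    (hc : ∀ x, IsPreconnected (f ⁻¹' {f x})) (hs : Function.Surjective f)
    (hpos : ∀ x, 0 < gdet V ι x) {c : Fin m → ℂ} {d : ℕ} {S : T → Finset X}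
    (hS : Slice ι f c d S) (hd : 0 < d) :
    ∃ (M0 : ℕ) (u : X → ℂ) (φ ψ : T → ℝ), WD V om u M0 f ι φ ψ ∧
      ∀ τ, ψ τ = 1 / (d : ℝ) * ∑ s ∈ S τ, psi V om s := by
  obtain ⟨k, hk0, hk⟩ := exists_exp N
  have hk' : Dat.UE N k := hk
  set D := dat hL hfl hf hc with hD
  have hψ : ∀ x, SmAt (DescE_327.psi (fun x => hodge w (V.S x) (V.E x)) om) x := fun x =>
    hL.psi_smooth x
  refine ⟨k * d, uu D k S, dsc f hs fun x => Real.log (gdet V ι x),
    DescE_327.psiT (fun x => hodge w (V.S x) (V.E x)) om S d, ?_, fun τ => rfl⟩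
  exact
    { cyl := hL
      prj := hf
      fl := hfl
      conn := hc
      surj := hs
      pos := hpos
      hM := Nat.mul_pos hk0 hd
      uhol := fun x => uu_hol D hk' hf hL.hol hS x
      une := fun x => uu_ne D hk' hS x
      hφ := fun x => dsc_apply hs (G := fun x => Real.log (gdet V ι x)) (fun a b hab => by
        show Real.log (gdet V ι a) = Real.log (gdet V ι b)
        rw [gdet_fib hfl hf hc hab]) x
      hψ := fun x => by
        have h1 := log_uu D hk' hS hd x
        rw [h1]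
        have h2 : DescE_327.psi (fun x => hodge w (V.S x) (V.E x)) om x = psi V om x := rfl
        rw [h2]
        have h3 : (k : ℝ) ≠ 0 := by exact_mod_cast hk0.ne'
        have h4 : (d : ℝ) ≠ 0 := by exact_mod_cast hd.ne'
        push_cast
        field_simp
        ring }

/-! ### pull back of the line -/

section pull

variable {m' : ℕ} {X' : Type*} [TopologicalSpace X'] [RDom m' X']

/-- pull back of a parallel line -/
theorem CYL.pull (hL : CYL V om) {ρ : X' → X} (hρ : HMap ρ) :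
    CYL (VPull_327.pull V hρ) (fun x => om (ρ x)) where
  hol := fun z => holAt_pull V hρ (hL.hol (ρ z))
  eig := fun z => hL.eig (ρ z)
  ne := fun z => hL.ne (ρ z)
  par := by
    intro z j
    obtain ⟨cj, hcj⟩ : ∃ cj : Fin m → ℂ, ∀ j, (fun i => dz j (fun y => lV V.P om (ρ z) y i) (ρ z)) =
        dM V.P V.E j (ρ z) *ᵥ om (ρ z) + cj j • om (ρ z) := ⟨fun j => (hL.par (ρ z) j).choose,
          fun j => (hL.par (ρ z) j).choose_spec⟩
    refine ⟨∑ l, VPull_327.J ρ z j l * cj l, ?_⟩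
    have hd : ∀ i, DifferentiableAt ℝ ((fun y => lV V.P om (ρ z) y i) ∘ (ch (ρ z)).symm)
        (cp (ρ z)) := by
      intro i
      have h3 : AnalyticAt ℂ (lV V.P om (ρ z) ∘ (ch (ρ z)).symm) (cp (ρ z)) := hL.hol (ρ z)
      exact ((analyticAt_pi_iff.1 h3) i).differentiableAt.restrictScalars ℝ
    have h1 : (fun i => dz j (fun y => lV (VPull_327.pull V hρ).P (fun x => om (ρ x)) z y i) z) =
        fun i => ∑ l, VPull_327.J ρ z j l * dz l (fun y => lV V.P om (ρ z) y i) (ρ z) := by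
      funext i
      exact (hρ z).dz_comp (hd i) j
    rw [h1, dM_pull_E]
    funext i
    have h2 : ∀ l, dz l (fun y => lV V.P om (ρ z) y i) (ρ z) =
        (dM V.P V.E l (ρ z) *ᵥ om (ρ z)) i + cj l * om (ρ z) i := fun l => congrFun (hcj l) i
    simp only [h2]
    rw [Matrix.sum_mulVec, Pi.add_apply, Finset.sum_apply, Pi.smul_apply, smul_eq_mul,
      Finset.sum_mul, ← Finset.sum_add_distrib]
    refine Finset.sum_congr rfl fun l _ => ?_
    rw [Matrix.smul_mulVec, Pi.smul_apply, smul_eq_mul]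
    ring



end pull

/-! ### maps which preserve the coordinates -/

section same

variable {X' T' : Type*} [TopologicalSpace X'] [RDom m X'] [TopologicalSpace T'] [RDom r T']









end same

end Crest.Agent.R276.DescW_327
end
namespace Crest.Agent.R276.DescW_327.WD
end Crest.Agent.R276.DescW_327.WD
end

-- ▼ part R276/DescV_327
section

/-!
# R276, leaf DESC (helper327), part 10: glue with the period field theorem (409, 595)

`gV = gP`; `Fl` and `0 < gdet` from 595's `vertical_iff_pull`, `posDef_block`.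
-/

set_option autoImplicit false
set_option linter.unusedSectionVars false

noncomputable section

open Set Filter Topology Matrix
open scoped ContDiff ComplexOrder ComplexConjugate
open Crest.Agent.R271.Ho51 Crest.Agent.R276.Ipc735
open Crest.Agent.R276.VLevi_327 Crest.Agent.R276.VPull_327
open Crest.Agent.R276.DescF_327 Crest.Agent.R276.Cmp_595 Crest.Agent.R276.Mod1_987
open Crest.Agent.R276.PfDer_676 (Df)

namespace Crest.Agent.R276.DescV_327

attribute [local instance] Matrix.linftyOpNormedRing Matrix.linftyOpNormedAlgebra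

section gen

variable {m r N w : ℕ} {X : Type*} [TopologicalSpace X] [RDom m X] {ι : Fin r → Fin m}
  {V : VHS m X N w}

theorem gV_eq_gP (x : X) (i j : Fin m) : gV V i j x = Pd571.gP V x i j := by
  unfold gV Pd571.gP
  rw [Matrix.of_apply, Matrix.mul_neg, Matrix.trace_neg]
  rfl

theorem gdet_pos_of {x : X} (h : ((Pd571.gP V x).submatrix ι ι).PosDef) : 0 < gdet V ι x := by
  have h1 : (Matrix.of fun i j : Fin r => gV V (ι i) (ι j) x) = (Pd571.gP V x).submatrix ι ι := by
    ext i j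
    rw [Matrix.of_apply, Matrix.submatrix_apply, gV_eq_gP]
  have h2 : gdet V ι x = (Matrix.of fun i j : Fin r => gV V (ι i) (ι j) x).det.re := rfl
  rw [h2, h1]
  exact (Complex.pos_iff.1 h.det_pos).1



end gen

section vert

variable {L : Type} [Field L] [Algebra ℂ L] {ρ a N w : ℕ} {α β : Type} [Fintype α] [Fintype β]
  [DecidableEq α] [DecidableEq β] {M M' : Mdl L (ρ + a)} (V : VHS (ρ + a) M.Pts N w)



end vert

end Crest.Agent.R276.DescV_327
end
end

-- ▼ part R276/AdF_327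
section

/-!
# R276, leaf LC4 (helper327): `Fl` and `0 < gdet` from (ADAPT)
-/

set_option autoImplicit false
set_option linter.unusedSectionVars false

noncomputable section

open Set Filter Topology Matrix
open scoped ContDiff ComplexOrder ComplexConjugate
open Crest.Agent.R271.Ho51 Crest.Agent.R276.Ipc735
open Crest.Agent.R276.VLevi_327 Crest.Agent.R276.VPull_327
open Crest.Agent.R276.DescF_327 Crest.Agent.R276.Mod1_987
open Crest.Agent.R276.SkelGeo_220 Crest.Agent.R276.TowA_849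

namespace Crest.Agent.R276.AdF_327

attribute [local instance] Matrix.linftyOpNormedRing Matrix.linftyOpNormedAlgebra

section gen

variable {ρ a N w : ℕ} {X : Type*} [TopologicalSpace X] [RDom (ρ + a) X]
  {V : VHS (ρ + a) X N w}

theorem fl_of_adapt (h : ∀ (z : X) (v : Fin (ρ + a) → ℂ),
    (∀ i : Fin ρ, v (Fin.castAdd a i) = 0) ↔ thV V z v = 0) :
    Fl V (Fin.castAdd a : Fin ρ → Fin (ρ + a)) := by
  intro z j hj
  have h1 := (h z (Pi.single j 1)).1 (fun i => Pi.single_eq_of_ne (hj i) _)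
  unfold thV at h1
  rw [Finset.sum_eq_single j (fun k _ hk => by rw [Pi.single_eq_of_ne hk, zero_smul])
    (fun hn => absurd (Finset.mem_univ j) hn), Pi.single_eq_same, one_smul] at h1
  exact h1

theorem pos_of_adapt (h : ∀ (z : X) (v : Fin (ρ + a) → ℂ),
    (∀ i : Fin ρ, v (Fin.castAdd a i) = 0) ↔ thV V z v = 0) (z : X) :
    0 < gdet V (Fin.castAdd a : Fin ρ → Fin (ρ + a)) z := by
  refine DescV_327.gdet_pos_of ?_
  set g := Pd571.gP V z with hg
  have hps : g.PosSemidef := Pd571.gP_posSemidef _ z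
  refine Matrix.PosDef.of_dotProduct_mulVec_pos (hps.1.submatrix _) ?_
  intro x hx
  set v : Fin (ρ + a) → ℂ := Fin.append x 0 with hv
  have h1 : star x ⬝ᵥ (g.submatrix (Fin.castAdd a : Fin ρ → Fin (ρ + a)) (Fin.castAdd a)) *ᵥ x =
      star v ⬝ᵥ g *ᵥ v := by
    simp only [dotProduct, Matrix.mulVec, Fin.sum_univ_add, Pi.star_apply, hv, Fin.append_left,
      Fin.append_right, Pi.zero_apply, star_zero, zero_mul, mul_zero, Finset.sum_const_zero,
      add_zero, Matrix.submatrix_apply]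
  have h2 := hps.dotProduct_mulVec_nonneg v
  rw [h1]
  refine lt_of_le_of_ne h2 fun h0 => hx ?_
  have h3 : g *ᵥ v = 0 := (hps.dotProduct_mulVec_zero_iff v).mp h0.symm
  have h4 : ∀ k, ∑ j, conj (v j) * g j k = 0 := by
    intro k
    have h5 := congrArg conj (congrFun h3 k)
    rw [Matrix.mulVec, dotProduct, map_sum, Pi.zero_apply, map_zero] at h5
    rw [← h5]
    refine Finset.sum_congr rfl fun j _ => ?_
    rw [map_mul, mul_comm]
    congr 1
    exact (congrFun (congrFun hps.1 j) k).symm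
  have h5 : thV V z (fun j => conj (v j)) = 0 := (LPerTow_849.thV_iff_gP V z _).2 h4
  have h6 := (h z (fun j => conj (v j))).2 h5
  funext i
  have h7 := h6 i
  simp only [hv, Fin.append_left] at h7
  exact (map_eq_zero _).1 h7

end gen

section tower

variable {T L K : Type} [Field T] [Field L] [Field K] [Algebra ℂ T] [Algebra ℂ L] [Algebra ℂ K]
  [Algebra T L] [Algebra L K] [IsScalarTower ℂ T L] [IsScalarTower ℂ L K] {ρ a r : ℕ}
  {W : Tow T L K ρ a r} {N s : ℕ} {σ : Fin s → K}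

theorem adapt_fl {X : GeoD W.LK N σ} (h : Adapt X) :
    Fl X.V (Fin.castAdd a : Fin ρ → Fin (ρ + a)) :=
  fl_of_adapt (X := W.LK.ML.Pts) (V := X.V) h

theorem adapt_pos {X : GeoD W.LK N σ} (h : Adapt X) (z : W.LK.ML.Pts) :
    0 < gdet X.V (Fin.castAdd a : Fin ρ → Fin (ρ + a)) z :=
  pos_of_adapt (X := W.LK.ML.Pts) (V := X.V) h z

end tower

end Crest.Agent.R276.AdF_327
end
end

-- ▼ part R276/NuF_327

/-!
# R276, leaf LC4 (helper327): the rank `ν` of `Levi ψ`

One `ν` with both properties used in the counting theorem: `Levi ψ` has rank `≤ ν` everywhere and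
there is a good point of rank `ν`.
-/

set_option autoImplicit false
set_option linter.unusedSectionVars false

noncomputable section

open Set Filter Topology Matrix
open Crest.Agent.R271.Ho51 Crest.Agent.R276.Ipc735
open Crest.Agent.R276.LftDefs_327 (WD)

namespace Crest.Agent.R276.NuF_327

variable {n m N w : ℕ} {M X : Type*} [TopologicalSpace M] [RDom n M] [TopologicalSpace X]
    [RDom m X] {V : VHS m X N w} {om : X → Fin N → ℂ} {u : X → ℂ} {M0 : ℕ} {f : X → M}
    {ι : Fin n → Fin m} {φ ψ : M → ℝ}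

/-- **the generic rank of `Levi ψ`** -/
theorem exists_nu [Nonempty M] (h : WD V om u M0 f ι φ ψ) :
    ∃ ν : ℕ, (∀ τ : M, ∃ W : Submodule ℂ (Fin n → ℂ), n ≤ Module.finrank ℂ W + ν ∧
      ∀ v ∈ W, Levi ψ τ v = 0) ∧
      ∀ a : ℝ, 0 < a → Nonempty (CntDefs_857.Good φ (fun τ => a * ψ τ) ν) := by
  classical
  set P : ℕ → Prop := fun k => ∃ τ : M, ∀ K : Submodule ℂ (Fin n → ℂ),
    (∀ v ∈ K, Levi ψ τ v = 0) → k + Module.finrank ℂ K ≤ n with hP
  have hP0 : P 0 := by
    obtain ⟨τ⟩ := ‹Nonempty M›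
    refine ⟨τ, fun K _ => ?_⟩
    rw [zero_add]
    simpa using Submodule.finrank_le K
  have hPn : ∀ k, P k → k ≤ n := by
    rintro k ⟨τ, hτ⟩
    have h1 := hτ ⊥ (fun v hv => by
      rw [Submodule.mem_bot] at hv
      subst hv
      simp [Levi])
    simpa using h1
  set ν := Nat.findGreatest P n with hν
  have hPν : P ν := Nat.findGreatest_spec (Nat.zero_le n) hP0
  refine ⟨ν, fun τ => ?_, fun a ha => ?_⟩
  · by_contra hcon
    push Not at hcon
    have h1 : P (ν + 1) := by
      refine ⟨τ, fun K hK => ?_⟩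
      by_contra h2
      push Not at h2
      obtain ⟨v, hv, hv0⟩ := hcon K (by omega)
      exact hv0 (hK v hv)
    have h2 : ν + 1 ≤ ν := Nat.le_findGreatest (hPn _ h1) h1
    omega
  · obtain ⟨τ, hτ⟩ := hPν
    obtain ⟨x, rfl⟩ := h.surj τ
    exact DescH_327.good h x ha hτ

end Crest.Agent.R276.NuF_327
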