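import Mathlib
import Crest.Agent.R276.C4T_804
import Crest.Agent.R276.CmpA_595
import Crest.Agent.R276.LdPack_828_Mg
import Crest.Agent.R276.C4LocB_327
import Crest.Agent.R276.GrN_217
import Crest.Agent.R276.LEv_220
import Crest.Agent.R276.LgD_870
import Crest.Agent.R276.NuF_327_Mg
import Crest.Agent.R276.CntA_857
import Crest.Agent.R276.Mod4_987
import Crest.Agent.R276.SkelDefs_220
import Crest.Agent.R276.C4Loc_327
import Crest.Agent.R276.TransA_231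

-- ▼ part R276/C4Z_804
section

/-!
# R276, leaf C4-GLUE (helper804): (C4) for `ρ = 0`
-/

set_option autoImplicit false

open Set Filter Topology MeasureTheory

noncomputable section

namespace Crest.Agent.R276.C4Z_804

open Crest.Agent.R271 Crest.Agent.R271.Rd692 Crest.Agent.R271.Ho51
open Crest.Agent.R271.Defs710 hiding glue
open Crest.Agent.R276.Mod1_987 Crest.Agent.R276.FKDefs_779
open Crest.Agent.R276.SkelDefs_220 hiding ModelOf
open Crest.Agent.R276.C4T_804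

variable {T L K : Type} [Field T] [Field L] [Field K] [Algebra ℂ T] [Algebra ℂ L] [Algebra ℂ K]
  [Algebra T L] [Algebra L K] [IsScalarTower ℂ T L] [IsScalarTower ℂ L K]

/-- a function field of transcendence degree `0` is `ℂ` -/
theorem range_of_zero (MT : Mdl T 0) (x : T) : ∃ c : ℂ, algebraMap ℂ T c = x := by
  have h := Cmp_595.isTranscendenceBasis MT
  have : Algebra.IsAlgebraic ℂ T := h.isEmpty_iff_isAlgebraic.1 inferInstance
  exact (IsAlgClosed.algebraMap_bijective_of_isIntegral (k := ℂ) (K := T)).2 x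

theorem mem_of_zero (MT : Mdl T 0) {n : ℕ} {R : ValuationSubring K} (hR : IsDiv ℂ n R) (x : T) :
    algebraMap L K (algebraMap T L x) ∈ R := by
  obtain ⟨c, rfl⟩ := range_of_zero MT x
  rw [← IsScalarTower.algebraMap_apply ℂ T L, ← IsScalarTower.algebraMap_apply ℂ L K]
  exact hR.alg c

variable {a r : ℕ} {MT : Mdl T 0} {ML : Mdl L (0 + a)} {MK : Mdl K (0 + a + r)}
  {H₁ : Rel MT ML} {H₂ : Rel ML MK}

/-- **(C4) for `ρ = 0`** -/
theorem c4_zero (hB : BdInt) {D : ML.Pts → ℝ} {ψ : MT.Pts → ℝ} (hψ : Continuous ψ) {M0 : ℕ}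
    (hM : 0 < M0) {u : ML.B} {c : ℝ} (hc : 0 < c)
    (hu : ∀ z : ML.Pts, ‖z u‖ ^ 2 * D z ^ M0 = c * Real.exp (-(M0 * ψ (H₁.f z)))) :
    C4 H₁ H₂ D := fun S _ hS t₀ =>
  c4T0 hB hψ hM hc hu S hS (fun R hR x => mem_of_zero MT (hS R hR) x) t₀

end Crest.Agent.R276.C4Z_804
end
end

-- ▼ part R276/TransF_231
section

/-!
# Row 276 (helper231), TRANS in the literal form of 327 (`C4Loc_327.Trans`) for 828's package

`trans_LB`, `trans_LB'` (both inequalities between `‖q 0‖` and `‖τ‖ ^ k`), `exists_pack`.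
-/

set_option autoImplicit false
set_option linter.unusedSectionVars false

open Set Filter Topology Metric MeasureTheory

noncomputable section

namespace Crest.Agent.R276.TransF_231

open Crest.Agent.R271.Defs710 Crest.Agent.R271.Bd741 Crest.Agent.R271.Rd692
open Crest.Agent.R271.Ho51
open Crest.Agent.R276.Mod1_987
open Crest.Agent.R276.SkelDefs_220 hiding ModelOf
open Crest.Agent.R276.BC_986
open Crest.Agent.R276.BR_590 (VData)
open Crest.Agent.R276.Bcq_828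
open Crest.Agent.R276.CntDefs_857
open Crest.Agent.R276.FKDefs_779 (IsDiv)
open Crest.Agent.R276.CInd_870 (rm)

variable {d a r : ℕ} {T L K : Type} [Field T] [Field L] [Field K] [Algebra ℂ T]
  [Algebra ℂ L] [Algebra ℂ K] [Algebra T L] [Algebra L K]
  [IsScalarTower ℂ T L] [IsScalarTower ℂ L K] {MT : Mdl T (d + 1)} {ML : Mdl L (d + 1 + a)}
  {MK : Mdl K (d + 1 + a + r)} (H₁ : Rel MT ML) (H₂ : Rel ML MK) (R : ValuationSubring K)

section LBsec

variable {Lc : Type} [Field Lc] [Algebra ℂ Lc] [Algebra T Lc]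
  {V : VData (d + 1) a T L} {D : DivModel (d + 1) Lc} {j : V.D.A →ₐ[ℂ] D.A}
  {F : Finset Lc} {FL : Finset L}

/-- **TRANS for 828's package**, with both inequalities -/
theorem trans_LB' (hV : V.D.ModelOf (R.comap (algebraMap L K))) {c : Fin a → ℂ}
    (hM : Ld_828.MS V D j c) (P : Ld_828.LB (rm H₁) V D j F FL) (hu : j V.u ∈ P.bd.S)
    {μ : Measure MT.Pts} (hμ : IsLeb μ) :
    ∃ FL' : Finset L, (∀ f ∈ FL', f ≠ 0) ∧ ∀ Y : TChart H₁ H₂ R, Y.GoodL FL' → ∃ k : ℕ, 0 < k ∧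
      ∀ ζ₀ : Cn (d + 1 + a), ‖ζ₀‖ < Y.δ → tau (low (some Y.i₀)) ζ₀ = 0 →
      ∃ (y : P.bd.E) (C : ℝ), 0 < C ∧ ∀ᶠ η in 𝓝 ζ₀, η ∈ PD Y.δ (low (some Y.i₀)) →
        ∃ q ∈ PS d ((P.bd.dchart (fun _ => rfl) MT.ft hμ).r y / 2),
          H₁.f (Y.cL.s η) = (P.bd.dchart (fun _ => rfl) MT.ft hμ).σ y q ∧
          ‖q 0‖ ≤ C * ‖tau (low (some Y.i₀)) η‖ ^ k ∧ ‖tau (low (some Y.i₀)) η‖ ^ k ≤ C * ‖q 0‖ ∧
          ‖Y.jN η‖ ≤ C * ‖(P.bd.dchart (fun _ => rfl) MT.ft hμ).J y q‖ :=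
  Trans_231.trans H₁ H₂ R V j hV hM.h0 hM.w_eq hM.base P.bd
    (fun y _ hζ => P.bd.Q.ne hu y hζ)

/-- **TRANS for 828's package**, the literal form of 327 -/
theorem trans_LB (hV : V.D.ModelOf (R.comap (algebraMap L K))) {c : Fin a → ℂ}
    (hM : Ld_828.MS V D j c) (P : Ld_828.LB (rm H₁) V D j F FL) (hu : j V.u ∈ P.bd.S)
    {μ : Measure MT.Pts} (hμ : IsLeb μ) :
    C4Loc_327.Trans H₁ H₂ R (P.bd.dchart (fun _ => rfl) MT.ft hμ) := by
  obtain ⟨FL', h1, h2⟩ := trans_LB' H₁ H₂ R hV hM P hu hμ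
  refine ⟨∅, FL', by simp, h1, fun Y _ _ hYL η₀ hη₀ ht => ?_⟩
  obtain ⟨k, -, h3⟩ := h2 Y hYL
  obtain ⟨y, C, hC, h4⟩ := h3 η₀ hη₀ ht
  refine ⟨y, C, k, hC, h4.mono fun η h5 hη => ?_⟩
  obtain ⟨q, hq, h6, -, h7, h8⟩ := h5 hη
  exact ⟨q, hq, h6, h7, h8⟩

end LBsec

end Crest.Agent.R276.TransF_231
end
end

-- ▼ part R276/Cdt_231
section

/-!
# Row 276 (helper231): the counting data `CDT` (804) of one divisorial valuation ring

`cdt_of`: assembles 828's package, 217's alternative, 327's lower bound and `trans_LB`.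
-/

set_option autoImplicit false

open Set Filter Topology Metric MeasureTheory

noncomputable section

namespace Crest.Agent.R276.Cdt_231

open Crest.Agent.R271.Defs710 Crest.Agent.R271.Bd741 Crest.Agent.R271.Rd692
open Crest.Agent.R271.Ho51
open Crest.Agent.R276.Ipc735
open Crest.Agent.R276.Mod1_987
open Crest.Agent.R276.SkelDefs_220 hiding ModelOf
open Crest.Agent.R276.CntDefs_857
open Crest.Agent.R276.FKDefs_779 (IsDiv)
open Crest.Agent.R276.LftDefs_327 (WD LD)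
open Crest.Agent.R276.BdNf3_651 (eN)

variable {d a r : ℕ} {T L K : Type} [Field T] [Field L] [Field K] [Algebra ℂ T]
  [Algebra ℂ L] [Algebra ℂ K] [Algebra T L] [Algebra L K]
  [IsScalarTower ℂ T L] [IsScalarTower ℂ L K] {MT : Mdl T (d + 1)} {ML : Mdl L (d + 1 + a)}

/-- **the counting data** along `R` with `R ∩ T ≠ T` -/
theorem cdt_of (H₁ : Rel MT ML) {MK : Mdl K (d + 1 + a + r)} (H₂ : Rel ML MK)
    {R : ValuationSubring K} (hR : IsDiv ℂ (d + 1 + a + r) R)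
    (hT : ∃ c : T, algebraMap L K (algebraMap T L c) ∉ R) {N w : ℕ}
    {V : VHS (d + 1 + a) ML.Pts N w} {om : ML.Pts → Fin N → ℂ} (hH : HulB_606.HulS V om)
    {u : ML.B} {M0 : ℕ} {φ ψ : MT.Pts → ℝ}
    (hw : WD V om (fun x : ML.Pts => x u) M0 H₁.f (Fin.castAdd a) φ ψ)
    (hg : Wd_450.LG ML (VLevi_327.psi V om)) {ν : ℕ}
    (hν : ∀ τ : MT.Pts, ∃ W : Submodule ℂ (Fin (d + 1) → ℂ), d + 1 ≤ Module.finrank ℂ W + ν ∧
      ∀ v ∈ W, Levi ψ τ v = 0) (n : ℕ) {μ : Measure MT.Pts} (hμ : IsLeb μ) :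
    Nonempty (C4T_804.CDT μ φ (fun y => ((M0 * (eN N * n) : ℕ) : ℝ) * ψ y) ν H₁ H₂ R) := by
  have hu0 : (u : L) ≠ 0 := by
    intro h
    obtain ⟨x⟩ : Nonempty ML.Pts := inferInstance
    refine hw.une x ?_
    have h1 : u = 0 := Subtype.ext h
    rw [h1]
    exact map_zero x
  obtain ⟨V', hV, -, Lc, i1, i2, i3, i4, D, j, c, P, hM, hu⟩ := Ld_828.exists_div H₁ MK hR hT
    {(u : L)} (by simpa using hu0)
  obtain ⟨⟨l, -⟩, A, hA⟩ := Ld_828.exists_ld_grow H₁ P hM V om hg u (Finset.mem_singleton_self _) hμ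
  obtain ⟨k, halt, hlow⟩ := GrN_217.exists_alt hH hw l hν (DescG_327.WD.psi_Sm hw).continuous n
  exact ⟨{ E := P.bd.E
           D := P.bd.dchart (fun _ => rfl) MT.ft hμ
           k := k
           alt := halt
           low := hlow
           A := A
           grow := hA
           trans := TransF_231.trans_LB H₁ H₂ R hV hM P hu hμ }⟩

end Crest.Agent.R276.Cdt_231
end
end

-- ▼ part R276/LC4Skel_220
section

/-!
# Row 276 (S0419), helper220: `Skel_220.LC4` from 735's `ExMem` and 563's `BdInt`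

* `ev_wok` : the weights `φ`, `ψ` on `M_T` for every sufficiently small tower;
* `c4_of_wd` : (C4) on such a tower;
* `lc4_of (hE : ExMem) (hB : BdInt) : LC4`.
-/

set_option autoImplicit false

open Set Filter Topology MeasureTheory
open scoped ENNReal

noncomputable section

namespace Crest.Agent.R276.LC4_220

open Crest.Agent.R271 Crest.Agent.R271.Defs710 Crest.Agent.R271.Rd692 Crest.Agent.R271.Ho51
open Crest.Agent.R276.Mod1_987 Crest.Agent.R276.FKDefs_779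
open Crest.Agent.R276.SkelDefs_220 Crest.Agent.R276.SkelGeo_220
open Crest.Agent.R276.TowA_849
open Crest.Agent.R276.VLevi_327 (CYL psi hn)
open Crest.Agent.R276.LftDefs_327 (WD)
open Crest.Agent.R276.Wd_450 (LG)
open Crest.Agent.R276.C4T_804 (ExMem BdInt)

variable {T L K : Type} [Field T] [Field L] [Field K] [Algebra ℂ T] [Algebra ℂ L] [Algebra ℂ K]
  [Algebra T L] [Algebra L K] [IsScalarTower ℂ T L] [IsScalarTower ℂ L K] {ρ a r : ℕ}

/-- the weights on `M_T` of a tower -/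
structure WOK (W : Tow T L K ρ a r) (N : ℕ) {s : ℕ} (σ : Fin s → K) (X : GeoD W.LK N σ) where
  hull : X.Hull
  lg : LG W.LK.ML (psi X.V X.om)
  ξ : Cn a
  j : ℕ
  dvd : specR ξ W.TL.MK.h ∣ W.TL.ML.h ^ j
  u : (W.TL.MK.B)ˣ
  M0 : ℕ
  φ : W.TL.ML.Pts → ℝ
  ψ : W.TL.ML.Pts → ℝ
  wd : WD X.V X.om (fun x : W.LK.ML.Pts => x (u : W.TL.MK.B)) M0
    (W.TL.q : W.TL.MK.Pts → W.TL.ML.Pts) (Fin.castAdd a) φ ψ

theorem ev_wok {W : Tow T L K ρ a r} {N d e₀ s e : ℕ} {σ : Fin s → K} {w : Fin (e + 1) → L}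
    (h : TowOK W N d e₀ σ w) :
    Ev W fun W' => TowOK W' N d e₀ σ w ∧ ∃ X : GeoD W'.LK N σ, Nonempty (WOK W' N σ X) := by
  have hsl : Ev W fun W' => ∃ ξ : Cn a, specR ξ W'.TL.MK.h ∣ W'.TL.ML.h ^ 2 := by
    refine ⟨1, one_ne_zero, fun s hs _ => ⟨1, one_ne_zero, fun p hp _ => ?_⟩⟩
    obtain ⟨ξ, c₀, hc₀, hc⟩ := Wd_450.exists_slice W.TL p hp
    exact ⟨c₀, hc₀, fun c hc' hd => ⟨ξ, hc c hc' hd⟩⟩
  refine ((LEv_220.lev T L K ρ a r W N d e e₀ s σ w h).and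
    ((LgD_870.ev_psi h).and hsl)).mono ?_
  rintro W' ⟨h1, h2, ξ, h3⟩
  refine ⟨h1, ?_⟩
  obtain ⟨X, hX, hXa⟩ := h1.geo
  have hconn : ∀ x : W'.TL.MK.Pts,
      IsPreconnected ((W'.TL.q : W'.TL.MK.Pts → W'.TL.ML.Pts) ⁻¹' {W'.TL.q x}) :=
    fun x => (h1.conn₁ (W'.TL.q x)).isPreconnected
  obtain ⟨u, M0, φ, ψ, hwd⟩ := Wd_450.exists_wd W'.TL X.V X.om X.cyl
    (AdF_327.adapt_fl hXa) hconn (AdF_327.adapt_pos hXa) h3 (h2 X)
  exact ⟨X, ⟨⟨hX, h2 X, ξ, 2, h3, u, M0, φ, ψ, hwd⟩⟩⟩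

/-- **(C4) on a tower with weights** -/
theorem c4_gen (hE : ExMem) (hB : BdInt) {MT : Mdl T ρ} {ML : Mdl L (ρ + a)}
    {MK : Mdl K (ρ + a + r)} (H₁ : Rel MT ML) (H₂ : Rel ML MK) {N w : ℕ}
    {V : Ipc735.VHS (ρ + a) ML.Pts N w} {om : ML.Pts → Fin N → ℂ} (hH : HulB_606.HulS V om)
    {u : ML.B} {M0 : ℕ} {φ ψ : MT.Pts → ℝ}
    (hw : WD V om (fun x : ML.Pts => x u) M0 H₁.f (Fin.castAdd a) φ ψ)
    (hg : LG ML (psi V om)) (hφ : PGr MT fun y => Real.exp (φ y))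
    (hψ : PGr MT fun y => Real.exp (ψ y)) {D : ML.Pts → ℝ} {c : ℝ} (hc : 0 < c)
    (hD : ∀ z, hn V z (om z) = c * D z) : C4 H₁ H₂ D := by
  have hu : ∀ z : ML.Pts, ‖z u‖ ^ 2 * D z ^ M0 =
      (c ^ M0)⁻¹ * Real.exp (-(M0 * ψ (H₁.f z))) := by
    intro z
    have h1 := Wd_450.norm_u hw z
    rw [hD, mul_pow] at h1
    rw [← h1]
    have h2 : c ^ M0 ≠ 0 := by positivity
    field_simp
  have hψS : Sm ψ := Wd_450.sm_ψ hw
  have hc' : 0 < (c ^ M0)⁻¹ := by positivity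
  rcases ρ with _ | d
  · exact C4Z_804.c4_zero hB hψS.continuous hw.hM hc' hu
  · refine C4T_804.c4T hE hB (Wd_450.sm_φ hw) hψS (Wd_450.psh_φ hw) (Wd_450.psh_ψ hw) hφ hψ
      hw.hM hc' hu fun S _ hSd hST => ?_
    obtain ⟨μ, hμ⟩ := Mdl.exists_leb (M := MT)
    obtain ⟨ν, hν, hgood⟩ := NuF_327.exists_nu hw
    have hp : 0 < BdNf3_651.eN N * 1 := by
      rw [mul_one]
      exact BdNf3_651.eN_pos N
    have hM := hw.hM
    exact ⟨BdNf3_651.eN N * 1, ν, μ, hp, hμ, hgood _ (by positivity), fun R hR =>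
      Cdt_231.cdt_of H₁ H₂ (hSd R hR) (hST R hR) hH hw hg hν 1 hμ⟩

theorem c4_of_wok (hE : ExMem) (hB : BdInt) {W : Tow T L K ρ a r} {N s : ℕ} {σ : Fin s → K}
    {X : GeoD W.LK N σ} (h : WOK W N σ X) (H₁ : Rel W.MT W.ML) (H₂ : Rel W.ML W.MK) :
    C4 H₁ H₂ (DR W.LK N (fr W.LK σ X.mem)) := by
  have h1 := Wd_450.pgr_φ h.wd h.dvd
  have h2 := Wd_450.pgr_ψ h.wd h.dvd h.lg 1
  simp only [one_mul] at h2
  exact c4_gen hE hB H₁ H₂ (V := X.V) (om := X.om) (u := Units.val h.u) h.hull h.wd h.lg h1 h2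
    X.c_pos X.nrm

theorem lc4_of (hE : ExMem) (hB : BdInt) : Skel_220.LC4 := by
  intro T L K _ _ _ _ _ _ _ _ _ _ ρ a r W N d e e₀ s σ w hOK
  refine (ev_wok hOK).mono ?_
  rintro W' ⟨h1, X, ⟨h2⟩⟩
  exact ⟨h1.H₁, h1.H₂, X.mem, h1.wmem, c4_of_wok hE hB h2 h1.H₁ h1.H₂⟩

end Crest.Agent.R276.LC4_220
end
end

-- ▼ part R276/C4Mem_735
section

/-!
# R276, leaf C2 of LC4 (helper735): `L²` sections of `nK + ntL` on `M_T` are algebraic

`mem_of_wtt`  : `F` holomorphic, `∫ |F|² e^{-((n-1)φ + ntψ)} < ∞`, `e^φ`, `e^ψ` of polynomial growth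
                ⟹ `F` is the evaluation of an element of `B_T`;
`exists_mem`  : the same for `F ∈ CntA_857.V`.
-/

set_option autoImplicit false

open Set Filter Topology MeasureTheory

noncomputable section

namespace Crest.Agent.R276.C4Mem_735

open Crest.Agent.R271 Crest.Agent.R271.Rd692 Crest.Agent.R271.Ho51 Crest.Agent.R271.Alg255
open Crest.Agent.R271.Defs710 hiding glue
open Crest.Agent.R276.Mod1_987 Crest.Agent.R276.AB2_590
open Crest.Agent.R276.SkelDefs_220 hiding ModelOf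
open Crest.Agent.R276.CntA_857

variable {T : Type} [Field T] [Algebra ℂ T] {d : ℕ} (MT : Mdl T (d + 1))

/-- logarithmic form of the polynomial growth -/
theorem log_of_pgr {φ : MT.Pts → ℝ} (h : PGr MT fun y => Real.exp (φ y)) :
    ∃ (C : ℝ) (j k : ℕ), ∀ y : MT.Pts, φ y ≤
      k * Real.log (1 + ∑ i, ‖y (MT.z i)‖ ^ 2) - j * Real.log (‖y (az MT.z MT.h)‖ ^ 2) + C := by
  obtain ⟨C, j, k, h1⟩ := h
  -- replace `j` by `2 j`... `‖h‖^j`; use the bound `‖h‖^{2j}`: multiply by `‖h‖^j`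
  obtain ⟨C', k', hC', h2⟩ : ∃ (C' : ℝ) (k' : ℕ), 0 < C' ∧ ∀ y : MT.Pts,
      Real.exp (φ y) * ‖y (az MT.z MT.h)‖ ^ (2 * j) ≤ C' * (1 + ∑ i, ‖y (MT.z i)‖ ^ 2) ^ k' := by
    obtain ⟨A, a, hA, hg⟩ : PG MT.z (az MT.z MT.h) := by
      apply PG.adjoin
      rw [Algebra.adjoin_range_eq_range_aeval]
      exact ⟨MT.h, rfl⟩
    refine ⟨|C| * A ^ j + 1, k + a * j, by positivity, fun y => ?_⟩
    have h3 := h1 y
    have h4 := hg y
    rw [show MvPolynomial.eval (MT.pz y) MT.h = y (az MT.z MT.h) from (MT.apply_az' y _).symm] at h3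
    have h3' : Real.exp (φ y) * ‖y (az MT.z MT.h)‖ ^ j ≤ C * (1 + ∑ i, ‖y (MT.z i)‖ ^ 2) ^ k := h3
    clear h3
    set w := 1 + ∑ i, ‖y (MT.z i)‖ ^ 2 with hw
    have hw1 : 1 ≤ w := le_add_of_nonneg_right (Finset.sum_nonneg fun _ _ => by positivity)
    have hw0 : 0 < w := by linarith
    calc Real.exp (φ y) * ‖y (az MT.z MT.h)‖ ^ (2 * j)
        = (Real.exp (φ y) * ‖y (az MT.z MT.h)‖ ^ j) * ‖y (az MT.z MT.h)‖ ^ j := by ring
      _ ≤ (|C| * w ^ k) * (A * w ^ a) ^ j := by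
          refine mul_le_mul (h3'.trans ?_) ?_ (by positivity) (by positivity)
          · gcongr
            exact le_abs_self C
          · have h5 : ‖y (az MT.z MT.h)‖ ≤ A * w ^ a := h4
            gcongr
      _ = (|C| * A ^ j) * w ^ (k + a * j) := by ring
      _ ≤ _ := by gcongr; linarith
  refine ⟨Real.log C', j, k', fun y => ?_⟩
  have hh : 0 < ‖y (az MT.z MT.h)‖ := by
    rw [norm_pos_iff]
    exact (MT.h_unit.map y).ne_zero
  have hw : 0 < 1 + ∑ i, ‖y (MT.z i)‖ ^ 2 := by positivity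
  have h3 := Real.log_le_log (by positivity) (h2 y)
  rw [Real.log_mul (Real.exp_pos _).ne' (by positivity), Real.log_exp,
    Real.log_mul hC'.ne' (by positivity), Real.log_pow, Real.log_pow] at h3
  rw [Real.log_pow]
  push_cast at h3 ⊢
  linarith

/-- **algebraicity of `L²` sections** -/
theorem mem_of_wtt {μ : Measure MT.Pts} (hμ : IsLeb μ) {φ ψ : MT.Pts → ℝ}
    (hφ : Measurable φ) (hψ : Measurable ψ) (gφ : PGr MT fun y => Real.exp (φ y))
    (gψ : PGr MT fun y => Real.exp (ψ y)) {n t : ℕ} (hn : 1 ≤ n) {F : MT.Pts → ℂ} (hF : Hol F)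
    (hint : nrm μ φ ψ n t F < ⊤) :
    ∃ b : MT.B, ∀ y : MT.Pts, y b = F y := by
  obtain ⟨C, j, k, h1⟩ := log_of_pgr MT gφ
  obtain ⟨C', j', k', h2⟩ := log_of_pgr MT gψ
  have hFm : Measurable F := (Hol_cont hF).measurable
  have hu : az MT.z MT.h ≠ 0 := MT.h_unit.ne_zero
  obtain ⟨f, hf⟩ := mem_of_phi MT.het (F := F) (holB_of_51 MT.hch hF) hu hu
    ((n - 1) * j + n * t * j') ((n - 1) * k + n * t * k')
    (C := ((n : ℝ) - 1) * C + n * t * C')
    (φ := fun y => ((n : ℝ) - 1) * φ y + n * t * ψ y) (fun y _ _ => by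
      have h3 := h1 y
      have h4 := h2 y
      have h5 : (0 : ℝ) ≤ (n : ℝ) - 1 := by
        have : (1 : ℝ) ≤ n := by exact_mod_cast hn
        linarith
      have h6 : (0 : ℝ) ≤ (n : ℝ) * t := by positivity
      have h7 := mul_le_mul_of_nonneg_left h3 h5
      have h8 := mul_le_mul_of_nonneg_left h4 h6
      simp only [Nat.cast_add, Nat.cast_mul, Nat.cast_sub hn, Nat.cast_one]
      generalize Real.log (1 + ∑ i, ‖y (MT.z i)‖ ^ 2) = L1 at *
      generalize Real.log (‖y (az MT.z MT.h)‖ ^ 2) = L2 at *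
      linarith)
    (by
      rw [MT.lintM_eq hμ (by fun_prop)]
      exact hint)
  exact ⟨f, fun y => (hf y).symm⟩

/-- **(C2)**: the `L²` sections are regular functions (`C4T_804.ExMem`) -/
theorem exists_mem (T : Type) [Field T] [Algebra ℂ T] (d : ℕ) (MT : Mdl T (d + 1))
    (μ : Measure MT.Pts) (hμ : IsLeb μ) (φ ψ : MT.Pts → ℝ) (hφ : Continuous φ)
    (hψ : Continuous ψ) (gφ : PGr MT (fun y => Real.exp (φ y)))
    (gψ : PGr MT (fun y => Real.exp (ψ y))) (k t : ℕ) (hk : 1 ≤ k) (F : MT.Pts → ℂ)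
    (hF : F ∈ V μ hφ.measurable hψ.measurable k t) : ∃ b : MT.B, ∀ y : MT.Pts, y b = F y :=
  mem_of_wtt MT hμ hφ.measurable hψ.measurable gφ gψ hk hF.1 hF.2

end Crest.Agent.R276.C4Mem_735
end
end

-- ▼ part R276/C4Triv_563
section

/-!
# R276, leaf C4, case `T ⊆ R` (helper563)

On a tower chart along `R ⊇ T` the map `H₁.f ∘ cL.s` extends holomorphically to the full polydisc,
with values in `{h_T ≠ 0}`: every function `G ∘ H₁.f`, `G` continuous on `M_T`, is bounded there.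

* `ord_inv`, `ord_zero`;
* `exists_vals`: the coordinates of `M_T` on the chart of `L`;
* `bdL_of_le`, `bdL_int`.
-/

set_option autoImplicit false

noncomputable section

open Set Filter Topology MeasureTheory Metric

namespace Crest.Agent.R276.C4Triv_563

open Crest.Agent.R271 Crest.Agent.R271.Rd692 Crest.Agent.R271.Ho51
open Crest.Agent.R271.Defs710 hiding glue
open Crest.Agent.R276.Mod1_987 Crest.Agent.R276.FKDefs_779
open Crest.Agent.R276.SkelDefs_220 hiding ModelOf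
open Crest.Agent.R276.WPack_505 (ord_apply logB_of_bdd)
open Crest.Agent.R271.Alg255 (az)

/-! ### orders -/

section ord

variable {K : Type} [Field K] [Algebra ℂ K] {n : ℕ} {M : Mdl K n} {δ : ℝ} {i₀ : Option (Fin n)}

theorem mono_inv {u : Cn n → ℂ} {k : ℤ} (h : Mono δ i₀ u k) :
    Mono δ i₀ (fun ζ => (u ζ)⁻¹) (-k) := by
  obtain ⟨G, h1, h2, h3⟩ := h
  refine ⟨fun ζ => (G ζ)⁻¹, fun ζ hζ => (h1 ζ hζ).inv (h2 ζ hζ), fun ζ hζ => inv_ne_zero (h2 ζ hζ),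
    fun ζ hζ => ?_⟩
  simp only
  rw [h3 ζ hζ, mul_inv, zpow_neg]

theorem ord_inv {X : AC M δ i₀} {f : K} (hf : f ≠ 0) {k : ℤ} (h : X.Ord f k) :
    X.Ord f⁻¹ (-k) := by
  obtain ⟨u, hu, hX⟩ := h
  refine ⟨fun ζ => (u ζ)⁻¹, mono_inv hu, fun ζ hζ b c hbc => ?_⟩
  have h1 : (c : K) = f * b := by rw [hbc, mul_inv_cancel_left₀ hf]
  rw [hX ζ hζ c b h1, inv_mul_cancel_left₀ (AcOpen_89.Mono.ne_zero hu hζ)]

theorem mono_none (hi : i₀ = none) {u : Cn n → ℂ} {k : ℤ} (h : Mono δ i₀ u k) :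
    Mono δ i₀ u 0 := by
  subst hi
  obtain ⟨G, h1, h2, h3⟩ := h
  refine ⟨G, h1, h2, fun ζ hζ => ?_⟩
  rw [h3 ζ hζ]
  simp [tau]

/-- a power of `s` with a non zero limit at `0` -/
theorem zpow_lim {k : ℤ} {c : ℂ} (hc : c ≠ 0)
    (h : Tendsto (fun s : ℂ => s ^ k) (𝓝[≠] 0) (𝓝 c)) : k = 0 := by
  have key : ∀ (m : ℕ) (c : ℂ), 0 < m → c ≠ 0 →
      ¬ Tendsto (fun s : ℂ => s ^ m) (𝓝[≠] 0) (𝓝 c) := by
    intro m c hm hc h
    have h1 : Tendsto (fun s : ℂ => s ^ m) (𝓝[≠] 0) (𝓝 ((0 : ℂ) ^ m)) :=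
      ((continuous_pow m).tendsto (0 : ℂ)).mono_left nhdsWithin_le_nhds
    rw [zero_pow hm.ne'] at h1
    exact hc (tendsto_nhds_unique h h1)
  rcases lt_trichotomy k 0 with hk | hk | hk
  · exfalso
    obtain ⟨m, hm⟩ := Int.eq_ofNat_of_zero_le (neg_nonneg.2 hk.le)
    refine key m c⁻¹ (by omega) (inv_ne_zero hc) ?_
    refine (h.inv₀ hc).congr fun s => ?_
    rw [← zpow_natCast, ← hm, zpow_neg]
  · exact hk
  · exfalso
    obtain ⟨m, hm⟩ := Int.eq_ofNat_of_zero_le hk.le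
    refine key m c (by omega) hc ?_
    refine h.congr fun s => ?_
    rw [hm, zpow_natCast]

end ord

section tower

variable {T L K : Type} [Field T] [Field L] [Field K] [Algebra ℂ T] [Algebra ℂ L] [Algebra ℂ K]
  [Algebra T L] [Algebra L K] [IsScalarTower ℂ T L] [IsScalarTower ℂ L K] {ρ a r : ℕ}
  {MT : Mdl T ρ} {ML : Mdl L (ρ + a)} {MK : Mdl K (ρ + a + r)} {H₁ : Rel MT ML} {H₂ : Rel ML MK}
  {R : ValuationSubring K} (Y : TChart H₁ H₂ R)

/-- elements of `T ⊆ R` have order `0` along `R` -/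
theorem ord_zero_K (hT : ∀ x : T, algebraMap L K (algebraMap T L x) ∈ R) {x : T} (hx : x ≠ 0)
    {k : ℤ} (h : Y.cK.Ord (algebraMap L K (algebraMap T L x)) k) : k = 0 := by
  have h0 : algebraMap L K (algebraMap T L x) ≠ 0 := by
    intro h0
    apply hx
    apply (algebraMap T L).injective
    apply (algebraMap L K).injective
    rw [h0, map_zero, map_zero]
  have h1 := (Y.ordR _ k h).1 (hT x)
  have h2 := (Y.ordR _ (-k) (ord_inv h0 h)).1 (by
    have h3 := hT x⁻¹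
    rwa [map_inv₀, map_inv₀] at h3)
  omega

/-- comparison of orders on the charts of `L` and `K` -/
theorem ord_zero_L {b : ML.B} {k : ℤ} (hK : Y.cK.Ord (algebraMap L K (b : L)) 0)
    (hL : Y.cL.Ord (b : L) k) (hlow : low (some Y.i₀) ≠ none) : k = 0 := by
  obtain ⟨j, hj⟩ : ∃ j, low (some Y.i₀) = some j := Option.ne_none_iff_exists'.1 hlow
  have hi := EndC_723.low_eq_some hj
  have hi₀ : Y.i₀ = Fin.castAdd r j := Option.some.inj hi
  obtain ⟨gL, hL1, hL2, hL3⟩ := ord_apply hL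
  obtain ⟨gK, hK1, hK2, hK3⟩ := ord_apply (b := H₂.incl b) (show Y.cK.Ord _ 0 from hK)
  have hδ := Y.δ_pos
  -- the two paths
  set p : ℂ → Cn (ρ + a + r) := fun s => Pi.single Y.i₀ s with hp
  have hpc : Continuous p :=
    continuous_single (A := fun _ : Fin (ρ + a + r) => ℂ) Y.i₀
  have hp0 : p 0 = 0 := Pi.single_zero _
  set q : ℂ → Cn (ρ + a) := fun s => Pi.single j (s ^ Y.e₁) with hq
  have hqc : Continuous q :=
    (continuous_single (A := fun _ : Fin (ρ + a) => ℂ) j).comp (continuous_pow _)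
  have hq0 : q 0 = 0 := by
    rw [hq]
    simp only
    rw [zero_pow Y.e₁_pos.ne', Pi.single_zero]
  have hpw : ∀ s, pw Y.e₁ (some Y.i₀) (p s) = q s := by
    intro s
    funext l
    unfold pw
    rw [hj]
    by_cases hl : j = l
    · subst hl
      rw [if_pos rfl, hp, hq]
      simp only
      rw [hi₀, Pi.single_eq_same, Pi.single_eq_same]
    · rw [if_neg (fun h => hl (Option.some.inj h)), hp, hq]
      simp only
      rw [hi₀, Pi.single_eq_of_ne, Pi.single_eq_of_ne (Ne.symm hl)]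
      intro h
      exact hl ((Fin.castAdd_injective _ _) h).symm
  have hb0 : (0 : Cn (ρ + a + r)) ∈ ball (0 : Cn (ρ + a + r)) Y.δ := mem_ball_self hδ
  have hb0' : (0 : Cn (ρ + a)) ∈ ball (0 : Cn (ρ + a)) Y.δ := mem_ball_self hδ
  have hGK : Tendsto (fun s => gK (p s)) (𝓝[≠] 0) (𝓝 (gK 0)) := by
    have h1 : ContinuousAt (fun s => gK (p s)) 0 :=
      ContinuousAt.comp (g := gK) (by rw [hp0]; exact (hK1 0 hb0).continuousAt) hpc.continuousAt
    have h2 := h1.tendsto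
    simp only [hp0] at h2
    exact h2.mono_left nhdsWithin_le_nhds
  have hGL : Tendsto (fun s => gL (q s)) (𝓝[≠] 0) (𝓝 (gL 0)) := by
    have h1 : ContinuousAt (fun s => gL (q s)) 0 :=
      ContinuousAt.comp (g := gL) (by rw [hq0]; exact (hL1 0 hb0').continuousAt) hqc.continuousAt
    have h2 := h1.tendsto
    simp only [hq0] at h2
    exact h2.mono_left nhdsWithin_le_nhds
  have hlim : Tendsto (fun s => gK (p s) / gL (q s)) (𝓝[≠] 0) (𝓝 (gK 0 / gL 0)) :=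
    hGK.div hGL (hL2 0 hb0')
  have hev : ∀ᶠ s : ℂ in 𝓝[≠] 0, gK (p s) / gL (q s) = s ^ ((Y.e₁ : ℤ) * k) := by
    have h1 : ∀ᶠ s : ℂ in 𝓝 0, p s ∈ ball (0 : Cn (ρ + a + r)) Y.δ :=
      hpc.continuousAt.eventually_mem (by rw [hp0]; exact isOpen_ball.mem_nhds hb0)
    filter_upwards [h1.filter_mono nhdsWithin_le_nhds, self_mem_nhdsWithin] with s hs hs0
    have hs0' : s ≠ 0 := hs0
    have hPD : p s ∈ PD Y.δ (some Y.i₀) := by
      refine ⟨mem_ball_zero_iff.1 hs, fun i hi => ?_⟩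
      have : Y.i₀ = i := Option.some.inj hi
      subst this
      rw [hp]
      simp only
      rw [Pi.single_eq_same]
      exact hs0'
    have hPDq : q s ∈ PD Y.δ (low (some Y.i₀)) := by
      rw [← hpw]
      exact EndC_723.pw_mem Y.δ_lt.le Y.e₁_pos hPD
    have e1 := hK3 _ hPD
    have e2 := hL3 _ hPDq
    simp only at e1 e2
    have e3 : Y.cK.s (p s) (H₂.incl b) = Y.cL.s (q s) b := by
      have h2 := Y.compL _ hPD
      rw [hpw] at h2
      rw [← h2]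
      rfl
    have e4 : tau (low (some Y.i₀)) (q s) = s ^ Y.e₁ := by
      rw [hj]
      change (Pi.single j (s ^ Y.e₁) : Cn (ρ + a)) j = _
      rw [Pi.single_eq_same]
    rw [zpow_zero, one_mul] at e1
    rw [e1, e2, e4] at e3
    rw [e3, mul_div_assoc, div_self (hL2 _ (AcOpen_89.PD_subset_ball _ _ hPDq)), mul_one,
      ← zpow_natCast, ← zpow_mul]
  have h5 := zpow_lim (div_ne_zero (hK2 0 hb0) (hL2 0 hb0')) (hlim.congr' hev)
  have h6 : (Y.e₁ : ℤ) ≠ 0 := by exact_mod_cast Y.e₁_pos.ne'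
  exact (mul_eq_zero.1 h5).resolve_left h6

/-- the values of the units of `B_T` on the chart of `L` extend without zeros -/
theorem exists_val (hT : ∀ x : T, algebraMap L K (algebraMap T L x) ∈ R) {b : MT.B}
    (hb : (b : T) ≠ 0) {kL kK : ℤ} (hL : Y.cL.Ord (algebraMap T L b) kL)
    (hK : Y.cK.Ord (algebraMap L K (algebraMap T L b)) kK) :
    ∃ G : Cn (ρ + a) → ℂ, AnalyticOnNhd ℂ G (ball 0 Y.δ) ∧ (∀ η ∈ ball (0 : Cn (ρ + a)) Y.δ, G η ≠ 0) ∧
      ∀ η ∈ PD Y.δ (low (some Y.i₀)), H₁.f (Y.cL.s η) b = G η := by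
  have h0 := ord_zero_K Y hT hb hK
  subst h0
  have hmono := ord_apply (b := H₁.incl b) (show Y.cL.Ord _ kL from hL)
  have h1 : Mono Y.δ (low (some Y.i₀)) (fun η => Y.cL.s η (H₁.incl b)) 0 := by
    by_cases hlow : low (some Y.i₀) = none
    · exact mono_none hlow hmono
    · have h2 := ord_zero_L Y (b := H₁.incl b) (show Y.cK.Ord _ 0 from hK)
        (show Y.cL.Ord _ kL from hL) hlow
      rwa [h2] at hmono
  obtain ⟨G, hG1, hG2, hG3⟩ := h1
  refine ⟨G, hG1, hG2, fun η hη => ?_⟩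
  have h3 := hG3 η hη
  rw [zpow_zero, one_mul] at h3
  exact h3

open Classical in
/-- **case `T ⊆ R` of (C4)** -/
theorem bdL_of_le (H₁ : Rel MT ML) (H₂ : Rel ML MK) (R : ValuationSubring K)
    (hT : ∀ x : T, algebraMap L K (algebraMap T L x) ∈ R) {G : MT.Pts → ℝ} (hG : Continuous G)
    (κ : ℝ) :
    BdL H₁ H₂ R fun Y η => G (H₁.f (Y.cL.s η)) * ‖Y.jN η‖ ^ 2 *
      (1 + ∑ i, ‖tc ML (eL ρ a) (Y.cL.s η) i‖ ^ 2) ^ κ := by
  -- the elements
  set hT' : MT.B := az MT.z MT.h with hhT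
  have hh0 : (hT' : T) ≠ 0 := by
    intro h0
    have h1 : hT' = 0 := Subtype.ext h0
    have h2 := MT.h_unit
    rw [← hhT, h1] at h2
    exact not_isUnit_zero h2
  have hz0 : ∀ i, (MT.z i : T) ≠ 0 := by
    intro i h0
    have h1 : MT.z i = 0 := Subtype.ext h0
    have h2 : az MT.z (MvPolynomial.X i) = az MT.z 0 := by
      rw [map_zero, ← h1]
      simp [az]
    exact MvPolynomial.X_ne_zero i (MT.az_injective h2)
  set Bs : Finset T := insert (hT' : T) (Finset.univ.image fun i => (MT.z i : T)) with hBs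
  have hBs0 : ∀ x ∈ Bs, x ≠ 0 := by
    intro x hx
    rw [hBs, Finset.mem_insert, Finset.mem_image] at hx
    rcases hx with rfl | ⟨i, -, rfl⟩
    · exact hh0
    · exact hz0 i
  refine ⟨Bs.image fun x => algebraMap L K (algebraMap T L x), Bs.image fun x => algebraMap T L x,
    ?_, ?_, fun Y hD hF hFL => logB_of_bdd fun δ' hδ' => ?_⟩
  · intro f hf
    obtain ⟨x, hx, rfl⟩ := Finset.mem_image.1 hf
    intro h0
    apply hBs0 x hx
    apply (algebraMap T L).injective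
    apply (algebraMap L K).injective
    rw [h0, map_zero, map_zero]
  · intro f hf
    obtain ⟨x, hx, rfl⟩ := Finset.mem_image.1 hf
    intro h0
    apply hBs0 x hx
    apply (algebraMap T L).injective
    rw [h0, map_zero]
  -- the values
  have hval : ∀ b : MT.B, (b : T) ∈ Bs → ∃ G : Cn (ρ + a) → ℂ, AnalyticOnNhd ℂ G (ball 0 Y.δ) ∧
      (∀ η ∈ ball (0 : Cn (ρ + a)) Y.δ, G η ≠ 0) ∧
      ∀ η ∈ PD Y.δ (low (some Y.i₀)), H₁.f (Y.cL.s η) b = G η := by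
    intro b hb
    obtain ⟨kK, hkK⟩ := hF _ (Finset.mem_image.2 ⟨b, hb, rfl⟩)
    obtain ⟨kL, hkL⟩ := hFL _ (Finset.mem_image.2 ⟨b, hb, rfl⟩)
    exact exists_val Y hT (hBs0 _ hb) hkL hkK
  obtain ⟨gh, hgh1, hgh2, hgh3⟩ := hval hT' (Finset.mem_insert_self _ _)
  have hzm : ∀ i, (MT.z i : T) ∈ Bs := fun i =>
    Finset.mem_insert_of_mem (Finset.mem_image.2 ⟨i, Finset.mem_univ _, rfl⟩)
  choose g hg1 hg2 hg3 using fun i => hval (MT.z i) (hzm i)
  set gg : Cn (ρ + a) → Cn ρ := fun η i => g i η with hgg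
  have hggc : ContinuousOn gg (ball 0 Y.δ) := continuousOn_pi.2 fun i => (hg1 i).continuousOn
  have hpz : ∀ η ∈ PD Y.δ (low (some Y.i₀)), MT.pz (H₁.f (Y.cL.s η)) = gg η := by
    intro η hη
    funext i
    exact hg3 i η hη
  have hhe : ∀ η ∈ ball (0 : Cn (ρ + a)) Y.δ, MvPolynomial.eval (gg η) MT.h = gh η := by
    intro η hη
    refine TransA_231.eq_of_PD (i₀ := low (some Y.i₀)) (f := fun η => MvPolynomial.eval (gg η) MT.h)
      (g := gh) ?_ hgh1.continuousOn ?_ hη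
    · exact (MvPolynomial.continuous_eval MT.h).comp_continuousOn hggc
    · intro ζ hζ
      rw [← hpz ζ hζ, ← hgh3 ζ hζ, hhT, MT.apply_az']
  -- compactness
  have hsub : closedBall (0 : Cn (ρ + a)) δ' ⊆ ball 0 Y.δ := closedBall_subset_ball hδ'
  have hK : IsCompact (gg '' closedBall (0 : Cn (ρ + a)) δ') :=
    (isCompact_closedBall _ _).image_of_continuousOn (hggc.mono hsub)
  have hK' : IsCompact (MT.pz ⁻¹' (gg '' closedBall (0 : Cn (ρ + a)) δ')) := by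
    refine MT.isCompact_preimage hK ?_
    rintro _ ⟨η, hη, rfl⟩
    rw [hhe η (hsub hη)]
    exact hgh2 η (hsub hη)
  obtain ⟨C₁, hC₁⟩ := hK'.bddAbove_image hG.continuousOn
  -- the Jacobian
  set jj : Cn (ρ + a) → ℂ := fun η => (Matrix.of fun k l : Fin ρ =>
    fderiv ℂ (g k) η (Pi.single (Fin.castAdd a l) 1)).det with hjj
  have hjN : ∀ η ∈ PD Y.δ (low (some Y.i₀)), Y.jN η = jj η := by
    intro η hη
    rw [C4Loc_327.jN_eq Y hη, hjj]
    congr 1
    ext k l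
    simp only [Matrix.of_apply]
    have h1 : HasFDerivAt (fun ζ => ML.pz (Y.cL.s ζ)) (fderiv ℂ (fun ζ => ML.pz (Y.cL.s ζ)) η) η :=
      (EndC_723.ac_diff Y.cL hη).hasFDerivAt
    have h2 := (ContinuousLinearMap.proj (R := ℂ) (φ := fun _ : Fin (ρ + a) => ℂ)
      (Fin.castAdd a k)).hasFDerivAt.comp η h1
    have h3 : (fun ζ => ML.pz (Y.cL.s ζ) (Fin.castAdd a k)) =ᶠ[𝓝 η] g k := by
      filter_upwards [(AcOpen_89.isOpen_PD Y.δ (low (some Y.i₀))).mem_nhds hη] with ζ hζ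
      rw [← hg3 k ζ hζ]
      change _ = MT.pz (H₁.f (Y.cL.s ζ)) k
      rw [← EndC_723.rel_pz H₁]
      rfl
    have h4 : HasFDerivAt (g k) ((ContinuousLinearMap.proj (R := ℂ) (φ := fun _ : Fin (ρ + a) => ℂ)
      (Fin.castAdd a k)).comp (fderiv ℂ (fun ζ => ML.pz (Y.cL.s ζ)) η)) η :=
      h2.congr_of_eventuallyEq h3.symm
    rw [h4.fderiv]
    rfl
  have hjc : ContinuousOn jj (ball 0 Y.δ) := by
    intro η hη
    refine ContinuousAt.continuousWithinAt ?_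
    have h3 : ∀ (v : Cn (ρ + a)) (k : Fin ρ), ContinuousAt (fun η => fderiv ℂ (g k) η v) η := by
      intro v k
      exact (hg1 k η hη).fderiv.continuousAt.clm_apply continuousAt_const
    rw [hjj]
    simp only [Matrix.det_apply']
    refine tendsto_finsetSum _ fun σ _ => ?_
    refine Tendsto.const_mul _ ?_
    refine tendsto_finsetProd _ fun i _ => ?_
    exact h3 _ _
  -- the product of the last two factors
  have hAc : ContinuousOn (fun η => ‖jj η‖ ^ 2 * (1 + ∑ i, ‖gg η i‖ ^ 2) ^ κ)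
      (closedBall (0 : Cn (ρ + a)) δ') := by
    refine ContinuousOn.mul ((hjc.mono hsub).norm.pow 2) ?_
    refine ContinuousOn.rpow_const ?_ fun η _ => Or.inl (by positivity)
    refine continuousOn_const.add (continuousOn_finsetSum _ fun i _ => ?_)
    exact (((hg1 i).continuousOn.mono hsub).norm.pow 2)
  obtain ⟨C₂, hC₂⟩ := (isCompact_closedBall (0 : Cn (ρ + a)) δ').bddAbove_image hAc
  refine ⟨|C₁| * |C₂|, fun η hη => ?_⟩
  have hηb : η ∈ closedBall (0 : Cn (ρ + a)) δ' := mem_closedBall_zero_iff.2 hη.1.le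
  have hηP : η ∈ PD Y.δ (low (some Y.i₀)) := AcOpen_89.PD_mono hδ'.le _ hη
  have e1 : G (H₁.f (Y.cL.s η)) ≤ |C₁| := by
    refine (hC₁ ⟨_, ?_, rfl⟩).trans (le_abs_self _)
    refine ⟨η, hηb, ?_⟩
    exact (hpz η hηP).symm
  have e2 : ∀ i, tc ML (eL ρ a) (Y.cL.s η) i = gg η i := by
    intro i
    rw [← hpz η hηP, ← EndC_723.rel_pz H₁]
    change ML.pz (Y.cL.s η) (finSumFinEquiv (Sum.inl i)) = _
    rw [finSumFinEquiv_apply_left]
    rfl
  simp only [e2]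
  rw [hjN η hηP, mul_assoc]
  have e3 : ‖jj η‖ ^ 2 * (1 + ∑ i, ‖gg η i‖ ^ 2) ^ κ ≤ |C₂| :=
    (hC₂ ⟨η, hηb, rfl⟩).trans (le_abs_self _)
  have e4 : 0 ≤ ‖jj η‖ ^ 2 * (1 + ∑ i, ‖gg η i‖ ^ 2) ^ κ := by positivity
  calc G (H₁.f (Y.cL.s η)) * (‖jj η‖ ^ 2 * (1 + ∑ i, ‖gg η i‖ ^ 2) ^ κ) ≤
      |C₁| * (‖jj η‖ ^ 2 * (1 + ∑ i, ‖gg η i‖ ^ 2) ^ κ) := mul_le_mul_of_nonneg_right e1 e4
    _ ≤ |C₁| * |C₂| := mul_le_mul_of_nonneg_left e3 (abs_nonneg _)

/-- **(C4) of #3384** -/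
theorem bdL_int (H₁ : Rel MT ML) (H₂ : Rel ML MK) (R : ValuationSubring K)
    (hR : ∀ x : T, algebraMap L K (algebraMap T L x) ∈ R) {G : MT.Pts → ℝ} (hG : Continuous G)
    (_hG0 : ∀ x, 0 ≤ G x) {κ : ℝ} (_hk : 0 ≤ κ) :
    BdL H₁ H₂ R fun Y η => G (H₁.f (Y.cL.s η)) * ‖Y.jN η‖ ^ 2 *
      (1 + ∑ i, ‖tc ML (eL ρ a) (Y.cL.s η) i‖ ^ 2) ^ κ :=
  bdL_of_le H₁ H₂ R hR hG κ

end tower

end Crest.Agent.R276.C4Triv_563
end
end

-- ▼ part R276/LC4_63

/-!
# Row 276 (S0419): `Skel_220.LC4` (helper63, from the files of 220, 735, 563)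
-/

set_option autoImplicit false

namespace Crest.Agent.R276.LC4_63

theorem exMem : C4T_804.ExMem := C4Mem_735.exists_mem

theorem bdInt : C4T_804.BdInt := by
  intro T L K _ _ _ _ _ _ _ _ _ _ ρ a r MT ML MK H₁ H₂ R _ hT G hG h0 κ hκ
  exact C4Triv_563.bdL_int H₁ H₂ R hT hG h0 hκ

/-- **(C4)** on every sufficiently small tower -/
theorem lc4 : Skel_220.LC4 := LC4_220.lc4_of exMem bdInt

end Crest.Agent.R276.LC4_63
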