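import Mathlib
import Crest.Agent.R276.FlatC_464
import Crest.Agent.R276.Skel_220
import Crest.Agent.R276.ModPack_849

-- ▼ part R276/IsCY_464
section

/-!
# Row 276 (helper464): `IsCY` from `SatFam`
-/

set_option autoImplicit false

open Set Filter Topology MeasureTheory
open scoped ENNReal

noncomputable section

namespace Crest.Agent.R276.IsCY_464

open Crest.Agent.R271 Crest.Agent.R271.Ho51 Crest.Agent.R271.Rd692
open Crest.Agent.R276.Mod1_987 Crest.Agent.R276.SkelDefs_220 Crest.Agent.R276.FlatDefs_236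
open Crest.Agent.R276.CInd_870 (rm)

variable {L K : Type} [Field L] [Field K] [Algebra ℂ L] [Algebra ℂ K] [Algebra L K]
  [IsScalarTower ℂ L K] {m r : ℕ} {ML : Mdl L m} {MK : Mdl K (m + r)}

/-- the norm of the CY line -/
def Dr (H : Rel ML MK) (N : ℕ) {s : ℕ} (u : Fin s → MK.B) (z : ML.Pts) : ℝ :=
  (DN (R := rm H) N u z).toReal

variable {H : Rel ML MK} {N s : ℕ} {u : Fin s → MK.B}

theorem isCY (hS : SatFam (rm H) N u) : IsCY H N u (Dr H N u) := by
  intro z
  refine ⟨ENNReal.toReal_pos (hS.D_pos z).ne' (hS.D_fin z), ?_⟩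
  rw [FlatC_464.fintS_dl H u z (by positivity)]
  exact (ENNReal.ofReal_toReal (hS.D_fin z)).symm


theorem continuous_Dr (hS : SatFam (rm H) N u) : Continuous (Dr H N u) := by
  have h1 : Continuous fun z : ML.Pts => DN (R := rm H) N u z := hS.D_cont
  exact continuous_iff_continuousAt.2 fun z =>
    (ENNReal.tendsto_toReal (hS.D_fin z)).comp h1.continuousAt

end Crest.Agent.R276.IsCY_464
end
end

-- ▼ part R276/LCY_464

/-!
# Row 276 (helper464): `Skel_220.LCY`
-/

set_option autoImplicit false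

noncomputable section

namespace Crest.Agent.R276.LCY_464

open Crest.Agent.R271.Defs710 hiding glue
open Crest.Agent.R276.Mod1_987 Crest.Agent.R276.SkelDefs_220 Crest.Agent.R276.TowA_849
open Crest.Agent.R276.SkelGeo_220 Crest.Agent.R276.Skel_220 Crest.Agent.R276.FlatDefs_236
open Crest.Agent.R276.CInd_870 (rm)

section tow

variable {T L K : Type} [Field T] [Field L] [Field K] [Algebra ℂ T] [Algebra ℂ L] [Algebra ℂ K]
  [Algebra T L] [Algebra L K] [IsScalarTower ℂ T L] [IsScalarTower ℂ L K] {ρ a r : ℕ}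
  {W : Tow T L K ρ a r} {N s : ℕ}

theorem satFam_rm {u : Fin s → W.MK.B} (h : SatFam W.LK N u) (H₂ : Rel W.ML W.MK) :
    SatFam (rm H₂) N u := h


end tow

/-- **LCY** -/
theorem lcy : LCY := by
  intro T L K _ _ _ _ _ _ _ _ _ _ ρ a r W N d e e₀ s σ w h
  obtain ⟨X, -, -⟩ := h.geo
  exact ⟨h.H₁, h.H₂, X.mem, h.wmem, IsCY_464.isCY (satFam_rm X.sat h.H₂)⟩

end Crest.Agent.R276.LCY_464
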