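import Mathlib
import Crest.Agent.R276.LNDefs_999
import Crest.Agent.R276.DetB_606
import Crest.Agent.R276.HomC_201

-- ▼ part R276/LNb_333
section

/-!
# Row 276, LEMMA N (helper333), part b: the norm function and the `N`-Bergman function

For 999's data `L : LN M Y s N`, `2 ≤ N`: `Φ` is jointly continuous, the Bergman function
`B x t = sup {|v·t|^(2/N) : Φ x v ≤ 1}` is jointly continuous, positive for `t ≠ 0`, and
`c ‖t‖^(2/N) ≤ B x t ≤ C ‖t‖^(2/N)` locally uniformly in `x`.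
-/

set_option autoImplicit false
set_option linter.unusedSectionVars false
set_option linter.unusedVariables false

open MeasureTheory Matrix Set Filter Topology Metric
open scoped ComplexConjugate ENNReal

noncomputable section

namespace Crest.Agent.R276.LNb_333

open Crest.Agent.R276.LN_999

variable {M Y : Type*} [TopologicalSpace M] [MeasurableSpace Y] {s N : ℕ}

lemma p_pos (hN : 2 ≤ N) : (0 : ℝ) < 2 / N := by
  have : (0 : ℝ) < N := by exact_mod_cast (by omega : 0 < N)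
  positivity

lemma p_le (hN : 2 ≤ N) : (2 / N : ℝ) ≤ 1 := by
  have : (2 : ℝ) ≤ N := by exact_mod_cast hN
  rw [div_le_one (by linarith)]
  exact this

variable (L : LN M Y s N)

/-- evaluation of the frame -/
def ev (y : Y) : (Fin s → ℂ) →ₗ[ℂ] ℂ := ∑ i, (L.σ i y) • LinearMap.proj i

lemma ev_apply (y : Y) (v : Fin s → ℂ) : ev L y v = ∑ i, v i * L.σ i y := by
  simp [ev, mul_comm]

/-- the pairing `v · t` -/
def dt (v t : Fin s → ℂ) : ℂ := ∑ i, v i * t i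

lemma dt_sg (v : Fin s → ℂ) (y : Y) : dt v (L.sg y) = ev L y v := (ev_apply L y v).symm

lemma meas_ev (v : Fin s → ℂ) : Measurable fun y => ev L y v := by
  simp_rw [ev_apply]
  exact Finset.measurable_sum _ fun i _ => (L.meas i).const_mul _

lemma meas_sg : Measurable L.sg := measurable_pi_lambda _ fun i => L.meas i

theorem good (hN : 2 ≤ N) (x : M) : Aue_999.Good (L.μ x) (ev L) (2 / N : ℝ) where
  α_pos := p_pos hN
  α_le := p_le hN
  meas v := (meas_ev L v).aemeasurable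
  fin v := by
    have := L.fin x v
    unfold Aue_999.pint
    simpa only [ev_apply] using this
  inj v hv := by
    by_contra h
    refine L.pos x v h ?_
    unfold Aue_999.pint at hv
    simpa only [ev_apply] using hv

theorem Phi_eq (x : M) (v : Fin s → ℂ) :
    L.Phi x v = Aue_999.q (L.μ x) (ev L) (2 / N : ℝ) v := by
  unfold LN.Phi Aue_999.q Aue_999.pint
  rw [integral_eq_lintegral_of_nonneg_ae]
  · simp only [ev_apply]
  · exact Eventually.of_forall fun y => by positivity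
  · have h1 : Measurable fun y => ∑ i, v i * L.σ i y := by
      simpa only [ev_apply] using meas_ev L v
    exact (h1.norm.pow_const _).aestronglyMeasurable

theorem ofReal_Phi (hN : 2 ≤ N) (x : M) (v : Fin s → ℂ) :
    ENNReal.ofReal (L.Phi x v) = ∫⁻ y, ENNReal.ofReal (‖∑ i, v i * L.σ i y‖ ^ (2 / N : ℝ)) ∂(L.μ x) := by
  rw [Phi_eq, Aue_999.ofReal_q (good L hN x)]
  unfold Aue_999.pint
  simp only [ev_apply]

theorem Phi_nonneg (x : M) (v : Fin s → ℂ) : 0 ≤ L.Phi x v := by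
  rw [Phi_eq]; exact Aue_999.q_nonneg v

theorem Phi_pos (hN : 2 ≤ N) (x : M) {v : Fin s → ℂ} (hv : v ≠ 0) : 0 < L.Phi x v := by
  rw [Phi_eq]; exact Aue_999.q_pos (good L hN x) v hv

theorem Phi_smul (hN : 2 ≤ N) (x : M) (c : ℂ) (v : Fin s → ℂ) :
    L.Phi x (c • v) = ‖c‖ ^ (2 / N : ℝ) * L.Phi x v := by
  rw [Phi_eq, Phi_eq]; exact Aue_999.q_smul (good L hN x) c v

theorem Phi_zero (hN : 2 ≤ N) (x : M) : L.Phi x 0 = 0 := by
  have h := Phi_smul L hN x 0 0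
  rw [zero_smul, norm_zero, Real.zero_rpow (p_pos hN).ne', zero_mul] at h
  exact h

theorem Phi_add_le (hN : 2 ≤ N) (x : M) (u v : Fin s → ℂ) :
    L.Phi x (u + v) ≤ L.Phi x u + L.Phi x v := by
  simp only [Phi_eq]; exact Aue_999.q_add_le (good L hN x) u v

/-- `Φ(v) ≤ ∑ |v_i|^p Φ(e_i)` -/
theorem Phi_le_sum (hN : 2 ≤ N) (x : M) (v : Fin s → ℂ) :
    L.Phi x v ≤ ∑ i, ‖v i‖ ^ (2 / N : ℝ) * L.Phi x (Pi.single i 1) := by
  have h := Aue_999.q_sum_le (good L hN x) Finset.univ fun i => v i • (Pi.single i 1 : Fin s → ℂ)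
  have h2 : ∑ i, v i • (Pi.single i 1 : Fin s → ℂ) = v := by
    funext j
    simp [Finset.sum_apply, Pi.single_apply]
  rw [h2, ← Phi_eq] at h
  refine h.trans (le_of_eq (Finset.sum_congr rfl fun i _ => ?_))
  rw [← Phi_eq, Phi_smul L hN]

theorem Phi_sub_le (hN : 2 ≤ N) (x : M) (u v : Fin s → ℂ) :
    |L.Phi x u - L.Phi x v| ≤ L.Phi x (u - v) := by
  have h1 := Phi_add_le L hN x (u - v) v
  have h2 := Phi_add_le L hN x (v - u) u
  rw [sub_add_cancel] at h1 h2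
  have h3 : L.Phi x (v - u) = L.Phi x (u - v) := by
    have := Phi_smul L hN x (-1) (u - v)
    rw [norm_neg, norm_one, Real.one_rpow, one_mul, neg_one_smul, neg_sub] at this
    exact this
  rw [h3] at h2
  rw [abs_le]
  constructor <;> linarith

theorem Phi_cont_left (v : Fin s → ℂ) : Continuous fun x => L.Phi x v := L.cont v

/-- `Φ` is jointly continuous -/
theorem Phi_cont (hN : 2 ≤ N) : Continuous fun q : M × (Fin s → ℂ) => L.Phi q.1 q.2 := by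
  rw [continuous_iff_continuousAt]
  rintro ⟨x₀, v₀⟩
  have hb : Tendsto (fun q : M × (Fin s → ℂ) =>
      ∑ i, ‖(q.2 - v₀) i‖ ^ (2 / N : ℝ) * L.Phi q.1 (Pi.single i 1)) (𝓝 (x₀, v₀)) (𝓝 0) := by
    have hc : Continuous fun q : M × (Fin s → ℂ) =>
        ∑ i, ‖(q.2 - v₀) i‖ ^ (2 / N : ℝ) * L.Phi q.1 (Pi.single i 1) := by
      refine continuous_finsetSum _ fun i _ => ?_
      refine Continuous.mul ?_ ((Phi_cont_left L _).comp continuous_fst)
      exact (((continuous_apply i).comp (continuous_snd.sub continuous_const)).norm).rpow_const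
        fun _ => Or.inr (p_pos hN).le
    have h0 := hc.tendsto (x₀, v₀)
    have h1 : ∑ i, ‖(((x₀, v₀) : M × (Fin s → ℂ)).2 - v₀) i‖ ^ (2 / N : ℝ) *
        L.Phi ((x₀, v₀) : M × (Fin s → ℂ)).1 (Pi.single i 1) = 0 := by
      refine Finset.sum_eq_zero fun i _ => ?_
      simp [Real.zero_rpow (p_pos hN).ne']
    rw [h1] at h0
    exact h0
  have hd : Tendsto (fun q : M × (Fin s → ℂ) => L.Phi q.1 q.2 - L.Phi q.1 v₀) (𝓝 (x₀, v₀))
      (𝓝 0) := by
    refine squeeze_zero_norm (fun q => ?_) hb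
    rw [Real.norm_eq_abs]
    exact (Phi_sub_le L hN _ _ _).trans (Phi_le_sum L hN _ _)
  have h2 : Tendsto (fun q : M × (Fin s → ℂ) => L.Phi q.1 v₀) (𝓝 (x₀, v₀)) (𝓝 (L.Phi x₀ v₀)) :=
    ((Phi_cont_left L v₀).comp continuous_fst).tendsto _
  have h3 := hd.add h2
  rw [zero_add] at h3
  refine h3.congr fun q => ?_
  ring

/-! ### the Bergman function -/

/-- the quotient whose supremum is `B` -/
def bq (q : M × (Fin s → ℂ)) (v : sphere (0 : Fin s → ℂ) 1) : ℝ :=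
  ‖dt v.1 q.2‖ ^ (2 / N : ℝ) / L.Phi q.1 v.1

lemma dt_cont : Continuous fun q : (Fin s → ℂ) × (Fin s → ℂ) => dt q.1 q.2 := by
  unfold dt
  fun_prop

lemma dt_smul_left (c : ℂ) (v t : Fin s → ℂ) : dt (c • v) t = c * dt v t := by
  simp [dt, Finset.mul_sum, mul_assoc]

lemma dt_smul_right (c : ℂ) (v t : Fin s → ℂ) : dt v (c • t) = c * dt v t := by
  simp only [dt, Pi.smul_apply, smul_eq_mul, Finset.mul_sum]
  exact Finset.sum_congr rfl fun i _ => by ring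

lemma sph_ne {v : Fin s → ℂ} (hv : v ∈ sphere (0 : Fin s → ℂ) 1) : v ≠ 0 := by
  rintro rfl
  simp at hv

lemma bq_cont (hN : 2 ≤ N) :
    Continuous fun q : (M × (Fin s → ℂ)) × sphere (0 : Fin s → ℂ) 1 => bq L q.1 q.2 := by
  unfold bq
  refine Continuous.div ?_ ?_ fun q => (Phi_pos L hN _ (sph_ne q.2.2)).ne'
  · refine Continuous.rpow_const ?_ fun _ => Or.inr (p_pos hN).le
    exact (dt_cont.comp ((continuous_subtype_val.comp continuous_snd).prodMk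
      (continuous_snd.comp continuous_fst))).norm
  · exact (Phi_cont L hN).comp ((continuous_fst.comp continuous_fst).prodMk
      (continuous_subtype_val.comp continuous_snd))

/-- every vector with `Φ ≤ 1` gives at most `B` -/
lemma le_bq (hN : 2 ≤ N) (x : M) (t v : Fin s → ℂ) (hv : v ≠ 0) :
    ∃ u : sphere (0 : Fin s → ℂ) 1, ‖dt v t‖ ^ (2 / N : ℝ) = L.Phi x v * bq L (x, t) u := by
  have hn : ‖v‖ ≠ 0 := norm_ne_zero_iff.mpr hv
  have hmem : ((‖v‖⁻¹ : ℝ) : ℂ) • v ∈ sphere (0 : Fin s → ℂ) 1 := by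
    rw [mem_sphere_zero_iff_norm, norm_smul, Complex.norm_real, norm_inv, norm_norm,
      inv_mul_cancel₀ hn]
  refine ⟨⟨_, hmem⟩, ?_⟩
  unfold bq
  simp only
  rw [dt_smul_left, norm_mul, Real.mul_rpow (norm_nonneg _) (norm_nonneg _), Phi_smul L hN]
  have h1 : (0 : ℝ) < ‖((‖v‖⁻¹ : ℝ) : ℂ)‖ ^ (2 / N : ℝ) := by
    apply Real.rpow_pos_of_pos
    rw [Complex.norm_real, norm_inv, norm_norm]
    positivity
  have h2 := Phi_pos L hN x hv
  rw [mul_div_mul_left _ _ h1.ne', mul_div_cancel₀ _ h2.ne']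


lemma bddAbove_bq (hN : 2 ≤ N) (q : M × (Fin s → ℂ)) : BddAbove (range (bq L q)) := by
  have hcs : CompactSpace (sphere (0 : Fin s → ℂ) 1) :=
    isCompact_iff_compactSpace.mp (isCompact_sphere _ _)
  have hc : Continuous (bq L q) := (bq_cont L hN).uncurry_left q
  exact (isCompact_range hc).bddAbove

theorem bddAbove_B (hN : 2 ≤ N) (x : M) (t : Fin s → ℂ) :
    BddAbove (range fun v : {v : Fin s → ℂ // L.Phi x v ≤ 1} => ‖dt (v : Fin s → ℂ) t‖ ^ (2 / N : ℝ)) := by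
  obtain ⟨C, hC⟩ := bddAbove_bq L hN (x, t)
  refine ⟨max C 0, ?_⟩
  rintro _ ⟨⟨v, hv⟩, rfl⟩
  by_cases h0 : v = 0
  · subst h0
    simp [dt, Real.zero_rpow (p_pos hN).ne']
  · obtain ⟨u, hu⟩ := le_bq L hN x t v h0
    simp only
    rw [hu]
    have h1 : bq L (x, t) u ≤ C := hC ⟨u, rfl⟩
    have h2 : bq L (x, t) u ≤ max C 0 := h1.trans (le_max_left _ _)
    calc L.Phi x v * bq L (x, t) u ≤ L.Phi x v * max C 0 :=
          mul_le_mul_of_nonneg_left h2 (Phi_nonneg L x v)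
      _ ≤ 1 * max C 0 := mul_le_mul_of_nonneg_right hv (le_max_right _ _)
      _ = max C 0 := one_mul _

lemma B_def (x : M) (t : Fin s → ℂ) : L.B x t =
    ⨆ v : {v : Fin s → ℂ // L.Phi x v ≤ 1}, ‖dt (v : Fin s → ℂ) t‖ ^ (2 / N : ℝ) := rfl

theorem B_nonneg (x : M) (t : Fin s → ℂ) : 0 ≤ L.B x t := by
  rw [B_def]
  exact Real.iSup_nonneg fun v => by positivity

/-- `|v·t|^p ≤ Φ(v) B(t)` -/
theorem le_B (hN : 2 ≤ N) (x : M) (t v : Fin s → ℂ) :
    ‖dt v t‖ ^ (2 / N : ℝ) ≤ L.Phi x v * L.B x t := by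
  by_cases h0 : v = 0
  · subst h0
    rw [Phi_zero L hN, zero_mul]
    simp [dt, Real.zero_rpow (p_pos hN).ne']
  have hP := Phi_pos L hN x h0
  -- normalise
  set c : ℝ := (L.Phi x v) ^ (-(2 / N : ℝ)⁻¹) with hc
  have hcpos : 0 < c := Real.rpow_pos_of_pos hP _
  have hcp : ‖(c : ℂ)‖ ^ (2 / N : ℝ) = (L.Phi x v)⁻¹ := by
    rw [Complex.norm_real, Real.norm_of_nonneg hcpos.le, hc, ← Real.rpow_mul hP.le, neg_mul,
      inv_mul_cancel₀ (p_pos hN).ne', Real.rpow_neg_one]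
  have h1 : L.Phi x ((c : ℂ) • v) ≤ 1 := by
    rw [Phi_smul L hN, hcp, inv_mul_cancel₀ hP.ne']
  have h2 := le_ciSup (bddAbove_B L hN x t) ⟨(c : ℂ) • v, h1⟩
  rw [← B_def] at h2
  simp only at h2
  rw [dt_smul_left, norm_mul, Real.mul_rpow (norm_nonneg _) (norm_nonneg _), hcp] at h2
  calc ‖dt v t‖ ^ (2 / N : ℝ) = L.Phi x v * ((L.Phi x v)⁻¹ * ‖dt v t‖ ^ (2 / N : ℝ)) := by
        rw [← mul_assoc, mul_inv_cancel₀ hP.ne', one_mul]
    _ ≤ _ := mul_le_mul_of_nonneg_left h2 hP.le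

theorem B_le_of (x : M) (t : Fin s → ℂ) {C : ℝ} (hN : 2 ≤ N)
    (h : ∀ v, L.Phi x v ≤ 1 → ‖dt v t‖ ^ (2 / N : ℝ) ≤ C) : L.B x t ≤ C := by
  rw [B_def]
  have : Nonempty {v : Fin s → ℂ // L.Phi x v ≤ 1} := ⟨⟨0, by rw [Phi_zero L hN]; exact zero_le_one⟩⟩
  exact ciSup_le fun v => h v.1 v.2

theorem B_eq (hN : 2 ≤ N) (hs : 0 < s) (q : M × (Fin s → ℂ)) :
    L.B q.1 q.2 = sSup (bq L q '' univ) := by
  have : Nonempty (Fin s) := ⟨⟨0, hs⟩⟩
  rw [image_univ]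
  apply le_antisymm
  · refine B_le_of L _ _ hN fun v hv => ?_
    have h0 : 0 ≤ sSup (range (bq L q)) := by
      apply Real.sSup_nonneg
      rintro _ ⟨u, rfl⟩
      exact div_nonneg (by positivity) (Phi_nonneg L _ _)
    by_cases hv0 : v = 0
    · subst hv0
      simpa [dt, Real.zero_rpow (p_pos hN).ne'] using h0
    obtain ⟨u, hu⟩ := le_bq L hN q.1 q.2 v hv0
    rw [hu]
    have h1 : bq L (q.1, q.2) u ≤ sSup (range (bq L q)) := le_csSup (bddAbove_bq L hN q) ⟨u, rfl⟩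
    calc L.Phi q.1 v * bq L (q.1, q.2) u ≤ 1 * sSup (range (bq L q)) := by
          exact mul_le_mul hv h1 (div_nonneg (by positivity) (Phi_nonneg L _ _)) zero_le_one
      _ = _ := one_mul _
  · have hne : (range (bq L q)).Nonempty := by
      have : (sphere (0 : Fin s → ℂ) 1).Nonempty := by
        rw [NormedSpace.sphere_nonempty]
        exact zero_le_one
      obtain ⟨u, hu⟩ := this
      exact ⟨_, ⟨u, hu⟩, rfl⟩
    refine csSup_le hne ?_
    rintro _ ⟨u, rfl⟩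
    unfold bq
    rw [div_le_iff₀ (Phi_pos L hN _ (sph_ne u.2)), mul_comm]
    exact le_B L hN _ _ _

/-- the Bergman function is jointly continuous -/
theorem B_cont (hN : 2 ≤ N) (hs : 0 < s) :
    Continuous fun q : M × (Fin s → ℂ) => L.B q.1 q.2 := by
  have h1 : (fun q : M × (Fin s → ℂ) => L.B q.1 q.2) = fun q => sSup (bq L q '' univ) :=
    funext fun q => B_eq L hN hs q
  rw [h1]
  have hcs : CompactSpace (sphere (0 : Fin s → ℂ) 1) :=
    isCompact_iff_compactSpace.mp (isCompact_sphere _ _)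
  exact isCompact_univ.continuous_sSup (bq_cont L hN)

theorem B_smul (hN : 2 ≤ N) (x : M) (c : ℂ) (t : Fin s → ℂ) :
    L.B x (c • t) = ‖c‖ ^ (2 / N : ℝ) * L.B x t := by
  rw [B_def, B_def, Real.mul_iSup_of_nonneg (by positivity)]
  refine iSup_congr fun v => ?_
  rw [dt_smul_right, norm_mul, Real.mul_rpow (norm_nonneg _) (norm_nonneg _)]

theorem B_pos (hN : 2 ≤ N) (x : M) {t : Fin s → ℂ} (ht : t ≠ 0) : 0 < L.B x t := by
  have h1 := le_B L hN x t (fun i => conj (t i))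
  have h2 : dt (fun i => conj (t i)) t ≠ 0 := by
    have h3 : dt (fun i => conj (t i)) t = ((∑ i, ‖t i‖ ^ 2 : ℝ) : ℂ) := by
      unfold dt
      push_cast
      refine Finset.sum_congr rfl fun i _ => ?_
      rw [Complex.conj_mul']
    rw [h3]
    obtain ⟨i, hi⟩ := Function.ne_iff.mp ht
    have h4 : 0 < ∑ i, ‖t i‖ ^ 2 := by
      refine Finset.sum_pos' (fun i _ => by positivity) ⟨i, Finset.mem_univ i, ?_⟩
      have : 0 < ‖t i‖ := norm_pos_iff.mpr hi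
      positivity
    exact_mod_cast h4.ne'
  have h5 : 0 < ‖dt (fun i => conj (t i)) t‖ ^ (2 / N : ℝ) :=
    Real.rpow_pos_of_pos (norm_pos_iff.mpr h2) _
  by_contra hcon
  have h6 : L.B x t = 0 := le_antisymm (not_lt.mp hcon) (B_nonneg L x t)
  rw [h6, mul_zero] at h1
  linarith

theorem B_zero (hN : 2 ≤ N) (x : M) : L.B x 0 = 0 := by
  have h := B_smul L hN x 0 0
  rw [zero_smul, norm_zero, Real.zero_rpow (p_pos hN).ne', zero_mul] at h
  exact h


end Crest.Agent.R276.LNb_333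
end
end

-- ▼ part R276/LNc_333
section

/-!
# Row 276, LEMMA N (helper333), part c: the metrics `H` and `G`

`Qm μ σ ω = (∫ conj σ_i σ_j ω(σ) dμ)` for a weight `ω` on `ℂ^s`, homogeneous of degree `p - 2`:
quadratic form, positivity, continuity.  Instances: 999's `L.H` (Narasimhan-Simha metric) and `L.G`.
-/

set_option autoImplicit false
set_option linter.unusedSectionVars false
set_option linter.unusedVariables false

open MeasureTheory Matrix Set Filter Topology Metric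
open scoped ComplexConjugate ENNReal ComplexOrder

noncomputable section

namespace Crest.Agent.R276.LNc_333

open Crest.Agent.R276.LN_999 Crest.Agent.R276.LNb_333

variable {s N : ℕ} {p : ℝ}

/-- weights of degree `p - 2` -/
structure Wt (p : ℝ) (ω : (Fin s → ℂ) → ℝ) : Prop where
  pos : ∀ t, t ≠ 0 → 0 < ω t
  cont : ContinuousOn ω {t | t ≠ 0}
  hom : ∀ c : ℂ, c ≠ 0 → ∀ t, ω (c • t) = ‖c‖ ^ (p - 2) * ω t

/-- the function `conj t_i t_j ω(t)` -/
def gij (ω : (Fin s → ℂ) → ℝ) (i j : Fin s) (t : Fin s → ℂ) : ℂ :=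
  conj (t i) * t j * (ω t : ℂ)

lemma gij_hom (hp : 0 < p) {ω : (Fin s → ℂ) → ℝ}
    (hom : ∀ c : ℂ, c ≠ 0 → ∀ t, ω (c • t) = ‖c‖ ^ (p - 2) * ω t) (i j : Fin s) (c : ℂ)
    (t : Fin s → ℂ) : gij ω i j (c • t) = (‖c‖ ^ p : ℝ) * gij ω i j t := by
  by_cases hc : c = 0
  · subst hc
    simp [gij, Real.zero_rpow hp.ne']
  · have hn : 0 < ‖c‖ := norm_pos_iff.mpr hc
    have h1 : (‖c‖ ^ p : ℝ) = ‖c‖ ^ 2 * ‖c‖ ^ (p - 2) := by
      rw [← Real.rpow_natCast, ← Real.rpow_add hn]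
      congr 1
      push_cast
      ring
    unfold gij
    rw [hom c hc, h1]
    simp only [Pi.smul_apply, smul_eq_mul, map_mul]
    have h2 : conj c * c = ((‖c‖ ^ 2 : ℝ) : ℂ) := by
      rw [Complex.conj_mul']
      push_cast
      rfl
    push_cast
    push_cast at h2
    calc conj c * conj (t i) * (c * t j) * (((‖c‖ ^ (p - 2) : ℝ) : ℂ) * (ω t : ℂ))
        = (conj c * c) * ((‖c‖ ^ (p - 2) : ℝ) : ℂ) * (conj (t i) * t j * (ω t : ℂ)) := by ring
      _ = _ := by rw [h2]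

lemma gij_contOn {ω : (Fin s → ℂ) → ℝ} (h : ContinuousOn ω {t | t ≠ 0}) (i j : Fin s) :
    ContinuousOn (gij ω i j) {t | t ≠ 0} := by
  unfold gij
  refine ContinuousOn.mul ?_ (Complex.continuous_ofReal.comp_continuousOn h)
  fun_prop

lemma meas_gij {ω : (Fin s → ℂ) → ℝ} (h : ContinuousOn ω {t | t ≠ 0}) (i j : Fin s) :
    Measurable (gij ω i j) :=
  measurable_of_continuousOn_compl_singleton 0 (gij_contOn h i j)

lemma meas_wt {ω : (Fin s → ℂ) → ℝ} (h : ContinuousOn ω {t | t ≠ 0}) : Measurable ω :=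
  measurable_of_continuousOn_compl_singleton 0 h

/-- growth -/
lemma wt_bd (hp : 0 < p) {ω : (Fin s → ℂ) → ℝ} (h : Wt p ω) :
    ∃ C, 0 ≤ C ∧ ∀ t, ‖t‖ ^ 2 * |ω t| ≤ C * ‖t‖ ^ p := by
  obtain ⟨C, hC0, hC⟩ := HomC_201.hom_bd (p := p) hp (g := fun t => ‖t‖ ^ 2 * ω t)
    ((continuous_norm.pow 2).continuousOn.mul h.cont) (by
      intro c t
      by_cases hc : c = 0
      · subst hc
        simp [Real.zero_rpow hp.ne']
      have hn : 0 < ‖c‖ := norm_pos_iff.mpr hc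
      rw [h.hom c hc, norm_smul]
      have h1 : (‖c‖ ^ p : ℝ) = ‖c‖ ^ 2 * ‖c‖ ^ (p - 2) := by
        rw [← Real.rpow_natCast, ← Real.rpow_add hn]
        congr 1
        push_cast
        ring
      rw [h1]
      ring)
  refine ⟨C, hC0, fun t => ?_⟩
  have h1 := hC t
  rw [abs_mul, abs_of_nonneg (by positivity : (0 : ℝ) ≤ ‖t‖ ^ 2)] at h1
  exact h1

lemma norm_gij_le {ω : (Fin s → ℂ) → ℝ} (i j : Fin s) (t : Fin s → ℂ) :
    ‖gij ω i j t‖ ≤ ‖t‖ ^ 2 * |ω t| := by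
  unfold gij
  rw [norm_mul, norm_mul, RCLike.norm_conj, Complex.norm_real, Real.norm_eq_abs]
  have h1 := norm_le_pi_norm t i
  have h2 := norm_le_pi_norm t j
  have h3 : ‖t i‖ * ‖t j‖ ≤ ‖t‖ ^ 2 := by
    rw [sq]
    exact mul_le_mul h1 h2 (norm_nonneg _) (norm_nonneg _)
  exact mul_le_mul_of_nonneg_right h3 (abs_nonneg _)

variable {Y : Type*} [MeasurableSpace Y]

/-- the Gram matrix with weight `ω` -/
def Qm (μ : Measure Y) (σ : Fin s → Y → ℂ) (ω : (Fin s → ℂ) → ℝ) : Matrix (Fin s) (Fin s) ℂ :=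
  Matrix.of fun i j => ∫ y, gij ω i j (fun k => σ k y) ∂μ

/-- measurability and finiteness -/
structure Fam (p : ℝ) (μ : Measure Y) (σ : Fin s → Y → ℂ) : Prop where
  meas : ∀ i, Measurable (σ i)
  fin : ∀ v : Fin s → ℂ, ∫⁻ y, ENNReal.ofReal (‖∑ i, v i * σ i y‖ ^ p) ∂μ ≠ ∞

variable {μ : Measure Y} {σ : Fin s → Y → ℂ}

lemma integrable_gij (hp : 0 < p) (hF : Fam p μ σ) {ω : (Fin s → ℂ) → ℝ} (h : Wt p ω)
    (i j : Fin s) : Integrable (fun y => gij ω i j (fun k => σ k y)) μ := by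
  obtain ⟨C, hC0, hC⟩ := wt_bd hp h
  have h1 := (HomC_201.integrable_norm hp hF.meas hF.fin).const_mul C
  refine h1.mono' ?_ ?_
  · exact ((meas_gij h.cont i j).comp (HomC_201.meas_vec hF.meas)).aestronglyMeasurable
  · exact Eventually.of_forall fun y => (norm_gij_le i j _).trans (hC _)

lemma dt_norm_sq_le (v t : Fin s → ℂ) : ‖dt v t‖ ^ 2 ≤ (∑ i, ‖v i‖) ^ 2 * ‖t‖ ^ 2 := by
  rw [← mul_pow]
  refine pow_le_pow_left₀ (norm_nonneg _) ?_ 2
  unfold dt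
  refine (norm_sum_le _ _).trans ?_
  rw [Finset.sum_mul]
  refine Finset.sum_le_sum fun i _ => ?_
  rw [norm_mul]
  exact mul_le_mul_of_nonneg_left (norm_le_pi_norm t i) (norm_nonneg _)

lemma integrable_sq (hp : 0 < p) (hF : Fam p μ σ) {ω : (Fin s → ℂ) → ℝ} (h : Wt p ω)
    (v : Fin s → ℂ) : Integrable (fun y => ‖dt v (fun k => σ k y)‖ ^ 2 * ω (fun k => σ k y)) μ := by
  obtain ⟨C, hC0, hC⟩ := wt_bd hp h
  have h1 := ((HomC_201.integrable_norm hp hF.meas hF.fin).const_mul C).const_mul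
    ((∑ i, ‖v i‖) ^ 2)
  refine h1.mono' ?_ ?_
  · have h2 : Measurable fun t : Fin s → ℂ => ‖dt v t‖ ^ 2 * ω t := by
      have h3 : Continuous fun t : Fin s → ℂ => dt v t := dt_cont.comp (Continuous.prodMk_right v)
      exact (h3.norm.pow 2).measurable.mul (meas_wt h.cont)
    exact (h2.comp (HomC_201.meas_vec hF.meas)).aestronglyMeasurable
  · refine Eventually.of_forall fun y => ?_
    rw [norm_mul, Real.norm_eq_abs, Real.norm_eq_abs, abs_of_nonneg (by positivity)]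
    calc ‖dt v fun k => σ k y‖ ^ 2 * |ω fun k => σ k y|
        ≤ ((∑ i, ‖v i‖) ^ 2 * ‖fun k => σ k y‖ ^ 2) * |ω fun k => σ k y| :=
          mul_le_mul_of_nonneg_right (dt_norm_sq_le _ _) (abs_nonneg _)
      _ = (∑ i, ‖v i‖) ^ 2 * (‖fun k => σ k y‖ ^ 2 * |ω fun k => σ k y|) := by ring
      _ ≤ (∑ i, ‖v i‖) ^ 2 * (C * ‖HomC_201.vec σ y‖ ^ p) :=
          mul_le_mul_of_nonneg_left (hC _) (by positivity)

/-- the quadratic form of the Gram matrix -/
theorem dot_Qm (hp : 0 < p) (hF : Fam p μ σ) {ω : (Fin s → ℂ) → ℝ} (h : Wt p ω)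
    (v : Fin s → ℂ) : star v ⬝ᵥ (Qm μ σ ω *ᵥ v) =
      ((∫ y, ‖dt v (fun k => σ k y)‖ ^ 2 * ω (fun k => σ k y) ∂μ : ℝ) : ℂ) := by
  have hI := integrable_gij hp hF h
  rw [← integral_complex_ofReal]
  have h1 : star v ⬝ᵥ (Qm μ σ ω *ᵥ v) =
      ∑ i, ∑ j, ∫ y, conj (v i) * v j * gij ω i j (fun k => σ k y) ∂μ := by
    simp only [dotProduct, mulVec, Qm, Matrix.of_apply, Pi.star_apply, RCLike.star_def]
    refine Finset.sum_congr rfl fun i _ => ?_
    rw [Finset.mul_sum]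
    refine Finset.sum_congr rfl fun j _ => ?_
    rw [integral_const_mul]
    ring
  rw [h1]
  have h2 : ∀ i, ∑ j, ∫ y, conj (v i) * v j * gij ω i j (fun k => σ k y) ∂μ =
      ∫ y, ∑ j, conj (v i) * v j * gij ω i j (fun k => σ k y) ∂μ := fun i =>
    (integral_finsetSum _ fun j _ => (hI i j).const_mul _).symm
  simp_rw [h2]
  rw [← integral_finsetSum _ fun i _ => integrable_finsetSum _ fun j _ => (hI i j).const_mul _]
  refine integral_congr_ae (Eventually.of_forall fun y => ?_)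
  simp only [gij]
  have h3 : ((‖dt v (fun k => σ k y)‖ ^ 2 * ω (fun k => σ k y) : ℝ) : ℂ) =
      conj (dt v fun k => σ k y) * (dt v fun k => σ k y) * (ω (fun k => σ k y) : ℂ) := by
    rw [Complex.conj_mul']
    push_cast
    rfl
  rw [h3]
  unfold dt
  rw [map_sum, Finset.sum_mul_sum, Finset.sum_mul]
  refine Finset.sum_congr rfl fun i _ => ?_
  rw [Finset.sum_mul]
  refine Finset.sum_congr rfl fun j _ => ?_
  rw [map_mul]
  ring

theorem qf_Qm (hp : 0 < p) (hF : Fam p μ σ) {ω : (Fin s → ℂ) → ℝ} (h : Wt p ω)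
    (v : Fin s → ℂ) : Nc_999.qf (Qm μ σ ω) v =
      ∫ y, ‖dt v (fun k => σ k y)‖ ^ 2 * ω (fun k => σ k y) ∂μ := by
  unfold Nc_999.qf
  rw [dot_Qm hp hF h, Complex.ofReal_re]

/-- the integrand is nonnegative -/
lemma sq_nonneg' {ω : (Fin s → ℂ) → ℝ} (h : Wt p ω) (v t : Fin s → ℂ) :
    0 ≤ ‖dt v t‖ ^ 2 * ω t := by
  by_cases ht : t = 0
  · subst ht
    simp [dt]
  · exact mul_nonneg (by positivity) (h.pos t ht).le

theorem Qm_isHermitian (μ : Measure Y) (σ : Fin s → Y → ℂ) (ω : (Fin s → ℂ) → ℝ) :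
    (Qm μ σ ω).IsHermitian := by
  ext i j
  rw [conjTranspose_apply]
  simp only [Qm, Matrix.of_apply, RCLike.star_def]
  rw [← integral_conj]
  refine integral_congr_ae (Eventually.of_forall fun y => ?_)
  simp only [gij, map_mul, RCLike.conj_conj, Complex.conj_ofReal]
  ring

/-- positivity -/
theorem Qm_posDef (hp : 0 < p) (hF : Fam p μ σ)
    (hpos : ∀ v : Fin s → ℂ, v ≠ 0 → ∫⁻ y, ENNReal.ofReal (‖∑ i, v i * σ i y‖ ^ p) ∂μ ≠ 0)
    {ω : (Fin s → ℂ) → ℝ} (h : Wt p ω) : (Qm μ σ ω).PosDef := by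
  rw [posDef_iff_dotProduct_mulVec]
  refine ⟨Qm_isHermitian μ σ ω, fun v hv => ?_⟩
  rw [dot_Qm hp hF h]
  have h1 : 0 < ∫ y, ‖dt v (fun k => σ k y)‖ ^ 2 * ω (fun k => σ k y) ∂μ := by
    rw [integral_pos_iff_support_of_nonneg (fun y => sq_nonneg' h _ _) (integrable_sq hp hF h v)]
    rw [pos_iff_ne_zero]
    intro h0
    refine hpos v hv ?_
    rw [lintegral_eq_zero_iff' (by
      have : Measurable fun y => ∑ i, v i * σ i y :=
        Finset.measurable_sum _ fun i _ => (hF.meas i).const_mul _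
      exact ((this.norm.pow_const _).ennreal_ofReal).aemeasurable)]
    have h2 : {y | ¬ (‖dt v (fun k => σ k y)‖ ^ 2 * ω (fun k => σ k y) = 0)} ∈
        {A : Set Y | μ A = 0} := h0
    have h3 : ∀ᵐ y ∂μ, ‖dt v (fun k => σ k y)‖ ^ 2 * ω (fun k => σ k y) = 0 := h0
    filter_upwards [h3] with y hy
    have h4 : dt v (fun k => σ k y) = 0 := by
      rcases mul_eq_zero.mp hy with h5 | h5
      · exact norm_eq_zero.mp (by simpa using h5)
      · by_contra hne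
        have h6 : (fun k => σ k y) ≠ 0 := by
          intro h7
          apply hne
          rw [h7]
          simp [dt]
        exact (h.pos _ h6).ne' h5
    have h5 : ∑ i, v i * σ i y = 0 := h4
    rw [h5]
    simp [Real.zero_rpow hp.ne']
  exact_mod_cast h1

/-- continuity with parameters -/
theorem Qm_cont {X : Type*} [TopologicalSpace X] {W : Type*} [TopologicalSpace W] (hp : 0 < p)
    (hp2 : p < 2) (μ : X → Measure Y) [∀ x, SFinite (μ x)] (σ : Fin s → Y → ℂ)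
    (hF : ∀ x, Fam p (μ x) σ) (hσ : ∀ i, Measurable (σ i))
    (hc : ∀ v : Fin s → ℂ, Continuous fun x => ∫ y, ‖∑ i, v i * σ i y‖ ^ p ∂(μ x))
    (ω : W → (Fin s → ℂ) → ℝ) {T : Set W} (hT : IsOpen T)
    (hg : ContinuousOn (fun q : W × (Fin s → ℂ) => ω q.1 q.2) {q | q.1 ∈ T ∧ q.2 ≠ 0})
    (hh : ∀ w ∈ T, ∀ c : ℂ, c ≠ 0 → ∀ t, ω w (c • t) = ‖c‖ ^ (p - 2) * ω w t) :
    ContinuousOn (fun q : X × W => Qm (μ q.1) σ (ω q.2)) {q | q.2 ∈ T} := by
  refine continuousOn_pi.mpr fun i => continuousOn_pi.mpr fun j => ?_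
  refine HomC_201.homcont2C hp hp2 μ σ hσ (fun x v => (hF x).fin v) hc
    (fun w => gij (ω w) i j) hT ?_ ?_
  · unfold gij
    refine ContinuousOn.mul ?_ (Complex.continuous_ofReal.comp_continuousOn hg)
    fun_prop
  · intro w hw c v
    exact gij_hom hp (hh w hw) i j c v

end Crest.Agent.R276.LNc_333
end
end

-- ▼ part R276/LNd_333

/-!
# Row 276, LEMMA N (helper333), part d: `L.H`, `L.G`: positivity, continuity, comparison

* `H_posDef`, `H_cont`, `qf_H`; `G_posDef`, `G_cont`, `qf_G`;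
* `qf_H_le : qf (H x) v ≤ Φ^N`, `Phi_pow_le : Φ^N ≤ s^(N-1) qf (H x) v`;
* `qf_G_le`, `qf_G_ge`, `tendsto_G`: comparison of `G` with `Φ` and `H`.
-/

set_option autoImplicit false
set_option linter.unusedSectionVars false
set_option linter.unusedVariables false

open MeasureTheory Matrix Set Filter Topology Metric
open scoped ComplexConjugate ENNReal ComplexOrder

noncomputable section

namespace Crest.Agent.R276.LNd_333

open Crest.Agent.R276.LN_999 Crest.Agent.R276.LNb_333 Crest.Agent.R276.LNc_333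
open Crest.Agent.R276.Nc_999 (qf)

variable {M Y : Type*} [TopologicalSpace M] [MeasurableSpace Y] {s N : ℕ}
variable (L : LN M Y s N)

lemma fam (hN : 2 ≤ N) (x : M) : Fam (2 / N : ℝ) (L.μ x) L.σ where
  meas := L.meas
  fin := L.fin x

lemma N_pos (hN : 2 ≤ N) : (0 : ℝ) < N := by exact_mod_cast (by omega : 0 < N)

lemma p_lt (hN : 2 ≤ N) : (2 / N : ℝ) < 2 := lt_of_le_of_lt (p_le hN) (by norm_num)

/-! ### the metric `H` -/

/-- the weight `B^{-(N-1)}` -/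
def wH (x : M) (t : Fin s → ℂ) : ℝ := (L.B x t ^ (N - 1))⁻¹

lemma H_eq (x : M) : L.H x = Qm (L.μ x) L.σ (wH L x) := rfl

lemma wH_hom (hN : 2 ≤ N) (x : M) (c : ℂ) (hc : c ≠ 0) (t : Fin s → ℂ) :
    wH L x (c • t) = ‖c‖ ^ ((2 / N : ℝ) - 2) * wH L x t := by
  unfold wH
  have hn : 0 < ‖c‖ := norm_pos_iff.mpr hc
  rw [B_smul L hN, mul_pow, mul_inv]
  congr 1
  rw [← Real.rpow_natCast (‖c‖ ^ (2 / N : ℝ)), ← Real.rpow_mul hn.le, ← Real.rpow_neg hn.le]
  congr 1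
  have h1 : ((N - 1 : ℕ) : ℝ) = N - 1 := by
    rw [Nat.cast_sub (by omega)]
    simp
  rw [h1]
  have h2 := (N_pos hN).ne'
  field_simp
  ring

lemma wt_H (hN : 2 ≤ N) (hs : 0 < s) (x : M) : Wt (2 / N : ℝ) (wH L x) where
  pos t ht := inv_pos.mpr (pow_pos (B_pos L hN x ht) _)
  cont := by
    unfold wH
    have h1 : Continuous fun t => L.B x t := (B_cont L hN hs).comp (Continuous.prodMk_right x)
    exact ((h1.pow _).continuousOn).inv₀ fun t ht => (pow_pos (B_pos L hN x ht) _).ne'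
  hom := wH_hom L hN x

/-- (G1b) for `H` -/
theorem H_posDef (hN : 2 ≤ N) (hs : 0 < s) (x : M) : (L.H x).PosDef := by
  rw [H_eq]
  exact Qm_posDef (p_pos hN) (fam L hN x) (fun v hv => L.pos x v hv) (wt_H L hN hs x)

theorem H_cont (hN : 2 ≤ N) (hs : 0 < s) : Continuous L.H := by
  have hsf : ∀ x, SFinite (L.μ x) := fun x => by
    have := L.sf x
    infer_instance
  have h1 := Qm_cont (p_pos hN) (p_lt hN) L.μ L.σ (fun x => fam L hN x) L.meas L.cont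
    (fun x : M => wH L x) (T := univ) isOpen_univ (by
      unfold wH
      refine ContinuousOn.inv₀ (((B_cont L hN hs).pow _).continuousOn) ?_
      rintro ⟨x, t⟩ ⟨_, ht⟩
      exact (pow_pos (B_pos L hN x ht) _).ne') (fun x _ c hc t => wH_hom L hN x c hc t)
  have h2 : Continuous fun q : M × M => Qm (L.μ q.1) L.σ (wH L q.2) := by
    rw [← continuousOn_univ]
    simpa using h1
  exact h2.comp (continuous_id.prodMk continuous_id)

theorem qf_H (hN : 2 ≤ N) (hs : 0 < s) (x : M) (v : Fin s → ℂ) :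
    qf (L.H x) v = ∫ y, ‖dt v (L.sg y)‖ ^ 2 * (L.B x (L.sg y) ^ (N - 1))⁻¹ ∂(L.μ x) := by
  rw [H_eq, qf_Qm (p_pos hN) (fam L hN x) (wt_H L hN hs x)]
  rfl

/-! ### the metrics `G` -/

/-- the weight of `G` -/
def wG (N : ℕ) {m : ℕ} (w : Fin m → Fin s → ℂ) (t : Fin s → ℂ) : ℝ :=
  (∑ l, ‖dt (w l) t‖ ^ 2) ^ (-(1 - 1 / N : ℝ))

/-- spanning families -/
def Spn {m : ℕ} (w : Fin m → Fin s → ℂ) : Prop := ∀ v : Fin s → ℂ, (∀ l, dt (w l) v = 0) → v = 0

lemma G_eq {m : ℕ} (x : M) (w : Fin m → Fin s → ℂ) : L.G x w = Qm (L.μ x) L.σ (wG N w) := rfl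

lemma sum_pos_of_spn {m : ℕ} {w : Fin m → Fin s → ℂ} (hw : Spn w) {t : Fin s → ℂ} (ht : t ≠ 0) :
    0 < ∑ l, ‖dt (w l) t‖ ^ 2 := by
  by_contra hcon
  have h1 : ∑ l, ‖dt (w l) t‖ ^ 2 = 0 :=
    le_antisymm (not_lt.mp hcon) (Finset.sum_nonneg fun _ _ => by positivity)
  rw [Finset.sum_eq_zero_iff_of_nonneg fun _ _ => by positivity] at h1
  refine ht (hw t fun l => ?_)
  have := h1 l (Finset.mem_univ l)
  simpa using this

lemma wG_hom (hN : 2 ≤ N) {m : ℕ} (w : Fin m → Fin s → ℂ) (c : ℂ) (hc : c ≠ 0)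
    (t : Fin s → ℂ) : wG N w (c • t) = ‖c‖ ^ ((2 / N : ℝ) - 2) * wG N w t := by
  unfold wG
  have hn : 0 < ‖c‖ := norm_pos_iff.mpr hc
  have h1 : ∑ l, ‖dt (w l) (c • t)‖ ^ 2 = ‖c‖ ^ 2 * ∑ l, ‖dt (w l) t‖ ^ 2 := by
    rw [Finset.mul_sum]
    refine Finset.sum_congr rfl fun l _ => ?_
    rw [dt_smul_right, norm_mul, mul_pow]
  rw [h1, Real.mul_rpow (by positivity) (Finset.sum_nonneg fun _ _ => by positivity)]
  congr 1
  rw [← Real.rpow_natCast, ← Real.rpow_mul hn.le]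
  congr 1
  have h2 := (N_pos hN).ne'
  push_cast
  field_simp
  ring

lemma sum_cont {m : ℕ} :
    Continuous fun q : (Fin m → Fin s → ℂ) × (Fin s → ℂ) => ∑ l, ‖dt (q.1 l) q.2‖ ^ 2 := by
  unfold dt
  fun_prop

lemma wG_cont {m : ℕ} :
    ContinuousOn (fun q : (Fin m → Fin s → ℂ) × (Fin s → ℂ) => wG N q.1 q.2)
      {q | q.1 ∈ {w : Fin m → Fin s → ℂ | Spn w} ∧ q.2 ≠ 0} := by
  unfold wG
  refine ContinuousOn.rpow_const sum_cont.continuousOn ?_
  rintro ⟨w, t⟩ ⟨hw, ht⟩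
  exact Or.inl (sum_pos_of_spn hw ht).ne'

lemma wG_cont_right {m : ℕ} {w : Fin m → Fin s → ℂ} (hw : Spn w) :
    ContinuousOn (wG N w) {t | t ≠ 0} := by
  unfold wG
  refine ContinuousOn.rpow_const ?_ fun t ht => Or.inl (sum_pos_of_spn hw ht).ne'
  have : Continuous fun t : Fin s → ℂ => ∑ l, ‖dt (w l) t‖ ^ 2 := by
    unfold dt
    fun_prop
  exact this.continuousOn

lemma wt_G (hN : 2 ≤ N) {m : ℕ} {w : Fin m → Fin s → ℂ} (hw : Spn w) :
    Wt (2 / N : ℝ) (wG N w) where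
  pos t ht := Real.rpow_pos_of_pos (sum_pos_of_spn hw ht) _
  cont := wG_cont_right hw
  hom := wG_hom hN w

theorem isOpen_spn {m : ℕ} : IsOpen {w : Fin m → Fin s → ℂ | Spn w} := by
  rw [isOpen_iff_eventually]
  intro w₀ hw₀
  have hK : IsCompact (sphere (0 : Fin s → ℂ) 1) := isCompact_sphere _ _
  have hev := hK.eventually_forall_of_forall_eventually (x₀ := w₀)
    (P := fun w t => 0 < ∑ l, ‖dt (w l) t‖ ^ 2) fun t ht =>
      (sum_cont.tendsto (w₀, t)).eventually_const_lt (sum_pos_of_spn hw₀ (sph_ne ht))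
  filter_upwards [hev] with w hw v hv
  by_contra hne
  have hn : ‖v‖ ≠ 0 := norm_ne_zero_iff.mpr hne
  have hmem : ((‖v‖⁻¹ : ℝ) : ℂ) • v ∈ sphere (0 : Fin s → ℂ) 1 := by
    rw [mem_sphere_zero_iff_norm, norm_smul, Complex.norm_real, norm_inv, norm_norm,
      inv_mul_cancel₀ hn]
  have h1 := hw _ hmem
  have h2 : ∑ l, ‖dt (w l) (((‖v‖⁻¹ : ℝ) : ℂ) • v)‖ ^ 2 = 0 := by
    refine Finset.sum_eq_zero fun l _ => ?_
    rw [dt_smul_right, hv l]
    simp
  rw [h2] at h1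
  exact lt_irrefl _ h1

/-- (G1b) for `G` -/
theorem G_posDef (hN : 2 ≤ N) {m : ℕ} (x : M) {w : Fin m → Fin s → ℂ} (hw : Spn w) :
    (L.G x w).PosDef := by
  rw [G_eq]
  exact Qm_posDef (p_pos hN) (fam L hN x) (fun v hv => L.pos x v hv) (wt_G hN hw)

theorem G_cont (hN : 2 ≤ N) {m : ℕ} :
    ContinuousOn (fun q : M × (Fin m → Fin s → ℂ) => L.G q.1 q.2) {q | Spn q.2} := by
  have hsf : ∀ x, SFinite (L.μ x) := fun x => by
    have := L.sf x
    infer_instance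
  exact Qm_cont (p_pos hN) (p_lt hN) L.μ L.σ (fun x => fam L hN x) L.meas L.cont
    (fun w : Fin m → Fin s → ℂ => wG N w) isOpen_spn wG_cont (fun w _ c hc t => wG_hom hN w c hc t)

theorem qf_G (hN : 2 ≤ N) {m : ℕ} (x : M) {w : Fin m → Fin s → ℂ} (hw : Spn w)
    (v : Fin s → ℂ) : qf (L.G x w) v =
      ∫ y, ‖dt v (L.sg y)‖ ^ 2 * (∑ l, ‖dt (w l) (L.sg y)‖ ^ 2) ^ (-(1 - 1 / N : ℝ)) ∂(L.μ x) := by
  rw [G_eq, qf_Qm (p_pos hN) (fam L hN x) (wt_G hN hw)]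
  rfl

/-! ### comparison -/

lemma ofReal_qf_H (hN : 2 ≤ N) (hs : 0 < s) (x : M) (v : Fin s → ℂ) :
    ENNReal.ofReal (qf (L.H x) v) = ∫⁻ y, ENNReal.ofReal (‖ev L y v‖ ^ 2) *
      ((ENNReal.ofReal (L.B x (L.sg y))) ^ (N - 1))⁻¹ ∂(L.μ x) := by
  have hI := integrable_sq (p_pos hN) (fam L hN x) (wt_H L hN hs x) v
  rw [qf_H L hN hs]
  refine (ofReal_integral_eq_lintegral_ofReal hI
    (Eventually.of_forall fun y => sq_nonneg' (wt_H L hN hs x) v _)).trans ?_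
  refine lintegral_congr fun y => ?_
  change ENNReal.ofReal (‖dt v (L.sg y)‖ ^ 2 * (L.B x (L.sg y) ^ (N - 1))⁻¹) = _
  rw [ENNReal.ofReal_mul (by positivity), dt_sg]
  by_cases h0 : L.sg y = 0
  · have h1 : ev L y v = 0 := by
      rw [← dt_sg, h0]
      simp [dt]
    rw [h1]
    simp
  · have hB := B_pos L hN x h0
    rw [ENNReal.ofReal_inv_of_pos (pow_pos hB _), ENNReal.ofReal_pow hB.le]

/-- (G1c) upper comparison -/
theorem qf_H_le (hN : 2 ≤ N) (hs : 0 < s) (x : M) (v : Fin s → ℂ) :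
    qf (L.H x) v ≤ L.Phi x v ^ N := by
  have h1 := Aue_999.ns_le (μ := L.μ x) (ev := ev L) (α := (2 / N : ℝ)) N (by omega) rfl
    (good L hN x) (fun y => ENNReal.ofReal (L.B x (L.sg y))) (by
      intro y v
      rw [← Aue_999.ofReal_q (good L hN x), ← Phi_eq, ← ENNReal.ofReal_mul (Phi_nonneg L x v)]
      apply ENNReal.ofReal_le_ofReal
      rw [← dt_sg]
      exact le_B L hN x _ v) v
  rw [← ofReal_qf_H L hN hs, ← Aue_999.ofReal_q (good L hN x), ← Phi_eq,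
    ← ENNReal.ofReal_pow (Phi_nonneg L x v)] at h1
  exact (ENNReal.ofReal_le_ofReal_iff (pow_nonneg (Phi_nonneg L x v) _)).mp h1

/-- (G1c) lower comparison -/
theorem Phi_pow_le (hN : 2 ≤ N) (hs : 0 < s) (x : M) (v : Fin s → ℂ) :
    L.Phi x v ^ N ≤ (s : ℝ) ^ (N - 1) * qf (L.H x) v := by
  have h1 := Aue_999.pint_pow_le (μ := L.μ x) (ev := ev L) (α := (2 / N : ℝ)) N (by omega) rfl
    (good L hN x) (fun y => ENNReal.ofReal (L.B x (L.sg y))) (by
      have h2 : Measurable fun t => L.B x t :=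
        ((B_cont L hN hs).comp (Continuous.prodMk_right x)).measurable
      exact ((h2.comp (meas_sg L)).ennreal_ofReal).aemeasurable) (by
      intro y v
      rw [← Aue_999.ofReal_q (good L hN x), ← Phi_eq, ← ENNReal.ofReal_mul (Phi_nonneg L x v)]
      apply ENNReal.ofReal_le_ofReal
      rw [← dt_sg]
      exact le_B L hN x _ v) (by
      intro y C hC
      apply ENNReal.ofReal_le_ofReal
      refine B_le_of L x _ hN fun v hv => ?_
      rw [dt_sg]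
      exact hC v (by rw [← Phi_eq]; exact hv)) v
  rw [← ofReal_qf_H L hN hs, ← Aue_999.ofReal_q (good L hN x), ← Phi_eq,
    ← ENNReal.ofReal_pow (Phi_nonneg L x v)] at h1
  have h2 : (Module.finrank ℂ (Fin s → ℂ) : ℝ≥0∞) ^ (N - 1) = ENNReal.ofReal ((s : ℝ) ^ (N - 1)) := by
    rw [ENNReal.ofReal_pow (by positivity), ENNReal.ofReal_natCast]
    simp
  rw [h2, ← ENNReal.ofReal_mul (by positivity)] at h1
  exact (ENNReal.ofReal_le_ofReal_iff (mul_nonneg (by positivity)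
    (Nc_999.qf_nonneg (H_posDef L hN hs x) v))).mp h1

/-- the family `w` controls the weight from above -/
lemma sum_le_B (hN : 2 ≤ N) (hs : 0 < s) {m : ℕ} (x : M) (w : Fin m → Fin s → ℂ)
    (t : Fin s → ℂ) : ∑ l, ‖dt (w l) t‖ ^ 2 ≤
      ((s : ℝ) ^ (N - 1) * ∑ l, qf (L.H x) (w l)) * L.B x t ^ N := by
  rw [Finset.mul_sum, Finset.sum_mul]
  refine Finset.sum_le_sum fun l _ => ?_
  have h1 := le_B L hN x t (w l)
  have h2 : ‖dt (w l) t‖ ^ 2 = (‖dt (w l) t‖ ^ (2 / N : ℝ)) ^ N := by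
    rw [← Real.rpow_natCast (‖dt (w l) t‖ ^ (2 / N : ℝ)), ← Real.rpow_mul (norm_nonneg _)]
    rw [div_mul_cancel₀ _ (N_pos hN).ne']
    norm_num
  rw [h2]
  calc (‖dt (w l) t‖ ^ (2 / N : ℝ)) ^ N ≤ (L.Phi x (w l) * L.B x t) ^ N :=
        pow_le_pow_left₀ (by positivity) h1 N
    _ = L.Phi x (w l) ^ N * L.B x t ^ N := mul_pow _ _ _
    _ ≤ ((s : ℝ) ^ (N - 1) * qf (L.H x) (w l)) * L.B x t ^ N :=
        mul_le_mul_of_nonneg_right (Phi_pow_le L hN hs x (w l)) (pow_nonneg (B_nonneg L x t) N)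

lemma one_sub_pos (hN : 2 ≤ N) : (0 : ℝ) < 1 - 1 / N := by
  have h1 : (2 : ℝ) ≤ N := by exact_mod_cast hN
  have h2 : (1 : ℝ) / N ≤ 1 / 2 := one_div_le_one_div_of_le (by norm_num) h1
  linarith

/-- lower bound of `G` by `H` -/
theorem qf_G_ge (hN : 2 ≤ N) (hs : 0 < s) {m : ℕ} (x : M) {w : Fin m → Fin s → ℂ} (hw : Spn w)
    {R : ℝ} (hR0 : 0 < R) (hR : ∑ l, qf (L.H x) (w l) ≤ R) (v : Fin s → ℂ) :
    ((s : ℝ) ^ (N - 1) * R) ^ (-(1 - 1 / N : ℝ)) * qf (L.H x) v ≤ qf (L.G x w) v := by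
  have hs' : (0 : ℝ) < s := by exact_mod_cast hs
  rw [qf_H L hN hs, qf_G L hN x hw, ← integral_const_mul]
  refine integral_mono ((integrable_sq (p_pos hN) (fam L hN x) (wt_H L hN hs x) v).const_mul _)
    (integrable_sq (p_pos hN) (fam L hN x) (wt_G hN hw) v) fun y => ?_
  change ((s : ℝ) ^ (N - 1) * R) ^ (-(1 - 1 / N : ℝ)) *
    (‖dt v (L.sg y)‖ ^ 2 * (L.B x (L.sg y) ^ (N - 1))⁻¹) ≤
      ‖dt v (L.sg y)‖ ^ 2 * wG N w (L.sg y)
  by_cases h0 : L.sg y = 0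
  · rw [h0]
    simp [dt]
  have hB := B_pos L hN x h0
  have h1 := sum_le_B L hN hs x w (L.sg y)
  have h2 : ∑ l, ‖dt (w l) (L.sg y)‖ ^ 2 ≤ ((s : ℝ) ^ (N - 1) * R) * L.B x (L.sg y) ^ N := by
    refine h1.trans ?_
    gcongr
  have h3 : (((s : ℝ) ^ (N - 1) * R) * L.B x (L.sg y) ^ N) ^ (-(1 - 1 / N : ℝ)) ≤
      wG N w (L.sg y) :=
    Real.rpow_le_rpow_of_nonpos (sum_pos_of_spn hw h0) h2 (by linarith [one_sub_pos hN])
  have h4 : (((s : ℝ) ^ (N - 1) * R) * L.B x (L.sg y) ^ N) ^ (-(1 - 1 / N : ℝ)) =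
      ((s : ℝ) ^ (N - 1) * R) ^ (-(1 - 1 / N : ℝ)) * (L.B x (L.sg y) ^ (N - 1))⁻¹ := by
    rw [Real.mul_rpow (by positivity) (by positivity)]
    congr 1
    rw [← Real.rpow_natCast (L.B x (L.sg y)) N, ← Real.rpow_mul hB.le,
      ← Real.rpow_natCast (L.B x (L.sg y)) (N - 1), ← Real.rpow_neg hB.le]
    congr 1
    have h5 : ((N - 1 : ℕ) : ℝ) = N - 1 := by
      rw [Nat.cast_sub (by omega)]
      simp
    rw [h5]
    have h6 := (N_pos hN).ne'
    field_simp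
  rw [h4] at h3
  calc ((s : ℝ) ^ (N - 1) * R) ^ (-(1 - 1 / N : ℝ)) *
        (‖dt v (L.sg y)‖ ^ 2 * (L.B x (L.sg y) ^ (N - 1))⁻¹)
      = ‖dt v (L.sg y)‖ ^ 2 * (((s : ℝ) ^ (N - 1) * R) ^ (-(1 - 1 / N : ℝ)) *
          (L.B x (L.sg y) ^ (N - 1))⁻¹) := by ring
    _ ≤ _ := mul_le_mul_of_nonneg_left h3 (by positivity)

lemma sq_mul_rpow (hN : 2 ≤ N) {a : ℝ} (ha : 0 < a) :
    a ^ 2 * (a ^ 2) ^ (-(1 - 1 / N : ℝ)) = a ^ (2 / N : ℝ) := by
  rw [← Real.rpow_natCast, ← Real.rpow_mul ha.le, ← Real.rpow_add ha]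
  congr 1
  push_cast
  ring

lemma pt_G_le (hN : 2 ≤ N) {m : ℕ} (w : Fin m → Fin s → ℂ) (l : Fin m)
    (t : Fin s → ℂ) : ‖dt (w l) t‖ ^ 2 * wG N w t ≤ ‖dt (w l) t‖ ^ (2 / N : ℝ) := by
  by_cases h0 : dt (w l) t = 0
  · rw [h0]
    simp [Real.zero_rpow (p_pos hN).ne']
  have hn : 0 < ‖dt (w l) t‖ := norm_pos_iff.mpr h0
  have h1 : ‖dt (w l) t‖ ^ 2 ≤ ∑ k, ‖dt (w k) t‖ ^ 2 :=
    Finset.single_le_sum (f := fun k => ‖dt (w k) t‖ ^ 2) (fun k _ => by positivity)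
      (Finset.mem_univ l)
  have h2 : wG N w t ≤ (‖dt (w l) t‖ ^ 2) ^ (-(1 - 1 / N : ℝ)) :=
    Real.rpow_le_rpow_of_nonpos (by positivity) h1 (by linarith [one_sub_pos hN])
  calc ‖dt (w l) t‖ ^ 2 * wG N w t
      ≤ ‖dt (w l) t‖ ^ 2 * (‖dt (w l) t‖ ^ 2) ^ (-(1 - 1 / N : ℝ)) :=
        mul_le_mul_of_nonneg_left h2 (by positivity)
    _ = _ := sq_mul_rpow hN hn

lemma integrable_Phi (hN : 2 ≤ N) (x : M) (v : Fin s → ℂ) :
    Integrable (fun y => ‖dt v (L.sg y)‖ ^ (2 / N : ℝ)) (L.μ x) :=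
  HomC_201.integrable_lin L.meas (L.fin x) v

/-- upper bound of `G` on the members of the family -/
theorem qf_G_le (hN : 2 ≤ N) {m : ℕ} (x : M) {w : Fin m → Fin s → ℂ} (hw : Spn w) (l : Fin m) :
    qf (L.G x w) (w l) ≤ L.Phi x (w l) := by
  rw [qf_G L hN x hw]
  exact integral_mono (integrable_sq (p_pos hN) (fam L hN x) (wt_G hN hw) (w l))
    (integrable_Phi L hN x (w l)) fun y => pt_G_le hN w l (L.sg y)

end Crest.Agent.R276.LNd_333
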