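import Mathlib
import Crest.Agent.R276.LNe_333
import Crest.Agent.R276.FlatDefs_236

/-!
# Row 276, LEMMA N (helper333), part f: the data `LN` of a saturated family

`fmu R w` : the Lebesgue measure of the fibre over `w`, as a measure on the total space;
`lnF (S : SatFam R N u) : LN R.ML.Pts R.MK.Pts s N`; `lnF_Phi`, `lnF_DD`.
-/

set_option autoImplicit false
set_option linter.unusedSectionVars false

open Set Filter Topology MeasureTheory
open scoped ENNReal

noncomputable section

namespace Crest.Agent.R276.LNf_333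

open Crest.Agent.R271 Crest.Agent.R271.Ho51 Crest.Agent.R271.Rd692
open Crest.Agent.R276.Mod1_987 Crest.Agent.R276.FlatM_464
open Crest.Agent.R276.FlatDefs_236
open Crest.Agent.R276.LN_999 Crest.Agent.R276.LNb_333

variable {L K : Type} [Field L] [Field K] [Algebra ℂ L] [Algebra ℂ K] [Algebra L K]
  [IsScalarTower ℂ L K] {m r : ℕ}

variable (R : RMdl L K m r)

lemma measurableEmbedding_val (w : R.ML.Pts) :
    MeasurableEmbedding (RMdl.Fib.val R (w := w) : R.Fib w → R.MK.Pts) := by
  have h1 : IsClosed {y : R.MK.Pts | R.q y = w} := isClosed_eq R.continuous_q continuous_const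
  have h2 : Topology.IsClosedEmbedding (RMdl.Fib.val R (w := w) : R.Fib w → R.MK.Pts) :=
    h1.isClosedEmbedding_subtypeVal
  exact h2.measurableEmbedding

/-- the fibre measure on the total space -/
def fmu (w : R.ML.Pts) : Measure R.MK.Pts := (nu R w).map (RMdl.Fib.val R)

theorem lintegral_fmu (w : R.ML.Pts) (g : R.MK.Pts → ℝ≥0∞) :
    ∫⁻ y, g y ∂(fmu R w) = ∫⁻ y : R.Fib w, g y.val ∂(nu R w) :=
  (measurableEmbedding_val R w).lintegral_map g

theorem lintegral_fmu' (w : R.ML.Pts) {g : R.MK.Pts → ℝ≥0∞} (hg : Measurable g) :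
    ∫⁻ y, g y ∂(fmu R w) = R.fint w g := by
  rw [lintegral_fmu, R.fint_eq (nu_leb R w) hg]

theorem integral_fmu {E : Type*} [NormedAddCommGroup E] [NormedSpace ℝ E] (w : R.ML.Pts)
    (g : R.MK.Pts → E) : ∫ y, g y ∂(fmu R w) = ∫ y : R.Fib w, g y.val ∂(nu R w) :=
  (measurableEmbedding_val R w).integral_map g

instance sigmaFinite_nu (w : R.ML.Pts) : SigmaFinite (nu R w) := by
  have := (nu_leb R w).locallyFinite
  infer_instance

instance sigmaFinite_fmu (w : R.ML.Pts) : SigmaFinite (fmu R w) :=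
  (measurableEmbedding_val R w).sigmaFinite_map

variable {R} {s N : ℕ} {u : Fin s → R.MK.B}

lemma measurable_ev (b : R.MK.B) : Measurable fun y : R.MK.Pts => y b :=
  (continuous_ev b).measurable

/-- nonempty open sets have positive Lebesgue measure -/
lemma leb_pos {n : ℕ} {F : Type*} [TopologicalSpace F] [RDom n F] [MeasurableSpace F]
    [BorelSpace F] {μ : Measure F} (hμ : IsLeb μ) {U : Set F} (hU : IsOpen U) (hne : U.Nonempty) :
    μ U ≠ 0 := by
  obtain ⟨x, hx⟩ := hne
  intro h0
  have h1 : μ.restrict (ch x).source U = 0 :=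
    le_antisymm ((Measure.restrict_apply_le _ _).trans h0.le) (zero_le)
  rw [hμ (ch x) (isCh_ch x)] at h1
  have h2 : chm (ch x) U = 0 := h1
  rw [chm_apply _ hU.measurableSet] at h2
  have h3 : IsOpen ((ch x).target ∩ (ch x).symm ⁻¹' U) := (ch x).isOpen_inter_preimage_symm hU
  have h4 : ((ch x).target ∩ (ch x).symm ⁻¹' U).Nonempty :=
    ⟨ch x x, (ch x).map_source (mem_ch x), by
      rw [mem_preimage, (ch x).left_inv (mem_ch x)]
      exact hx⟩
  exact (h3.measure_pos volume h4).ne' h2

lemma cont_lc (w : R.ML.Pts) (v : Fin s → ℂ) :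
    Continuous fun y : R.Fib w => ∑ i, v i * sg u w y i :=
  continuous_finsetSum _ fun i _ => continuous_const.mul
    ((continuous_ev (u i)).comp (RMdl.Fib.continuous_val w))

/-- **the data of LEMMA N for a saturated family** -/
def lnF (S : SatFam R N u) : LN R.ML.Pts R.MK.Pts s N where
  μ := fmu R
  σ i y := y (u i)
  sf w := inferInstance
  meas i := measurable_ev (u i)
  fin w v := by
    rw [lintegral_fmu]
    exact S.fin w v
  pos w v hv := by
    have hN := S.N_ge
    intro h0
    rw [lintegral_fmu] at h0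
    change ∫⁻ y : R.Fib w, ENNReal.ofReal (‖∑ i, v i * sg u w y i‖ ^ (2 / N : ℝ)) ∂(nu R w) = 0 at h0
    have hc := cont_lc (u := u) w v
    rw [lintegral_eq_zero_iff ((hc.norm.measurable.pow_const _).ennreal_ofReal)] at h0
    refine hv (S.indep w v fun y => ?_)
    by_contra hy
    have hopen : IsOpen {y : R.Fib w | ∑ i, v i * sg u w y i ≠ 0} := isOpen_ne_fun hc continuous_const
    refine leb_pos (nu_leb R w) hopen ⟨y, hy⟩ ?_
    refine measure_mono_null ?_ h0
    intro z hz
    change ∑ i, v i * sg u w z i ≠ 0 at hz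
    rw [mem_compl_iff]
    intro h1
    have h2 : ENNReal.ofReal (‖∑ i, v i * sg u w z i‖ ^ (2 / N : ℝ)) = 0 := h1
    rw [ENNReal.ofReal_eq_zero] at h2
    have h3 : 0 < ‖∑ i, v i * sg u w z i‖ ^ (2 / N : ℝ) :=
      Real.rpow_pos_of_pos (norm_pos_iff.mpr hz) _
    linarith
  cont v := by
    have h1 : Continuous fun w => Phi N u w v := S.cont.comp (Continuous.prodMk_left v)
    have h2 : Continuous fun w => (Phi N u w v).toReal :=
      ENNReal.continuousOn_toReal.comp_continuous h1 fun w => S.fin w v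
    refine h2.congr fun w => ?_
    rw [integral_fmu]
    have hc := cont_lc (u := u) w v
    have hm : AEStronglyMeasurable
        (fun y : R.Fib w => ‖∑ i, v i * sg u w y i‖ ^ (2 / N : ℝ)) (nu R w) :=
      (hc.norm.measurable.pow_const _).aestronglyMeasurable
    exact (integral_eq_lintegral_of_nonneg_ae
      (Eventually.of_forall fun y => by positivity) hm).symm

variable (S : SatFam R N u)

lemma lnF_mu (w : R.ML.Pts) : (lnF S).μ w = fmu R w := rfl


include S in
lemma two_le : 2 ≤ N := by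
  have := S.N_ge
  omega

/-- `Φ` -/
theorem lnF_Phi (w : R.ML.Pts) (v : Fin s → ℂ) : (lnF S).Phi w v = (Phi N u w v).toReal := by
  have h1 := ofReal_Phi (lnF S) (two_le S) w v
  have h2 : ∫⁻ y, ENNReal.ofReal (‖∑ i, v i * (lnF S).σ i y‖ ^ (2 / N : ℝ)) ∂((lnF S).μ w) =
      Phi N u w v := by
    rw [lnF_mu, lintegral_fmu]
    rfl
  rw [h2] at h1
  rw [← h1, ENNReal.toReal_ofReal (Phi_nonneg (lnF S) w v)]

theorem ofReal_lnF_Phi (w : R.ML.Pts) (v : Fin s → ℂ) :
    ENNReal.ofReal ((lnF S).Phi w v) = Phi N u w v := by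
  rw [lnF_Phi, ENNReal.ofReal_toReal (S.fin w v)]

/-- `D` -/
theorem lnF_DDe (w : R.ML.Pts) :
    DetB_606.DD ((lnF S).μ w) (2 / N) (lnF S).σ = DN N u w := by
  unfold DetB_606.DD
  have h1 : (Measure.pi fun _ : Fin s => (lnF S).μ w) =
      (Measure.pi fun _ : Fin s => nu R w).map fun x i => RMdl.Fib.val R (x i) := by
    have hsf : SigmaFinite (Measure.map (RMdl.Fib.val R) (nu R w)) := sigmaFinite_fmu R w
    have := Measure.pi_map_pi (μ := fun _ : Fin s => nu R w)
      (f := fun _ : Fin s => (RMdl.Fib.val R (w := w) : R.Fib w → R.MK.Pts))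
      (fun _ => (measurableEmbedding_val R w).measurable.aemeasurable)
    exact this.symm
  have hm : Measurable fun x : Fin s → R.MK.Pts =>
      ‖(Matrix.of fun i j => (lnF S).σ i (x j)).det‖ₑ ^ (2 / N : ℝ) :=
    (DetB_606.measurable_det (lnF S).meas).enorm.pow_const _
  have hv : Measurable fun (x : Fin s → R.Fib w) i => RMdl.Fib.val R (x i) :=
    measurable_pi_lambda _ fun i =>
      (measurableEmbedding_val R w).measurable.comp (measurable_pi_apply i)
  rw [h1, lintegral_map hm hv]
  unfold DN DD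
  refine lintegral_congr fun x => ?_
  have h2 : (Matrix.of fun i j => (lnF S).σ i (RMdl.Fib.val R (x j))).det =
      (Matrix.of fun j : Fin s => sg u w (x j)).det := by
    rw [← Matrix.det_transpose]
    rfl
  rw [h2, ← ofReal_norm, ENNReal.ofReal_rpow_of_nonneg (norm_nonneg _)
    (p_pos (two_le S)).le]

theorem lnF_DD (w : R.ML.Pts) : (lnF S).DD w = (DN N u w).toReal := by
  unfold LN.DD
  rw [lnF_DDe]


end Crest.Agent.R276.LNf_333
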