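import Crest.Agent.R276.PackB_454
import Crest.Agent.R276.HsC_817
import Crest.Agent.R266.Osgood
import Crest.Agent.R276.HsD_817

-- ▼ part R276/LocA_454
section

/-!
# R276, IPC-STEP (helper454): LOC, part A

`Pieces` : for every `s` a Hilbert space `Lh s` with the data of 817's `HsB` (`Fix`, `Types`), a class
space `W s` with lattice and near-diagonal transports `τ`, and near every `z` trivialisations
`T x : Lh (σ x) → Lh z` under which the types become a `HsC.Family`.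
`Pieces.hfam : HFam m S n`.
-/

set_option autoImplicit false

noncomputable section

open Set Filter Topology MeasureTheory Matrix
open scoped ContDiff
open Crest.Agent.R271.Ho51
open Crest.Agent.R276.Ipc735 Crest.Agent.R276.Lat_348 Crest.Agent.R276.Flag_454
open Crest.Agent.R276.HsB_817 Crest.Agent.R276.HsC_817

namespace Crest.Agent.R276.Step_454

local notation "⟪" x ", " y "⟫" => inner ℂ x y

/-- families of Hilbert spaces with class spaces -/
structure Pieces (m : ℕ) (S : Type) [TopologicalSpace S] [RDom m S] (n : ℕ) where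
  /-- class space (`H¹` parabolic of the fibre) -/
  W : S → Type
  [wn : ∀ s, NormedAddCommGroup (W s)]
  [ws : ∀ s, NormedSpace ℂ (W s)]
  /-- `L²` forms on the fibre -/
  Lh : S → Type
  [ln : ∀ s, NormedAddCommGroup (Lh s)]
  [li : ∀ s, InnerProductSpace ℂ (Lh s)]
  [lc : ∀ s, CompleteSpace (Lh s)]
  D : ∀ s, Fix (Lh s) (W s)
  π : ∀ s, ℕ → Lh s →L[ℂ] Lh s
  ty : ∀ s, ∃ c, Types (D s) n (π s) c
  /-- the lattice -/
  L : ∀ s, AddSubgroup (W s)
  lat : ∀ s, IsCLat (L s)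
  /-- transports -/
  τ : ∀ s s', W s' →ₗ[ℂ] W s
  idt : ∀ s v, τ s s v = v
  coc : ∀ z, ∃ U ∈ 𝓝 z, ∀ s ∈ U, ∀ s' ∈ U, ∀ s'' ∈ U, ∀ v, τ s s' (τ s' s'' v) = τ s s'' v
  int : ∀ z, ∃ U ∈ 𝓝 z, ∀ s ∈ U, ∀ s' ∈ U, ∀ v ∈ L s', τ s s' v ∈ L s

attribute [instance] Pieces.wn Pieces.ws Pieces.ln Pieces.li Pieces.lc

namespace Pieces

variable {m n : ℕ} {S : Type} [TopologicalSpace S] [RDom m S] (A : Pieces m S n)

/-- local trivialisation at `z` (everything in the chart `σ = (ch z).symm`) -/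
structure Triv (z : S) where
  U : Set (Fin m → ℂ)
  op : IsOpen U
  mem : cp z ∈ U
  /-- the trivialisation -/
  T : ∀ x : Fin m → ℂ, A.Lh ((ch z).symm x) →L[ℂ] A.Lh z
  bij : ∀ x ∈ U, Function.Bijective (T x)
  form : ∀ x ∈ U, ∀ u v, ⟪(A.D z).β (T x u), T x v⟫ = ⟪(A.D ((ch z).symm x)).β u, v⟫
  zc : ∀ x ∈ U, ∀ u, T x u ∈ (A.D z).Zc ↔ u ∈ (A.D ((ch z).symm x)).Zc
  cl : ∀ x ∈ U, ∀ u ∈ (A.D ((ch z).symm x)).Zc,
    (A.D z).clL (T x u) = A.τ z ((ch z).symm x) ((A.D ((ch z).symm x)).clL u)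
  /-- the types on the fixed space `Lh z` -/
  π' : (Fin m → ℂ) → ℕ → A.Lh z →L[ℂ] A.Lh z
  inter : ∀ x ∈ U, ∀ P ≤ n, ∀ u, π' x P (T x u) = T x (A.π ((ch z).symm x) P u)
  fam : Family (A.D z) n π' U

instance (s : S) : FiniteDimensional ℂ (A.W s) := (A.lat s).finiteDimensional

/-- the flat form -/
def B (s : S) : A.W s →ₗ⋆[ℂ] A.W s →ₗ[ℂ] ℂ :=
  LinearMap.mk₂'ₛₗ (starRingEnd ℂ) (RingHom.id ℂ) (fun u v => (A.D s).SW u v)
    (fun a b w => (A.D s).SW_add_left w a b)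
    (fun r a w => by simp [Fix.SW, mul_comm])
    (fun w a b => (A.D s).SW_add_right w a b)
    (fun r w a => (A.D s).SW_smul_right w a r)

@[simp] lemma B_apply (s : S) (u v : A.W s) : A.B s u v = (A.D s).SW u v := rfl

/-- the filtration -/
def F (s : S) (p : ℕ) : Submodule ℂ (A.W s) := HsB_817.F (A.D s) n (A.π s) p

variable {A}

namespace Triv

variable {z : S} (t : A.Triv z)

lemma qop_T {x : Fin m → ℂ} (hx : x ∈ t.U) (P : ℕ) (u : A.Lh ((ch z).symm x)) :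
    qop n (t.π' x) P (t.T x u) = t.T x (qop n (A.π ((ch z).symm x)) P u) := by
  rw [qop_apply, qop_apply, map_sum]
  refine Finset.sum_congr rfl fun Q hQ => t.inter x hx Q ?_ u
  have := (Finset.mem_Ico.1 hQ).2
  omega

/-- transport of the filtration -/
lemma F_eq {x : Fin m → ℂ} (hx : x ∈ t.U) (P : ℕ) :
    HsB_817.F (A.D z) n (t.π' x) P = (A.F ((ch z).symm x) P).map (A.τ z ((ch z).symm x)) := by
  ext w
  rw [mem_F, Submodule.mem_map]
  constructor
  · rintro ⟨v, hv, hq, rfl⟩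
    obtain ⟨u, rfl⟩ := (t.bij x hx).2 v
    have hu := (t.zc x hx u).1 hv
    rw [t.qop_T hx] at hq
    have hq' := (t.bij x hx).1 hq
    exact ⟨(A.D _).clL u, mem_F.2 ⟨u, hu, hq', rfl⟩, (t.cl x hx u hu).symm⟩
  · rintro ⟨w, hw, rfl⟩
    obtain ⟨u, hu, hq, rfl⟩ := mem_F.1 hw
    exact ⟨t.T x u, (t.zc x hx u).2 hu, by rw [t.qop_T hx, hq], t.cl x hx u hu⟩

lemma clL_surj (s : S) (w : A.W s) : ∃ u ∈ (A.D s).Zc, (A.D s).clL u = w :=
  ⟨(A.D s).xL w, (A.D s).xL_mem w, (A.D s).clL_xL w⟩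

/-- the form is preserved by `τ z s` -/
lemma form_τ {x : Fin m → ℂ} (hx : x ∈ t.U) (a b : A.W ((ch z).symm x)) :
    (A.D z).SW (A.τ z ((ch z).symm x) a) (A.τ z ((ch z).symm x) b) =
      (A.D ((ch z).symm x)).SW a b := by
  obtain ⟨u, hu, rfl⟩ := clL_surj _ a
  obtain ⟨v, hv, rfl⟩ := clL_surj _ b
  rw [← t.cl x hx u hu, ← t.cl x hx v hv, (A.D z).SW_clL ((t.zc x hx u).2 hu) ((t.zc x hx v).2 hv),
    t.form x hx, (A.D _).SW_clL hu hv]

lemma ev_U : ∀ᶠ x in 𝓝 (cp z), x ∈ t.U := t.op.mem_nhds t.mem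

lemma ev_U' : ∀ᶠ s in 𝓝 z, cp s ∈ t.U ∧ (ch z).symm (cp s) = s :=
  ((cp_cont.continuousAt (x := z)).eventually t.ev_U).and (eventually_symm_cp z)

end Triv

/-- `c` is complex differentiable if all its linear functionals are analytic -/
lemma analytic_of_functionals {W : Type*} [NormedAddCommGroup W] [NormedSpace ℂ W]
    [FiniteDimensional ℂ W] {c : (Fin m → ℂ) → W} {x : Fin m → ℂ}
    (h : ∀ l : W →ₗ[ℂ] ℂ, AnalyticAt ℂ (fun y => l (c y)) x) : AnalyticAt ℂ c x := by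
  let b := Module.finBasis ℂ W
  have h1 : c = fun y => ∑ i, (b.coord i (c y)) • b i := by
    funext y
    exact (b.sum_repr (c y)).symm
  rw [h1]
  refine Finset.analyticAt_fun_sum _ fun i _ => ?_
  exact (h (b.coord i)).smul analyticAt_const

/-- **the Hodge family** -/
def hfam (A : Pieces m S n) (tr : ∀ z, Nonempty (A.Triv z)) : HFam m S n where
  W := A.W
  L := A.L
  lat := A.lat
  τ := A.τ
  idt := A.idt
  coc := A.coc
  int := A.int
  B := A.B
  herm s u v := by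
    rw [B_apply, B_apply, ← starRingEnd_apply, (A.D s).SW_symm]
  flat z := by
    obtain ⟨t⟩ := tr z
    obtain ⟨U₁, hU₁, h₁⟩ := A.coc z
    have h2 : ∀ᶠ s in 𝓝 z, ∀ u v, (A.D z).SW (A.τ z s u) (A.τ z s v) = (A.D s).SW u v := by
      filter_upwards [t.ev_U'] with s hs u v
      have := t.form_τ (x := cp s) hs.1
      rw [hs.2] at this
      exact this u v
    refine ⟨U₁ ∩ {s | ∀ u v, (A.D z).SW (A.τ z s u) (A.τ z s v) = (A.D s).SW u v},
      inter_mem hU₁ h2, fun s hs s' hs' u v => ?_⟩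
    rw [B_apply, B_apply]
    have hz := mem_of_mem_nhds hU₁
    rw [← hs.2 (A.τ s s' u) (A.τ s s' v), h₁ z hz s hs.1 s' hs'.1, h₁ z hz s hs.1 s' hs'.1]
    exact hs'.2 u v
  F := A.F
  top s := by
    obtain ⟨c, hc⟩ := A.ty s
    exact hc.F_zero
  bot s := by
    obtain ⟨c, hc⟩ := A.ty s
    exact hc.F_last (Nat.lt_succ_self n)
  anti s p := by
    obtain ⟨c, hc⟩ := A.ty s
    exact hc.F_anti (Nat.le_succ p)
  pos s p v hv h0 hne := by
    obtain ⟨c, hc⟩ := A.ty s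
    rcases Nat.lt_or_ge n p with hp | hp
    · exfalso
      have : A.F s p = ⊥ := hc.F_last hp
      rw [this] at hv
      exact hne ((Submodule.mem_bot ℂ).1 hv)
    · exact hc.flag_pos hp hv h0 hne
  hol z p := by
    obtain ⟨t⟩ := tr z
    obtain ⟨V, f, hVo, hzV, hVU, hf, hspan⟩ := t.fam.frames t.mem p
    refine ⟨_, fun i s => f i (cp s), ?_, ?_⟩
    · intro i l
      have h1 : AnalyticAt ℂ (fun x => l (f i x)) (cp z) := by
        refine Crest.Agent.R266.SCV.analyticOnNhd_of_differentiableOn hVo (fun x hx => ?_) _ hzV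
        exact ((LinearMap.toContinuousLinearMap l).differentiableAt.comp x
          ((hf i x hx).differentiableAt (hVo.mem_nhds hx))).differentiableWithinAt
      refine AnalyticAt.congr h1 ?_
      filter_upwards [eventually_cp_symm z] with x hx
      simp only [Function.comp_apply, hx]
    · have hV : ∀ᶠ s in 𝓝 z, cp s ∈ V :=
        (cp_cont.continuousAt (x := z)).eventually (hVo.mem_nhds hzV)
      filter_upwards [t.ev_U', hV] with s hs hsV
      obtain ⟨h1, h2⟩ := hspan (cp s) hsV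
      refine ⟨h1, ?_⟩
      have h3 := t.F_eq hs.1 p
      rw [hs.2] at h3
      rw [← h3, ← h2]
  trans z p c hc hmem j l hl := by
    obtain ⟨t⟩ := tr z
    have hcA : AnalyticAt ℂ (fun x => c ((ch z).symm x)) (cp z) :=
      analytic_of_functionals fun l => hc l
    have hmem' : ∀ᶠ x in 𝓝 (cp z), c ((ch z).symm x) ∈ HsB_817.F (A.D z) n (t.π' x) (p + 1) := by
      filter_upwards [eventually_symm hmem, t.ev_U] with x hx hxU
      rw [t.F_eq hxU]
      exact hx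
    have key : ∀ v, fderiv ℂ (fun x => c ((ch z).symm x)) (cp z) v ∈
        HsB_817.F (A.D z) n (t.π' (cp z)) p := fun v =>
      t.fam.deriv_mem t.mem p hmem' hcA.differentiableAt v
    have hF0 : HsB_817.F (A.D z) n (t.π' (cp z)) p = A.F z p := by
      rw [t.F_eq t.mem, symm_cp']
      have : A.τ z z = LinearMap.id := LinearMap.ext (A.idt z)
      rw [this, Submodule.map_id]
    rw [dz, D_eq (isCh_ch z) (mem_ch z)]
    have h1 : DifferentiableAt ℂ ((fun s => l (c s)) ∘ (ch z).symm) (cp z) :=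
      AnalyticAt.differentiableAt (hc l)
    rw [wz_of_complex h1]
    have h2 : HasFDerivAt ((fun s => l (c s)) ∘ (ch z).symm)
        ((LinearMap.toContinuousLinearMap l).comp (fderiv ℂ (fun x => c ((ch z).symm x)) (cp z)))
        (cp z) :=
      (LinearMap.toContinuousLinearMap l).hasFDerivAt.comp (cp z)
        hcA.differentiableAt.hasFDerivAt
    rw [h2.fderiv]
    have h3 := key (Pi.single j 1)
    rw [hF0] at h3
    exact hl _ h3

end Pieces

end Crest.Agent.R276.Step_454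
end
end

-- ▼ part R276/LocB_454

/-!
# R276, IPC-STEP (helper454): LOC, part B

`TopPieces` : the top piece in terms of `L²` elements.  `TopPieces.topData : TopData Q V (A.hfam tr)`.
`ActPieces` : the action of the automorphisms; `TopPieces.locStep : LocStep Q V`.
-/

set_option autoImplicit false

noncomputable section

open Set Filter Topology MeasureTheory Matrix
open scoped ContDiff
open Crest.Agent.R271.Ho51
open Crest.Agent.R276.Ipc735 Crest.Agent.R276.Lat_348 Crest.Agent.R276.Flag_454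
open Crest.Agent.R276.HsB_817 Crest.Agent.R276.HsC_817 Crest.Agent.R276.HsD_817

namespace Crest.Agent.R276.Step_454

local notation "⟪" x ", " y "⟫" => inner ℂ x y

/-- linear forms on `W` are given by the flat form -/
lemma exists_SW {L W : Type*} [NormedAddCommGroup L] [InnerProductSpace ℂ L]
    [NormedAddCommGroup W] [NormedSpace ℂ W] [CompleteSpace L] [FiniteDimensional ℂ W]
    {D : Fix L W} {n : ℕ} {π : ℕ → L →L[ℂ] L} {c : ℝ} (T : Types D n π c) (l : W →ₗ[ℂ] ℂ) :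
    ∃ w, ∀ v, l v = D.SW w v := by
  let B : W →ₗ⋆[ℂ] (W →ₗ[ℂ] ℂ) :=
    LinearMap.mk₂'ₛₗ (starRingEnd ℂ) (RingHom.id ℂ) (fun u v => D.SW u v)
      (fun a b w => D.SW_add_left w a b)
      (fun r a w => by simp [Fix.SW, mul_comm])
      (fun w a b => D.SW_add_right w a b)
      (fun r w a => D.SW_smul_right w a r)
  have hB : ∀ u v, B u v = D.SW u v := fun _ _ => rfl
  -- the range of B is a subspace of the dual with zero annihilator
  let R : Submodule ℂ (Module.Dual ℂ W) :=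
    { carrier := Set.range B
      add_mem' := by
        rintro _ _ ⟨a, rfl⟩ ⟨b, rfl⟩
        exact ⟨a + b, map_add B a b⟩
      zero_mem' := ⟨0, map_zero B⟩
      smul_mem' := by
        rintro c _ ⟨a, rfl⟩
        exact ⟨(starRingEnd ℂ) c • a, by rw [map_smulₛₗ, Complex.conj_conj]⟩ }
  have hR : R = ⊤ := by
    have h1 : R.dualCoannihilator = ⊥ := by
      rw [eq_bot_iff]
      intro v hv
      rw [Submodule.mem_dualCoannihilator] at hv
      rw [Submodule.mem_bot]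
      exact T.SW_nondeg fun w' => hv (B w') ⟨w', rfl⟩
    have h2 := Subspace.dualCoannihilator_dualAnnihilator_eq (W := R)
    rw [h1, Submodule.dualAnnihilator_bot] at h2
    exact h2.symm
  have hl : l ∈ R := by rw [hR]; exact Submodule.mem_top
  obtain ⟨w, hw⟩ := hl
  exact ⟨w, fun v => by rw [← hB, hw]⟩

variable {m k N w : ℕ} {S : Type} [TopologicalSpace S] [RDom m S]

/-- the top piece -/
structure TopPieces (A : Pieces m S (w + 1)) (Q : Punc S k) (V : VHS (m + 1) (Tot Q) N w) where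
  /-- the element of `L²` represented by `f dx` -/
  emb : ∀ s, (ℂ → Fin N → ℂ) → A.Lh s
  add : ∀ s f g, (V.res s).Top f → (V.res s).Top g → emb s (f + g) = emb s f + emb s g
  smul : ∀ s (c : ℂ) f, (V.res s).Top f → emb s (c • f) = c • emb s f
  zc : ∀ s f, (V.res s).Top f → emb s f ∈ (A.D s).Zc
  ty : ∀ s f, (V.res s).Top f → A.π s (w + 1) (emb s f) = emb s f
  surj : ∀ s, ∀ u ∈ (A.D s).Zc, A.π s (w + 1) u = u → ∃ f, (V.res s).Top f ∧ emb s f = u
  norm : ∀ s f, (V.res s).Top f → (-1 : ℝ) ^ (w + 1) * (⟪(A.D s).β (emb s f), emb s f⟫).re =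
    ∫ z in ((Q.A s : Set ℂ)ᶜ), (V.res s).nsq f z
  hol : ∀ z, ∃ t : A.Triv z, ∀ f : S → ℂ → Fin N → ℂ, (∀ᶠ s in 𝓝 z, (V.res s).Top (f s)) →
    (∀ᶠ s in 𝓝 z, HolFib V f s) → ∀ v : A.W z, ∃ ζ ∈ (A.D z).Zc, (A.D z).clL ζ = v ∧
      AnalyticAt ℂ (fun x => ⟪(A.D z).β ζ, t.T x (emb ((ch z).symm x) (f ((ch z).symm x)))⟫) (cp z)
  hol' : ∀ z x₁ (hx : x₁ ∉ Q.A z), ∃ t : A.Triv z, ∀ f : S → ℂ → Fin N → ℂ,
    (∀ᶠ s in 𝓝 z, (V.res s).Top (f s)) →
    (∀ᶠ x in 𝓝 (cp z), DifferentiableAt ℂ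
      (fun x => t.T x (emb ((ch z).symm x) (f ((ch z).symm x)))) x) →
    HolAt (lV V.P (sec f) (Tot.mk Q z x₁ hx)) (Tot.mk Q z x₁ hx)

namespace TopPieces

variable {A : Pieces m S (w + 1)} {Q : Punc S k} {V : VHS (m + 1) (Tot Q) N w}
  (T : TopPieces A Q V)

/-- the class of `f dx` -/
def tc (s : S) (f : ℂ → Fin N → ℂ) : A.W s := (A.D s).clL (T.emb s f)

lemma tc_def (s : S) (f : ℂ → Fin N → ℂ) : T.tc s f = (A.D s).clL (T.emb s f) := rfl

lemma surj_aux (s : S) (v : A.W s) (hv : v ∈ HsB_817.F (A.D s) (w + 1) (A.π s) (w + 1)) :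
    ∃ f, (V.res s).Top f ∧ T.tc s f = v := by
  rw [mem_F_top] at hv
  obtain ⟨u, hu, hty, rfl⟩ := hv
  obtain ⟨f, hf, rfl⟩ := T.surj s u hu hty
  exact ⟨f, hf, rfl⟩

lemma hol_aux (s₀ : S) (f : S → ℂ → Fin N → ℂ) (hf : ∀ᶠ s in 𝓝 s₀, (V.res s).Top (f s))
    (hh : ∀ᶠ s in 𝓝 s₀, HolFib V f s) (l : A.W s₀ →ₗ[ℂ] ℂ) :
    HolAt (fun s => l (A.τ s₀ s (T.tc s (f s)))) s₀ := by
  obtain ⟨t, ht⟩ := T.hol s₀
  obtain ⟨c, hc⟩ := A.ty s₀
  obtain ⟨v, hv⟩ := exists_SW hc l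
  obtain ⟨ζ, hζ, hcl, han⟩ := ht f hf hh v
  refine AnalyticAt.congr han ?_
  filter_upwards [t.ev_U, eventually_symm hf] with x hx hfx
  have h1 := t.cl x hx _ (T.zc _ _ hfx)
  have h2 := (t.zc x hx _).2 (T.zc _ _ hfx)
  show _ = l (A.τ s₀ ((ch s₀).symm x) (T.tc ((ch s₀).symm x) (f ((ch s₀).symm x))))
  rw [hv, T.tc_def, ← h1, ← hcl, (A.D s₀).SW_clL hζ h2]

lemma hol'_aux (s₀ : S) (f : S → ℂ → Fin N → ℂ) (hf : ∀ᶠ s in 𝓝 s₀, (V.res s).Top (f s))
    (hh : ∀ l : A.W s₀ →ₗ[ℂ] ℂ, HolAt (fun s => l (A.τ s₀ s (T.tc s (f s)))) s₀) :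
    ∀ᶠ s in 𝓝 s₀, HolFib V f s := by
  -- the class in the fixed space `W s₀`, in the chart at `s₀`
  set c : S → A.W s₀ := fun s => A.τ s₀ s (T.tc s (f s)) with hc
  have hcA : AnalyticAt ℂ (fun x => c ((ch s₀).symm x)) (cp s₀) :=
    Pieces.analytic_of_functionals fun l => hh l
  have hcE : ∀ᶠ s in 𝓝 s₀, AnalyticAt ℂ (fun x => c ((ch s₀).symm x)) (cp s) :=
    (cp_cont.continuousAt (x := s₀)).eventually hcA.eventually_analyticAt
  obtain ⟨U₀, hU₀, hcoc⟩ := A.coc s₀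
  have hU₀' : ∀ᶠ s in 𝓝 s₀, U₀ ∈ 𝓝 s := eventually_mem_nhds_iff.2 hU₀
  have hsrc : ∀ᶠ s in 𝓝 s₀, s ∈ (ch s₀).source := (ch s₀).open_source.mem_nhds (mem_ch s₀)
  filter_upwards [hcE, hf.eventually_nhds, hU₀', hsrc] with z hz hfz hUz hsz
  intro q hq
  obtain ⟨⟨q1, x₁⟩, hx₁⟩ := q
  obtain rfl : q1 = z := hq
  obtain ⟨t, ht⟩ := T.hol' q1 x₁ hx₁
  refine ht f hfz ?_
  -- the class seen at `q1`
  have hs₀ : s₀ ∈ U₀ := mem_of_mem_nhds hU₀
  have hq1 : q1 ∈ U₀ := mem_of_mem_nhds hUz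
  have h1 : ∀ᶠ s in 𝓝 q1, A.τ q1 s (T.tc s (f s)) = A.τ q1 s₀ (c s) := by
    filter_upwards [hUz] with s hs
    exact (hcoc q1 hq1 s₀ hs₀ s hs _).symm
  -- change of chart
  have h2 : (fun x => c ((ch q1).symm x)) =ᶠ[𝓝 (cp q1)] fun x => c ((ch s₀).symm x) := by
    have h3 : ∀ᶠ s in 𝓝 q1, (ch s₀).symm (cp s) = s := by
      filter_upwards [(ch s₀).open_source.mem_nhds hsz] with s hs
      have := (isCh_ch s₀).symm_cp hs
      exact this
    filter_upwards [eventually_symm h3, eventually_cp_symm q1] with x hx hx'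
    rw [hx'] at hx
    rw [hx]
  have h4 : AnalyticAt ℂ (fun x => c ((ch q1).symm x)) (cp q1) := hz.congr h2.symm
  have h5 : AnalyticAt ℂ (fun x => A.τ q1 s₀ (c ((ch q1).symm x))) (cp q1) :=
    ((LinearMap.toContinuousLinearMap (A.τ q1 s₀)).analyticAt _).comp h4
  have h6 : ∀ᶠ x in 𝓝 (cp q1), AnalyticAt ℂ
      (fun x => A.τ q1 ((ch q1).symm x) (T.tc ((ch q1).symm x) (f ((ch q1).symm x)))) x := by
    have h7 := h5.congr ((eventually_symm h1).mono fun x hx => hx.symm)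
    exact h7.eventually_analyticAt
  have hfx := (eventually_symm hfz).eventually_nhds
  have hU := (t.ev_U).eventually_nhds
  filter_upwards [h6, hfx, hU] with x hx hfx hUx
  have hxU : x ∈ t.U := hUx.self_of_nhds
  refine top_differentiableAt t.fam hxU ?_ ?_
  · filter_upwards [hfx, hUx] with y hy hyU
    refine ⟨(t.zc y hyU _).2 (T.zc _ _ hy), ?_⟩
    rw [t.inter y hyU (w + 1) le_rfl, T.ty _ _ hy]
  · refine hx.differentiableAt.congr_of_eventuallyEq ?_
    filter_upwards [hfx, hUx] with y hy hyU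
    rw [t.cl y hyU _ (T.zc _ _ hy)]
    rfl

/-- `TopData` from the pieces -/
def topData (tr : ∀ z, Nonempty (A.Triv z)) : TopData Q V (A.hfam tr) where
  tc := T.tc
  add s f g hf hg := by
    show (A.D s).clL (T.emb s (f + g)) = _
    rw [T.add s f g hf hg, map_add]
    rfl
  smul s c f hf := by
    show (A.D s).clL (T.emb s (c • f)) = _
    rw [T.smul s c f hf, map_smul]
    rfl
  mem s f hf := by
    show T.tc s f ∈ HsB_817.F (A.D s) (w + 1) (A.π s) (w + 1)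
    rw [mem_F_top]
    exact ⟨T.emb s f, T.zc s f hf, T.ty s f hf, rfl⟩
  surj s v hv := T.surj_aux s v hv
  norm s f hf := by
    show (-1 : ℝ) ^ (w + 1) * ((A.D s).SW (T.tc s f) (T.tc s f)).re = _
    rw [T.tc_def, (A.D s).SW_clL (T.zc s f hf) (T.zc s f hf)]
    exact T.norm s f hf
  hol s₀ f hf hh l := T.hol_aux s₀ f hf hh l
  hol' s₀ f hf hh := T.hol'_aux s₀ f hf hh

end TopPieces

/-- the action of the automorphisms -/
structure ActPieces {A : Pieces m S (w + 1)} {Q : Punc S k} {V : VHS (m + 1) (Tot Q) N w}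
    (T : TopPieces A Q V) (Γ : Type) [Group Γ] (ρ : Act V Γ) where
  u : Γ → ∀ s, A.W s →ₗ[ℂ] A.W s
  one : ∀ s v, u 1 s v = v
  mul : ∀ g h s v, u (g * h) s v = u g s (u h s v)
  int : ∀ g s, ∀ v ∈ A.L s, u g s v ∈ A.L s
  flat : ∀ g z, ∃ U ∈ 𝓝 z, ∀ s ∈ U, ∀ s' ∈ U, ∀ v, A.τ s s' (u g s' v) = u g s (A.τ s s' v)
  U : Γ → ∀ s, A.Lh s →L[ℂ] A.Lh s
  form : ∀ g s a b, ⟪(A.D s).β (U g s a), U g s b⟫ = ⟪(A.D s).β a, b⟫
  zc : ∀ g s, ∀ a ∈ (A.D s).Zc, U g s a ∈ (A.D s).Zc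
  cl : ∀ g s, ∀ a ∈ (A.D s).Zc, (A.D s).clL (U g s a) = u g s ((A.D s).clL a)
  ty : ∀ g s, ∀ P ≤ w + 1, ∀ a, A.π s P (U g s a) = U g s (A.π s P a)
  emb : ∀ g s f, (V.res s).Top f →
    T.emb s (fun x => rM Q (fun q => cm (ρ.ρ g q)) s x *ᵥ f x) = U g s (T.emb s f)

namespace ActPieces

variable {A : Pieces m S (w + 1)} {Q : Punc S k} {V : VHS (m + 1) (Tot Q) N w}
  {T : TopPieces A Q V} {Γ : Type} [Group Γ] {ρ : Act V Γ} (G : ActPieces T Γ ρ)

lemma presB_aux (g : Γ) (s : S) (a b : A.W s) :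
    (A.D s).SW (G.u g s a) (G.u g s b) = (A.D s).SW a b := by
  obtain ⟨x, hx, rfl⟩ := Pieces.Triv.clL_surj (A := A) s a
  obtain ⟨y, hy, rfl⟩ := Pieces.Triv.clL_surj (A := A) s b
  rw [← G.cl g s x hx, ← G.cl g s y hy, (A.D s).SW_clL (G.zc g s x hx) (G.zc g s y hy),
    G.form, (A.D s).SW_clL hx hy]

lemma presF_aux (g : Γ) (s : S) (p : ℕ) (v : A.W s)
    (hv : v ∈ HsB_817.F (A.D s) (w + 1) (A.π s) p) :
    G.u g s v ∈ HsB_817.F (A.D s) (w + 1) (A.π s) p := by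
  rw [mem_F] at hv ⊢
  obtain ⟨x, hx, hq, rfl⟩ := hv
  refine ⟨G.U g s x, G.zc g s x hx, ?_, G.cl g s x hx⟩
  conv_rhs => rw [← hq]
  rw [qop_apply, qop_apply, map_sum]
  refine Finset.sum_congr rfl fun P hP => G.ty g s P ?_ x
  have := (Finset.mem_Ico.1 hP).2
  omega

/-- the action on the Hodge family -/
def gact (tr : ∀ z, Nonempty (A.Triv z)) : (A.hfam tr).GAct Γ where
  u := G.u
  one := G.one
  mul := G.mul
  int := G.int
  flat := G.flat
  presB g s a b := G.presB_aux g s a b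
  presF g s p v hv := G.presF_aux g s p v hv

end ActPieces

/-- **LOC from the pieces** -/
def locStep {A : Pieces m S (w + 1)} {Q : Punc S k} {V : VHS (m + 1) (Tot Q) N w}
    (T : TopPieces A Q V) (tr : ∀ z, Nonempty (A.Triv z))
    (act : ∀ (Γ : Type) [Group Γ] (ρ : Act V Γ), Nonempty (ActPieces T Γ ρ)) : LocStep Q V where
  H := A.hfam tr
  T := T.topData tr
  act Γ _ ρ := by
    obtain ⟨G⟩ := act Γ ρ
    refine ⟨G.gact tr, fun s g f hf => ?_⟩
    show (A.D s).clL (T.emb s _) = G.u g s ((A.D s).clL (T.emb s f))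
    rw [G.emb g s f hf, G.cl g s _ (T.zc s f hf)]

end Crest.Agent.R276.Step_454
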