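import Crest.Agent.R276.Top3f_279
import Crest.Agent.R276.DR_175

-- ▼ part R276/Top3g_279
section

/-!
# Row 276, IPC-TOP3 (helper279), part 7: the family `s ↦ H1par(C_s, V)` of a `VHS` on the total space

* `rC`, `rZ`, `iZ` : the standard representations of `GL_N(ℤ)` and the inclusion `ℤ^N → ℂ^N`;
* `Wf V s` : parabolic `H1` of the fibre over `s`; `tW V s s'` : transports; `LW V s` : integral classes;
* `tW_id`, `tW_coc`, `tW_int`, `tW_iso` : the fields `idt`, `coc`, `int` of helper454's `HFam`;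
* `uW` : action of the automorphisms (`Act V Γ`), `uW_one`, `uW_mul`, `uW_int`, `uW_flat`.
-/

set_option autoImplicit false
set_option linter.unusedSectionVars false

noncomputable section

open Set Filter Topology Matrix

namespace Crest.Agent.R276.Top3_279

open Crest.Agent.R271.Ho51 Crest.Agent.R276.Ipc735

section rep

variable {N : ℕ}

lemma cm_mul' (g h : GL (Fin N) ℤ) : cm (g * h) = cm g * cm h := by
  unfold cm
  have h1 : ((g * h : GL (Fin N) ℤ) : Matrix (Fin N) (Fin N) ℤ) =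
    (g : Matrix (Fin N) (Fin N) ℤ) * (h : Matrix (Fin N) (Fin N) ℤ) := rfl
  rw [h1]
  exact Matrix.map_mul (f := Int.castRingHom ℂ)

lemma cm_one' : cm (1 : GL (Fin N) ℤ) = 1 := by
  unfold cm
  have h1 : ((1 : GL (Fin N) ℤ) : Matrix (Fin N) (Fin N) ℤ) = 1 := rfl
  rw [h1]
  exact Matrix.map_one (fun a : ℤ => (a : ℂ)) Int.cast_zero Int.cast_one

/-- the standard complex representation -/
def rC (N : ℕ) : GL (Fin N) ℤ →* Module.End ℂ (Fin N → ℂ) where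
  toFun g := Matrix.mulVecLin (cm g)
  map_one' := by rw [cm_one', Matrix.mulVecLin_one]; rfl
  map_mul' g h := by rw [cm_mul', Matrix.mulVecLin_mul]; rfl

@[simp] lemma rC_apply (g : GL (Fin N) ℤ) (v : Fin N → ℂ) : rC N g v = cm g *ᵥ v := rfl

/-- the standard integral representation -/
def rZ (N : ℕ) : GL (Fin N) ℤ →* Module.End ℤ (Fin N → ℤ) where
  toFun g := Matrix.mulVecLin (g : Matrix (Fin N) (Fin N) ℤ)
  map_one' := by
    show Matrix.mulVecLin (1 : Matrix (Fin N) (Fin N) ℤ) = 1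
    rw [Matrix.mulVecLin_one]; rfl
  map_mul' g h := by
    show Matrix.mulVecLin ((g : Matrix (Fin N) (Fin N) ℤ) * (h : Matrix (Fin N) (Fin N) ℤ)) = _
    rw [Matrix.mulVecLin_mul]; rfl

@[simp] lemma rZ_apply (g : GL (Fin N) ℤ) (v : Fin N → ℤ) :
    rZ N g v = (g : Matrix (Fin N) (Fin N) ℤ) *ᵥ v := rfl

/-- the inclusion of the integral vectors -/
def iZ (N : ℕ) : (Fin N → ℤ) →+ (Fin N → ℂ) where
  toFun v i := (v i : ℂ)
  map_zero' := by ext i; simp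
  map_add' u v := by ext i; simp

@[simp] lemma iZ_apply (v : Fin N → ℤ) (i : Fin N) : iZ N v i = (v i : ℂ) := rfl

lemma iZ_r (g : GL (Fin N) ℤ) (v : Fin N → ℤ) : iZ N (rZ N g v) = rC N g (iZ N v) := by
  ext i
  simp only [iZ_apply, rZ_apply, rC_apply, cm, Matrix.mulVec, dotProduct, Matrix.map_apply]
  push_cast
  rfl

end rep

section fam

variable {m : ℕ} {S : Type*} [TopologicalSpace S] [RDom m S] {k : ℕ} {Q : Punc S k} {N w : ℕ}
variable (V : VHS (m + 1) (Tot Q) N w)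

lemma vndc : NDC V.P := V.ndc

/-- parabolic cohomology of the fibre over `s` -/
abbrev Wf (s : S) : Type _ := parF (rC N) V.P s

/-- integral classes -/
def LW (s : S) : AddSubgroup (Wf V s) where
  carrier := {a | ∃ b : HF (rZ N) V.P s, coefH (iZ N) iZ_r b = a.1}
  zero_mem' := ⟨0, by rw [map_zero]; rfl⟩
  add_mem' := by
    rintro a a' ⟨b, hb⟩ ⟨b', hb'⟩
    exact ⟨b + b', by rw [map_add, hb, hb']; rfl⟩
  neg_mem' := by
    rintro a ⟨b, hb⟩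
    exact ⟨-b, by rw [map_neg, hb]; rfl⟩

lemma mem_LW {s : S} {a : Wf V s} :
    a ∈ LW V s ↔ ∃ b : HF (rZ N) V.P s, coefH (iZ N) iZ_r b = a.1 := Iff.rfl

lemma mem_LW_iff {s : S} {a : Wf V s} :
    a ∈ LW V s ↔ ∃ (c : Fib Q s → Fib Q s → Fin N → ℤ) (hc : c ∈ Z1 (rZ N) (fP V.P s)),
      cls (rC N) (fun x y => iZ N (c x y)) (coef_mem (iZ N) iZ_r hc) = a.1 := by
  rw [mem_LW]
  constructor
  · rintro ⟨b, hb⟩
    obtain ⟨c, hc, rfl⟩ := cls_surj _ b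
    exact ⟨c, hc, by rw [← hb, coefH_cls]⟩
  · rintro ⟨c, hc, h⟩
    exact ⟨cls _ c hc, by rw [coefH_cls, h]⟩

variable [T2Space S]

lemma tau_par' {s s' : S} {v : HF (rC N) V.P s'} (hv : v ∈ parF (rC N) V.P s') :
    tau (rC N) (vndc V) s s' v ∈ parF (rC N) V.P s := by
  by_cases h : ∃ B, Good Q B ∧ s ∈ B ∧ s' ∈ B
  · obtain ⟨B, hB, hs, hs'⟩ := h
    exact tau_par (rC N) (vndc V) hB hs hs' hv
  · unfold tau
    rw [dif_neg h]
    exact Submodule.zero_mem _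

/-- the transports on parabolic cohomology -/
def tW (s s' : S) : Wf V s' →ₗ[ℂ] Wf V s :=
  (tau (rC N) (vndc V) s s').restrict (fun _ hv => tau_par' V hv)

@[simp] lemma tW_val (s s' : S) (v : Wf V s') :
    (tW V s s' v).1 = tau (rC N) (vndc V) s s' v.1 := rfl

theorem tW_id (s : S) (v : Wf V s) : tW V s s v = v :=
  Subtype.ext (tau_id (rC N) (vndc V) s v.1)

theorem tW_mul {B : Set S} (hB : Good Q B) {s s' s'' : S} (hs : s ∈ B) (hs' : s' ∈ B)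
    (hs'' : s'' ∈ B) (v : Wf V s'') : tW V s s' (tW V s' s'' v) = tW V s s'' v :=
  Subtype.ext (tau_mul (rC N) (vndc V) hB hs hs' hs'' v.1)

/-- field `coc` -/
theorem tW_coc (z : S) : ∃ U ∈ 𝓝 z, ∀ s ∈ U, ∀ s' ∈ U, ∀ s'' ∈ U, ∀ v,
    tW V s s' (tW V s' s'' v) = tW V s s'' v := by
  obtain ⟨B, hB, hG⟩ := exists_good_nhds Q z
  exact ⟨B, hB, fun s hs s' hs' s'' hs'' v => tW_mul V hG hs hs' hs'' v⟩

/-- the transports as isomorphisms -/
def tE {B : Set S} (hB : Good Q B) {s s' : S} (hs : s ∈ B) (hs' : s' ∈ B) :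
    Wf V s' ≃ₗ[ℂ] Wf V s :=
  LinearEquiv.ofLinearMap (tW V s s') (tW V s' s)
    (LinearMap.ext fun v => by
      rw [LinearMap.comp_apply, tW_mul V hB hs hs' hs, tW_id]; rfl)
    (LinearMap.ext fun v => by
      rw [LinearMap.comp_apply, tW_mul V hB hs' hs hs', tW_id]; rfl)

@[simp] lemma tE_apply {B : Set S} (hB : Good Q B) {s s' : S} (hs : s ∈ B) (hs' : s' ∈ B)
    (v : Wf V s') : tE V hB hs hs' v = tW V s s' v := rfl

theorem tW_int_good {B : Set S} (hB : Good Q B) {s s' : S} (hs : s ∈ B) (hs' : s' ∈ B)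
    {v : Wf V s'} (hv : v ∈ LW V s') : tW V s s' v ∈ LW V s := by
  obtain ⟨b, hb⟩ := hv
  refine ⟨tau (rZ N) (vndc V) s s' b, ?_⟩
  rw [coefH_tau (iZ N) iZ_r (vndc V) hB hs hs', hb]
  rfl

/-- field `int` -/
theorem tW_int (z : S) : ∃ U ∈ 𝓝 z, ∀ s ∈ U, ∀ s' ∈ U, ∀ v ∈ LW V s', tW V s s' v ∈ LW V s := by
  obtain ⟨B, hB, hG⟩ := exists_good_nhds Q z
  exact ⟨B, hB, fun s hs s' hs' v hv => tW_int_good V hG hs hs' hv⟩

section act

variable {V} {Γ : Type} [Group Γ] (ρ : Act V Γ)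

lemma act_one' (x : Tot Q) : ρ.ρ 1 x = 1 := by
  have h := ρ.mul 1 1 x
  rw [one_mul] at h
  exact left_eq_mul.1 h

lemma act_frame (g : Γ) : Frame V.P (fun x => x) (ρ.ρ g) V.P := by
  intro z
  obtain ⟨U, hU, h1, h2⟩ := (vndc V).near z
  have h3 : {y | V.P z y * ρ.ρ g y = ρ.ρ g z * V.P z y} ∈ 𝓝 z := ρ.flat g z
  have hz : z ∈ U := mem_of_mem_nhds hU
  refine ⟨U ∩ {y | V.P z y * ρ.ρ g y = ρ.ρ g z * V.P z y}, inter_mem hU h3,
    fun x hx y hy => ?_⟩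
  have e1 : ρ.ρ g x = (V.P z x)⁻¹ * ρ.ρ g z * V.P z x := by
    have := hx.2
    rw [mem_ofPred_eq] at this
    rw [mul_assoc, ← this]; group
  have e2 : ρ.ρ g y = (V.P z y)⁻¹ * ρ.ρ g z * V.P z y := by
    have := hy.2
    rw [mem_ofPred_eq] at this
    rw [mul_assoc, ← this]; group
  have e3 : V.P x y = (V.P z x)⁻¹ * V.P z y := by
    rw [← h2 z hz x hx.1, h1 x hx.1 z hz y hy.1]
  simp only []
  rw [e1, e2, e3]
  group

/-- the action of an automorphism on parabolic cohomology -/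
def uW (g : Γ) (s : S) : Wf V s →ₗ[ℂ] Wf V s :=
  (isoF (rC N) (act_frame ρ g) s).restrict (fun _ hv => isoF_par (rC N) (act_frame ρ g) s hv)

@[simp] lemma uW_val (g : Γ) (s : S) (v : Wf V s) :
    (uW ρ g s v).1 = isoF (rC N) (act_frame ρ g) s v.1 := rfl

theorem uW_one (s : S) (v : Wf V s) : uW ρ 1 s v = v := by
  apply Subtype.ext
  rw [uW_val]
  obtain ⟨c, hc, h⟩ := cls_surj (rC N) v.1
  rw [← h, isoF_cls, cls_eq_iff]
  refine ⟨0, fun z => ⟨univ, univ_mem, fun x _ y _ => ?_⟩⟩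
  simp only [act_one', map_one, Module.End.one_apply, Pi.zero_apply, map_zero, sub_zero, add_zero]

theorem uW_mul (g h : Γ) (s : S) (v : Wf V s) : uW ρ (g * h) s v = uW ρ g s (uW ρ h s v) := by
  apply Subtype.ext
  simp only [uW_val]
  obtain ⟨c, hc, h'⟩ := cls_surj (rC N) v.1
  rw [← h', isoF_cls, isoF_cls, isoF_cls, cls_eq_iff]
  refine ⟨0, fun z => ⟨univ, univ_mem, fun x _ y _ => ?_⟩⟩
  simp only [ρ.mul, map_mul, Module.End.mul_apply, Pi.zero_apply, map_zero, sub_zero, add_zero]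

theorem uW_int (g : Γ) (s : S) (v : Wf V s) (hv : v ∈ LW V s) : uW ρ g s v ∈ LW V s := by
  obtain ⟨b, hb⟩ := hv
  refine ⟨isoF (rZ N) (act_frame ρ g) s b, ?_⟩
  rw [coefH_isoF (iZ N) iZ_r (act_frame ρ g) s b, hb]
  rfl

theorem uW_flat_good (g : Γ) {B : Set S} (hB : Good Q B) {s s' : S} (hs : s ∈ B) (hs' : s' ∈ B)
    (v : Wf V s') : tW V s s' (uW ρ g s' v) = uW ρ g s (tW V s s' v) :=
  Subtype.ext (isoF_tau (rC N) (vndc V) (vndc V) (act_frame ρ g) hB hs hs' v.1).symm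

/-- field `flat` of `GAct` -/
theorem uW_flat (g : Γ) (z : S) : ∃ U ∈ 𝓝 z, ∀ s ∈ U, ∀ s' ∈ U, ∀ v,
    tW V s s' (uW ρ g s' v) = uW ρ g s (tW V s s' v) := by
  obtain ⟨B, hB, hG⟩ := exists_good_nhds Q z
  exact ⟨B, hB, fun s hs s' hs' v => uW_flat_good ρ g hG hs hs' v⟩

end act

end fam

end Crest.Agent.R276.Top3_279
end
end

-- ▼ part R276/Top3h_279

/-!
# Row 276, IPC-TOP3 (helper279), part 8: dictionary with helper175's cocycles on the plane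

* `rst s u` : restriction of `u : ℂ → ℂ → M` to the fibre over `s`; `exz c` : extension by zero.
* `rst_mem_iff` : `rst s u ∈ Z1` iff `CocOn (A s)ᶜ`; `rst_cob_iff`, `zeroOn_iff` : coboundaries.
* `cl V s u hu` : the class; `cl_mem_par_iff`, `cl_mem_par_iff_compact` : parabolic classes.
* `mem_LW_cl_iff` : integral classes.
-/

set_option autoImplicit false
set_option linter.unusedSectionVars false

noncomputable section

open Set Filter Topology Matrix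

namespace Crest.Agent.R276.Top3_279

open Crest.Agent.R271.Ho51 Crest.Agent.R276.Ipc735 Crest.Agent.R276.DR_175

variable {m : ℕ} {S : Type*} [TopologicalSpace S] [RDom m S] {k : ℕ} {Q : Punc S k} {N w : ℕ}

section general

variable {M : Type*} [AddCommGroup M]

/-- restriction to the fibre over `s` -/
def rst (s : S) (u : ℂ → ℂ → M) (x y : Fib Q s) : M := u x.1 y.1

open Classical in
/-- extension by zero -/
def exz {s : S} (c : Fib Q s → Fib Q s → M) (x y : ℂ) : M :=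
  if h : x ∉ Q.A s ∧ y ∉ Q.A s then c ⟨x, h.1⟩ ⟨y, h.2⟩ else 0

lemma exz_apply {s : S} (c : Fib Q s → Fib Q s → M) {x y : ℂ} (hx : x ∉ Q.A s)
    (hy : y ∉ Q.A s) : exz c x y = c ⟨x, hx⟩ ⟨y, hy⟩ := by
  unfold exz
  rw [dif_pos ⟨hx, hy⟩]

lemma rst_exz {s : S} (c : Fib Q s → Fib Q s → M) : rst s (exz c) = c := by
  funext x y
  exact exz_apply c x.2 y.2

lemma isOpen_compl (Q : Punc S k) (s : S) : IsOpen ((Q.A s : Set ℂ)ᶜ) :=
  (Q.A s).finite_toSet.isClosed.isOpen_compl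

lemma nhds_fib {s : S} (x : Fib Q s) : 𝓝 x = comap (Subtype.val : Fib Q s → ℂ) (𝓝 x.1) :=
  nhds_subtype_eq_comap

lemma preimage_nhds {s : S} (x : Fib Q s) {U : Set ℂ} (hU : U ∈ 𝓝 x.1) :
    (Subtype.val ⁻¹' U : Set (Fib Q s)) ∈ 𝓝 x := continuous_subtype_val.continuousAt.preimage_mem_nhds hU

lemma exists_nhds {s : S} (x : Fib Q s) {U : Set (Fib Q s)} (hU : U ∈ 𝓝 x) :
    ∃ W ∈ 𝓝 x.1, ∀ y ∈ W, ∃ hy : y ∉ Q.A s, (⟨y, hy⟩ : Fib Q s) ∈ U := by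
  rw [nhds_fib, mem_comap] at hU
  obtain ⟨W, hW, h⟩ := hU
  have hO : ((Q.A s : Set ℂ)ᶜ) ∈ 𝓝 x.1 := (isOpen_compl Q s).mem_nhds x.2
  exact ⟨W ∩ (Q.A s : Set ℂ)ᶜ, inter_mem hW hO, fun y hy => ⟨hy.2, h hy.1⟩⟩

end general

section res

variable {M : Type*} [AddCommGroup M]
variable (V : VHS (m + 1) (Tot Q) N w)

lemma rP_eq (s : S) (x y : Fib Q s) : rP Q V.P s x.1 y.1 = fP V.P s x y := by
  unfold rP
  rw [dif_pos ⟨x.2, y.2⟩]
  rfl

/-- dictionary for cocycles -/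
theorem rst_mem_iff (s : S) (u : ℂ → ℂ → Fin N → ℂ) :
    rst s u ∈ Z1 (rC N) (fP V.P s) ↔ CocOn ((Q.A s : Set ℂ)ᶜ) (rP Q V.P s) u := by
  constructor
  · intro h z hz
    obtain ⟨U, hU, h1⟩ := h ⟨z, hz⟩
    obtain ⟨W, hW, h2⟩ := exists_nhds _ hU
    refine ⟨W, hW, fun x hx y hy t ht => ?_⟩
    obtain ⟨hx', hx2⟩ := h2 x hx
    obtain ⟨hy', hy2⟩ := h2 y hy
    obtain ⟨ht', ht2⟩ := h2 t ht
    have h3 := h1 _ hx2 _ hy2 _ ht2
    have h4 := rP_eq V s ⟨x, hx'⟩ ⟨y, hy'⟩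
    simp only [] at h4
    rw [h4]
    exact h3.symm
  · intro h z
    obtain ⟨U, hU, h1⟩ := h z.1 z.2
    refine ⟨_, preimage_nhds z hU, fun x hx y hy t ht => ?_⟩
    have h3 := h1 _ hx _ hy _ ht
    rw [rP_eq V s x y] at h3
    exact h3.symm

/-- dictionary for coboundaries on an open subset -/
theorem zeroOn_iff {s : S} {u : ℂ → ℂ → Fin N → ℂ} (hu : rst s u ∈ Z1 (rC N) (fP V.P s))
    (U : Set ℂ) :
    ZeroOn (rC N) (cls (rC N) (rst s u) hu) {x : Fib Q s | x.1 ∈ U} ↔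
      CobOn (U ∩ (Q.A s : Set ℂ)ᶜ) (rP Q V.P s) u := by
  classical
  rw [zeroOn_cls_iff (fP_ndc (vndc V) s)]
  constructor
  · rintro ⟨f, hf⟩
    refine ⟨fun x => if h : x ∉ Q.A s then f ⟨x, h⟩ else 0, fun z hz => ?_⟩
    obtain ⟨U', hU', h1⟩ := hf ⟨z, hz.2⟩ hz.1
    obtain ⟨W, hW, h2⟩ := exists_nhds _ hU'
    refine ⟨W, hW, fun x hx y hy => ?_⟩
    obtain ⟨hx', hx2⟩ := h2 x hx
    obtain ⟨hy', hy2⟩ := h2 y hy
    have h3 := h1 _ hx2 _ hy2
    have h4 := rP_eq V s ⟨x, hx'⟩ ⟨y, hy'⟩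
    simp only [] at h4
    beta_reduce
    rw [h4, dif_pos hx', dif_pos hy']
    exact h3
  · rintro ⟨f, hf⟩
    refine ⟨fun x => f x.1, fun z hz => ?_⟩
    obtain ⟨U', hU', h1⟩ := hf z.1 ⟨hz, z.2⟩
    refine ⟨_, preimage_nhds z hU', fun x hx y hy => ?_⟩
    have h3 := h1 _ hx _ hy
    rw [rP_eq V s x y] at h3
    exact h3

/-- the class of a cocycle on the plane -/
def cl (s : S) (u : ℂ → ℂ → Fin N → ℂ) (hu : CocOn ((Q.A s : Set ℂ)ᶜ) (rP Q V.P s) u) :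
    HF (rC N) V.P s := cls (rC N) (rst s u) ((rst_mem_iff V s u).2 hu)

lemma cl_surj (s : S) (a : HF (rC N) V.P s) :
    ∃ (u : ℂ → ℂ → Fin N → ℂ) (hu : CocOn ((Q.A s : Set ℂ)ᶜ) (rP Q V.P s) u), cl V s u hu = a := by
  obtain ⟨c, hc, rfl⟩ := cls_surj _ a
  have hc' : rst s (exz c) ∈ Z1 (rC N) (fP V.P s) := by rw [rst_exz]; exact hc
  refine ⟨exz c, (rst_mem_iff V s _).1 hc', ?_⟩
  unfold cl
  congr 1
  exact rst_exz c

lemma zeroOn_cl_iff {s : S} {u : ℂ → ℂ → Fin N → ℂ}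
    {hu : CocOn ((Q.A s : Set ℂ)ᶜ) (rP Q V.P s) u} (U : Set ℂ) :
    ZeroOn (rC N) (cl V s u hu) {x : Fib Q s | x.1 ∈ U} ↔
      CobOn (U ∩ (Q.A s : Set ℂ)ᶜ) (rP Q V.P s) u :=
  zeroOn_iff V ((rst_mem_iff V s u).2 hu) U

lemma cl_eq_zero_iff {s : S} {u : ℂ → ℂ → Fin N → ℂ}
    {hu : CocOn ((Q.A s : Set ℂ)ᶜ) (rP Q V.P s) u} :
    cl V s u hu = 0 ↔ CobOn ((Q.A s : Set ℂ)ᶜ) (rP Q V.P s) u := by
  rw [← zeroOn_univ_iff]
  have h := zeroOn_cl_iff V (u := u) (hu := hu) univ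
  rw [univ_inter] at h
  rw [← h]
  have : {x : Fib Q s | x.1 ∈ (univ : Set ℂ)} = univ := by ext; simp
  rw [this]

lemma cl_add {s : S} {u u' : ℂ → ℂ → Fin N → ℂ}
    (hu : CocOn ((Q.A s : Set ℂ)ᶜ) (rP Q V.P s) u) (hu' : CocOn ((Q.A s : Set ℂ)ᶜ) (rP Q V.P s) u')
    (h : CocOn ((Q.A s : Set ℂ)ᶜ) (rP Q V.P s) (fun x y => u x y + u' x y)) :
    cl V s _ h = cl V s u hu + cl V s u' hu' := rfl

lemma cl_sub {s : S} {u u' : ℂ → ℂ → Fin N → ℂ}
    (hu : CocOn ((Q.A s : Set ℂ)ᶜ) (rP Q V.P s) u) (hu' : CocOn ((Q.A s : Set ℂ)ᶜ) (rP Q V.P s) u')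
    (h : CocOn ((Q.A s : Set ℂ)ᶜ) (rP Q V.P s) (fun x y => u x y - u' x y)) :
    cl V s _ h = cl V s u hu - cl V s u' hu' := rfl

lemma cl_smul {s : S} {u : ℂ → ℂ → Fin N → ℂ} (c : ℂ)
    (hu : CocOn ((Q.A s : Set ℂ)ᶜ) (rP Q V.P s) u)
    (h : CocOn ((Q.A s : Set ℂ)ᶜ) (rP Q V.P s) (fun x y => c • u x y)) :
    cl V s _ h = c • cl V s u hu := rfl

lemma cl_eq_iff {s : S} {u u' : ℂ → ℂ → Fin N → ℂ}
    {hu : CocOn ((Q.A s : Set ℂ)ᶜ) (rP Q V.P s) u}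
    {hu' : CocOn ((Q.A s : Set ℂ)ᶜ) (rP Q V.P s) u'} :
    cl V s u hu = cl V s u' hu' ↔
      CobOn ((Q.A s : Set ℂ)ᶜ) (rP Q V.P s) (fun x y => u x y - u' x y) := by
  have h : CocOn ((Q.A s : Set ℂ)ᶜ) (rP Q V.P s) (fun x y => u x y - u' x y) := by
    rw [← rst_mem_iff V s] at hu hu' ⊢
    exact Submodule.sub_mem _ hu hu'
  rw [← cl_eq_zero_iff V (hu := h), cl_sub V hu hu' h, sub_eq_zero]

/-- parabolic classes -/
theorem cl_mem_par_iff {s : S} {u : ℂ → ℂ → Fin N → ℂ}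
    {hu : CocOn ((Q.A s : Set ℂ)ᶜ) (rP Q V.P s) u} :
    cl V s u hu ∈ parF (rC N) V.P s ↔
      (∀ p ∈ Q.A s, ∃ U ∈ 𝓝 p, CobOn (U ∩ (Q.A s : Set ℂ)ᶜ) (rP Q V.P s) u) ∧
      ∃ r : ℝ, CobOn ({z | r < ‖z‖} ∩ (Q.A s : Set ℂ)ᶜ) (rP Q V.P s) u := by
  rw [mem_parF]
  refine and_congr ?_ ?_
  · refine forall₂_congr fun p _ => exists_congr fun U => and_congr_right fun _ => ?_
    exact zeroOn_cl_iff V U
  · refine exists_congr fun r => ?_
    exact zeroOn_cl_iff V {z | r < ‖z‖}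

end res



variable (V : VHS (m + 1) (Tot Q) N w)


/-- integral classes -/
theorem mem_LW_cl_iff {s : S} {a : Wf V s} :
    a ∈ LW V s ↔ ∃ (u : ℂ → ℂ → Fin N → ℂ) (hu : CocOn ((Q.A s : Set ℂ)ᶜ) (rP Q V.P s) u),
      (∀ x y, ∃ v : Fin N → ℤ, u x y = iZ N v) ∧ cl V s u hu = a.1 := by
  rw [mem_LW_iff]
  constructor
  · rintro ⟨c, hc, h⟩
    have hc' := coef_mem (iZ N) iZ_r hc
    have hc2 : rst s (exz fun x y => iZ N (c x y)) ∈ Z1 (rC N) (fP V.P s) := by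
      rw [rst_exz]; exact hc'
    refine ⟨exz fun x y => iZ N (c x y), (rst_mem_iff V s _).1 hc2, fun x y => ?_, ?_⟩
    · unfold exz
      split_ifs with h
      · exact ⟨_, rfl⟩
      · exact ⟨0, by rw [map_zero]⟩
    · rw [← h]
      unfold cl
      congr 1
      exact rst_exz _
  · rintro ⟨u, hu, h1, h2⟩
    choose c hc using h1
    have hz : rst s c ∈ Z1 (rZ N) (fP V.P s) := by
      intro z
      obtain ⟨U, hU, h3⟩ := (rst_mem_iff V s u).2 hu z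
      refine ⟨U, hU, fun x hx y hy t ht => ?_⟩
      have h4 := h3 x hx y hy t ht
      have hinj : Function.Injective (iZ N) := by
        intro a b hab
        funext i
        have := congrFun hab i
        simpa using this
      apply hinj
      rw [map_add, iZ_r]
      show iZ N (c x.1 t.1) = iZ N (c x.1 y.1) + rC N (fP V.P s x y) (iZ N (c y.1 t.1))
      rw [← hc, ← hc, ← hc]
      exact h4
    refine ⟨rst s c, hz, ?_⟩
    rw [← h2]
    unfold cl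
    congr 1
    funext x y
    exact (hc x.1 y.1).symm

end Crest.Agent.R276.Top3_279
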