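import Crest.Agent.R276.Lat_348
import Crest.Agent.R276.Top2b_937
import Crest.Agent.R276.DR_175
import Crest.Agent.R276.Top3h_279

-- ▼ part R276/Lat2_348
section

/-!
R276, leaf IPC-LAT, complement (helper348): the form asked for by helper937 (post 1112).

* `exists_int_basis` : `W`, `B` rational subspaces ⟹ there are finitely many integral vectors
  `w j ∈ W` whose classes are a `ℂ`-basis of `W / B`, and the coordinates of `x ∈ W` are integral iff
  `x` is congruent modulo `B` to an integral vector of `W`.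
* `exists_int_basis_cond` : the same for `W = {c | ∃ u, A c = P u}` and `B = range D`, for integral
  maps `A`, `P`, `D` (for example integer matrices acting on `I → ℂ` with `stdLat I`, see
  `mulVec_mem`).
-/

set_option autoImplicit false

namespace Crest.Agent.R276.Lat2_348

open Submodule Crest.Agent.R276.Lat_348

variable {E : Type*} [AddCommGroup E] [Module ℂ E] {L : AddSubgroup E}

theorem exists_int_basis (hL : IsCLat L) {W B : Submodule ℂ E} (hW : RatSub L W)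
    (hB : RatSub L B) :
    ∃ (n : ℕ) (w : Fin n → E), (∀ j, w j ∈ W) ∧ (∀ j, w j ∈ L) ∧
      (∀ x ∈ W, ∃! c : Fin n → ℂ, x - ∑ j, c j • w j ∈ B) ∧
      (∀ x ∈ W, ∀ c : Fin n → ℂ, x - ∑ j, c j • w j ∈ B →
        ((∃ l ∈ W, l ∈ L ∧ x - l ∈ B) ↔ ∀ j, ∃ m : ℤ, c j = m)) := by
  classical
  let B' : Submodule ℂ W := B.comap W.subtype
  have hlat := hL.quot hW hB B'.mkQ B'.mkQ_surjective (fun x => by
    rw [mkQ_apply, Quotient.mk_eq_zero]; rfl)
  obtain ⟨n, b, hb⟩ := hlat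
  have hmem : ∀ y : W ⧸ B', (∃ l : W, (l : E) ∈ L ∧ B'.mkQ l = y) ↔ ∀ j, ∃ m : ℤ, b.repr y j = m := by
    intro y
    rw [← mem_span_int_iff, ← Submodule.mem_toAddSubgroup, ← hb]
    constructor
    · rintro ⟨l, hl, rfl⟩; exact ⟨l, hl, rfl⟩
    · rintro ⟨l, hl, rfl⟩; exact ⟨l, hl, rfl⟩
  have hbj : ∀ j, ∃ l : W, (l : E) ∈ L ∧ B'.mkQ l = b j := by
    intro j
    rw [hmem]
    intro i
    rw [b.repr_self, Finsupp.single_apply]
    by_cases h : j = i
    · exact ⟨1, by simp [h]⟩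
    · exact ⟨0, by simp [h]⟩
  choose w hwL hwb using hbj
  have hkey : ∀ (x : W) (c : Fin n → ℂ),
      (x : E) - ∑ j, c j • (w j : E) ∈ B ↔ ∀ j, b.repr (B'.mkQ x) j = c j := by
    intro x c
    have h1 : (x : E) - ∑ j, c j • (w j : E) ∈ B ↔ B'.mkQ (x - ∑ j, c j • w j) = 0 := by
      rw [mkQ_apply, Quotient.mk_eq_zero]
      show _ ↔ W.subtype (x - ∑ j, c j • w j) ∈ B
      simp
    rw [h1, map_sub, map_sum, sub_eq_zero]
    have h2 : ∑ j, B'.mkQ (c j • w j) = ∑ j, c j • b j :=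
      Finset.sum_congr rfl fun j _ => by rw [map_smul, hwb]
    rw [h2]
    constructor
    · intro h j
      rw [h, b.repr_sum_self]
    · intro h
      rw [← b.sum_repr (B'.mkQ x)]
      exact Finset.sum_congr rfl fun j _ => by rw [h]
  refine ⟨n, fun j => (w j : E), fun j => (w j).2, hwL, ?_, ?_⟩
  · intro x hx
    refine ⟨fun j => b.repr (B'.mkQ ⟨x, hx⟩) j, (hkey ⟨x, hx⟩ _).2 fun j => rfl, ?_⟩
    intro c hc
    funext j
    exact ((hkey ⟨x, hx⟩ c).1 hc j).symm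
  · intro x hx c hc
    have h1 := (hkey ⟨x, hx⟩ c).1 hc
    have h2 := hmem (B'.mkQ ⟨x, hx⟩)
    simp only [h1] at h2
    rw [← h2]
    constructor
    · rintro ⟨l, hlW, hlL, hxl⟩
      refine ⟨⟨l, hlW⟩, hlL, ?_⟩
      rw [eq_comm, ← sub_eq_zero, ← map_sub, mkQ_apply, Quotient.mk_eq_zero]
      exact hxl
    · rintro ⟨l, hlL, hle⟩
      refine ⟨l, l.2, hlL, ?_⟩
      rw [eq_comm, ← sub_eq_zero, ← map_sub, mkQ_apply, Quotient.mk_eq_zero] at hle
      exact hle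

/-- Integer matrices act integrally. -/
theorem mulVec_mem {I J : Type*} [Fintype I] [Fintype J] (A : Matrix J I ℤ) {x : I → ℂ}
    (hx : x ∈ stdLat I) : Matrix.mulVec (A.map (Int.cast : ℤ → ℂ)) x ∈ stdLat J := by
  rw [mem_stdLat] at hx ⊢
  choose m hm using hx
  intro j
  refine ⟨∑ i, A j i * m i, ?_⟩
  simp [Matrix.mulVec, dotProduct, hm]

section One

variable {F : Type*} [AddCommGroup F] [Module ℂ F] {LF : AddSubgroup F}
  {G : Type*} [AddCommGroup G] [Module ℂ G] {LG : AddSubgroup G}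





end One

end Crest.Agent.R276.Lat2_348
end

-- ▼ part R276/Top2c_937
section

/-!
# R276, leaf TOP2 (helper937), part 3: the cover of the punctured plane, the ends
-/

set_option autoImplicit false
set_option linter.unusedSectionVars false

open Set Filter Topology MeasureTheory Matrix
open scoped ContDiff

namespace Crest.Agent.R276.Top2_937

open Ipc735

noncomputable section

variable {N : ℕ}

/-! ### exactness near an end -/

section ends

variable {P : ℂ → ℂ → GL (Fin N) ℤ} {ι : Type} [Finite ι] (D : Fam P ι) {M : Type} [Finite M]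
  (B : ℕ → M → Set ℂ)

/-- the pieces near an end -/
def Fam.piece (n : ℕ) (i : ι × M) : Set ℂ := D.W i.1 ∩ B n i.2

/-- two pieces meet arbitrarily near the end -/
def Fam.meet (i j : ι × M) : Prop := ∀ n, (D.piece B n i ∩ D.piece B n j).Nonempty

theorem Fam.exists_stable (hB : ∀ m, Antitone fun n => B n m) :
    ∃ n₀, ∀ n, n₀ ≤ n → ∀ i j, (D.piece B n i ∩ D.piece B n j).Nonempty ↔ D.meet B i j := by
  classical
  have h1 : ∀ i j, ∀ᶠ n in atTop, ((D.piece B n i ∩ D.piece B n j).Nonempty ↔ D.meet B i j) := by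
    intro i j
    by_cases h : D.meet B i j
    · exact Eventually.of_forall fun n => ⟨fun _ => h, fun _ => h n⟩
    · have h' := h
      rw [Fam.meet] at h'
      push Not at h'
      obtain ⟨n, hn⟩ := h'
      filter_upwards [eventually_ge_atTop n] with k hk
      refine ⟨fun h2 => ?_, fun h2 => absurd h2 h⟩
      exfalso
      have h3 : D.piece B k i ∩ D.piece B k j ⊆ D.piece B n i ∩ D.piece B n j :=
        inter_subset_inter (inter_subset_inter le_rfl (hB i.2 hk))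
          (inter_subset_inter le_rfl (hB j.2 hk))
      have h4 := h2.mono h3
      rw [hn] at h4
      exact Set.not_nonempty_empty h4
  have h2 : ∀ᶠ n in atTop, ∀ i j, ((D.piece B n i ∩ D.piece B n j).Nonempty ↔ D.meet B i j) := by
    rw [eventually_all]; intro i
    rw [eventually_all]; intro j
    exact h1 i j
  obtain ⟨n₀, h⟩ := eventually_atTop.1 h2
  exact ⟨n₀, h⟩

variable {a b : ℂ → Fin N → ℂ}

theorem ExOn.mono {O O' : Set ℂ} (h : ExOn P O a b) (hO : O' ⊆ O) : ExOn P O' a b := by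
  obtain ⟨φ, hφ⟩ := h
  exact ⟨φ, fun z hz => hφ z (hO hz)⟩

/-- a form is exact near the end iff its Čech cochain satisfies the end condition -/
theorem Fam.end_iff (ho : ∀ n m, IsOpen (B n m)) (hc : ∀ n m, Convex ℝ (B n m))
    (hB : ∀ m, Antitone fun n => B n m)
    (ha : SmOn P (⋃ i, D.W i) a) (hb : SmOn P (⋃ i, D.W i) b)
    (hab : ClOn P (⋃ i, D.W i) a b) (Q : Prim (D.form ha hb hab)) :
    (∃ n, ExOn P (⋃ i, D.piece B n i) a b) ↔ ∃ v : ι × M → Fin N → ℂ, ∀ i j, D.meet B i j →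
      Q.c i.1 j.1 = act (D.G i.1 j.1) (v j) - v i := by
  obtain ⟨n₀, hn₀⟩ := D.exists_stable B hB
  have key : ∀ n, ExOn P (⋃ i, D.piece B n i) a b ↔ ∃ v : ι × M → Fin N → ℂ, ∀ i j,
      (D.piece B n i ∩ D.piece B n j).Nonempty →
        Q.c i.1 j.1 = act (D.G i.1 j.1) (v j) - v i := fun n =>
    D.exOn_refine_iff ha hb hab Q (fun i : ι × M => i.1) (D.piece B n)
      (fun i => (D.isOpen i.1).inter (ho n i.2)) (fun i => (D.convex i.1).inter (hc n i.2))
      (fun i => inter_subset_left)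
  constructor
  · rintro ⟨n, hn⟩
    have h1 : ExOn P (⋃ i, D.piece B (max n n₀) i) a b := hn.mono (by
      refine iUnion_mono fun i => inter_subset_inter le_rfl (hB i.2 (le_max_left _ _)))
    obtain ⟨v, hv⟩ := (key _).1 h1
    exact ⟨v, fun i j hij => hv i j ((hn₀ _ (le_max_right _ _) i j).2 hij)⟩
  · rintro ⟨v, hv⟩
    exact ⟨n₀, (key n₀).2 ⟨v, fun i j hij => hv i j ((hn₀ _ le_rfl i j).1 hij)⟩⟩

end ends

/-! ### half planes -/

/-- the four functionals `Re`, `-Re`, `Im`, `-Im` -/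
def lf (m : Fin 4) : ℂ →L[ℝ] ℝ :=
  match m with
  | 0 => Complex.reCLM
  | 1 => -Complex.reCLM
  | 2 => Complex.imCLM
  | 3 => -Complex.imCLM

theorem exists_lf_pos {z : ℂ} (hz : z ≠ 0) : ∃ m, 0 < lf m z := by
  by_contra h
  push Not at h
  have h0 := h 0
  have h1 := h 1
  have h2 := h 2
  have h3 := h 3
  simp only [lf, Complex.reCLM_apply, Complex.imCLM_apply, _root_.neg_apply] at h0 h1 h2 h3
  apply hz
  apply Complex.ext
  · simp only [Complex.zero_re]; linarith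
  · simp only [Complex.zero_im]; linarith

theorem lf_le (m : Fin 4) (z : ℂ) : lf m z ≤ ‖z‖ := by
  have h1 := Complex.abs_re_le_norm z
  have h2 := Complex.abs_im_le_norm z
  have h3 := abs_le.1 h1
  have h4 := abs_le.1 h2
  fin_cases m <;> simp [lf] <;> linarith

theorem exists_lf_gt {z : ℂ} {R : ℝ} (hz : 2 * R < ‖z‖) : ∃ m, R < lf m z := by
  by_contra h
  push Not at h
  have h0 := h 0
  have h1 := h 1
  have h2 := h 2
  have h3 := h 3
  simp only [lf, Complex.reCLM_apply, Complex.imCLM_apply, _root_.neg_apply] at h0 h1 h2 h3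
  have h4 := Complex.norm_le_abs_re_add_abs_im z
  have h5 : |z.re| ≤ R := abs_le.2 ⟨by linarith, h0⟩
  have h6 : |z.im| ≤ R := abs_le.2 ⟨by linarith, h2⟩
  linarith

theorem isOpen_lf (m : Fin 4) (t : ℝ) : IsOpen {z | t < lf m z} :=
  isOpen_lt continuous_const (lf m).continuous

theorem convex_lf (m : Fin 4) (t : ℝ) : Convex ℝ {z | t < lf m z} :=
  convex_halfSpace_gt (lf m).isLinear t

/-- the pieces of the cover of `ℂ \ A` -/
def Wf (A : Finset ℂ) (f : A → Fin 4) : Set ℂ := ⋂ p : A, {z | lf (f p) p < lf (f p) z}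

theorem isOpen_Wf (A : Finset ℂ) (f : A → Fin 4) : IsOpen (Wf A f) :=
  isOpen_iInter_of_finite fun _ => isOpen_lf _ _

theorem convex_Wf (A : Finset ℂ) (f : A → Fin 4) : Convex ℝ (Wf A f) :=
  convex_iInter fun _ => convex_lf _ _

theorem iUnion_Wf (A : Finset ℂ) : ⋃ f, Wf A f = (A : Set ℂ)ᶜ := by
  ext z
  constructor
  · intro h hz
    obtain ⟨f, hf⟩ := mem_iUnion.1 h
    have h1 : lf (f ⟨z, hz⟩) z < lf (f ⟨z, hz⟩) z := mem_iInter.1 hf ⟨z, hz⟩
    exact lt_irrefl _ h1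
  · intro hz
    have h1 : ∀ p : A, ∃ m, 0 < lf m (z - p) := fun p => exists_lf_pos (by
      intro h
      apply hz
      rw [sub_eq_zero] at h
      rw [h]
      exact p.2)
    choose f hf using h1
    refine mem_iUnion.2 ⟨f, mem_iInter.2 fun p => ?_⟩
    have h2 := hf p
    rw [map_sub] at h2
    show lf (f p) p < lf (f p) z
    linarith

section main

variable {A : Finset ℂ} {P : ℂ → ℂ → GL (Fin N) ℤ}

theorem exists_mainT (hP : NDCOn (A : Set ℂ)ᶜ P) (f : A → Fin 4) :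
    ∃ T : ℂ → GL (Fin N) ℤ, Tri P (Wf A f) T :=
  exists_tri hP (isOpen_Wf A f) (convex_Wf A f)
    ((subset_iUnion (Wf A) f).trans (iUnion_Wf A).le)

/-- the main cover, with trivialisations -/
def mainFam (hP : NDCOn (A : Set ℂ)ᶜ P) : Fam P (A → Fin 4) where
  W := Wf A
  T f := (exists_mainT hP f).choose
  isOpen := isOpen_Wf A
  convex := convex_Wf A
  tri f := (exists_mainT hP f).choose_spec

theorem iUnion_main (hP : NDCOn (A : Set ℂ)ᶜ P) : ⋃ f, (mainFam hP).W f = (A : Set ℂ)ᶜ :=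
  iUnion_Wf A

/-- pieces near the ends: `some p` = the puncture `p`, `none` = infinity -/
def EB (e : Option ℂ) (n : ℕ) (m : Fin 4) : Set ℂ :=
  match e with
  | some p => Metric.ball p (1 / ((n : ℝ) + 1))
  | none => {z | (n : ℝ) < lf m z}

theorem isOpen_EB (e : Option ℂ) (n : ℕ) (m : Fin 4) : IsOpen (EB e n m) := by
  cases e with
  | none => exact isOpen_lf m n
  | some p => exact Metric.isOpen_ball

theorem convex_EB (e : Option ℂ) (n : ℕ) (m : Fin 4) : Convex ℝ (EB e n m) := by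
  cases e with
  | none => exact convex_lf m n
  | some p => exact convex_ball _ _

theorem antitone_EB (e : Option ℂ) (m : Fin 4) : Antitone fun n => EB e n m := by
  intro n k hnk
  have h : (n : ℝ) ≤ k := Nat.cast_le.2 hnk
  cases e with
  | none =>
    intro z (hz : (k : ℝ) < lf m z)
    exact lt_of_le_of_lt h hz
  | some p =>
    apply Metric.ball_subset_ball
    exact one_div_le_one_div_of_le (by positivity) (by linarith)

/-- neighbourhoods of the ends -/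
def EE (e : Option ℂ) (n : ℕ) : Set ℂ := ⋃ m, EB e n m

theorem EE_some (p : ℂ) (n : ℕ) : EE (some p) n = Metric.ball p (1 / ((n : ℝ) + 1)) := by
  ext z
  simp only [EE, mem_iUnion]
  exact ⟨fun ⟨_, h⟩ => h, fun h => ⟨0, h⟩⟩

theorem iUnion_piece (hP : NDCOn (A : Set ℂ)ᶜ P) (e : Option ℂ) (n : ℕ) :
    ⋃ i, (mainFam hP).piece (EB e) n i = EE e n ∩ (A : Set ℂ)ᶜ := by
  ext z
  simp only [mem_iUnion, Fam.piece, EE, mem_inter_iff, ← iUnion_main hP, Prod.exists]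
  constructor
  · rintro ⟨i, m, h1, h2⟩
    exact ⟨⟨m, h2⟩, ⟨i, h1⟩⟩
  · rintro ⟨⟨m, h2⟩, ⟨i, h1⟩⟩
    exact ⟨i, m, h1, h2⟩

/-- exact near all ends -/
def ParOn (P : ℂ → ℂ → GL (Fin N) ℤ) (A : Finset ℂ) (a b : ℂ → Fin N → ℂ) : Prop :=
  (∀ p ∈ A, ∃ U ∈ 𝓝 p, ExOn P (U ∩ (A : Set ℂ)ᶜ) a b) ∧
    ∃ R : ℝ, ExOn P ({z | R < ‖z‖} ∩ (A : Set ℂ)ᶜ) a b

/-- the index set of the ends -/
def endOf (A : Finset ℂ) (e : Option A) : Option ℂ := e.map (fun p => (p : ℂ))

theorem parOn_iff (a b : ℂ → Fin N → ℂ) :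
    ParOn P A a b ↔ ∀ e : Option A, ∃ n, ExOn P (EE (endOf A e) n ∩ (A : Set ℂ)ᶜ) a b := by
  constructor
  · rintro ⟨h1, R, hR⟩ (_ | p)
    · obtain ⟨n, hn⟩ := exists_nat_ge R
      refine ⟨n, hR.mono (inter_subset_inter ?_ le_rfl)⟩
      intro z hz
      obtain ⟨m, hm⟩ := mem_iUnion.1 hz
      have hm' : (n : ℝ) < lf m z := hm
      exact lt_of_le_of_lt hn (lt_of_lt_of_le hm' (lf_le m z))
    · obtain ⟨U, hU, hex⟩ := h1 p p.2
      obtain ⟨r, hr, hrU⟩ := Metric.mem_nhds_iff.1 hU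
      obtain ⟨n, hn⟩ := exists_nat_one_div_lt hr
      refine ⟨n, hex.mono (inter_subset_inter ?_ le_rfl)⟩
      show EE (some (p : ℂ)) n ⊆ U
      rw [EE_some]
      exact (Metric.ball_subset_ball hn.le).trans hrU
  · intro h
    constructor
    · intro p hp
      obtain ⟨n, hn⟩ := h (some ⟨p, hp⟩)
      refine ⟨Metric.ball p (1 / ((n : ℝ) + 1)), Metric.ball_mem_nhds _ (by positivity), ?_⟩
      have h2 : EE (endOf A (some ⟨p, hp⟩)) n = Metric.ball p (1 / ((n : ℝ) + 1)) := EE_some p n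
      rwa [h2] at hn
    · obtain ⟨n, hn⟩ := h none
      refine ⟨2 * n, hn.mono (inter_subset_inter ?_ le_rfl)⟩
      intro z hz
      obtain ⟨m, hm⟩ := exists_lf_gt hz
      exact mem_iUnion.2 ⟨m, hm⟩

end main

end

end Crest.Agent.R276.Top2_937
private theorem rz_ec927da6c9 : type_of% @_root_.Crest.Agent.R276.Top2_937.lf.eq_1 := @_root_.Crest.Agent.R276.Top2_937.lf.eq_1 -- L96
end

-- ▼ part R276/Top2d_937
section

/-!
# R276, leaf TOP2 (helper937), part 4: integral structure of the parabolic Čech cohomology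
-/

set_option autoImplicit false
set_option linter.unusedSectionVars false
set_option linter.unusedVariables false

open Set Filter Topology MeasureTheory Matrix
open scoped ContDiff

namespace Crest.Agent.R276.Top2_937

open Ipc735 Lat_348

noncomputable section

variable {N : ℕ}

/-- integral vectors are preserved by `GL_N(ℤ)` -/
theorem act_mem_std (g : GL (Fin N) ℤ) {v : Fin N → ℂ} (hv : v ∈ stdLat (Fin N)) :
    act g v ∈ stdLat (Fin N) :=
  Lat2_348.mulVec_mem (g : Matrix (Fin N) (Fin N) ℤ) hv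

section alg

variable {ι κ J : Type} [Finite ι] [Finite κ] [Finite J] (G : ι → ι → GL (Fin N) ℤ)
  (R2 : ι → ι → Prop) (R3 : ι → ι → ι → Prop) (r : κ → ι) (mt : J → κ → κ → Prop)

/-- Čech 1-cochains -/
abbrev Co (N : ℕ) (ι : Type) : Type := ι → ι → Fin N → ℂ

/-- integral cochains -/
abbrev coLat (N : ℕ) (ι : Type) : AddSubgroup (Co N ι) := piLat ι (piLat ι (stdLat (Fin N)))

theorem mem_coLat {c : Co N ι} : c ∈ coLat N ι ↔ ∀ i j, c i j ∈ stdLat (Fin N) := by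
  simp only [coLat, mem_piLat]

theorem isCLat_co : IsCLat (coLat N ι) := ((isCLat_std (Fin N)).pi ι).pi ι

/-- the cocycle functional -/
def zf (i j l : ι) : Co N ι →ₗ[ℂ] (Fin N → ℂ) where
  toFun c := c i j + act (G i j) (c j l) - c i l
  map_add' c d := by
    simp only [Pi.add_apply, map_add]; abel
  map_smul' a c := by
    simp only [Pi.smul_apply, act_smul, RingHom.id_apply, smul_sub, smul_add]

/-- evaluation -/
def ef (i j : ι) : Co N ι →ₗ[ℂ] (Fin N → ℂ) where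
  toFun c := c i j
  map_add' c d := rfl
  map_smul' a c := rfl

/-- restriction to an end -/
def rf (mt : κ → κ → Prop) : Co N ι →ₗ[ℂ] ({p : κ × κ // mt p.1 p.2} → Fin N → ℂ) where
  toFun c p := c (r p.1.1) (r p.1.2)
  map_add' c d := rfl
  map_smul' a c := rfl

/-- coboundaries at an end -/
def df (mt : κ → κ → Prop) : (κ → Fin N → ℂ) →ₗ[ℂ] ({p : κ × κ // mt p.1 p.2} → Fin N → ℂ) where
  toFun v p := act (G (r p.1.1) (r p.1.2)) (v p.1.2) - v p.1.1
  map_add' c d := by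
    funext p
    simp only [Pi.add_apply, map_add]; abel
  map_smul' a c := by
    funext p
    simp only [Pi.smul_apply, act_smul, RingHom.id_apply, smul_sub]

open Classical in
/-- global coboundaries -/
def Df : (ι → Fin N → ℂ) →ₗ[ℂ] Co N ι where
  toFun v i j := if R2 i j then act (G i j) (v j) - v i else 0
  map_add' c d := by
    funext i j
    simp only [Pi.add_apply, map_add]
    split_ifs
    · abel
    · simp
  map_smul' a c := by
    funext i j
    simp only [Pi.smul_apply, act_smul, RingHom.id_apply]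
    split_ifs
    · rw [smul_sub]
    · simp

theorem Df_pos {i j : ι} (h : R2 i j) (v : ι → Fin N → ℂ) :
    Df G R2 v i j = act (G i j) (v j) - v i := if_pos h

theorem Df_neg {i j : ι} (h : ¬ R2 i j) (v : ι → Fin N → ℂ) : Df G R2 v i j = 0 := if_neg h

/-- parabolic cocycles -/
def parZ : Submodule ℂ (Co N ι) :=
  (⨅ p : {p : ι × ι // ¬ R2 p.1 p.2}, LinearMap.ker (ef p.1.1 p.1.2)) ⊓
  (⨅ p : {p : ι × ι × ι // R3 p.1 p.2.1 p.2.2}, LinearMap.ker (zf G p.1.1 p.1.2.1 p.1.2.2)) ⊓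
  (⨅ e : J, (LinearMap.range (df G r (mt e))).comap (rf r (mt e)))

theorem mem_parZ {c : Co N ι} : c ∈ parZ G R2 R3 r mt ↔
    (∀ i j, ¬ R2 i j → c i j = 0) ∧
    (∀ i j l, R3 i j l → c i j + act (G i j) (c j l) = c i l) ∧
    ∀ e, ∃ v : κ → Fin N → ℂ, ∀ i j, mt e i j →
      c (r i) (r j) = act (G (r i) (r j)) (v j) - v i := by
  rw [parZ, Submodule.mem_inf, Submodule.mem_inf, Submodule.mem_iInf, Submodule.mem_iInf,
    Submodule.mem_iInf, and_assoc]
  refine and_congr ?_ (and_congr ?_ ?_)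
  · constructor
    · intro h i j hij
      exact h ⟨(i, j), hij⟩
    · intro h p
      exact h p.1.1 p.1.2 p.2
  · constructor
    · intro h i j l hijl
      exact sub_eq_zero.1 (h ⟨(i, j, l), hijl⟩)
    · intro h p
      exact sub_eq_zero.2 (h p.1.1 p.1.2.1 p.1.2.2 p.2)
  · refine forall_congr' fun e => ?_
    rw [Submodule.mem_comap, LinearMap.mem_range]
    refine exists_congr fun v => ?_
    constructor
    · intro h i j hij
      exact (congrFun h ⟨(i, j), hij⟩).symm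
    · intro h
      funext p
      exact (h p.1.1 p.1.2 p.2).symm

theorem ratSub_parZ : RatSub (coLat N ι) (parZ G R2 R3 r mt) := by
  have hL := isCLat_co (N := N) (ι := ι)
  have h0 := isCLat_std (Fin N)
  have hact : ∀ (g : GL (Fin N) ℤ) (v : Fin N → ℂ), v ∈ stdLat (Fin N) →
      act g v ∈ stdLat (Fin N) := fun g v hv => act_mem_std g hv
  refine hL.ratSub_inf (hL.ratSub_inf (hL.ratSub_iInf fun p => ?_) (hL.ratSub_iInf fun p => ?_))
    (hL.ratSub_iInf fun e => ?_)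
  · exact hL.ratSub_ker h0 _ fun l hl => mem_coLat.1 hl _ _
  · refine hL.ratSub_ker h0 _ fun l hl => ?_
    have hl' := mem_coLat.1 hl
    exact sub_mem (add_mem (hl' _ _) (hact _ _ (hl' _ _))) (hl' _ _)
  · refine hL.ratSub_comap (h0.pi _) _ (fun l hl => ?_)
      ((h0.pi κ).ratSub_range _ fun l hl => ?_)
    · rw [mem_piLat]
      exact fun p => mem_coLat.1 hl _ _
    · rw [mem_piLat] at hl ⊢
      exact fun p => sub_mem (hact _ _ (hl _)) (hl _)

theorem ratSub_Df : RatSub (coLat N ι) (LinearMap.range (Df G R2)) := by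
  refine ((isCLat_std (Fin N)).pi ι).ratSub_range _ fun l hl => ?_
  rw [mem_piLat] at hl
  rw [mem_coLat]
  intro i j
  by_cases hij : R2 i j
  · rw [Df_pos G R2 hij]
    exact sub_mem (act_mem_std _ (hl _)) (hl _)
  · rw [Df_neg G R2 hij]
    exact zero_mem _

/-- **integral basis of the parabolic cohomology** -/
theorem exists_basis_co : ∃ (n : ℕ) (w : Fin n → Co N ι),
    (∀ k, w k ∈ parZ G R2 R3 r mt) ∧ (∀ k i j, w k i j ∈ stdLat (Fin N)) ∧
    (∀ x ∈ parZ G R2 R3 r mt, ∃! c : Fin n → ℂ, ∃ v : ι → Fin N → ℂ, ∀ i j, R2 i j →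
      x i j - ∑ k, c k • w k i j = act (G i j) (v j) - v i) ∧
    (∀ x ∈ parZ G R2 R3 r mt, ∀ c : Fin n → ℂ, (∃ v : ι → Fin N → ℂ, ∀ i j, R2 i j →
      x i j - ∑ k, c k • w k i j = act (G i j) (v j) - v i) →
      ((∃ l ∈ parZ G R2 R3 r mt, (∀ i j, l i j ∈ stdLat (Fin N)) ∧
        ∃ v : ι → Fin N → ℂ, ∀ i j, R2 i j → x i j - l i j = act (G i j) (v j) - v i) ↔
          ∀ k, ∃ m : ℤ, c k = m)) := by
  obtain ⟨n, w, h1, h2, h3, h4⟩ := Lat2_348.exists_int_basis (isCLat_co (N := N) (ι := ι))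
    (ratSub_parZ G R2 R3 r mt) (ratSub_Df G R2)
  have hz : ∀ x ∈ parZ G R2 R3 r mt, ∀ i j, ¬ R2 i j → x i j = 0 := fun x hx =>
    ((mem_parZ G R2 R3 r mt).1 hx).1
  have key : ∀ y ∈ parZ G R2 R3 r mt, y ∈ LinearMap.range (Df G R2) ↔
      ∃ v : ι → Fin N → ℂ, ∀ i j, R2 i j → y i j = act (G i j) (v j) - v i := by
    intro y hy
    rw [LinearMap.mem_range]
    refine exists_congr fun v => ?_
    constructor
    · intro h i j hij
      rw [← h, Df_pos G R2 hij]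
    · intro h
      funext i j
      by_cases hij : R2 i j
      · rw [Df_pos G R2 hij]
        exact (h i j hij).symm
      · rw [Df_neg G R2 hij]
        exact (hz y hy i j hij).symm
  have hsum : ∀ c : Fin n → ℂ, ∑ k, c k • w k ∈ parZ G R2 R3 r mt := fun c =>
    Submodule.sum_mem _ fun k _ => Submodule.smul_mem _ _ (h1 k)
  have hap : ∀ (c : Fin n → ℂ) (i j : ι), (∑ k, c k • w k) i j = ∑ k, c k • w k i j := by
    intro c i j
    rw [Finset.sum_apply, Finset.sum_apply]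
    rfl
  refine ⟨n, w, h1, fun k => mem_coLat.1 (h2 k), ?_, ?_⟩
  · intro x hx
    have h5 : ∀ c : Fin n → ℂ, (∃ v : ι → Fin N → ℂ, ∀ i j, R2 i j →
        x i j - ∑ k, c k • w k i j = act (G i j) (v j) - v i) ↔
        x - ∑ k, c k • w k ∈ LinearMap.range (Df G R2) := by
      intro c
      rw [key _ (Submodule.sub_mem _ hx (hsum c))]
      simp only [Pi.sub_apply, hap]
    simp only [h5]
    exact h3 x hx
  · intro x hx c hc
    have h5 : x - ∑ k, c k • w k ∈ LinearMap.range (Df G R2) := by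
      rw [key _ (Submodule.sub_mem _ hx (hsum c))]
      simpa only [Pi.sub_apply, hap] using hc
    rw [← h4 x hx c h5]
    constructor
    · rintro ⟨l, hl, hl2, v, hv⟩
      refine ⟨l, hl, mem_coLat.2 hl2, ?_⟩
      rw [key _ (Submodule.sub_mem _ hx hl)]
      exact ⟨v, hv⟩
    · rintro ⟨l, hl, hl2, hv⟩
      refine ⟨l, hl, mem_coLat.1 hl2, ?_⟩
      rw [key _ (Submodule.sub_mem _ hx hl)] at hv
      exact hv

end alg

end

end Crest.Agent.R276.Top2_937
end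

-- ▼ part R276/Top2e_937
section

/-!
# R276, leaf TOP2 (helper937), part 5: global forms, linear structure, cut-off
-/

set_option autoImplicit false
set_option linter.unusedSectionVars false
set_option linter.unusedVariables false

open Set Filter Topology MeasureTheory Matrix
open scoped ContDiff Manifold

namespace Crest.Agent.R276.Top2_937

open Ipc735 Lat_348

noncomputable section

variable {N : ℕ}

/-! ### linearity -/

section lin

variable {P : ℂ → ℂ → GL (Fin N) ℤ}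

theorem lV_add (φ ψ : ℂ → Fin N → ℂ) (z : ℂ) : lV P (φ + ψ) z = lV P φ z + lV P ψ z := by
  funext y
  exact Matrix.mulVec_add _ _ _

theorem lV_sub (φ ψ : ℂ → Fin N → ℂ) (z : ℂ) : lV P (φ - ψ) z = lV P φ z - lV P ψ z := by
  funext y
  exact Matrix.mulVec_sub _ _ _

theorem lV_smul (c : ℂ) (φ : ℂ → Fin N → ℂ) (z : ℂ) : lV P (c • φ) z = c • lV P φ z := by
  funext y
  exact Matrix.mulVec_smul (cm (P z y)) c (φ y)

theorem lV_zero (z : ℂ) : lV P (0 : ℂ → Fin N → ℂ) z = 0 := by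
  funext y
  exact Matrix.mulVec_zero _


theorem lV_congr {φ ψ : ℂ → Fin N → ℂ} {z : ℂ} (h : φ =ᶠ[𝓝 z] ψ) : lV P φ z =ᶠ[𝓝 z] lV P ψ z := by
  filter_upwards [h] with y hy
  simp only [lV, hy]

variable {f g : ℂ → Fin N → ℂ} {z : ℂ}

theorem wz_add (hf : DifferentiableAt ℝ f z) (hg : DifferentiableAt ℝ g z) :
    wz (f + g) z = wz f z + wz g z ∧ wb (f + g) z = wb f z + wb g z := by
  simp only [wz, wb, fderiv_add hf hg, _root_.add_apply, smul_add, smul_sub]
  exact ⟨by abel, by abel⟩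

theorem wz_sub (hf : DifferentiableAt ℝ f z) (hg : DifferentiableAt ℝ g z) :
    wz (f - g) z = wz f z - wz g z ∧ wb (f - g) z = wb f z - wb g z := by
  simp only [wz, wb, fderiv_sub hf hg, _root_.sub_apply, smul_add, smul_sub]
  exact ⟨by abel, by abel⟩

theorem wz_smul (c : ℂ) (hf : DifferentiableAt ℝ f z) :
    wz (c • f) z = c • wz f z ∧ wb (c • f) z = c • wb f z := by
  have h1 : fderiv ℝ (c • f) z = c • fderiv ℝ f z := fderiv_const_smul hf c
  simp only [wz, wb, h1, _root_.smul_apply]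
  constructor
  · rw [smul_comm Complex.I c, ← smul_sub, smul_comm]
  · rw [smul_comm Complex.I c, ← smul_add, smul_comm]

theorem wz_zero : wz (0 : ℂ → Fin N → ℂ) z = 0 ∧ wb (0 : ℂ → Fin N → ℂ) z = 0 := by
  have h1 : fderiv ℝ (0 : ℂ → Fin N → ℂ) z = 0 := fderiv_const_apply 0
  simp [wz, wb, h1]

variable {O : Set ℂ} {a b a' b' φ ψ : ℂ → Fin N → ℂ}

theorem SmOn.add (h1 : SmOn P O φ) (h2 : SmOn P O ψ) : SmOn P O (φ + ψ) := fun z hz => by
  rw [lV_add]; exact (h1 z hz).add (h2 z hz)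

theorem SmOn.sub (h1 : SmOn P O φ) (h2 : SmOn P O ψ) : SmOn P O (φ - ψ) := fun z hz => by
  rw [lV_sub]; exact (h1 z hz).sub (h2 z hz)

theorem SmOn.smul (h1 : SmOn P O φ) (c : ℂ) : SmOn P O (c • φ) := fun z hz => by
  rw [lV_smul]; exact (h1 z hz).const_smul c

theorem SmOn.zero : SmOn P O (0 : ℂ → Fin N → ℂ) := fun z hz => by
  rw [lV_zero]; exact contDiffAt_const

theorem SmOn.sum {κ : Type} (s : Finset κ) {F : κ → ℂ → Fin N → ℂ} (h : ∀ k ∈ s, SmOn P O (F k)) :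
    SmOn P O (∑ k ∈ s, F k) := by
  classical
  induction s using Finset.induction_on with
  | empty => rw [Finset.sum_empty]; exact SmOn.zero
  | insert k s hk ih =>
    rw [Finset.sum_insert hk]
    exact (h k (Finset.mem_insert_self _ _)).add
      (ih fun j hj => h j (Finset.mem_insert_of_mem hj))

theorem SmOn.diff (h : SmOn P O φ) {z : ℂ} (hz : z ∈ O) : DifferentiableAt ℝ (lV P φ z) z :=
  (h z hz).differentiableAt (by simp)

theorem ClOn.add (ha : SmOn P O a) (hb : SmOn P O b) (ha' : SmOn P O a') (hb' : SmOn P O b')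
    (h1 : ClOn P O a b) (h2 : ClOn P O a' b') : ClOn P O (a + a') (b + b') := fun z hz => by
  rw [lV_add, lV_add, (wz_add (ha.diff hz) (ha'.diff hz)).2, (wz_add (hb.diff hz) (hb'.diff hz)).1,
    h1 z hz, h2 z hz]

theorem ClOn.sub (ha : SmOn P O a) (hb : SmOn P O b) (ha' : SmOn P O a') (hb' : SmOn P O b')
    (h1 : ClOn P O a b) (h2 : ClOn P O a' b') : ClOn P O (a - a') (b - b') := fun z hz => by
  rw [lV_sub, lV_sub, (wz_sub (ha.diff hz) (ha'.diff hz)).2, (wz_sub (hb.diff hz) (hb'.diff hz)).1,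
    h1 z hz, h2 z hz]

theorem ClOn.smul (ha : SmOn P O a) (hb : SmOn P O b) (h1 : ClOn P O a b) (c : ℂ) :
    ClOn P O (c • a) (c • b) := fun z hz => by
  rw [lV_smul, lV_smul, (wz_smul c (ha.diff hz)).2, (wz_smul c (hb.diff hz)).1, h1 z hz]

theorem ClOn.zero : ClOn P O (0 : ℂ → Fin N → ℂ) 0 := fun z hz => by
  rw [lV_zero, wz_zero.1, wz_zero.2]

theorem ClOn.sum {κ : Type} (s : Finset κ) {F G : κ → ℂ → Fin N → ℂ}
    (hF : ∀ k, SmOn P O (F k)) (hG : ∀ k, SmOn P O (G k)) (h : ∀ k ∈ s, ClOn P O (F k) (G k)) :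
    ClOn P O (∑ k ∈ s, F k) (∑ k ∈ s, G k) := by
  classical
  induction s using Finset.induction_on with
  | empty => rw [Finset.sum_empty, Finset.sum_empty]; exact ClOn.zero
  | insert k s hk ih =>
    rw [Finset.sum_insert hk, Finset.sum_insert hk]
    exact ClOn.add (hF k) (hG k) (SmOn.sum s fun j _ => hF j) (SmOn.sum s fun j _ => hG j)
      (h k (Finset.mem_insert_self _ _)) (ih fun j hj => h j (Finset.mem_insert_of_mem hj))

theorem ExOn.add (h1 : ExOn P O a b) (h2 : ExOn P O a' b') : ExOn P O (a + a') (b + b') := by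
  obtain ⟨φ, h1⟩ := h1
  obtain ⟨ψ, h2⟩ := h2
  refine ⟨φ + ψ, fun z hz => ?_⟩
  obtain ⟨s1, x1, y1⟩ := h1 z hz
  obtain ⟨s2, x2, y2⟩ := h2 z hz
  have d1 := s1.differentiableAt (by simp)
  have d2 := s2.differentiableAt (by simp)
  rw [lV_add, (wz_add d1 d2).1, (wz_add d1 d2).2, x1, x2, y1, y2]
  exact ⟨s1.add s2, rfl, rfl⟩

theorem ExOn.sub (h1 : ExOn P O a b) (h2 : ExOn P O a' b') : ExOn P O (a - a') (b - b') := by
  obtain ⟨φ, h1⟩ := h1
  obtain ⟨ψ, h2⟩ := h2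
  refine ⟨φ - ψ, fun z hz => ?_⟩
  obtain ⟨s1, x1, y1⟩ := h1 z hz
  obtain ⟨s2, x2, y2⟩ := h2 z hz
  have d1 := s1.differentiableAt (by simp)
  have d2 := s2.differentiableAt (by simp)
  rw [lV_sub, (wz_sub d1 d2).1, (wz_sub d1 d2).2, x1, x2, y1, y2]
  exact ⟨s1.sub s2, rfl, rfl⟩

theorem ExOn.smul (h1 : ExOn P O a b) (c : ℂ) : ExOn P O (c • a) (c • b) := by
  obtain ⟨φ, h1⟩ := h1
  refine ⟨c • φ, fun z hz => ?_⟩
  obtain ⟨s1, x1, y1⟩ := h1 z hz
  have d1 := s1.differentiableAt (by simp)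
  rw [lV_smul, (wz_smul c d1).1, (wz_smul c d1).2, x1, y1]
  exact ⟨s1.const_smul c, rfl, rfl⟩

theorem ExOn.zero : ExOn P O (0 : ℂ → Fin N → ℂ) 0 := by
  refine ⟨0, fun z hz => ?_⟩
  rw [lV_zero, wz_zero.1, wz_zero.2]
  exact ⟨contDiffAt_const, rfl, rfl⟩

theorem ExOn.sum {κ : Type} (s : Finset κ) {F G : κ → ℂ → Fin N → ℂ}
    (h : ∀ k ∈ s, ExOn P O (F k) (G k)) : ExOn P O (∑ k ∈ s, F k) (∑ k ∈ s, G k) := by
  classical
  induction s using Finset.induction_on with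
  | empty => rw [Finset.sum_empty, Finset.sum_empty]; exact ExOn.zero
  | insert k s hk ih =>
    rw [Finset.sum_insert hk, Finset.sum_insert hk]
    exact (h k (Finset.mem_insert_self _ _)).add
      (ih fun j hj => h j (Finset.mem_insert_of_mem hj))

theorem ParOn.add {A : Finset ℂ} (h1 : ParOn P A a b) (h2 : ParOn P A a' b') :
    ParOn P A (a + a') (b + b') := by
  rw [parOn_iff] at *
  intro e
  obtain ⟨n, hn⟩ := h1 e
  obtain ⟨k, hk⟩ := h2 e
  have hm : ∀ j l, j ≤ l → EE (endOf A e) l ∩ (A : Set ℂ)ᶜ ⊆ EE (endOf A e) j ∩ (A : Set ℂ)ᶜ :=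
    fun j l hjl => inter_subset_inter
      (iUnion_mono fun m => antitone_EB (endOf A e) m hjl) le_rfl
  exact ⟨max n k, (hn.mono (hm _ _ (le_max_left _ _))).add (hk.mono (hm _ _ (le_max_right _ _)))⟩

theorem ParOn.smul {A : Finset ℂ} (h1 : ParOn P A a b) (c : ℂ) : ParOn P A (c • a) (c • b) := by
  rw [parOn_iff] at *
  intro e
  obtain ⟨n, hn⟩ := h1 e
  exact ⟨n, hn.smul c⟩

theorem ParOn.zero {A : Finset ℂ} : ParOn P A (0 : ℂ → Fin N → ℂ) 0 := by
  rw [parOn_iff]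
  exact fun e => ⟨0, ExOn.zero⟩

theorem ParOn.sum {A : Finset ℂ} {κ : Type} (s : Finset κ) {F G : κ → ℂ → Fin N → ℂ}
    (h : ∀ k ∈ s, ParOn P A (F k) (G k)) : ParOn P A (∑ k ∈ s, F k) (∑ k ∈ s, G k) := by
  classical
  induction s using Finset.induction_on with
  | empty => rw [Finset.sum_empty, Finset.sum_empty]; exact ParOn.zero
  | insert k s hk ih =>
    rw [Finset.sum_insert hk, Finset.sum_insert hk]
    exact (h k (Finset.mem_insert_self _ _)).add
      (ih fun j hj => h j (Finset.mem_insert_of_mem hj))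

theorem ParOn.sub {A : Finset ℂ} (h1 : ParOn P A a b) (h2 : ParOn P A a' b') :
    ParOn P A (a - a') (b - b') := by
  have h3 := h1.add (h2.smul (-1))
  simpa [sub_eq_add_neg] using h3


end lin

/-! ### Čech cochains of forms -/

section cochain

variable {P : ℂ → ℂ → GL (Fin N) ℤ} {ι : Type} (D : Fam P ι)

/-- `ψ` are primitives of `a dx + b dx̄` on the pieces, with Čech cochain `c` -/
structure Fam.HasC (a b : ℂ → Fin N → ℂ) (ψ : ι → ℂ → Fin N → ℂ) (c : Co N ι) : Prop where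
  der : ∀ i, ∀ x ∈ D.W i, HasFDerivAt (ψ i) (frm (tl (D.T i) a x, tl (D.T i) b x)) x
  rel : ∀ i j, ∀ x ∈ D.W i ∩ D.W j, ψ i x = act (D.G i j) (ψ j x) + c i j

variable {D} {a b a' b' : ℂ → Fin N → ℂ} {ψ ψ' : ι → ℂ → Fin N → ℂ} {c c' : Co N ι}

theorem tl_add (T : ℂ → GL (Fin N) ℤ) (φ ψ : ℂ → Fin N → ℂ) (x : ℂ) :
    tl T (φ + ψ) x = tl T φ x + tl T ψ x := map_add _ _ _

theorem tl_sub (T : ℂ → GL (Fin N) ℤ) (φ ψ : ℂ → Fin N → ℂ) (x : ℂ) :
    tl T (φ - ψ) x = tl T φ x - tl T ψ x := map_sub _ _ _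

theorem tl_smul (T : ℂ → GL (Fin N) ℤ) (c : ℂ) (φ : ℂ → Fin N → ℂ) (x : ℂ) :
    tl T (c • φ) x = c • tl T φ x := act_smul _ _ _

theorem frm_smul (c : ℂ) (a b : Fin N → ℂ) : frm (c • a, c • b) = c • frm (a, b) := by
  ext v : 1
  rw [_root_.smul_apply, frm_apply, frm_apply, smul_add, smul_comm v c a,
    smul_comm ((starRingEnd ℂ) v) c b]

theorem Fam.HasC.sub (h : D.HasC a b ψ c) (h' : D.HasC a' b' ψ' c') :
    D.HasC (a - a') (b - b') (fun i => ψ i - ψ' i) (c - c') where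
  der i x hx := by
    have h1 := (h.der i x hx).sub (h'.der i x hx)
    rw [← map_sub, Prod.mk_sub_mk, ← tl_sub, ← tl_sub] at h1
    exact h1
  rel i j x hx := by
    simp only [Pi.sub_apply, h.rel i j x hx, h'.rel i j x hx, map_sub]
    abel

theorem Fam.HasC.add (h : D.HasC a b ψ c) (h' : D.HasC a' b' ψ' c') :
    D.HasC (a + a') (b + b') (fun i => ψ i + ψ' i) (c + c') where
  der i x hx := by
    have h1 := (h.der i x hx).add (h'.der i x hx)
    rw [← map_add, Prod.mk_add_mk, ← tl_add, ← tl_add] at h1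
    exact h1
  rel i j x hx := by
    simp only [Pi.add_apply, h.rel i j x hx, h'.rel i j x hx, map_add]
    abel

theorem Fam.HasC.smul (h : D.HasC a b ψ c) (l : ℂ) :
    D.HasC (l • a) (l • b) (fun i => l • ψ i) (l • c) where
  der i x hx := by
    have h1 := (h.der i x hx).const_smul l
    rw [← frm_smul, ← tl_smul, ← tl_smul] at h1
    exact h1
  rel i j x hx := by
    simp only [Pi.smul_apply, h.rel i j x hx, smul_add, act_smul]

theorem Fam.HasC.zero : D.HasC (0 : ℂ → Fin N → ℂ) 0 (fun i => 0) 0 where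
  der i x hx := by
    have h1 : tl (D.T i) (0 : ℂ → Fin N → ℂ) x = 0 := map_zero _
    rw [h1]
    have h2 : frm ((0 : Fin N → ℂ), (0 : Fin N → ℂ)) = 0 := map_zero frm
    rw [h2]
    exact hasFDerivAt_const 0 x
  rel i j x hx := by simp

theorem Fam.HasC.sum {κ : Type} (s : Finset κ) {F G : κ → ℂ → Fin N → ℂ}
    {Ψ : κ → ι → ℂ → Fin N → ℂ} {C : κ → Co N ι} (h : ∀ k ∈ s, D.HasC (F k) (G k) (Ψ k) (C k)) :
    D.HasC (∑ k ∈ s, F k) (∑ k ∈ s, G k) (fun i => ∑ k ∈ s, Ψ k i) (∑ k ∈ s, C k) := by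
  classical
  induction s using Finset.induction_on with
  | empty => simp only [Finset.sum_empty]; exact Fam.HasC.zero
  | insert k s hk ih =>
    simp only [Finset.sum_insert hk]
    exact (h k (Finset.mem_insert_self _ _)).add
      (ih fun j hj => h j (Finset.mem_insert_of_mem hj))


/-- the `Prim` given by `HasC` -/
def Fam.HasC.prim (h : D.HasC a b ψ c) (ha : SmOn P (⋃ i, D.W i) a)
    (hb : SmOn P (⋃ i, D.W i) b) (hab : ClOn P (⋃ i, D.W i) a b) : Prim (D.form ha hb hab) where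
  ψ := ψ
  c := c
  der := h.der
  rel := h.rel


theorem Fam.HasC.cocycle (h : D.HasC a b ψ c) {i j l : ι}
    (hx : (D.W i ∩ D.W j ∩ D.W l).Nonempty) : c i j + act (D.G i j) (c j l) = c i l := by
  obtain ⟨x, ⟨hi, hj⟩, hl⟩ := hx
  have h1 := h.rel i j x ⟨hi, hj⟩
  have h2 := h.rel j l x ⟨hj, hl⟩
  have h3 := h.rel i l x ⟨hi, hl⟩
  rw [h2, map_add] at h1
  have h4 : act (D.G i j) (act (D.G j l) (ψ l x)) = act (D.G i l) (ψ l x) := by
    rw [← act_mul_apply]
    congr 2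
    rw [D.G_eq ⟨hi, hj⟩, D.G_eq ⟨hj, hl⟩, D.G_eq ⟨hi, hl⟩]
    group
  rw [h4] at h1
  rw [h1] at h3
  have h5 : act (D.G i l) (ψ l x) + (c i j + act (D.G i j) (c j l)) =
      act (D.G i l) (ψ l x) + c i l := by
    rw [← h3]; abel
  exact add_left_cancel h5

/-- change of the cochain outside the intersecting pairs -/
theorem Fam.HasC.congr (h : D.HasC a b ψ c) (hc : ∀ i j, (D.W i ∩ D.W j).Nonempty →
    c' i j = c i j) : D.HasC a b ψ c' where
  der := h.der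
  rel i j x hx := by rw [hc i j ⟨x, hx⟩]; exact h.rel i j x hx

theorem Fam.HasC.end_iff [Finite ι] {M : Type} [Finite M] {B : ℕ → M → Set ℂ}
    (ho : ∀ n m, IsOpen (B n m)) (hc : ∀ n m, Convex ℝ (B n m))
    (hB : ∀ m, Antitone fun n => B n m) (h : D.HasC a b ψ c)
    (ha : SmOn P (⋃ i, D.W i) a) (hb : SmOn P (⋃ i, D.W i) b) (hab : ClOn P (⋃ i, D.W i) a b) :
    (∃ n, ExOn P (⋃ i, D.piece B n i) a b) ↔ ∃ v : ι × M → Fin N → ℂ, ∀ i j, D.meet B i j →
      c i.1 j.1 = act (D.G i.1 j.1) (v j) - v i :=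
  D.end_iff B ho hc hB ha hb hab (h.prim ha hb hab)

/-! ### realisation -/

/-- the `dx`-component of a one-form -/
def pa (L : ℂ →L[ℝ] (Fin N → ℂ)) : Fin N → ℂ := (1 / 2 : ℂ) • (L 1 - Complex.I • L Complex.I)

/-- the `dx̄`-component of a one-form -/
def pb (L : ℂ →L[ℝ] (Fin N → ℂ)) : Fin N → ℂ := (1 / 2 : ℂ) • (L 1 + Complex.I • L Complex.I)






end cochain

end

end Crest.Agent.R276.Top2_937
end

-- ▼ part R276/Top2g_937
section

/-!
# R276, leaf TOP2 (helper937), part 7: near-diagonal period cocycles, integral classes, main theorem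
-/

set_option autoImplicit false
set_option linter.unusedSectionVars false
set_option linter.unusedVariables false

open Set Filter Topology MeasureTheory Matrix
open scoped ContDiff Manifold

namespace Crest.Agent.R276.Top2_937

open Ipc735 Lat_348

noncomputable section

variable {N : ℕ}

/-- `φ` is a smooth primitive of `a dx + b dx̄` on `U` -/
def PrimOn (P : ℂ → ℂ → GL (Fin N) ℤ) (U : Set ℂ) (a b φ : ℂ → Fin N → ℂ) : Prop :=
  ∀ z ∈ U, ContDiffAt ℝ (⊤ : ℕ∞) (lV P φ z) z ∧ wz (lV P φ z) z = a z ∧ wb (lV P φ z) z = b z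

/-- `c` is a near-diagonal period cocycle of `a dx + b dx̄`: `c x y = ∫_x^y`, transported to `x` -/
def Per (P : ℂ → ℂ → GL (Fin N) ℤ) (O : Set ℂ) (a b : ℂ → Fin N → ℂ)
    (c : ℂ → ℂ → Fin N → ℂ) : Prop :=
  ∀ z ∈ O, ∃ U ∈ 𝓝 z, ∃ φ : ℂ → Fin N → ℂ, PrimOn P U a b φ ∧
    ∀ x ∈ U, ∀ y ∈ U, c x y = act (P x y) (φ y) - φ x

/-- an integral vector as a complex vector -/
def iv (m : Fin N → ℤ) : Fin N → ℂ := fun i => (m i : ℂ)



/-- the class of `a dx + b dx̄` is integral -/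
def Intg (P : ℂ → ℂ → GL (Fin N) ℤ) (O : Set ℂ) (a b : ℂ → Fin N → ℂ) : Prop :=
  ∃ (h : ℂ → ℂ → Fin N → ℤ) (Φ : ℂ → Fin N → ℂ),
    Per P O a b (fun x y => iv (h x y) + (act (P x y) (Φ y) - Φ x))

section

variable {P : ℂ → ℂ → GL (Fin N) ℤ} {ι : Type} {D : Fam P ι} {a b : ℂ → Fin N → ℂ}
  {ψ : ι → ℂ → Fin N → ℂ} {c : Co N ι}

open Classical in
/-- the near-diagonal cocycle given by local functions -/
def Fam.nd (D : Fam P ι) (u : ι → ℂ → Fin N → ℂ) (x y : ℂ) : Fin N → ℂ :=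
  if h : ∃ i, x ∈ D.W i ∧ y ∈ D.W i then act (D.T h.choose x) (u h.choose y - u h.choose x) else 0

theorem Fam.nd_eq {u : ι → ℂ → Fin N → ℂ}
    (hu : ∀ i j, ∀ x ∈ D.W i ∩ D.W j, u i x = act (D.G i j) (u j x) + c i j) {i : ι} {x y : ℂ}
    (hx : x ∈ D.W i) (hy : y ∈ D.W i) : D.nd u x y = act (D.T i x) (u i y - u i x) := by
  have h : ∃ i, x ∈ D.W i ∧ y ∈ D.W i := ⟨i, hx, hy⟩
  rw [Fam.nd, dif_pos h]
  have h1 := h.choose_spec
  rw [hu h.choose i x ⟨h1.1, hx⟩, hu h.choose i y ⟨h1.2, hy⟩, add_sub_add_right_eq_sub, ← map_sub,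
    ← act_mul_apply, D.G_eq ⟨h1.1, hx⟩, mul_inv_cancel_left]


/-- the primitive on a piece as a section -/
theorem Fam.HasC.primOn (h : D.HasC a b ψ c) (ha : SmOn P (⋃ i, D.W i) a)
    (hb : SmOn P (⋃ i, D.W i) b) (hab : ClOn P (⋃ i, D.W i) a b) (i : ι) :
    PrimOn P (D.W i) a b (fun x => act (D.T i x) (ψ i x)) := by
  intro x hx
  have h0 : tl (D.T i) (fun x => act (D.T i x) (ψ i x)) = ψ i := by
    funext y
    rw [tl, act_inv_act]
  have hsm : ContDiffOn ℝ ∞ (ψ i) (D.W i) := (h.prim ha hb hab).smooth i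
  have h3 : ContDiffAt ℝ (⊤ : ℕ∞) (tl (D.T i) (fun x => act (D.T i x) (ψ i x))) x := by
    rw [h0]
    exact hsm.contDiffAt ((D.isOpen i).mem_nhds hx)
  have h4 := h3.differentiableAt (by simp)
  have h5 := wz_lV (D.tri i) hx h4
  have h6 : fderiv ℝ (tl (D.T i) (fun x => act (D.T i x) (ψ i x))) x =
      frm (tl (D.T i) a x, tl (D.T i) b x) := by
    rw [h0]
    exact (h.der i x hx).fderiv
  rw [fderiv_eq_frm] at h6
  obtain ⟨h7, h8⟩ := frm_inj h6
  refine ⟨(sm_iff (D.tri i) hx _).2 h3, ?_, ?_⟩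
  · rw [h5.1, h7, act_tl]
  · rw [h5.2, h8, act_tl]

/-- `D.nd ψ` is a period cocycle -/
theorem Fam.HasC.per (h : D.HasC a b ψ c) (ha : SmOn P (⋃ i, D.W i) a)
    (hb : SmOn P (⋃ i, D.W i) b) (hab : ClOn P (⋃ i, D.W i) a b) :
    Per P (⋃ i, D.W i) a b (D.nd ψ) := by
  intro z hz
  obtain ⟨i, hi⟩ := mem_iUnion.1 hz
  obtain ⟨U, hU, hT⟩ := D.tri i z hi
  refine ⟨U ∩ D.W i, inter_mem hU ((D.isOpen i).mem_nhds hi), fun x => act (D.T i x) (ψ i x),
    fun x hx => h.primOn ha hb hab i x hx.2, fun x hx y hy => ?_⟩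
  rw [Fam.nd_eq h.rel hx.2 hy.2, hT x hx.1 y hy.1, act_mul_apply, act_inv_act, map_sub]

/-- a function with integral increments near each point of a connected set has integral
increments -/
theorem int_incr {W : Set ℂ} (hW : IsOpen W) (hc : Convex ℝ W) {f : ℂ → Fin N → ℂ}
    (hf : ∀ z ∈ W, ∃ U ∈ 𝓝 z, ∀ x ∈ U, ∀ y ∈ U, f y - f x ∈ stdLat (Fin N)) {x y : ℂ}
    (hx : x ∈ W) (hy : y ∈ W) : f y - f x ∈ stdLat (Fin N) := by
  by_contra hne
  let A : Set ℂ := {w | w ∈ W ∧ f w - f x ∈ stdLat (Fin N)}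
  let B : Set ℂ := {w | w ∈ W ∧ f w - f x ∉ stdLat (Fin N)}
  have hA : IsOpen A := by
    rw [isOpen_iff_mem_nhds]
    rintro w ⟨hw, hw'⟩
    obtain ⟨U, hU, h⟩ := hf w hw
    filter_upwards [hU, hW.mem_nhds hw] with u hu hu'
    refine ⟨hu', ?_⟩
    have h1 := add_mem (h w (mem_of_mem_nhds hU) u hu) hw'
    rwa [sub_add_sub_cancel] at h1
  have hB : IsOpen B := by
    rw [isOpen_iff_mem_nhds]
    rintro w ⟨hw, hw'⟩
    obtain ⟨U, hU, h⟩ := hf w hw
    filter_upwards [hU, hW.mem_nhds hw] with u hu hu'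
    refine ⟨hu', fun hcon => hw' ?_⟩
    have h1 := add_mem (h u hu w (mem_of_mem_nhds hU)) hcon
    rwa [sub_add_sub_cancel] at h1
  obtain ⟨w, -, hwA, hwB⟩ := hc.isPreconnected A B hA hB (fun w hw => by
    by_cases h : f w - f x ∈ stdLat (Fin N)
    · exact Or.inl ⟨hw, h⟩
    · exact Or.inr ⟨hw, h⟩) ⟨x, hx, hx, by rw [sub_self]; exact zero_mem _⟩ ⟨y, hy, hy, hne⟩
  exact hwB.2 hwA.2


end

end

end Crest.Agent.R276.Top2_937
end

-- ▼ part R276/Top2h_937
section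

/-!
# R276, leaf TOP2 (helper937), part 8: main theorem

`exists_integral_basis` : finitely many compactly supported integral closed forms which are a basis of
the parabolic cohomology of the punctured plane, the integral classes being the integral combinations.
-/

set_option autoImplicit false
set_option linter.unusedSectionVars false
set_option linter.unusedVariables false

open Set Filter Topology MeasureTheory Matrix
open scoped ContDiff Manifold

namespace Crest.Agent.R276.Top2_937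

open Ipc735 Lat_348

noncomputable section

variable {N : ℕ}



section congr

variable {P : ℂ → ℂ → GL (Fin N) ℤ} {O : Set ℂ} {a b a' b' : ℂ → Fin N → ℂ}

theorem eventuallyEq_of_open (hO : IsOpen O) (h : ∀ z ∈ O, a' z = a z) {z : ℂ} (hz : z ∈ O) :
    a' =ᶠ[𝓝 z] a := by
  filter_upwards [hO.mem_nhds hz] with y hy using h y hy

theorem SmOn.congr (hO : IsOpen O) (h : SmOn P O a) (he : ∀ z ∈ O, a' z = a z) : SmOn P O a' :=
  fun z hz => (h z hz).congr_of_eventuallyEq (lV_congr (eventuallyEq_of_open hO he hz))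

theorem ClOn.congr (hO : IsOpen O) (h : ClOn P O a b) (ha : ∀ z ∈ O, a' z = a z)
    (hb : ∀ z ∈ O, b' z = b z) : ClOn P O a' b' := fun z hz => by
  rw [(wz_congr (lV_congr (P := P) (eventuallyEq_of_open hO ha hz))).2,
    (wz_congr (lV_congr (P := P) (eventuallyEq_of_open hO hb hz))).1]
  exact h z hz

theorem ExOn.congr (h : ExOn P O a b) (ha : ∀ z ∈ O, a' z = a z)
    (hb : ∀ z ∈ O, b' z = b z) : ExOn P O a' b' := by
  obtain ⟨φ, hφ⟩ := h
  refine ⟨φ, fun z hz => ?_⟩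
  rw [ha z hz, hb z hz]
  exact hφ z hz

theorem ParOn.congr {A : Finset ℂ} (h : ParOn P A a b) (ha : ∀ z ∉ A, a' z = a z)
    (hb : ∀ z ∉ A, b' z = b z) : ParOn P A a' b' := by
  rw [parOn_iff] at *
  intro e
  obtain ⟨n, hn⟩ := h e
  exact ⟨n, hn.congr (fun z hz => ha z hz.2) (fun z hz => hb z hz.2)⟩

theorem Per.congr (hO : IsOpen O) {c : ℂ → ℂ → Fin N → ℂ} (h : Per P O a b c)
    (ha : ∀ z ∈ O, a' z = a z) (hb : ∀ z ∈ O, b' z = b z) : Per P O a' b' c := by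
  intro z hz
  obtain ⟨U, hU, φ, hφ, hc⟩ := h z hz
  refine ⟨U ∩ O, inter_mem hU (hO.mem_nhds hz), φ, fun x hx => ?_, fun x hx y hy =>
    hc x hx.1 y hy.1⟩
  rw [ha x hx.2, hb x hx.2]
  exact hφ x hx.1

theorem Intg.congr (hO : IsOpen O) (h : Intg P O a b)
    (ha : ∀ z ∈ O, a' z = a z) (hb : ∀ z ∈ O, b' z = b z) : Intg P O a' b' := by
  obtain ⟨m, Φ, h⟩ := h
  exact ⟨m, Φ, h.congr hO ha hb⟩

end congr

section cov

variable {P : ℂ → ℂ → GL (Fin N) ℤ} {ι : Type} {D : Fam P ι}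



end cov

section algex

variable {ι κ J : Type} [Finite ι] [Finite κ] [Finite J] (G : ι → ι → GL (Fin N) ℤ)
  (R2 : ι → ι → Prop) (R3 : ι → ι → ι → Prop) (r : κ → ι) (mt : J → κ → κ → Prop)

theorem Df_mem_parZ (hG : ∀ i j l, R3 i j l → G i j * G j l = G i l)
    (h23 : ∀ i j l, R3 i j l → R2 i j ∧ R2 j l ∧ R2 i l)
    (hm2 : ∀ e i j, mt e i j → R2 (r i) (r j)) (v : ι → Fin N → ℂ) :
    Df G R2 v ∈ parZ G R2 R3 r mt := by
  rw [mem_parZ]
  refine ⟨fun i j h => Df_neg G R2 h v, fun i j l h => ?_, fun e => ⟨fun i => v (r i),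
    fun i j h => Df_pos G R2 (hm2 e i j h) v⟩⟩
  obtain ⟨h1, h2, h3⟩ := h23 i j l h
  rw [Df_pos G R2 h1, Df_pos G R2 h2, Df_pos G R2 h3, map_sub, ← act_mul_apply, hG i j l h]
  abel

end algex




end

end Crest.Agent.R276.Top2_937
namespace Crest.Agent.R276.Top2_937.Fam
end Crest.Agent.R276.Top2_937.Fam
end

-- ▼ part R276/Latt_937
section

/-!
# R276 (helper937): the lattice theorem for near-diagonal cocycles (LATT of post 1851)

`CocOn`, `CobOn` of `DR_175`.  For a finite family of convex pieces `D : Fam P ι`: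
`Fam.HasU` (Čech cochain of a near-diagonal cocycle), `exists_hasU`, `HasU.cob_iff`, `HasU.end_iff`,
`Fam.realiseU` (an integral Čech cocycle comes from an integral near-diagonal cocycle).
`latt` : integral basis of the parabolic cohomology.
-/

set_option autoImplicit false
set_option linter.unusedSectionVars false
set_option linter.unusedVariables false

open Set Filter Topology MeasureTheory Matrix
open scoped ContDiff Manifold

namespace Crest.Agent.R276.Latt_937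

open Ipc735 Lat_348 Top2_937

noncomputable section

variable {N : ℕ}

abbrev CocOn (O : Set ℂ) (P : ℂ → ℂ → GL (Fin N) ℤ) (u : ℂ → ℂ → Fin N → ℂ) : Prop :=
  DR_175.CocOn O P u

abbrev CobOn (O : Set ℂ) (P : ℂ → ℂ → GL (Fin N) ℤ) (u : ℂ → ℂ → Fin N → ℂ) : Prop :=
  DR_175.CobOn O P u

section basic

variable {P : ℂ → ℂ → GL (Fin N) ℤ} {O O' : Set ℂ} {u u' : ℂ → ℂ → Fin N → ℂ}

theorem cocOn_iff : CocOn O P u ↔ ∀ z ∈ O, ∃ U ∈ 𝓝 z, ∀ x ∈ U, ∀ y ∈ U, ∀ t ∈ U,
    u x y + act (P x y) (u y t) = u x t := Iff.rfl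

theorem cobOn_iff : CobOn O P u ↔ ∃ f : ℂ → Fin N → ℂ, ∀ z ∈ O, ∃ U ∈ 𝓝 z, ∀ x ∈ U, ∀ y ∈ U,
    u x y = f x - act (P x y) (f y) := Iff.rfl

theorem CocOn.mono (h : CocOn O P u) (hO : O' ⊆ O) : CocOn O' P u := fun z hz => h z (hO hz)

theorem CobOn.mono (h : CobOn O P u) (hO : O' ⊆ O) : CobOn O' P u := by
  obtain ⟨f, hf⟩ := h
  exact ⟨f, fun z hz => hf z (hO hz)⟩

theorem CocOn.add (h : CocOn O P u) (h' : CocOn O P u') : CocOn O P (u + u') := by
  rw [cocOn_iff] at *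
  intro z hz
  obtain ⟨U, hU, h1⟩ := h z hz
  obtain ⟨U', hU', h2⟩ := h' z hz
  refine ⟨U ∩ U', inter_mem hU hU', fun x hx y hy t ht => ?_⟩
  simp only [Pi.add_apply, map_add]
  rw [← h1 x hx.1 y hy.1 t ht.1, ← h2 x hx.2 y hy.2 t ht.2]
  abel

theorem CocOn.smul (h : CocOn O P u) (c : ℂ) : CocOn O P (c • u) := by
  rw [cocOn_iff] at *
  intro z hz
  obtain ⟨U, hU, h1⟩ := h z hz
  refine ⟨U, hU, fun x hx y hy t ht => ?_⟩
  simp only [Pi.smul_apply]
  rw [act_smul, ← h1 x hx y hy t ht, smul_add]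

theorem CocOn.sub (h : CocOn O P u) (h' : CocOn O P u') : CocOn O P (u - u') := by
  have h1 := h.add (h'.smul (-1))
  simpa [sub_eq_add_neg] using h1

theorem CocOn.zero : CocOn O P (0 : ℂ → ℂ → Fin N → ℂ) := fun z hz =>
  ⟨univ, univ_mem, fun x _ y _ t _ => by simp⟩

theorem CocOn.sum {κ : Type} (s : Finset κ) {F : κ → ℂ → ℂ → Fin N → ℂ}
    (h : ∀ k ∈ s, CocOn O P (F k)) : CocOn O P (∑ k ∈ s, F k) := by
  classical
  induction s using Finset.induction_on with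
  | empty => rw [Finset.sum_empty]; exact CocOn.zero
  | insert k s hk ih =>
    rw [Finset.sum_insert hk]
    exact (h k (Finset.mem_insert_self _ _)).add
      (ih fun j hj => h j (Finset.mem_insert_of_mem hj))

theorem CobOn.add (h : CobOn O P u) (h' : CobOn O P u') : CobOn O P (u + u') := by
  rw [cobOn_iff] at *
  obtain ⟨f, h⟩ := h
  obtain ⟨f', h'⟩ := h'
  refine ⟨f + f', fun z hz => ?_⟩
  obtain ⟨U, hU, h1⟩ := h z hz
  obtain ⟨U', hU', h2⟩ := h' z hz
  refine ⟨U ∩ U', inter_mem hU hU', fun x hx y hy => ?_⟩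
  simp only [Pi.add_apply, map_add]
  rw [h1 x hx.1 y hy.1, h2 x hx.2 y hy.2]
  abel

theorem CobOn.smul (h : CobOn O P u) (c : ℂ) : CobOn O P (c • u) := by
  rw [cobOn_iff] at *
  obtain ⟨f, h⟩ := h
  refine ⟨c • f, fun z hz => ?_⟩
  obtain ⟨U, hU, h1⟩ := h z hz
  refine ⟨U, hU, fun x hx y hy => ?_⟩
  simp only [Pi.smul_apply]
  rw [h1 x hx y hy, act_smul, smul_sub]

theorem CobOn.neg (h : CobOn O P u) : CobOn O P (-u) := by
  have h1 := h.smul (-1)
  simpa using h1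

theorem CobOn.sub (h : CobOn O P u) (h' : CobOn O P u') : CobOn O P (u - u') := by
  have h1 := h.add h'.neg
  simpa [sub_eq_add_neg] using h1

theorem CobOn.zero : CobOn O P (0 : ℂ → ℂ → Fin N → ℂ) :=
  ⟨0, fun z hz => ⟨univ, univ_mem, fun x _ y _ => by simp⟩⟩

theorem CobOn.sum {κ : Type} (s : Finset κ) {F : κ → ℂ → ℂ → Fin N → ℂ}
    (h : ∀ k ∈ s, CobOn O P (F k)) : CobOn O P (∑ k ∈ s, F k) := by
  classical
  induction s using Finset.induction_on with
  | empty => rw [Finset.sum_empty]; exact CobOn.zero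
  | insert k s hk ih =>
    rw [Finset.sum_insert hk]
    exact (h k (Finset.mem_insert_self _ _)).add
      (ih fun j hj => h j (Finset.mem_insert_of_mem hj))


end basic

/-- a locally constant function on a convex open set is constant -/
theorem const_of_loc {V : Type*} {W : Set ℂ} (hW : IsOpen W) (hc : Convex ℝ W) {f : ℂ → V}
    (hf : ∀ z ∈ W, ∃ U ∈ 𝓝 z, ∀ y ∈ U, f y = f z) {x y : ℂ}
    (hx : x ∈ W) (hy : y ∈ W) : f y = f x := by
  by_contra hne
  let A : Set ℂ := {w | w ∈ W ∧ f w = f x}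
  let B : Set ℂ := {w | w ∈ W ∧ f w ≠ f x}
  have hA : IsOpen A := by
    rw [isOpen_iff_mem_nhds]
    rintro w ⟨hw, hw'⟩
    obtain ⟨U, hU, h⟩ := hf w hw
    filter_upwards [hU, hW.mem_nhds hw] with u hu hu'
    exact ⟨hu', (h u hu).trans hw'⟩
  have hB : IsOpen B := by
    rw [isOpen_iff_mem_nhds]
    rintro w ⟨hw, hw'⟩
    obtain ⟨U, hU, h⟩ := hf w hw
    filter_upwards [hU, hW.mem_nhds hw] with u hu hu'
    exact ⟨hu', by rw [h u hu]; exact hw'⟩
  obtain ⟨w, -, hwA, hwB⟩ := hc.isPreconnected A B hA hB (fun w hw => by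
    by_cases h : f w = f x
    · exact Or.inl ⟨hw, h⟩
    · exact Or.inr ⟨hw, h⟩) ⟨x, hx, hx, rfl⟩ ⟨y, hy, hy, hne⟩
  exact hwB.2 hwA.2

section fam

variable {P : ℂ → ℂ → GL (Fin N) ℤ} {ι : Type} {D : Fam P ι}

/-- Čech cochain of a near-diagonal cocycle -/
structure HasU (D : Fam P ι) (u : ℂ → ℂ → Fin N → ℂ) (ψ : ι → ℂ → Fin N → ℂ)
    (c : Co N ι) : Prop where
  loc : ∀ i, ∀ z ∈ D.W i, ∃ U ∈ 𝓝 z, ∀ x ∈ U, ∀ y ∈ U, u x y = act (D.T i x) (ψ i y - ψ i x)
  rel : ∀ i j, ∀ x ∈ D.W i ∩ D.W j, ψ i x = act (D.G i j) (ψ j x) + c i j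

/-- a near-diagonal cocycle is a coboundary on each piece -/
theorem exists_loc {u : ℂ → ℂ → Fin N → ℂ} (hu : CocOn (⋃ i, D.W i) P u) (i : ι) :
    ∃ ψ : ℂ → Fin N → ℂ, ∀ z ∈ D.W i, ∃ U ∈ 𝓝 z, ∀ x ∈ U, ∀ y ∈ U,
      u x y = act (D.T i x) (ψ y - ψ x) := by
  let c : ℂ → ℂ → Multiplicative (Fin N → ℂ) := fun x y =>
    Multiplicative.ofAdd (act (D.T i x)⁻¹ (u x y))
  have hc : Top1_816.NDCOn c (D.W i) := by
    intro z hz
    obtain ⟨U, hU, h⟩ := hu z (mem_iUnion.2 ⟨i, hz⟩)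
    obtain ⟨U', hU', hT⟩ := D.tri i z hz
    refine ⟨U ∩ U', mem_nhdsWithin_of_mem_nhds (inter_mem hU hU'), fun x hx y hy t ht => ?_⟩
    have h1 : u x y + act (P x y) (u y t) = u x t := h x hx.1 y hy.1 t ht.1
    rw [hT x hx.2 y hy.2, act_mul_apply] at h1
    have h2 : act (D.T i x)⁻¹ (u x y) + act (D.T i y)⁻¹ (u y t) = act (D.T i x)⁻¹ (u x t) := by
      rw [← h1, map_add, act_inv_act]
    exact congrArg Multiplicative.ofAdd h2
  obtain ⟨B, hB⟩ := Top1_816.NDCOn.exists_trivByOn_convex (D.convex i) hc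
  refine ⟨fun x => - Multiplicative.toAdd (B x), fun z hz => ?_⟩
  obtain ⟨U, hU, h⟩ := hB z hz
  rw [(D.isOpen i).nhdsWithin_eq hz] at hU
  refine ⟨U, hU, fun x hx y hy => ?_⟩
  have h1 := congrArg Multiplicative.toAdd (h x hx y hy)
  rw [toAdd_mul, toAdd_inv] at h1
  have h2 : act (D.T i x)⁻¹ (u x y) = Multiplicative.toAdd (B x) + -Multiplicative.toAdd (B y) := h1
  have h3 := congrArg (act (D.T i x)) h2
  rw [act_act_inv] at h3
  rw [h3]
  congr 1
  rw [sub_neg_eq_add, add_comm]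

theorem exists_hasU {u : ℂ → ℂ → Fin N → ℂ} (hu : CocOn (⋃ i, D.W i) P u) :
    ∃ ψ c, HasU D u ψ c := by
  classical
  choose ψ hψ using exists_loc hu
  have hconst : ∀ i j, ∀ x ∈ D.W i ∩ D.W j, ∀ y ∈ D.W i ∩ D.W j,
      ψ i y - act (D.G i j) (ψ j y) = ψ i x - act (D.G i j) (ψ j x) := by
    intro i j x hx y hy
    refine const_of_loc (f := fun w => ψ i w - act (D.G i j) (ψ j w))
      ((D.isOpen i).inter (D.isOpen j)) ((D.convex i).inter (D.convex j)) (fun z hz => ?_) hx hy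
    obtain ⟨U, hU, h⟩ := hψ i z hz.1
    obtain ⟨U', hU', h'⟩ := hψ j z hz.2
    refine ⟨U ∩ U', inter_mem hU hU', fun w hw => ?_⟩
    have h1 := h z (mem_of_mem_nhds hU) w hw.1
    have h2 := h' z (mem_of_mem_nhds hU') w hw.2
    rw [h1] at h2
    have h3 := congrArg (act (D.T i z)⁻¹) h2
    rw [act_inv_act, ← act_mul_apply, ← D.G_eq hz, map_sub] at h3
    show ψ i w - act (D.G i j) (ψ j w) = ψ i z - act (D.G i j) (ψ j z)
    have h4 : ψ i w = ψ i z + (act (D.G i j) (ψ j w) - act (D.G i j) (ψ j z)) := by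
      rw [← h3]; abel
    rw [h4]; abel
  let c : Co N ι := fun i j => if h : (D.W i ∩ D.W j).Nonempty then
    ψ i h.some - act (D.G i j) (ψ j h.some) else 0
  refine ⟨ψ, c, hψ, fun i j x hx => ?_⟩
  have h : (D.W i ∩ D.W j).Nonempty := ⟨x, hx⟩
  simp only [c]
  rw [dif_pos h, hconst i j x hx _ h.some_mem]
  abel

variable {u u' : ℂ → ℂ → Fin N → ℂ} {ψ ψ' : ι → ℂ → Fin N → ℂ} {c c' : Co N ι}

theorem HasU.congr (h : HasU D u ψ c) (hc : ∀ i j, (D.W i ∩ D.W j).Nonempty →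
    c' i j = c i j) : HasU D u ψ c' where
  loc := h.loc
  rel i j x hx := by rw [hc i j ⟨x, hx⟩]; exact h.rel i j x hx

theorem HasU.cocycle (h : HasU D u ψ c) {i j l : ι}
    (hx : (D.W i ∩ D.W j ∩ D.W l).Nonempty) : c i j + act (D.G i j) (c j l) = c i l := by
  obtain ⟨x, ⟨hi, hj⟩, hl⟩ := hx
  have h1 := h.rel i j x ⟨hi, hj⟩
  have h2 := h.rel j l x ⟨hj, hl⟩
  have h3 := h.rel i l x ⟨hi, hl⟩
  rw [h2, map_add] at h1
  have h4 : act (D.G i j) (act (D.G j l) (ψ l x)) = act (D.G i l) (ψ l x) := by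
    rw [← act_mul_apply]
    congr 2
    rw [D.G_eq ⟨hi, hj⟩, D.G_eq ⟨hj, hl⟩, D.G_eq ⟨hi, hl⟩]
    group
  rw [h4] at h1
  rw [h1] at h3
  have h5 : act (D.G i l) (ψ l x) + (c i j + act (D.G i j) (c j l)) =
      act (D.G i l) (ψ l x) + c i l := by
    rw [← h3]; abel
  exact add_left_cancel h5

theorem HasU.add (h : HasU D u ψ c) (h' : HasU D u' ψ' c') :
    HasU D (u + u') (fun i => ψ i + ψ' i) (c + c') where
  loc i z hz := by
    obtain ⟨U, hU, h1⟩ := h.loc i z hz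
    obtain ⟨U', hU', h2⟩ := h'.loc i z hz
    refine ⟨U ∩ U', inter_mem hU hU', fun x hx y hy => ?_⟩
    rw [Pi.add_apply, Pi.add_apply, h1 x hx.1 y hy.1, h2 x hx.2 y hy.2, ← map_add]
    congr 1
    simp only [Pi.add_apply]; abel
  rel i j x hx := by
    simp only [Pi.add_apply, h.rel i j x hx, h'.rel i j x hx, map_add]
    abel

theorem HasU.smul (h : HasU D u ψ c) (l : ℂ) : HasU D (l • u) (fun i => l • ψ i) (l • c) where
  loc i z hz := by
    obtain ⟨U, hU, h1⟩ := h.loc i z hz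
    refine ⟨U, hU, fun x hx y hy => ?_⟩
    rw [Pi.smul_apply, Pi.smul_apply, h1 x hx y hy, ← act_smul]
    congr 1
    simp only [Pi.smul_apply, smul_sub]
  rel i j x hx := by
    simp only [Pi.smul_apply, h.rel i j x hx, smul_add, act_smul]

theorem HasU.sub (h : HasU D u ψ c) (h' : HasU D u' ψ' c') :
    HasU D (u - u') (fun i => ψ i + (-1 : ℂ) • ψ' i) (c - c') := by
  have h1 := h.add (h'.smul (-1))
  simpa [sub_eq_add_neg] using h1

theorem HasU.zero : HasU D (0 : ℂ → ℂ → Fin N → ℂ) (fun i => 0) 0 where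
  loc i z hz := ⟨univ, univ_mem, fun x _ y _ => by simp⟩
  rel i j x hx := by simp

theorem HasU.sum {κ : Type} (s : Finset κ) {F : κ → ℂ → ℂ → Fin N → ℂ}
    {Ψ : κ → ι → ℂ → Fin N → ℂ} {C : κ → Co N ι} (h : ∀ k ∈ s, HasU D (F k) (Ψ k) (C k)) :
    HasU D (∑ k ∈ s, F k) (fun i => ∑ k ∈ s, Ψ k i) (∑ k ∈ s, C k) := by
  classical
  induction s using Finset.induction_on with
  | empty => simp only [Finset.sum_empty]; exact HasU.zero
  | insert k s hk ih =>
    simp only [Finset.sum_insert hk]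
    exact (h k (Finset.mem_insert_self _ _)).add
      (ih fun j hj => h j (Finset.mem_insert_of_mem hj))

/-- coboundaries over smaller pieces -/
theorem HasU.cob_iff (h : HasU D u ψ c) {ι' : Type} (r : ι' → ι) (W' : ι' → Set ℂ)
    (ho : ∀ j, IsOpen (W' j)) (hc : ∀ j, Convex ℝ (W' j)) (hs : ∀ j, W' j ⊆ D.W (r j)) :
    CobOn (⋃ j, W' j) P u ↔ ∃ v : ι' → Fin N → ℂ, ∀ i j, (W' i ∩ W' j).Nonempty →
      c (r i) (r j) = act (D.G (r i) (r j)) (v j) - v i := by
  classical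
  rw [cobOn_iff]
  constructor
  · rintro ⟨f, hf⟩
    have hconst : ∀ k, ∀ x ∈ W' k, ∀ y ∈ W' k, ψ (r k) y + tl (D.T (r k)) f y =
        ψ (r k) x + tl (D.T (r k)) f x := by
      intro k x hx y hy
      refine const_of_loc (f := fun w => ψ (r k) w + tl (D.T (r k)) f w) (ho k) (hc k)
        (fun z hz => ?_) hx hy
      obtain ⟨U, hU, h1⟩ := hf z (mem_iUnion.2 ⟨k, hz⟩)
      obtain ⟨U', hU', h2⟩ := h.loc (r k) z (hs k hz)
      obtain ⟨U'', hU'', h3⟩ := D.tri (r k) z (hs k hz)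
      refine ⟨U ∩ U' ∩ U'', inter_mem (inter_mem hU hU') hU'', fun w hw => ?_⟩
      have h4 := h1 z (mem_of_mem_nhds hU) w hw.1.1
      rw [h2 z (mem_of_mem_nhds hU') w hw.1.2, h3 z (mem_of_mem_nhds hU'') w hw.2,
        act_mul_apply] at h4
      have h5 := congrArg (act (D.T (r k) z)⁻¹) h4
      rw [act_inv_act, map_sub, act_inv_act] at h5
      -- ψ w - ψ z = tl f z - tl f w
      have h6 : ψ (r k) w - ψ (r k) z = tl (D.T (r k)) f z - tl (D.T (r k)) f w := h5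
      show ψ (r k) w + tl (D.T (r k)) f w = ψ (r k) z + tl (D.T (r k)) f z
      have h7 : ψ (r k) w = ψ (r k) z + (tl (D.T (r k)) f z - tl (D.T (r k)) f w) := by
        rw [← h6]; abel
      rw [h7]; abel
    refine ⟨fun k => if hk : (W' k).Nonempty then
      -(ψ (r k) hk.some + tl (D.T (r k)) f hk.some) else 0, fun i j hij => ?_⟩
    obtain ⟨x, hx⟩ := hij
    have hi : (W' i).Nonempty := ⟨x, hx.1⟩
    have hj : (W' j).Nonempty := ⟨x, hx.2⟩
    simp only
    rw [dif_pos hi, dif_pos hj, ← hconst i _ hi.some_mem x hx.1, ← hconst j _ hj.some_mem x hx.2,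
      h.rel (r i) (r j) x ⟨hs i hx.1, hs j hx.2⟩, D.tl_change ⟨hs i hx.1, hs j hx.2⟩, map_neg,
      map_add]
    abel
  · rintro ⟨v, hv⟩
    have hκ : ∀ x, ∃ i : Option ι', x ∈ (⋃ i, W' i) → ∃ j, i = some j ∧ x ∈ W' j := by
      intro x
      by_cases hx : x ∈ ⋃ i, W' i
      · obtain ⟨j, hj⟩ := mem_iUnion.1 hx
        exact ⟨some j, fun _ => ⟨j, rfl, hj⟩⟩
      · exact ⟨none, fun h => absurd h hx⟩
    choose κ hκ using hκ
    let f : ℂ → Fin N → ℂ := fun x => match κ x with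
      | none => 0
      | some j => -act (D.T (r j) x) (ψ (r j) x + v j)
    have hf : ∀ k, ∀ x ∈ W' k, f x = -act (D.T (r k) x) (ψ (r k) x + v k) := by
      intro k x hx
      obtain ⟨j, hj, hxj⟩ := hκ x (mem_iUnion.2 ⟨k, hx⟩)
      have h1 : f x = -act (D.T (r j) x) (ψ (r j) x + v j) := by simp only [f, hj]
      have h2 := hv k j ⟨x, hx, hxj⟩
      have h3 := h.rel (r k) (r j) x ⟨hs k hx, hs j hxj⟩
      have h4 : ψ (r k) x + v k = act (D.G (r k) (r j)) (ψ (r j) x + v j) := by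
        rw [h3, h2, map_add]; abel
      rw [h1, h4, ← act_mul_apply, D.G_eq ⟨hs k hx, hs j hxj⟩, mul_inv_cancel_left]
    refine ⟨f, fun z hz => ?_⟩
    obtain ⟨k, hk⟩ := mem_iUnion.1 hz
    obtain ⟨U', hU', h2⟩ := h.loc (r k) z (hs k hk)
    obtain ⟨U'', hU'', h3⟩ := D.tri (r k) z (hs k hk)
    refine ⟨U' ∩ U'' ∩ W' k, inter_mem (inter_mem hU' hU'') ((ho k).mem_nhds hk),
      fun x hx y hy => ?_⟩
    rw [h2 x hx.1.1 y hy.1.1, hf k x hx.2, hf k y hy.2, h3 x hx.1.2 y hy.1.2, act_mul_apply,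
      map_neg, act_inv_act, map_neg, map_sub, map_add, map_add]
    abel

theorem HasU.cob_iff' (h : HasU D u ψ c) : CobOn (⋃ i, D.W i) P u ↔
    ∃ v : ι → Fin N → ℂ, ∀ i j, (D.W i ∩ D.W j).Nonempty →
      c i j = act (D.G i j) (v j) - v i :=
  h.cob_iff (fun i => i) D.W D.isOpen D.convex fun i => le_rfl

theorem HasU.end_iff [Finite ι] {M : Type} [Finite M] {B : ℕ → M → Set ℂ}
    (ho : ∀ n m, IsOpen (B n m)) (hc : ∀ n m, Convex ℝ (B n m))
    (hB : ∀ m, Antitone fun n => B n m) (h : HasU D u ψ c) :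
    (∃ n, CobOn (⋃ i, D.piece B n i) P u) ↔ ∃ v : ι × M → Fin N → ℂ, ∀ i j, D.meet B i j →
      c i.1 j.1 = act (D.G i.1 j.1) (v j) - v i := by
  obtain ⟨n₀, hn₀⟩ := D.exists_stable B hB
  have key : ∀ n, CobOn (⋃ i, D.piece B n i) P u ↔ ∃ v : ι × M → Fin N → ℂ, ∀ i j,
      (D.piece B n i ∩ D.piece B n j).Nonempty →
        c i.1 j.1 = act (D.G i.1 j.1) (v j) - v i := fun n =>
    h.cob_iff (fun i : ι × M => i.1) (D.piece B n)
      (fun i => (D.isOpen i.1).inter (ho n i.2)) (fun i => (D.convex i.1).inter (hc n i.2))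
      (fun i => inter_subset_left)
  constructor
  · rintro ⟨n, hn⟩
    have h1 : CobOn (⋃ i, D.piece B (max n n₀) i) P u := CobOn.mono hn (by
      refine iUnion_mono fun i => inter_subset_inter le_rfl (hB i.2 (le_max_left _ _)))
    obtain ⟨v, hv⟩ := (key _).1 h1
    exact ⟨v, fun i j hij => hv i j ((hn₀ _ (le_max_right _ _) i j).2 hij)⟩
  · rintro ⟨v, hv⟩
    exact ⟨n₀, (key n₀).2 ⟨v, fun i j hij => hv i j ((hn₀ _ le_rfl i j).1 hij)⟩⟩

/-- the cochain of an integral cocycle is integral up to a coboundary -/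
theorem HasU.int (h : HasU D u ψ c) (hu : ∀ z ∈ ⋃ i, D.W i, ∃ U ∈ 𝓝 z, ∀ x ∈ U, ∀ y ∈ U,
    u x y ∈ stdLat (Fin N)) : ∃ v : ι → Fin N → ℂ, ∀ i j, (D.W i ∩ D.W j).Nonempty →
      c i j - (act (D.G i j) (v j) - v i) ∈ stdLat (Fin N) := by
  classical
  have hf1 : ∀ i, ∀ x ∈ D.W i, ∀ y ∈ D.W i, ψ i y - ψ i x ∈ stdLat (Fin N) := by
    intro i x hx y hy
    refine int_incr (D.isOpen i) (D.convex i) (fun z hz => ?_) hx hy
    obtain ⟨U, hU, h1⟩ := hu z (mem_iUnion.2 ⟨i, hz⟩)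
    obtain ⟨U', hU', h2⟩ := h.loc i z hz
    refine ⟨U ∩ U', inter_mem hU hU', fun x hx y hy => ?_⟩
    have h3 : ψ i y - ψ i x = act (D.T i x)⁻¹ (u x y) := by
      rw [h2 x hx.2 y hy.2, act_inv_act]
    rw [h3]
    exact act_mem_std _ (h1 x hx.1 y hy.1)
  refine ⟨fun i => if hi : (D.W i).Nonempty then - ψ i hi.some else 0, fun i j hij => ?_⟩
  obtain ⟨x, hx⟩ := hij
  have hi : (D.W i).Nonempty := ⟨x, hx.1⟩
  have hj : (D.W j).Nonempty := ⟨x, hx.2⟩
  simp only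
  rw [dif_pos hi, dif_pos hj]
  have h2 : c i j - (act (D.G i j) (-ψ j hj.some) - -ψ i hi.some) =
      (ψ i x - ψ i hi.some) - act (D.G i j) (ψ j x - ψ j hj.some) := by
    rw [h.rel i j x hx, map_sub, map_neg]; abel
  rw [h2]
  exact sub_mem (hf1 i _ hi.some_mem _ hx.1) (act_mem_std _ (hf1 j _ hj.some_mem _ hx.2))

/-- every Čech cocycle comes from a near-diagonal cocycle, integral if the Čech cocycle is -/
theorem realiseU (c : Co N ι) (hc : ∀ i j l,
    (D.W i ∩ D.W j ∩ D.W l).Nonempty → c i j + act (D.G i j) (c j l) = c i l) :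
    ∃ u ψ, HasU D u ψ c ∧ CocOn (⋃ i, D.W i) P u ∧
      ((∀ i j, c i j ∈ stdLat (Fin N)) → ∀ x y, u x y ∈ stdLat (Fin N)) := by
  classical
  have hκ : ∀ x, ∃ i : Option ι, x ∈ (⋃ i, D.W i) → ∃ j, i = some j ∧ x ∈ D.W j := by
    intro x
    by_cases hx : x ∈ ⋃ i, D.W i
    · obtain ⟨j, hj⟩ := mem_iUnion.1 hx
      exact ⟨some j, fun _ => ⟨j, rfl, hj⟩⟩
    · exact ⟨none, fun h => absurd h hx⟩
  choose κ hκ using hκ
  let ψ : ι → ℂ → Fin N → ℂ := fun i x => match κ x with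
    | none => 0
    | some j => c i j
  have hψ : ∀ i j, ∀ x ∈ D.W i ∩ D.W j, ψ i x = act (D.G i j) (ψ j x) + c i j := by
    intro i j x hx
    obtain ⟨l, hl, hxl⟩ := hκ x (mem_iUnion.2 ⟨i, hx.1⟩)
    have h1 : ψ i x = c i l := by simp only [ψ, hl]
    have h2 : ψ j x = c j l := by simp only [ψ, hl]
    rw [h1, h2, ← hc i j l ⟨x, hx, hxl⟩]
    abel
  have hloc : ∀ i, ∀ z ∈ D.W i, ∃ U ∈ 𝓝 z, ∀ x ∈ U, ∀ y ∈ U,
      D.nd ψ x y = act (D.T i x) (ψ i y - ψ i x) := fun i z hz =>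
    ⟨D.W i, (D.isOpen i).mem_nhds hz, fun x hx y hy => Fam.nd_eq hψ hx hy⟩
  refine ⟨D.nd ψ, ψ, ⟨hloc, hψ⟩, fun z hz => ?_, fun hint x y => ?_⟩
  · obtain ⟨i, hi⟩ := mem_iUnion.1 hz
    obtain ⟨U, hU, hT⟩ := D.tri i z hi
    refine ⟨U ∩ D.W i, inter_mem hU ((D.isOpen i).mem_nhds hi), fun x hx y hy t ht => ?_⟩
    show D.nd ψ x y + act (P x y) (D.nd ψ y t) = D.nd ψ x t
    rw [Fam.nd_eq hψ hx.2 hy.2, Fam.nd_eq hψ hy.2 ht.2, Fam.nd_eq hψ hx.2 ht.2,
      hT x hx.1 y hy.1, act_mul_apply, act_inv_act, ← map_add]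
    congr 1
    abel
  · have hint' : ∀ i x, ψ i x ∈ stdLat (Fin N) := by
      intro i x
      simp only [ψ]
      cases κ x with
      | none => exact zero_mem _
      | some j => exact hint i j
    by_cases hxy : ∃ i, x ∈ D.W i ∧ y ∈ D.W i
    · obtain ⟨i, hx, hy⟩ := hxy
      rw [Fam.nd_eq hψ hx hy]
      exact act_mem_std _ (sub_mem (hint' i y) (hint' i x))
    · rw [Fam.nd, dif_neg hxy]
      exact zero_mem _

end fam

end

end Crest.Agent.R276.Latt_937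
end

-- ▼ part R276/Latt2_937
section

/-!
# R276 (helper937): the lattice theorem for near-diagonal cocycles, part 2

`ParU` : cobounding near each puncture and near infinity; `parU_iff_compact`;
**`latt`** : integral basis of the parabolic cohomology of the punctured plane.
-/

set_option autoImplicit false
set_option linter.unusedSectionVars false
set_option linter.unusedVariables false

open Set Filter Topology MeasureTheory Matrix
open scoped ContDiff Manifold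

namespace Crest.Agent.R276.Latt_937

open Ipc735 Lat_348 Top2_937

noncomputable section

variable {N : ℕ}

/-- parabolic: a coboundary near each puncture and near infinity -/
def ParU (P : ℂ → ℂ → GL (Fin N) ℤ) (A : Finset ℂ) (u : ℂ → ℂ → Fin N → ℂ) : Prop :=
  (∀ p ∈ A, ∃ U ∈ 𝓝 p, CobOn (U ∩ (A : Set ℂ)ᶜ) P u) ∧
    ∃ R : ℝ, CobOn ({z | R < ‖z‖} ∩ (A : Set ℂ)ᶜ) P u

theorem parU_iff {P : ℂ → ℂ → GL (Fin N) ℤ} {A : Finset ℂ} {u : ℂ → ℂ → Fin N → ℂ} :
    ParU P A u ↔ ∀ e : Option A, ∃ n, CobOn (EE (endOf A e) n ∩ (A : Set ℂ)ᶜ) P u := by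
  constructor
  · rintro ⟨h1, R, hR⟩ (_ | p)
    · obtain ⟨n, hn⟩ := exists_nat_ge R
      refine ⟨n, CobOn.mono hR (inter_subset_inter ?_ le_rfl)⟩
      intro z hz
      obtain ⟨m, hm⟩ := mem_iUnion.1 hz
      have hm' : (n : ℝ) < lf m z := hm
      exact lt_of_le_of_lt hn (lt_of_lt_of_le hm' (lf_le m z))
    · obtain ⟨U, hU, hex⟩ := h1 p p.2
      obtain ⟨r, hr, hrU⟩ := Metric.mem_nhds_iff.1 hU
      obtain ⟨n, hn⟩ := exists_nat_one_div_lt hr
      refine ⟨n, CobOn.mono hex (inter_subset_inter ?_ le_rfl)⟩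
      show EE (some (p : ℂ)) n ⊆ U
      rw [EE_some]
      exact (Metric.ball_subset_ball hn.le).trans hrU
  · intro h
    constructor
    · intro p hp
      obtain ⟨n, hn⟩ := h (some ⟨p, hp⟩)
      refine ⟨Metric.ball p (1 / ((n : ℝ) + 1)), Metric.ball_mem_nhds _ (by positivity), ?_⟩
      have h2 : EE (endOf A (some ⟨p, hp⟩)) n = Metric.ball p (1 / ((n : ℝ) + 1)) := EE_some p n
      rwa [h2] at hn
    · obtain ⟨n, hn⟩ := h none
      refine ⟨2 * n, CobOn.mono hn (inter_subset_inter ?_ le_rfl)⟩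
      intro z hz
      obtain ⟨m, hm⟩ := exists_lf_gt hz
      exact mem_iUnion.2 ⟨m, hm⟩



theorem ParU.add {P : ℂ → ℂ → GL (Fin N) ℤ} {A : Finset ℂ} {u v : ℂ → ℂ → Fin N → ℂ}
    (h : ParU P A u) (h' : ParU P A v) : ParU P A (u + v) := by
  rw [parU_iff] at *
  intro e
  obtain ⟨n, hn⟩ := h e
  obtain ⟨k, hk⟩ := h' e
  have hm : ∀ j l, j ≤ l → EE (endOf A e) l ∩ (A : Set ℂ)ᶜ ⊆ EE (endOf A e) j ∩ (A : Set ℂ)ᶜ :=
    fun j l hjl => inter_subset_inter
      (iUnion_mono fun m => antitone_EB (endOf A e) m hjl) le_rfl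
  exact ⟨max n k, CobOn.add (CobOn.mono hn (hm _ _ (le_max_left _ _)))
    (CobOn.mono hk (hm _ _ (le_max_right _ _)))⟩

theorem ParU.smul {P : ℂ → ℂ → GL (Fin N) ℤ} {A : Finset ℂ} {u : ℂ → ℂ → Fin N → ℂ}
    (h : ParU P A u) (c : ℂ) : ParU P A (c • u) := by
  rw [parU_iff] at *
  intro e
  obtain ⟨n, hn⟩ := h e
  exact ⟨n, CobOn.smul hn c⟩

theorem ParU.sub {P : ℂ → ℂ → GL (Fin N) ℤ} {A : Finset ℂ} {u v : ℂ → ℂ → Fin N → ℂ}
    (h : ParU P A u) (h' : ParU P A v) : ParU P A (u - v) := by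
  have h1 := h.add (h'.smul (-1))
  simpa [sub_eq_add_neg] using h1

theorem CobOn.parU {P : ℂ → ℂ → GL (Fin N) ℤ} {A : Finset ℂ} {u : ℂ → ℂ → Fin N → ℂ}
    (h : CobOn (A : Set ℂ)ᶜ P u) : ParU P A u := by
  rw [parU_iff]
  exact fun e => ⟨0, CobOn.mono h inter_subset_right⟩

/-- **LATT.** Integral basis of the parabolic cohomology of the punctured plane, in terms of
near-diagonal cocycles. -/
theorem latt {A : Finset ℂ} {P : ℂ → ℂ → GL (Fin N) ℤ} (hP : NDCOn (A : Set ℂ)ᶜ P) :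
    ∃ (n : ℕ) (w : Fin n → ℂ → ℂ → Fin N → ℂ),
      (∀ k, CocOn (A : Set ℂ)ᶜ P (w k) ∧ (∀ x y, w k x y ∈ stdLat (Fin N)) ∧ ParU P A (w k)) ∧
      ∀ u, CocOn (A : Set ℂ)ᶜ P u → ParU P A u →
        (∃! c : Fin n → ℂ, CobOn (A : Set ℂ)ᶜ P (u - ∑ k, c k • w k)) ∧
        ∀ c : Fin n → ℂ, CobOn (A : Set ℂ)ᶜ P (u - ∑ k, c k • w k) →
          ((∃ h, CocOn (A : Set ℂ)ᶜ P h ∧ (∀ x y, h x y ∈ stdLat (Fin N)) ∧
            CobOn (A : Set ℂ)ᶜ P (u - h)) ↔ ∀ k, ∃ m : ℤ, c k = m) := by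
  classical
  let D : Fam P (A → Fin 4) := mainFam hP
  have hU : (⋃ i, D.W i) = (A : Set ℂ)ᶜ := iUnion_main hP
  let R2 : (A → Fin 4) → (A → Fin 4) → Prop := fun i j => (D.W i ∩ D.W j).Nonempty
  let R3 : (A → Fin 4) → (A → Fin 4) → (A → Fin 4) → Prop :=
    fun i j l => (D.W i ∩ D.W j ∩ D.W l).Nonempty
  let mt : Option A → ((A → Fin 4) × Fin 4) → ((A → Fin 4) × Fin 4) → Prop :=
    fun e => D.meet (EB (endOf A e))
  have hG : ∀ i j l, R3 i j l → D.G i j * D.G j l = D.G i l := by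
    rintro i j l ⟨x, ⟨hi, hj⟩, hl⟩
    rw [D.G_eq ⟨hi, hj⟩, D.G_eq ⟨hj, hl⟩, D.G_eq ⟨hi, hl⟩]
    group
  have h23 : ∀ i j l, R3 i j l → R2 i j ∧ R2 j l ∧ R2 i l := by
    rintro i j l ⟨x, ⟨hi, hj⟩, hl⟩
    exact ⟨⟨x, hi, hj⟩, ⟨x, hj, hl⟩, ⟨x, hi, hl⟩⟩
  have hm2 : ∀ e i j, mt e i j → R2 i.1 j.1 := by
    intro e i j h
    obtain ⟨x, hx1, hx2⟩ := h 0
    exact ⟨x, hx1.1, hx2.1⟩
  have hend : ∀ {u : ℂ → ℂ → Fin N → ℂ} {ψ : (A → Fin 4) → ℂ → Fin N → ℂ}
      {c : Co N (A → Fin 4)}, HasU D u ψ c →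
      (ParU P A u ↔ ∀ e, ∃ v : ((A → Fin 4) × Fin 4) → Fin N → ℂ,
        ∀ i j, mt e i j → c i.1 j.1 = act (D.G i.1 j.1) (v j) - v i) := by
    intro u ψ c h
    rw [parU_iff]
    refine forall_congr' fun e => ?_
    rw [← h.end_iff (isOpen_EB (endOf A e)) (convex_EB (endOf A e)) (antitone_EB (endOf A e))]
    refine exists_congr fun n => ?_
    rw [iUnion_piece hP]
  obtain ⟨n, w, hw1, hw2, hw3, hw4⟩ := exists_basis_co D.G R2 R3
    (fun i : (A → Fin 4) × Fin 4 => i.1) mt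
  have hmem : ∀ {u : ℂ → ℂ → Fin N → ℂ} {ψ : (A → Fin 4) → ℂ → Fin N → ℂ}
      {c : Co N (A → Fin 4)}, HasU D u ψ c → ParU P A u → (∀ i j, ¬ R2 i j → c i j = 0) →
      c ∈ parZ D.G R2 R3 (fun i : (A → Fin 4) × Fin 4 => i.1) mt := by
    intro u ψ c h hp h0
    rw [mem_parZ]
    exact ⟨h0, fun i j l h1 => h.cocycle h1, (hend h).1 hp⟩
  have hnorm : ∀ {u : ℂ → ℂ → Fin N → ℂ}, CocOn (⋃ i, D.W i) P u →
      ∃ (ψ : (A → Fin 4) → ℂ → Fin N → ℂ) (c : Co N (A → Fin 4)), HasU D u ψ c ∧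
        ∀ i j, ¬ R2 i j → c i j = 0 := by
    intro u hu
    obtain ⟨ψ, c₀, h⟩ := exists_hasU hu
    exact ⟨ψ, fun i j => if R2 i j then c₀ i j else 0, h.congr fun i j hij => if_pos hij,
      fun i j hij => if_neg hij⟩
  have hreal : ∀ k, ∃ (u : ℂ → ℂ → Fin N → ℂ) (ψ : (A → Fin 4) → ℂ → Fin N → ℂ),
      HasU D u ψ (w k) ∧ CocOn (⋃ i, D.W i) P u ∧ (∀ x y, u x y ∈ stdLat (Fin N)) ∧
      ParU P A u := by
    intro k
    have hk := (mem_parZ D.G R2 R3 (fun i : (A → Fin 4) × Fin 4 => i.1) mt).1 (hw1 k)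
    obtain ⟨u, ψ, h1, h2, h3⟩ := realiseU (w k) hk.2.1
    exact ⟨u, ψ, h1, h2, h3 (hw2 k), (hend h1).2 hk.2.2⟩
  choose W Ψ hW1 hW2 hW3 hW4 using hreal
  have hcomb : ∀ {u : ℂ → ℂ → Fin N → ℂ} {ψ : (A → Fin 4) → ℂ → Fin N → ℂ}
      {c : Co N (A → Fin 4)}, HasU D u ψ c → ∀ l : Fin n → ℂ,
      (CobOn (⋃ i, D.W i) P (u - ∑ k, l k • W k) ↔ ∃ v : (A → Fin 4) → Fin N → ℂ,
        ∀ i j, R2 i j → c i j - ∑ k, l k • w k i j = act (D.G i j) (v j) - v i) := by
    intro u ψ c h l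
    have h1 := h.sub (HasU.sum Finset.univ fun k _ => (hW1 k).smul (l k))
    rw [h1.cob_iff']
    refine exists_congr fun v => forall_congr' fun i => forall_congr' fun j =>
      forall_congr' fun hij => ?_
    rw [Pi.sub_apply, Pi.sub_apply, Finset.sum_apply, Finset.sum_apply]
    rfl
  refine ⟨n, W, fun k => ?_, ?_⟩
  · rw [← hU]
    exact ⟨hW2 k, hW3 k, hW4 k⟩
  · intro u hu hpar
    rw [← hU] at hu ⊢
    obtain ⟨ψ, c, hc, hc0⟩ := hnorm hu
    have hcz := hmem hc hpar hc0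
    have h1 := hcomb hc
    refine ⟨?_, fun l hl => ?_⟩
    · simp only [h1]
      exact hw3 c hcz
    · have hl' := (h1 l).1 hl
      rw [← hw4 c hcz l hl']
      constructor
      · rintro ⟨h, hh1, hh2, hh3⟩
        obtain ⟨ψ', c', hc', hc0'⟩ := hnorm hh1
        have hpar' : ParU P A h := by
          have h2 : ParU P A (u - h) := CobOn.parU (by rw [← hU]; exact hh3)
          have h3 := hpar.sub h2
          rwa [sub_sub_cancel] at h3
        have hcz' := hmem hc' hpar' hc0'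
        obtain ⟨v, hv⟩ := hc'.int fun z hz => ⟨univ, univ_mem, fun x _ y _ => hh2 x y⟩
        obtain ⟨v', hv'⟩ := (hc.sub hc').cob_iff'.1 hh3
        refine ⟨c' - Df D.G R2 v, Submodule.sub_mem _ hcz'
          (Df_mem_parZ D.G R2 R3 _ mt hG h23 hm2 v), fun i j => ?_, v' + v, fun i j hij => ?_⟩
        · rw [Pi.sub_apply, Pi.sub_apply]
          by_cases hij : R2 i j
          · rw [Df_pos D.G R2 hij]
            exact hv i j hij
          · rw [Df_neg D.G R2 hij, hc0' i j hij, sub_zero]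
            exact zero_mem _
        · have h2 := hv' i j hij
          rw [Pi.sub_apply, Pi.sub_apply] at h2 ⊢
          rw [Df_pos D.G R2 hij, Pi.add_apply, Pi.add_apply, map_add]
          have h3 : c i j = c' i j + (act (D.G i j) (v' j) - v' i) := by rw [← h2]; abel
          rw [h3]; abel
      · rintro ⟨m, hm, hm2, v, hv⟩
        have hk := (mem_parZ D.G R2 R3 (fun i : (A → Fin 4) × Fin 4 => i.1) mt).1 hm
        obtain ⟨h, ψ', h2, h3, h4⟩ := realiseU m hk.2.1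
        refine ⟨h, h3, h4 hm2, (hc.sub h2).cob_iff'.2 ⟨v, fun i j hij => ?_⟩⟩
        rw [Pi.sub_apply, Pi.sub_apply]
        exact hv i j hij

end

end Crest.Agent.R276.Latt_937
end

-- ▼ part R276/Top3j_279
section

/-!
# Row 276, IPC-TOP3 (helper279), part 10: the integral classes form a lattice

* `lat` : `IsCLat (LW V s)` (field `lat` of helper454's `HFam`), from helper937's `latt`.
-/

set_option autoImplicit false
set_option linter.unusedSectionVars false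

noncomputable section

open Set Filter Topology Matrix

namespace Crest.Agent.R276.Top3_279

open Crest.Agent.R271.Ho51 Crest.Agent.R276.Ipc735 Crest.Agent.R276.DR_175
open Crest.Agent.R276.Lat_348

variable {m : ℕ} {S : Type*} [TopologicalSpace S] [RDom m S] {k : ℕ} {Q : Punc S k} {N w : ℕ}
variable (V : VHS (m + 1) (Tot Q) N w)

/-- restriction to the fibre as a linear map -/
def rstL (Q : Punc S k) (s : S) :
    (ℂ → ℂ → Fin N → ℂ) →ₗ[ℂ] (Fib Q s → Fib Q s → Fin N → ℂ) where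
  toFun := rst s
  map_add' _ _ := rfl
  map_smul' _ _ := rfl

/-- the submodule of cocycles on the plane -/
def ZZ (s : S) : Submodule ℂ (ℂ → ℂ → Fin N → ℂ) := (Z1 (rC N) (fP V.P s)).comap (rstL Q s)

lemma mem_ZZ {s : S} {u : ℂ → ℂ → Fin N → ℂ} :
    u ∈ ZZ V s ↔ CocOn ((Q.A s : Set ℂ)ᶜ) (rP Q V.P s) u := rst_mem_iff V s u

/-- the class as a linear map -/
def clL (s : S) : ZZ V s →ₗ[ℂ] HF (rC N) V.P s :=
  (Submodule.mkQ _).comp (((rstL Q s).domRestrict (ZZ V s)).codRestrict (Z1 (rC N) (fP V.P s))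
    (fun u => u.2))

lemma clL_apply {s : S} {u : ℂ → ℂ → Fin N → ℂ}
    (hu : CocOn ((Q.A s : Set ℂ)ᶜ) (rP Q V.P s) u) :
    clL V s ⟨u, (mem_ZZ V).2 hu⟩ = cl V s u hu := rfl

lemma cobOn_sub_iff {s : S} {u : ℂ → ℂ → Fin N → ℂ}
    (hu : CocOn ((Q.A s : Set ℂ)ᶜ) (rP Q V.P s) u) {n : ℕ} {g : Fin n → ℂ → ℂ → Fin N → ℂ}
    (hg : ∀ j, CocOn ((Q.A s : Set ℂ)ᶜ) (rP Q V.P s) (g j)) (c : Fin n → ℂ) :
    CobOn ((Q.A s : Set ℂ)ᶜ) (rP Q V.P s) (u - ∑ j, c j • g j) ↔
      cl V s u hu = ∑ j, c j • cl V s (g j) (hg j) := by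
  have h1 : u - ∑ j, c j • g j ∈ ZZ V s :=
    Submodule.sub_mem _ ((mem_ZZ V).2 hu) (Submodule.sum_mem _ fun j _ =>
      Submodule.smul_mem _ _ ((mem_ZZ V).2 (hg j)))
  have h2 : clL V s ⟨u - ∑ j, c j • g j, h1⟩ = cl V s u hu - ∑ j, c j • cl V s (g j) (hg j) := by
    have h3 : (⟨u - ∑ j, c j • g j, h1⟩ : ZZ V s) = ⟨u, (mem_ZZ V).2 hu⟩ -
        ∑ j, c j • (⟨g j, (mem_ZZ V).2 (hg j)⟩ : ZZ V s) := by
      apply Subtype.ext
      simp only [Submodule.coe_sub, Submodule.coe_sum, Submodule.coe_smul]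
    rw [h3, map_sub, map_sum]
    simp only [map_smul]
    rfl
  rw [← sub_eq_zero, ← h2, clL_apply V ((mem_ZZ V).1 h1), cl_eq_zero_iff]

/-- **the integral classes form a lattice** (field `lat`) -/
theorem lat (s : S) : IsCLat (LW V s) := by
  classical
  have hP : NDCOn ((Q.A s : Set ℂ)ᶜ) (rP Q V.P s) := by
    intro z hz
    obtain ⟨U, hU, h1⟩ := (fP_ndc (vndc V) s) ⟨z, hz⟩
    obtain ⟨W, hW, h2⟩ := exists_nhds _ hU
    refine ⟨W, hW, fun x hx y hy t ht => ?_⟩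
    obtain ⟨hx', hx2⟩ := h2 x hx
    obtain ⟨hy', hy2⟩ := h2 y hy
    obtain ⟨ht', ht2⟩ := h2 t ht
    have e1 := rP_eq V s ⟨x, hx'⟩ ⟨y, hy'⟩
    have e2 := rP_eq V s ⟨y, hy'⟩ ⟨t, ht'⟩
    have e3 := rP_eq V s ⟨x, hx'⟩ ⟨t, ht'⟩
    simp only [] at e1 e2 e3
    rw [e1, e2, e3]
    exact h1 _ hx2 _ hy2 _ ht2
  obtain ⟨n, g, hg, hmain⟩ := Latt_937.latt hP
  have hgc : ∀ j, CocOn ((Q.A s : Set ℂ)ᶜ) (rP Q V.P s) (g j) := fun j => (hg j).1
  have hgp : ∀ j, cl V s (g j) (hgc j) ∈ parF (rC N) V.P s := fun j =>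
    (cl_mem_par_iff V).2 (hg j).2.2
  let W : Fin n → Wf V s := fun j => ⟨cl V s (g j) (hgc j), hgp j⟩
  let Φ : (Fin n → ℂ) →ₗ[ℂ] Wf V s := Fintype.linearCombination ℂ W
  have hΦ : ∀ c : Fin n → ℂ, (Φ c).1 = ∑ j, c j • cl V s (g j) (hgc j) := by
    intro c
    show (Fintype.linearCombination ℂ W c).1 = _
    rw [Fintype.linearCombination_apply, Submodule.coe_sum]
    rfl
  have hex : ∀ a : Wf V s, ∃ (u : ℂ → ℂ → Fin N → ℂ)
      (hu : CocOn ((Q.A s : Set ℂ)ᶜ) (rP Q V.P s) u), cl V s u hu = a.1 ∧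
        Latt_937.ParU (rP Q V.P s) (Q.A s) u := by
    intro a
    obtain ⟨u, hu, h⟩ := cl_surj V s a.1
    exact ⟨u, hu, h, (cl_mem_par_iff V).1 (by rw [h]; exact a.2)⟩
  have hbij : Function.Bijective Φ := by
    constructor
    · intro c c' hcc
      obtain ⟨u, hu, hua, hup⟩ := hex (Φ c)
      obtain ⟨c0, hc0, huniq⟩ := (hmain u hu hup).1
      have e1 : c = c0 := huniq c (by
        show CobOn _ _ _
        rw [cobOn_sub_iff V hu hgc, hua, hΦ])
      have e2 : c' = c0 := huniq c' (by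
        show CobOn _ _ _
        rw [cobOn_sub_iff V hu hgc, hua, hcc, hΦ])
      rw [e1, e2]
    · intro a
      obtain ⟨u, hu, hua, hup⟩ := hex a
      obtain ⟨c0, hc0, -⟩ := (hmain u hu hup).1
      refine ⟨c0, Subtype.ext ?_⟩
      rw [hΦ, ← (cobOn_sub_iff V hu hgc c0).1 hc0, hua]
  let b : Module.Basis (Fin n) ℂ (Wf V s) :=
    Module.Basis.ofEquivFun (LinearEquiv.ofBijective Φ hbij).symm
  refine isCLat_of_basis b fun a => ?_
  obtain ⟨u, hu, hua, hup⟩ := hex a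
  have hrepr : CobOn ((Q.A s : Set ℂ)ᶜ) (rP Q V.P s) (u - ∑ j, (b.repr a j) • g j) := by
    rw [cobOn_sub_iff V hu hgc, hua, ← hΦ]
    have h1 : (⇑(b.repr a) : Fin n → ℂ) = (LinearEquiv.ofBijective Φ hbij).symm a := by
      funext j
      exact Module.Basis.ofEquivFun_repr_apply _ a j
    rw [h1]
    have h2 : Φ ((LinearEquiv.ofBijective Φ hbij).symm a) = a :=
      (LinearEquiv.ofBijective Φ hbij).apply_symm_apply a
    rw [h2]
  rw [← (hmain u hu hup).2 _ hrepr, mem_LW_cl_iff]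
  constructor
  · rintro ⟨h, hh, hint, hcl⟩
    refine ⟨h, hh, fun x y i => ?_, ?_⟩
    · obtain ⟨v, hv⟩ := hint x y
      exact ⟨v i, by rw [hv]; rfl⟩
    · have := (cl_eq_iff V (hu := hu) (hu' := hh)).1 (by rw [hua, hcl])
      exact this
  · rintro ⟨h, hh, hint, hcob⟩
    refine ⟨h, hh, fun x y => ?_, ?_⟩
    · choose v hv using hint x y
      exact ⟨v, funext hv⟩
    · rw [← hua]
      exact ((cl_eq_iff V (hu := hu) (hu' := hh)).2 hcob).symm

end Crest.Agent.R276.Top3_279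
end
end

-- ▼ part R276/Top3k_279

/-!
# Row 276, IPC-TOP3 (helper279), part 11: `Wf V s` as a normed space

* `wfBasis V s` : a lattice basis of `Wf V s`;
* instances `NormedAddCommGroup (Wf V s)`, `NormedSpace ℂ (Wf V s)` (with the same additive group and
  module structure), `FiniteDimensional ℂ (Wf V s)`.
-/

set_option autoImplicit false
set_option linter.unusedSectionVars false

noncomputable section

open Set Filter Topology Matrix

namespace Crest.Agent.R276.Top3_279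

open Crest.Agent.R271.Ho51 Crest.Agent.R276.Ipc735
open Crest.Agent.R276.Lat_348

variable {m : ℕ} {S : Type*} [TopologicalSpace S] [RDom m S] {k : ℕ} {Q : Punc S k} {N w : ℕ}
variable (V : VHS (m + 1) (Tot Q) N w)

/-- the rank of the parabolic cohomology -/
def wfRank (s : S) : ℕ := (lat V s).choose

/-- a lattice basis of the parabolic cohomology -/
def wfBasis (s : S) : Module.Basis (Fin (wfRank V s)) ℂ (Wf V s) := (lat V s).choose_spec.choose


instance wfFD (s : S) : FiniteDimensional ℂ (Wf V s) := (wfBasis V s).finiteDimensional_of_finite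

instance wfNorm (s : S) : NormedAddCommGroup (Wf V s) :=
  NormedAddCommGroup.induced (Wf V s) (Fin (wfRank V s) → ℂ)
    (wfBasis V s).equivFun.toLinearMap (wfBasis V s).equivFun.injective

instance wfSpace (s : S) : NormedSpace ℂ (Wf V s) :=
  NormedSpace.induced ℂ (Wf V s) (Fin (wfRank V s) → ℂ) (wfBasis V s).equivFun.toLinearMap



end Crest.Agent.R276.Top3_279
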