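import Crest.Agent.R276.Nat2_591
import Crest.Agent.R276.Psi_563
import Mathlib
import Crest.Agent.R276.HsB_817
import Crest.Agent.R276.K4b_817
import Crest.Agent.R276.FamA_563

-- ▼ part R276/Nat3_591
section

/-!
# R276, leaf IPC-NAT (helper591), part 3: flat bundle maps over a diffeomorphism and one-forms

`FlatOver F F' Ψ K` : `K x : V_{Ψ x} → V'_x` flat (near the diagonal).  `Kf Ψ K x` : the induced map of
one-forms `a dx + b dx̄ ↦ Ψ^*(a dx + b dx̄)`.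
-/

set_option autoImplicit false

open Set Filter Topology MeasureTheory UniformSpace
open scoped ContDiff ComplexConjugate

namespace Crest.Agent.R276.Nat_591

open VCalc_442 IpcGr_975 IpcG1_975 Psi_563

variable {V V' : Type*} [NormedAddCommGroup V] [NormedSpace ℂ V] [NormedAddCommGroup V']
  [NormedSpace ℂ V'] {X X' : Set ℂ}

/-- flat bundle map over `Ψ` -/
structure FlatOver (F : FB V X) (F' : FB V' X') (Ψ : ℂ → ℂ) (K : ℂ → (V →L[ℂ] V')) : Prop where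
  maps : ∀ x ∈ X', Ψ x ∈ X
  off : ∀ x ∉ X', Ψ x ∉ X
  smΨ : ∀ x ∈ X', ContDiffAt ℝ ∞ Ψ x
  flat : ∀ z ∈ X', ∀ᶠ y in 𝓝 z, (F'.P z y).comp (K y) = (K z).comp (F.P (Ψ z) (Ψ y))
  prop : ∀ K₀ ⊆ X, IsCompact K₀ → ∃ K₁ ⊆ X', IsCompact K₁ ∧ ∀ x ∉ K₁, Ψ x ∉ K₀

/-- the map of one-forms -/
noncomputable def Kf (Ψ : ℂ → ℂ) (K : ℂ → (V →L[ℂ] V')) (x : ℂ) : (V × V) →L[ℂ] (V' × V') :=
  ((dW Ψ 1 x • ((K x).comp (ContinuousLinearMap.fst ℂ V V)) +
      conj (dB Ψ 1 x) • ((K x).comp (ContinuousLinearMap.snd ℂ V V)))).prod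
    (dB Ψ 1 x • ((K x).comp (ContinuousLinearMap.fst ℂ V V)) +
      conj (dW Ψ 1 x) • ((K x).comp (ContinuousLinearMap.snd ℂ V V)))

theorem Kf_apply (Ψ : ℂ → ℂ) (K : ℂ → (V →L[ℂ] V')) (x : ℂ) (u : V × V) :
    Kf Ψ K x u = pull (dW Ψ 1 x) (dB Ψ 1 x) (K x u.1, K x u.2) := rfl

/-- `F2` is the bundle of one-forms with values in `F` -/
def IsForm (F : FB V X) (F2 : FB (V × V) X) : Prop :=
  ∀ x y u, F2.P x y u = (F.P x y u.1, F.P x y u.2)

theorem IsForm.tr {F : FB V X} {F2 : FB (V × V) X} (h : IsForm F F2) (z : ℂ) (η : ℂ → V × V)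
    (y : ℂ) : F2.tr z η y = (F.tr z (fun x => (η x).1) y, F.tr z (fun x => (η x).2) y) := h _ _ _

theorem IsForm.sm_iff {F : FB V X} {F2 : FB (V × V) X} (h : IsForm F F2) (η : ℂ → V × V) :
    F2.Sm η ↔ F.Sm (fun x => (η x).1) ∧ F.Sm (fun x => (η x).2) := by
  have e : ∀ z, F2.tr z η = fun y =>
      (F.tr z (fun x => (η x).1) y, F.tr z (fun x => (η x).2) y) := fun z => funext (h.tr z η)
  constructor
  · intro hs
    refine ⟨fun z hz => ?_, fun z hz => ?_⟩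
    · have := hs z hz
      rw [e] at this
      exact this.fst
    · have := hs z hz
      rw [e] at this
      exact this.snd
  · rintro ⟨h1, h2⟩ z hz
    rw [e]
    exact (h1 z hz).prodMk (h2 z hz)

namespace FlatOver

variable {F : FB V X} {F' : FB V' X'} {Ψ : ℂ → ℂ} {K : ℂ → (V →L[ℂ] V')}

theorem tr_pb (h : FlatOver F F' Ψ K) {z : ℂ} (hz : z ∈ X') (φ : ℂ → V) :
    F'.tr z (pb K Ψ φ) =ᶠ[𝓝 z] fun y => K z (F.tr (Ψ z) φ (Ψ y)) := by
  filter_upwards [h.flat z hz] with y hy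
  have := congrArg (fun T : V →L[ℂ] V' => T (φ (Ψ y))) hy
  exact this

theorem smK (h : FlatOver F F' Ψ K) {z : ℂ} (hz : z ∈ X') :
    (fun y => (F'.P z y).comp ((K y).comp (F.P (Ψ y) (Ψ z)))) =ᶠ[𝓝 z] fun _ => K z := by
  obtain ⟨U, hU⟩ := F.exists_nb (h.maps z hz)
  have hc : ∀ᶠ y in 𝓝 z, Ψ y ∈ U :=
    (h.smΨ z hz).continuousAt.eventually (hU.op.mem_nhds hU.mem)
  filter_upwards [h.flat z hz, hc] with y hy hyU
  rw [← ContinuousLinearMap.comp_assoc, hy, ContinuousLinearMap.comp_assoc]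
  have : (F.P (Ψ z) (Ψ y)).comp (F.P (Ψ y) (Ψ z)) = 1 := hU.inv hU.mem hyU
  rw [this]
  rfl

theorem mor (h : FlatOver F F' Ψ K) : Mor F F' Ψ K where
  maps := h.maps
  smΨ := h.smΨ
  smK := fun z hz => contDiffAt_const.congr_of_eventuallyEq (h.smK hz)
  prop := h.prop

/-- derivative of the pull-back of a section = pull-back of the derivative -/
theorem d_pb (h : FlatOver F F' Ψ K) {φ : ℂ → V} (hφ : F.Sm φ) {z : ℂ} (hz : z ∈ X') :
    (F'.d1 (pb K Ψ φ) z, F'.d2 (pb K Ψ φ) z) = Kf Ψ K z (F.d1 φ (Ψ z), F.d2 φ (Ψ z)) := by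
  have hd : DifferentiableAt ℝ (F.tr (Ψ z) φ) (Ψ z) :=
    (hφ (Ψ z) (h.maps z hz)).differentiableAt (by simp)
  have hΨ : DifferentiableAt ℝ Ψ z := (h.smΨ z hz).differentiableAt (by simp)
  have hcomp : DifferentiableAt ℝ (F.tr (Ψ z) φ ∘ Ψ) z := hd.comp z hΨ
  have e1 : F'.d1 (pb K Ψ φ) z = K z (dW (F.tr (Ψ z) φ ∘ Ψ) 1 z) := by
    unfold FB.d1
    rw [dW_congr (h.tr_pb hz φ)]
    exact dW_clm (K z) hcomp 1
  have e2 : F'.d2 (pb K Ψ φ) z = K z (dB (F.tr (Ψ z) φ ∘ Ψ) 1 z) := by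
    unfold FB.d2
    rw [dB_congr (h.tr_pb hz φ)]
    exact dB_clm (K z) hcomp 1
  have hp := pull_chain hd hΨ
  rw [Prod.mk.injEq] at hp
  rw [e1, e2, hp.1, hp.2, Kf_apply]
  simp only [pull, map_add, map_smul]
  rfl

/-- the map of one-forms is a bundle map -/
theorem morForm (h : FlatOver F F' Ψ K) {F2 : FB (V × V) X} {F2' : FB (V' × V') X'}
    (h2 : IsForm F F2) (h2' : IsForm F' F2') : Mor F2 F2' Ψ (Kf Ψ K) where
  maps := h.maps
  smΨ := h.smΨ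
  smK := by
    intro z hz
    have e : (fun y => (F2'.P z y).comp ((Kf Ψ K y).comp (F2.P (Ψ y) (Ψ z)))) =ᶠ[𝓝 z]
        fun y => Kf Ψ (fun _ => K z) y := by
      filter_upwards [h.smK hz] with y hy
      have hy' : ∀ v, F'.P z y (K y (F.P (Ψ y) (Ψ z) v)) = K z v := fun v =>
        congrArg (fun T : V →L[ℂ] V' => T v) hy
      refine ContinuousLinearMap.ext fun u => ?_
      simp only [ContinuousLinearMap.comp_apply]
      rw [Kf_apply, h2', h2, Kf_apply]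
      simp only [pull, map_add, map_smul, hy']
    refine ContDiffAt.congr_of_eventuallyEq ?_ e
    have hop := F'.op.mem_nhds hz
    have hsm : ContDiffOn ℝ ∞ Ψ X' := fun x hx => (h.smΨ x hx).contDiffWithinAt
    have hW : ContDiffAt ℝ ∞ (dW Ψ 1) z :=
      (contDiffOn_dW F'.op hsm 1).contDiffAt hop
    have hB : ContDiffAt ℝ ∞ (dB Ψ 1) z :=
      (contDiffOn_dB F'.op hsm 1).contDiffAt hop
    have hcj : ContDiff ℝ ∞ (fun c : ℂ => conj c) := Complex.conjCLE.contDiff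
    have hWc : ContDiffAt ℝ ∞ (fun y => conj (dW Ψ 1 y)) z := hcj.contDiffAt.comp z hW
    have hBc : ContDiffAt ℝ ∞ (fun y => conj (dB Ψ 1 y)) z := hcj.contDiffAt.comp z hB
    have e3 : (fun y => Kf Ψ (fun _ => K z) y) = fun y =>
        dW Ψ 1 y • (((K z).comp (ContinuousLinearMap.fst ℂ V V)).prod 0) +
        conj (dB Ψ 1 y) • (((K z).comp (ContinuousLinearMap.snd ℂ V V)).prod 0) +
        (dB Ψ 1 y • ((0 : (V × V) →L[ℂ] V').prod ((K z).comp (ContinuousLinearMap.fst ℂ V V))) +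
        conj (dW Ψ 1 y) • ((0 : (V × V) →L[ℂ] V').prod
          ((K z).comp (ContinuousLinearMap.snd ℂ V V)))) := by
      funext y
      refine ContinuousLinearMap.ext fun u => ?_
      rw [Kf_apply]
      simp [pull]
    rw [e3]
    exact ((hW.smul contDiffAt_const).add (hBc.smul contDiffAt_const)).add
      ((hB.smul contDiffAt_const).add (hWc.smul contDiffAt_const))
  prop := h.prop

/-- the pull-back of `D φ` is `D` of the pull-back, for compactly supported `φ` (equality everywhere) -/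
theorem pb_D (h : FlatOver F F' Ψ K) {φ : ℂ → V} (hφ : φ ∈ F.A0) :
    pb (Kf Ψ K) Ψ (fun x => (F.d1 φ x, F.d2 φ x)) =
      fun x => (F'.d1 (pb K Ψ φ) x, F'.d2 (pb K Ψ φ) x) := by
  funext x
  by_cases hx : x ∈ X'
  · exact (h.d_pb hφ.1 hx).symm
  · have h1 := h.mor.mem_A0 hφ
    obtain ⟨L, hL, hLc, h0⟩ := h1.2
    have hxL : x ∉ L := fun hh => hx (hL hh)
    rw [FB.d1_zero_of hLc h0 hxL, FB.d2_zero_of hLc h0 hxL]
    obtain ⟨L', hL', hLc', h0'⟩ := hφ.2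
    have hxL' : Ψ x ∉ L' := fun hh => h.off x hx (hL' hh)
    show Kf Ψ K x (F.d1 φ (Ψ x), F.d2 φ (Ψ x)) = _
    rw [FB.d1_zero_of hLc' h0' hxL', FB.d2_zero_of hLc' h0' hxL']
    exact map_zero _

end FlatOver

end Crest.Agent.R276.Nat_591
end

-- ▼ part R276/Nat4_591
section

/-!
# R276, leaf IPC-NAT (helper591), part 4: transport of helper817's Hilbert space packages

`IsNat D D' T τ`: the packages `D : Fix L W`, `D' : Fix L' W'` correspond to each other under a bounded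
isomorphism `T : L ≃L L'` and a linear isomorphism `τ : W ≃ W'`.  Then the weakly closed vectors, the
form of the classes, the type decomposition (transported projectors `cj T π`), the harmonic
representatives and the Hodge filtration correspond to each other.
-/

set_option autoImplicit false
set_option linter.unusedSectionVars false

open Set Filter Topology
open scoped InnerProductSpace

namespace Crest.Agent.R276.Nat_591

open HsB_817

variable {L W L' W' : Type*} [NormedAddCommGroup L] [InnerProductSpace ℂ L]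
  [NormedAddCommGroup W] [NormedSpace ℂ W] [NormedAddCommGroup L'] [InnerProductSpace ℂ L']
  [NormedAddCommGroup W'] [NormedSpace ℂ W']

/-- the packages correspond -/
structure IsNat (D : Fix L W) (D' : Fix L' W') (T : L ≃L[ℂ] L') (τ : W ≃ₗ[ℂ] W') : Prop where
  form : ∀ u v, inner ℂ (D'.β (T u)) (T v) = inner ℂ (D.β u) v
  ex : ∀ u, T u ∈ D'.Ex ↔ u ∈ D.Ex
  cls : ∀ (u : D.Zc) (u' : D'.Zc), (u' : L') = T u → D'.cl u' = τ (D.cl u)

/-- conjugated operators -/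
noncomputable def cj (T : L ≃L[ℂ] L') (π : ℕ → L →L[ℂ] L) (P : ℕ) : L' →L[ℂ] L' :=
  (T : L →L[ℂ] L').comp ((π P).comp (T.symm : L' →L[ℂ] L))

theorem cj_apply (T : L ≃L[ℂ] L') (π : ℕ → L →L[ℂ] L) (P : ℕ) (u : L') :
    cj T π P u = T (π P (T.symm u)) := rfl

theorem cj_T (T : L ≃L[ℂ] L') (π : ℕ → L →L[ℂ] L) (P : ℕ) (u : L) :
    cj T π P (T u) = T (π P u) := by
  rw [cj_apply, T.symm_apply_apply]


theorem Jop_T (n : ℕ) (T : L ≃L[ℂ] L') (π : ℕ → L →L[ℂ] L) (u : L) :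
    Jop n (cj T π) (T u) = T (Jop n π u) := by
  rw [Jop_apply, Jop_apply, map_sum]
  refine Finset.sum_congr rfl fun P _ => ?_
  rw [cj_T, map_smul]


namespace IsNat

variable {D : Fix L W} {D' : Fix L' W'} {T : L ≃L[ℂ] L'} {τ : W ≃ₗ[ℂ] W'}

/-- weakly closed vectors correspond -/
theorem zc (h : IsNat D D' T τ) (u : L) : T u ∈ D'.Zc ↔ u ∈ D.Zc := by
  rw [D.memZc, D'.memZc]
  constructor
  · intro hu e he
    rw [← h.form]
    exact hu _ ((h.ex e).2 he)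
  · intro hu e he
    obtain ⟨e, rfl⟩ := T.surjective e
    rw [h.form]
    exact hu _ ((h.ex e).1 he)

theorem symm (h : IsNat D D' T τ) : IsNat D' D T.symm τ.symm where
  form u v := by
    rw [← h.form, T.apply_symm_apply, T.apply_symm_apply]
  ex u := by
    rw [← h.ex, T.apply_symm_apply]
  cls u' u hu := by
    rw [LinearEquiv.eq_symm_apply]
    refine (h.cls u u' ?_).symm
    rw [hu, T.apply_symm_apply]


/-- transport of the type decomposition -/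
theorem types (h : IsNat D D' T τ) {n : ℕ} {π : ℕ → L →L[ℂ] L} {c c' : ℝ} (t : Types D n π c)
    (hc' : 0 < c') (hcc : ∀ u, c' * ‖T u‖ ^ 2 ≤ c * ‖u‖ ^ 2) : Types D' n (cj T π) c' where
  cpos := hc'
  sum u := by
    obtain ⟨u, rfl⟩ := T.surjective u
    simp only [cj_T]
    rw [← map_sum, t.sum]
  idem P hP u := by
    obtain ⟨u, rfl⟩ := T.surjective u
    rw [cj_T, cj_T, t.idem P hP]
  mul0 P hP Q hQ hne u := by
    obtain ⟨u, rfl⟩ := T.surjective u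
    rw [cj_T, cj_T, t.mul0 P hP Q hQ hne, map_zero]
  orth P hP Q hQ hne u v := by
    obtain ⟨u, rfl⟩ := T.surjective u
    obtain ⟨v, rfl⟩ := T.surjective v
    rw [cj_T, cj_T, h.form]
    exact t.orth P hP Q hQ hne u v
  coer u := by
    obtain ⟨u, rfl⟩ := T.surjective u
    rw [Jop_T, h.form]
    exact (hcc u).trans (t.coer u)
  stab u hu hJ P hP := by
    obtain ⟨u, rfl⟩ := T.surjective u
    rw [h.zc] at hu
    rw [Jop_T, h.zc] at hJ
    rw [cj_T, h.zc]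
    exact t.stab u hu hJ P hP

/-- transport of the type decomposition, explicit constant -/
theorem types' (h : IsNat D D' T τ) {n : ℕ} {π : ℕ → L →L[ℂ] L} {c C : ℝ} (t : Types D n π c)
    (hC : 0 < C) (hT : ∀ u, ‖T u‖ ≤ C * ‖u‖) : Types D' n (cj T π) (c / C ^ 2) := by
  refine h.types t (div_pos t.cpos (pow_pos hC 2)) fun u => ?_
  have h1 : ‖T u‖ ^ 2 ≤ C ^ 2 * ‖u‖ ^ 2 := by
    rw [← mul_pow]
    exact pow_le_pow_left₀ (norm_nonneg _) (hT u) 2
  calc c / C ^ 2 * ‖T u‖ ^ 2 ≤ c / C ^ 2 * (C ^ 2 * ‖u‖ ^ 2) :=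
        mul_le_mul_of_nonneg_left h1 (div_nonneg t.cpos.le (pow_nonneg hC.le 2))
    _ = c * ‖u‖ ^ 2 := by
        field_simp

section fd

variable [CompleteSpace L] [CompleteSpace L'] [FiniteDimensional ℂ W] [FiniteDimensional ℂ W']

theorem clL (h : IsNat D D' T τ) {u : L} (hu : u ∈ D.Zc) : D'.clL (T u) = τ (D.clL u) := by
  have hu' : T u ∈ D'.Zc := (h.zc u).2 hu
  rw [D.clL_eq hu, D'.clL_eq hu']
  exact h.cls ⟨u, hu⟩ ⟨T u, hu'⟩ rfl




/-- the harmonic representatives correspond -/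
theorem hr (h : IsNat D D' T τ) {n : ℕ} {π : ℕ → L →L[ℂ] L} {c : ℝ} (t : Types D n π c) (w : W) :
    HsB_817.hr D' n (cj T π) (τ w) = T (HsB_817.hr D n π w) := by
  have h1 : HsB_817.hr D n π w ∈ D.Zc := hr_mem w
  have h2 := t.J_hr_mem w
  obtain ⟨C, hC, hT⟩ := (T : L →L[ℂ] L').bound
  have t' := h.types' t hC hT
  have e := t'.hr_clL (h := T (HsB_817.hr D n π w)) ((h.zc _).2 h1) (by rw [Jop_T, h.zc]; exact h2)
  rw [h.clL h1, clL_hr] at e
  exact e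

end fd

end IsNat

end Crest.Agent.R276.Nat_591
end

-- ▼ part R276/Nat5_591
section

/-!
# R276, leaf IPC-NAT (helper591), part 5: inverse maps, exact forms, the diffeomorphisms `B.psi b`
-/

set_option autoImplicit false

open Set Filter Topology MeasureTheory UniformSpace
open scoped ContDiff ComplexConjugate

namespace Crest.Agent.R276.Nat_591

open VCalc_442 IpcGr_975 IpcG1_975 Psi_563

variable {V V' : Type*} [NormedAddCommGroup V] [NormedSpace ℂ V] [NormedAddCommGroup V']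
  [NormedSpace ℂ V'] {X X' : Set ℂ}

/-! ### inverse maps -/

theorem dW_id_one (y : ℂ) : dW (fun x : ℂ => x) 1 y = 1 := by
  unfold dW
  rw [fderiv_fun_id]
  simp
  norm_num

theorem dB_id_one (y : ℂ) : dB (fun x : ℂ => x) 1 y = 0 := by
  unfold dB
  rw [fderiv_fun_id]
  simp

/-- the maps of one-forms of inverse maps are inverse to each other -/
theorem Kf_Kf {Ψ Φ : ℂ → ℂ} {K : ℂ → (V →L[ℂ] V')} {K' : ℂ → (V' →L[ℂ] V)} {y : ℂ}
    (hΨ : DifferentiableAt ℝ Ψ (Φ y)) (hΦ : DifferentiableAt ℝ Φ y)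
    (hΨΦ : ∀ᶠ t in 𝓝 y, Ψ (Φ t) = t) (hK : ∀ v, K' y (K (Φ y) v) = v) (u : V × V) :
    Kf Φ K' y (Kf Ψ K (Φ y) u) = u := by
  have h1 := pull_chain hΨ hΦ
  have h2 : dW (Ψ ∘ Φ) 1 y = 1 := (dW_congr hΨΦ 1).trans (dW_id_one y)
  have h3 : dB (Ψ ∘ Φ) 1 y = 0 := (dB_congr hΨΦ 1).trans (dB_id_one y)
  rw [h2, h3, Prod.mk.injEq] at h1
  obtain ⟨h4, h5⟩ := h1
  simp only [pull, smul_eq_mul] at h4 h5
  set p := dW Φ 1 y with hp
  set q := dB Φ 1 y with hq
  set α := dW Ψ 1 (Φ y) with hα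
  set β := dB Ψ 1 (Φ y) with hβ
  have h4' : conj p * conj α + q * conj β = 1 := by
    have := congrArg conj h4
    simpa using this.symm
  have h5' : conj q * conj α + p * conj β = 0 := by
    have := congrArg conj h5
    simpa using this.symm
  have e1 : Kf Φ K' y (Kf Ψ K (Φ y) u) = pull p q (pull α β u) := by
    rw [Kf_apply, Kf_apply]
    simp only [pull, map_add, map_smul, hK]
    rfl
  rw [e1, pull_pull]
  have h6 : α * p + β * conj q = 1 := by linear_combination -h4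
  have h7 : α * q + β * conj p = 0 := by linear_combination -h5
  rw [h6, h7, pull_one_zero]

namespace FlatOver

variable {F : FB V X} {F' : FB V' X'} {Ψ : ℂ → ℂ} {K : ℂ → (V →L[ℂ] V')}

/-- the inverse of a flat bundle map over a diffeomorphism -/
theorem inv (h : FlatOver F F' Ψ K) {Φ : ℂ → ℂ} {K' : ℂ → (V' →L[ℂ] V)}
    (hΨΦ : ∀ y, Ψ (Φ y) = y) (smΦ : ∀ y ∈ X, ContDiffAt ℝ ∞ Φ y)
    (hK : ∀ y ∈ X, ∀ v, K' y (K (Φ y) v) = v) (hK' : ∀ x ∈ X', ∀ v, K x (K' (Ψ x) v) = v) :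
    FlatOver F' F Φ K' where
  maps := by
    intro y hy
    by_contra hc
    exact h.off _ hc (by rwa [hΨΦ])
  off := by
    intro y hy hc
    exact hy (by simpa [hΨΦ] using h.maps _ hc)
  smΨ := smΦ
  flat := by
    intro z hz
    have hz' : Φ z ∈ X' := by
      by_contra hc
      exact h.off _ hc (by rwa [hΨΦ])
    have hc : ContinuousAt Φ z := (smΦ z hz).continuousAt
    have h1 := hc.eventually (h.flat (Φ z) hz')
    have h2 : ∀ᶠ y in 𝓝 z, Φ y ∈ X' := hc.eventually (F'.op.mem_nhds hz')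
    filter_upwards [h1, h2] with y hy hy2
    rw [hΨΦ, hΨΦ] at hy
    refine ContinuousLinearMap.ext fun v => ?_
    have h3 := congrArg (fun T : V →L[ℂ] V' => T (K' y v)) hy
    simp only [ContinuousLinearMap.comp_apply] at h3 ⊢
    have h4 : K (Φ y) (K' y v) = v := by
      have := hK' (Φ y) hy2 v
      rwa [hΨΦ] at this
    rw [h4] at h3
    rw [h3, hK z hz]
  prop := by
    intro K₀ hK₀ hc
    refine ⟨Ψ '' K₀, ?_, ?_, ?_⟩
    · rintro _ ⟨x, hx, rfl⟩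
      exact h.maps x (hK₀ hx)
    · exact hc.image_of_continuousOn fun x hx =>
        (h.smΨ x (hK₀ hx)).continuousAt.continuousWithinAt
    · intro y hy hc
      exact hy ⟨Φ y, hc, hΨΦ y⟩

end FlatOver

/-! ### exact forms -/

/-- the classes of the `D φ`, `φ` smooth with compact support -/
def exG (F : FB V X) (M : MB (V × V) X) : Set M.L2 :=
  {u | ∃ φ ∈ F.A0, ∃ h : (fun x => (F.d1 φ x, F.d2 φ x)) ∈ M.A0,
    u = ((M.s0 (fun x => (F.d1 φ x, F.d2 φ x)) h : M.H0) : M.L2)}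

section TE

variable {F : FB V X} {F' : FB V' X'} {Ψ Φ : ℂ → ℂ} {K : ℂ → (V →L[ℂ] V')}
  {K' : ℂ → (V' →L[ℂ] V)} {M : MB (V × V) X} {M' : MB (V' × V') X'} {J J' : ℂ → ℝ} {C C' : ℝ}

theorem D_mem {F : FB V X} {M : MB (V × V) X} (h2 : IsForm F M.toFB) {φ : ℂ → V}
    (hφ : φ ∈ F.A0) : (fun x => (F.d1 φ x, F.d2 φ x)) ∈ M.A0 := by
  refine ⟨(h2.sm_iff _).2 ⟨hφ.1.d1, hφ.1.d2⟩, ?_⟩
  obtain ⟨L, hL, hLc, h0⟩ := hφ.2
  refine ⟨L, hL, hLc, fun x hx => ?_⟩
  show (F.d1 φ x, F.d2 φ x) = 0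
  rw [FB.d1_zero_of hLc h0 hx, FB.d2_zero_of hLc h0 hx]
  rfl

/-- `T` maps the `D φ` to the `D φ'` -/
theorem T_exG (h : FlatOver F F' Ψ K) (h2' : IsForm F' M'.toFB)
    (m : MMor M M' Ψ (Kf Ψ K) J C) {u : M.L2} (hu : u ∈ exG F M) : m.T u ∈ exG F' M' := by
  obtain ⟨φ, hφ, hm, rfl⟩ := hu
  refine ⟨pb K Ψ φ, h.mor.mem_A0 hφ, D_mem h2' (h.mor.mem_A0 hφ), ?_⟩
  rw [m.T_coe]
  congr 1
  refine MB.H0.ext ?_
  exact h.pb_D hφ

/-- **`T` maps the closure of the exact forms onto the closure of the exact forms** -/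
theorem T_mem_closure_iff (h : FlatOver F F' Ψ K) (h' : FlatOver F' F Φ K')
    (h2 : IsForm F M.toFB) (h2' : IsForm F' M'.toFB)
    (m : MMor M M' Ψ (Kf Ψ K) J C) (m' : MMor M' M Φ (Kf Φ K') J' C')
    (hTT : ∀ u, m'.T (m.T u) = u) (u : M.L2) :
    m.T u ∈ closure (exG F' M') ↔ u ∈ closure (exG F M) := by
  constructor
  · intro hu
    have h1 : m'.T (m.T u) ∈ closure (m'.T '' exG F' M') :=
      image_closure_subset_closure_image m'.T.continuous ⟨_, hu, rfl⟩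
    rw [hTT] at h1
    refine closure_mono ?_ h1
    rintro _ ⟨v, hv, rfl⟩
    exact T_exG h' h2 m' hv
  · intro hu
    have h1 : m.T u ∈ closure (m.T '' exG F M) :=
      image_closure_subset_closure_image m.T.continuous ⟨_, hu, rfl⟩
    refine closure_mono ?_ h1
    rintro _ ⟨v, hv, rfl⟩
    exact T_exG h h2' m hv

end TE

/-! ### conjugated fields of operators -/

section ok

variable {Ψ Φ : ℂ → ℂ} {M : MB V X} {M' : MB V' X'} {K : ℂ → (V →L[ℂ] V')}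
  {K' : ℂ → (V' →L[ℂ] V)} {J J' : ℂ → ℝ} {C C' : ℝ}

/-- variant of `T_inner` -/
theorem MMor.T_inner_one (h : MMor M M' Ψ K J C) {A : ℂ → (V →L[ℂ] V)} {A' : ℂ → (V' →L[ℂ] V')}
    (hA : M.Ok A) (hA' : M'.Ok A')
    (hG : ∀ x ∈ X', ∀ u v, M'.G x (A' x (K x u)) (K x v) =
      (J x : ℂ) * M.G (Ψ x) (A (Ψ x) u) v) (u v : M.L2) :
    inner ℂ (M'.opL A' (h.T u)) (h.T v) = inner ℂ (M.opL A u) v := by
  refine Completion.induction_on₂ u v (isClosed_eq (by fun_prop) (by fun_prop)) fun φ ψ => ?_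
  rw [h.T_coe, h.T_coe, M.op_coe hA, M'.op_coe hA',
    Completion.inner_coe, Completion.inner_coe, MB.inner_H0, MB.inner_H0]
  show ∫ x, M'.G x (A' x (K x (φ.f (Ψ x)))) (K x (ψ.f (Ψ x))) =
    ∫ x, M.G x (A x (φ.f x)) (ψ.f x)
  rw [h.cov (fun x => M.G x (A x (φ.f x)) (ψ.f x))]
  refine integral_congr_ae (Eventually.of_forall fun x => ?_)
  show M'.G x (A' x (K x (φ.f (Ψ x)))) (K x (ψ.f (Ψ x))) =
    J x • M.G (Ψ x) (A (Ψ x) (φ.f (Ψ x))) (ψ.f (Ψ x))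
  by_cases hx : x ∈ X'
  · rw [hG x hx, Complex.real_smul]
  · obtain ⟨L, hL, -, h0⟩ := (h.toMor.mem_A0 φ.mem).2
    have e1 : K x (φ.f (Ψ x)) = 0 := h0 x (fun hh => hx (hL hh))
    obtain ⟨L', hL', -, h0'⟩ := φ.mem.2
    have e2 : φ.f (Ψ x) = 0 := h0' _ (fun hh => h.off x hx (hL' hh))
    rw [e1, e2]
    simp


/-- conjugated field of operators, `K' x` inverse of `K x` -/
def cf (Ψ : ℂ → ℂ) (K : ℂ → (V →L[ℂ] V')) (K' : ℂ → (V' →L[ℂ] V)) (A : ℂ → (V →L[ℂ] V))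
    (x : ℂ) : V' →L[ℂ] V' := (K x).comp ((A (Ψ x)).comp (K' (Ψ x)))



end ok

/-! ### the metric on one-forms -/

section met

theorem re_le_of_form {g : V →L⋆[ℂ] V →L[ℂ] ℂ} (herm : ∀ u v, (starRingEnd ℂ) (g u v) = g v u)
    (pos : ∀ v, 0 ≤ (g v v).re) (c : ℂ) (a b : V) :
    2 * (c * g a b).re ≤ ‖c‖ * ((g a a).re + (g b b).re) := by
  have key : ∀ θ : ℂ, ‖θ‖ = 1 → 2 * (θ * g a b).re ≤ (g a a).re + (g b b).re := by
    intro θ hθ
    have h1 := pos (a - θ • b)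
    have h2 : g (a - θ • b) (a - θ • b) = g a a - θ * g a b - conj θ * g b a +
        (conj θ * θ) * g b b := by
      simp only [map_sub, map_smul, map_smulₛₗ, sub_apply,
        smul_apply, smul_eq_mul]
      ring
    have h3 : conj θ * θ = 1 := by
      rw [mul_comm, Complex.mul_conj', hθ]
      norm_num
    rw [h2, h3, ← herm a b, ← map_mul] at h1
    have h4 : ((starRingEnd ℂ) (θ * (g a) b)).re = (θ * g a b).re := Complex.conj_re _
    simp only [Complex.add_re, Complex.sub_re, one_mul, h4] at h1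
    linarith
  by_cases hc : c = 0
  · subst hc
    simp
  · have h0 : 0 < ‖c‖ := norm_pos_iff.2 hc
    have h1 := key (c / ‖c‖) (by
      rw [norm_div, Complex.norm_real, norm_norm, div_self h0.ne'])
    have h2 : (c * g a b) = (‖c‖ : ℂ) * ((c / ‖c‖) * g a b) := by
      have h3 : (‖c‖ : ℂ) ≠ 0 := by exact_mod_cast h0.ne'
      field_simp
    rw [h2, Complex.re_ofReal_mul]
    nlinarith

theorem form_pull_le {g : V →L⋆[ℂ] V →L[ℂ] ℂ} (herm : ∀ u v, (starRingEnd ℂ) (g u v) = g v u)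
    (pos : ∀ v, 0 ≤ (g v v).re) (p q : ℂ) (η : V × V) :
    (g (pull p q η).1 (pull p q η).1).re + (g (pull p q η).2 (pull p q η).2).re ≤
      (‖p‖ + ‖q‖) ^ 2 * ((g η.1 η.1).re + (g η.2 η.2).re) := by
  obtain ⟨a, b⟩ := η
  have e1 : g (p • a + conj q • b) (p • a + conj q • b) = (conj p * p) * g a a +
      conj (p * q) * g a b + (p * q) * g b a + (q * conj q) * g b b := by
    simp only [map_add, map_smul, map_smulₛₗ, add_apply,
      smul_apply, smul_eq_mul, Complex.conj_conj, map_mul]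
    ring
  have e2 : g (q • a + conj p • b) (q • a + conj p • b) = (conj q * q) * g a a +
      conj (p * q) * g a b + (p * q) * g b a + (p * conj p) * g b b := by
    simp only [map_add, map_smul, map_smulₛₗ, add_apply,
      smul_apply, smul_eq_mul, Complex.conj_conj, map_mul]
    ring
  have hp : conj p * p = ((‖p‖ ^ 2 : ℝ) : ℂ) := by
    rw [mul_comm, Complex.mul_conj']; push_cast; rfl
  have hp' : p * conj p = ((‖p‖ ^ 2 : ℝ) : ℂ) := by
    rw [Complex.mul_conj']; push_cast; rfl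
  have hq : conj q * q = ((‖q‖ ^ 2 : ℝ) : ℂ) := by
    rw [mul_comm, Complex.mul_conj']; push_cast; rfl
  have hq' : q * conj q = ((‖q‖ ^ 2 : ℝ) : ℂ) := by
    rw [Complex.mul_conj']; push_cast; rfl
  have h4 : ((p * q) * g b a).re = (conj (p * q) * g a b).re := by
    rw [← Complex.conj_re, map_mul, herm]
  have h5 := re_le_of_form herm pos (conj (p * q)) a b
  rw [Complex.norm_conj, norm_mul] at h5
  show (g (p • a + conj q • b) (p • a + conj q • b)).re +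
    (g (q • a + conj p • b) (q • a + conj p • b)).re ≤
      (‖p‖ + ‖q‖) ^ 2 * ((g a a).re + (g b b).re)
  rw [e1, e2, hp, hp', hq, hq']
  simp only [Complex.add_re, Complex.re_ofReal_mul, h4]
  nlinarith

end met

end Crest.Agent.R276.Nat_591
end

-- ▼ part R276/Nat6_591
section

/-!
# R276, leaf IPC-NAT (helper591), part 6: the transport along `B.psi b` (helper563)

`PsiM` : the data at one parameter value: the diffeomorphism `Ψ = B.psi b : X' → X`, the flat gauge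
`K x : V_{Ψ x} → V'_x` with inverse `K' x`, the metrics `g`, `g'` comparable with constant `c`.
Output: `TE : M.L2 ≃L[ℂ] M'.L2` between the `L²` spaces of one-forms, and all its properties.
-/

set_option autoImplicit false

open Set Filter Topology MeasureTheory UniformSpace
open scoped ContDiff ComplexConjugate

namespace Crest.Agent.R276.Nat_591

open VCalc_442 IpcGr_975 IpcG1_975 Psi_563 HsB_817

variable {V V' : Type*} [NormedAddCommGroup V] [NormedSpace ℂ V] [NormedAddCommGroup V']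
  [NormedSpace ℂ V'] {X X' : Set ℂ}

/-- transport data -/
structure PsiM {k : ℕ} (B : Bumps k) (b : Fin k → ℂ) (F : FB V X) (F' : FB V' X')
    (M : MB (V × V) X) (M' : MB (V' × V') X') (g : ℂ → (V →L⋆[ℂ] V →L[ℂ] ℂ))
    (g' : ℂ → (V' →L⋆[ℂ] V' →L[ℂ] ℂ)) (K : ℂ → (V →L[ℂ] V')) (K' : ℂ → (V' →L[ℂ] V))
    (c : ℝ) : Prop where
  hb : ‖b‖ < B.δ
  mem : ∀ x, B.psi b x ∈ X ↔ x ∈ X'
  flat : ∀ z ∈ X', ∀ᶠ y in 𝓝 z, (F'.P z y).comp (K y) = (K z).comp (F.P (B.psi b z) (B.psi b y))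
  left : ∀ x ∈ X', ∀ v, K' x (K x v) = v
  right : ∀ x ∈ X', ∀ v, K x (K' x v) = v
  form : IsForm F M.toFB
  form' : IsForm F' M'.toFB
  met : ∀ x ∈ X, ∀ u v, M.G x u v = g x u.1 v.1 + g x u.2 v.2
  met' : ∀ x ∈ X', ∀ u v, M'.G x u v = g' x u.1 v.1 + g' x u.2 v.2
  c0 : 0 < c
  le : ∀ x ∈ X', ∀ v, (g' x (K x v) (K x v)).re ≤ c ^ 2 * (g (B.psi b x) v v).re
  ge : ∀ x ∈ X', ∀ v, (g (B.psi b x) v v).re ≤ c ^ 2 * (g' x (K x v) (K x v)).re

/-- bounds for the pull-back of one-forms by `K` and `pull p q` -/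
theorem form_Kf_le {g : V →L⋆[ℂ] V →L[ℂ] ℂ} {g' : V' →L⋆[ℂ] V' →L[ℂ] ℂ}
    (herm' : ∀ u v, (starRingEnd ℂ) (g' u v) = g' v u) (pos' : ∀ v, 0 ≤ (g' v v).re)
    {L : V →L[ℂ] V'} {c : ℝ} (hL : ∀ v, (g' (L v) (L v)).re ≤ c ^ 2 * (g v v).re) {p q : ℂ}
    {J : ℝ} (pos : ∀ v, 0 ≤ (g v v).re) (hpq : (‖p‖ + ‖q‖) ^ 2 ≤ 3 * J) (hJ : 0 ≤ J) (u : V × V) :
    (g' (pull p q (L u.1, L u.2)).1 (pull p q (L u.1, L u.2)).1).re +
      (g' (pull p q (L u.1, L u.2)).2 (pull p q (L u.1, L u.2)).2).re ≤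
      (2 * c) ^ 2 * (J * ((g u.1 u.1).re + (g u.2 u.2).re)) := by
  have h1 := form_pull_le herm' pos' p q (L u.1, L u.2)
  have h2 := hL u.1
  have h3 := hL u.2
  have h4 := pos' (L u.1)
  have h5 := pos' (L u.2)
  have h6 := pos u.1
  have h7 := pos u.2
  refine h1.trans ?_
  calc (‖p‖ + ‖q‖) ^ 2 * ((g' (L u.1) (L u.1)).re + (g' (L u.2) (L u.2)).re)
      ≤ (3 * J) * (c ^ 2 * (g u.1 u.1).re + c ^ 2 * (g u.2 u.2).re) := by
        refine mul_le_mul hpq (add_le_add h2 h3) (by positivity) (by positivity)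
    _ ≤ (2 * c) ^ 2 * (J * ((g u.1 u.1).re + (g u.2 u.2).re)) := by
        have h8 : 0 ≤ c ^ 2 * (J * ((g u.1 u.1).re + (g u.2 u.2).re)) := by positivity
        nlinarith

/-- the wedge form and pull-back -/
theorem wedge_pull (S : V →L⋆[ℂ] V →L[ℂ] ℂ) (p q : ℂ) (η ζ : V × V) :
    S (pull p q η).2 (pull p q ζ).2 - S (pull p q η).1 (pull p q ζ).1 =
      ((‖p‖ ^ 2 - ‖q‖ ^ 2 : ℝ) : ℂ) * (S η.2 ζ.2 - S η.1 ζ.1) := by
  have hDD : ((‖p‖ ^ 2 - ‖q‖ ^ 2 : ℝ) : ℂ) = p * conj p - q * conj q := by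
    rw [Complex.mul_conj', Complex.mul_conj']; push_cast; ring
  rw [hDD]
  obtain ⟨a, b⟩ := η
  obtain ⟨a', b'⟩ := ζ
  simp only [pull, map_add, map_smul, map_smulₛₗ, add_apply, smul_apply, smul_eq_mul,
    Complex.conj_conj]
  ring

namespace PsiM

variable {k : ℕ} {B : Bumps k} {b : Fin k → ℂ} {F : FB V X} {F' : FB V' X'}
    {M : MB (V × V) X} {M' : MB (V' × V') X'} {g : ℂ → (V →L⋆[ℂ] V →L[ℂ] ℂ)}
    {g' : ℂ → (V' →L⋆[ℂ] V' →L[ℂ] ℂ)} {K : ℂ → (V →L[ℂ] V')} {K' : ℂ → (V' →L[ℂ] V)}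
    {c : ℝ}

theorem g_nonneg (h : PsiM B b F F' M M' g g' K K' c) {x : ℂ} (hx : x ∈ X) (v : V) :
    0 ≤ (g x v v).re := by
  have h1 := M.G_nonneg hx (v, 0)
  rw [h.met x hx] at h1
  simpa using h1

theorem g_nonneg' (h : PsiM B b F F' M M' g g' K K' c) {x : ℂ} (hx : x ∈ X') (v : V') :
    0 ≤ (g' x v v).re := by
  have h1 := M'.G_nonneg hx (v, 0)
  rw [h.met' x hx] at h1
  simpa using h1

theorem g_herm (h : PsiM B b F F' M M' g g' K K' c) {x : ℂ} (hx : x ∈ X) (u v : V) :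
    (starRingEnd ℂ) (g x u v) = g x v u := by
  have h1 := M.herm x hx (u, 0) (v, 0)
  rw [h.met x hx, h.met x hx] at h1
  simpa using h1

theorem g_herm' (h : PsiM B b F F' M M' g g' K K' c) {x : ℂ} (hx : x ∈ X') (u v : V') :
    (starRingEnd ℂ) (g' x u v) = g' x v u := by
  have h1 := M'.herm x hx (u, 0) (v, 0)
  rw [h.met' x hx, h.met' x hx] at h1
  simpa using h1

theorem flatOver (h : PsiM B b F F' M M' g g' K K' c) : FlatOver F F' (B.psi b) K where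
  maps x hx := (h.mem x).2 hx
  off x hx hc := hx ((h.mem x).1 hc)
  smΨ x _ := (B.contDiff_psi_right b).contDiffAt
  flat := h.flat
  prop K₀ hK₀ hc := ⟨B.psi b ⁻¹' K₀, fun x hx => (h.mem x).1 (hK₀ hx),
    B.isCompact_preimage h.hb hc, fun _ hx hh => hx hh⟩

/-- inverse gauge -/
noncomputable def Ki (_h : PsiM B b F F' M M' g g' K K' c) (y : ℂ) : V' →L[ℂ] V := K' (B.inv b y)

theorem flatOver' (h : PsiM B b F F' M M' g g' K K' c) : FlatOver F' F (B.inv b) h.Ki := by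
  refine h.flatOver.inv (fun y => B.psi_inv h.hb y) (fun y _ =>
    (B.contDiff_inv_right h.hb).contDiffAt) (fun y hy v => ?_) (fun x hx v => ?_)
  · have hy' : B.inv b y ∈ X' := by
      rw [← h.mem, B.psi_inv h.hb]
      exact hy
    exact h.left _ hy' v
  · show K x (K' (B.inv b (B.psi b x)) v) = v
    rw [B.inv_psi h.hb]
    exact h.right x hx v

theorem dW_psi (x : ℂ) : dW (B.psi b) 1 x = B.P b x := rfl
theorem dB_psi (x : ℂ) : dB (B.psi b) 1 x = B.Q b x := rfl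

theorem mmor (h : PsiM B b F F' M M' g g' K K' c) :
    MMor M M' (B.psi b) (Kf (B.psi b) K) (B.J b) (2 * c) where
  toMor := h.flatOver.morForm h.form h.form'
  off := h.flatOver.off
  C0 := by have := h.c0; positivity
  J0 x := (B.J_pos h.hb x).le
  cov f := B.integral_comp h.hb f
  cov' f hf := by
    have h1 := B.integrableOn_image h.hb MeasurableSet.univ f
    rw [image_univ, (B.surjective h.hb).range_eq, integrableOn_univ, integrableOn_univ] at h1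
    exact h1.1 hf
  bd x hx u := by
    have hy := (h.mem x).2 hx
    rw [h.met' x hx, h.met _ hy, Complex.add_re, Complex.add_re, Kf_apply]
    exact form_Kf_le (fun u v => h.g_herm' hx u v) (fun v => h.g_nonneg' hx v) (h.le x hx)
      (fun v => h.g_nonneg hy v) (B.dilatation_le h.hb x) (B.J_pos h.hb x).le u

/-- `Kf` followed by the inverse `Kf` -/
theorem kf_left (h : PsiM B b F F' M M' g g' K K' c) {y : ℂ} (hy : y ∈ X) (u : V × V) :
    Kf (B.inv b) h.Ki y (Kf (B.psi b) K (B.inv b y) u) = u := by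
  have hy' : B.inv b y ∈ X' := by
    rw [← h.mem, B.psi_inv h.hb]
    exact hy
  exact Kf_Kf (B.differentiable_psi b _)
    ((B.contDiff_inv_right h.hb).differentiable (by simp) y)
    (Eventually.of_forall fun t => B.psi_inv h.hb t) (fun v => h.left _ hy' v) u

theorem kf_right (h : PsiM B b F F' M M' g g' K K' c) {x : ℂ} (hx : x ∈ X') (u : V' × V') :
    Kf (B.psi b) K x (Kf (B.inv b) h.Ki (B.psi b x) u) = u := by
  refine Kf_Kf (Ψ := B.inv b) (Φ := B.psi b) (K := h.Ki) (K' := K)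
    ((B.contDiff_inv_right h.hb).differentiable (by simp) _) (B.differentiable_psi b _)
    (Eventually.of_forall fun t => B.inv_psi h.hb t) (fun v => ?_) u
  show K x (K' (B.inv b (B.psi b x)) v) = v
  rw [B.inv_psi h.hb]
  exact h.right x hx v


/-- explicit formula for the inverse -/
theorem kf_inv_eq (h : PsiM B b F F' M M' g g' K K' c) {x : ℂ} (hx : x ∈ X') (u : V' × V') :
    Kf (B.inv b) h.Ki (B.psi b x) u =
      pull (conj (B.P b x) / (B.J b x : ℝ)) (- B.Q b x / (B.J b x : ℝ)) (K' x u.1, K' x u.2) := by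
  set v := Kf (B.inv b) h.Ki (B.psi b x) u with hv
  have h1 : Kf (B.psi b) K x v = u := h.kf_right hx u
  rw [Kf_apply] at h1
  rw [← h1]
  have h2 : ((K' x) (pull (dW (B.psi b) 1 x) (dB (B.psi b) 1 x) ((K x) v.1, (K x) v.2)).1,
      (K' x) (pull (dW (B.psi b) 1 x) (dB (B.psi b) 1 x) ((K x) v.1, (K x) v.2)).2) =
      pull (B.P b x) (B.Q b x) v := by
    simp only [pull, map_add, map_smul, h.left x hx]
    rfl
  rw [h2]
  exact (pull_inv (B.norm_Q_lt_norm_P h.hb x) v).symm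

theorem mmor' (h : PsiM B b F F' M M' g g' K K' c) :
    MMor M' M (B.inv b) (Kf (B.inv b) h.Ki) (fun y => (B.J b (B.inv b y))⁻¹) (2 * c) where
  toMor := h.flatOver'.morForm h.form' h.form
  off := h.flatOver'.off
  C0 := by have := h.c0; positivity
  J0 x := (inv_pos.2 (B.J_pos h.hb _)).le
  cov f := by
    rw [B.integral_comp h.hb (fun y => (B.J b (B.inv b y))⁻¹ • f (B.inv b y))]
    refine integral_congr_ae (Eventually.of_forall fun x => ?_)
    show f x = B.J b x • (B.J b (B.inv b (B.psi b x)))⁻¹ • f (B.inv b (B.psi b x))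
    rw [B.inv_psi h.hb, smul_smul, mul_inv_cancel₀ (B.J_pos h.hb x).ne', one_smul]
  cov' f hf := by
    have h1 := B.integrableOn_image h.hb MeasurableSet.univ
      (fun y => (B.J b (B.inv b y))⁻¹ • f (B.inv b y))
    rw [image_univ, (B.surjective h.hb).range_eq, integrableOn_univ, integrableOn_univ] at h1
    refine h1.2 (hf.congr (Eventually.of_forall fun x => ?_))
    show f x = B.J b x • (B.J b (B.inv b (B.psi b x)))⁻¹ • f (B.inv b (B.psi b x))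
    rw [B.inv_psi h.hb, smul_smul, mul_inv_cancel₀ (B.J_pos h.hb x).ne', one_smul]
  bd y hy u := by
    obtain ⟨x, rfl⟩ := B.surjective h.hb y
    have hx : x ∈ X' := (h.mem x).1 hy
    rw [h.kf_inv_eq hx, B.inv_psi h.hb, h.met' x hx, h.met _ hy, Complex.add_re, Complex.add_re]
    refine form_Kf_le (fun u v => h.g_herm hy u v) (fun v => h.g_nonneg hy v) (fun v => ?_)
      (fun v => h.g_nonneg' hx v) (B.dilatation_inv_le h.hb x) (inv_pos.2 (B.J_pos h.hb x)).le u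
    have := h.ge x hx (K' x v)
    rwa [h.right x hx] at this

/-- **the isomorphism of the `L²` spaces of one-forms** -/
noncomputable def TE (h : PsiM B b F F' M M' g g' K K' c) : M.L2 ≃L[ℂ] M'.L2 :=
  MMor.TE h.mmor h.mmor' (fun y => B.psi_inv h.hb y) (fun x => B.inv_psi h.hb x)
    (fun _ hy u => h.kf_left hy u) (fun _ hx u => h.kf_right hx u)





theorem TE_coe (h : PsiM B b F F' M M' g g' K K' c) (φ : M.H0) :
    h.TE (φ : M.L2) =
      (M'.s0 (pb (Kf (B.psi b) K) (B.psi b) φ.f) (h.mmor.toMor.mem_A0 φ.mem) : M'.H0) :=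
  h.mmor.T_coe φ

/-- exact forms -/
theorem TE_ex (h : PsiM B b F F' M M' g g' K K' c) (u : M.L2) :
    h.TE u ∈ closure (exG F' M') ↔ u ∈ closure (exG F M) :=
  T_mem_closure_iff h.flatOver h.flatOver' h.form h.form' h.mmor h.mmor'
    (fun u => h.TE.symm_apply_apply u) u

/-- conjugated field of operators -/
noncomputable def fld (h : PsiM B b F F' M M' g g' K K' c) (A : ℂ → ((V × V) →L[ℂ] (V × V))) :
    ℂ → ((V' × V') →L[ℂ] (V' × V')) :=
  cf (B.psi b) (Kf (B.psi b) K) (Kf (B.inv b) h.Ki) A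





/-- version with a given field on the target -/
theorem TE_opL' (h : PsiM B b F F' M M' g g' K K' c) {A : ℂ → ((V × V) →L[ℂ] (V × V))}
    {A' : ℂ → ((V' × V') →L[ℂ] (V' × V'))} (hA : M.Ok A) (hA' : M'.Ok A')
    (hAA : ∀ x ∈ X', ∀ v, A' x (Kf (B.psi b) K x v) = Kf (B.psi b) K x (A (B.psi b x) v))
    (u : M.L2) : h.TE (M.opL A u) = M'.opL A' (h.TE u) :=
  h.mmor.T_op hA hA' (fun x hx v => (hAA x hx v).symm) u


/-- **the wedge form is preserved** -/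
theorem TE_form (h : PsiM B b F F' M M' g g' K K' c) {β : ℂ → ((V × V) →L[ℂ] (V × V))}
    {β' : ℂ → ((V' × V') →L[ℂ] (V' × V'))} (hβ : M.Ok β) (hβ' : M'.Ok β')
    (S : ℂ → (V →L⋆[ℂ] V →L[ℂ] ℂ)) (S' : ℂ → (V' →L⋆[ℂ] V' →L[ℂ] ℂ))
    (hS : ∀ x ∈ X, ∀ u v, M.G x (β x u) v = S x u.2 v.2 - S x u.1 v.1)
    (hS' : ∀ x ∈ X', ∀ u v, M'.G x (β' x u) v = S' x u.2 v.2 - S' x u.1 v.1)
    (hSS : ∀ x ∈ X', ∀ u v, S' x (K x u) (K x v) = S (B.psi b x) u v) (u v : M.L2) :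
    inner ℂ (M'.opL β' (h.TE u)) (h.TE v) = inner ℂ (M.opL β u) v := by
  refine h.mmor.T_inner_one hβ hβ' (fun x hx u v => ?_) u v
  rw [hS' x hx, hS _ ((h.mem x).2 hx), Kf_apply, Kf_apply, wedge_pull]
  simp only [hSS x hx]
  rfl


end PsiM

end Crest.Agent.R276.Nat_591
end

-- ▼ part R276/Nat7_591

/-!
# R276, leaf IPC-NAT (helper591), part 7: the transport data of a variation near a point of the base

`D : LD V s₀` (helper563).  For `z` in the half ball the restrictions of `V` to the fibres over `D.σ z`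
and `s₀` are related by `PsiM` (diffeomorphism `D.Ψ z`, gauge `cm (D.G z x)⁻¹`), with a constant which
only depends on the rank.
-/

set_option autoImplicit false

noncomputable section

open Set Filter Topology MeasureTheory Matrix Metric
open scoped ContDiff ComplexConjugate

namespace Crest.Agent.R276.Nat_591

open Crest.Agent.R271.Ho51 Crest.Agent.R276.Ipc735 Crest.Agent.R276.Top3_279
open IpcG1_975 Psi_563 FamA_563 HsB_817

/-! ### matrices as operators and forms -/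

section mat

variable {N : ℕ}

/-- the operator of a matrix -/
def mc (A : Matrix (Fin N) (Fin N) ℂ) : (Fin N → ℂ) →L[ℂ] (Fin N → ℂ) :=
  LinearMap.toContinuousLinearMap A.mulVecLin

@[simp] theorem mc_apply (A : Matrix (Fin N) (Fin N) ℂ) (v : Fin N → ℂ) : mc A v = A *ᵥ v := rfl

/-- antilinear coordinate -/
def cst (i : Fin N) : (Fin N → ℂ) →L⋆[ℂ] ℂ :=
  ((starL ℂ : ℂ ≃L⋆[ℂ] ℂ) : ℂ →L⋆[ℂ] ℂ).comp
    (ContinuousLinearMap.proj i : (Fin N → ℂ) →L[ℂ] ℂ)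

/-- the sesquilinear form of a matrix -/
def mg (H : Matrix (Fin N) (Fin N) ℂ) : (Fin N → ℂ) →L⋆[ℂ] (Fin N → ℂ) →L[ℂ] ℂ :=
  ∑ i, (ContinuousLinearMap.toSpanSingleton ℂ
    (((ContinuousLinearMap.proj i : (Fin N → ℂ) →L[ℂ] ℂ)).comp (mc H))).comp (cst i)

theorem mg_apply (H : Matrix (Fin N) (Fin N) ℂ) (u v : Fin N → ℂ) :
    mg H u v = star u ⬝ᵥ H *ᵥ v := by
  unfold mg
  rw [_root_.sum_apply, _root_.sum_apply]
  rfl

end mat

/-! ### the instance -/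

section inst

variable {A : Finset ℂ} {N w : ℕ}

/-- `F` is the flat bundle of `R` -/
def IsFB (R : PVHS A N w) (F : FB (Fin N → ℂ) ((A : Set ℂ)ᶜ)) : Prop :=
  ∀ x ∉ A, ∀ y ∉ A, ∀ v, F.P x y v = cm (R.P x y) *ᵥ v

/-- `M` is the bundle of one-forms with values in `R`, with the Hodge metric -/
structure IsMB (R : PVHS A N w) (F : FB (Fin N → ℂ) ((A : Set ℂ)ᶜ))
    (M : MB ((Fin N → ℂ) × (Fin N → ℂ)) ((A : Set ℂ)ᶜ)) : Prop where
  fb : IsFB R F
  form : IsForm F M.toFB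
  met : ∀ x ∉ A, ∀ u v, M.G x u v = star u.1 ⬝ᵥ R.H x *ᵥ v.1 + star u.2 ⬝ᵥ R.H x *ᵥ v.2

variable {m : ℕ} {S : Type*} [TopologicalSpace S] [RDom m S] {k : ℕ} {Q : Punc S k}
  {V : Ipc735.VHS (m + 1) (Tot Q) N w} {s₀ : S} (D : LD V s₀)

theorem psi_mem {z : Fin m → ℂ} (hz : z ∈ D.U) (x : ℂ) :
    D.Bm.psi (D.b z) x ∈ ((Q.A (D.σ z) : Set ℂ)ᶜ) ↔ x ∈ ((Q.A s₀ : Set ℂ)ᶜ) := by
  have h1 := D.Bm.psi_mem_iff (LD.norm_b hz) (x := x)
  have e1 : ∀ y : ℂ, y ∈ D.Bm.C (D.b z) ↔ y ∉ Q.A (D.σ z) := by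
    intro y
    rw [D.hA _ (LD.σ_mem hz)]
    constructor
    · intro hy hc
      obtain ⟨i, -, hi⟩ := Finset.mem_image.1 hc
      refine hy i ?_
      rw [← hi]
      show D.α (D.σ z) i = D.Bm.a i + (D.α (D.σ z) - D.Bm.a) i
      rw [Pi.sub_apply]
      ring
    · intro hy i hc
      refine hy (Finset.mem_image.2 ⟨i, Finset.mem_univ _, ?_⟩)
      rw [hc]
      show D.α (D.σ z) i = D.Bm.a i + (D.α (D.σ z) - D.Bm.a) i
      rw [Pi.sub_apply]
      ring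
  have e2 : ∀ y : ℂ, y ∈ D.Bm.C 0 ↔ y ∉ Q.A s₀ := by
    intro y
    rw [D.hA _ D.mem, D.h0]
    constructor
    · intro hy hc
      obtain ⟨i, -, hi⟩ := Finset.mem_image.1 hc
      refine hy i ?_
      rw [← hi]
      simp
    · intro hy i hc
      refine hy (Finset.mem_image.2 ⟨i, Finset.mem_univ _, ?_⟩)
      rw [hc]
      simp
  rw [e1, e2] at h1
  simpa using h1

variable {R : ∀ s : S, PVHS (Q.A s) N w}

theorem H_res {V : Ipc735.VHS (m + 1) (Tot Q) N w} {s : S} {R : PVHS (Q.A s) N w}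
    (hR : IsRes V s R) {x : ℂ} (hx : x ∉ Q.A s) :
    R.H x = hodge w (V.S (Tot.mk Q s x hx)) (V.E (Tot.mk Q s x hx)) := by
  unfold PVHS.H
  rw [hR.S, hR.E, rM_of _ hx, rM_of _ hx]

/-- the metric at `D.Ψ z x` in the frame at `(s₀, x)` -/
theorem H_conj {z : Fin m → ℂ} (hz : z ∈ D.U) {x : ℂ} (hx : x ∉ Q.A s₀) :
    (cm (D.G z x))ᴴ * hodge w (V.S (D.pt z x hz hx).1) (V.E (D.pt z x hz hx).1) * cm (D.G z x) =
      hodge w (V.S (Tot.mk Q s₀ x hx)) (D.E z x) := by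
  rw [← LD.S_const hz hx, LD.E_of hz hx, ← hodge_conj (g := cm (D.G z x)⁻¹) (cm_inv_mul_cm _)
    (cm_mul_cm_inv _)]

theorem hm_eq {z : Fin m → ℂ} {x : ℂ} (hx : x ∉ Q.A s₀) :
    VCalc_442.hm w (V.S (Tot.mk Q s₀ x hx)) (fun p z => hq w (D.E z x) p) z =
      hodge w (V.S (Tot.mk Q s₀ x hx)) (D.E z x) := by
  unfold VCalc_442.hm hodge
  rw [sgOp_hq]

/-- the constant -/
def cN (N : ℕ) : ℝ := Real.exp (BndA_563.C0 (Fin N))

theorem cN_pos (N : ℕ) : 0 < cN N := Real.exp_pos _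

theorem one_le_cN (N : ℕ) : 1 ≤ cN N := Real.one_le_exp (BndA_563.C0_nonneg _)

theorem cN_le (N : ℕ) : cN N ≤ cN N ^ 2 := by
  have := one_le_cN N
  nlinarith

/-- Hodge norms at `(z, x)`, `(z', x)` are comparable -/
theorem cmp {z z' : Fin m → ℂ} (hz : z ∈ ball (cp s₀ : Fin m → ℂ) (D.r / 2))
    (hz' : z' ∈ ball (cp s₀ : Fin m → ℂ) (D.r / 2)) {x : ℂ} (hx : x ∉ Q.A s₀) (v : Fin N → ℂ) :
    (star v ⬝ᵥ hodge w (V.S (Tot.mk Q s₀ x hx)) (D.E z x) *ᵥ v).re ≤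
      cN N * (star v ⬝ᵥ hodge w (V.S (Tot.mk Q s₀ x hx)) (D.E z' x) *ᵥ v).re := by
  have h1 := BndA_563.hn_le (LD.vhs_E (D := D) hx) D.r_pos (subset_refl _) v hz hz'
  rw [hm_eq, hm_eq] at h1
  exact h1

theorem half_sub {z : Fin m → ℂ} (hz : z ∈ ball (cp s₀ : Fin m → ℂ) (D.r / 2)) : z ∈ D.U :=
  ball_subset_ball (by linarith [D.r_pos]) hz

theorem conj_apply {g H : Matrix (Fin N) (Fin N) ℂ} {u v : Fin N → ℂ} :
    star (g *ᵥ u) ⬝ᵥ H *ᵥ (g *ᵥ v) = star u ⬝ᵥ (gᴴ * H * g) *ᵥ v := by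
  rw [← Matrix.mulVec_mulVec, ← Matrix.mulVec_mulVec, Matrix.dotProduct_mulVec (star u),
    Matrix.star_mulVec]

/-- **the transport data** -/
theorem psiM {z : Fin m → ℂ} (hz : z ∈ ball (cp s₀ : Fin m → ℂ) (D.r / 2))
    {R : PVHS (Q.A (D.σ z)) N w} (hR : IsRes V (D.σ z) R) {R₀ : PVHS (Q.A s₀) N w}
    (hR₀ : IsRes V s₀ R₀) {F : FB (Fin N → ℂ) ((Q.A (D.σ z) : Set ℂ)ᶜ)}
    {F₀ : FB (Fin N → ℂ) ((Q.A s₀ : Set ℂ)ᶜ)}
    {M : MB ((Fin N → ℂ) × (Fin N → ℂ)) ((Q.A (D.σ z) : Set ℂ)ᶜ)}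
    {M₀ : MB ((Fin N → ℂ) × (Fin N → ℂ)) ((Q.A s₀ : Set ℂ)ᶜ)}
    (hM : IsMB R F M) (hM₀ : IsMB R₀ F₀ M₀) :
    PsiM D.Bm (D.b z) F F₀ M M₀ (fun x => mg (R.H x)) (fun x => mg (R₀.H x))
      (fun x => mc (cm (D.G z x)⁻¹)) (fun x => mc (cm (D.G z x))) (cN N) where
  hb := LD.norm_b (half_sub D hz)
  mem := psi_mem D (half_sub D hz)
  flat := by
    intro x₁ hx₁
    have hx₁' : x₁ ∉ Q.A s₀ := by simpa using hx₁
    have hzU := half_sub D hz
    obtain ⟨W, hW, hfr⟩ := LD.frame_nhds (D := D) hzU hx₁'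
    filter_upwards [LD.ev_snd (p := fun q => q ∈ W) hW, eventually_notMem _ hx₁'] with y hy hyA
    have h1 := hfr (z, x₁) (mem_of_mem_nhds hW) (z, y) hy hzU hx₁' hzU hyA
    simp only at h1
    have hΨ1 : D.Ψ z x₁ ∉ Q.A (D.σ z) := LD.Ψ_notMem hzU hx₁'
    have hΨ2 : D.Ψ z y ∉ Q.A (D.σ z) := LD.Ψ_notMem hzU hyA
    have h2 : rP Q V.P (D.σ z) (D.Ψ z x₁) (D.Ψ z y) =
        D.G z x₁ * rP Q V.P s₀ x₁ y * (D.G z y)⁻¹ := by
      rw [rP_of V.P hΨ1 hΨ2]
      exact h1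
    refine ContinuousLinearMap.ext fun v => ?_
    show F₀.P x₁ y (cm (D.G z y)⁻¹ *ᵥ v) = cm (D.G z x₁)⁻¹ *ᵥ
      (F.P (D.Ψ z x₁) (D.Ψ z y) v)
    rw [hM₀.fb _ hx₁' _ hyA, hM.fb _ hΨ1 _ hΨ2, hR.P, hR₀.P, h2, Matrix.mulVec_mulVec,
      Matrix.mulVec_mulVec, ← cm_mul, ← cm_mul]
    congr 2
    group
  left := by
    intro x _ v
    show cm (D.G z x) *ᵥ (cm (D.G z x)⁻¹ *ᵥ v) = v
    rw [Matrix.mulVec_mulVec, cm_mul_cm_inv, Matrix.one_mulVec]
  right := by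
    intro x _ v
    show cm (D.G z x)⁻¹ *ᵥ (cm (D.G z x) *ᵥ v) = v
    rw [Matrix.mulVec_mulVec, cm_inv_mul_cm, Matrix.one_mulVec]
  form := hM.form
  form' := hM₀.form
  met := fun x hx u v => by
    rw [hM.met x (by simpa using hx), mg_apply, mg_apply]
  met' := fun x hx u v => by
    rw [hM₀.met x (by simpa using hx), mg_apply, mg_apply]
  c0 := cN_pos N
  le := by
    intro x hx v
    have hx' : x ∉ Q.A s₀ := by simpa using hx
    have hzU := half_sub D hz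
    have hΨ : D.Ψ z x ∉ Q.A (D.σ z) := LD.Ψ_notMem hzU hx'
    have e : cm (D.G z x) *ᵥ (cm (D.G z x)⁻¹ *ᵥ v) = v := by
      rw [Matrix.mulVec_mulVec, cm_mul_cm_inv, Matrix.one_mulVec]
    have h1 := cmp D (mem_ball_self (half_pos D.r_pos)) hz hx' (cm (D.G z x)⁻¹ *ᵥ v)
    rw [D.E_center hx', ← H_conj D hzU hx', ← conj_apply, e] at h1
    show (mg (R₀.H x) (cm (D.G z x)⁻¹ *ᵥ v) (cm (D.G z x)⁻¹ *ᵥ v)).re ≤
      cN N ^ 2 * (mg (R.H (D.Ψ z x)) v v).re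
    rw [mg_apply, mg_apply, H_res hR₀ hx', H_res hR hΨ]
    refine h1.trans ?_
    refine mul_le_mul_of_nonneg_right (cN_le N) ?_
    exact (V.hs _).hodge_nonneg v
  ge := by
    intro x hx v
    have hx' : x ∉ Q.A s₀ := by simpa using hx
    have hzU := half_sub D hz
    have hΨ : D.Ψ z x ∉ Q.A (D.σ z) := LD.Ψ_notMem hzU hx'
    have e : cm (D.G z x) *ᵥ (cm (D.G z x)⁻¹ *ᵥ v) = v := by
      rw [Matrix.mulVec_mulVec, cm_mul_cm_inv, Matrix.one_mulVec]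
    have h1 := cmp D hz (mem_ball_self (half_pos D.r_pos)) hx' (cm (D.G z x)⁻¹ *ᵥ v)
    rw [D.E_center hx', ← H_conj D hzU hx', ← conj_apply, e] at h1
    show (mg (R.H (D.Ψ z x)) v v).re ≤
      cN N ^ 2 * (mg (R₀.H x) (cm (D.G z x)⁻¹ *ᵥ v) (cm (D.G z x)⁻¹ *ᵥ v)).re
    rw [mg_apply, mg_apply, H_res hR₀ hx', H_res hR hΨ]
    refine h1.trans ?_
    refine mul_le_mul_of_nonneg_right (cN_le N) ?_
    exact (V.hs _).hodge_nonneg _

/-- the gauge is isometric for the flat form -/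
theorem S_iso {z : Fin m → ℂ} (hz : z ∈ D.U) {R : PVHS (Q.A (D.σ z)) N w}
    (hR : IsRes V (D.σ z) R) {R₀ : PVHS (Q.A s₀) N w} (hR₀ : IsRes V s₀ R₀) {x : ℂ}
    (hx : x ∉ Q.A s₀) (u v : Fin N → ℂ) :
    star (cm (D.G z x)⁻¹ *ᵥ u) ⬝ᵥ R₀.S x *ᵥ (cm (D.G z x)⁻¹ *ᵥ v) =
      star u ⬝ᵥ R.S (D.Ψ z x) *ᵥ v := by
  have hΨ : D.Ψ z x ∉ Q.A (D.σ z) := LD.Ψ_notMem hz hx
  have e : ∀ u : Fin N → ℂ, cm (D.G z x) *ᵥ (cm (D.G z x)⁻¹ *ᵥ u) = u := fun u => by
    rw [Matrix.mulVec_mulVec, cm_mul_cm_inv, Matrix.one_mulVec]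
  rw [hR₀.S, hR.S, rM_of _ hx, rM_of _ hΨ, ← LD.S_const hz hx, ← conj_apply, e, e]
  rfl

end inst

end Crest.Agent.R276.Nat_591
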