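import Mathlib
import Crest.Agent.R276.HsD_817
import Crest.Agent.R276.Nat7_591
import Crest.Agent.R276.IpcSt_975

-- ▼ part R276/HsE_817
section

/-!
# R276 / IPC (HS), part E: naturality.  `Nat' D D' T τ`: `T : L' ≃ L` intertwines the data `D'` (at the
parameter `s`) with the data `D` (fixed model), `τ : W' ≃ W` the transport of classes.
-/

set_option autoImplicit false
set_option linter.unusedSectionVars false

open Set Filter Topology
open Crest.Agent.R276.HsA_817 Crest.Agent.R276.HsB_817 Crest.Agent.R276.HsC_817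
open scoped InnerProductSpace

namespace Crest.Agent.R276.HsE_817

variable {L W L' W' : Type*} [NormedAddCommGroup L] [InnerProductSpace ℂ L]
  [NormedAddCommGroup W] [NormedSpace ℂ W]
  [NormedAddCommGroup L'] [InnerProductSpace ℂ L'] [NormedAddCommGroup W'] [NormedSpace ℂ W']

local notation "⟪" x ", " y "⟫" => inner ℂ x y

/-- `T` intertwines the data `D'` and `D`. -/
structure NatD (D : Fix L W) (D' : Fix L' W') (T : L' ≃L[ℂ] L) : Prop where
  form : ∀ u v, ⟪D.β (T u), T v⟫ = ⟪D'.β u, v⟫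
  ex : ∀ u, T u ∈ D.Ex ↔ u ∈ D'.Ex

variable {D : Fix L W} {D' : Fix L' W'} {T : L' ≃L[ℂ] L}

lemma NatD.zc (N : NatD D D' T) (u : L') : T u ∈ D.Zc ↔ u ∈ D'.Zc := by
  rw [D.memZc, D'.memZc]
  constructor
  · intro h e he
    rw [← N.form]
    exact h _ ((N.ex e).mpr he)
  · intro h e he
    have h1 : T (T.symm e) = e := T.apply_symm_apply e
    rw [← h1, N.form]
    refine h _ ((N.ex _).mp ?_)
    rwa [h1]

variable {n : ℕ} {π : ℕ → L →L[ℂ] L} {π' : ℕ → L' →L[ℂ] L'}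

lemma Jop_T (hπ : ∀ P ≤ n, ∀ u, π P (T u) = T (π' P u)) (u : L') :
    Jop n π (T u) = T (Jop n π' u) := by
  rw [Jop_apply, Jop_apply, map_sum]
  refine Finset.sum_congr rfl fun P hP => ?_
  rw [hπ P (by simpa [Nat.lt_succ_iff] using hP), map_smul]


/-- the condition `stab` is transported -/
lemma NatD.stab (N : NatD D D' T) (hπ : ∀ P ≤ n, ∀ u, π P (T u) = T (π' P u))
    (h : ∀ u ∈ D'.Zc, Jop n π' u ∈ D'.Zc → ∀ P ≤ n, π' P u ∈ D'.Zc) :
    ∀ u ∈ D.Zc, Jop n π u ∈ D.Zc → ∀ P ≤ n, π P u ∈ D.Zc := by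
  intro u hu hJ P hP
  have h1 : T (T.symm u) = u := T.apply_symm_apply u
  rw [← h1] at hu hJ ⊢
  rw [Jop_T hπ, N.zc] at hJ
  rw [N.zc] at hu
  rw [hπ P hP, N.zc]
  exact h _ hu hJ P hP

variable [CompleteSpace L] [FiniteDimensional ℂ W] [CompleteSpace L'] [FiniteDimensional ℂ W']



variable {τ : W' →ₗ[ℂ] W}




/-- `Types` on `L` from `Types` on `L'`, up to coercivity (the norms are only comparable). -/
theorem NatD.types (N : NatD D D' T) (hπ : ∀ P ≤ n, ∀ u, π P (T u) = T (π' P u)) {c' : ℝ}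
    (H' : Types D' n π' c') {K : ℝ} (hK : 0 < K) (hT : ∀ u, ‖T u‖ ≤ K * ‖u‖) :
    Types D n π (c' / K ^ 2) := by
  have hsurj : ∀ u, T (T.symm u) = u := T.apply_symm_apply
  refine ⟨div_pos H'.cpos (by positivity), fun u => ?_, fun P hP u => ?_, fun P hP Q hQ hne u => ?_,
    fun P hP Q hQ hne u v => ?_, fun u => ?_, N.stab hπ H'.stab⟩
  · rw [← hsurj u]
    have : ∀ P ∈ Finset.range (n + 1), π P (T (T.symm u)) = T (π' P (T.symm u)) := fun P hP =>
      hπ P (by simpa [Nat.lt_succ_iff] using hP) _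
    rw [Finset.sum_congr rfl this, ← map_sum, H'.sum]
  · rw [← hsurj u, hπ P hP, hπ P hP, H'.idem P hP]
  · rw [← hsurj u, hπ Q hQ, hπ P hP, H'.mul0 P hP Q hQ hne, map_zero]
  · rw [← hsurj u, ← hsurj v, hπ P hP, hπ Q hQ, N.form]
    exact H'.orth P hP Q hQ hne _ _
  · rw [← hsurj u, Jop_T hπ, N.form]
    refine le_trans ?_ (H'.coer _)
    have h1 := hT (T.symm u)
    have h2 : ‖T (T.symm u)‖ ^ 2 ≤ K ^ 2 * ‖T.symm u‖ ^ 2 := by
      rw [← mul_pow]
      exact pow_le_pow_left₀ (norm_nonneg _) h1 2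
    rw [div_mul_eq_mul_div, div_le_iff₀ (by positivity)]
    have := mul_le_mul_of_nonneg_left h2 H'.cpos.le
    linarith

end Crest.Agent.R276.HsE_817
end

-- ▼ part R276/Nat8_591

/-!
# R276, leaf IPC-NAT (helper591), part 8: transport between polarised variations (helper975's `PV`)

`PsiP B b M M' K K' c` : diffeomorphism `Ψ = B.psi b : X' → X`, flat isometric gauge `K x`, comparable
Hodge metrics.  `TE : M.L ≃L[ℂ] M'.L` preserves `be`-form, `Ex`, `Zc`.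
-/

set_option autoImplicit false

open Set Filter Topology MeasureTheory UniformSpace
open scoped ContDiff ComplexConjugate

namespace Crest.Agent.R276.Nat_591

open VCalc_442 IpcGr_975 IpcG1_975 Psi_563 HsB_817

variable {V V' : Type*} [NormedAddCommGroup V] [NormedSpace ℂ V] [NormedAddCommGroup V']
  [NormedSpace ℂ V'] {X X' : Set ℂ} {w w' : ℕ}

/-- transport data -/
structure PsiP {k : ℕ} (B : Bumps k) (b : Fin k → ℂ) (M : PV V X w) (M' : PV V' X' w')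
    (K : ℂ → (V →L[ℂ] V')) (K' : ℂ → (V' →L[ℂ] V)) (c : ℝ) : Prop where
  hb : ‖b‖ < B.δ
  mem : ∀ x, B.psi b x ∈ X ↔ x ∈ X'
  flat : ∀ z ∈ X', ∀ᶠ y in 𝓝 z, (M'.P z y).comp (K y) = (K z).comp (M.P (B.psi b z) (B.psi b y))
  left : ∀ x ∈ X', ∀ v, K' x (K x v) = v
  right : ∀ x ∈ X', ∀ v, K x (K' x v) = v
  iso : ∀ x ∈ X', ∀ u v, M'.S x (K x u) (K x v) = M.S (B.psi b x) u v
  c0 : 0 < c
  le : ∀ x ∈ X', ∀ v, (M'.Gf x (K x v) (K x v)).re ≤ c ^ 2 * (M.Gf (B.psi b x) v v).re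
  ge : ∀ x ∈ X', ∀ v, (M.Gf (B.psi b x) v v).re ≤ c ^ 2 * (M'.Gf x (K x v) (K x v)).re

namespace PsiP

variable [FiniteDimensional ℂ V] [FiniteDimensional ℂ V'] {k : ℕ} {B : Bumps k} {b : Fin k → ℂ}
  {M : PV V X w} {M' : PV V' X' w'} {K : ℂ → (V →L[ℂ] V')} {K' : ℂ → (V' →L[ℂ] V)} {c : ℝ}

theorem isForm (M : PV V X w) : IsForm M.toFB M.mb.dbl.toFB := fun _ _ _ => rfl

theorem psiM (h : PsiP B b M M' K K' c) :
    PsiM B b M.toFB M'.toFB M.mb.dbl M'.mb.dbl M.Gf M'.Gf K K' c where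
  hb := h.hb
  mem := h.mem
  flat := h.flat
  left := h.left
  right := h.right
  form := isForm M
  form' := isForm M'
  met := fun _ _ _ _ => rfl
  met' := fun _ _ _ _ => rfl
  c0 := h.c0
  le := h.le
  ge := h.ge

/-- **the isomorphism** -/
noncomputable def TE (h : PsiP B b M M' K K' c) : M.L ≃L[ℂ] M'.L := h.psiM.TE



theorem TE_coe (h : PsiP B b M M' K K' c) (φ : M.mb.dbl.H0) :
    h.TE (φ : M.L) = (M'.mb.dbl.s0 (pb (Kf (B.psi b) K) (B.psi b) φ.f)
      (h.psiM.mmor.toMor.mem_A0 φ.mem) : M'.mb.dbl.H0) := h.psiM.TE_coe φ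

/-- `be` in terms of the flat form -/
theorem G_bt (M : PV V X w) {x : ℂ} (hx : x ∈ X) (u v : V × V) :
    M.mb.dbl.G x (M.bt x u) v = M.S x u.2 v.2 - M.S x u.1 v.1 := by
  show M.Gf x (- M.Jf x u.1) v.1 + M.Gf x (M.Jf x u.2) v.2 = _
  rw [map_neg, neg_apply, M.G_J hx, M.G_J hx]
  ring

/-- the form is preserved -/
theorem form (h : PsiP B b M M' K K' c) (u v : M.L) :
    inner ℂ (M'.be (h.TE u)) (h.TE v) = inner ℂ (M.be u) v :=
  h.psiM.TE_form M.ok_bt M'.ok_bt M.S M'.S (fun _ hx u v => G_bt M hx u v)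
    (fun _ hx u v => G_bt M' hx u v) h.iso u v

theorem ex_eq (M : PV V X w) : (M.Ex : Set M.L) = closure (exG M.toFB M.mb.dbl) := by
  show (((LinearMap.range M.DL).topologicalClosure : Submodule ℂ M.L) : Set M.L) = _
  rw [Submodule.topologicalClosure_coe]
  congr 1
  ext u
  constructor
  · rintro ⟨φ, rfl⟩
    exact ⟨φ.1, φ.2, FB.Df_mem φ.2, rfl⟩
  · rintro ⟨φ, hφ, hm, rfl⟩
    exact ⟨⟨φ, hφ⟩, rfl⟩

/-- exact forms correspond -/
theorem ex (h : PsiP B b M M' K K' c) (u : M.L) : h.TE u ∈ M'.Ex ↔ u ∈ M.Ex := by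
  have h1 := h.psiM.TE_ex u
  rw [← ex_eq, ← ex_eq] at h1
  exact h1

/-- weakly closed forms correspond -/
theorem zc (h : PsiP B b M M' K K' c) (u : M.L) : h.TE u ∈ M'.Zc ↔ u ∈ M.Zc := by
  rw [M.mem_Zc, M'.mem_Zc]
  constructor
  · intro hu e he
    rw [← h.form]
    exact hu _ ((h.ex e).2 he)
  · intro hu e he
    obtain ⟨e, rfl⟩ := h.TE.surjective e
    rw [h.form]
    exact hu _ ((h.ex e).1 he)

/-- the conjugated total type fields -/
noncomputable def pf (h : PsiP B b M M' K K' c) (P : ℕ) : ℂ → (V' × V' →L[ℂ] V' × V') :=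
  h.psiM.fld (M.ty P)




/-- with given fields -/
theorem TE_Ty' (h : PsiP B b M M' K K' c) {P : ℕ} {q : ℂ → (V' × V' →L[ℂ] V' × V')}
    (hq : M'.mb.dbl.Ok q)
    (hqq : ∀ x ∈ X', ∀ v, q x (Kf (B.psi b) K x v) = Kf (B.psi b) K x (M.ty P (B.psi b x) v))
    (u : M.L) : h.TE (M.Ty P u) = M'.mb.dbl.opL q (h.TE u) :=
  h.psiM.TE_opL' (M.ok_ty P) hq hqq u


section fix

variable {W W' : Type*} [NormedAddCommGroup W] [NormedSpace ℂ W] [NormedAddCommGroup W']
  [NormedSpace ℂ W']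



end fix

end PsiP

end Crest.Agent.R276.Nat_591
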