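import Mathlib
import Crest.Agent.R276.IpcLoc_735
import Crest.Agent.R276.CylP_593
import Crest.Agent.R276.VCalcF_442
import Crest.Agent.R276.EndTh_659

-- ▼ part R276/EndL_663
section

/-!
# R276, leaf END (helper663): the real-variable core of step (5) of the one-step theorem (IPC)

On an end of the curve (cylinder coordinate `s ≥ s0 > 0`) put
`a = ∮ |φ|²`, `e = ∮ |Dφ|²`, `f = Re ∮ ⟨D_s φ, φ⟩`, `g = - ∮ ⟨Θ_s φ, φ⟩`, `t = ∮ |Θ φ|²`.
The hypotheses collected in `EndData` are the pointwise identities and Cauchy-Schwarz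
inequalities; `EndData.tendsto_zero` says that the flux `f` tends to `0`.
No integrals are used: `∫ e < ∞` is replaced by "`f` is bounded above".
Also: convex functions of logarithmic growth are nonincreasing (`antitoneOn_of_convexOn_log`).
-/

set_option autoImplicit false

open Filter Topology Set

namespace Crest.Agent.R276.EndL_663

/-- the data on one end -/
structure EndData (s0 C : ℝ) (a e f g g' t : ℝ → ℝ) : Prop where
  s0_pos : 0 < s0
  hf : ∀ s, s0 ≤ s → HasDerivAt f (e s) s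
  ha : ∀ s, s0 ≤ s → HasDerivAt a (2 * f s + 2 * g s) s
  hg : ∀ s, s0 ≤ s → HasDerivAt g (g' s) s
  hg' : ∀ s, s0 ≤ s → 2 * t s - 2 * √(e s * t s) ≤ g' s
  a0 : ∀ s, s0 ≤ s → 0 ≤ a s
  e0 : ∀ s, s0 ≤ s → 0 ≤ e s
  t0 : ∀ s, s0 ≤ s → 0 ≤ t s
  fa : ∀ s, s0 ≤ s → f s ^ 2 ≤ a s * e s
  ga : ∀ s, s0 ≤ s → g s ^ 2 ≤ a s * t s
  tC : ∀ s, s0 ≤ s → t s ≤ (C / s) ^ 2 * a s
  fb : ∃ B, ∀ s, s0 ≤ s → f s ≤ B

/-- a function with nonnegative derivative on `[s0, ∞)` is monotone there -/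
theorem mono_of_deriv {s0 : ℝ} {f f' : ℝ → ℝ} (hf : ∀ s, s0 ≤ s → HasDerivAt f (f' s) s)
    (h : ∀ s, s0 ≤ s → 0 ≤ f' s) : MonotoneOn f (Ici s0) := by
  apply monotoneOn_of_deriv_nonneg (convex_Ici s0)
  · exact fun s hs => (hf s hs).continuousAt.continuousWithinAt
  · intro s hs
    rw [interior_Ici] at hs
    exact (hf s (le_of_lt hs)).differentiableAt.differentiableWithinAt
  · intro s hs
    rw [interior_Ici] at hs
    rw [(hf s (le_of_lt hs)).deriv]
    exact h s (le_of_lt hs)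

variable {s0 C : ℝ} {a e f g g' t : ℝ → ℝ}

theorem sqrt_et (x y : ℝ) (hx : 0 ≤ x) (hy : 0 ≤ y) : 4 * √(x * y) ≤ 2 * x + 2 * y + 0 := by
  rw [Real.sqrt_mul hx]
  nlinarith [sq_nonneg (√x - √y), Real.sq_sqrt hx, Real.sq_sqrt hy]

namespace EndData

theorem f_mono (h : EndData s0 C a e f g g' t) : MonotoneOn f (Ici s0) :=
  mono_of_deriv h.hf h.e0

/-- `a` is convex: its derivative is monotone -/
theorem p_mono (h : EndData s0 C a e f g g' t) :
    MonotoneOn (fun s => 2 * f s + 2 * g s) (Ici s0) := by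
  apply mono_of_deriv (f' := fun s => 2 * e s + 2 * g' s)
  · intro s hs
    exact ((h.hf s hs).const_mul 2).add ((h.hg s hs).const_mul 2)
  · intro s hs
    have h1 := h.hg' s hs
    have h2 := sqrt_et (e s) (t s) (h.e0 s hs) (h.t0 s hs)
    have h3 := h.t0 s hs
    nlinarith

/-- if `a` is `O(s)` then the flux tends to `0` -/
theorem tendsto_zero_of_le (h : EndData s0 C a e f g g' t) {M s1 : ℝ} (hs1 : s0 ≤ s1)
    (hM : ∀ s, s1 ≤ s → a s ≤ M * s) : Tendsto f atTop (𝓝 0) := by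
  obtain ⟨B, hB⟩ := h.fb
  have hs1p : 0 < s1 := lt_of_lt_of_le h.s0_pos hs1
  -- the limit
  have hF : Monotone (fun s => f (max s s0)) := by
    intro x y hxy
    exact h.f_mono (mem_Ici.2 (le_max_right _ _)) (mem_Ici.2 (le_max_right _ _))
      (max_le_max_right _ hxy)
  have hFb : BddAbove (range fun s => f (max s s0)) := by
    refine ⟨B, ?_⟩
    rintro _ ⟨s, rfl⟩
    exact hB _ (le_max_right _ _)
  have hlim := tendsto_atTop_ciSup hF hFb
  set l := ⨆ s, f (max s s0) with hl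
  have hlim' : Tendsto f atTop (𝓝 l) := by
    refine hlim.congr' ?_
    filter_upwards [eventually_ge_atTop s0] with s hs
    rw [max_eq_left hs]
  by_cases hl0 : l = 0
  · rwa [hl0] at hlim'
  exfalso
  -- `f ^ 2 ≥ c` eventually
  have hl2 : 0 < l ^ 2 / 2 := by positivity
  have hsq : Tendsto (fun s => f s ^ 2) atTop (𝓝 (l ^ 2)) := hlim'.pow 2
  have hev : ∀ᶠ s in atTop, l ^ 2 / 2 < f s ^ 2 :=
    hsq.eventually (lt_mem_nhds (by linarith))
  obtain ⟨s2, hs2⟩ := eventually_atTop.1 hev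
  set s3 := max s1 s2 with hs3
  have hs31 : s1 ≤ s3 := le_max_left _ _
  have hs32 : s2 ≤ s3 := le_max_right _ _
  have hs3p : 0 < s3 := lt_of_lt_of_le hs1p hs31
  have hs30 : s0 ≤ s3 := hs1.trans hs31
  set c := l ^ 2 / 2 with hc
  -- M is positive
  have hMpos : 0 < M := by
    by_contra hneg
    push Not at hneg
    have h1 : a s3 ≤ 0 := by
      have := hM s3 hs31
      nlinarith
    have h2 : a s3 = 0 := le_antisymm h1 (h.a0 s3 hs30)
    have h3 := h.fa s3 hs30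
    have h4 := hs2 s3 hs32
    rw [h2, zero_mul] at h3
    linarith
  -- `e ≥ c / (M s)`
  have he : ∀ s, s3 ≤ s → c / M / s ≤ e s := by
    intro s hs
    have hsp : 0 < s := lt_of_lt_of_le hs3p hs
    have h1 := h.fa s (hs30.trans hs)
    have h2 := hs2 s (hs32.trans hs)
    have h3 := hM s (hs31.trans hs)
    have h4 : a s * e s ≤ M * s * e s :=
      mul_le_mul_of_nonneg_right h3 (h.e0 s (hs30.trans hs))
    rw [div_div, div_le_iff₀ (by positivity)]
    nlinarith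
  -- compare with the logarithm
  have hmono : MonotoneOn (fun s => f s - c / M * Real.log s) (Ici s3) := by
    apply mono_of_deriv (f' := fun s => e s - c / M * s⁻¹)
    · intro s hs
      exact (h.hf s (hs30.trans hs)).sub
        ((Real.hasDerivAt_log (ne_of_gt (lt_of_lt_of_le hs3p hs))).const_mul _)
    · intro s hs
      have := he s hs
      rw [div_eq_mul_inv] at this
      simpa using this
  have hcM : 0 < c / M := div_pos hl2 hMpos
  have htend : Tendsto (fun s => f s3 - c / M * Real.log s3 + c / M * Real.log s) atTop atTop :=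
    tendsto_atTop_add_const_left _ _ (Real.tendsto_log_atTop.const_mul_atTop hcM)
  obtain ⟨s4, hs4, hs4'⟩ :=
    ((htend.eventually_gt_atTop B).and (eventually_ge_atTop s3)).exists
  have h1 := hmono (mem_Ici.2 le_rfl) (mem_Ici.2 hs4') hs4'
  have h2 := hB s4 (hs30.trans hs4')
  simp only at h1
  linarith

/-- the growth estimate: `a = O(s)` -/
theorem exists_bound (h : EndData s0 C a e f g g' t) :
    ∃ M s1, s0 ≤ s1 ∧ ∀ s, s1 ≤ s → a s ≤ M * s := by
  obtain ⟨B, hB⟩ := h.fb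
  by_cases hp : ∀ s, s0 ≤ s → 2 * f s + 2 * g s ≤ 0
  · -- `a` is nonincreasing
    refine ⟨a s0 / s0, s0, le_rfl, fun s hs => ?_⟩
    have hanti : MonotoneOn (fun s => - a s) (Ici s0) := by
      apply mono_of_deriv (f' := fun s => -(2 * f s + 2 * g s))
      · intro s hs
        exact (h.ha s hs).neg
      · intro s hs
        have := hp s hs
        linarith
    have h1 := hanti (mem_Ici.2 le_rfl) (mem_Ici.2 hs) hs
    simp only at h1
    have h2 : a s ≤ a s0 := by linarith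
    have h3 : a s0 * s0 ≤ a s0 * s := mul_le_mul_of_nonneg_left hs (h.a0 s0 le_rfl)
    have h4 : a s0 ≤ a s0 / s0 * s := by
      rw [div_mul_eq_mul_div, le_div_iff₀ h.s0_pos]
      exact h3
    exact h2.trans h4
  · push Not at hp
    obtain ⟨s1, hs1, hps1⟩ := hp
    have hs1p : 0 < s1 := lt_of_lt_of_le h.s0_pos hs1
    -- `a' ≥ p(s1) > 0` on `[s1, ∞)`
    have hpos : ∀ s, s1 ≤ s → 0 < 2 * f s + 2 * g s := by
      intro s hs
      have := h.p_mono (mem_Ici.2 hs1) (mem_Ici.2 (hs1.trans hs)) hs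
      simp only at this
      linarith
    have hamono : MonotoneOn a (Ici s1) :=
      mono_of_deriv (fun s hs => h.ha s (hs1.trans hs)) (fun s hs => (hpos s hs).le)
    set s2 := s1 + 1 with hs2
    have hs12 : s1 ≤ s2 := by linarith
    have hs2p : 0 < s2 := by linarith
    have hs02 : s0 ≤ s2 := hs1.trans hs12
    have ha_pos : ∀ s, s2 ≤ s → 0 < a s := by
      intro s hs
      -- strict increase
      have hmono' : MonotoneOn (fun s => a s - (2 * f s1 + 2 * g s1) * s) (Ici s1) := by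
        apply mono_of_deriv (f' := fun s => (2 * f s + 2 * g s) - (2 * f s1 + 2 * g s1) * 1)
        · intro s hs
          exact (h.ha s (hs1.trans hs)).sub ((hasDerivAt_id s).const_mul _)
        · intro s hs
          have := h.p_mono (mem_Ici.2 hs1) (mem_Ici.2 (hs1.trans hs)) hs
          simp only at this ⊢
          linarith
      have h1 := hmono' (mem_Ici.2 le_rfl) (mem_Ici.2 (hs12.trans hs)) (hs12.trans hs)
      simp only at h1
      have h2 := h.a0 s1 hs1
      have h3 : (1 : ℝ) ≤ s - s1 := by linarith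
      nlinarith [hpos s1 le_rfl]
    -- the bound for `|g|`
    have hgC : ∀ s, s2 ≤ s → |g s| ≤ |C| / s * a s := by
      intro s hs
      have hsp : 0 < s := lt_of_lt_of_le hs2p hs
      have h1 := h.ga s (hs02.trans hs)
      have h2 := h.tC s (hs02.trans hs)
      have h3 := (ha_pos s hs)
      apply abs_le_of_sq_le_sq
      · calc g s ^ 2 ≤ a s * t s := h1
          _ ≤ a s * ((C / s) ^ 2 * a s) := mul_le_mul_of_nonneg_left h2 h3.le
          _ = (|C| / s * a s) ^ 2 := by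
            rw [mul_pow, div_pow, div_pow, sq_abs]; ring
      · positivity
    -- the key differential inequality, integrated
    have hkey : ∀ s, s2 ≤ s → ∀ lam : ℝ, 0 < lam →
        g s / a s ≤ lam * (B - f s) + 4 * C ^ 2 / (lam * a s) / s := by
      intro s hs lam hlam
      have hsp : 0 < s := lt_of_lt_of_le hs2p hs
      have has := ha_pos s hs
      set D := 4 * C ^ 2 / (lam * a s) with hD
      have hD0 : 0 ≤ D := by positivity
      have hmono' : MonotoneOn (fun u => g u / a u + lam * f u - D * u⁻¹) (Ici s) := by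
        apply mono_of_deriv (f' := fun u =>
          (g' u * a u - g u * (2 * f u + 2 * g u)) / a u ^ 2 + lam * e u - D * (-(u ^ 2)⁻¹))
        · intro u hu
          have hu2 : s2 ≤ u := hs.trans hu
          have hup : 0 < u := lt_of_lt_of_le hsp hu
          have h1 := (h.hg u (hs02.trans hu2)).div (h.ha u (hs02.trans hu2))
            (ne_of_gt (ha_pos u hu2))
          exact (h1.add ((h.hf u (hs02.trans hu2)).const_mul lam)).sub
            ((hasDerivAt_inv (ne_of_gt hup)).const_mul D)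
        · intro u hu
          have hu2 : s2 ≤ u := hs.trans hu
          have hup : 0 < u := lt_of_lt_of_le hsp hu
          have hu0 : s0 ≤ u := hs02.trans hu2
          have hau := ha_pos u hu2
          have hle : a s ≤ a u := hamono (mem_Ici.2 (hs12.trans hs)) (mem_Ici.2 (hs12.trans hu2)) hu
          have heu := h.e0 u hu0
          have htu := h.t0 u hu0
          have h1 := h.hg' u hu0
          have h2 := h.ga u hu0
          have h3 := h.fa u hu0
          have h4 := h.tC u hu0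
          -- `|g f| ≤ a √(e t)`
          set w := √(e u * t u) with hw
          have hw0 : 0 ≤ w := Real.sqrt_nonneg _
          have hw2 : w ^ 2 = e u * t u := Real.sq_sqrt (mul_nonneg heu htu)
          have h5 : |g u * f u| ≤ a u * w := by
            apply abs_le_of_sq_le_sq
            · calc (g u * f u) ^ 2 = g u ^ 2 * f u ^ 2 := by ring
                _ ≤ (a u * t u) * (a u * e u) :=
                  mul_le_mul h2 h3 (sq_nonneg _) (mul_nonneg hau.le htu)
                _ = (a u * w) ^ 2 := by rw [mul_pow, hw2]; ring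
            · positivity
          have h6 : g u * f u ≤ a u * w := le_trans (le_abs_self _) h5
          -- numerator
          have h7 : -4 * w * a u ≤ g' u * a u - g u * (2 * f u + 2 * g u) := by
            have h8 : (2 * t u - 2 * w) * a u ≤ g' u * a u :=
              mul_le_mul_of_nonneg_right h1 hau.le
            nlinarith
          have h9 : -4 * w / a u ≤ (g' u * a u - g u * (2 * f u + 2 * g u)) / a u ^ 2 := by
            rw [div_le_div_iff₀ hau (by positivity)]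
            nlinarith [mul_le_mul_of_nonneg_right h7 hau.le]
          -- AM-GM
          have h10 : 4 * w / a u ≤ lam * e u + 4 * t u / (lam * a u ^ 2) := by
            have h11 : (4 * w / a u) ^ 2 ≤ (lam * e u + 4 * t u / (lam * a u ^ 2)) ^ 2 := by
              have h12 : (4 * w / a u) ^ 2 = 4 * (lam * e u) * (4 * t u / (lam * a u ^ 2)) := by
                rw [div_pow, mul_pow, hw2]
                field_simp
              rw [h12]
              nlinarith [sq_nonneg (lam * e u - 4 * t u / (lam * a u ^ 2))]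
            have h13 : 0 ≤ lam * e u + 4 * t u / (lam * a u ^ 2) := by positivity
            exact le_trans (le_abs_self _) (abs_le_of_sq_le_sq h11 h13)
          have h14 : 4 * t u / (lam * a u ^ 2) ≤ D * (u ^ 2)⁻¹ := by
            rw [hD, div_mul_eq_mul_div, div_le_div_iff₀ (by positivity) (by positivity)]
            have h15 : t u ≤ C ^ 2 * (u ^ 2)⁻¹ * a u := by
              rw [div_pow, div_eq_mul_inv] at h4
              exact h4
            have h16 : 4 * t u * (lam * a s) ≤ 4 * t u * (lam * a u) :=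
              mul_le_mul_of_nonneg_left (mul_le_mul_of_nonneg_left hle hlam.le) (by positivity)
            calc 4 * t u * (lam * a s) ≤ 4 * t u * (lam * a u) := h16
              _ ≤ 4 * (C ^ 2 * (u ^ 2)⁻¹ * a u) * (lam * a u) :=
                mul_le_mul_of_nonneg_right (by linarith) (by positivity)
              _ = 4 * C ^ 2 * (u ^ 2)⁻¹ * (lam * a u ^ 2) := by ring
          have h17 : (-4 * w) / a u = - (4 * w / a u) := by ring
          rw [h17] at h9
          linarith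
      -- compare `s` with a large `u`
      have hlimit : ∀ u, s ≤ u → g s / a s + lam * f s - D * s⁻¹ ≤ |C| / u + lam * B := by
        intro u hu
        have hu2 : s2 ≤ u := hs.trans hu
        have hup : 0 < u := lt_of_lt_of_le hsp hu
        have h1 := hmono' (mem_Ici.2 le_rfl) (mem_Ici.2 hu) hu
        simp only at h1
        have h2 : g u / a u ≤ |C| / u := by
          rw [div_le_iff₀ (ha_pos u hu2)]
          exact le_trans (le_abs_self _) (hgC u hu2)
        have h3 : lam * f u ≤ lam * B := mul_le_mul_of_nonneg_left (hB u (hs02.trans hu2)) hlam.le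
        have h4 : 0 ≤ D * u⁻¹ := by positivity
        linarith
      have hlim0 : Tendsto (fun u : ℝ => |C| / u + lam * B) atTop (𝓝 (0 + lam * B)) :=
        (tendsto_const_nhds.div_atTop tendsto_id).add_const _
      have hfin : g s / a s + lam * f s - D * s⁻¹ ≤ 0 + lam * B :=
        ge_of_tendsto hlim0 (by
          filter_upwards [eventually_ge_atTop s] with u hu
          exact hlimit u hu)
      rw [div_eq_mul_inv D s]
      linarith
    -- the bound `g ≤ K √(a / s)`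
    set K := B - f s0 + 4 * C ^ 2 with hK
    have hK0 : 0 ≤ K := by
      have := hB s0 le_rfl
      nlinarith [sq_nonneg C]
    have hgK : ∀ s, s2 ≤ s → g s ≤ K * √(a s / s) := by
      intro s hs
      have hsp : 0 < s := lt_of_lt_of_le hs2p hs
      have has := ha_pos s hs
      have hr0 : 0 < √(a s * s) := Real.sqrt_pos.2 (by positivity)
      have hr2 : √(a s * s) ^ 2 = a s * s := Real.sq_sqrt (by positivity)
      have h1 := hkey s hs (1 / √(a s * s)) (by positivity)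
      have h2 : f s0 ≤ f s :=
        h.f_mono (mem_Ici.2 le_rfl) (mem_Ici.2 (hs02.trans hs)) (hs02.trans hs)
      have h3 : 4 * C ^ 2 / (1 / √(a s * s) * a s) / s = 4 * C ^ 2 * (1 / √(a s * s)) := by
        rw [div_div, div_eq_iff (by positivity)]
        have : 4 * C ^ 2 * (1 / √(a s * s)) * (1 / √(a s * s) * a s * s)
          = 4 * C ^ 2 * (a s * s) / √(a s * s) ^ 2 := by
          field_simp
        rw [this, hr2]
        field_simp
      rw [h3] at h1
      have h4 : g s / a s ≤ K * (1 / √(a s * s)) := by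
        have h5 : 1 / √(a s * s) * (B - f s) ≤ 1 / √(a s * s) * (B - f s0) :=
          mul_le_mul_of_nonneg_left (by linarith) (by positivity)
        calc g s / a s ≤ 1 / √(a s * s) * (B - f s) + 4 * C ^ 2 * (1 / √(a s * s)) := h1
          _ ≤ 1 / √(a s * s) * (B - f s0) + 4 * C ^ 2 * (1 / √(a s * s)) := by linarith
          _ = K * (1 / √(a s * s)) := by rw [hK]; ring
      rw [div_le_iff₀ has] at h4
      have h6 : K * (1 / √(a s * s)) * a s = K * √(a s / s) := by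
        have h7 : √(a s / s) = a s / √(a s * s) := by
          rw [eq_div_iff (ne_of_gt hr0), ← Real.sqrt_mul (by positivity)]
          have : a s / s * (a s * s) = a s ^ 2 := by field_simp
          rw [this, Real.sqrt_sq has.le]
        rw [h7]; ring
      rw [h6] at h4
      exact h4
    -- the comparison
    set A := a s2 / s2 with hA
    have hA0 : 0 ≤ A := by
      have := ha_pos s2 le_rfl
      positivity
    set R := 2 * K + 1 + 2 * |B| + A with hR
    have hR1 : 1 ≤ R := by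
      have := abs_nonneg B
      linarith
    have hRM : 2 * B + 2 * (K * R) < R ^ 2 := by
      have h1 : B ≤ |B| := le_abs_self B
      have h2 : |B| ≤ |B| * R := le_mul_of_one_le_right (abs_nonneg B) hR1
      nlinarith
    refine ⟨R ^ 2, s2, hs02, fun s hs => ?_⟩
    have hcont : ContinuousOn a (Icc s2 s) := fun u hu =>
      (h.ha u (hs02.trans hu.1)).continuousAt.continuousWithinAt
    have hderiv : ∀ u ∈ Ico s2 s, HasDerivWithinAt a (2 * f u + 2 * g u) (Ici u) u :=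
      fun u hu => (h.ha u (hs02.trans hu.1)).hasDerivWithinAt
    have hinit : a s2 ≤ R ^ 2 * s2 := by
      have h1 : a s2 = A * s2 := by rw [hA]; field_simp
      rw [h1]
      apply mul_le_mul_of_nonneg_right _ hs2p.le
      have := abs_nonneg B
      nlinarith
    have hbdry : ∀ u : ℝ, HasDerivAt (fun u => R ^ 2 * u) (R ^ 2 * 1) u := fun u =>
      (hasDerivAt_id u).const_mul _
    refine image_le_of_deriv_right_lt_deriv_boundary hcont hderiv hinit hbdry ?_
      (right_mem_Icc.2 hs)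
    intro u hu hEq
    have hup : 0 < u := lt_of_lt_of_le hs2p hu.1
    have h1 := hgK u hu.1
    have h2 := hB u (hs02.trans hu.1)
    have h3 : √(a u / u) = R := by
      rw [hEq]
      have : R ^ 2 * u / u = R ^ 2 := by field_simp
      rw [this, Real.sqrt_sq (by linarith)]
    rw [h3] at h1
    linarith

/-- **END lemma**: the flux of an exact harmonic form through an end tends to `0`. -/
theorem tendsto_zero (h : EndData s0 C a e f g g' t) : Tendsto f atTop (𝓝 0) := by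
  obtain ⟨M, s1, hs1, hM⟩ := h.exists_bound
  exact h.tendsto_zero_of_le hs1 hM

end EndData


end Crest.Agent.R276.EndL_663
end

-- ▼ part R276/IpcE2_827
section

/-!
# R276, leaf IPC-GL5 (helper827), part 1: one end, in the plane coordinate

A `1`-form on an open subset of `ℂ` is a map `F : ℂ → ℂ →L[ℝ] ℝ`; `dv F` is its divergence.
`φ` is a holomorphic map from a half plane `{s0 < Re w}` to the domain, `φ (w + 2 π i) = φ w`,
for instance `a + exp (-w)` (a puncture) or `exp w` (infinity).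
-/

set_option autoImplicit false

open Filter Topology Set MeasureTheory

namespace Crest.Agent.R276.IpcE2_827

/-- "divergence" of a 1-form on `ℂ` -/
noncomputable def dv (F : ℂ → ℂ →L[ℝ] ℝ) (z : ℂ) : ℝ :=
  fderiv ℝ F z 1 1 + fderiv ℝ F z Complex.I Complex.I

/-- the point `s + iθ` -/
noncomputable def pt (s θ : ℝ) : ℂ := s + θ * Complex.I

/-- the half plane -/
def Hp (s0 : ℝ) : Set ℂ := {w | s0 < w.re}

@[simp] theorem pt_re (s θ : ℝ) : (pt s θ).re = s := by simp [pt]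
@[simp] theorem pt_im (s θ : ℝ) : (pt s θ).im = θ := by simp [pt]

theorem continuous_pt : Continuous (fun p : ℝ × ℝ => pt p.1 p.2) := by
  unfold pt; fun_prop

theorem isOpen_Hp (s0 : ℝ) : IsOpen (Hp s0) := isOpen_lt continuous_const Complex.continuous_re

theorem hasDerivAt_pt_s (s θ : ℝ) : HasDerivAt (fun s : ℝ => pt s θ) 1 s := by
  unfold pt
  simpa using (Complex.ofRealCLM.hasDerivAt (x := s)).add_const (↑θ * Complex.I)

theorem hasDerivAt_pt_t (s θ : ℝ) : HasDerivAt (fun θ : ℝ => pt s θ) Complex.I θ := by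
  unfold pt
  simpa using ((Complex.ofRealCLM.hasDerivAt (x := θ)).mul_const Complex.I).const_add (s : ℂ)

/-- differentiation of circle integrals -/
theorem ci_deriv {s0 s : ℝ} {u : ℂ → ℝ} (hu : ContDiffOn ℝ 1 u (Hp s0)) (hs : s0 < s) :
    HasDerivAt (fun s => ∫ θ in (-Real.pi)..Real.pi, u (pt s θ))
      (∫ θ in (-Real.pi)..Real.pi, fderiv ℝ u (pt s θ) 1) s := by
  have hS := isOpen_Hp s0
  have hfd : ContinuousOn (fderiv ℝ u) (Hp s0) :=
    hu.continuousOn_fderiv_of_isOpen hS le_rfl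
  set δ := (s - s0) / 2 with hδ
  have hδ0 : 0 < δ := by rw [hδ]; linarith
  set K : Set (ℝ × ℝ) := Icc (s - δ) (s + δ) ×ˢ Icc (-Real.pi) Real.pi with hK
  have hKc : IsCompact K := isCompact_Icc.prod isCompact_Icc
  have hmaps : MapsTo (fun p : ℝ × ℝ => pt p.1 p.2) K (Hp s0) := by
    rintro ⟨x, θ⟩ ⟨hx, -⟩
    simp only [Hp, mem_ofPred_eq, pt_re]
    have := hx.1
    simp only at this
    linarith
  have hcont : ContinuousOn (fun p : ℝ × ℝ => fderiv ℝ u (pt p.1 p.2) 1) K :=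
    (hfd.comp continuous_pt.continuousOn hmaps).clm_apply continuousOn_const
  obtain ⟨M, hM⟩ := hKc.exists_bound_of_continuousOn hcont
  have hpi : -Real.pi ≤ Real.pi := by linarith [Real.pi_pos]
  have hnb : Metric.ball s δ ∈ 𝓝 s := Metric.ball_mem_nhds _ hδ0
  have hin : ∀ x ∈ Metric.ball s δ, x ∈ Icc (s - δ) (s + δ) := by
    intro x hx
    rw [Real.ball_eq_Ioo] at hx
    exact ⟨hx.1.le, hx.2.le⟩
  have hmem : ∀ x ∈ Metric.ball s δ, ∀ θ, pt x θ ∈ Hp s0 := by
    intro x hx θ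
    have := (hin x hx).1
    simp only [Hp, mem_ofPred_eq, pt_re]
    linarith
  have hsec : ∀ x ∈ Metric.ball s δ, Continuous fun θ => u (pt x θ) := by
    intro x hx
    rw [← continuousOn_univ]
    exact hu.continuousOn.comp
      ((continuous_pt.comp (continuous_const.prodMk continuous_id)).continuousOn (s := univ))
      (fun θ _ => hmem x hx θ)
  have hsec' : ∀ x ∈ Metric.ball s δ, Continuous fun θ => fderiv ℝ u (pt x θ) 1 := by
    intro x hx
    rw [← continuousOn_univ]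
    exact (hfd.comp
      ((continuous_pt.comp (continuous_const.prodMk continuous_id)).continuousOn (s := univ))
      (fun θ _ => hmem x hx θ)).clm_apply continuousOn_const
  refine (intervalIntegral.hasDerivAt_integral_of_dominated_loc_of_deriv_le
    (F := fun x θ => u (pt x θ)) (F' := fun x θ => fderiv ℝ u (pt x θ) 1)
    (bound := fun _ => M) hnb ?_ ?_ ?_ ?_ ?_ ?_).2
  · filter_upwards [hnb] with x hx
    exact (hsec x hx).aestronglyMeasurable
  · exact (hsec s (Metric.mem_ball_self hδ0)).intervalIntegrable _ _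
  · exact (hsec' s (Metric.mem_ball_self hδ0)).aestronglyMeasurable
  · refine Eventually.of_forall fun θ hθ x hx => ?_
    rw [uIoc_of_le hpi] at hθ
    exact hM (x, θ) ⟨hin x hx, hθ.1.le, hθ.2⟩
  · exact intervalIntegrable_const
  · refine Eventually.of_forall fun θ _ x hx => ?_
    have h1 : HasFDerivAt u (fderiv ℝ u (pt x θ)) (pt x θ) :=
      ((hu.differentiableOn one_ne_zero).differentiableAt
        (hS.mem_nhds (hmem x hx θ))).hasFDerivAt
    exact h1.comp_hasDerivAt x (hasDerivAt_pt_s x θ)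

/-- derivative of the flux -/
theorem flux_deriv {s0 s : ℝ} {H : ℂ → ℂ →L[ℝ] ℝ} (hH : ContDiffOn ℝ 1 H (Hp s0))
    (hper : ∀ w ∈ Hp s0, H (w + 2 * Real.pi * Complex.I) = H w) (hs : s0 < s) :
    HasDerivAt (fun s => ∫ θ in (-Real.pi)..Real.pi, H (pt s θ) 1)
      (∫ θ in (-Real.pi)..Real.pi, dv H (pt s θ)) s := by
  have hS := isOpen_Hp s0
  have hfd : ContinuousOn (fderiv ℝ H) (Hp s0) :=
    hH.continuousOn_fderiv_of_isOpen hS le_rfl
  have hd : ∀ w ∈ Hp s0, HasFDerivAt H (fderiv ℝ H w) w := fun w hw =>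
    ((hH.differentiableOn one_ne_zero).differentiableAt (hS.mem_nhds hw)).hasFDerivAt
  have hmem : ∀ θ, pt s θ ∈ Hp s0 := by
    intro θ
    simp only [Hp, mem_ofPred_eq, pt_re]
    exact hs
  have hcomp : Continuous fun θ => fderiv ℝ H (pt s θ) := by
    rw [← continuousOn_univ]
    exact hfd.comp
      ((continuous_pt.comp (continuous_const.prodMk continuous_id)).continuousOn (s := univ))
      (fun θ _ => hmem θ)
  have h1 := ci_deriv (u := fun w => H w 1) (hH.clm_apply contDiffOn_const) hs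
  have h2 : ∀ w ∈ Hp s0, fderiv ℝ (fun w => H w 1) w 1 = fderiv ℝ H w 1 1 := by
    intro w hw
    rw [((hd w hw).clm_apply (hasFDerivAt_const (1 : ℂ) w)).fderiv]
    simp
  have h3 : ∫ θ in (-Real.pi)..Real.pi, fderiv ℝ H (pt s θ) Complex.I Complex.I = 0 := by
    rw [intervalIntegral.integral_eq_sub_of_hasDerivAt (f := fun θ => H (pt s θ) Complex.I)]
    · have : pt s Real.pi = pt s (-Real.pi) + 2 * Real.pi * Complex.I := by
        unfold pt; push_cast; ring
      rw [this, hper _ (hmem _), sub_self]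
    · intro θ _
      have h4 := (hd _ (hmem θ)).comp_hasDerivAt θ (hasDerivAt_pt_t s θ)
      have h5 := h4.clm_apply (hasDerivAt_const θ (Complex.I))
      simpa using h5
    · exact ((hcomp.clm_apply continuous_const).clm_apply continuous_const).intervalIntegrable _ _
  have h4 : ∫ θ in (-Real.pi)..Real.pi, dv H (pt s θ)
      = ∫ θ in (-Real.pi)..Real.pi, fderiv ℝ (fun w => H w 1) (pt s θ) 1 := by
    unfold dv
    rw [intervalIntegral.integral_add, h3, add_zero]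
    · refine intervalIntegral.integral_congr fun θ _ => ?_
      exact (h2 _ (hmem θ)).symm
    · exact ((hcomp.clm_apply continuous_const).clm_apply continuous_const).intervalIntegrable _ _
    · exact ((hcomp.clm_apply continuous_const).clm_apply continuous_const).intervalIntegrable _ _
  rw [h4]
  exact h1

/-- Cauchy-Schwarz from a pointwise inequality -/
theorem cs_interval {p q r : ℝ → ℝ} {a b : ℝ} (hab : a ≤ b) (hp : Continuous p)
    (hq : Continuous q) (hr : Continuous r) (hq0 : ∀ x, 0 ≤ q x) (hr0 : ∀ x, 0 ≤ r x)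
    (h : ∀ x, p x ^ 2 ≤ q x * r x) :
    (∫ x in a..b, p x) ^ 2 ≤ (∫ x in a..b, q x) * (∫ x in a..b, r x) := by
  have key : ∀ t : ℝ, 0 ≤ (∫ x in a..b, q x) * (t * t) + (2 * ∫ x in a..b, p x) * t
      + ∫ x in a..b, r x := by
    intro t
    have h1 : (∫ x in a..b, q x) * (t * t) + (2 * ∫ x in a..b, p x) * t + ∫ x in a..b, r x
        = ∫ x in a..b, (q x * (t * t) + (2 * p x) * t + r x) := by
      rw [intervalIntegral.integral_add, intervalIntegral.integral_add,
        intervalIntegral.integral_mul_const, intervalIntegral.integral_mul_const,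
        intervalIntegral.integral_const_mul]
      all_goals apply Continuous.intervalIntegrable; fun_prop
    rw [h1]
    apply intervalIntegral.integral_nonneg hab
    intro x _
    rcases (hq0 x).eq_or_lt with h0 | h0
    · have h2 := h x
      rw [← h0, zero_mul] at h2
      have h3 : p x = 0 := by nlinarith [sq_nonneg (p x)]
      rw [← h0, h3]
      have := hr0 x
      simpa using this
    · have h2 := h x
      have h3 : q x * (q x * (t * t) + 2 * p x * t + r x)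
          = (q x * t + p x) ^ 2 + (q x * r x - p x ^ 2) := by ring
      have h4 : 0 ≤ q x * (q x * (t * t) + 2 * p x * t + r x) := by
        rw [h3]; nlinarith [sq_nonneg (q x * t + p x)]
      exact nonneg_of_mul_nonneg_right (by linarith) h0
  have := discrim_le_zero key
  unfold discrim at this
  nlinarith

/-- the pull back of a `1`-form by a holomorphic map -/
noncomputable def pb (φ : ℂ → ℂ) (F : ℂ → ℂ →L[ℝ] ℝ) (w : ℂ) : ℂ →L[ℝ] ℝ :=
  (F (φ w)).comp (ContinuousLinearMap.mul ℝ ℂ (deriv φ w))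

@[simp] theorem pb_apply (φ : ℂ → ℂ) (F : ℂ → ℂ →L[ℝ] ℝ) (w v : ℂ) :
    pb φ F w v = F (φ w) (deriv φ w * v) := rfl

theorem differentiable_deriv {φ : ℂ → ℂ} (hφ : Differentiable ℂ φ) :
    Differentiable ℂ (deriv φ) := by
  have h : ContDiff ℂ 2 φ := hφ.contDiff
  have h2 : ContDiff ℂ 1 (deriv φ) := by
    have : ContDiff ℂ (1 + 1) φ := by simpa [one_add_one_eq_two] using h
    exact (contDiff_succ_iff_deriv.1 this).2.2
  exact h2.differentiable one_ne_zero

theorem contDiff_real {φ : ℂ → ℂ} (hφ : Differentiable ℂ φ) : ContDiff ℝ 1 φ :=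
  (hφ.contDiff (n := 1)).restrict_scalars ℝ

theorem contDiffOn_pb {φ : ℂ → ℂ} (hφ : Differentiable ℂ φ) {F : ℂ → ℂ →L[ℝ] ℝ} {U S : Set ℂ}
    (hF : ContDiffOn ℝ 1 F U) (hS : MapsTo φ S U) : ContDiffOn ℝ 1 (pb φ F) S := by
  unfold pb
  refine ContDiffOn.clm_comp (hF.comp (contDiff_real hφ).contDiffOn hS) ?_
  exact ((ContinuousLinearMap.mul ℝ ℂ).contDiff.comp
    (contDiff_real (differentiable_deriv hφ))).contDiffOn

theorem hasFDerivAt_real {φ : ℂ → ℂ} (hφ : Differentiable ℂ φ) (w : ℂ) :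
    HasFDerivAt φ (ContinuousLinearMap.mul ℝ ℂ (deriv φ w)) w := by
  have h := (hφ w).hasDerivAt.hasFDerivAt.restrictScalars ℝ
  have e : ContinuousLinearMap.restrictScalars ℝ
      (ContinuousLinearMap.toSpanSingleton ℂ (deriv φ w))
      = ContinuousLinearMap.mul ℝ ℂ (deriv φ w) := by
    refine ContinuousLinearMap.ext fun v => ?_
    simp [mul_comm]
  rw [e] at h
  exact h

theorem dv_pb {φ : ℂ → ℂ} (hφ : Differentiable ℂ φ) {F : ℂ → ℂ →L[ℝ] ℝ} {w : ℂ}
    (hF : DifferentiableAt ℝ F (φ w)) :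
    dv (pb φ F) w = ‖deriv φ w‖ ^ 2 * dv F (φ w) := by
  have h1 : HasFDerivAt (fun w => F (φ w))
      ((fderiv ℝ F (φ w)).comp (ContinuousLinearMap.mul ℝ ℂ (deriv φ w))) w :=
    hF.hasFDerivAt.comp w (hasFDerivAt_real hφ w)
  have h2 : HasFDerivAt (fun w => ContinuousLinearMap.mul ℝ ℂ (deriv φ w))
      ((ContinuousLinearMap.mul ℝ ℂ).comp
        (ContinuousLinearMap.mul ℝ ℂ (deriv (deriv φ) w))) w :=
    (ContinuousLinearMap.mul ℝ ℂ).hasFDerivAt.comp w
      (hasFDerivAt_real (differentiable_deriv hφ) w)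
  have h3 := h1.clm_comp h2
  have h4 : fderiv ℝ (pb φ F) w = _ := h3.fderiv
  unfold dv
  rw [h4]
  set c := deriv φ w with hc
  set c' := deriv (deriv φ) w with hc'
  set B := fderiv ℝ F (φ w) with hB
  simp only [add_apply, ContinuousLinearMap.comp_apply,
    ContinuousLinearMap.compL_apply, ContinuousLinearMap.flip_apply,
    ContinuousLinearMap.mul_apply', mul_one]
  have hI : F (φ w) (c' * Complex.I * Complex.I) = - F (φ w) c' := by
    rw [mul_assoc, Complex.I_mul_I, mul_neg_one, map_neg]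
  rw [hI]
  have hcre : c = (c.re : ℝ) • (1 : ℂ) + (c.im : ℝ) • Complex.I := by
    simp [Complex.real_smul, Complex.re_add_im]
  have hcI : c * Complex.I = (-c.im : ℝ) • (1 : ℂ) + (c.re : ℝ) • Complex.I := by
    apply Complex.ext <;> simp
  have hn : ‖c‖ ^ 2 = c.re ^ 2 + c.im ^ 2 := by
    rw [← Complex.normSq_eq_norm_sq, Complex.normSq_apply]; ring
  have e1 : B c c = c.re * (c.re * B 1 1 + c.im * B 1 Complex.I)
      + c.im * (c.re * B Complex.I 1 + c.im * B Complex.I Complex.I) := by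
    conv_lhs => rw [hcre]
    simp only [map_add, map_smul, add_apply,
      smul_apply, smul_eq_mul]
    ring
  have e2 : B (c * Complex.I) (c * Complex.I)
      = -c.im * (-c.im * B 1 1 + c.re * B 1 Complex.I)
      + c.re * (-c.im * B Complex.I 1 + c.re * B Complex.I Complex.I) := by
    rw [hcI]
    simp only [map_add, map_smul, add_apply,
      smul_apply, smul_eq_mul]
    ring
  rw [e1, e2, hn]
  ring

/-- the single valued data of an exact form `η = D φ` on an open subset `U` of `ℂ`: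
`A = |φ|²`, `F v = Re ⟨D_v φ, φ⟩`, `G v = -⟨Θ_v φ, φ⟩`, `E = |D φ|²`, `Y = |Θ φ|²`,
`X = Re ⟨D φ, Θ φ⟩` -/
structure Plane (U : Set ℂ) (A E Y X : ℂ → ℝ) (F G : ℂ → ℂ →L[ℝ] ℝ) : Prop where
  hA : ∀ z ∈ U, HasFDerivAt A ((2 : ℝ) • F z + (2 : ℝ) • G z) z
  hF : ContDiffOn ℝ 1 F U
  hG : ContDiffOn ℝ 1 G U
  hY : ContinuousOn Y U
  hX : ContinuousOn X U
  dF : ∀ z ∈ U, dv F z = E z
  dG : ∀ z ∈ U, dv G z = 2 * Y z - 2 * X z
  A0 : ∀ z ∈ U, 0 ≤ A z
  E0 : ∀ z ∈ U, 0 ≤ E z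
  Y0 : ∀ z ∈ U, 0 ≤ Y z
  FA : ∀ z ∈ U, ∀ v, F z v ^ 2 ≤ A z * (‖v‖ ^ 2 * E z)
  GA : ∀ z ∈ U, ∀ v, G z v ^ 2 ≤ A z * (‖v‖ ^ 2 * Y z)
  XE : ∀ z ∈ U, X z ^ 2 ≤ E z * Y z

theorem continuousOn_dv {U : Set ℂ} (hU : IsOpen U) {F : ℂ → ℂ →L[ℝ] ℝ}
    (hF : ContDiffOn ℝ 1 F U) : ContinuousOn (dv F) U := by
  have h := hF.continuousOn_fderiv_of_isOpen hU le_rfl
  unfold dv
  exact ((h.clm_apply continuousOn_const).clm_apply continuousOn_const).add
    ((h.clm_apply continuousOn_const).clm_apply continuousOn_const)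

theorem Plane.contE {U : Set ℂ} {A E Y X : ℂ → ℝ} {F G : ℂ → ℂ →L[ℝ] ℝ}
    (h : Plane U A E Y X F G) (hU : IsOpen U) : ContinuousOn E U :=
  (continuousOn_dv hU h.hF).congr fun z hz => (h.dF z hz).symm

theorem Plane.contA {U : Set ℂ} {A E Y X : ℂ → ℝ} {F G : ℂ → ℂ →L[ℝ] ℝ}
    (h : Plane U A E Y X F G) (hU : IsOpen U) : ContDiffOn ℝ 1 A U := by
  have h1 : ∀ z ∈ U, HasFDerivAt A ((2 : ℝ) • F z + (2 : ℝ) • G z) z := h.hA
  have h3 : ContinuousOn (fderiv ℝ A) U := by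
    have h4 : ContinuousOn (fun z => (2 : ℝ) • F z + (2 : ℝ) • G z) U :=
      (h.hF.continuousOn.const_smul (2 : ℝ)).add (h.hG.continuousOn.const_smul (2 : ℝ))
    exact h4.congr fun z hz => (h1 z hz).fderiv
  have h5 : DifferentiableOn ℝ A U :=
    fun z hz => (h1 z hz).differentiableAt.differentiableWithinAt
  have h6 : (0 : WithTop ℕ∞) = ⊤ → AnalyticOn ℝ A U := fun h0 => absurd h0 (by simp)
  have h2 : ContDiffOn ℝ ((0 : WithTop ℕ∞) + 1) A U :=
    (contDiffOn_succ_iff_fderiv_of_isOpen hU).2 ⟨h5, h6, contDiffOn_zero.2 h3⟩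
  rwa [zero_add] at h2

/-- pull back of plane data by a holomorphic map -/
theorem Plane.pull {U S : Set ℂ} {A E Y X : ℂ → ℝ} {F G : ℂ → ℂ →L[ℝ] ℝ}
    (h : Plane U A E Y X F G) (hU : IsOpen U) {φ : ℂ → ℂ} (hφ : Differentiable ℂ φ)
    (hS : MapsTo φ S U) :
    Plane S (fun w => A (φ w)) (fun w => ‖deriv φ w‖ ^ 2 * E (φ w))
      (fun w => ‖deriv φ w‖ ^ 2 * Y (φ w)) (fun w => ‖deriv φ w‖ ^ 2 * X (φ w))
      (pb φ F) (pb φ G) := by
  have hn : Continuous fun w => ‖deriv φ w‖ ^ 2 :=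
    ((differentiable_deriv hφ).continuous.norm).pow 2
  refine ⟨?_, contDiffOn_pb hφ h.hF hS, contDiffOn_pb hφ h.hG hS, ?_, ?_, ?_, ?_, ?_, ?_, ?_,
    ?_, ?_, ?_⟩
  · intro w hw
    exact (h.hA _ (hS hw)).comp w (hasFDerivAt_real hφ w)
  · exact hn.continuousOn.mul (h.hY.comp hφ.continuous.continuousOn hS)
  · exact hn.continuousOn.mul (h.hX.comp hφ.continuous.continuousOn hS)
  · intro w hw
    have h1 : DifferentiableAt ℝ F (φ w) :=
      (h.hF.differentiableOn one_ne_zero).differentiableAt (hU.mem_nhds (hS hw))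
    rw [dv_pb hφ h1, h.dF _ (hS hw)]
  · intro w hw
    have h1 : DifferentiableAt ℝ G (φ w) :=
      (h.hG.differentiableOn one_ne_zero).differentiableAt (hU.mem_nhds (hS hw))
    rw [dv_pb hφ h1, h.dG _ (hS hw)]
    ring
  · exact fun w hw => h.A0 _ (hS hw)
  · exact fun w hw => mul_nonneg (sq_nonneg _) (h.E0 _ (hS hw))
  · exact fun w hw => mul_nonneg (sq_nonneg _) (h.Y0 _ (hS hw))
  · intro w hw v
    have h1 := h.FA _ (hS hw) (deriv φ w * v)
    rw [norm_mul, mul_pow] at h1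
    rw [pb_apply]
    calc F (φ w) (deriv φ w * v) ^ 2 ≤ _ := h1
      _ = _ := by ring
  · intro w hw v
    have h1 := h.GA _ (hS hw) (deriv φ w * v)
    rw [norm_mul, mul_pow] at h1
    rw [pb_apply]
    calc G (φ w) (deriv φ w * v) ^ 2 ≤ _ := h1
      _ = _ := by ring
  · intro w hw
    have h1 := h.XE _ (hS hw)
    have h2 : (‖deriv φ w‖ ^ 2) ^ 2 * X (φ w) ^ 2
        ≤ (‖deriv φ w‖ ^ 2) ^ 2 * (E (φ w) * Y (φ w)) :=
      mul_le_mul_of_nonneg_left h1 (by positivity)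
    calc (‖deriv φ w‖ ^ 2 * X (φ w)) ^ 2 = (‖deriv φ w‖ ^ 2) ^ 2 * X (φ w) ^ 2 := by ring
      _ ≤ _ := h2
      _ = _ := by ring

/-- **The flux through an end tends to zero** (cylinder form). -/
theorem end_flux_cyl {s0 C B : ℝ} (hs0 : 0 < s0) {A E Y X : ℂ → ℝ} {F G : ℂ → ℂ →L[ℝ] ℝ}
    (h : Plane (Hp s0) A E Y X F G)
    (hFp : ∀ w ∈ Hp s0, F (w + 2 * Real.pi * Complex.I) = F w)
    (hGp : ∀ w ∈ Hp s0, G (w + 2 * Real.pi * Complex.I) = G w)
    (hC : ∀ w ∈ Hp s0, Y w ≤ (C / w.re) ^ 2 * A w)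
    (hB : ∀ s, s0 < s → ∫ θ in (-Real.pi)..Real.pi, F (pt s θ) 1 ≤ B) :
    Tendsto (fun s => ∫ θ in (-Real.pi)..Real.pi, F (pt s θ) 1) atTop (𝓝 0) := by
  have hS := isOpen_Hp s0
  have hmem : ∀ s, s0 + 1 ≤ s → ∀ θ, pt s θ ∈ Hp s0 := by
    intro s hs θ
    simp only [Hp, mem_ofPred_eq, pt_re]
    linarith
  have hpi : -Real.pi ≤ Real.pi := by linarith [Real.pi_pos]
  have hsec : ∀ {V : Type} [TopologicalSpace V] {f : ℂ → V}, ContinuousOn f (Hp s0) →
      ∀ s, s0 + 1 ≤ s → Continuous fun θ => f (pt s θ) := by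
    intro V _ f hf s hs
    rw [← continuousOn_univ]
    exact hf.comp
      ((continuous_pt.comp (continuous_const.prodMk continuous_id)).continuousOn (s := univ))
      (fun θ _ => hmem s hs θ)
  have hEc := h.contE hS
  have hAc := h.contA hS
  have hFs : ∀ s, s0 + 1 ≤ s → Continuous fun θ => F (pt s θ) 1 := fun s hs =>
    (hsec h.hF.continuousOn s hs).clm_apply continuous_const
  have hGs : ∀ s, s0 + 1 ≤ s → Continuous fun θ => G (pt s θ) 1 := fun s hs =>
    (hsec h.hG.continuousOn s hs).clm_apply continuous_const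
  have hnn : ∀ {f : ℂ → ℝ}, (∀ w ∈ Hp s0, 0 ≤ f w) → ∀ s, s0 + 1 ≤ s →
      0 ≤ ∫ θ in (-Real.pi)..Real.pi, f (pt s θ) := by
    intro f hf s hs
    exact intervalIntegral.integral_nonneg hpi fun θ _ => hf _ (hmem s hs θ)
  apply EndL_663.EndData.tendsto_zero (s0 := s0 + 1) (C := C)
    (a := fun s => ∫ θ in (-Real.pi)..Real.pi, A (pt s θ))
    (e := fun s => ∫ θ in (-Real.pi)..Real.pi, E (pt s θ))
    (g := fun s => ∫ θ in (-Real.pi)..Real.pi, G (pt s θ) 1)
    (g' := fun s => ∫ θ in (-Real.pi)..Real.pi, dv G (pt s θ))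
    (t := fun s => ∫ θ in (-Real.pi)..Real.pi, Y (pt s θ))
  refine ⟨by linarith, ?_, ?_, ?_, ?_, hnn h.A0, hnn h.E0, hnn h.Y0, ?_, ?_, ?_, ?_⟩
  · intro s hs
    have h1 := flux_deriv h.hF hFp (s := s) (by linarith)
    have h2 : ∫ θ in (-Real.pi)..Real.pi, dv F (pt s θ)
        = ∫ θ in (-Real.pi)..Real.pi, E (pt s θ) :=
      intervalIntegral.integral_congr fun θ _ => h.dF _ (hmem s hs θ)
    rw [h2] at h1
    exact h1
  · intro s hs
    have h1 := ci_deriv hAc (s := s) (by linarith)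
    have h2 : ∫ θ in (-Real.pi)..Real.pi, fderiv ℝ A (pt s θ) 1
        = ∫ θ in (-Real.pi)..Real.pi, (2 * F (pt s θ) 1 + 2 * G (pt s θ) 1) := by
      refine intervalIntegral.integral_congr fun θ _ => ?_
      show fderiv ℝ A (pt s θ) 1 = _
      rw [(h.hA _ (hmem s hs θ)).fderiv]
      simp
    rw [h2, intervalIntegral.integral_add, intervalIntegral.integral_const_mul,
      intervalIntegral.integral_const_mul] at h1
    · exact h1
    · exact ((hFs s hs).const_mul 2).intervalIntegrable _ _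
    · exact ((hGs s hs).const_mul 2).intervalIntegrable _ _
  · intro s hs
    exact flux_deriv h.hG hGp (s := s) (by linarith)
  · intro s hs
    have h2 : ∫ θ in (-Real.pi)..Real.pi, dv G (pt s θ)
        = 2 * (∫ θ in (-Real.pi)..Real.pi, Y (pt s θ))
          - 2 * ∫ θ in (-Real.pi)..Real.pi, X (pt s θ) := by
      rw [← intervalIntegral.integral_const_mul, ← intervalIntegral.integral_const_mul,
        ← intervalIntegral.integral_sub]
      · exact intervalIntegral.integral_congr fun θ _ => h.dG _ (hmem s hs θ)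
      · exact ((hsec h.hY s hs).const_mul 2).intervalIntegrable _ _
      · exact ((hsec h.hX s hs).const_mul 2).intervalIntegrable _ _
    have h3 := cs_interval hpi (hsec h.hX s hs) (hsec hEc s hs) (hsec h.hY s hs)
      (fun θ => h.E0 _ (hmem s hs θ)) (fun θ => h.Y0 _ (hmem s hs θ))
      (fun θ => h.XE _ (hmem s hs θ))
    have h4 : ∫ θ in (-Real.pi)..Real.pi, X (pt s θ)
        ≤ √((∫ θ in (-Real.pi)..Real.pi, E (pt s θ)) * ∫ θ in (-Real.pi)..Real.pi, Y (pt s θ)) :=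
      Real.le_sqrt_of_sq_le h3
    show _ ≤ ∫ θ in (-Real.pi)..Real.pi, dv G (pt s θ)
    rw [h2]
    linarith
  · intro s hs
    refine cs_interval hpi (hFs s hs) (hsec hAc.continuousOn s hs) (hsec hEc s hs)
      (fun θ => h.A0 _ (hmem s hs θ)) (fun θ => h.E0 _ (hmem s hs θ)) fun θ => ?_
    have := h.FA _ (hmem s hs θ) 1
    simpa using this
  · intro s hs
    refine cs_interval hpi (hGs s hs) (hsec hAc.continuousOn s hs) (hsec h.hY s hs)
      (fun θ => h.A0 _ (hmem s hs θ)) (fun θ => h.Y0 _ (hmem s hs θ)) fun θ => ?_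
    have := h.GA _ (hmem s hs θ) 1
    simpa using this
  · intro s hs
    show _ ≤ (C / s) ^ 2 * ∫ θ in (-Real.pi)..Real.pi, A (pt s θ)
    rw [← intervalIntegral.integral_const_mul]
    refine intervalIntegral.integral_mono_on hpi
      ((hsec h.hY s hs).intervalIntegrable _ _)
      (((hsec hAc.continuousOn s hs).const_mul _).intervalIntegrable _ _) fun θ _ => ?_
    have := hC _ (hmem s hs θ)
    rwa [pt_re] at this
  · exact ⟨B, fun s hs => hB s (by linarith)⟩

end Crest.Agent.R276.IpcE2_827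
end

-- ▼ part R276/IpcE3_827
section

/-!
# R276, leaf IPC-GL5 (helper827), part 2: no exact harmonic forms, global plane form

`Plane.eq_zero` : on `Ω = ℂ ∖ S`, `S` finite, plane data with the Ahlfors-Schwarz bound for `Y`
near the points of `S` and near infinity and `∫ E < ∞` has `E = 0`.
-/

set_option autoImplicit false

open Filter Topology Set MeasureTheory

namespace Crest.Agent.R276.IpcE3_827

open Crest.Agent.R276.IpcE2_827

/-- half open half strip -/
def Vs (s0 : ℝ) : Set ℂ := {w | s0 < w.re ∧ -Real.pi < w.im ∧ w.im ≤ Real.pi}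

theorem Vs_eq (s0 : ℝ) : Vs s0 =
    Complex.measurableEquivRealProd ⁻¹' (Ioi s0 ×ˢ Ioc (-Real.pi) Real.pi) := by
  ext w
  simp [Vs]

theorem measurableSet_Vs (s0 : ℝ) : MeasurableSet (Vs s0) := by
  rw [Vs_eq]
  exact Complex.measurableEquivRealProd.measurable (measurableSet_Ioi.prod measurableSet_Ioc)

theorem Vs_subset (s0 : ℝ) : Vs s0 ⊆ Hp s0 := fun _ h => h.1

theorem det_mul (c : ℂ) : (ContinuousLinearMap.mul ℝ ℂ c).det = ‖c‖ ^ 2 := by
  have h1 : (ContinuousLinearMap.mul ℝ ℂ c).det = LinearMap.det (Algebra.lmul ℝ ℂ c) := rfl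
  rw [h1, ← Algebra.norm_apply, Algebra.norm_complex_apply, Complex.normSq_eq_norm_sq]

/-- change of variables on a half strip -/
theorem cv {φ : ℂ → ℂ} (hφ : Differentiable ℂ φ) {s0 : ℝ} (hinj : InjOn φ (Vs s0))
    {h : ℂ → ℝ} (hint : IntegrableOn h (φ '' Vs s0)) :
    IntegrableOn (fun s => ∫ θ in (-Real.pi)..Real.pi,
        ‖deriv φ (pt s θ)‖ ^ 2 * h (φ (pt s θ))) (Ioi s0) ∧
      ∫ z in φ '' Vs s0, h z = ∫ s in Ioi s0, ∫ θ in (-Real.pi)..Real.pi,
        ‖deriv φ (pt s θ)‖ ^ 2 * h (φ (pt s θ)) := by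
  have hpi : -Real.pi ≤ Real.pi := by linarith [Real.pi_pos]
  have hd : ∀ w ∈ Vs s0, HasFDerivWithinAt φ (ContinuousLinearMap.mul ℝ ℂ (deriv φ w)) (Vs s0) w :=
    fun w _ => (hasFDerivAt_real hφ w).hasFDerivWithinAt
  have e1 := integral_image_eq_integral_abs_det_fderiv_smul volume (measurableSet_Vs s0) hd hinj h
  have e2 := (integrableOn_image_iff_integrableOn_abs_det_fderiv_smul volume
    (measurableSet_Vs s0) hd hinj h).1 hint
  have e3 : (fun w => |(ContinuousLinearMap.mul ℝ ℂ (deriv φ w)).det| • h (φ w))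
      = fun w => ‖deriv φ w‖ ^ 2 * h (φ w) := by
    funext w
    rw [det_mul, abs_of_nonneg (by positivity), smul_eq_mul]
  rw [e3] at e1 e2
  have mp := Complex.volume_preserving_equiv_real_prod
  set g : ℝ × ℝ → ℝ := fun p => ‖deriv φ (pt p.1 p.2)‖ ^ 2 * h (φ (pt p.1 p.2)) with hg
  have e4 : (fun w => ‖deriv φ w‖ ^ 2 * h (φ w)) = fun w =>
      g (Complex.measurableEquivRealProd w) := by
    funext w
    have : pt w.re w.im = w := by
      unfold pt; exact Complex.re_add_im w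
    simp only [hg, Complex.measurableEquivRealProd_apply, this]
  rw [e4] at e1 e2
  rw [Vs_eq] at e2
  have e5 : IntegrableOn g (Ioi s0 ×ˢ Ioc (-Real.pi) Real.pi) :=
    (mp.integrableOn_comp_preimage Complex.measurableEquivRealProd.measurableEmbedding).1 e2
  have e6 : ∫ w in Vs s0, g (Complex.measurableEquivRealProd w)
      = ∫ p in Ioi s0 ×ˢ Ioc (-Real.pi) Real.pi, g p := by
    rw [Vs_eq]
    exact mp.setIntegral_preimage_emb Complex.measurableEquivRealProd.measurableEmbedding g _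
  have e7 : ∀ s, ∫ θ in (-Real.pi)..Real.pi, ‖deriv φ (pt s θ)‖ ^ 2 * h (φ (pt s θ))
      = ∫ θ in Ioc (-Real.pi) Real.pi, g (s, θ) := by
    intro s
    rw [intervalIntegral.integral_of_le hpi]
  constructor
  · simp_rw [e7]
    have e8 : Integrable g ((volume.restrict (Ioi s0)).prod
        (volume.restrict (Ioc (-Real.pi) Real.pi))) := by
      rw [Measure.prod_restrict]
      exact e5
    exact e8.integral_prod_left
  · rw [e1, e6]
    simp_rw [e7]
    rw [Measure.volume_eq_prod, setIntegral_prod _ (by rw [← Measure.volume_eq_prod]; exact e5)]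

/-- **the flux through an end tends to zero**, plane form -/
theorem end_flux {U : Set ℂ} (hU : IsOpen U) {A E Y X : ℂ → ℝ} {F G : ℂ → ℂ →L[ℝ] ℝ}
    (h : Plane U A E Y X F G) (hint : IntegrableOn E U) {φ : ℂ → ℂ} (hφ : Differentiable ℂ φ)
    (hper : ∀ w, φ (w + 2 * Real.pi * Complex.I) = φ w) {s0 C : ℝ} (hs0 : 0 < s0)
    (hS : MapsTo φ (Hp s0) U) (hinj : InjOn φ (Vs s0))
    (hC : ∀ w ∈ Hp s0, ‖deriv φ w‖ ^ 2 * Y (φ w) ≤ (C / w.re) ^ 2 * A (φ w)) :
    Tendsto (fun s => ∫ θ in (-Real.pi)..Real.pi, pb φ F (pt s θ) 1) atTop (𝓝 0) := by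
  have hpi : -Real.pi ≤ Real.pi := by linarith [Real.pi_pos]
  have hp := h.pull hU hφ hS
  have hder : ∀ w, deriv φ (w + 2 * Real.pi * Complex.I) = deriv φ w := by
    intro w
    have h1 : (fun w => φ (w + 2 * Real.pi * Complex.I)) = φ := funext hper
    have h2 := deriv_comp_add_const φ (2 * Real.pi * Complex.I) w
    rw [h1] at h2
    exact h2.symm
  have hFp : ∀ w ∈ Hp s0, pb φ F (w + 2 * Real.pi * Complex.I) = pb φ F w := by
    intro w _
    unfold pb
    rw [hper, hder]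
  have hGp : ∀ w ∈ Hp s0, pb φ G (w + 2 * Real.pi * Complex.I) = pb φ G w := by
    intro w _
    unfold pb
    rw [hper, hder]
  have hsub : Vs (s0 + 1) ⊆ Vs s0 := fun w hw => ⟨by linarith [hw.1], hw.2⟩
  have himg : φ '' Vs (s0 + 1) ⊆ U := by
    rintro _ ⟨w, hw, rfl⟩
    exact hS (Vs_subset _ (hsub hw))
  have hcv := cv hφ (hinj.mono hsub) (hint.mono_set himg)
  set B : ℝ := (∫ θ in (-Real.pi)..Real.pi, pb φ F (pt (s0 + 1) θ) 1) + ∫ s in Ioi (s0 + 1),
    ∫ θ in (-Real.pi)..Real.pi, ‖deriv φ (pt s θ)‖ ^ 2 * E (φ (pt s θ)) with hB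
  have hp' : Plane (Hp (s0 + 1)) (fun w => A (φ w)) (fun w => ‖deriv φ w‖ ^ 2 * E (φ w))
      (fun w => ‖deriv φ w‖ ^ 2 * Y (φ w)) (fun w => ‖deriv φ w‖ ^ 2 * X (φ w))
      (pb φ F) (pb φ G) :=
    h.pull hU hφ fun w hw => hS (by
      simp only [Hp, mem_ofPred_eq] at hw ⊢; linarith)
  have hlt : ∀ w ∈ Hp (s0 + 1), w ∈ Hp s0 := fun w hw => by
    simp only [Hp, mem_ofPred_eq] at hw ⊢; linarith
  refine end_flux_cyl (s0 := s0 + 1) (C := C) (B := B) (by linarith) hp'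
    (fun w hw => hFp w (hlt w hw)) (fun w hw => hGp w (hlt w hw)) (fun w hw => hC w (hlt w hw)) ?_
  intro s hs
  have hd : ∀ x ∈ uIcc (s0 + 1) s, HasDerivAt
      (fun s => ∫ θ in (-Real.pi)..Real.pi, pb φ F (pt s θ) 1)
      (∫ θ in (-Real.pi)..Real.pi, ‖deriv φ (pt x θ)‖ ^ 2 * E (φ (pt x θ))) x := by
    intro x hx
    rw [uIcc_of_le hs.le] at hx
    have hx0 : s0 < x := by linarith [hx.1]
    have h1 := flux_deriv hp.hF hFp hx0
    have h2 : ∫ θ in (-Real.pi)..Real.pi, dv (pb φ F) (pt x θ)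
        = ∫ θ in (-Real.pi)..Real.pi, ‖deriv φ (pt x θ)‖ ^ 2 * E (φ (pt x θ)) :=
      intervalIntegral.integral_congr fun θ _ => hp.dF _ (by
        simp only [Hp, mem_ofPred_eq, pt_re]; exact hx0)
    rw [h2] at h1
    exact h1
  have hii : IntervalIntegrable (fun x => ∫ θ in (-Real.pi)..Real.pi,
      ‖deriv φ (pt x θ)‖ ^ 2 * E (φ (pt x θ))) volume (s0 + 1) s := by
    rw [intervalIntegrable_iff_integrableOn_Ioc_of_le hs.le]
    exact hcv.1.mono_set Ioc_subset_Ioi_self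
  have hft := intervalIntegral.integral_eq_sub_of_hasDerivAt hd hii
  have hle : ∫ x in (s0 + 1)..s, ∫ θ in (-Real.pi)..Real.pi,
      ‖deriv φ (pt x θ)‖ ^ 2 * E (φ (pt x θ)) ≤ ∫ s in Ioi (s0 + 1),
      ∫ θ in (-Real.pi)..Real.pi, ‖deriv φ (pt s θ)‖ ^ 2 * E (φ (pt s θ)) := by
    rw [intervalIntegral.integral_of_le hs.le]
    refine setIntegral_mono_set hcv.1 ?_ (Ioc_subset_Ioi_self.eventuallyLE)
    rw [EventuallyLE, ae_restrict_iff' measurableSet_Ioi]
    refine Eventually.of_forall fun x hx => ?_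
    refine intervalIntegral.integral_nonneg hpi fun θ _ => ?_
    refine mul_nonneg (sq_nonneg _) (h.E0 _ (hS ?_))
    simp only [Hp, mem_ofPred_eq, pt_re]
    have := mem_Ioi.1 hx
    linarith
  rw [hB]
  linarith

/-- the gradient term of `dv (η • F)` -/
noncomputable def gr (η : ℂ → ℝ) (F : ℂ → ℂ →L[ℝ] ℝ) (z : ℂ) : ℝ :=
  fderiv ℝ η z 1 * F z 1 + fderiv ℝ η z Complex.I * F z Complex.I

theorem dv_smul {η : ℂ → ℝ} {F : ℂ → ℂ →L[ℝ] ℝ} {z : ℂ} (hη : DifferentiableAt ℝ η z)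
    (hF : DifferentiableAt ℝ F z) :
    dv (fun z => η z • F z) z = η z * dv F z + gr η F z := by
  have h := (hη.hasFDerivAt.smul hF.hasFDerivAt).fderiv
  unfold dv gr
  have h' : fderiv ℝ (fun z => η z • F z) z = _ := h
  rw [h']
  simp
  ring

theorem dv_congr {F G : ℂ → ℂ →L[ℝ] ℝ} {z : ℂ} (h : F =ᶠ[𝓝 z] G) : dv F z = dv G z := by
  unfold dv
  rw [h.fderiv_eq]

theorem dv_zero_of {F : ℂ → ℂ →L[ℝ] ℝ} {z : ℂ} (h : F =ᶠ[𝓝 z] fun _ => 0) : dv F z = 0 := by
  rw [dv_congr h]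
  unfold dv
  simp

/-- the divergence of a compactly supported `C¹` `1`-form has integral zero -/
theorem integral_dv_eq_zero {H : ℂ → ℂ →L[ℝ] ℝ} (hH : ContDiff ℝ 1 H)
    (hc : HasCompactSupport H) : ∫ z, dv H z = 0 := by
  have key : ∀ v : ℂ, Integrable (fun z => fderiv ℝ H z v v) ∧ ∫ z, fderiv ℝ H z v v = 0 := by
    intro v
    have hu : ContDiff ℝ 1 (fun z => H z v) := hH.clm_apply contDiff_const
    have hcu : HasCompactSupport (fun z => H z v) :=
      hc.comp_left (g := fun L : ℂ →L[ℝ] ℝ => L v) (by simp)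
    have hfd : ∀ z, fderiv ℝ (fun z => H z v) z v = fderiv ℝ H z v v := by
      intro z
      have h1 := (((hH.differentiable one_ne_zero) z).hasFDerivAt.clm_apply
        (hasFDerivAt_const v z)).fderiv
      rw [h1]
      simp
    have hcont : Continuous (fun z => fderiv ℝ (fun z => H z v) z v) :=
      (hu.continuous_fderiv one_ne_zero).clm_apply continuous_const
    have hcs : HasCompactSupport (fun z => fderiv ℝ (fun z => H z v) z v) :=
      (hcu.fderiv (𝕜 := ℝ)).comp_left (g := fun L : ℂ →L[ℝ] ℝ => L v) (by simp)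
    have hi : Integrable (fun z => fderiv ℝ (fun z => H z v) z v) :=
      hcont.integrable_of_hasCompactSupport hcs
    have hi0 : Integrable (fun z => H z v) := hu.continuous.integrable_of_hasCompactSupport hcu
    have h2 := integral_mul_fderiv_eq_neg_fderiv_mul_of_integrable (μ := (volume : Measure ℂ))
      (f := fun _ : ℂ => (1 : ℝ)) (g := fun z => H z v) (v := v) (by simp) (by simpa using hi)
      (by simpa using hi0) (fun _ _ => differentiableAt_const _)
      (fun z _ => (hu.differentiable one_ne_zero) z)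
    simp only [one_mul, fderiv_fun_const, Pi.zero_apply, zero_apply, zero_mul,
      integral_zero, neg_zero] at h2
    have h3 : (fun z => fderiv ℝ H z v v) = fun z => fderiv ℝ (fun z => H z v) z v :=
      funext fun z => (hfd z).symm
    rw [h3]
    exact ⟨hi, h2⟩
  unfold dv
  rw [integral_add (key 1).1 (key Complex.I).1, (key 1).2, (key Complex.I).2, add_zero]

/-- the integral of `dv (η • F)` over an end vanishes, if `η = 1` far out -/
theorem end_int {U : Set ℂ} (hU : IsOpen U) {F : ℂ → ℂ →L[ℝ] ℝ} (hF : ContDiffOn ℝ 1 F U)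
    {φ : ℂ → ℂ} (hφ : Differentiable ℂ φ)
    (hper : ∀ w, φ (w + 2 * Real.pi * Complex.I) = φ w) {s0 s1 s2 : ℝ} (h01 : s0 < s1)
    (hS : MapsTo φ (Hp s0) U) (hinj : InjOn φ (Vs s0))
    (hfl : Tendsto (fun s => ∫ θ in (-Real.pi)..Real.pi, pb φ F (pt s θ) 1) atTop (𝓝 0))
    {η : ℂ → ℝ} (hη : ContDiff ℝ 1 η) (hη0 : ∀ z ∈ U, z ∉ φ '' Vs s1 → η =ᶠ[𝓝 z] fun _ => 0)
    (hη1 : ∀ w, w.re = s1 → η (φ w) = 0) (hη2 : ∀ w, s2 ≤ w.re → η (φ w) = 1)
    (hint : IntegrableOn (dv fun z => η z • F z) U) :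
    ∫ z in U, dv (fun z => η z • F z) z = 0 := by
  set H : ℂ → ℂ →L[ℝ] ℝ := fun z => η z • F z with hH
  have hHc : ContDiffOn ℝ 1 H U := hη.contDiffOn.smul hF
  have hsub : Vs s1 ⊆ Vs s0 := fun w hw => ⟨by linarith [hw.1], hw.2⟩
  have himg : φ '' Vs s1 ⊆ U := by
    rintro _ ⟨w, hw, rfl⟩
    exact hS (Vs_subset _ (hsub hw))
  have hder : ∀ w, deriv φ (w + 2 * Real.pi * Complex.I) = deriv φ w := by
    intro w
    have h1 : (fun w => φ (w + 2 * Real.pi * Complex.I)) = φ := funext hper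
    have h2 := deriv_comp_add_const φ (2 * Real.pi * Complex.I) w
    rw [h1] at h2
    exact h2.symm
  have hHp : ∀ w ∈ Hp s0, pb φ H (w + 2 * Real.pi * Complex.I) = pb φ H w := by
    intro w _
    unfold pb
    rw [hper, hder]
  have e1 : ∫ z in U, dv H z = ∫ z in φ '' Vs s1, dv H z := by
    refine setIntegral_eq_of_subset_of_forall_sdiff_eq_zero hU.measurableSet himg ?_
    rintro z ⟨hz, hz'⟩
    refine dv_zero_of ?_
    filter_upwards [hη0 z hz hz'] with y hy
    simp [hH, hy]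
  have hcv := cv hφ (hinj.mono hsub) (hint.mono_set himg)
  rw [e1, hcv.2]
  have hpH : ContDiffOn ℝ 1 (pb φ H) (Hp s0) := contDiffOn_pb hφ hHc hS
  have hd : ∀ x ∈ Ici s1, HasDerivAt
      (fun s => ∫ θ in (-Real.pi)..Real.pi, pb φ H (pt s θ) 1)
      (∫ θ in (-Real.pi)..Real.pi, ‖deriv φ (pt x θ)‖ ^ 2 * dv H (φ (pt x θ))) x := by
    intro x hx
    have hx0 : s0 < x := lt_of_lt_of_le h01 hx
    have h1 := flux_deriv hpH hHp hx0
    have h2 : ∫ θ in (-Real.pi)..Real.pi, dv (pb φ H) (pt x θ)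
        = ∫ θ in (-Real.pi)..Real.pi, ‖deriv φ (pt x θ)‖ ^ 2 * dv H (φ (pt x θ)) := by
      refine intervalIntegral.integral_congr fun θ _ => ?_
      have hm : φ (pt x θ) ∈ U := hS (by simp only [Hp, mem_ofPred_eq, pt_re]; exact hx0)
      exact dv_pb hφ ((hHc.differentiableOn one_ne_zero).differentiableAt (hU.mem_nhds hm))
    rw [h2] at h1
    exact h1
  have hlim : Tendsto (fun s => ∫ θ in (-Real.pi)..Real.pi, pb φ H (pt s θ) 1) atTop (𝓝 0) := by
    refine hfl.congr' ?_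
    filter_upwards [eventually_ge_atTop s2] with s hs
    refine intervalIntegral.integral_congr fun θ _ => ?_
    show pb φ F (pt s θ) 1 = pb φ H (pt s θ) 1
    rw [pb_apply, pb_apply, hH]
    simp only
    rw [hη2 (pt s θ) (by rw [pt_re]; exact hs), one_smul]
  have h3 := integral_Ioi_of_hasDerivAt_of_tendsto' hd hcv.1 hlim
  rw [h3]
  have h4 : ∫ θ in (-Real.pi)..Real.pi, pb φ H (pt s1 θ) 1 = 0 := by
    have : ∀ θ, pb φ H (pt s1 θ) 1 = 0 := by
      intro θ
      rw [pb_apply, hH]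
      simp only
      rw [hη1 (pt s1 θ) (pt_re _ _), zero_smul]
      simp
    simp [this]
  rw [h4, sub_zero]

/-! ### the two kinds of ends -/

/-- the log coordinate at a puncture -/
noncomputable def fb (b : ℂ) (w : ℂ) : ℂ := b + Complex.exp (-w)

theorem hasDerivAt_fb (b w : ℂ) : HasDerivAt (fb b) (-Complex.exp (-w)) w := by
  unfold fb
  have h := ((hasDerivAt_id w).neg.cexp).const_add b
  simpa using h

theorem diff_fb (b : ℂ) : Differentiable ℂ (fb b) := fun w =>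
  (hasDerivAt_fb b w).differentiableAt

theorem norm_deriv_fb (b w : ℂ) : ‖deriv (fb b) w‖ = Real.exp (-w.re) := by
  rw [(hasDerivAt_fb b w).deriv, norm_neg, Complex.norm_exp, Complex.neg_re]

theorem norm_fb_sub (b w : ℂ) : ‖fb b w - b‖ = Real.exp (-w.re) := by
  unfold fb
  rw [add_sub_cancel_left, Complex.norm_exp, Complex.neg_re]

theorem fb_ne (b w : ℂ) : fb b w ≠ b := by
  intro h
  have h1 := norm_fb_sub b w
  rw [h, sub_self, norm_zero] at h1
  exact absurd h1.symm (Real.exp_pos _).ne'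

theorem fb_per (b w : ℂ) : fb b (w + 2 * Real.pi * Complex.I) = fb b w := by
  unfold fb
  rw [neg_add, Complex.exp_add, Complex.exp_neg (2 * Real.pi * Complex.I),
    Complex.exp_two_pi_mul_I, inv_one, mul_one]

theorem fb_inj (b : ℂ) (s : ℝ) : InjOn (fb b) (Vs s) := by
  rintro w ⟨-, h1, h2⟩ w' ⟨-, h1', h2'⟩ h
  refine Complex.exp_inj_of_neg_pi_lt_of_le_pi h1 h2 h1' h2' ?_
  have h3 : Complex.exp (-w) = Complex.exp (-w') := by
    unfold fb at h
    exact add_left_cancel h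
  rw [Complex.exp_neg, Complex.exp_neg] at h3
  exact inv_injective h3

theorem mem_fb_image {b z : ℂ} {s : ℝ} (hz : z ≠ b) (h : ‖z - b‖ < Real.exp (-s)) :
    z ∈ fb b '' Vs s := by
  have hzb : z - b ≠ 0 := sub_ne_zero.2 hz
  refine ⟨Complex.log (z - b)⁻¹, ⟨?_, Complex.neg_pi_lt_log_im _, Complex.log_im_le_pi _⟩, ?_⟩
  · rw [Complex.log_re, norm_inv, Real.log_inv]
    have h1 : Real.log ‖z - b‖ < -s := by
      rw [Real.log_lt_iff_lt_exp (norm_pos_iff.2 hzb)]
      exact h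
    linarith
  · unfold fb
    rw [Complex.exp_neg, Complex.exp_log (inv_ne_zero hzb), inv_inv]
    ring

theorem norm_deriv_exp (w : ℂ) : ‖deriv Complex.exp w‖ = Real.exp w.re := by
  rw [Complex.deriv_exp, Complex.norm_exp]

theorem exp_per (w : ℂ) : Complex.exp (w + 2 * Real.pi * Complex.I) = Complex.exp w := by
  rw [Complex.exp_add, Complex.exp_two_pi_mul_I, mul_one]

theorem exp_inj (s : ℝ) : InjOn Complex.exp (Vs s) := by
  rintro w ⟨-, h1, h2⟩ w' ⟨-, h1', h2'⟩ h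
  exact Complex.exp_inj_of_neg_pi_lt_of_le_pi h1 h2 h1' h2' h

theorem mem_exp_image {z : ℂ} {s : ℝ} (h : Real.exp s < ‖z‖) : z ∈ Complex.exp '' Vs s := by
  have hz : z ≠ 0 := by
    rintro rfl
    rw [norm_zero] at h
    exact absurd h (not_lt.2 (Real.exp_pos _).le)
  refine ⟨Complex.log z, ⟨?_, Complex.neg_pi_lt_log_im _, Complex.log_im_le_pi _⟩,
    Complex.exp_log hz⟩
  rw [Complex.log_re, Real.lt_log_iff_exp_lt (norm_pos_iff.2 hz)]
  exact h

/-- the gradient term is integrable -/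
theorem integrable_gr {S : Finset ℂ} {F : ℂ → ℂ →L[ℝ] ℝ} (hF : ContinuousOn F (↑S : Set ℂ)ᶜ)
    {η : ℂ → ℝ} (hη : ContDiff ℝ 1 η) (hc : HasCompactSupport (fderiv ℝ η))
    (h0 : ∀ b ∈ S, fderiv ℝ η =ᶠ[𝓝 b] fun _ => 0) : Integrable (gr η F) := by
  have hcs : HasCompactSupport (gr η F) := by
    refine hc.mono ?_
    intro z hz
    rw [Function.mem_support] at hz ⊢
    intro h
    apply hz
    unfold gr
    rw [h]
    simp
  have hcont : Continuous (gr η F) := by
    rw [continuous_iff_continuousAt]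
    intro z
    by_cases hz : z ∈ S
    · have h1 : gr η F =ᶠ[𝓝 z] fun _ => 0 := by
        filter_upwards [h0 z hz] with y hy
        unfold gr
        rw [hy]
        simp
      exact continuousAt_const.congr h1.symm
    · have hF' : ContinuousAt F z :=
        hF.continuousAt ((S.finite_toSet.isClosed.isOpen_compl).mem_nhds hz)
      have hd : ContinuousAt (fderiv ℝ η) z :=
        (hη.continuous_fderiv one_ne_zero).continuousAt
      unfold gr
      exact ((hd.clm_apply continuousAt_const).mul (hF'.clm_apply continuousAt_const)).add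
        ((hd.clm_apply continuousAt_const).mul (hF'.clm_apply continuousAt_const))
  exact hcont.integrable_of_hasCompactSupport hcs

theorem integrableOn_dv_smul {S : Finset ℂ} {F : ℂ → ℂ →L[ℝ] ℝ}
    (hF : ContDiffOn ℝ 1 F (↑S : Set ℂ)ᶜ) (hint : IntegrableOn (dv F) (↑S : Set ℂ)ᶜ)
    {η : ℂ → ℝ} (hη : ContDiff ℝ 1 η) (hb : ∀ z, |η z| ≤ 1)
    (hc : HasCompactSupport (fderiv ℝ η))
    (h0 : ∀ b ∈ S, fderiv ℝ η =ᶠ[𝓝 b] fun _ => 0) :
    IntegrableOn (dv fun z => η z • F z) (↑S : Set ℂ)ᶜ := by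
  have hU : IsOpen (↑S : Set ℂ)ᶜ := S.finite_toSet.isClosed.isOpen_compl
  have h1 : IntegrableOn (fun z => η z * dv F z + gr η F z) (↑S : Set ℂ)ᶜ := by
    refine Integrable.add ?_ (integrable_gr hF.continuousOn hη hc h0).integrableOn
    exact hint.bdd_mul (c := 1) hη.continuous.aestronglyMeasurable
      (Eventually.of_forall fun z => hb z)
  refine h1.congr_fun (fun z hz => ?_) hU.measurableSet
  exact (dv_smul ((hη.differentiable one_ne_zero) z)
    ((hF.differentiableOn one_ne_zero).differentiableAt (hU.mem_nhds hz))).symm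

theorem bump_abs {c : ℂ} (f : ContDiffBump c) (z : ℂ) : |f z| ≤ 1 := by
  rw [abs_of_nonneg f.nonneg]; exact f.le_one

theorem bump_far {c z : ℂ} (f : ContDiffBump c) (h : f.rOut < ‖z - c‖) :
    (f : ℂ → ℝ) =ᶠ[𝓝 z] fun _ => 0 := by
  have h1 : z ∉ tsupport f := by
    rw [f.tsupport_eq, Metric.mem_closedBall, dist_eq_norm]
    exact not_le.2 h
  exact notMem_tsupport_iff_eventuallyEq.1 h1

theorem bump_near {c z : ℂ} (f : ContDiffBump c) (h : ‖z - c‖ < f.rIn) :
    (f : ℂ → ℝ) =ᶠ[𝓝 z] fun _ => 1 :=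
  f.eventuallyEq_one_of_mem_ball (by rw [Metric.mem_ball, dist_eq_norm]; exact h)

/-- **No exact harmonic forms** (global, plane form): `Ω = ℂ ∖ S`. -/
theorem integral_eq_zero (S : Finset ℂ) {A E Y X : ℂ → ℝ} {F G : ℂ → ℂ →L[ℝ] ℝ}
    (h : Plane (↑S : Set ℂ)ᶜ A E Y X F G) (hint : IntegrableOn E (↑S : Set ℂ)ᶜ)
    (hb : ∀ b ∈ S, ∃ C r : ℝ, 0 < r ∧ ∀ z, z ≠ b → ‖z - b‖ < r →
      Y z ≤ (C / (‖z - b‖ * Real.log ‖z - b‖)) ^ 2 * A z)
    (hinf : ∃ C R : ℝ, ∀ z, R < ‖z‖ → Y z ≤ (C / (‖z‖ * Real.log ‖z‖)) ^ 2 * A z) :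
    ∫ z in (↑S : Set ℂ)ᶜ, E z = 0 := by
  classical
  set U : Set ℂ := (↑S : Set ℂ)ᶜ with hUdef
  have hU : IsOpen U := S.finite_toSet.isClosed.isOpen_compl
  have hmU : ∀ z, z ∈ U ↔ z ∉ S := fun z => by simp [hUdef]
  choose! C r hr hY using hb
  obtain ⟨Ci, Ri, hYi⟩ := hinf
  -- choice of `T`
  have htend : Tendsto (fun T : ℝ => Real.exp (-T)) atTop (𝓝 0) :=
    Real.tendsto_exp_neg_atTop_nhds_zero
  have hsmall : ∀ x : ℝ, 0 < x → ∀ᶠ T : ℝ in atTop, Real.exp (-T) < x := fun x hx =>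
    htend.eventually_lt_const hx
  have hbig : ∀ x : ℝ, ∀ᶠ T : ℝ in atTop, x < Real.exp T := fun x =>
    Real.tendsto_exp_atTop.eventually_gt_atTop x
  have hev : ∀ᶠ T : ℝ in atTop, 0 < T ∧ (∀ b ∈ S, Real.exp (-T) < r b) ∧ Ri < Real.exp T ∧
      (∀ b ∈ S, ‖b‖ + 1 < Real.exp T) ∧
      ∀ b ∈ S, ∀ b' ∈ S, b ≠ b' → Real.exp (-T) < ‖b - b'‖ / 2 := by
    refine (eventually_gt_atTop 0).and (Eventually.and ?_ ((hbig _).and (Eventually.and ?_ ?_)))
    · exact (Filter.eventually_all_finset S).2 fun b hb => hsmall _ (hr b hb)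
    · exact (Filter.eventually_all_finset S).2 fun b _ => hbig _
    · refine (Filter.eventually_all_finset S).2 fun b _ =>
        (Filter.eventually_all_finset S).2 fun b' _ => ?_
      by_cases hbb : b = b'
      · exact Eventually.of_forall fun T hne => absurd hbb hne
      · filter_upwards [hsmall (‖b - b'‖ / 2)
          (by have := norm_pos_iff.2 (sub_ne_zero.2 hbb); linarith)] with T hT _
        exact hT
  obtain ⟨T, hT0, hT1, hT2, hT3, hT4⟩ := hev.exists
  have hexpT : Real.exp (-T) < 1 := by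
    rw [Real.exp_lt_one_iff]; linarith
  -- the bumps
  let β : (b : ℂ) → ContDiffBump b := fun b =>
    ⟨Real.exp (-(T + 3)), Real.exp (-(T + 2)), Real.exp_pos _,
      Real.exp_lt_exp.2 (by linarith)⟩
  let βi : ContDiffBump (0 : ℂ) :=
    ⟨Real.exp (T + 2), Real.exp (T + 3), Real.exp_pos _, Real.exp_lt_exp.2 (by linarith)⟩
  have hβ1 : ∀ b, (β b).rIn = Real.exp (-(T + 3)) := fun b => rfl
  have hβ2 : ∀ b, (β b).rOut = Real.exp (-(T + 2)) := fun b => rfl
  have hβi1 : βi.rIn = Real.exp (T + 2) := rfl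
  have hβi2 : βi.rOut = Real.exp (T + 3) := rfl
  have hout : Real.exp (-(T + 2)) < Real.exp (-T) := Real.exp_lt_exp.2 (by linarith)
  -- near the points of `S`
  have near_self : ∀ b, (β b : ℂ → ℝ) =ᶠ[𝓝 b] fun _ => 1 := fun b =>
    bump_near _ (by rw [sub_self, norm_zero]; exact Real.exp_pos _)
  have near_other : ∀ b ∈ S, ∀ b' ∈ S, b ≠ b' → (β b : ℂ → ℝ) =ᶠ[𝓝 b'] fun _ => 0 := by
    intro b hb b' hb' hne
    refine bump_far _ ?_
    rw [hβ2, norm_sub_rev]
    have h1 := hT4 b hb b' hb' hne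
    have h2 := Real.exp_pos (-T)
    linarith
  have near_inf : ∀ b ∈ S, (βi : ℂ → ℝ) =ᶠ[𝓝 b] fun _ => 1 := by
    intro b hb
    refine bump_near _ ?_
    rw [hβi1, sub_zero]
    have h1 := hT3 b hb
    have h2 : Real.exp T < Real.exp (T + 2) := Real.exp_lt_exp.2 (by linarith)
    linarith
  have fd_zero : ∀ {f : ℂ → ℝ} {b : ℂ} {c : ℝ}, f =ᶠ[𝓝 b] (fun _ => c) →
      fderiv ℝ f =ᶠ[𝓝 b] fun _ => 0 := by
    intro f b c hf
    have h1 : fderiv ℝ f =ᶠ[𝓝 b] fderiv ℝ (fun _ : ℂ => c) := hf.fderiv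
    refine h1.trans (Eventually.of_forall fun z => ?_)
    simp
  have hEdv : IntegrableOn (dv F) U :=
    hint.congr_fun (fun z hz => (h.dF z hz).symm) hU.measurableSet
  -- integrability of the pieces
  have int_b : ∀ b ∈ S, IntegrableOn (dv fun z => β b z • F z) U := by
    intro b hb
    refine integrableOn_dv_smul h.hF hEdv (β b).contDiff (bump_abs _)
      ((β b).hasCompactSupport.fderiv (𝕜 := ℝ)) fun b' hb' => ?_
    by_cases hbb : b = b'
    · subst hbb
      exact fd_zero (near_self b)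
    · exact fd_zero (near_other b hb b' hb' hbb)
  set ηi : ℂ → ℝ := fun z => 1 - βi z with hηi
  have hηic : ContDiff ℝ 1 ηi := contDiff_const.sub βi.contDiff
  have int_i : IntegrableOn (dv fun z => ηi z • F z) U := by
    refine integrableOn_dv_smul h.hF hEdv hηic (fun z => ?_) ?_ fun b' hb' => ?_
    · rw [hηi, abs_of_nonneg (by simpa using βi.le_one)]
      have : 0 ≤ βi z := βi.nonneg
      simp only
      linarith
    · have h1 : fderiv ℝ ηi = fun z => -fderiv ℝ βi z := by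
        funext z
        rw [hηi, fderiv_const_sub]
      rw [h1]
      exact (βi.hasCompactSupport.fderiv (𝕜 := ℝ)).comp_left
        (g := fun L : ℂ →L[ℝ] ℝ => -L) (by simp)
    · refine fd_zero (c := 0) ?_
      filter_upwards [near_inf b' hb'] with z hz
      rw [hηi]
      simp only
      rw [hz]
      norm_num
  -- the middle piece
  set η0 : ℂ → ℝ := fun z => βi z - ∑ b ∈ S, β b z with hη0
  have hη0c : ContDiff ℝ 1 η0 :=
    βi.contDiff.sub (ContDiff.sum fun b _ => (β b).contDiff)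
  have hη0S : ∀ b ∈ S, η0 =ᶠ[𝓝 b] fun _ => 0 := by
    intro b hb
    have h1 : ∀ᶠ z in 𝓝 b, ∀ b' ∈ S, b' ≠ b → β b' z = 0 := by
      refine (Filter.eventually_all_finset S).2 fun b' hb' => ?_
      by_cases hbb : b' = b
      · exact Eventually.of_forall fun z hne => absurd hbb hne
      · filter_upwards [near_other b' hb' b hb hbb] with z hz _
        exact hz
    filter_upwards [h1, near_self b, near_inf b hb] with z h1 h2 h3
    rw [hη0]
    simp only
    rw [h3, Finset.sum_eq_single b (fun b' hb' hne => h1 b' hb' hne)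
      (fun hn => absurd hb hn), h2]
    norm_num
  set H0 : ℂ → ℂ →L[ℝ] ℝ := fun z => η0 z • F z with hH0
  have hH0S : ∀ b ∈ S, H0 =ᶠ[𝓝 b] fun _ => 0 := by
    intro b hb
    filter_upwards [hη0S b hb] with z hz
    rw [hH0]
    simp only
    rw [hz, zero_smul]
  have hH0c : ContDiff ℝ 1 H0 := by
    rw [contDiff_iff_contDiffAt]
    intro z
    by_cases hz : z ∈ S
    · exact (contDiffAt_const (c := (0 : ℂ →L[ℝ] ℝ))).congr_of_eventuallyEq (hH0S z hz)
    · exact hη0c.contDiffAt.smul (h.hF.contDiffAt (hU.mem_nhds ((hmU z).2 hz)))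
  have hH0s : HasCompactSupport H0 := by
    refine HasCompactSupport.intro (isCompact_closedBall (0 : ℂ) (Real.exp (T + 3))) ?_
    intro z hz
    rw [Metric.mem_closedBall, dist_zero_right, not_le] at hz
    have h1 : βi z = 0 := βi.zero_of_le_dist (by rw [hβi2, dist_zero_right]; exact hz.le)
    have h2 : ∀ b ∈ S, β b z = 0 := by
      intro b hb
      refine (β b).zero_of_le_dist ?_
      rw [hβ2, dist_eq_norm]
      have h3 := hT3 b hb
      have h4 : Real.exp T < Real.exp (T + 3) := Real.exp_lt_exp.2 (by linarith)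
      have h5 : ‖z‖ ≤ ‖z - b‖ + ‖b‖ := by
        calc ‖z‖ = ‖(z - b) + b‖ := by rw [sub_add_cancel]
          _ ≤ _ := norm_add_le _ _
      linarith
    rw [hH0]
    simp only
    rw [hη0]
    simp only
    rw [h1, Finset.sum_eq_zero h2, sub_zero, zero_smul]
  have int_0 : IntegrableOn (dv H0) U := by
    have hc : Continuous (dv H0) := by
      have := continuousOn_dv isOpen_univ hH0c.contDiffOn
      rwa [continuousOn_univ] at this
    have hcs : HasCompactSupport (dv H0) := by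
      have h1 := hH0s.fderiv (𝕜 := ℝ)
      exact h1.comp_left (g := fun L : ℂ →L[ℝ] ℂ →L[ℝ] ℝ => L 1 1 + L Complex.I Complex.I)
        (by simp)
    exact (hc.integrable_of_hasCompactSupport hcs).integrableOn
  have z0 : ∫ z in U, dv H0 z = 0 := by
    rw [setIntegral_eq_integral_of_forall_compl_eq_zero]
    · exact integral_dv_eq_zero hH0c hH0s
    · intro z hz
      rw [hmU, not_not] at hz
      exact dv_zero_of (hH0S z hz)
  -- the ends at the punctures
  have zb : ∀ b ∈ S, ∫ z in U, dv (fun z => β b z • F z) z = 0 := by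
    intro b hb
    have hS : MapsTo (fb b) (Hp T) U := by
      intro w hw
      rw [hmU]
      intro hmem
      have h1 := fb_ne b w
      have h2 := hT4 b hb _ hmem (Ne.symm h1)
      rw [norm_sub_rev, norm_fb_sub] at h2
      have h3 : Real.exp (-w.re) < Real.exp (-T) := Real.exp_lt_exp.2 (by
        have : T < w.re := hw
        linarith)
      have h4 := Real.exp_pos (-w.re)
      linarith
    have hfl : Tendsto (fun s => ∫ θ in (-Real.pi)..Real.pi, pb (fb b) F (pt s θ) 1)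
        atTop (𝓝 0) := by
      refine end_flux hU h hint (diff_fb b) (fb_per b) hT0 hS (fb_inj b T) (C := C b) ?_
      intro w hw
      have hw' : T < w.re := hw
      have hwp : 0 < w.re := by linarith
      have h1 : ‖fb b w - b‖ < r b := by
        rw [norm_fb_sub]
        exact lt_trans (Real.exp_lt_exp.2 (by linarith)) (hT1 b hb)
      have h2 := hY b hb _ (fb_ne b w) h1
      rw [norm_fb_sub, Real.log_exp] at h2
      rw [norm_deriv_fb]
      have he := Real.exp_pos (-w.re)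
      calc Real.exp (-w.re) ^ 2 * Y (fb b w)
          ≤ Real.exp (-w.re) ^ 2 * ((C b / (Real.exp (-w.re) * -w.re)) ^ 2 * A (fb b w)) :=
            mul_le_mul_of_nonneg_left h2 (by positivity)
        _ = (C b / w.re) ^ 2 * A (fb b w) := by
            field_simp
    refine end_int (s1 := T + 1) (s2 := T + 3) hU h.hF (diff_fb b) (fb_per b) (by linarith) hS
      (fb_inj b T) hfl (β b).contDiff ?_ ?_ ?_ (int_b b hb)
    · intro z hz hz'
      refine bump_far _ ?_
      rw [hβ2]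
      by_contra hcon
      rw [not_lt] at hcon
      refine hz' (mem_fb_image ?_ (lt_of_le_of_lt hcon (Real.exp_lt_exp.2 (by linarith))))
      rintro rfl
      exact (hmU z).1 hz hb
    · intro w hw
      refine (β b).zero_of_le_dist ?_
      rw [hβ2, dist_eq_norm, norm_fb_sub, hw]
      exact Real.exp_le_exp.2 (by linarith)
    · intro w hw
      refine (β b).one_of_mem_closedBall ?_
      rw [Metric.mem_closedBall, dist_eq_norm, norm_fb_sub, hβ1]
      exact Real.exp_le_exp.2 (by linarith)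
  -- the end at infinity
  have zi : ∫ z in U, dv (fun z => ηi z • F z) z = 0 := by
    have hS : MapsTo Complex.exp (Hp T) U := by
      intro w hw
      rw [hmU]
      intro hmem
      have h1 := hT3 _ hmem
      rw [Complex.norm_exp] at h1
      have h3 : Real.exp T < Real.exp w.re := Real.exp_lt_exp.2 hw
      linarith
    have hfl : Tendsto (fun s => ∫ θ in (-Real.pi)..Real.pi, pb Complex.exp F (pt s θ) 1)
        atTop (𝓝 0) := by
      refine end_flux hU h hint Complex.differentiable_exp exp_per hT0 hS (exp_inj T)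
        (C := Ci) ?_
      intro w hw
      have hw' : T < w.re := hw
      have hwp : 0 < w.re := by linarith
      have h1 : Ri < ‖Complex.exp w‖ := by
        rw [Complex.norm_exp]
        exact lt_trans hT2 (Real.exp_lt_exp.2 hw')
      have h2 := hYi _ h1
      rw [Complex.norm_exp, Real.log_exp] at h2
      rw [norm_deriv_exp]
      have he := Real.exp_pos w.re
      calc Real.exp w.re ^ 2 * Y (Complex.exp w)
          ≤ Real.exp w.re ^ 2 * ((Ci / (Real.exp w.re * w.re)) ^ 2 * A (Complex.exp w)) :=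
            mul_le_mul_of_nonneg_left h2 (by positivity)
        _ = (Ci / w.re) ^ 2 * A (Complex.exp w) := by
            field_simp
    refine end_int (s1 := T + 1) (s2 := T + 3) hU h.hF Complex.differentiable_exp exp_per
      (by linarith) hS (exp_inj T) hfl hηic ?_ ?_ ?_ int_i
    · intro z hz hz'
      have hn : ‖z‖ ≤ Real.exp (T + 1) := by
        by_contra hcon
        exact hz' (mem_exp_image (not_le.1 hcon))
      have h1 : (βi : ℂ → ℝ) =ᶠ[𝓝 z] fun _ => 1 := by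
        refine bump_near _ ?_
        rw [hβi1, sub_zero]
        exact lt_of_le_of_lt hn (Real.exp_lt_exp.2 (by linarith))
      filter_upwards [h1] with y hy
      rw [hηi]
      simp only
      rw [hy]
      norm_num
    · intro w hw
      have h1 : βi (Complex.exp w) = 1 := by
        refine βi.one_of_mem_closedBall ?_
        rw [Metric.mem_closedBall, dist_zero_right, Complex.norm_exp, hβi1, hw]
        exact Real.exp_le_exp.2 (by linarith)
      rw [hηi]
      simp only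
      rw [h1]
      norm_num
    · intro w hw
      have h1 : βi (Complex.exp w) = 0 := by
        refine βi.zero_of_le_dist ?_
        rw [hβi2, dist_zero_right, Complex.norm_exp]
        exact Real.exp_le_exp.2 (by linarith)
      rw [hηi]
      simp only
      rw [h1]
      norm_num
  -- the sum
  have hsum : ∀ z ∈ U, E z = dv H0 z + ∑ b ∈ S, dv (fun z => β b z • F z) z
      + dv (fun z => ηi z • F z) z := by
    intro z hz
    have hFz : DifferentiableAt ℝ F z :=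
      (h.hF.differentiableOn one_ne_zero).differentiableAt (hU.mem_nhds hz)
    have e0 : dv H0 z = η0 z * dv F z + gr η0 F z :=
      dv_smul ((hη0c.differentiable one_ne_zero) z) hFz
    have eb : ∀ b ∈ S, dv (fun z => β b z • F z) z = β b z * dv F z + gr (β b) F z :=
      fun b _ => dv_smul ((((β b).contDiff (n := 1)).differentiable one_ne_zero) z) hFz
    have ei : dv (fun z => ηi z • F z) z = ηi z * dv F z + gr ηi F z :=
      dv_smul ((hηic.differentiable one_ne_zero) z) hFz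
    have hdβi : DifferentiableAt ℝ (βi : ℂ → ℝ) z :=
      ((βi.contDiff (n := 1)).differentiable one_ne_zero) z
    have hdβ : ∀ b ∈ S, DifferentiableAt ℝ (β b : ℂ → ℝ) z := fun b _ =>
      (((β b).contDiff (n := 1)).differentiable one_ne_zero) z
    have f0 : fderiv ℝ η0 z = fderiv ℝ βi z - ∑ b ∈ S, fderiv ℝ (β b) z := by
      rw [hη0, fderiv_fun_sub hdβi (DifferentiableAt.fun_sum hdβ), fderiv_fun_sum hdβ]
    have fi : fderiv ℝ ηi z = -fderiv ℝ βi z := by
      rw [hηi, fderiv_const_sub]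
    rw [e0, Finset.sum_congr rfl eb, ei, Finset.sum_add_distrib, ← Finset.sum_mul, h.dF z hz]
    unfold gr
    rw [f0, fi, Finset.sum_add_distrib, ← Finset.sum_mul, ← Finset.sum_mul, hη0, hηi]
    simp only [sub_apply, neg_apply, sum_apply]
    ring
  have hsi : IntegrableOn (fun z => ∑ b ∈ S, dv (fun z => β b z • F z) z) U :=
    integrable_finsetSum S int_b
  have hs0 : IntegrableOn (fun z => dv H0 z + ∑ b ∈ S, dv (fun z => β b z • F z) z) U :=
    int_0.add hsi
  calc ∫ z in U, E z = ∫ z in U, (dv H0 z + ∑ b ∈ S, dv (fun z => β b z • F z) z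
      + dv (fun z => ηi z • F z) z) := setIntegral_congr_fun hU.measurableSet hsum
    _ = 0 := by
      have h1 := integral_add (μ := volume.restrict U) hs0 int_i
      have h2 := integral_add (μ := volume.restrict U) int_0 hsi
      have h3 : ∫ z in U, ∑ b ∈ S, dv (fun z => β b z • F z) z
          = ∑ b ∈ S, ∫ z in U, dv (fun z => β b z • F z) z := integral_finsetSum S int_b
      rw [h1, h2, h3, Finset.sum_eq_zero zb, z0, zi]
      norm_num

/-- **No exact harmonic forms** (global, plane form), pointwise version -/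
theorem eq_zero (S : Finset ℂ) {A E Y X : ℂ → ℝ} {F G : ℂ → ℂ →L[ℝ] ℝ}
    (h : Plane (↑S : Set ℂ)ᶜ A E Y X F G) (hint : IntegrableOn E (↑S : Set ℂ)ᶜ)
    (hb : ∀ b ∈ S, ∃ C r : ℝ, 0 < r ∧ ∀ z, z ≠ b → ‖z - b‖ < r →
      Y z ≤ (C / (‖z - b‖ * Real.log ‖z - b‖)) ^ 2 * A z)
    (hinf : ∃ C R : ℝ, ∀ z, R < ‖z‖ → Y z ≤ (C / (‖z‖ * Real.log ‖z‖)) ^ 2 * A z) :
    ∀ z ∉ S, E z = 0 := by
  have hU : IsOpen (↑S : Set ℂ)ᶜ := S.finite_toSet.isClosed.isOpen_compl
  have h0 := integral_eq_zero S h hint hb hinf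
  rw [setIntegral_eq_zero_iff_of_nonneg_ae ?_ hint] at h0
  · intro z hz
    exact Measure.eqOn_open_of_ae_eq h0 hU (h.contE hU) continuousOn_const (by simpa using hz)
  · rw [EventuallyLE, ae_restrict_iff' hU.measurableSet]
    exact Eventually.of_forall fun z hz => h.E0 z hz

end Crest.Agent.R276.IpcE3_827
end

-- ▼ part R276/NoEx_827

/-!
# R276, IPC (5): no exact harmonic forms, PVHS version (helper827)

* `Loc V z U` : the local data of a `PVHS` near `z` in the frame at `z`;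
* `planeData` : a section with `D* D φ = 0` gives `CylP_593.PlaneData` in a local frame;
* `gv V z = |θ|²` at `z`, `gv_le_punct`, `gv_le_inf` : Ahlfors-Schwarz bounds near the punctures;
* `no_exact` : a square integrable exact harmonic form vanishes.
-/

set_option autoImplicit false
set_option linter.unusedSectionVars false

open Set Filter Topology MeasureTheory
open scoped ComplexOrder Matrix ContDiff

noncomputable section

namespace Crest.Agent.R276.NoEx_827

open Crest.Agent.R276.Ipc735 hiding dM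
open Crest.Agent.R276.CylP_593
open Crest.Agent.R276.Cyl_593 (S)

/-! ### constant change of frame -/

section frame

variable {κ : Type*} [Fintype κ] [DecidableEq κ]

omit [Fintype κ] [DecidableEq κ] in
lemma dM_const (M : Matrix κ κ ℂ) (z v : ℂ) : dM (fun _ => M) z v = 0 := by
  ext i j
  simp [dM]

omit [Fintype κ] [DecidableEq κ] in
lemma MC_const {n : WithTop ℕ∞} (M : Matrix κ κ ℂ) (U : Set ℂ) : MC n (fun _ => M) U :=
  fun _ _ => contDiffOn_const

omit [DecidableEq κ] in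
lemma MC_mul {n : WithTop ℕ∞} {A B : ℂ → Matrix κ κ ℂ} {U : Set ℂ} (hA : MC n A U)
    (hB : MC n B U) : MC n (fun z => A z * B z) U := fun i j => by
  simp only [Matrix.mul_apply]
  exact ContDiffOn.sum fun k _ => (hA i k).mul (hB k j)

omit [DecidableEq κ] in
lemma VC_mulVec {n : WithTop ℕ∞} {A : ℂ → Matrix κ κ ℂ} {u : ℂ → κ → ℂ} {U : Set ℂ}
    (hA : MC n A U) (hu : VC n u U) : VC n (fun z => A z *ᵥ u z) U := fun i => by
  simp only [Matrix.mulVec, dotProduct]
  exact ContDiffOn.sum fun k _ => (hA i k).mul (hu k)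

omit [DecidableEq κ] in
lemma dM_conj {H : ℂ → Matrix κ κ ℂ} {U : Set ℂ} (hU : IsOpen U) (hH : MC 1 H U) (g g' : Matrix κ κ ℂ)
    {z : ℂ} (hz : z ∈ U) (v : ℂ) :
    dM (fun y => g * H y * g') z v = g * dM H z v * g' := by
  rw [dM_mul hU (MC_mul (MC_const g U) hH) (MC_const g' U) hz, dM_const, Matrix.mul_zero, add_zero,
    dM_mul hU (MC_const g U) hH hz, dM_const, Matrix.zero_mul, zero_add]

omit [DecidableEq κ] in
lemma dV_mul_const {φ : ℂ → κ → ℂ} {U : Set ℂ} (hU : IsOpen U) (hφ : VC 1 φ U) (g : Matrix κ κ ℂ)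
    {z : ℂ} (hz : z ∈ U) (v : ℂ) : dV (fun y => g *ᵥ φ y) z v = g *ᵥ dV φ z v := by
  rw [dV_mulVec hU (MC_const g U) hφ hz, dM_const, Matrix.zero_mulVec, zero_add]

omit [Fintype κ] [DecidableEq κ] in
lemma dV_congr {a b : ℂ → κ → ℂ} {U : Set ℂ} (hU : IsOpen U) (h : ∀ z ∈ U, a z = b z) {z : ℂ}
    (hz : z ∈ U) (v : ℂ) : dV a z v = dV b z v := by
  ext i
  simp only [dV]
  have : (fun y => a y i) =ᶠ[𝓝 z] fun y => b y i := by
    filter_upwards [hU.mem_nhds hz] with y hy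
    rw [h y hy]
  rw [this.fderiv_eq]

lemma S_frame (M : Matrix κ κ ℂ) {g g' : Matrix κ κ ℂ} (hg : g * g' = 1) (u v : κ → ℂ) :
    S (gᴴ * M * g) (g' *ᵥ u) (g' *ᵥ v) = S M u v := by
  have h1 : g *ᵥ (g' *ᵥ u) = u := by rw [Matrix.mulVec_mulVec, hg, Matrix.one_mulVec]
  have h2 : g *ᵥ (g' *ᵥ v) = v := by rw [Matrix.mulVec_mulVec, hg, Matrix.one_mulVec]
  rw [Cyl_593.S_mul, ← Cyl_593.S_mulVec_left, h1, h2]

/-- a constant change of frame -/
structure Fr (U : Set ℂ) (g g' : Matrix κ κ ℂ) (H H' : ℂ → Matrix κ κ ℂ) (φ φ' : ℂ → κ → ℂ) :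
    Prop where
  op : IsOpen U
  gg : g * g' = 1
  cH : MC 2 H U
  cφ : VC 2 φ U
  hH : ∀ y ∈ U, H' y = gᴴ * H y * g
  hφ : ∀ y ∈ U, φ' y = g' *ᵥ φ y

namespace Fr

variable {U : Set ℂ} {g g' : Matrix κ κ ℂ} {H H' : ℂ → Matrix κ κ ℂ} {φ φ' : ℂ → κ → ℂ}

variable (F : Fr U g g' H H' φ φ')
include F

lemma cH1 : MC 1 H U := fun i j => (F.cH i j).of_le (by norm_num)
lemma cφ1 : VC 1 φ U := fun i => (F.cφ i).of_le (by norm_num)
lemma cdH (v : ℂ) : MC 1 (fun z => dM H z v) U :=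
  MC.dM F.op (by simpa [one_add_one_eq_two] using F.cH) v
lemma cdφ (v : ℂ) : VC 1 (fun z => dV φ z v) U :=
  VC.dV F.op (by simpa [one_add_one_eq_two] using F.cφ) v

lemma dM_eq {z : ℂ} (hz : z ∈ U) (v : ℂ) : dM H' z v = gᴴ * dM H z v * g := by
  rw [dM_congr F.op F.hH hz, dM_conj F.op F.cH1 _ _ hz]

lemma dV_eq {z : ℂ} (hz : z ∈ U) (v : ℂ) : dV φ' z v = g' *ᵥ dV φ z v := by
  rw [dV_congr F.op F.hφ hz, dV_mul_const F.op F.cφ1 _ hz]

lemma d2M_eq {z : ℂ} (hz : z ∈ U) (v : ℂ) : d2M H' z v = gᴴ * d2M H z v * g := by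
  rw [d2M, dM_congr F.op (fun y hy => F.dM_eq hy v) hz, dM_conj F.op (F.cdH v) _ _ hz, d2M]

lemma pA_eq {z : ℂ} (hz : z ∈ U) : pA H' φ' z = pA H φ z := by
  rw [pA, F.hH z hz, F.hφ z hz, S_frame _ F.gg, pA]

lemma pf_eq {z : ℂ} (hz : z ∈ U) (v : ℂ) : pf H' φ' v z = pf H φ v z := by
  rw [pf, F.hH z hz, F.hφ z hz, F.dV_eq hz, S_frame _ F.gg, pf]

lemma pg_eq {z : ℂ} (hz : z ∈ U) (v : ℂ) : pg H' φ' v z = pg H φ v z := by
  rw [pg, F.dM_eq hz, F.hφ z hz, S_frame _ F.gg, pg]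


lemma px_eq {z : ℂ} (hz : z ∈ U) (v : ℂ) : px H' φ' v z = px H φ v z := by
  rw [px, F.dM_eq hz, F.hφ z hz, F.dV_eq hz, S_frame _ F.gg, px]

lemma pF_eq {z : ℂ} (hz : z ∈ U) : pF H' φ' z = pF H φ z := by
  rw [pF, F.pf_eq hz, F.pf_eq hz, pF]

lemma pG_eq {z : ℂ} (hz : z ∈ U) : pG H' φ' z = pG H φ z := by
  rw [pG, F.pg_eq hz, F.pg_eq hz, pG]


lemma pX_eq {z : ℂ} (hz : z ∈ U) : pX H' φ' z = pX H φ z := by
  rw [pX, F.px_eq hz, F.px_eq hz, pX]

lemma pY_eq {z : ℂ} (hz : z ∈ U) : pY H' φ' z = pY H φ z := by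
  have h : gᴴ * d2M H z 1 * g + gᴴ * d2M H z Complex.I * g =
      gᴴ * (d2M H z 1 + d2M H z Complex.I) * g := by
    rw [Matrix.mul_add, Matrix.add_mul]
  rw [pY, F.d2M_eq hz, F.d2M_eq hz, h, F.hφ z hz, S_frame _ F.gg, pY]

end Fr

end frame

/-! ### local data -/

section loc

variable {A : Finset ℂ} {N w : ℕ} (V : PVHS A N w)

/-- the Hodge projectors in the frame at `z` -/
def fP (z : ℂ) : ℕ → ℂ → Matrix (Fin N) (Fin N) ℂ := fun p x => hq w (lM V.P V.E z x) p

/-- the Hodge metric in the frame at `z` -/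
def fH (z : ℂ) : ℂ → Matrix (Fin N) (Fin N) ℂ := fun x => hodge w (V.S z) (lM V.P V.E z x)

lemma hm_fP (z : ℂ) : VCalc_442.hm w (V.S z) (fP V z) = fH V z := by
  funext x
  unfold VCalc_442.hm fH hodge fP
  rw [sgOp_hq]

/-- local data near `z`, in the frame at `z` -/
structure Loc (z : ℂ) (U : Set ℂ) : Prop where
  op : IsOpen U
  mem : z ∈ U
  sub : ∀ x ∈ U, x ∉ A
  coc : ∀ y ∈ U, ∀ x ∈ U, V.P z y * V.P y x = V.P z x
  fS : ∀ y ∈ U, V.S y = (cm (V.P z y))ᴴ * V.S z * cm (V.P z y)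
  vhs : VCalc_442.VHS w U (V.S z) (fP V z)

theorem exists_loc {z : ℂ} (hz : z ∉ A) : ∃ U, Loc V z U := by
  obtain ⟨U, h1, h2, h3, h4, h5, h6⟩ := V.local hz
  exact ⟨U, h1, h2, h3, h4, h5, h6⟩

namespace Loc

variable {V} {z : ℂ} {U : Set ℂ} (L : Loc V z U)
include L

lemma fE_change {y x : ℂ} (hy : y ∈ U) (hx : x ∈ U) :
    lM V.P V.E z x = cm (V.P z y) * lM V.P V.E y x * cm (V.P z y)⁻¹ := by
  unfold lM
  rw [← L.coc y hy x hx, cm_mul, _root_.mul_inv_rev, cm_mul]
  noncomm_ring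

lemma fE_change' {y x : ℂ} (hy : y ∈ U) (hx : x ∈ U) :
    lM V.P V.E y x = cm (V.P z y)⁻¹ * lM V.P V.E z x * cm (V.P z y) := by
  rw [L.fE_change hy hx]
  calc lM V.P V.E y x = 1 * lM V.P V.E y x * 1 := by simp
    _ = (cm (V.P z y)⁻¹ * cm (V.P z y)) * lM V.P V.E y x * (cm (V.P z y)⁻¹ * cm (V.P z y)) := by
      rw [cm_inv_mul_cm]
    _ = _ := by noncomm_ring

lemma lV_change (φ : ℂ → Fin N → ℂ) {y x : ℂ} (hy : y ∈ U) (hx : x ∈ U) :
    lV V.P φ z x = cm (V.P z y) *ᵥ lV V.P φ y x := by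
  unfold lV
  rw [← L.coc y hy x hx, cm_mul, Matrix.mulVec_mulVec]

lemma lV_change' (φ : ℂ → Fin N → ℂ) {y x : ℂ} (hy : y ∈ U) (hx : x ∈ U) :
    lV V.P φ y x = cm (V.P z y)⁻¹ *ᵥ lV V.P φ z x := by
  rw [L.lV_change φ hy hx, cm_inv_mulVec]

lemma fH_change {y x : ℂ} (hy : y ∈ U) (hx : x ∈ U) :
    fH V y x = (cm (V.P z y))ᴴ * fH V z x * cm (V.P z y) := by
  unfold fH
  rw [L.fS y hy, L.fE_change' hy hx]
  exact hodge_conj (cm_inv_mul_cm _) (cm_mul_cm_inv _) w _ _

lemma cH : MC 2 (fH V z) U := by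
  have h := L.vhs.sm_hm
  rw [hm_fP] at h
  intro i j
  exact (VCalc_442.contDiffOn_matrix.1 h i j).of_le ENat.LEInfty.out

lemma cE : MC 2 (lM V.P V.E z) U := by
  have h := VCalc_442.contDiffOn_matrix.1 L.vhs.smE
  intro i j
  refine ((h i j).of_le ENat.LEInfty.out).congr fun x hx => ?_
  unfold fP
  rw [grOp_hq ((V.hs x (L.sub x hx)).lM (L.fS x hx))]

lemma th_fP {x : ℂ} (hx : x ∈ U) (v : ℂ) :
    VCalc_442.th w (fP V z) v x = VCalc_442.mW (lM V.P V.E z) v x := by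
  ext i j
  simp only [VCalc_442.th, VCalc_442.mW, Matrix.of_apply]
  refine VCalc_442.dW_congr ?_ v
  filter_upwards [L.op.mem_nhds hx] with y hy
  unfold fP
  rw [grOp_hq ((V.hs y (L.sub y hy)).lM (L.fS y hy))]

lemma thb_fP {x : ℂ} (hx : x ∈ U) (v : ℂ) :
    VCalc_442.thb w (fP V z) v x = - VCalc_442.mB (lM V.P V.E z) v x := by
  unfold VCalc_442.thb
  congr 1
  ext i j
  simp only [VCalc_442.mB, Matrix.of_apply]
  refine VCalc_442.dB_congr ?_ v
  filter_upwards [L.op.mem_nhds hx] with y hy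
  unfold fP
  rw [grOp_hq ((V.hs y (L.sub y hy)).lM (L.fS y hy))]

lemma mW_H {x : ℂ} (hx : x ∈ U) : VCalc_442.mW (fH V z) 1 x =
    (-2 : ℂ) • (fH V z x * VCalc_442.th w (fP V z) 1 x) := by
  have h := L.vhs.dW_hm hx 1
  rw [← L.vhs.th_eq hx, ← VCalc_442.mW_eq_dW (L.vhs.d_hm hx), hm_fP] at h
  exact h

lemma mB_H {x : ℂ} (hx : x ∈ U) : VCalc_442.mB (fH V z) 1 x =
    (-2 : ℂ) • (fH V z x * VCalc_442.thb w (fP V z) 1 x) := by
  have h := L.vhs.dB_hm hx 1
  rw [← L.vhs.thb_eq hx, ← VCalc_442.mB_eq_dB (L.vhs.d_hm hx), hm_fP] at h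
  exact h

end Loc

lemma dM_eq_add (H : ℂ → Matrix (Fin N) (Fin N) ℂ) (x v : ℂ) :
    dM H x v = VCalc_442.mW H v x + VCalc_442.mB H v x := by
  ext i j
  simp only [dM, VCalc_442.mW, VCalc_442.mB, Matrix.of_apply, Matrix.add_apply]
  exact VCalc_442.fderiv_eq _ _ _

lemma mW_smul (H : ℂ → Matrix (Fin N) (Fin N) ℂ) (x v c : ℂ) :
    VCalc_442.mW H (c * v) x = c • VCalc_442.mW H v x := by
  ext i j
  simp only [VCalc_442.mW, Matrix.of_apply, Matrix.smul_apply]
  exact VCalc_442.dW_smul_dir _ x c v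

lemma mB_smul (H : ℂ → Matrix (Fin N) (Fin N) ℂ) (x v c : ℂ) :
    VCalc_442.mB H (c * v) x = (starRingEnd ℂ c) • VCalc_442.mB H v x := by
  ext i j
  simp only [VCalc_442.mB, Matrix.of_apply, Matrix.smul_apply]
  exact VCalc_442.dB_smul_dir _ x c v

lemma dM_one (H : ℂ → Matrix (Fin N) (Fin N) ℂ) (x : ℂ) :
    dM H x 1 = VCalc_442.mW H 1 x + VCalc_442.mB H 1 x := dM_eq_add H x 1

lemma dM_I (H : ℂ → Matrix (Fin N) (Fin N) ℂ) (x : ℂ) :
    dM H x Complex.I = Complex.I • (VCalc_442.mW H 1 x - VCalc_442.mB H 1 x) := by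
  have h1 := mW_smul H x 1 Complex.I
  have h2 := mB_smul H x 1 Complex.I
  rw [mul_one] at h1 h2
  rw [dM_eq_add, h1, h2, Complex.conj_I, neg_smul, smul_sub, sub_eq_add_neg]

namespace Loc

variable {V} {z : ℂ} {U : Set ℂ} (L : Loc V z U)
include L

lemma dM_H_one {x : ℂ} (hx : x ∈ U) : dM (fH V z) x 1 = (-2 : ℂ) • (fH V z x *
    (VCalc_442.th w (fP V z) 1 x + VCalc_442.thb w (fP V z) 1 x)) := by
  rw [dM_one, L.mW_H hx, L.mB_H hx, Matrix.mul_add, smul_add]

lemma dM_H_I {x : ℂ} (hx : x ∈ U) : dM (fH V z) x Complex.I = (-(2 * Complex.I)) • (fH V z x *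
    (VCalc_442.th w (fP V z) 1 x - VCalc_442.thb w (fP V z) 1 x)) := by
  rw [dM_I, L.mW_H hx, L.mB_H hx, Matrix.mul_sub]
  module

lemma h1 {x : ℂ} (hx : x ∈ U) :
    dM (fH V z) x 1 = (2 * Complex.I) • (fH V z x * dM (lM V.P V.E z) x Complex.I) := by
  rw [L.dM_H_one hx, L.th_fP hx, L.thb_fP hx, dM_I, Matrix.mul_smul, smul_smul]
  have : (2 * Complex.I) * Complex.I = -2 := by
    rw [mul_assoc, Complex.I_mul_I]; ring
  rw [this, sub_eq_add_neg]

lemma h2 {x : ℂ} (hx : x ∈ U) :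
    dM (fH V z) x Complex.I = (-(2 * Complex.I)) • (fH V z x * dM (lM V.P V.E z) x 1) := by
  rw [L.dM_H_I hx, L.th_fP hx, L.thb_fP hx, dM_one, sub_neg_eq_add]

lemma pos {x : ℂ} (hx : x ∈ U) : (fH V z x).PosDef := by
  have h := L.vhs.hmPos hx
  rwa [hm_fP] at h

lemma harm {x : ℂ} (hx : x ∈ U) : d2M (fH V z) x 1 + d2M (fH V z) x Complex.I =
    dM (fH V z) x 1 * (fH V z x)⁻¹ * dM (fH V z) x 1 +
      dM (fH V z) x Complex.I * (fH V z x)⁻¹ * dM (fH V z) x Complex.I := by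
  refine harm_of_grading L.op (fun i j => (L.cH i j).of_le (by norm_num)) L.cE (fun y hy => ?_)
    (fun y hy => L.h1 hy) (fun y hy => L.h2 hy) hx
  exact (Matrix.isUnit_iff_isUnit_det _).1 (L.pos hy).isUnit

lemma cφ {φ : ℂ → Fin N → ℂ} (hφ : V.Sm φ) : VC 2 (lV V.P φ z) U := by
  intro i y hy
  have h1 : ContDiffAt ℝ 2 (lV V.P φ y) y := (hφ y (L.sub y hy)).of_le ENat.LEInfty.out
  have h2 : ∀ k, ContDiffAt ℝ 2 (fun x => lV V.P φ y x k) y := fun k => (contDiffAt_pi.1 h1) k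
  have h3 : (fun x => lV V.P φ z x i) =ᶠ[𝓝 y] fun x => ∑ k, cm (V.P z y) i k * lV V.P φ y x k := by
    filter_upwards [L.op.mem_nhds hy] with x hx
    rw [L.lV_change φ hy hx]
    rfl
  refine (ContDiffAt.congr_of_eventuallyEq ?_ h3).contDiffWithinAt
  exact ContDiffAt.sum fun k _ => contDiffAt_const.mul (h2 k)

end Loc

end loc

/-! ### vector valued functions -/

section vec

variable {N : ℕ}

lemma diffAt_of_VC {f : ℂ → Fin N → ℂ} {U : Set ℂ} (hU : IsOpen U) (hf : VC 1 f U) {x : ℂ}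
    (hx : x ∈ U) : DifferentiableAt ℝ f x :=
  differentiableAt_pi.2 fun i => ((hf i).contDiffAt (hU.mem_nhds hx)).differentiableAt one_ne_zero

lemma fderiv_eq_dV {f : ℂ → Fin N → ℂ} {x : ℂ} (hf : DifferentiableAt ℝ f x) (v : ℂ) :
    fderiv ℝ f x v = dV f x v := by
  have h := fderiv_pi (𝕜 := ℝ) (fun i => (differentiableAt_pi.1 hf) i)
  have h2 : (fun (y : ℂ) (i : Fin N) => f y i) = f := rfl
  rw [h2] at h
  rw [h]
  rfl

lemma wz_eq {f : ℂ → Fin N → ℂ} {x : ℂ} (hf : DifferentiableAt ℝ f x) :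
    wz f x = (1 / 2 : ℂ) • (dV f x 1 - Complex.I • dV f x Complex.I) := by
  rw [wz, fderiv_eq_dV hf, fderiv_eq_dV hf]

lemma wb_eq {f : ℂ → Fin N → ℂ} {x : ℂ} (hf : DifferentiableAt ℝ f x) :
    wb f x = (1 / 2 : ℂ) • (dV f x 1 + Complex.I • dV f x Complex.I) := by
  rw [wb, fderiv_eq_dV hf, fderiv_eq_dV hf]

lemma wz_congr {f g : ℂ → Fin N → ℂ} {x : ℂ} (h : f =ᶠ[𝓝 x] g) : wz f x = wz g x := by
  rw [wz, wz, h.fderiv_eq]

lemma wb_congr {f g : ℂ → Fin N → ℂ} {x : ℂ} (h : f =ᶠ[𝓝 x] g) : wb f x = wb g x := by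
  rw [wb, wb, h.fderiv_eq]

lemma mulVec_fderiv (g : Matrix (Fin N) (Fin N) ℂ) {f : ℂ → Fin N → ℂ} {x : ℂ}
    (hf : DifferentiableAt ℝ f x) (v : ℂ) :
    fderiv ℝ (fun y => g *ᵥ f y) x v = g *ᵥ fderiv ℝ f x v := by
  have h1 : HasFDerivAt (fun y => (((Matrix.mulVecLin g).toContinuousLinearMap).restrictScalars ℝ)
      (f y)) ((((Matrix.mulVecLin g).toContinuousLinearMap).restrictScalars ℝ).comp
      (fderiv ℝ f x)) x := (ContinuousLinearMap.hasFDerivAt _).comp x hf.hasFDerivAt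
  have h2 := h1.fderiv
  have h3 : (fun y => g *ᵥ f y) = fun y =>
      (((Matrix.mulVecLin g).toContinuousLinearMap).restrictScalars ℝ) (f y) := rfl
  rw [h3, h2]
  rfl

lemma wz_mulVec (g : Matrix (Fin N) (Fin N) ℂ) {f : ℂ → Fin N → ℂ} {x : ℂ}
    (hf : DifferentiableAt ℝ f x) : wz (fun y => g *ᵥ f y) x = g *ᵥ wz f x := by
  rw [wz, wz, mulVec_fderiv g hf, mulVec_fderiv g hf, Matrix.mulVec_smul, Matrix.mulVec_sub,
    Matrix.mulVec_smul]

lemma wb_mulVec (g : Matrix (Fin N) (Fin N) ℂ) {f : ℂ → Fin N → ℂ} {x : ℂ}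
    (hf : DifferentiableAt ℝ f x) : wb (fun y => g *ᵥ f y) x = g *ᵥ wb f x := by
  rw [wb, wb, mulVec_fderiv g hf, mulVec_fderiv g hf, Matrix.mulVec_smul, Matrix.mulVec_add,
    Matrix.mulVec_smul]

lemma dV_lin {f g : ℂ → Fin N → ℂ} {U : Set ℂ} (hU : IsOpen U) (hf : VC 1 f U) (hg : VC 1 g U)
    (c d : ℂ) {x : ℂ} (hx : x ∈ U) (v : ℂ) :
    dV (fun y => c • f y + d • g y) x v = c • dV f x v + d • dV g x v := by
  ext i
  simp only [dV, Pi.add_apply, Pi.smul_apply, smul_eq_mul]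
  have h1 := ((hf i).contDiffAt (hU.mem_nhds hx)).differentiableAt one_ne_zero
  have h2 := ((hg i).contDiffAt (hU.mem_nhds hx)).differentiableAt one_ne_zero
  rw [fderiv_fun_add (h1.const_mul c) (h2.const_mul d), fderiv_const_mul h1, fderiv_const_mul h2]
  rfl

lemma VC_lin {n : WithTop ℕ∞} {f g : ℂ → Fin N → ℂ} {U : Set ℂ} (hf : VC n f U) (hg : VC n g U)
    (c d : ℂ) : VC n (fun y => c • f y + d • g y) U := fun i =>
  (contDiffOn_const.mul (hf i)).add (contDiffOn_const.mul (hg i))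

end vec

section loc2

variable {A : Finset ℂ} {N w : ℕ} {V : PVHS A N w}

lemma lV_mul (P : ℂ → ℂ → GL (Fin N) ℤ) (M : ℂ → Matrix (Fin N) (Fin N) ℂ) (ψ : ℂ → Fin N → ℂ)
    (z x : ℂ) : lV P (fun x => M x *ᵥ ψ x) z x = lM P M z x *ᵥ lV P ψ z x := by
  unfold lV lM
  simp only [Matrix.mulVec_mulVec]
  rw [mul_assoc _ _ (cm (P z x)), cm_inv_mul_cm, mul_one]

lemma lM_weil (P : ℂ → ℂ → GL (Fin N) ℤ) (E : ℂ → Matrix (Fin N) (Fin N) ℂ) (z x : ℂ) :
    lM P (fun x => weil w (E x)) z x = weil w (lM P E z x) := by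
  unfold lM
  rw [weil_conj (cm_mul_cm_inv _) (cm_inv_mul_cm _)]

namespace Loc

variable {z : ℂ} {U : Set ℂ} (L : Loc V z U)
include L

lemma lV_d1 {φ : ℂ → Fin N → ℂ} (hφ : V.Sm φ) {x : ℂ} (hx : x ∈ U) :
    lV V.P (V.d1 φ) z x = wz (lV V.P φ z) x := by
  have h1 : lV V.P φ z =ᶠ[𝓝 x] fun y => cm (V.P z x) *ᵥ lV V.P φ x y := by
    filter_upwards [L.op.mem_nhds hx] with y hy
    exact L.lV_change φ hx hy
  rw [wz_congr h1, wz_mulVec _ ((hφ x (L.sub x hx)).differentiableAt (by simp))]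
  rfl

lemma lV_d2 {φ : ℂ → Fin N → ℂ} (hφ : V.Sm φ) {x : ℂ} (hx : x ∈ U) :
    lV V.P (V.d2 φ) z x = wb (lV V.P φ z) x := by
  have h1 : lV V.P φ z =ᶠ[𝓝 x] fun y => cm (V.P z x) *ᵥ lV V.P φ x y := by
    filter_upwards [L.op.mem_nhds hx] with y hy
    exact L.lV_change φ hx hy
  rw [wb_congr h1, wb_mulVec _ ((hφ x (L.sub x hx)).differentiableAt (by simp))]
  rfl

/-- the flat derivatives of a section which is differentiable in one local frame -/
lemma d1_eq {ψ : ℂ → Fin N → ℂ} {x : ℂ} (hx : x ∈ U) (hψ : DifferentiableAt ℝ (lV V.P ψ z) x) :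
    wz (lV V.P ψ z) x = cm (V.P z x) *ᵥ V.d1 ψ x := by
  have h1 : lV V.P ψ x =ᶠ[𝓝 x] fun y => cm (V.P z x)⁻¹ *ᵥ lV V.P ψ z y := by
    filter_upwards [L.op.mem_nhds hx] with y hy
    exact L.lV_change' ψ hx hy
  rw [PVHS.d1, wz_congr h1, wz_mulVec _ hψ, cm_mulVec_inv]

lemma d2_eq {ψ : ℂ → Fin N → ℂ} {x : ℂ} (hx : x ∈ U) (hψ : DifferentiableAt ℝ (lV V.P ψ z) x) :
    wb (lV V.P ψ z) x = cm (V.P z x) *ᵥ V.d2 ψ x := by
  have h1 : lV V.P ψ x =ᶠ[𝓝 x] fun y => cm (V.P z x)⁻¹ *ᵥ lV V.P ψ z y := by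
    filter_upwards [L.op.mem_nhds hx] with y hy
    exact L.lV_change' ψ hx hy
  rw [PVHS.d2, wb_congr h1, wb_mulVec _ hψ, cm_mulVec_inv]

lemma cC : MC 1 (fun x => weil w (lM V.P V.E z x)) U := by
  have h := VCalc_442.contDiffOn_matrix.1 L.vhs.smC
  intro i j
  refine ((h i j).of_le ENat.LEInfty.out).congr fun x hx => ?_
  unfold fP
  rw [sgOp_hq]

lemma cdφ {φ : ℂ → Fin N → ℂ} (hφ : V.Sm φ) (v : ℂ) :
    VC 1 (fun x => dV (lV V.P φ z) x v) U :=
  VC.dV L.op (by simpa [one_add_one_eq_two] using L.cφ hφ) v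

lemma cφ1 {φ : ℂ → Fin N → ℂ} (hφ : V.Sm φ) : VC 1 (lV V.P φ z) U :=
  fun i => (L.cφ hφ i).of_le (by norm_num)

lemma cH1 : MC 1 (fH V z) U := fun i j => (L.cH i j).of_le (by norm_num)

/-- the harmonic equation in a local frame -/
theorem eqn {φ : ℂ → Fin N → ℂ} (hφ : V.Sm φ)
    (hharm : ∀ z ∉ A, V.d2 (fun x => weil w (V.E x) *ᵥ V.d1 φ x) z =
      - V.d1 (fun x => weil w (V.E x) *ᵥ V.d2 φ x) z) {x : ℂ} (hx : x ∈ U) :
    dM (fH V z) x 1 *ᵥ dV (lV V.P φ z) x 1 + fH V z x *ᵥ d2V (lV V.P φ z) x 1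
      + (dM (fH V z) x Complex.I *ᵥ dV (lV V.P φ z) x Complex.I +
        fH V z x *ᵥ d2V (lV V.P φ z) x Complex.I) = 0 := by
  refine eqn_of_div L.op L.cH1 (L.cφ hφ) hx ?_
  set u := lV V.P φ z with hu
  set a : ℂ → Fin N → ℂ := fun y => dV u y 1 with ha
  set b : ℂ → Fin N → ℂ := fun y => dV u y Complex.I with hb
  set C : ℂ → Matrix (Fin N) (Fin N) ℂ := fun x => weil w (lM V.P V.E z x) with hC
  have hwz : ∀ y ∈ U, wz u y = (1 / 2 : ℂ) • a y + (-(1 / 2) * Complex.I) • b y := by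
    intro y hy
    rw [wz_eq (diffAt_of_VC L.op (L.cφ1 hφ) hy)]
    module
  have hwb : ∀ y ∈ U, wb u y = (1 / 2 : ℂ) • a y + ((1 / 2) * Complex.I) • b y := by
    intro y hy
    rw [wb_eq (diffAt_of_VC L.op (L.cφ1 hφ) hy)]
    module
  -- the two sections
  have hψ1 : ∀ y ∈ U, lV V.P (fun x => weil w (V.E x) *ᵥ V.d1 φ x) z y =
      (1 / 2 : ℂ) • (C y *ᵥ a y) + (-(1 / 2) * Complex.I) • (C y *ᵥ b y) := by
    intro y hy
    rw [lV_mul, lM_weil, L.lV_d1 hφ hy, hwz y hy, Matrix.mulVec_add, Matrix.mulVec_smul,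
      Matrix.mulVec_smul]
  have hψ2 : ∀ y ∈ U, lV V.P (fun x => weil w (V.E x) *ᵥ V.d2 φ x) z y =
      (1 / 2 : ℂ) • (C y *ᵥ a y) + ((1 / 2) * Complex.I) • (C y *ᵥ b y) := by
    intro y hy
    rw [lV_mul, lM_weil, L.lV_d2 hφ hy, hwb y hy, Matrix.mulVec_add, Matrix.mulVec_smul,
      Matrix.mulVec_smul]
  have cCa : VC 1 (fun y => C y *ᵥ a y) U := VC_mulVec L.cC (L.cdφ hφ 1)
  have cCb : VC 1 (fun y => C y *ᵥ b y) U := VC_mulVec L.cC (L.cdφ hφ Complex.I)
  have c1 := VC_lin cCa cCb (1 / 2 : ℂ) (-(1 / 2) * Complex.I)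
  have c2 := VC_lin cCa cCb (1 / 2 : ℂ) ((1 / 2) * Complex.I)
  have e1 : lV V.P (fun x => weil w (V.E x) *ᵥ V.d1 φ x) z =ᶠ[𝓝 x]
      fun y => (1 / 2 : ℂ) • (C y *ᵥ a y) + (-(1 / 2) * Complex.I) • (C y *ᵥ b y) := by
    filter_upwards [L.op.mem_nhds hx] with y hy using hψ1 y hy
  have e2 : lV V.P (fun x => weil w (V.E x) *ᵥ V.d2 φ x) z =ᶠ[𝓝 x]
      fun y => (1 / 2 : ℂ) • (C y *ᵥ a y) + ((1 / 2) * Complex.I) • (C y *ᵥ b y) := by
    filter_upwards [L.op.mem_nhds hx] with y hy using hψ2 y hy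
  have hd1 := diffAt_of_VC L.op c1 hx
  have hd2 := diffAt_of_VC L.op c2 hx
  have k1 := L.d2_eq hx (hd1.congr_of_eventuallyEq e1)
  have k2 := L.d1_eq hx (hd2.congr_of_eventuallyEq e2)
  have key : wb (lV V.P (fun x => weil w (V.E x) *ᵥ V.d1 φ x) z) x +
      wz (lV V.P (fun x => weil w (V.E x) *ᵥ V.d2 φ x) z) x = 0 := by
    rw [k1, k2, hharm x (L.sub x hx), Matrix.mulVec_neg, neg_add_cancel]
  rw [wb_congr e1, wz_congr e2, wb_eq hd1, wz_eq hd2, dV_lin L.op cCa cCb _ _ hx,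
    dV_lin L.op cCa cCb _ _ hx, dV_lin L.op cCa cCb _ _ hx, dV_lin L.op cCa cCb _ _ hx] at key
  have key2 : dV (fun y => C y *ᵥ a y) x 1 + dV (fun y => C y *ᵥ b y) x Complex.I = 0 := by
    have h3 : ∀ p q r s : Fin N → ℂ,
        (1 / 2 : ℂ) • ((1 / 2 : ℂ) • p + (-(1 / 2) * Complex.I) • q +
          Complex.I • ((1 / 2 : ℂ) • r + (-(1 / 2) * Complex.I) • s)) +
        (1 / 2 : ℂ) • ((1 / 2 : ℂ) • p + ((1 / 2) * Complex.I) • q -
          Complex.I • ((1 / 2 : ℂ) • r + ((1 / 2) * Complex.I) • s)) = (1 / 2 : ℂ) • (p + s) := by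
      intro p q r s
      ext i
      simp only [Pi.add_apply, Pi.sub_apply, Pi.smul_apply, smul_eq_mul]
      linear_combination (-(1 / 2) * s i) * Complex.I_mul_I
    rw [h3] at key
    exact (smul_eq_zero.1 key).resolve_left (by norm_num)
  have hHa : ∀ y ∈ U, fH V z y *ᵥ a y = V.S z *ᵥ (C y *ᵥ a y) := by
    intro y _
    rw [Matrix.mulVec_mulVec]
    rfl
  have hHb : ∀ y ∈ U, fH V z y *ᵥ b y = V.S z *ᵥ (C y *ᵥ b y) := by
    intro y _
    rw [Matrix.mulVec_mulVec]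
    rfl
  show dV (fun y => fH V z y *ᵥ a y) x 1 + dV (fun y => fH V z y *ᵥ b y) x Complex.I = 0
  rw [dV_congr L.op hHa hx, dV_congr L.op hHb hx, dV_mul_const L.op cCa _ hx,
    dV_mul_const L.op cCb _ hx, ← Matrix.mulVec_add, key2, Matrix.mulVec_zero]

theorem planeData {φ : ℂ → Fin N → ℂ} (hφ : V.Sm φ)
    (hharm : ∀ z ∉ A, V.d2 (fun x => weil w (V.E x) *ᵥ V.d1 φ x) z =
      - V.d1 (fun x => weil w (V.E x) *ᵥ V.d2 φ x) z) :
    PlaneData (fH V z) (lV V.P φ z) U where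
  op := L.op
  cH := L.cH
  cφ := L.cφ hφ
  pos := fun _ hx => L.pos hx
  harm := fun _ hx => L.harm hx
  eqn := fun _ hx => L.eqn hφ hharm hx

end Loc

end loc2

/-! ### global scalars -/

section glob

variable {A : Finset ℂ} {N w : ℕ} (V : PVHS A N w) (φ : ℂ → Fin N → ℂ)

def gA (z : ℂ) : ℝ := pA (fH V z) (lV V.P φ z) z
def gF (z : ℂ) : ℂ →L[ℝ] ℝ := pF (fH V z) (lV V.P φ z) z
def gG (z : ℂ) : ℂ →L[ℝ] ℝ := pG (fH V z) (lV V.P φ z) z
def gE (z : ℂ) : ℝ := pE (fH V z) (lV V.P φ z) z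
def gX (z : ℂ) : ℝ := pX (fH V z) (lV V.P φ z) z
def gY (z : ℂ) : ℝ := pY (fH V z) (lV V.P φ z) z

variable {V φ}

lemma Loc.fr {z : ℂ} {U : Set ℂ} (L : Loc V z U) (hφ : V.Sm φ) {y : ℂ} (hy : y ∈ U) :
    Fr U (cm (V.P z y)) (cm (V.P z y)⁻¹) (fH V z) (fH V y) (lV V.P φ z) (lV V.P φ y) where
  op := L.op
  gg := cm_mul_cm_inv _
  cH := L.cH
  cφ := L.cφ hφ
  hH := fun _ hx => L.fH_change hy hx
  hφ := fun _ hx => L.lV_change' φ hy hx

variable {z : ℂ} {U : Set ℂ} (L : Loc V z U) (hφ : V.Sm φ)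
include L hφ

lemma gA_eq {y : ℂ} (hy : y ∈ U) : gA V φ y = pA (fH V z) (lV V.P φ z) y := (L.fr hφ hy).pA_eq hy
lemma gF_eq {y : ℂ} (hy : y ∈ U) : gF V φ y = pF (fH V z) (lV V.P φ z) y := (L.fr hφ hy).pF_eq hy
lemma gG_eq {y : ℂ} (hy : y ∈ U) : gG V φ y = pG (fH V z) (lV V.P φ z) y := (L.fr hφ hy).pG_eq hy
lemma gX_eq {y : ℂ} (hy : y ∈ U) : gX V φ y = pX (fH V z) (lV V.P φ z) y := (L.fr hφ hy).pX_eq hy
lemma gY_eq {y : ℂ} (hy : y ∈ U) : gY V φ y = pY (fH V z) (lV V.P φ z) y := (L.fr hφ hy).pY_eq hy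

end glob

section plane

variable {A : Finset ℂ} {N w : ℕ} {V : PVHS A N w} {φ : ℂ → Fin N → ℂ}

/-- the plane data of an exact harmonic form -/
theorem plane (hφ : V.Sm φ)
    (hharm : ∀ z ∉ A, V.d2 (fun x => weil w (V.E x) *ᵥ V.d1 φ x) z =
      - V.d1 (fun x => weil w (V.E x) *ᵥ V.d2 φ x) z) :
    IpcE2_827.Plane (↑A : Set ℂ)ᶜ (gA V φ) (gE V φ) (gY V φ) (gX V φ) (gF V φ) (gG V φ) := by
  have hloc : ∀ z ∈ (↑A : Set ℂ)ᶜ, ∃ U, Loc V z U := fun z hz => exists_loc V (by simpa using hz)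
  refine ⟨?_, ?_, ?_, ?_, ?_, ?_, ?_, ?_, ?_, ?_, ?_, ?_, ?_⟩
  · intro z hz
    obtain ⟨U, L⟩ := hloc z hz
    have D := L.planeData hφ hharm
    have h1 : gA V φ =ᶠ[𝓝 z] pA (fH V z) (lV V.P φ z) := by
      filter_upwards [L.op.mem_nhds L.mem] with y hy using gA_eq L hφ hy
    have h2 := D.fderiv_A L.mem
    have h3 : DifferentiableAt ℝ (pA (fH V z) (lV V.P φ z)) z :=
      (D.contDiffOn_A.contDiffAt (L.op.mem_nhds L.mem)).differentiableAt two_ne_zero
    have h4 := h3.hasFDerivAt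
    rw [h2] at h4
    exact h4.congr_of_eventuallyEq h1
  · intro z hz
    obtain ⟨U, L⟩ := hloc z hz
    have D := L.planeData hφ hharm
    have h1 : gF V φ =ᶠ[𝓝 z] pF (fH V z) (lV V.P φ z) := by
      filter_upwards [L.op.mem_nhds L.mem] with y hy using gF_eq L hφ hy
    exact ((D.contDiffOn_F.contDiffAt (L.op.mem_nhds L.mem)).congr_of_eventuallyEq
      h1).contDiffWithinAt
  · intro z hz
    obtain ⟨U, L⟩ := hloc z hz
    have D := L.planeData hφ hharm
    have h1 : gG V φ =ᶠ[𝓝 z] pG (fH V z) (lV V.P φ z) := by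
      filter_upwards [L.op.mem_nhds L.mem] with y hy using gG_eq L hφ hy
    exact ((D.contDiffOn_G.contDiffAt (L.op.mem_nhds L.mem)).congr_of_eventuallyEq
      h1).contDiffWithinAt
  · intro z hz
    obtain ⟨U, L⟩ := hloc z hz
    have D := L.planeData hφ hharm
    have h1 : gY V φ =ᶠ[𝓝 z] pY (fH V z) (lV V.P φ z) := by
      filter_upwards [L.op.mem_nhds L.mem] with y hy using gY_eq L hφ hy
    exact ((D.continuousOn_Y.continuousAt (L.op.mem_nhds L.mem)).congr h1.symm).continuousWithinAt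
  · intro z hz
    obtain ⟨U, L⟩ := hloc z hz
    have D := L.planeData hφ hharm
    have h1 : gX V φ =ᶠ[𝓝 z] pX (fH V z) (lV V.P φ z) := by
      filter_upwards [L.op.mem_nhds L.mem] with y hy using gX_eq L hφ hy
    exact ((D.contDiffOn_X.continuousOn.continuousAt (L.op.mem_nhds L.mem)).congr
      h1.symm).continuousWithinAt
  · intro z hz
    obtain ⟨U, L⟩ := hloc z hz
    have D := L.planeData hφ hharm
    have h1 : gF V φ =ᶠ[𝓝 z] pF (fH V z) (lV V.P φ z) := by
      filter_upwards [L.op.mem_nhds L.mem] with y hy using gF_eq L hφ hy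
    have h2 := D.div_F L.mem
    have h3 : IpcE2_827.dv (gF V φ) z = div (pF (fH V z) (lV V.P φ z)) z := by
      rw [IpcE2_827.dv, div, h1.fderiv_eq]
    rw [h3, h2]
    rfl
  · intro z hz
    obtain ⟨U, L⟩ := hloc z hz
    have D := L.planeData hφ hharm
    have h1 : gG V φ =ᶠ[𝓝 z] pG (fH V z) (lV V.P φ z) := by
      filter_upwards [L.op.mem_nhds L.mem] with y hy using gG_eq L hφ hy
    have h2 := D.div_G L.mem
    have h3 : IpcE2_827.dv (gG V φ) z = div (pG (fH V z) (lV V.P φ z)) z := by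
      rw [IpcE2_827.dv, div, h1.fderiv_eq]
    rw [h3, h2]
    rfl
  · intro z hz
    obtain ⟨U, L⟩ := hloc z hz
    exact (L.planeData hφ hharm).A_nonneg L.mem
  · intro z hz
    obtain ⟨U, L⟩ := hloc z hz
    exact (L.planeData hφ hharm).E_nonneg L.mem
  · intro z hz
    obtain ⟨U, L⟩ := hloc z hz
    exact (L.planeData hφ hharm).Y_nonneg L.mem
  · intro z hz v
    obtain ⟨U, L⟩ := hloc z hz
    refine ((L.planeData hφ hharm).F_sq L.mem v).trans (le_of_eq ?_)
    simp only [gA, gE]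
    ring
  · intro z hz v
    obtain ⟨U, L⟩ := hloc z hz
    refine ((L.planeData hφ hharm).G_sq L.mem v).trans (le_of_eq ?_)
    simp only [gA, gY]
    ring
  · intro z hz
    obtain ⟨U, L⟩ := hloc z hz
    exact (L.planeData hφ hharm).X_sq L.mem

lemma fH_self {z : ℂ} (hz : z ∉ A) : fH V z z = V.H z := by
  have h : z ∈ (↑A : Set ℂ)ᶜ := by simpa using hz
  rw [fH, lM_self V.ndc _ h, PVHS.H]

/-- `|D φ|² = 2 |∂φ|² + 2 |∂̄φ|²` -/
lemma gE_nsq (hφ : V.Sm φ) {z : ℂ} (hz : z ∉ A) :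
    gE V φ z = 2 * V.nsq (V.d1 φ) z + 2 * V.nsq (V.d2 φ) z := by
  have hd : DifferentiableAt ℝ (lV V.P φ z) z := (hφ z hz).differentiableAt (by simp)
  have h1 : dV (lV V.P φ z) z 1 = V.d1 φ z + V.d2 φ z := by
    rw [PVHS.d1, PVHS.d2, wz_eq hd, wb_eq hd]
    module
  have h2 : dV (lV V.P φ z) z Complex.I = Complex.I • (V.d1 φ z - V.d2 φ z) := by
    rw [PVHS.d1, PVHS.d2, wz_eq hd, wb_eq hd]
    ext i
    simp only [Pi.add_apply, Pi.sub_apply, Pi.smul_apply, smul_eq_mul]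
    linear_combination (dV (lV V.P φ z) z Complex.I i) * Complex.I_mul_I
  have hH : (V.H z).IsHermitian := (V.hs z hz).hodge_isHermitian
  rw [gE, pE, pe, pe, h1, h2, fH_self hz]
  set a := V.d1 φ z with ha
  set b := V.d2 φ z with hb
  have e1 : S (V.H z) (Complex.I • (a - b)) (Complex.I • (a - b)) = S (V.H z) (a - b) (a - b) := by
    rw [Cyl_593.S_smul_left, Cyl_593.S_smul_right, ← mul_assoc]
    have : star Complex.I * Complex.I = 1 := by
      rw [Complex.star_def, Complex.conj_I, neg_mul, Complex.I_mul_I, neg_neg]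
    rw [this, one_mul]
  have e2 : S (V.H z) (a + b) (a + b) = S (V.H z) a a + S (V.H z) b b +
      (S (V.H z) a b + S (V.H z) b a) := by
    rw [Cyl_593.S_add_left, Cyl_593.S_add_right, Cyl_593.S_add_right]
    ring
  have e3 : S (V.H z) (a - b) (a - b) = S (V.H z) a a + S (V.H z) b b -
      (S (V.H z) a b + S (V.H z) b a) := by
    have h5 : a - b = a + (-1 : ℂ) • b := by rw [neg_one_smul, sub_eq_add_neg]
    rw [h5, Cyl_593.S_add_left, Cyl_593.S_add_right, Cyl_593.S_add_right, Cyl_593.S_smul_right,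
      Cyl_593.S_smul_left, Cyl_593.S_smul_left, Cyl_593.S_smul_right]
    simp
    ring
  rw [e1, e2, e3]
  simp only [Complex.add_re, Complex.sub_re]
  have e4 : (S (V.H z) a a).re = V.nsq (V.d1 φ) z := rfl
  have e5 : (S (V.H z) b b).re = V.nsq (V.d2 φ) z := rfl
  rw [e4, e5]
  ring

end plane

/-! ### the Higgs field -/

section higgs

variable {A : Finset ℂ} {N w : ℕ}

/-- `|θ|²` at `z` for the Hodge metric and the coordinate of `ℂ` -/
def gv (V : PVHS A N w) (z : ℂ) : ℝ := EndTh_659.gg w (fP V z) 1 z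

variable {V : PVHS A N w} {φ : ℂ → Fin N → ℂ}

lemma quarter {κ : Type*} [Fintype κ] [DecidableEq κ] {K M T : Matrix κ κ ℂ} (hK : K.PosDef)
    (hM : M.IsHermitian) {c : ℂ} (hc : star c * c = 4) (h : M = c • (K * T)) (u : κ → ℂ) :
    1 / 4 * (S (M * K⁻¹ * M) u u).re = EndTh_659.nq K (T *ᵥ u) := by
  have hdet : IsUnit K.det := (Matrix.isUnit_iff_isUnit_det _).1 hK.isUnit
  have e1 : S (M * K⁻¹ * M) u u = S K⁻¹ (M *ᵥ u) (M *ᵥ u) := by
    rw [Cyl_593.S_mulVec_left, hM.eq, ← Cyl_593.S_mul]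
  have e2 : M *ᵥ u = c • (K *ᵥ (T *ᵥ u)) := by
    rw [h, Matrix.smul_mulVec, Matrix.mulVec_mulVec]
  have e3 : S K⁻¹ (K *ᵥ (T *ᵥ u)) (K *ᵥ (T *ᵥ u)) = S K (T *ᵥ u) (T *ᵥ u) := by
    rw [Cyl_593.S_mulVec_left, hK.isHermitian.eq, Matrix.mul_nonsing_inv _ hdet]
    simp [Cyl_593.S]
  rw [e1, e2, Cyl_593.S_smul_left, Cyl_593.S_smul_right, ← mul_assoc, hc, e3]
  have e4 : EndTh_659.nq K (T *ᵥ u) = (S K (T *ᵥ u) (T *ᵥ u)).re := rfl
  rw [e4]
  simp

lemma nq_para {κ : Type*} [Fintype κ] [DecidableEq κ] (K : Matrix κ κ ℂ) (a b : κ → ℂ) :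
    EndTh_659.nq K (a + b) + EndTh_659.nq K (a - b) =
      2 * EndTh_659.nq K a + 2 * EndTh_659.nq K b := by
  have e : ∀ v, EndTh_659.nq K v = (S K v v).re := fun _ => rfl
  have e2 : S K (a + b) (a + b) = S K a a + S K b b + (S K a b + S K b a) := by
    rw [Cyl_593.S_add_left, Cyl_593.S_add_right, Cyl_593.S_add_right]
    ring
  have e3 : S K (a - b) (a - b) = S K a a + S K b b - (S K a b + S K b a) := by
    have h5 : a - b = a + (-1 : ℂ) • b := by rw [neg_one_smul, sub_eq_add_neg]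
    rw [h5, Cyl_593.S_add_left, Cyl_593.S_add_right, Cyl_593.S_add_right, Cyl_593.S_smul_right,
      Cyl_593.S_smul_left, Cyl_593.S_smul_left, Cyl_593.S_smul_right]
    simp
    ring
  rw [e, e, e, e, e2, e3]
  simp only [Complex.add_re, Complex.sub_re]
  ring

/-- `|Θ φ|² ≤ 4 |θ|² |φ|²` -/
theorem gY_le (hφ : V.Sm φ)
    (hharm : ∀ z ∉ A, V.d2 (fun x => weil w (V.E x) *ᵥ V.d1 φ x) z =
      - V.d1 (fun x => weil w (V.E x) *ᵥ V.d2 φ x) z) {z : ℂ} (hz : z ∉ A) :
    gY V φ z ≤ 4 * gv V z * gA V φ z := by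
  obtain ⟨U, L⟩ := exists_loc V hz
  have D := L.planeData hφ hharm
  have hK := L.pos L.mem
  have h1 := quarter hK (D.herm L.mem 1) (by norm_num) (L.dM_H_one L.mem) (lV V.P φ z z)
  have h2 := quarter hK (D.herm L.mem Complex.I) (by
    simp only [star_neg, star_mul', Complex.star_def, Complex.conj_I, Complex.conj_ofNat]
    linear_combination (-4 : ℂ) * Complex.I_mul_I) (L.dM_H_I L.mem) (lV V.P φ z z)
  have h3 := EndTh_659.nq_th_le L.vhs L.mem 1 (lV V.P φ z z)
  have h4 := EndTh_659.nq_thb_le L.vhs L.mem 1 (lV V.P φ z z)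
  rw [hm_fP] at h3 h4
  have h5 := nq_para (fH V z z) (VCalc_442.th w (fP V z) 1 z *ᵥ lV V.P φ z z)
    (VCalc_442.thb w (fP V z) 1 z *ᵥ lV V.P φ z z)
  rw [Matrix.add_mulVec] at h1
  rw [Matrix.sub_mulVec] at h2
  have h6 : gY V φ z = PlaneData.py (fH V z) (lV V.P φ z) 1 z +
      PlaneData.py (fH V z) (lV V.P φ z) Complex.I z := D.Y_eq L.mem
  have h7 : gA V φ z = EndTh_659.nq (fH V z z) (lV V.P φ z z) := rfl
  rw [h6, PlaneData.py, PlaneData.py, h1, h2, h5, h7, gv]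
  linarith

lemma mW_eq_half (H : ℂ → Matrix (Fin N) (Fin N) ℂ) (x : ℂ) :
    VCalc_442.mW H 1 x = (1 / 2 : ℂ) • (dM H x 1 - Complex.I • dM H x Complex.I) := by
  rw [dM_one, dM_I, smul_smul, Complex.I_mul_I]
  module

lemma mB_eq_half (H : ℂ → Matrix (Fin N) (Fin N) ℂ) (x : ℂ) :
    VCalc_442.mB H 1 x = (1 / 2 : ℂ) • (dM H x 1 + Complex.I • dM H x Complex.I) := by
  rw [dM_one, dM_I, smul_smul, Complex.I_mul_I]
  module

/-- `|θ|²` does not depend on the frame -/
theorem Loc.gv_eq {z : ℂ} {U : Set ℂ} (L : Loc V z U) {y : ℂ} (hy : y ∈ U) :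
    gv V y = EndTh_659.gg w (fP V z) 1 y := by
  obtain ⟨U', L'⟩ := exists_loc V (L.sub y hy)
  have hc : MC 1 (lM V.P V.E z) U := fun i j => (L.cE i j).of_le (by norm_num)
  have hd : ∀ v, dM (lM V.P V.E y) y v =
      cm (V.P z y)⁻¹ * dM (lM V.P V.E z) y v * cm (V.P z y) := by
    intro v
    rw [dM_congr L.op (fun x hx => L.fE_change' hy hx) hy, dM_conj L.op hc _ _ hy]
  unfold gv EndTh_659.gg
  rw [L'.th_fP L'.mem, L'.thb_fP L'.mem, L.th_fP hy, L.thb_fP hy, mW_eq_half, mB_eq_half,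
    mW_eq_half, mB_eq_half, hd, hd]
  set g := cm (V.P z y)
  set g' := cm (V.P z y)⁻¹
  have hgg : g * g' = 1 := cm_mul_cm_inv _
  set a := dM (lM V.P V.E z) y 1
  set b := dM (lM V.P V.E z) y Complex.I
  have e1 : (1 / 2 : ℂ) • (g' * a * g - Complex.I • (g' * b * g)) =
      g' * ((1 / 2 : ℂ) • (a - Complex.I • b)) * g := by
    rw [Matrix.mul_smul, Matrix.smul_mul, Matrix.mul_sub, Matrix.sub_mul, Matrix.mul_smul,
      Matrix.smul_mul]
  have e2 : -((1 / 2 : ℂ) • (g' * a * g + Complex.I • (g' * b * g))) =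
      g' * (-((1 / 2 : ℂ) • (a + Complex.I • b))) * g := by
    rw [Matrix.mul_neg, Matrix.neg_mul, Matrix.mul_smul, Matrix.smul_mul, Matrix.mul_add,
      Matrix.add_mul, Matrix.mul_smul, Matrix.smul_mul]
  rw [e1, e2]
  congr 1
  set p := (1 / 2 : ℂ) • (a - Complex.I • b)
  set q := -((1 / 2 : ℂ) • (a + Complex.I • b))
  have e3 : g' * p * g * (g' * q * g) = g' * (p * q) * g := by
    calc g' * p * g * (g' * q * g) = g' * p * (g * g') * q * g := by noncomm_ring
      _ = _ := by rw [hgg]; noncomm_ring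
  rw [e3, Matrix.trace_mul_cycle, hgg, Matrix.one_mul]

lemma gg_smul (P : ℕ → ℂ → Matrix (Fin N) (Fin N) ℂ) (c x : ℂ) :
    EndTh_659.gg w P c x = ‖c‖ ^ 2 * EndTh_659.gg w P 1 x := by
  have h1 : VCalc_442.th w P c x = c • VCalc_442.th w P 1 x := by
    have := mW_smul (VCalc_442.grOp w P) x 1 c
    rwa [mul_one] at this
  have h2 : VCalc_442.thb w P c x = (starRingEnd ℂ c) • VCalc_442.thb w P 1 x := by
    have := mB_smul (VCalc_442.grOp w P) x 1 c
    rw [mul_one] at this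
    unfold VCalc_442.thb
    rw [this, smul_neg]
  unfold EndTh_659.gg
  rw [h1, h2, Matrix.smul_mul, Matrix.mul_smul, smul_smul, Complex.mul_conj,
    Complex.normSq_eq_norm_sq, Matrix.trace_smul, smul_eq_mul, Complex.re_ofReal_mul]

/-- **Ahlfors-Schwarz along a holomorphic map** into the punctured plane -/
theorem ahl_map (V : PVHS A N w) {W : Set ℂ} (hW : IsOpen W) {f : ℂ → ℂ}
    (hf : ContDiffOn ℂ ∞ f W) (hm : ∀ u ∈ W, f u ∉ A) :
    (∀ u ∈ W, ContDiffAt ℝ 2 (fun u => ‖deriv f u‖ ^ 2 * gv V (f u)) u) ∧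
    (∀ u ∈ W, 0 ≤ ‖deriv f u‖ ^ 2 * gv V (f u)) ∧
    Ahl_25.Neg (Classical.choose (EndTh_659.neg (Fin N)))
      (fun u => ‖deriv f u‖ ^ 2 * gv V (f u)) W := by
  obtain ⟨hc, hneg⟩ := Classical.choose_spec (EndTh_659.neg (Fin N))
  have key : ∀ u0 ∈ W, ∃ (W' : Set ℂ) (S' : Matrix (Fin N) (Fin N) ℂ)
      (P' : ℕ → ℂ → Matrix (Fin N) (Fin N) ℂ), u0 ∈ W' ∧ VCalc_442.VHS w W' S' P' ∧
      ∀ u ∈ W', ‖deriv f u‖ ^ 2 * gv V (f u) = EndTh_659.gg w P' 1 u := by
    intro u0 hu0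
    obtain ⟨U, L⟩ := exists_loc V (hm u0 hu0)
    have hWo : IsOpen (W ∩ f ⁻¹' U) := hf.continuousOn.isOpen_inter_preimage hW L.op
    refine ⟨W ∩ f ⁻¹' U, V.S (f u0), fun p y => fP V (f u0) p (f y), ⟨hu0, L.mem⟩, ?_, ?_⟩
    · exact EndTh_659.pull L.vhs hWo (hf.mono inter_subset_left) (fun y hy => hy.2)
    · intro u hu
      have hd : DifferentiableAt ℂ f u :=
        ((hf.contDiffAt (hW.mem_nhds hu.1))).differentiableAt (by simp)
      rw [EndTh_659.gg_pull L.vhs hu.2 hd, L.gv_eq hu.2]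
      have h1 : fderiv ℂ f u 1 = deriv f u := rfl
      rw [h1, gg_smul _ (deriv f u)]
  refine ⟨fun u0 hu0 => ?_, fun u0 hu0 => ?_, fun u0 hu0 hne => ?_⟩
  · obtain ⟨W', S', P', h1, h2, h3⟩ := key u0 hu0
    have h4 : ContDiffAt ℝ 2 (fun x => EndTh_659.gg w P' 1 x) u0 :=
      ((EndTh_659.sm_gg h2 1).contDiffAt (h2.op.mem_nhds h1)).of_le ENat.LEInfty.out
    refine h4.congr_of_eventuallyEq ?_
    filter_upwards [h2.op.mem_nhds h1] with u hu using h3 u hu
  · obtain ⟨W', S', P', h1, h2, h3⟩ := key u0 hu0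
    rw [h3 u0 h1]
    exact EndTh_659.gg_nonneg h2 h1 1
  · obtain ⟨W', S', P', h1, h2, h3⟩ := key u0 hu0
    have hne' : EndTh_659.gg w P' 1 u0 ≠ 0 := by
      rw [← h3 u0 h1]
      exact hne
    have h5 := hneg w W' S' P' h2 u0 h1 hne'
    have h7 : (fun u => ‖deriv f u‖ ^ 2 * gv V (f u)) u0 = EndTh_659.gg w P' 1 u0 := h3 u0 h1
    rw [h7]
    refine h5.trans (le_of_eq ?_)
    have h6 : (fun u => Real.log (EndTh_659.gg w P' 1 u)) =ᶠ[𝓝 u0]
        fun u => Real.log (‖deriv f u‖ ^ 2 * gv V (f u)) := by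
      filter_upwards [h2.op.mem_nhds h1] with u hu
      rw [h3 u hu]
    exact (InnerProductSpace.laplacian_congr_nhds h6).self_of_nhds

lemma isOpen_pball (R : ℝ) : IsOpen (Metric.ball (0 : ℂ) R \ {0}) :=
  Metric.isOpen_ball.sdiff isClosed_singleton

/-- the punctured disc version -/
theorem ahl_punct (V : PVHS A N w) {R : ℝ} (hR : 0 < R) {f : ℂ → ℂ}
    (hf : ContDiffOn ℂ ∞ f (Metric.ball (0 : ℂ) R \ {0}))
    (hm : ∀ u ∈ Metric.ball (0 : ℂ) R \ {0}, f u ∉ A) :
    ∃ C r : ℝ, 0 < C ∧ 0 < r ∧ ∀ t : ℂ, t ≠ 0 → ‖t‖ < r →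
      ‖deriv f t‖ ^ 2 * gv V (f t) ≤ (C / (‖t‖ * Real.log ‖t‖)) ^ 2 := by
  obtain ⟨h1, h2, h3⟩ := ahl_map V (isOpen_pball R) hf hm
  obtain ⟨hc, -⟩ := Classical.choose_spec (EndTh_659.neg (Fin N))
  set c := Classical.choose (EndTh_659.neg (Fin N)) with hcdef
  refine ⟨√(32 / c), min R (min (R ^ 2) 1), by positivity, by positivity, fun t ht htr => ?_⟩
  have htR : ‖t‖ < R := htr.trans_le (min_le_left _ _)
  have htR2 : ‖t‖ < R ^ 2 := htr.trans_le ((min_le_right _ _).trans (min_le_left _ _))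
  have ht1 : ‖t‖ < 1 := htr.trans_le ((min_le_right _ _).trans (min_le_right _ _))
  have ht0 : 0 < ‖t‖ := norm_pos_iff.2 ht
  have hmem : t ∈ Metric.ball (0 : ℂ) R \ {0} := ⟨mem_ball_zero_iff.2 htR, by simpa using ht⟩
  have h4 := Ahl_25.ahlfors_punctured hc hR h1 h2 h3 hmem
  refine h4.trans ?_
  have hlog : Real.log ‖t‖ < 0 := Real.log_neg ht0 ht1
  have hlR : Real.log ‖t‖ ≤ 2 * Real.log R := by
    have := Real.log_le_log ht0 htR2.le
    rwa [Real.log_pow] at this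
  have h5 : Real.log (R / ‖t‖) = Real.log R - Real.log ‖t‖ := Real.log_div hR.ne' ht0.ne'
  have h6 : -(1 / 2) * Real.log ‖t‖ ≤ Real.log (R / ‖t‖) := by rw [h5]; linarith
  have h7 : 0 < -(1 / 2) * Real.log ‖t‖ := by linarith
  have h8 : (1 / 4) * (Real.log ‖t‖) ^ 2 ≤ (Real.log (R / ‖t‖)) ^ 2 := by
    have := pow_le_pow_left₀ h7.le h6 2
    refine le_trans (le_of_eq ?_) this
    ring
  rw [div_pow, Real.sq_sqrt (by positivity), mul_pow, div_div]
  have h9 : 0 < (Real.log ‖t‖) ^ 2 := by nlinarith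
  have h11 : 0 < (Real.log (R / ‖t‖)) ^ 2 := lt_of_lt_of_le (by positivity) h8
  rw [div_le_div_iff₀ (by positivity) (by positivity)]
  have h10 : c * ‖t‖ ^ 2 * ((1 / 4) * (Real.log ‖t‖) ^ 2) ≤
      c * ‖t‖ ^ 2 * (Real.log (R / ‖t‖)) ^ 2 := mul_le_mul_of_nonneg_left h8 (by positivity)
  nlinarith

/-- `|θ|² ≤ (C / (|z - b| log |z - b|))²` near a puncture (or a regular point) `b` -/
theorem gv_le_punct (V : PVHS A N w) (b : ℂ) : ∃ C r : ℝ, 0 < C ∧ 0 < r ∧ ∀ z, z ≠ b → ‖z - b‖ < r →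
    gv V z ≤ (C / (‖z - b‖ * Real.log ‖z - b‖)) ^ 2 := by
  obtain ⟨R, hR, hRA⟩ : ∃ R : ℝ, 0 < R ∧ ∀ z, z ≠ b → ‖z - b‖ < R → z ∉ A := by
    have h1 : IsOpen ((↑(A.erase b) : Set ℂ)ᶜ) := (A.erase b).finite_toSet.isClosed.isOpen_compl
    have h2 : b ∈ ((↑(A.erase b) : Set ℂ)ᶜ) := by simp
    obtain ⟨R, hR, h3⟩ := Metric.isOpen_iff.1 h1 b h2
    refine ⟨R, hR, fun z hz hzR hzA => ?_⟩
    have h4 := h3 (mem_ball_iff_norm.2 hzR)
    simp [hz, hzA] at h4
  obtain ⟨C, r, hC, hr, h⟩ := ahl_punct V hR (f := fun t => b + t)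
    (contDiff_const.add contDiff_id).contDiffOn (fun u hu => by
      refine hRA _ ?_ ?_
      · simpa using hu.2
      · simpa using hu.1)
  refine ⟨C, r, hC, hr, fun z hz hzr => ?_⟩
  have h1 := h (z - b) (sub_ne_zero.2 hz) hzr
  have h2 : deriv (fun t : ℂ => b + t) (z - b) = 1 := by
    simp
  rw [h2, norm_one, one_pow, one_mul] at h1
  simpa using h1

/-- `|θ|² ≤ (C / (|z| log |z|))²` near infinity -/
theorem gv_le_inf (V : PVHS A N w) : ∃ C R : ℝ, 0 < C ∧ 1 < R ∧ ∀ z, R < ‖z‖ →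
    gv V z ≤ (C / (‖z‖ * Real.log ‖z‖)) ^ 2 := by
  obtain ⟨R, hR, hRA⟩ : ∃ R : ℝ, 0 < R ∧ ∀ z ∈ A, ‖z‖ ≤ R := by
    obtain ⟨R, hR⟩ := A.finite_toSet.isBounded.exists_norm_le
    exact ⟨max R 1, by positivity, fun z hz => (hR z hz).trans (le_max_left _ _)⟩
  obtain ⟨C, r, hC, hr, h⟩ := ahl_punct V (R := R⁻¹) (by positivity) (f := fun t => t⁻¹)
    (fun t ht => by
      have ht0 : t ≠ 0 := by simpa using ht.2
      exact ((contDiffAt_inv ℂ ht0).contDiffWithinAt)) (fun u hu hA => by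
      have hu0 : u ≠ 0 := by simpa using hu.2
      have h1 : ‖u‖ < R⁻¹ := by simpa using hu.1
      have h2 := hRA _ hA
      rw [norm_inv] at h2
      have h3 : 0 < ‖u‖ := norm_pos_iff.2 hu0
      have h4 : R < ‖u‖⁻¹ := by
        rw [lt_inv_comm₀ hR h3]
        exact h1
      linarith)
  refine ⟨C, max r⁻¹ 2, hC, by
    have := le_max_right r⁻¹ 2
    linarith, fun z hz => ?_⟩
  have hz2 : 2 < ‖z‖ := (le_max_right _ _).trans_lt hz
  have hzr : r⁻¹ < ‖z‖ := (le_max_left _ _).trans_lt hz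
  have hz0 : 0 < ‖z‖ := by linarith
  have hzne : z ≠ 0 := norm_pos_iff.1 hz0
  have h1 := h z⁻¹ (inv_ne_zero hzne) (by
    rw [norm_inv]
    exact inv_lt_of_inv_lt₀ hr hzr)
  rw [inv_inv, deriv_inv, norm_inv, Real.log_inv] at h1
  have h2 : ‖-((z⁻¹) ^ 2)⁻¹‖ ^ 2 = ‖z‖ ^ 4 := by
    rw [norm_neg, norm_inv, norm_pow, norm_inv]
    field_simp
  rw [h2] at h1
  have hlog : 0 < Real.log ‖z‖ := Real.log_pos (by linarith)
  have h3 : (C / (‖z‖⁻¹ * -Real.log ‖z‖)) ^ 2 = ‖z‖ ^ 4 * (C / (‖z‖ * Real.log ‖z‖)) ^ 2 := by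
    field_simp
  rw [h3] at h1
  exact le_of_mul_le_mul_left h1 (by positivity)

/-- **No exact harmonic forms.**  A square integrable exact harmonic one-form `Dφ` vanishes. -/
theorem no_exact (V : PVHS A N w) {φ : ℂ → Fin N → ℂ} (hφ : V.Sm φ)
    (hharm : ∀ z ∉ A, V.d2 (fun x => weil w (V.E x) *ᵥ V.d1 φ x) z =
      - V.d1 (fun x => weil w (V.E x) *ᵥ V.d2 φ x) z)
    (h1 : IntegrableOn (V.nsq (V.d1 φ)) ((A : Set ℂ)ᶜ))
    (h2 : IntegrableOn (V.nsq (V.d2 φ)) ((A : Set ℂ)ᶜ)) :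
    ∀ z ∉ A, V.d1 φ z = 0 ∧ V.d2 φ z = 0 := by
  have hP := plane hφ hharm
  have hU : IsOpen (↑A : Set ℂ)ᶜ := A.finite_toSet.isClosed.isOpen_compl
  have hint : IntegrableOn (gE V φ) (↑A : Set ℂ)ᶜ := by
    refine ((h1.const_mul 2).add (h2.const_mul 2)).congr ?_
    rw [EventuallyEq, ae_restrict_iff' hU.measurableSet]
    refine Eventually.of_forall fun z hz => ?_
    exact (gE_nsq hφ (by simpa using hz)).symm
  have hA0 : ∀ z ∉ A, 0 ≤ gA V φ z := fun z hz => hP.A0 z (by simpa using hz)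
  have hE := IpcE3_827.eq_zero A hP hint (fun b _ => ?_) ?_
  · intro z hz
    have h3 := hE z hz
    rw [gE_nsq hφ hz] at h3
    have h4 : 0 ≤ V.nsq (V.d1 φ) z := (V.hs z hz).hodge_nonneg _
    have h5 : 0 ≤ V.nsq (V.d2 φ) z := (V.hs z hz).hodge_nonneg _
    have h6 : V.nsq (V.d1 φ) z = 0 := by linarith
    have h7 : V.nsq (V.d2 φ) z = 0 := by linarith
    constructor
    · by_contra hne
      exact absurd h6 ((V.hs z hz).hodge_pos hne).ne'
    · by_contra hne
      exact absurd h7 ((V.hs z hz).hodge_pos hne).ne'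
  · obtain ⟨R, hR, hRA⟩ : ∃ R : ℝ, 0 < R ∧ ∀ z, z ≠ b → ‖z - b‖ < R → z ∉ A := by
      have h1 : IsOpen ((↑(A.erase b) : Set ℂ)ᶜ) := (A.erase b).finite_toSet.isClosed.isOpen_compl
      have h2 : b ∈ ((↑(A.erase b) : Set ℂ)ᶜ) := by simp
      obtain ⟨R, hR, h3⟩ := Metric.isOpen_iff.1 h1 b h2
      refine ⟨R, hR, fun z hz hzR hzA => ?_⟩
      have h4 := h3 (mem_ball_iff_norm.2 hzR)
      simp [hz, hzA] at h4
    obtain ⟨C, r, hC, hr, h⟩ := gv_le_punct V b
    refine ⟨2 * C, min r R, by positivity, fun z hz hzr => ?_⟩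
    have hzA := hRA z hz (hzr.trans_le (min_le_right _ _))
    refine (gY_le hφ hharm hzA).trans ?_
    have h4 := h z hz (hzr.trans_le (min_le_left _ _))
    have h5 : (2 * C / (‖z - b‖ * Real.log ‖z - b‖)) ^ 2 =
        4 * (C / (‖z - b‖ * Real.log ‖z - b‖)) ^ 2 := by ring
    rw [h5]
    exact mul_le_mul_of_nonneg_right (mul_le_mul_of_nonneg_left h4 (by norm_num)) (hA0 z hzA)
  · obtain ⟨R, hRA⟩ : ∃ R : ℝ, ∀ z ∈ A, ‖z‖ ≤ R := A.finite_toSet.isBounded.exists_norm_le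
    obtain ⟨C, R', hC, hR', h⟩ := gv_le_inf V
    refine ⟨2 * C, max R R', fun z hz => ?_⟩
    have hzA : z ∉ A := fun hzA => by
      have h3 := hRA z hzA
      have h4 := (le_max_left R R').trans_lt hz
      linarith
    refine (gY_le hφ hharm hzA).trans ?_
    have h4 := h z ((le_max_right _ _).trans_lt hz)
    have h5 : (2 * C / (‖z‖ * Real.log ‖z‖)) ^ 2 = 4 * (C / (‖z‖ * Real.log ‖z‖)) ^ 2 := by ring
    rw [h5]
    exact mul_le_mul_of_nonneg_right (mul_le_mul_of_nonneg_left h4 (by norm_num)) (hA0 z hzA)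

end higgs

end Crest.Agent.R276.NoEx_827
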