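import Crest.Agent.R276.VCalcC_442
import Crest.Agent.R276.IpcDefs_735
import Crest.Agent.R276.Lat_348
import Crest.Agent.R276.Res_735
import Crest.Agent.R276.Grp5_591
import Crest.Agent.R276.IpcBasic_735

-- ▼ part R276/FlagA_454
section

/-!
# R276, IPC-STEP (helper454): polarised filtrations and grading operators, linear algebra

`IsFl n S F` : decreasing filtration `F 0 = ⊤, …, F (n+1) = 0` of `ℂ^N`, `(-1)^p S > 0` on
`F p ∩ (F (p+1))^⊥`.  `IsGr n S F E` : `E` is the grading operator of the filtration.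
-/

set_option autoImplicit false

noncomputable section

open Set Filter Topology Matrix
open Crest.Agent.R276.Ipc735

namespace Crest.Agent.R276.Flag_454

variable {N : ℕ}

/-- the sesquilinear form `uᴴ S v` -/
def sf (S : Matrix (Fin N) (Fin N) ℂ) (u v : Fin N → ℂ) : ℂ := star u ⬝ᵥ (S *ᵥ v)

lemma sf_sub (S : Matrix (Fin N) (Fin N) ℂ) (u v w : Fin N → ℂ) :
    sf S u (v - w) = sf S u v - sf S u w := by
  simp [sf, mulVec_sub, dotProduct_sub]


/-- moving a matrix with `S M = M'ᴴ S` to the other side -/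
lemma sf_adj {S M M' : Matrix (Fin N) (Fin N) ℂ} (h : S * M = M'ᴴ * S) (u v : Fin N → ℂ) :
    sf S u (M *ᵥ v) = sf S (M' *ᵥ u) v := by
  unfold sf
  rw [mulVec_mulVec, h, ← mulVec_mulVec, star_mulVec, ← dotProduct_mulVec]

/-- `F` is a polarised filtration -/
structure IsFl (n : ℕ) (S : Matrix (Fin N) (Fin N) ℂ) (F : ℕ → Submodule ℂ (Fin N → ℂ)) :
    Prop where
  herm : S.IsHermitian
  top : F 0 = ⊤
  bot : F (n + 1) = ⊥
  anti : ∀ p, F (p + 1) ≤ F p
  pos : ∀ p v, v ∈ F p → (∀ u ∈ F (p + 1), sf S u v = 0) → v ≠ 0 →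
    0 < (-1 : ℝ) ^ p * (sf S v v).re

/-- `J` is the `S`-orthogonal projector onto `F` -/
structure IsPrj (S : Matrix (Fin N) (Fin N) ℂ) (F : Submodule ℂ (Fin N → ℂ))
    (J : Matrix (Fin N) (Fin N) ℂ) : Prop where
  mem : ∀ v, J *ᵥ v ∈ F
  fix : ∀ v ∈ F, J *ᵥ v = v
  adj : S * J = Jᴴ * S

/-- `E` is the grading operator of the filtration `F` -/
def IsGr (n : ℕ) (S : Matrix (Fin N) (Fin N) ℂ) (F : ℕ → Submodule ℂ (Fin N → ℂ))
    (E : Matrix (Fin N) (Fin N) ℂ) : Prop :=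
  ∃ J : ℕ → Matrix (Fin N) (Fin N) ℂ, (∀ p, IsPrj S (F p) (J p)) ∧
    E = ∑ p ∈ Finset.range n, J (p + 1)

variable {n : ℕ} {S : Matrix (Fin N) (Fin N) ℂ} {F : ℕ → Submodule ℂ (Fin N → ℂ)}

namespace IsFl

lemma antitone (h : IsFl n S F) : Antitone F := antitone_nat_of_succ_le h.anti

/-- nondegeneracy on every step -/
lemma nd (h : IsFl n S F) {p : ℕ} {v : Fin N → ℂ} (hv : v ∈ F p)
    (h0 : ∀ u ∈ F p, sf S u v = 0) : v = 0 := by
  by_contra hne
  have h1 := h.pos p v hv (fun u hu => h0 u (h.anti p hu)) hne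
  rw [h0 v hv] at h1
  simp at h1

lemma bot' (h : IsFl n S F) {p : ℕ} (hp : n < p) : F p = ⊥ :=
  le_bot_iff.1 (h.bot ▸ h.antitone hp)

lemma isUnit_det (h : IsFl n S F) : IsUnit S.det := by
  rw [isUnit_iff_ne_zero]
  intro hd
  obtain ⟨v, hv, hv0⟩ := exists_mulVec_eq_zero_iff.2 hd
  refine hv (h.nd (p := 0) (by rw [h.top]; trivial) fun u _ => ?_)
  simp [sf, hv0]

lemma S_cancel (h : IsFl n S F) {M M' : Matrix (Fin N) (Fin N) ℂ} (hM : S * M = S * M') :
    M = M' := by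
  have := congrArg (fun A => S⁻¹ * A) hM
  simp only [← Matrix.mul_assoc, Matrix.nonsing_inv_mul S h.isUnit_det, Matrix.one_mul] at this
  exact this

end IsFl

/-- **Gram formula**: the projector onto the range of the frame `A` -/
lemma isPrj_gram {r : ℕ} {A : Matrix (Fin N) (Fin r) ℂ} (hS : S.IsHermitian)
    {F : Submodule ℂ (Fin N → ℂ)} (hA : ∀ v, v ∈ F ↔ ∃ c, v = A *ᵥ c)
    (hG : IsUnit (Aᴴ * S * A).det) : IsPrj S F (A * (Aᴴ * S * A)⁻¹ * Aᴴ * S) where
  mem v := by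
    rw [hA]
    exact ⟨((Aᴴ * S * A)⁻¹ * Aᴴ * S) *ᵥ v, by
      rw [mulVec_mulVec]; simp only [Matrix.mul_assoc]⟩
  fix v hv := by
    obtain ⟨c, rfl⟩ := (hA v).1 hv
    rw [mulVec_mulVec]
    have h1 : A * (Aᴴ * S * A)⁻¹ * Aᴴ * S * A = A := by
      have : A * (Aᴴ * S * A)⁻¹ * Aᴴ * S * A = A * ((Aᴴ * S * A)⁻¹ * (Aᴴ * S * A)) := by
        simp only [Matrix.mul_assoc]
      rw [this, Matrix.nonsing_inv_mul _ hG, Matrix.mul_one]
    rw [h1]
  adj := by
    have h2 : (Aᴴ * S * A)ᴴ = Aᴴ * S * A := by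
      rw [conjTranspose_mul, conjTranspose_mul, conjTranspose_conjTranspose, hS.eq,
        Matrix.mul_assoc]
    rw [conjTranspose_mul, conjTranspose_mul, conjTranspose_mul, conjTranspose_conjTranspose,
      conjTranspose_nonsing_inv, h2, hS.eq]
    simp only [Matrix.mul_assoc]

/-- the Gram matrix of an injective frame of a nondegenerate subspace is invertible -/
lemma isUnit_gram {r : ℕ} {A : Matrix (Fin N) (Fin r) ℂ}
    {F : Submodule ℂ (Fin N → ℂ)} (hA : ∀ v, v ∈ F ↔ ∃ c, v = A *ᵥ c)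
    (hinj : ∀ c, A *ᵥ c = 0 → c = 0)
    (hnd : ∀ v ∈ F, (∀ u ∈ F, sf S u v = 0) → v = 0) : IsUnit (Aᴴ * S * A).det := by
  rw [isUnit_iff_ne_zero]
  intro hd
  obtain ⟨c, hc, hc0⟩ := exists_mulVec_eq_zero_iff.2 hd
  refine hc (hinj c (hnd _ ((hA _).2 ⟨c, rfl⟩) fun u hu => ?_))
  obtain ⟨d, rfl⟩ := (hA u).1 hu
  unfold sf
  rw [star_mulVec, ← dotProduct_mulVec, mulVec_mulVec, mulVec_mulVec, hc0,
    dotProduct_zero]

/-- every subspace has a frame -/
lemma exists_frame (F : Submodule ℂ (Fin N → ℂ)) : ∃ (r : ℕ) (A : Matrix (Fin N) (Fin r) ℂ),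
    (∀ v, v ∈ F ↔ ∃ c, v = A *ᵥ c) ∧ ∀ c, A *ᵥ c = 0 → c = 0 := by
  let b := Module.finBasis ℂ F
  refine ⟨Module.finrank ℂ F, Matrix.of fun i j => (b j : Fin N → ℂ) i, ?_, ?_⟩
  · have key : ∀ c : Fin (Module.finrank ℂ F) → ℂ,
        (Matrix.of fun i j => (b j : Fin N → ℂ) i) *ᵥ c = ((∑ j, c j • b j : F) : Fin N → ℂ) := by
      intro c
      ext i
      simp [mulVec, dotProduct, mul_comm]
    intro v
    constructor
    · intro hv
      refine ⟨b.repr ⟨v, hv⟩, ?_⟩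
      rw [key, b.sum_repr]
    · rintro ⟨c, rfl⟩
      rw [key]
      exact Submodule.coe_mem _
  · intro c hc
    have h1 : ((∑ j, c j • b j : F) : Fin N → ℂ) = 0 := by
      rw [← hc]
      ext i
      simp [mulVec, dotProduct, mul_comm]
    have h2 : (∑ j, c j • b j : F) = 0 := Subtype.ext h1
    have h3 := Fintype.linearIndependent_iff.1 b.linearIndependent c h2
    ext j
    exact h3 j

namespace IsPrj

variable {G : Submodule ℂ (Fin N → ℂ)} {J J' : Matrix (Fin N) (Fin N) ℂ}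

lemma orth (h : IsPrj S G J) {u : Fin N → ℂ} (hu : u ∈ G) (v : Fin N → ℂ) :
    sf S u (J *ᵥ v) = sf S u v := by
  rw [sf_adj h.adj, h.fix u hu]


lemma mul_of_le {G' : Submodule ℂ (Fin N → ℂ)} (h : IsPrj S G J) (h' : IsPrj S G' J')
    (hle : G' ≤ G) : J * J' = J' := by
  apply Matrix.ext_of_mulVec_single
  intro j
  rw [← mulVec_mulVec]
  exact h.fix _ (hle (h'.mem _))

end IsPrj

namespace IsFl

lemma exists_prj (h : IsFl n S F) (p : ℕ) : ∃ J, IsPrj S (F p) J := by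
  obtain ⟨r, A, hA, hinj⟩ := exists_frame (F p)
  exact ⟨_, isPrj_gram h.herm hA (isUnit_gram hA hinj fun v hv h0 => h.nd hv h0)⟩

lemma prj_unique (h : IsFl n S F) {p : ℕ} {J J' : Matrix (Fin N) (Fin N) ℂ}
    (h1 : IsPrj S (F p) J) (h2 : IsPrj S (F p) J') : J = J' := by
  have e1 : J * J' = J' := h1.mul_of_le h2 le_rfl
  have e2 : J' * J = J := h2.mul_of_le h1 le_rfl
  apply h.S_cancel
  calc S * J = S * (J' * J) := by rw [e2]
    _ = J'ᴴ * (S * J) := by rw [← Matrix.mul_assoc, h2.adj, Matrix.mul_assoc]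
    _ = (J * J')ᴴ * S := by rw [h1.adj, ← Matrix.mul_assoc, conjTranspose_mul]
    _ = S * J' := by rw [e1, h2.adj]

lemma prj_mul_right (h : IsFl n S F) {p q : ℕ} {J J' : Matrix (Fin N) (Fin N) ℂ}
    (h1 : IsPrj S (F p) J) (h2 : IsPrj S (F q) J') (hpq : p ≤ q) : J' * J = J' := by
  have e1 : J * J' = J' := h1.mul_of_le h2 (h.antitone hpq)
  apply h.S_cancel
  calc S * (J' * J) = J'ᴴ * (S * J) := by rw [← Matrix.mul_assoc, h2.adj, Matrix.mul_assoc]
    _ = (J * J')ᴴ * S := by rw [h1.adj, ← Matrix.mul_assoc, conjTranspose_mul]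
    _ = S * J' := by rw [e1, h2.adj]

lemma prj_zero (h : IsFl n S F) {J : Matrix (Fin N) (Fin N) ℂ} (h1 : IsPrj S (F 0) J) :
    J = 1 := by
  apply Matrix.ext_of_mulVec_single
  intro j
  rw [Matrix.one_mulVec]
  exact h1.fix _ (by rw [h.top]; trivial)

lemma prj_last (h : IsFl n S F) {p : ℕ} (hp : n < p) {J : Matrix (Fin N) (Fin N) ℂ}
    (h1 : IsPrj S (F p) J) : J = 0 := by
  apply Matrix.ext_of_mulVec_single
  intro j
  rw [Matrix.zero_mulVec]
  have := h1.mem (Pi.single j 1)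
  rw [h.bot' hp] at this
  exact (Submodule.mem_bot ℂ).1 this

lemma exists_gr (h : IsFl n S F) : ∃ E, IsGr n S F E := by
  choose J hJ using h.exists_prj
  exact ⟨_, J, hJ, rfl⟩


section gr

variable {J : ℕ → Matrix (Fin N) (Fin N) ℂ}

lemma prj_mul (h : IsFl n S F) (hJ : ∀ p, IsPrj S (F p) (J p)) (p q : ℕ) :
    J p * J q = J (max p q) := by
  rcases le_total p q with hpq | hpq
  · rw [max_eq_right hpq]
    exact (hJ p).mul_of_le (hJ q) (h.antitone hpq)
  · rw [max_eq_left hpq]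
    exact h.prj_mul_right (hJ q) (hJ p) hpq

/-- `Q p = J p - J (p+1)` : eigenprojector -/
lemma gr_mul_Q (h : IsFl n S F) (hJ : ∀ p, IsPrj S (F p) (J p)) {p : ℕ} (hp : p ≤ n) :
    (∑ q ∈ Finset.range n, J (q + 1)) * (J p - J (p + 1)) = (p : ℂ) • (J p - J (p + 1)) := by
  rw [Finset.sum_mul]
  have h1 : ∀ q ∈ Finset.range n, J (q + 1) * (J p - J (p + 1)) =
      if q < p then (J p - J (p + 1)) else 0 := by
    intro q _
    rw [Matrix.mul_sub, h.prj_mul hJ, h.prj_mul hJ]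
    split_ifs with hq
    · rw [max_eq_right (by omega : q + 1 ≤ p), max_eq_right (by omega : q + 1 ≤ p + 1)]
    · rw [max_eq_left (by omega : p ≤ q + 1), max_eq_left (by omega : p + 1 ≤ q + 1), sub_self]
  rw [Finset.sum_congr rfl h1, ← Finset.sum_filter, Finset.sum_const]
  have h2 : (Finset.range n).filter (fun q => q < p) = Finset.range p := by
    ext q
    simp only [Finset.mem_filter, Finset.mem_range]
    omega
  rw [h2, Finset.card_range, Nat.cast_smul_eq_nsmul]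

lemma Q_mul_gr (h : IsFl n S F) (hJ : ∀ p, IsPrj S (F p) (J p)) {p : ℕ} (hp : p ≤ n) :
    (J p - J (p + 1)) * (∑ q ∈ Finset.range n, J (q + 1)) = (p : ℂ) • (J p - J (p + 1)) := by
  rw [Finset.mul_sum]
  have h1 : ∀ q ∈ Finset.range n, (J p - J (p + 1)) * J (q + 1) =
      if q < p then (J p - J (p + 1)) else 0 := by
    intro q _
    rw [Matrix.sub_mul, h.prj_mul hJ, h.prj_mul hJ]
    split_ifs with hq
    · rw [max_eq_left (by omega : q + 1 ≤ p), max_eq_left (by omega : q + 1 ≤ p + 1)]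
    · rw [max_eq_right (by omega : p ≤ q + 1), max_eq_right (by omega : p + 1 ≤ q + 1), sub_self]
  rw [Finset.sum_congr rfl h1, ← Finset.sum_filter, Finset.sum_const]
  have h2 : (Finset.range n).filter (fun q => q < p) = Finset.range p := by
    ext q
    simp only [Finset.mem_filter, Finset.mem_range]
    omega
  rw [h2, Finset.card_range, Nat.cast_smul_eq_nsmul]

lemma sum_Q (h : IsFl n S F) (hJ : ∀ p, IsPrj S (F p) (J p)) :
    ∑ p ∈ Finset.range (n + 1), (J p - J (p + 1)) = 1 := by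
  rw [Finset.sum_range_sub', h.prj_zero (hJ 0), h.prj_last (Nat.lt_succ_self n) (hJ (n + 1)),
    sub_zero]

/-- functional calculus -/
lemma aeval_gr (h : IsFl n S F) (hJ : ∀ p, IsPrj S (F p) (J p)) (f : Polynomial ℂ) :
    Polynomial.aeval (∑ q ∈ Finset.range n, J (q + 1)) f =
      ∑ p ∈ Finset.range (n + 1), f.eval (p : ℂ) • (J p - J (p + 1)) := by
  have key : ∀ p ≤ n, ∀ f : Polynomial ℂ,
      Polynomial.aeval (∑ q ∈ Finset.range n, J (q + 1)) f * (J p - J (p + 1)) =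
        f.eval (p : ℂ) • (J p - J (p + 1)) := by
    intro p hp f
    induction f using Polynomial.induction_on' with
    | add f g hf hg => rw [map_add, Matrix.add_mul, hf, hg, Polynomial.eval_add, add_smul]
    | monomial k a =>
      rw [Polynomial.aeval_monomial, Polynomial.eval_monomial]
      have h1 : ∀ k : ℕ, (∑ q ∈ Finset.range n, J (q + 1)) ^ k * (J p - J (p + 1)) =
          (p : ℂ) ^ k • (J p - J (p + 1)) := by
        intro k
        induction k with
        | zero => simp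
        | succ k ih =>
          rw [pow_succ, Matrix.mul_assoc, h.gr_mul_Q hJ hp, Matrix.mul_smul, ih, smul_smul,
            pow_succ, mul_comm]
      rw [Matrix.mul_assoc, h1, Algebra.algebraMap_eq_smul_one, Matrix.smul_mul, Matrix.one_mul,
        smul_smul]
  calc Polynomial.aeval (∑ q ∈ Finset.range n, J (q + 1)) f
      = Polynomial.aeval (∑ q ∈ Finset.range n, J (q + 1)) f *
          ∑ p ∈ Finset.range (n + 1), (J p - J (p + 1)) := by rw [h.sum_Q hJ, Matrix.mul_one]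
    _ = _ := by
      rw [Finset.mul_sum]
      exact Finset.sum_congr rfl fun p hp => key p (by simpa [Nat.lt_succ_iff] using hp) f

end gr

/-- an eigenvector of the grading operator -/
lemma eig_iff (h : IsFl n S F) {E : Matrix (Fin N) (Fin N) ℂ} (hE : IsGr n S F E) {p : ℕ}
    (hp : p ≤ n) (v : Fin N → ℂ) :
    E *ᵥ v = (p : ℂ) • v ↔ v ∈ F p ∧ ∀ u ∈ F (p + 1), sf S u v = 0 := by
  obtain ⟨J, hJ, rfl⟩ := hE
  constructor
  · intro hv
    have h0 : ∀ q ∈ Finset.range (n + 1), q ≠ p → (J q - J (q + 1)) *ᵥ v = 0 := by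
      intro q hq hqp
      have h1 : (J q - J (q + 1)) *ᵥ ((∑ q ∈ Finset.range n, J (q + 1)) *ᵥ v) =
          (q : ℂ) • ((J q - J (q + 1)) *ᵥ v) := by
        rw [mulVec_mulVec, h.Q_mul_gr hJ (by simpa [Nat.lt_succ_iff] using hq), smul_mulVec]
      rw [hv, mulVec_smul] at h1
      have h2 : ((p : ℂ) - q) • ((J q - J (q + 1)) *ᵥ v) = 0 := by
        rw [sub_smul, h1, sub_self]
      rcases smul_eq_zero.1 h2 with h3 | h3
      · exact absurd (by exact_mod_cast (sub_eq_zero.1 h3).symm) hqp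
      · exact h3
    have h1 : v = (J p - J (p + 1)) *ᵥ v := by
      have h2 : v = (∑ q ∈ Finset.range (n + 1), (J q - J (q + 1))) *ᵥ v := by
        rw [h.sum_Q hJ, Matrix.one_mulVec]
      rw [Matrix.sum_mulVec] at h2
      rw [Finset.sum_eq_single_of_mem p (by simpa [Nat.lt_succ_iff] using hp) h0] at h2
      exact h2
    refine ⟨?_, fun u hu => ?_⟩
    · rw [h1, Matrix.sub_mulVec]
      exact Submodule.sub_mem _ ((hJ p).mem v) (h.anti p ((hJ (p + 1)).mem v))
    · rw [h1, Matrix.sub_mulVec, sf_sub, (hJ p).orth (h.anti p hu), (hJ (p + 1)).orth hu, sub_self]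
  · rintro ⟨hv, h0⟩
    have h1 : J (p + 1) *ᵥ v = 0 := by
      refine h.nd ((hJ (p + 1)).mem v) fun u hu => ?_
      rw [(hJ (p + 1)).orth hu]
      exact h0 u hu
    have h2 : (J p - J (p + 1)) *ᵥ v = v := by
      rw [Matrix.sub_mulVec, (hJ p).fix v hv, h1, sub_zero]
    calc (∑ p ∈ Finset.range n, J (p + 1)) *ᵥ v
        = (∑ p ∈ Finset.range n, J (p + 1)) *ᵥ ((J p - J (p + 1)) *ᵥ v) := by rw [h2]
      _ = (p : ℂ) • v := by
        rw [mulVec_mulVec, h.gr_mul_Q hJ hp, smul_mulVec, h2]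

lemma top_iff (h : IsFl n S F) {E : Matrix (Fin N) (Fin N) ℂ} (hE : IsGr n S F E)
    (v : Fin N → ℂ) : E *ᵥ v = (n : ℂ) • v ↔ v ∈ F n := by
  rw [h.eig_iff hE le_rfl, h.bot]
  constructor
  · exact fun h => h.1
  · intro hv
    refine ⟨hv, fun u hu => ?_⟩
    rw [(Submodule.mem_bot ℂ).1 hu]
    simp [sf]

/-- **the grading operator defines a polarised Hodge structure** -/
theorem isHS (h : IsFl n S F) {E : Matrix (Fin N) (Fin N) ℂ} (hE : IsGr n S F E) :
    IsHS n S E where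
  herm := h.herm
  adj := by
    obtain ⟨J, hJ, rfl⟩ := hE
    rw [Finset.mul_sum, conjTranspose_sum, Finset.sum_mul]
    exact Finset.sum_congr rfl fun p _ => (hJ _).adj
  eig := by
    obtain ⟨J, hJ, rfl⟩ := hE
    rw [h.aeval_gr hJ]
    apply Finset.sum_eq_zero
    intro p hp
    rw [Polynomial.eval_prod, Finset.prod_eq_zero hp (by simp), zero_smul]
  pos p v hp hv hE' := by
    obtain ⟨h1, h2⟩ := (h.eig_iff hE hp v).1 hE'
    exact h.pos p v h1 h2 hv

end IsFl

end Crest.Agent.R276.Flag_454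
end
end

-- ▼ part R276/FlagB_454
section

/-!
# R276, IPC-STEP (helper454): a holomorphic transversal filtration gives a smooth grading operator
with `[E, ∂_v E] = - ∂_v E`
-/

set_option autoImplicit false
set_option linter.unusedSectionVars false

noncomputable section

open Set Filter Topology Matrix
open scoped ContDiff ComplexConjugate
open Crest.Agent.R276.Ipc735 Crest.Agent.R276.VCalc_442

namespace Crest.Agent.R276.Flag_454

variable {X : Type*} [NormedAddCommGroup X] [NormedSpace ℂ X]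
variable {N : ℕ} {ι κ μ : Type*} [Fintype ι] [Fintype κ] [Fintype μ]

/-! ### entrywise smoothness -/

/-- entrywise smooth at a point -/
def ESm (M : X → Matrix ι κ ℂ) (x : X) : Prop := ∀ i j, ContDiffAt ℝ ∞ (fun z => M z i j) x

lemma contDiffAt_star {f : X → ℂ} {x : X} (hf : ContDiffAt ℝ ∞ f x) :
    ContDiffAt ℝ ∞ (fun z => star (f z)) x :=
  (Complex.conjCLE.contDiff.contDiffAt).comp x hf

lemma ESm.mul {M : X → Matrix ι κ ℂ} {K : X → Matrix κ μ ℂ} {x : X} (hM : ESm M x)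
    (hK : ESm K x) : ESm (fun z => M z * K z) x := by
  intro i j
  simp only [Matrix.mul_apply]
  exact ContDiffAt.sum fun k _ => (hM i k).mul (hK k j)

lemma ESm.sub {M K : X → Matrix ι κ ℂ} {x : X} (hM : ESm M x)
    (hK : ESm K x) : ESm (fun z => M z - K z) x := by
  intro i j
  simp only [Matrix.sub_apply]
  exact (hM i j).sub (hK i j)

lemma ESm.ct {M : X → Matrix ι κ ℂ} {x : X} (hM : ESm M x) : ESm (fun z => (M z)ᴴ) x := by
  intro i j
  simp only [Matrix.conjTranspose_apply]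
  exact contDiffAt_star (hM j i)

lemma ESm.const (M : Matrix ι κ ℂ) (x : X) : ESm (fun _ => M) x := fun _ _ => contDiffAt_const

lemma ESm.det {r : ℕ} {M : X → Matrix (Fin r) (Fin r) ℂ} {x : X} (hM : ESm M x) :
    ContDiffAt ℝ ∞ (fun z => (M z).det) x := by
  simp only [Matrix.det_apply]
  refine ContDiffAt.sum fun σ _ => ?_
  refine ContDiffAt.const_smul _ ?_
  exact contDiffAt_prod fun i _ => hM (σ i) i

lemma ESm.adjugate {r : ℕ} {M : X → Matrix (Fin r) (Fin r) ℂ} {x : X} (hM : ESm M x) :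
    ESm (fun z => (M z).adjugate) x := by
  intro i j
  simp only [Matrix.adjugate_apply]
  apply ESm.det
  intro a b
  by_cases h : a = j
  · subst h
    simp only [Matrix.updateRow_self]
    exact contDiffAt_const
  · simp only [Matrix.updateRow_ne h]
    exact hM a b

lemma ESm.inv {r : ℕ} {M : X → Matrix (Fin r) (Fin r) ℂ} {x : X} (hM : ESm M x)
    (hd : IsUnit (M x).det) : ESm (fun z => (M z)⁻¹) x := by
  intro i j
  simp only [Matrix.inv_def, Matrix.smul_apply, smul_eq_mul, Ring.inverse_eq_inv']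
  exact (hM.det.inv hd.ne_zero).mul (hM.adjugate i j)


lemma ESm.congr {M K : X → Matrix ι κ ℂ} {x : X} (hM : ESm M x) (h : K =ᶠ[𝓝 x] M) : ESm K x := by
  intro i j
  refine (hM i j).congr_of_eventuallyEq ?_
  filter_upwards [h] with z hz
  rw [hz]

lemma ESm.diff {M : X → Matrix ι κ ℂ} {x : X} (hM : ESm M x) (i : ι) (j : κ) :
    DifferentiableAt ℝ (fun z => M z i j) x := (hM i j).differentiableAt (by simp)

lemma ESm.sum {s : Finset ℕ} {M : ℕ → X → Matrix ι κ ℂ} {x : X} (hM : ∀ p ∈ s, ESm (M p) x) :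
    ESm (fun z => ∑ p ∈ s, M p z) x := by
  intro i j
  simp only [Matrix.sum_apply]
  exact ContDiffAt.sum fun p hp => hM p hp i j

/-! ### Wirtinger derivatives of products of rectangular matrices -/

lemma dW_fsum {α : Type*} {s : Finset α} {f : α → X → ℂ} {x : X} (hf : ∀ k ∈ s, DifferentiableAt ℝ (f k) x)
    (v : X) : dW (fun z => ∑ k ∈ s, f k z) v x = ∑ k ∈ s, dW (f k) v x := by
  unfold dW
  rw [fderiv_fun_sum hf]
  simp only [_root_.sum_apply, Finset.smul_sum, ← Finset.sum_sub_distrib]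

lemma dB_fsum {α : Type*} {s : Finset α} {f : α → X → ℂ} {x : X} (hf : ∀ k ∈ s, DifferentiableAt ℝ (f k) x)
    (v : X) : dB (fun z => ∑ k ∈ s, f k z) v x = ∑ k ∈ s, dB (f k) v x := by
  unfold dB
  rw [fderiv_fun_sum hf]
  simp only [_root_.sum_apply, Finset.smul_sum, ← Finset.sum_add_distrib]

lemma mW_mul' {M : X → Matrix ι κ ℂ} {K : X → Matrix κ μ ℂ} {x : X} (hM : ESm M x)
    (hK : ESm K x) (v : X) :
    mW (fun z => M z * K z) v x = mW M v x * K x + M x * mW K v x := by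
  ext i j
  simp only [mW, Matrix.of_apply, Matrix.mul_apply, Matrix.add_apply]
  rw [dW_fsum (fun k _ => (hM.diff i k).fun_mul (hK.diff k j)), ← Finset.sum_add_distrib]
  exact Finset.sum_congr rfl fun k _ => by rw [dW_mul (hM.diff i k) (hK.diff k j)]

lemma mB_mul' {M : X → Matrix ι κ ℂ} {K : X → Matrix κ μ ℂ} {x : X} (hM : ESm M x)
    (hK : ESm K x) (v : X) :
    mB (fun z => M z * K z) v x = mB M v x * K x + M x * mB K v x := by
  ext i j
  simp only [mB, Matrix.of_apply, Matrix.mul_apply, Matrix.add_apply]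
  rw [dB_fsum (fun k _ => (hM.diff i k).fun_mul (hK.diff k j)), ← Finset.sum_add_distrib]
  exact Finset.sum_congr rfl fun k _ => by rw [dB_mul (hM.diff i k) (hK.diff k j)]

lemma mW_congr' {M K : X → Matrix ι κ ℂ} {x : X} (h : M =ᶠ[𝓝 x] K) (v : X) :
    mW M v x = mW K v x := by
  ext i j
  simp only [mW, Matrix.of_apply]
  exact dW_congr (h.mono fun z hz => by rw [hz]) v

lemma mB_congr' {M K : X → Matrix ι κ ℂ} {x : X} (h : M =ᶠ[𝓝 x] K) (v : X) :
    mB M v x = mB K v x := by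
  ext i j
  simp only [mB, Matrix.of_apply]
  exact dB_congr (h.mono fun z hz => by rw [hz]) v

lemma mW_const' (M : Matrix ι κ ℂ) (v x : X) : mW (fun _ : X => M) v x = 0 := by
  ext i j
  simp [mW]


lemma mW_ct' {M : X → Matrix ι κ ℂ} {x : X} (hM : ESm M x) (v : X) :
    mW (fun z => (M z)ᴴ) v x = (mB M v x)ᴴ := by
  ext i j
  simp only [mW, mB, Matrix.of_apply, Matrix.conjTranspose_apply]
  exact dW_star (hM.diff j i) v

/-- complex differentiable entries: `∂̄ = 0` -/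
lemma mB_eq_zero {M : X → Matrix ι κ ℂ} {x : X} (h : ∀ i j, DifferentiableAt ℂ (fun z => M z i j) x)
    (v : X) : mB M v x = 0 := by
  ext i j
  simp only [mB, Matrix.of_apply, Matrix.zero_apply, dB]
  have h1 : fderiv ℝ (fun z => M z i j) x = (fderiv ℂ (fun z => M z i j) x).restrictScalars ℝ :=
    ((h i j).hasFDerivAt.restrictScalars ℝ).fderiv
  rw [h1]
  simp only [ContinuousLinearMap.coe_restrictScalars', map_smul, smul_eq_mul]
  rw [← mul_assoc, Complex.I_mul_I]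
  ring

/-- complex differentiable entries: `∂_v` is the derivative -/
lemma mW_eq_fderiv {M : X → Matrix ι κ ℂ} {x : X}
    (h : ∀ i j, DifferentiableAt ℂ (fun z => M z i j) x) (v : X) (i : ι) (j : κ) :
    mW M v x i j = fderiv ℂ (fun z => M z i j) x v := by
  simp only [mW, Matrix.of_apply, dW]
  have h1 : fderiv ℝ (fun z => M z i j) x = (fderiv ℂ (fun z => M z i j) x).restrictScalars ℝ :=
    ((h i j).hasFDerivAt.restrictScalars ℝ).fderiv
  rw [h1]
  simp only [ContinuousLinearMap.coe_restrictScalars', map_smul, smul_eq_mul]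
  rw [← mul_assoc, Complex.I_mul_I]
  ring

/-! ### the main theorem -/

/-- a holomorphic frame of the family of subspaces `F` near `z₀` -/
def HasFrame (F : X → Submodule ℂ (Fin N → ℂ)) (z₀ : X) : Prop :=
  ∃ (r : ℕ) (f : X → Matrix (Fin N) (Fin r) ℂ), (∀ i j, AnalyticAt ℂ (fun z => f z i j) z₀) ∧
    ∀ᶠ z in 𝓝 z₀, (∀ c, f z *ᵥ c = 0 → c = 0) ∧ ∀ v, v ∈ F z ↔ ∃ c, v = f z *ᵥ c

/-- transversality at the point `z₀` -/
def Trans (F : X → ℕ → Submodule ℂ (Fin N → ℂ)) (z₀ : X) : Prop :=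
  ∀ (p : ℕ) (c : X → Fin N → ℂ), AnalyticAt ℂ c z₀ → (∀ᶠ z in 𝓝 z₀, c z ∈ F z (p + 1)) →
    ∀ v, fderiv ℂ c z₀ v ∈ F z₀ p

lemma ESm.of_analytic {M : X → Matrix ι κ ℂ} {x : X}
    (h : ∀ i j, AnalyticAt ℂ (fun z => M z i j) x) : ESm M x := fun i j =>
  ((h i j).contDiffAt (n := ∞)).restrict_scalars ℝ

variable {n : ℕ} {S : Matrix (Fin N) (Fin N) ℂ} {z₀ : X} {F : X → ℕ → Submodule ℂ (Fin N → ℂ)}

lemma ext_of_frame {r : ℕ} {G : Submodule ℂ (Fin N → ℂ)} {A : Matrix (Fin N) (Fin r) ℂ}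
    {J K : Matrix (Fin N) (Fin N) ℂ} (hJ : IsPrj S G J) (hA : ∀ v, v ∈ G ↔ ∃ c, v = A *ᵥ c)
    (h : K * A = 0) : K * J = 0 := by
  apply Matrix.ext_of_mulVec_single
  intro j
  obtain ⟨c, hc⟩ := (hA _).1 (hJ.mem (Pi.single j 1))
  rw [← mulVec_mulVec, hc, mulVec_mulVec, h, zero_mulVec, zero_mulVec]

theorem flag_prj (hF : ∀ᶠ z in 𝓝 z₀, IsFl n S (F z)) (hfr : ∀ p, HasFrame (fun z => F z p) z₀)
    (htr : Trans F z₀) : ∃ J : ℕ → X → Matrix (Fin N) (Fin N) ℂ,
      (∀ p, ∀ᶠ z in 𝓝 z₀, IsPrj S (F z p) (J p z)) ∧ (∀ p, ESm (J p) z₀) ∧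
      (∀ p v, mB (J p) v z₀ * J p z₀ = 0) ∧ (∀ p v, J p z₀ * mW (J p) v z₀ = 0) ∧
      (∀ p v, mW (J p) v z₀ * J p z₀ = mW (J p) v z₀) ∧
      (∀ p v, J p z₀ * mW (J (p + 1)) v z₀ = mW (J (p + 1)) v z₀) := by
  choose r f han hfr' using hfr
  have hsm : ∀ p, ESm (f p) z₀ := fun p => ESm.of_analytic (han p)
  have hdf : ∀ p i j, DifferentiableAt ℂ (fun z => f p z i j) z₀ :=
    fun p i j => (han p i j).differentiableAt
  have hF0 := hF.self_of_nhds
  have hG : ∀ p, ∀ᶠ z in 𝓝 z₀, IsUnit ((f p z)ᴴ * S * f p z).det := by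
    intro p
    filter_upwards [hfr' p, hF] with z hz hFz
    exact isUnit_gram hz.2 hz.1 fun v hv h0 => hFz.nd hv h0
  set J : ℕ → X → Matrix (Fin N) (Fin N) ℂ := fun p z =>
    f p z * ((f p z)ᴴ * S * f p z)⁻¹ * (f p z)ᴴ * S with hJdef
  have hJ : ∀ p, ∀ᶠ z in 𝓝 z₀, IsPrj S (F z p) (J p z) := by
    intro p
    filter_upwards [hfr' p, hF, hG p] with z hz hFz hGz
    exact isPrj_gram hFz.herm hz.2 hGz
  have hJs : ∀ p, ESm (J p) z₀ := by
    intro p
    have h1 : ESm (fun z => (f p z)ᴴ * S * f p z) z₀ :=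
      ((hsm p).ct.mul (ESm.const S z₀)).mul (hsm p)
    exact (((hsm p).mul (h1.inv (hG p).self_of_nhds)).mul (hsm p).ct).mul (ESm.const S z₀)
  have e1 : ∀ p v, mB (J p) v z₀ * f p z₀ = 0 := by
    intro p v
    have h1 : (fun z => J p z * f p z) =ᶠ[𝓝 z₀] f p := by
      filter_upwards [hfr' p, hJ p] with z hz hJz
      apply Matrix.ext_of_mulVec_single
      intro j
      rw [← mulVec_mulVec]
      exact hJz.fix _ ((hz.2 _).2 ⟨_, rfl⟩)
    have h2 := mB_congr' h1 v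
    rw [mB_mul' (hJs p) (hsm p), mB_eq_zero (hdf p), Matrix.mul_zero, add_zero] at h2
    exact h2
  have e2 : ∀ p v, mB (J p) v z₀ * J p z₀ = 0 := fun p v =>
    ext_of_frame (hJ p).self_of_nhds (hfr' p).self_of_nhds.2 (e1 p v)
  have e3 : ∀ p v, J p z₀ * mW (J p) v z₀ = 0 := by
    intro p v
    have h1 : (fun z => S * J p z) =ᶠ[𝓝 z₀] fun z => (J p z)ᴴ * S := by
      filter_upwards [hJ p] with z hJz using hJz.adj
    have h2 := mW_congr' h1 v
    rw [mW_mul' (ESm.const S z₀) (hJs p), mW_mul' (hJs p).ct (ESm.const S z₀), mW_const',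
      Matrix.zero_mul, zero_add, Matrix.mul_zero, add_zero, mW_ct' (hJs p)] at h2
    apply hF0.S_cancel
    rw [Matrix.mul_zero, ← Matrix.mul_assoc, (hJ p).self_of_nhds.adj, Matrix.mul_assoc, h2,
      ← Matrix.mul_assoc, ← conjTranspose_mul, e2, conjTranspose_zero, Matrix.zero_mul]
  have e4 : ∀ p v, mW (J p) v z₀ * J p z₀ = mW (J p) v z₀ := by
    intro p v
    have h1 : (fun z => J p z * J p z) =ᶠ[𝓝 z₀] J p := by
      filter_upwards [hJ p] with z hJz using hJz.mul_of_le hJz le_rfl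
    have h2 := mW_congr' h1 v
    rw [mW_mul' (hJs p) (hJs p), e3, add_zero] at h2
    exact h2
  refine ⟨J, hJ, hJs, e2, e3, e4, ?_⟩
  intro p v
  have t1 : J p z₀ * mW (f (p + 1)) v z₀ = mW (f (p + 1)) v z₀ := by
    apply Matrix.ext_of_mulVec_single
    intro j
    rw [← mulVec_mulVec]
    refine (hJ p).self_of_nhds.fix _ ?_
    have h1 : DifferentiableAt ℂ (fun z => f (p + 1) z *ᵥ Pi.single j 1) z₀ := by
      rw [differentiableAt_pi]
      intro i
      simp only [mulVec_single_one, Matrix.col_apply]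
      exact hdf (p + 1) i j
    have h1a : AnalyticAt ℂ (fun z => f (p + 1) z *ᵥ Pi.single j 1) z₀ := by
      rw [analyticAt_pi_iff]
      intro i
      simp only [mulVec_single_one, Matrix.col_apply]
      exact han (p + 1) i j
    have h2 := htr p (fun z => f (p + 1) z *ᵥ Pi.single j 1) h1a
      ((hfr' (p + 1)).mono fun z hz => (hz.2 _).2 ⟨_, rfl⟩) v
    convert h2 using 1
    ext i
    rw [mulVec_single_one, Matrix.col_apply, mW_eq_fderiv (hdf (p + 1))]
    have h3 := (hasFDerivAt_pi'.1 h1.hasFDerivAt i).fderiv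
    simp only [mulVec_single_one, Matrix.col_apply] at h3
    rw [h3]
    simp
  have t2 : mW (J (p + 1)) v z₀ * f (p + 1) z₀ + J (p + 1) z₀ * mW (f (p + 1)) v z₀ =
      mW (f (p + 1)) v z₀ := by
    have h1 : (fun z => J (p + 1) z * f (p + 1) z) =ᶠ[𝓝 z₀] f (p + 1) := by
      filter_upwards [hfr' (p + 1), hJ (p + 1)] with z hz hJz
      apply Matrix.ext_of_mulVec_single
      intro j
      rw [← mulVec_mulVec]
      exact hJz.fix _ ((hz.2 _).2 ⟨_, rfl⟩)
    have h2 := mW_congr' h1 v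
    rw [mW_mul' (hJs (p + 1)) (hsm (p + 1))] at h2
    exact h2
  have t3 : J p z₀ * J (p + 1) z₀ = J (p + 1) z₀ :=
    (hJ p).self_of_nhds.mul_of_le (hJ (p + 1)).self_of_nhds (hF0.anti p)
  have t4 : (J p z₀ * mW (J (p + 1)) v z₀ - mW (J (p + 1)) v z₀) * f (p + 1) z₀ = 0 := by
    have h1 : mW (J (p + 1)) v z₀ * f (p + 1) z₀ =
        mW (f (p + 1)) v z₀ - J (p + 1) z₀ * mW (f (p + 1)) v z₀ := eq_sub_of_add_eq t2
    rw [Matrix.sub_mul, Matrix.mul_assoc, h1, Matrix.mul_sub, t1, ← Matrix.mul_assoc, t3, sub_self]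
  have t5 := ext_of_frame (hJ (p + 1)).self_of_nhds (hfr' (p + 1)).self_of_nhds.2 t4
  rw [Matrix.sub_mul, Matrix.mul_assoc, e4, sub_eq_zero] at t5
  exact t5

lemma mW_fsum {s : Finset ℕ} {M : ℕ → X → Matrix ι κ ℂ} {x : X} (hM : ∀ p ∈ s, ESm (M p) x)
    (v : X) : mW (fun z => ∑ p ∈ s, M p z) v x = ∑ p ∈ s, mW (M p) v x := by
  ext i j
  simp only [mW, Matrix.of_apply, Matrix.sum_apply]
  rw [dW_fsum (fun k hk => (hM k hk).diff i j)]

/-- **FLAG**: a holomorphic filtration, polarised at every point, transversal at `z₀`, has a smooth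
grading operator with `[E, ∂_v E] = -∂_v E` at `z₀`. -/
theorem flag {E : X → Matrix (Fin N) (Fin N) ℂ} (hF : ∀ᶠ z in 𝓝 z₀, IsFl n S (F z))
    (hfr : ∀ p, HasFrame (fun z => F z p) z₀) (htr : Trans F z₀)
    (hE : ∀ᶠ z in 𝓝 z₀, IsGr n S (F z) (E z)) :
    ESm E z₀ ∧ ∀ v, E z₀ * mW E v z₀ - mW E v z₀ * E z₀ = - mW E v z₀ := by
  obtain ⟨J, hJ, hJs, -, e3, e4, e5⟩ := flag_prj hF hfr htr
  have hF0 := hF.self_of_nhds
  have hEJ : E =ᶠ[𝓝 z₀] fun z => ∑ p ∈ Finset.range n, J (p + 1) z := by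
    have h1 : ∀ᶠ z in 𝓝 z₀, ∀ p ∈ Finset.range n, IsPrj S (F z (p + 1)) (J (p + 1) z) := by
      rw [Filter.eventually_all_finset]
      exact fun p _ => hJ (p + 1)
    filter_upwards [h1, hE, hF] with z h1 h2 h3
    obtain ⟨K, hK, hEz⟩ := h2
    rw [hEz]
    exact Finset.sum_congr rfl fun p hp => h3.prj_unique (hK _) (h1 p hp)
  have hsum : ∀ p ∈ Finset.range n, ESm (fun z => J (p + 1) z) z₀ := fun p _ => hJs (p + 1)
  have hES : ESm E z₀ := (ESm.sum (M := fun p z => J (p + 1) z) hsum).congr hEJ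
  refine ⟨hES, fun v => ?_⟩
  have hW : mW E v z₀ = ∑ p ∈ Finset.range n, mW (J (p + 1)) v z₀ := by
    rw [mW_congr' hEJ]
    exact mW_fsum (M := fun p z => J (p + 1) z) hsum v
  have hJm : ∀ p q, J p z₀ * J q z₀ = J (max p q) z₀ := by
    intro p q
    exact hF0.prj_mul (J := fun p => J p z₀) (fun p => (hJ p).self_of_nhds) p q
  have e6 : ∀ p, mW (J p) v z₀ * J (p + 1) z₀ = 0 := by
    intro p
    have h1 : (fun z => J p z * J (p + 1) z) =ᶠ[𝓝 z₀] J (p + 1) := by
      filter_upwards [hJ p, hJ (p + 1), hF] with z h1 h2 h3 using h1.mul_of_le h2 (h3.anti p)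
    have h2 := mW_congr' h1 v
    rw [mW_mul' (hJs p) (hJs (p + 1)), e5] at h2
    simpa using h2
  have hE0 : E z₀ = ∑ q ∈ Finset.range n, J (q + 1) z₀ := hEJ.self_of_nhds
  -- action on each piece
  have a1 : ∀ p ∈ Finset.range n, E z₀ * mW (J (p + 1)) v z₀ = (p : ℂ) • mW (J (p + 1)) v z₀ := by
    intro p hp
    have hp' : p < n := Finset.mem_range.1 hp
    rw [hE0, Finset.sum_mul]
    have h1 : ∀ q ∈ Finset.range n, J (q + 1) z₀ * mW (J (p + 1)) v z₀ =
        if q < p then mW (J (p + 1)) v z₀ else 0 := by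
      intro q _
      split_ifs with hq
      · rw [← e5 p v, ← Matrix.mul_assoc, hJm, max_eq_right (by omega : q + 1 ≤ p)]
      · have h2 : J (q + 1) z₀ = J (q + 1) z₀ * J (p + 1) z₀ := by
          rw [hJm, max_eq_left (by omega : p + 1 ≤ q + 1)]
        rw [h2, Matrix.mul_assoc, e3, Matrix.mul_zero]
    rw [Finset.sum_congr rfl h1, ← Finset.sum_filter, Finset.sum_const]
    have h2 : (Finset.range n).filter (fun q => q < p) = Finset.range p := by
      ext q
      simp only [Finset.mem_filter, Finset.mem_range]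
      omega
    rw [h2, Finset.card_range, Nat.cast_smul_eq_nsmul]
  have a2 : ∀ p ∈ Finset.range n, mW (J (p + 1)) v z₀ * E z₀ =
      ((p : ℂ) + 1) • mW (J (p + 1)) v z₀ := by
    intro p hp
    have hp' : p < n := Finset.mem_range.1 hp
    rw [hE0, Finset.mul_sum]
    have h1 : ∀ q ∈ Finset.range n, mW (J (p + 1)) v z₀ * J (q + 1) z₀ =
        if q < p + 1 then mW (J (p + 1)) v z₀ else 0 := by
      intro q _
      split_ifs with hq
      · rw [← e4 (p + 1) v, Matrix.mul_assoc, hJm, max_eq_left (by omega : q + 1 ≤ p + 1)]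
      · have h2 : J (q + 1) z₀ = J (p + 1 + 1) z₀ * J (q + 1) z₀ := by
          rw [hJm, max_eq_right (by omega : p + 1 + 1 ≤ q + 1)]
        rw [h2, ← Matrix.mul_assoc, e6, Matrix.zero_mul]
    rw [Finset.sum_congr rfl h1, ← Finset.sum_filter, Finset.sum_const]
    have h2 : (Finset.range n).filter (fun q => q < p + 1) = Finset.range (p + 1) := by
      ext q
      simp only [Finset.mem_filter, Finset.mem_range]
      omega
    rw [h2, Finset.card_range, ← Nat.cast_smul_eq_nsmul ℂ]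
    push_cast
    rfl
  rw [hW, Finset.mul_sum, Finset.sum_mul, ← Finset.sum_sub_distrib, ← Finset.sum_neg_distrib]
  refine Finset.sum_congr rfl fun p hp => ?_
  rw [a1 p hp, a2 p hp, ← sub_smul]
  have : (p : ℂ) - ((p : ℂ) + 1) = -1 := by ring
  rw [this, neg_one_smul]

end Crest.Agent.R276.Flag_454
end
end

-- ▼ part R276/StepDefs_454
section

/-!
# R276, IPC-STEP (helper454): frozen interface between LOC (175) and PACK (454)

* `HFam m S n` : a family `s ↦ W s` of complex vector spaces with lattices, near-diagonal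
  identifications `τ s s' : W s' → W s`, flat Hermitian forms and filtrations `F s p`, polarised at every
  point, with holomorphic local frames and Griffiths transversality.  (No chosen bases: this is the
  basis-free form of a `VHS m S N n`.)
* `HFam.GAct` : action of a group on such a family.
* `TopData` : the top piece of the family is the space of `L²` holomorphic forms `f dx` with values in
  the top piece of `V`.
* `LocStep` : what has to be proved for the one-step theorem.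
-/

set_option autoImplicit false

noncomputable section

open Set Filter Topology MeasureTheory Matrix
open Crest.Agent.R271.Ho51
open Crest.Agent.R276.Ipc735 Crest.Agent.R276.Lat_348

namespace Crest.Agent.R276.Step_454

/-- polarised family with lattice over a Riemann domain `S`, basis free; types `0 ≤ p ≤ n` -/
structure HFam (m : ℕ) (S : Type) [TopologicalSpace S] [RDom m S] (n : ℕ) where
  /-- the fibre -/
  W : S → Type
  [acg : ∀ s, AddCommGroup (W s)]
  [mod : ∀ s, Module ℂ (W s)]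
  /-- the lattice -/
  L : ∀ s, AddSubgroup (W s)
  lat : ∀ s, IsCLat (L s)
  /-- transport from `s'` to `s` (meaningful for `s`, `s'` close to each other) -/
  τ : ∀ s s', W s' →ₗ[ℂ] W s
  idt : ∀ s v, τ s s v = v
  coc : ∀ z, ∃ U ∈ 𝓝 z, ∀ s ∈ U, ∀ s' ∈ U, ∀ s'' ∈ U, ∀ v, τ s s' (τ s' s'' v) = τ s s'' v
  int : ∀ z, ∃ U ∈ 𝓝 z, ∀ s ∈ U, ∀ s' ∈ U, ∀ v ∈ L s', τ s s' v ∈ L s
  /-- the flat Hermitian form, conjugate linear in the first variable -/
  B : ∀ s, W s →ₗ⋆[ℂ] W s →ₗ[ℂ] ℂ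
  herm : ∀ s u v, B s v u = star (B s u v)
  flat : ∀ z, ∃ U ∈ 𝓝 z, ∀ s ∈ U, ∀ s' ∈ U, ∀ u v, B s (τ s s' u) (τ s s' v) = B s' u v
  /-- the Hodge filtration -/
  F : ∀ s, ℕ → Submodule ℂ (W s)
  top : ∀ s, F s 0 = ⊤
  bot : ∀ s, F s (n + 1) = ⊥
  anti : ∀ s p, F s (p + 1) ≤ F s p
  pos : ∀ s p v, v ∈ F s p → (∀ u ∈ F s (p + 1), B s u v = 0) → v ≠ 0 →
    0 < (-1 : ℝ) ^ p * (B s v v).re
  /-- holomorphic frames of `F p`, transported to `z` -/
  hol : ∀ (z : S) (p : ℕ), ∃ (r : ℕ) (f : Fin r → S → W z),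
    (∀ i (l : W z →ₗ[ℂ] ℂ), HolAt (fun s => l (f i s)) z) ∧
    ∀ᶠ s in 𝓝 z, LinearIndependent ℂ (fun i => f i s) ∧
      Submodule.span ℂ (range fun i => f i s) = (F s p).map (τ z s)
  /-- transversality at `z` -/
  trans : ∀ (z : S) (p : ℕ) (c : S → W z), (∀ l : W z →ₗ[ℂ] ℂ, HolAt (fun s => l (c s)) z) →
    (∀ᶠ s in 𝓝 z, c s ∈ (F s (p + 1)).map (τ z s)) →
    ∀ (j : Fin m) (l : W z →ₗ[ℂ] ℂ), (∀ u ∈ F z p, l u = 0) → dz j (fun s => l (c s)) z = 0

attribute [instance] HFam.acg HFam.mod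

namespace HFam

variable {m n : ℕ} {S : Type} [TopologicalSpace S] [RDom m S]

/-- flat action of a group on the family -/
structure GAct (H : HFam m S n) (Γ : Type) [Group Γ] where
  u : Γ → ∀ s, H.W s →ₗ[ℂ] H.W s
  one : ∀ s v, u 1 s v = v
  mul : ∀ g h s v, u (g * h) s v = u g s (u h s v)
  int : ∀ g s, ∀ v ∈ H.L s, u g s v ∈ H.L s
  flat : ∀ g z, ∃ U ∈ 𝓝 z, ∀ s ∈ U, ∀ s' ∈ U, ∀ v, H.τ s s' (u g s' v) = u g s (H.τ s s' v)
  presB : ∀ g s a b, H.B s (u g s a) (u g s b) = H.B s a b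
  presF : ∀ g s p, ∀ v ∈ H.F s p, u g s v ∈ H.F s p

end HFam

variable {m k N w : ℕ} {S : Type} [TopologicalSpace S] [RDom m S]

/-- the top piece of `H` is the space of `L²` holomorphic forms with values in the top piece of `V` -/
structure TopData (Q : Punc S k) (V : VHS (m + 1) (Tot Q) N w) (H : HFam m S (w + 1)) where
  /-- the class of the form `f dx` -/
  tc : ∀ s, (ℂ → Fin N → ℂ) → H.W s
  add : ∀ s f g, (V.res s).Top f → (V.res s).Top g → tc s (f + g) = tc s f + tc s g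
  smul : ∀ s (c : ℂ) f, (V.res s).Top f → tc s (c • f) = c • tc s f
  mem : ∀ s f, (V.res s).Top f → tc s f ∈ H.F s (w + 1)
  surj : ∀ s, ∀ v ∈ H.F s (w + 1), ∃ f, (V.res s).Top f ∧ tc s f = v
  norm : ∀ s f, (V.res s).Top f → (-1 : ℝ) ^ (w + 1) * (H.B s (tc s f) (tc s f)).re =
    ∫ z in ((Q.A s : Set ℂ)ᶜ), (V.res s).nsq f z
  hol : ∀ (s₀ : S) (f : S → ℂ → Fin N → ℂ), (∀ᶠ s in 𝓝 s₀, (V.res s).Top (f s)) →
    (∀ᶠ s in 𝓝 s₀, HolFib V f s) →
    ∀ l : H.W s₀ →ₗ[ℂ] ℂ, HolAt (fun s => l (H.τ s₀ s (tc s (f s)))) s₀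
  hol' : ∀ (s₀ : S) (f : S → ℂ → Fin N → ℂ), (∀ᶠ s in 𝓝 s₀, (V.res s).Top (f s)) →
    (∀ l : H.W s₀ →ₗ[ℂ] ℂ, HolAt (fun s => l (H.τ s₀ s (tc s (f s)))) s₀) →
    ∀ᶠ s in 𝓝 s₀, HolFib V f s

/-- what has to be proved for the one-step theorem -/
structure LocStep (Q : Punc S k) (V : VHS (m + 1) (Tot Q) N w) where
  H : HFam m S (w + 1)
  T : TopData Q V H
  /-- the action of the automorphisms of `V` -/
  act : ∀ (Γ : Type) [Group Γ] (ρ : Act V Γ), ∃ G : H.GAct Γ, ∀ s g f, (V.res s).Top f →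
    T.tc s (fun x => rM Q (fun q => cm (ρ.ρ g q)) s x *ᵥ f x) = G.u g s (T.tc s f)

/-- **LOC** -/
def Loc : Prop :=
  ∀ (m k N w : ℕ) (S : Type) [TopologicalSpace S] [T2Space S] [PreconnectedSpace S] [RDom m S]
    (Q : Punc S k) (V : VHS (m + 1) (Tot Q) N w), Nonempty (LocStep Q V)

end Crest.Agent.R276.Step_454
end
end

-- ▼ part R276/PackA_454
section

/-!
# R276, IPC-STEP (helper454): PACK, part A: bases, transition matrices, forms
-/

set_option autoImplicit false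

noncomputable section

open Set Filter Topology MeasureTheory Matrix
open scoped ContDiff
open Crest.Agent.R271.Ho51
open Crest.Agent.R276.Ipc735 Crest.Agent.R276.Lat_348 Crest.Agent.R276.Flag_454

namespace Crest.Agent.R276.Step_454

/-! ### conjugation of gradings -/

section conj

variable {N n : ℕ} {S S' E : Matrix (Fin N) (Fin N) ℂ} {F : ℕ → Submodule ℂ (Fin N → ℂ)}
  {g g' : Matrix (Fin N) (Fin N) ℂ}

lemma sf_conj (hS : S = gᴴ * S' * g) (u v : Fin N → ℂ) :
    sf S' (g *ᵥ u) (g *ᵥ v) = sf S u v := by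
  unfold sf
  rw [hS, star_mulVec, ← dotProduct_mulVec, mulVec_mulVec, mulVec_mulVec]

lemma isPrj_conj (h1 : g * g' = 1) (h2 : g' * g = 1) (hS : S = gᴴ * S' * g)
    {G : Submodule ℂ (Fin N → ℂ)} {J : Matrix (Fin N) (Fin N) ℂ} (hJ : IsPrj S G J) :
    IsPrj S' (G.map (Matrix.toLin' g)) (g * J * g') where
  mem v := by
    rw [← mulVec_mulVec, ← mulVec_mulVec]
    exact ⟨J *ᵥ (g' *ᵥ v), hJ.mem _, by simp⟩
  fix := by
    rintro _ ⟨v, hv, rfl⟩
    rw [Matrix.toLin'_apply, mulVec_mulVec]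
    have : g * J * g' * g = g * J := by rw [Matrix.mul_assoc, h2, Matrix.mul_one]
    rw [this, ← mulVec_mulVec, hJ.fix v hv]
  adj := by
    have h3 : S' = g'ᴴ * S * g' := by
      rw [hS]
      have : g'ᴴ * (gᴴ * S' * g) * g' = (g * g')ᴴ * S' * (g * g') := by
        rw [conjTranspose_mul]; simp only [Matrix.mul_assoc]
      rw [this, h1]; simp
    have h4 : (g' * g) = 1 := h2
    calc S' * (g * J * g') = g'ᴴ * S * (g' * g) * J * g' := by
          rw [h3]; simp only [Matrix.mul_assoc]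
      _ = g'ᴴ * (S * J) * g' := by rw [h4, Matrix.mul_one]; simp only [Matrix.mul_assoc]
      _ = g'ᴴ * Jᴴ * S * g' := by rw [hJ.adj]; simp only [Matrix.mul_assoc]
      _ = g'ᴴ * Jᴴ * (g' * g)ᴴ * S * g' := by rw [h4]; simp
      _ = (g * J * g')ᴴ * S' := by
          rw [h3]
          simp only [conjTranspose_mul, Matrix.mul_assoc]

lemma isGr_conj (h1 : g * g' = 1) (h2 : g' * g = 1) (hS : S = gᴴ * S' * g)
    (hE : IsGr n S F E) : IsGr n S' (fun p => (F p).map (Matrix.toLin' g)) (g * E * g') := by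
  obtain ⟨J, hJ, rfl⟩ := hE
  refine ⟨fun p => g * J p * g', fun p => isPrj_conj h1 h2 hS (hJ p), ?_⟩
  rw [Finset.mul_sum, Finset.sum_mul]

end conj

namespace HFam

variable {m n : ℕ} {S : Type} [TopologicalSpace S] [RDom m S] (H : HFam m S n)

lemma inv_near (z : S) : ∃ U ∈ 𝓝 z, ∀ s ∈ U, ∀ s' ∈ U, ∀ v, H.τ s s' (H.τ s' s v) = v := by
  obtain ⟨U, hU, h⟩ := H.coc z
  exact ⟨U, hU, fun s hs s' hs' v => by rw [h s hs s' hs' s hs, H.idt]⟩

instance (s : S) : FiniteDimensional ℂ (H.W s) := (H.lat s).finiteDimensional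

lemma finrank_near (z : S) : ∃ U ∈ 𝓝 z, ∀ s ∈ U,
    Module.finrank ℂ (H.W s) = Module.finrank ℂ (H.W z) := by
  obtain ⟨U, hU, h⟩ := H.inv_near z
  refine ⟨U, hU, fun s hs => ?_⟩
  have hz := mem_of_mem_nhds hU
  exact LinearEquiv.finrank_eq (LinearEquiv.ofLinearMap (H.τ z s) (H.τ s z)
    (LinearMap.ext fun v => h z hz s hs v) (LinearMap.ext fun v => h s hs z hz v))

lemma finrank_const [PreconnectedSpace S] (s s' : S) :
    Module.finrank ℂ (H.W s) = Module.finrank ℂ (H.W s') := by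
  have : IsLocallyConstant (fun s => Module.finrank ℂ (H.W s)) := by
    rw [IsLocallyConstant.iff_eventually_eq]
    intro z
    obtain ⟨U, hU, h⟩ := H.finrank_near z
    exact Filter.eventually_of_mem hU fun s hs => h s hs
  exact this.apply_eq_of_preconnectedSpace s s'

/-- lattice bases with a constant index set -/
lemma exists_bases [PreconnectedSpace S] : ∃ N : ℕ, ∀ s, ∃ b : Module.Basis (Fin N) ℂ (H.W s),
    H.L s = (Submodule.span ℤ (Set.range b)).toAddSubgroup := by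
  by_cases hne : Nonempty S
  · obtain ⟨s₀⟩ := hne
    refine ⟨Module.finrank ℂ (H.W s₀), fun s => ?_⟩
    obtain ⟨N, b, hb⟩ := H.lat s
    have hN : N = Module.finrank ℂ (H.W s₀) := by
      rw [← H.finrank_const s s₀, Module.finrank_eq_card_basis b, Fintype.card_fin]
    subst hN
    exact ⟨b, hb⟩
  · exact ⟨0, fun s => absurd ⟨s⟩ hne⟩

end HFam

/-- choice of lattice bases -/
structure Bas {m n : ℕ} {S : Type} [TopologicalSpace S] [RDom m S] (H : HFam m S n) where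
  N : ℕ
  b : ∀ s, Module.Basis (Fin N) ℂ (H.W s)
  hb : ∀ s, H.L s = (Submodule.span ℤ (Set.range (b s))).toAddSubgroup

namespace HFam

variable {m n : ℕ} {S : Type} [TopologicalSpace S] [RDom m S] (H : HFam m S n)

lemma exists_bas [PreconnectedSpace S] : Nonempty (Bas H) := by
  obtain ⟨N, h⟩ := H.exists_bases
  choose b hb using h
  exact ⟨⟨N, b, hb⟩⟩

end HFam

namespace Bas

variable {m n : ℕ} {S : Type} [TopologicalSpace S] [RDom m S] {H : HFam m S n} (D : Bas H)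

/-- coordinates -/
def e (s : S) : H.W s ≃ₗ[ℂ] (Fin D.N → ℂ) := (D.b s).equivFun

/-- transition matrices -/
def T (s s' : S) : Matrix (Fin D.N) (Fin D.N) ℂ := LinearMap.toMatrix (D.b s') (D.b s) (H.τ s s')

lemma e_τ (s s' : S) (v : H.W s') : D.e s (H.τ s s' v) = D.T s s' *ᵥ D.e s' v := by
  unfold e T
  simp only [Module.Basis.equivFun_apply]
  exact (LinearMap.toMatrix_mulVec_repr (D.b s') (D.b s) (H.τ s s') v).symm

lemma T_self (s : S) : D.T s s = 1 := by
  have : H.τ s s = LinearMap.id := LinearMap.ext (H.idt s)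
  rw [T, this, LinearMap.toMatrix_id]

lemma T_mul (z : S) : ∃ U ∈ 𝓝 z, ∀ s ∈ U, ∀ s' ∈ U, ∀ s'' ∈ U,
    D.T s s' * D.T s' s'' = D.T s s'' := by
  obtain ⟨U, hU, h⟩ := H.coc z
  refine ⟨U, hU, fun s hs s' hs' s'' hs'' => ?_⟩
  unfold T
  rw [← LinearMap.toMatrix_comp]
  congr 1
  exact LinearMap.ext fun v => h s hs s' hs' s'' hs'' v

lemma mem_L_iff (s : S) (v : H.W s) : v ∈ H.L s ↔ v ∈ Submodule.span ℤ (Set.range (D.b s)) := by
  rw [D.hb s]; rfl

lemma exists_GL (z : S) : ∃ U ∈ 𝓝 z, ∀ s ∈ U, ∀ s' ∈ U, ∃ g : GL (Fin D.N) ℤ,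
    cm g = D.T s s' := by
  obtain ⟨U, hU, h⟩ := H.inv_near z
  obtain ⟨U', hU', h'⟩ := H.int z
  refine ⟨U ∩ U', inter_mem hU hU', fun s hs s' hs' => ?_⟩
  let eq : H.W s' ≃ₗ[ℂ] H.W s := LinearEquiv.ofLinearMap (H.τ s s') (H.τ s' s)
    (LinearMap.ext fun v => h s hs.1 s' hs'.1 v) (LinearMap.ext fun v => h s' hs'.1 s hs.1 v)
  obtain ⟨g, hg, -⟩ := exists_GL_int (D.b s') (D.b s) eq (by
    intro l
    rw [← D.mem_L_iff, ← D.mem_L_iff]
    constructor
    · intro hl
      exact h' s hs.2 s' hs'.2 l hl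
    · intro hl
      have h3 : H.τ s' s (H.τ s s' l) ∈ H.L s' := h' s' hs'.2 s hs.2 _ hl
      rwa [h s' hs'.1 s hs.1] at h3)
  exact ⟨g, hg.symm⟩

lemma cm_injective {N : ℕ} : Function.Injective (cm : GL (Fin N) ℤ → _) := by
  intro g h hgh
  apply Units.ext
  ext i j
  have := congrFun (congrFun hgh i) j
  simpa [cm] using this

open Classical in
/-- the near-diagonal cocycle -/
def P (s s' : S) : GL (Fin D.N) ℤ := if h : ∃ g : GL (Fin D.N) ℤ, cm g = D.T s s' then h.choose else 1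

lemma cm_P {s s' : S} (h : ∃ g : GL (Fin D.N) ℤ, cm g = D.T s s') : cm (D.P s s') = D.T s s' := by
  unfold P
  rw [dif_pos h]
  exact h.choose_spec

lemma cm_P_near (z : S) : ∃ U ∈ 𝓝 z, ∀ s ∈ U, ∀ s' ∈ U, cm (D.P s s') = D.T s s' := by
  obtain ⟨U, hU, h⟩ := D.exists_GL z
  exact ⟨U, hU, fun s hs s' hs' => D.cm_P (h s hs s' hs')⟩

lemma ndc : NDC D.P := by
  intro z
  obtain ⟨U, hU, h⟩ := D.cm_P_near z
  obtain ⟨U', hU', h'⟩ := D.T_mul z
  refine ⟨U ∩ U', inter_mem hU hU', fun x hx y hy w hw => ?_⟩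
  apply cm_injective
  rw [cm_mul, h x hx.1 y hy.1, h y hy.1 w hw.1, h x hx.1 w hw.1]
  exact h' x hx.2 y hy.2 w hw.2

lemma P_self (s : S) : D.P s s = 1 := by
  apply cm_injective
  rw [D.cm_P ⟨1, by rw [cm_one, D.T_self]⟩, D.T_self, cm_one]

/-- Gram matrix -/
def Sm (s : S) : Matrix (Fin D.N) (Fin D.N) ℂ := Matrix.of fun i j => H.B s (D.b s i) (D.b s j)

lemma sf_e (s : S) (u v : H.W s) : sf (D.Sm s) (D.e s u) (D.e s v) = H.B s u v := by
  have hu : u = ∑ i, (D.e s u) i • D.b s i := ((D.b s).sum_equivFun u).symm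
  have hv : v = ∑ i, (D.e s v) i • D.b s i := ((D.b s).sum_equivFun v).symm
  conv_rhs => rw [hu, hv]
  simp only [map_sum, LinearMap.sum_apply, map_smul, LinearMap.map_smulₛₗ, LinearMap.smul_apply,
    sf, dotProduct, mulVec, Sm, Matrix.of_apply, Pi.star_apply, smul_eq_mul, Finset.mul_sum]
  rw [Finset.sum_comm]
  refine Finset.sum_congr rfl fun j _ => Finset.sum_congr rfl fun i _ => ?_
  show star (D.e s u i) * (H.B s (D.b s i) (D.b s j) * D.e s v j) =
    D.e s v j * (starRingEnd ℂ (D.e s u i) * H.B s (D.b s i) (D.b s j))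
  rw [starRingEnd_apply]
  ring

lemma herm (s : S) : (D.Sm s).IsHermitian := by
  ext i j
  rw [conjTranspose_apply, Sm, Matrix.of_apply, Matrix.of_apply]
  exact (H.herm s (D.b s j) (D.b s i)).symm

lemma T_form (z : S) : ∃ U ∈ 𝓝 z, ∀ s ∈ U, ∀ s' ∈ U,
    D.Sm s' = (D.T s s')ᴴ * D.Sm s * D.T s s' := by
  obtain ⟨U, hU, h⟩ := H.flat z
  refine ⟨U, hU, fun s hs s' hs' => ?_⟩
  have key : ∀ u v : Fin D.N → ℂ, sf (D.Sm s') u v =
      sf ((D.T s s')ᴴ * D.Sm s * D.T s s') u v := by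
    intro u v
    obtain ⟨u, rfl⟩ := (D.e s').surjective u
    obtain ⟨v, rfl⟩ := (D.e s').surjective v
    rw [sf_e, ← sf_conj (S' := D.Sm s) (g := D.T s s') rfl, ← e_τ, ← e_τ, sf_e, h s hs s' hs']
  ext i j
  have := key (Pi.single i 1) (Pi.single j 1)
  simpa [sf] using this

/-- the filtration in coordinates -/
def Fm (s : S) (p : ℕ) : Submodule ℂ (Fin D.N → ℂ) := (H.F s p).map (D.e s).toLinearMap

lemma mem_Fm {s : S} {p : ℕ} {v : H.W s} : D.e s v ∈ D.Fm s p ↔ v ∈ H.F s p := by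
  unfold Fm
  constructor
  · rintro ⟨w, hw, hwv⟩
    have := (D.e s).injective hwv
    rwa [← this]
  · intro hv
    exact ⟨v, hv, rfl⟩

lemma isFl (s : S) : IsFl n (D.Sm s) (D.Fm s) where
  herm := D.herm s
  top := by
    rw [Fm, H.top, Submodule.map_top, LinearEquiv.range]
  bot := by
    rw [Fm, H.bot, Submodule.map_bot]
  anti p := Submodule.map_mono (H.anti s p)
  pos p v hv h0 hne := by
    obtain ⟨v, hv, rfl⟩ := hv
    have h1 : sf (D.Sm s) ((D.e s).toLinearMap v) ((D.e s).toLinearMap v) = H.B s v v :=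
      D.sf_e s v v
    rw [h1]
    refine H.pos s p v hv (fun u hu => ?_) ?_
    · rw [← D.sf_e]
      exact h0 _ ⟨u, hu, rfl⟩
    · rintro rfl
      exact hne (map_zero _)

/-- the grading operator -/
def Em (s : S) : Matrix (Fin D.N) (Fin D.N) ℂ := (D.isFl s).exists_gr.choose

lemma isGr (s : S) : IsGr n (D.Sm s) (D.Fm s) (D.Em s) := (D.isFl s).exists_gr.choose_spec

end Bas

end Crest.Agent.R276.Step_454
end
end

-- ▼ part R276/PackB_454

/-!
# R276, IPC-STEP (helper454): PACK, part B: the variation of Hodge structure of an `HFam`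
-/

set_option autoImplicit false

noncomputable section

open Set Filter Topology MeasureTheory Matrix
open scoped ContDiff
open Crest.Agent.R271.Ho51
open Crest.Agent.R276.Ipc735 Crest.Agent.R276.Lat_348 Crest.Agent.R276.Flag_454
open Crest.Agent.R276.VCalc_442

namespace Crest.Agent.R276.Step_454

section conj

variable {N n : ℕ} {S S' E : Matrix (Fin N) (Fin N) ℂ} {F : ℕ → Submodule ℂ (Fin N → ℂ)}
  {g g' : Matrix (Fin N) (Fin N) ℂ}

lemma isFl_conj (h1 : g * g' = 1) (hS : S = gᴴ * S' * g) (hS' : S'.IsHermitian)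
    (hF : IsFl n S F) : IsFl n S' (fun p => (F p).map (Matrix.toLin' g)) where
  herm := hS'
  top := by
    rw [hF.top, Submodule.map_top, LinearMap.range_eq_top]
    intro v
    exact ⟨g' *ᵥ v, by rw [Matrix.toLin'_apply, mulVec_mulVec, h1, one_mulVec]⟩
  bot := by rw [hF.bot, Submodule.map_bot]
  anti p := Submodule.map_mono (hF.anti p)
  pos p v hv h0 hne := by
    obtain ⟨v, hv, rfl⟩ := hv
    rw [Matrix.toLin'_apply] at h0 hne ⊢
    rw [sf_conj hS]
    refine hF.pos p v hv (fun u hu => ?_) ?_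
    · rw [← sf_conj hS]
      exact h0 _ ⟨u, hu, by rw [Matrix.toLin'_apply]⟩
    · rintro rfl
      exact hne (mulVec_zero _)

end conj

section chart

variable {m : ℕ} {S : Type*} [TopologicalSpace S] [RDom m S]

/-- the inverse of the standard chart -/
lemma tendsto_symm (z : S) : Tendsto (ch z).symm (𝓝 (cp z)) (𝓝 z) := by
  have h1 : cp z ∈ (ch z).target := (isCh_ch z).cp_mem (mem_ch z)
  have h2 := (ch z).symm.continuousAt (x := cp z) (by simpa using h1)
  have h3 : (ch z).symm (cp z) = z := (isCh_ch z).symm_cp (mem_ch z)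
  have h4 : Tendsto (ch z).symm (𝓝 (cp z)) (𝓝 ((ch z).symm (cp z))) := h2
  rwa [h3] at h4

lemma symm_cp' (z : S) : (ch z).symm (cp z) = z := (isCh_ch z).symm_cp (mem_ch z)

lemma eventually_symm {p : S → Prop} {z : S} (h : ∀ᶠ s in 𝓝 z, p s) :
    ∀ᶠ x in 𝓝 (cp z), p ((ch z).symm x) := (tendsto_symm z).eventually h

lemma eventually_cp_symm (z : S) : ∀ᶠ x in 𝓝 (cp z), cp ((ch z).symm x) = x := by
  have h1 : (ch z).target ∈ 𝓝 (cp z) := (ch z).open_target.mem_nhds ((isCh_ch z).cp_mem (mem_ch z))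
  filter_upwards [h1] with x hx using (isCh_ch z).cp_symm hx

lemma eventually_symm_cp (z : S) : ∀ᶠ s in 𝓝 z, (ch z).symm (cp s) = s := by
  filter_upwards [(ch z).open_source.mem_nhds (mem_ch z)] with s hs using (isCh_ch z).symm_cp hs

lemma eventually_of_symm {p : S → Prop} {z : S} (h : ∀ᶠ x in 𝓝 (cp z), p ((ch z).symm x)) :
    ∀ᶠ s in 𝓝 z, p s := by
  have h1 : ∀ᶠ s in 𝓝 z, p ((ch z).symm (cp s)) := (cp_cont.continuousAt (x := z)).eventually h
  filter_upwards [h1, eventually_symm_cp z] with s h2 h3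
  rwa [h3] at h2

lemma mW_eq_dz {ι κ : Type*} (M : S → Matrix ι κ ℂ) (z : S) (j : Fin m) (i : ι) (k : κ) :
    mW (fun x => M ((ch z).symm x)) (Pi.single j 1) (cp z) i k = dz j (fun y => M y i k) z := by
  have h : (Complex.I • (Pi.single j 1 : Fin m → ℂ)) = Pi.single j Complex.I := by
    rw [← Pi.single_smul, smul_eq_mul, mul_one]
  simp only [mW, Matrix.of_apply, dW, dz, Crest.Agent.R271.Ho51.wz, D, h, smul_eq_mul]
  rfl

lemma wz_of_complex {h : (Fin m → ℂ) → ℂ} {x : Fin m → ℂ} (hd : DifferentiableAt ℂ h x)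
    (j : Fin m) : Crest.Agent.R271.Ho51.wz j (fderiv ℝ h x) = fderiv ℂ h x (Pi.single j 1) := by
  have h0 : (Pi.single j Complex.I : Fin m → ℂ) = Complex.I • Pi.single j 1 := by
    rw [← Pi.single_smul, smul_eq_mul, mul_one]
  have h1 : fderiv ℝ h x = (fderiv ℂ h x).restrictScalars ℝ :=
    (hd.hasFDerivAt.restrictScalars ℝ).fderiv
  rw [Crest.Agent.R271.Ho51.wz, h1, h0]
  simp only [ContinuousLinearMap.coe_restrictScalars', map_smul, smul_eq_mul]
  rw [← mul_assoc, Complex.I_mul_I]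
  ring

end chart

namespace Bas

variable {m n : ℕ} {S : Type} [TopologicalSpace S] [RDom m S] {H : HFam m S n} (D : Bas H)

/-- the filtration at `s` seen from `z` -/
def Fz (z s : S) (p : ℕ) : Submodule ℂ (Fin D.N → ℂ) :=
  ((H.F s p).map (H.τ z s)).map (D.e z).toLinearMap

lemma Fz_self (z : S) (p : ℕ) : D.Fz z z p = D.Fm z p := by
  have : H.τ z z = LinearMap.id := LinearMap.ext (H.idt z)
  rw [Fz, this, Submodule.map_id, Fm]

lemma map_Fm {z s : S} (h : cm (D.P z s) = D.T z s) (p : ℕ) :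
    (D.Fm s p).map (Matrix.toLin' (cm (D.P z s))) = D.Fz z s p := by
  unfold Fm Fz
  rw [← Submodule.map_comp, ← Submodule.map_comp]
  congr 1
  apply LinearMap.ext
  intro v
  simp only [LinearMap.comp_apply, LinearEquiv.coe_coe, Matrix.toLin'_apply]
  rw [h, e_τ]

lemma flatS (z : S) : ∀ᶠ y in 𝓝 z, D.Sm y = (cm (D.P z y))ᴴ * D.Sm z * cm (D.P z y) := by
  obtain ⟨U, hU, h⟩ := D.cm_P_near z
  obtain ⟨U', hU', h'⟩ := D.T_form z
  filter_upwards [inter_mem hU hU'] with y hy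
  rw [h z (mem_of_mem_nhds hU) y hy.1]
  exact h' z (mem_of_mem_nhds hU') y hy.2

lemma near (z : S) : ∀ᶠ s in 𝓝 z, IsFl n (D.Sm z) (D.Fz z s) ∧
    IsGr n (D.Sm z) (D.Fz z s) (lM D.P D.Em z s) := by
  obtain ⟨U, hU, h⟩ := D.cm_P_near z
  filter_upwards [D.flatS z, hU] with s hs hsU
  have hF : (fun p => (D.Fm s p).map (Matrix.toLin' (cm (D.P z s)))) = D.Fz z s :=
    funext fun p => D.map_Fm (h z (mem_of_mem_nhds hU) s hsU) p
  constructor
  · rw [← hF]
    exact isFl_conj (cm_mul_cm_inv _) hs (D.herm z) (D.isFl s)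
  · rw [← hF]
    exact isGr_conj (cm_mul_cm_inv _) (cm_inv_mul_cm _) hs (D.isGr s)

lemma hasFrame (z : S) (p : ℕ) : HasFrame (fun x => D.Fz z ((ch z).symm x) p) (cp z) := by
  obtain ⟨r, f, hf, hspan⟩ := H.hol z p
  refine ⟨r, fun x => Matrix.of fun i j => D.e z (f j ((ch z).symm x)) i, ?_, ?_⟩
  · intro i j
    exact hf j (LinearMap.proj i ∘ₗ (D.e z).toLinearMap)
  · filter_upwards [eventually_symm hspan] with x hx
    have key : ∀ c : Fin r → ℂ, (Matrix.of fun i j => D.e z (f j ((ch z).symm x)) i) *ᵥ c =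
        D.e z (∑ j, c j • f j ((ch z).symm x)) := by
      intro c
      ext i
      simp only [mulVec, dotProduct, Matrix.of_apply, map_sum, map_smul, Finset.sum_apply,
        Pi.smul_apply, smul_eq_mul]
      exact Finset.sum_congr rfl fun j _ => mul_comm _ _
    constructor
    · intro c hc
      rw [key] at hc
      have h1 : ∑ j, c j • f j ((ch z).symm x) = 0 := by
        apply (D.e z).injective
        rw [hc, map_zero]
      funext j
      exact Fintype.linearIndependent_iff.1 hx.1 c h1 j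
    · intro v
      rw [Fz, ← hx.2]
      constructor
      · rintro ⟨u, hu, rfl⟩
        obtain ⟨c, rfl⟩ := (Submodule.mem_span_range_iff_exists_fun ℂ).1 hu
        exact ⟨c, (key c).symm⟩
      · rintro ⟨c, rfl⟩
        rw [key]
        exact ⟨_, (Submodule.mem_span_range_iff_exists_fun ℂ).2 ⟨c, rfl⟩, rfl⟩

lemma transv (z : S) : Trans (fun x => D.Fz z ((ch z).symm x)) (cp z) := by
  intro p c hc hmem v
  -- the family with values in `W z`
  set c' : S → H.W z := fun s => (D.e z).symm (c (cp s)) with hc'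
  have hcomp : ∀ l : H.W z →ₗ[ℂ] ℂ, ((fun s => l (c' s)) ∘ (ch z).symm) =ᶠ[𝓝 (cp z)]
      fun x => (l ∘ₗ (D.e z).symm.toLinearMap) (c x) := by
    intro l
    filter_upwards [eventually_cp_symm z] with x hx
    simp only [Function.comp_apply, hc', hx, LinearMap.comp_apply, LinearEquiv.coe_coe]
  have hlin : ∀ l : H.W z →ₗ[ℂ] ℂ, AnalyticAt ℂ
      (fun x => (l ∘ₗ (D.e z).symm.toLinearMap) (c x)) (cp z) := by
    intro l
    exact ((LinearMap.toContinuousLinearMap
      (l ∘ₗ (D.e z).symm.toLinearMap)).analyticAt (c (cp z))).comp hc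
  have hhol : ∀ l : H.W z →ₗ[ℂ] ℂ, HolAt (fun s => l (c' s)) z := fun l =>
    (hlin l).congr (hcomp l).symm
  have hmem' : ∀ᶠ s in 𝓝 z, c' s ∈ (H.F s (p + 1)).map (H.τ z s) := by
    apply eventually_of_symm
    filter_upwards [hmem, eventually_cp_symm z] with x hx hx'
    obtain ⟨u, hu, hux⟩ := hx
    have : c' ((ch z).symm x) = u := by
      simp only [hc', hx']
      rw [← hux]
      simp
    rw [this]
    exact hu
  have key := H.trans z p c' hhol hmem'
  -- the derivative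
  have hF0 : (fun x => D.Fz z ((ch z).symm x)) (cp z) p = D.Fm z p := by
    show D.Fz z ((ch z).symm (cp z)) p = D.Fm z p
    rw [symm_cp', Fz_self]
  rw [hF0]
  by_contra hnot
  obtain ⟨l, hl1, hl2⟩ := Submodule.exists_dual_map_eq_bot_of_notMem hnot inferInstance
  have hl0 : ∀ u ∈ D.Fm z p, l u = 0 := by
    intro u hu
    have : l u ∈ Submodule.map l (D.Fm z p) := ⟨u, hu, rfl⟩
    rw [hl2] at this
    simpa using this
  apply hl1
  -- apply `key` to `l ∘ e`
  have h1 : ∀ j, fderiv ℂ (fun x => l (c x)) (cp z) (Pi.single j 1) = 0 := by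
    intro j
    have h2 := key j (l ∘ₗ (D.e z).toLinearMap) (fun u hu => hl0 _ (D.mem_Fm.2 hu))
    rw [dz, D_eq (isCh_ch z) (mem_ch z), (hcomp (l ∘ₗ (D.e z).toLinearMap)).fderiv_eq] at h2
    have h3 : (fun x => ((l ∘ₗ (D.e z).toLinearMap) ∘ₗ (D.e z).symm.toLinearMap) (c x)) =
        fun x => l (c x) := by
      funext x
      simp
    rw [h3] at h2
    rw [← h2]
    refine (wz_of_complex ?_ j).symm
    have h4 := (hlin (l ∘ₗ (D.e z).toLinearMap)).differentiableAt
    rwa [h3] at h4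
  have hcd : DifferentiableAt ℂ c (cp z) := hc.differentiableAt
  have h5 : fderiv ℂ (fun x => l (c x)) (cp z) v = l (fderiv ℂ c (cp z) v) := by
    have h6 : HasFDerivAt (fun x => (LinearMap.toContinuousLinearMap l) (c x))
        ((LinearMap.toContinuousLinearMap l).comp (fderiv ℂ c (cp z))) (cp z) :=
      (LinearMap.toContinuousLinearMap l).hasFDerivAt.comp (cp z) hcd.hasFDerivAt
    have h7 : (fun x => (LinearMap.toContinuousLinearMap l) (c x)) = fun x => l (c x) := rfl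
    rw [h7] at h6
    rw [h6.fderiv]
    rfl
  rw [← h5, ← Finset.univ_sum_single v, map_sum]
  apply Finset.sum_eq_zero
  intro j _
  have h8 : (Pi.single j (v j) : Fin m → ℂ) = v j • Pi.single j 1 := by
    rw [← Pi.single_smul, smul_eq_mul, mul_one]
  rw [h8, map_smul, h1, smul_zero]

theorem flag_at (z : S) : ESm (fun x => lM D.P D.Em z ((ch z).symm x)) (cp z) ∧
    ∀ v, lM D.P D.Em z ((ch z).symm (cp z)) *
        mW (fun x => lM D.P D.Em z ((ch z).symm x)) v (cp z) -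
      mW (fun x => lM D.P D.Em z ((ch z).symm x)) v (cp z) *
        lM D.P D.Em z ((ch z).symm (cp z)) =
      - mW (fun x => lM D.P D.Em z ((ch z).symm x)) v (cp z) :=
  flag (S := D.Sm z) (F := fun x => D.Fz z ((ch z).symm x))
    (eventually_symm ((D.near z).mono fun _ h => h.1)) (D.hasFrame z) (D.transv z)
    (eventually_symm ((D.near z).mono fun _ h => h.2))

lemma lM_self (z : S) : lM D.P D.Em z z = D.Em z := by
  unfold lM
  rw [D.P_self]
  simp

/-- **the packed variation** -/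
def vhs : VHS m S D.N n where
  P := D.P
  S := D.Sm
  E := D.Em
  ndc := D.ndc
  hs s := (D.isFl s).isHS (D.isGr s)
  flatS := D.flatS
  smE z i k := (D.flag_at z).1 i k
  tr z j := by
    have h := (D.flag_at z).2 (Pi.single j 1)
    rw [symm_cp', lM_self] at h
    have h1 : mW (fun x => lM D.P D.Em z ((ch z).symm x)) (Pi.single j 1) (cp z) =
        dM D.P D.Em j z := by
      ext i k
      rw [mW_eq_dz (fun y => lM D.P D.Em z y) z j i k]
      rfl
    rw [h1] at h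
    exact h

@[simp] lemma vhs_P : D.vhs.P = D.P := rfl
@[simp] lemma vhs_S : D.vhs.S = D.Sm := rfl
@[simp] lemma vhs_E : D.vhs.E = D.Em := rfl

/-- transport in coordinates -/
lemma e_τ_near (z : S) : ∃ U ∈ 𝓝 z, ∀ s ∈ U, ∀ s' ∈ U, ∀ v,
    D.e s (H.τ s s' v) = cm (D.P s s') *ᵥ D.e s' v := by
  obtain ⟨U, hU, h⟩ := D.cm_P_near z
  exact ⟨U, hU, fun s hs s' hs' v => by rw [h s hs s' hs', e_τ]⟩

/-- eigenvectors of the grading operator -/
lemma Em_iff {s : S} {p : ℕ} (hp : p ≤ n) (v : H.W s) :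
    D.Em s *ᵥ D.e s v = (p : ℂ) • D.e s v ↔ v ∈ H.F s p ∧ ∀ u ∈ H.F s (p + 1), H.B s u v = 0 := by
  rw [(D.isFl s).eig_iff (D.isGr s) hp, mem_Fm]
  refine and_congr_right fun _ => ?_
  constructor
  · intro h u hu
    rw [← D.sf_e]
    exact h _ (D.mem_Fm.2 hu)
  · rintro h u ⟨u, hu, rfl⟩
    have : sf (D.Sm s) ((D.e s).toLinearMap u) (D.e s v) = H.B s u v := D.sf_e s u v
    rw [this]
    exact h u hu

lemma Em_top_iff {s : S} (v : H.W s) :
    D.Em s *ᵥ D.e s v = (n : ℂ) • D.e s v ↔ v ∈ H.F s n := by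
  rw [(D.isFl s).top_iff (D.isGr s), mem_Fm]

lemma mem_L_int {s : S} (v : H.W s) :
    v ∈ H.L s ↔ ∃ a : Fin D.N → ℤ, D.e s v = fun i => (a i : ℂ) := by
  rw [D.mem_L_iff, mem_span_int_iff]
  constructor
  · intro h
    choose a ha using h
    exact ⟨a, funext fun i => ha i⟩
  · rintro ⟨a, ha⟩ i
    exact ⟨a i, congrFun ha i⟩

end Bas

end Crest.Agent.R276.Step_454
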