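import Crest.Agent.R276.IpcL2_975

/-!
# R276, leaf IPC-NAT (helper591), part 2: bundle maps over diffeomorphisms in helper975's model

`Mor F F' Ψ K` : `Ψ` maps `X'` to `X`, `K x : V_{Ψ x} → V'_x` smooth in frames, proper.
`pb K Ψ φ x = K x (φ (Ψ x))`.
`MMor M M' Ψ K J C` : moreover change of variables with density `J` and
`G'_x(K u, K u) ≤ C² J G_{Ψ x}(u, u)`; `T h : M.L2 →L[ℂ] M'.L2` the induced operator.
-/

set_option autoImplicit false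

open Set Filter Topology MeasureTheory UniformSpace
open scoped ContDiff ComplexConjugate

namespace Crest.Agent.R276.Nat_591

open VCalc_442 IpcGr_975 IpcG1_975

variable {V V' : Type*} [NormedAddCommGroup V] [NormedSpace ℂ V] [NormedAddCommGroup V']
  [NormedSpace ℂ V'] {X X' : Set ℂ}

/-- bundle map over `Ψ` -/
structure Mor (F : FB V X) (F' : FB V' X') (Ψ : ℂ → ℂ) (K : ℂ → (V →L[ℂ] V')) : Prop where
  maps : ∀ x ∈ X', Ψ x ∈ X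
  smΨ : ∀ x ∈ X', ContDiffAt ℝ ∞ Ψ x
  smK : ∀ z ∈ X', ContDiffAt ℝ ∞ (fun y => (F'.P z y).comp ((K y).comp (F.P (Ψ y) (Ψ z)))) z
  prop : ∀ K₀ ⊆ X, IsCompact K₀ → ∃ K₁ ⊆ X', IsCompact K₁ ∧ ∀ x ∉ K₁, Ψ x ∉ K₀

/-- pull-back of sections -/
def pb (K : ℂ → (V →L[ℂ] V')) (Ψ : ℂ → ℂ) (φ : ℂ → V) : ℂ → V' := fun x => K x (φ (Ψ x))

namespace Mor

variable {F : FB V X} {F' : FB V' X'} {Ψ : ℂ → ℂ} {K : ℂ → (V →L[ℂ] V')}

theorem tr_pb (h : Mor F F' Ψ K) {z : ℂ} (hz : z ∈ X') (φ : ℂ → V) :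
    F'.tr z (pb K Ψ φ) =ᶠ[𝓝 z] fun y =>
      ((F'.P z y).comp ((K y).comp (F.P (Ψ y) (Ψ z)))) (F.tr (Ψ z) φ (Ψ y)) := by
  obtain ⟨U, hU⟩ := F.exists_nb (h.maps z hz)
  have hc : ∀ᶠ y in 𝓝 z, Ψ y ∈ U :=
    (h.smΨ z hz).continuousAt.eventually (hU.op.mem_nhds hU.mem)
  filter_upwards [hc] with y hy
  unfold FB.tr pb
  simp only [ContinuousLinearMap.comp_apply]
  rw [hU.inv_apply hy hU.mem]

theorem sm (h : Mor F F' Ψ K) {φ : ℂ → V} (hφ : F.Sm φ) : F'.Sm (pb K Ψ φ) := by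
  intro z hz
  refine ContDiffAt.congr_of_eventuallyEq ?_ (h.tr_pb hz φ)
  have h1 : ContDiffAt ℝ ∞ (fun y => F.tr (Ψ z) φ (Ψ y)) z :=
    (hφ (Ψ z) (h.maps z hz)).comp z (h.smΨ z hz)
  have hc : ContDiffAt ℝ ∞
      (fun y => ((F'.P z y).comp ((K y).comp (F.P (Ψ y) (Ψ z)))).restrictScalars ℝ) z :=
    (ContinuousLinearMap.restrictScalarsL ℂ V V' ℝ ℝ).contDiff.contDiffAt.comp z (h.smK z hz)
  exact hc.clm_apply h1

theorem cpt (h : Mor F F' Ψ K) {φ : ℂ → V} (hφ : FB.Cpt X φ) : FB.Cpt X' (pb K Ψ φ) := by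
  obtain ⟨K₀, hK, hKc, h0⟩ := hφ
  obtain ⟨K₁, hK₁, hKc₁, h1⟩ := h.prop K₀ hK hKc
  refine ⟨K₁, hK₁, hKc₁, fun x hx => ?_⟩
  unfold pb
  rw [h0 _ (h1 x hx), map_zero]

theorem mem_A0 (h : Mor F F' Ψ K) {φ : ℂ → V} (hφ : φ ∈ F.A0) : pb K Ψ φ ∈ F'.A0 :=
  ⟨h.sm hφ.1, h.cpt hφ.2⟩

end Mor

theorem pb_add (K : ℂ → (V →L[ℂ] V')) (Ψ : ℂ → ℂ) (φ ψ : ℂ → V) :
    pb K Ψ (fun z => φ z + ψ z) = fun z => pb K Ψ φ z + pb K Ψ ψ z := by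
  funext z
  simp [pb]

theorem pb_smul (K : ℂ → (V →L[ℂ] V')) (Ψ : ℂ → ℂ) (c : ℂ) (φ : ℂ → V) :
    pb K Ψ (fun z => c • φ z) = fun z => c • pb K Ψ φ z := by
  funext z
  simp [pb]

/-- metric bundle map -/
structure MMor (M : MB V X) (M' : MB V' X') (Ψ : ℂ → ℂ) (K : ℂ → (V →L[ℂ] V')) (J : ℂ → ℝ)
    (C : ℝ) : Prop extends Mor M.toFB M'.toFB Ψ K where
  off : ∀ x ∉ X', Ψ x ∉ X
  C0 : 0 ≤ C
  J0 : ∀ x, 0 ≤ J x
  cov : ∀ g : ℂ → ℂ, ∫ y, g y = ∫ x, J x • g (Ψ x)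
  cov' : ∀ g : ℂ → ℂ, Integrable g → Integrable (fun x => J x • g (Ψ x))
  bd : ∀ x ∈ X', ∀ u, (M'.G x (K x u) (K x u)).re ≤ C ^ 2 * (J x * (M.G (Ψ x) u u).re)

namespace MMor

variable {M : MB V X} {M' : MB V' X'} {Ψ : ℂ → ℂ} {K : ℂ → (V →L[ℂ] V')} {J : ℂ → ℝ} {C : ℝ}

theorem norm_le (h : MMor M M' Ψ K J C) (φ : M.H0) :
    ‖M'.s0 (pb K Ψ φ.f) (h.toMor.mem_A0 φ.mem)‖ ≤ C * ‖φ‖ := by
  rw [← abs_of_nonneg (norm_nonneg (M'.s0 _ _)), ← abs_of_nonneg (mul_nonneg h.C0 (norm_nonneg φ)),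
    ← sq_le_sq, mul_pow, MB.norm_sq_H0, MB.norm_sq_H0]
  have i1 : Integrable (fun x => M.G x (φ.f x) (φ.f x)) := (M.cs φ.mem φ.mem).integrable
  have i2 : Integrable (fun x => J x • M.G (Ψ x) (φ.f (Ψ x)) (φ.f (Ψ x))) := h.cov' _ i1
  have i3 : Integrable (fun x => J x * (M.G (Ψ x) (φ.f (Ψ x)) (φ.f (Ψ x))).re) := by
    have := i2.re
    refine this.congr (Eventually.of_forall fun x => ?_)
    simp
  have i4 : Integrable (fun x => (M'.G x (pb K Ψ φ.f x) (pb K Ψ φ.f x)).re) :=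
    (M'.cs (h.toMor.mem_A0 φ.mem) (h.toMor.mem_A0 φ.mem)).integrable.re
  have e1 : ∫ x, (M.G x (φ.f x) (φ.f x)).re = ∫ x, J x * (M.G (Ψ x) (φ.f (Ψ x)) (φ.f (Ψ x))).re := by
    have h1 := h.cov (fun x => M.G x (φ.f x) (φ.f x))
    have h2 := congrArg Complex.re h1
    have h3 : (∫ x, M.G x (φ.f x) (φ.f x)).re = ∫ x, (M.G x (φ.f x) (φ.f x)).re :=
      (integral_re i1).symm
    have h4 : (∫ x, J x • M.G (Ψ x) (φ.f (Ψ x)) (φ.f (Ψ x))).re =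
        ∫ x, (J x • M.G (Ψ x) (φ.f (Ψ x)) (φ.f (Ψ x))).re := (integral_re i2).symm
    rw [h3, h4] at h2
    rw [h2]
    refine integral_congr_ae (Eventually.of_forall fun x => ?_)
    simp
  rw [e1, ← integral_const_mul]
  refine integral_mono i4 (i3.const_mul _) fun x => ?_
  by_cases hx : x ∈ X'
  · exact h.bd x hx (φ.f (Ψ x))
  · obtain ⟨L, hL, -, h0⟩ := (h.toMor.mem_A0 φ.mem).2
    have : pb K Ψ φ.f x = 0 := h0 x (fun hh => hx (hL hh))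
    have e2 : (M'.G x ((M'.s0 (pb K Ψ φ.f) (h.toMor.mem_A0 φ.mem)).f x)
        ((M'.s0 (pb K Ψ φ.f) (h.toMor.mem_A0 φ.mem)).f x)).re = 0 := by
      rw [MB.s0_f, this]
      simp
    show (M'.G x ((M'.s0 (pb K Ψ φ.f) (h.toMor.mem_A0 φ.mem)).f x)
        ((M'.s0 (pb K Ψ φ.f) (h.toMor.mem_A0 φ.mem)).f x)).re ≤ _
    rw [e2]
    by_cases h5 : Ψ x ∈ X
    · exact mul_nonneg (sq_nonneg _) (mul_nonneg (h.J0 x) (M.G_nonneg h5 _))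
    · obtain ⟨L', hL', -, h0'⟩ := φ.mem.2
      have : φ.f (Ψ x) = 0 := h0' _ (fun hh => h5 (hL' hh))
      simp [this]

/-- the operator on smooth compactly supported sections -/
noncomputable def T0 (h : MMor M M' Ψ K J C) : M.H0 →L[ℂ] M'.H0 :=
  LinearMap.mkContinuous
    { toFun := fun φ => M'.s0 (pb K Ψ φ.f) (h.toMor.mem_A0 φ.mem)
      map_add' := fun φ ψ => MB.H0.ext (by
        funext z
        simp only [MB.s0_f, MB.add_f, pb_add])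
      map_smul' := fun c φ => MB.H0.ext (by
        funext z
        simp only [MB.s0_f, MB.smul_f, pb_smul, RingHom.id_apply]) } C
    (fun φ => h.norm_le φ)


/-- **the induced operator between the `L²` spaces** -/
noncomputable def T (h : MMor M M' Ψ K J C) : M.L2 →L[ℂ] M'.L2 := h.T0.completion

theorem T_coe (h : MMor M M' Ψ K J C) (φ : M.H0) :
    h.T (φ : M.L2) = (M'.s0 (pb K Ψ φ.f) (h.toMor.mem_A0 φ.mem) : M'.H0) := by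
  unfold T
  rw [ContinuousLinearMap.completion_apply_coe]
  rfl


/-- inverse maps -/
theorem T_T {Φ : ℂ → ℂ} {K' : ℂ → (V' →L[ℂ] V)} {J' : ℂ → ℝ} {C' : ℝ}
    (h : MMor M M' Ψ K J C) (h' : MMor M' M Φ K' J' C') (hΨ : ∀ y, Ψ (Φ y) = y)
    (hK : ∀ y ∈ X, ∀ v, K' y (K (Φ y) v) = v) (u : M.L2) : h'.T (h.T u) = u := by
  refine Completion.induction_on u (isClosed_eq (by fun_prop) (by fun_prop)) fun φ => ?_
  rw [h.T_coe, h'.T_coe]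
  congr 1
  refine MB.H0.ext ?_
  funext y
  show K' y (K (Φ y) (φ.f (Ψ (Φ y)))) = φ.f y
  rw [hΨ]
  by_cases hy : y ∈ X
  · exact hK y hy _
  · obtain ⟨L, hL, -, h0⟩ := φ.mem.2
    rw [h0 y (fun hh => hy (hL hh)), map_zero, map_zero]

/-- the isomorphism -/
noncomputable def TE {Φ : ℂ → ℂ} {K' : ℂ → (V' →L[ℂ] V)} {J' : ℂ → ℝ} {C' : ℝ}
    (h : MMor M M' Ψ K J C) (h' : MMor M' M Φ K' J' C') (hΨ : ∀ y, Ψ (Φ y) = y)
    (hΦ : ∀ x, Φ (Ψ x) = x) (hK : ∀ y ∈ X, ∀ v, K' y (K (Φ y) v) = v)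
    (hK' : ∀ x ∈ X', ∀ v, K x (K' (Ψ x) v) = v) : M.L2 ≃L[ℂ] M'.L2 :=
  ContinuousLinearEquiv.equivOfInverse h.T h'.T (T_T h h' hΨ hK) (T_T h' h hΦ hK')

/-- intertwining with fields of operators -/
theorem T_op (h : MMor M M' Ψ K J C) {A : ℂ → (V →L[ℂ] V)} {A' : ℂ → (V' →L[ℂ] V')}
    (hA : M.Ok A) (hA' : M'.Ok A') (hAA : ∀ x ∈ X', ∀ v, K x (A (Ψ x) v) = A' x (K x v))
    (u : M.L2) : h.T (M.opL A u) = M'.opL A' (h.T u) := by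
  refine M.dense_ext (f := fun u => h.T (M.opL A u)) (g := fun u => M'.opL A' (h.T u))
    (h.T.continuous.comp (M.opL A).continuous) ((M'.opL A').continuous.comp h.T.continuous)
    (fun φ => ?_) u
  show h.T (M.opL A (φ : M.L2)) = M'.opL A' (h.T (φ : M.L2))
  rw [M.op_coe hA, h.T_coe, h.T_coe, M'.op_coe hA']
  congr 1
  refine MB.H0.ext ?_
  funext x
  show K x (A (Ψ x) (φ.f (Ψ x))) = A' x (K x (φ.f (Ψ x)))
  by_cases hx : x ∈ X'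
  · exact hAA x hx _
  · have e : ∀ ψ ∈ M.A0, K x (ψ (Ψ x)) = 0 := by
      intro ψ hψ
      obtain ⟨L, hL, -, h0⟩ := (h.toMor.mem_A0 hψ).2
      exact h0 x (fun hh => hx (hL hh))
    have e1 := e _ φ.mem
    have e2 := e _ (FB.app_mem_A0 hA.1 φ.mem)
    rw [e1, map_zero]
    exact e2


end MMor

end Crest.Agent.R276.Nat_591
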