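import Mathlib
import Crest.Agent.R276.Nat2_591
import Crest.Agent.R276.K4_817
import Crest.Agent.R276.IpcRg_975
import Crest.Agent.R276.Nat7_591
import Crest.Agent.R276.DR_175

-- ▼ part R276/RepC_201
section

/-!
# R276, IPC: representation calculus in the completion model of `IpcL2_975` (helper201)

`Rep M u φ` : the element `u : M.L2` is represented by the smooth section `φ`, i.e.
`⟪ζ, u⟫ = ∫ G(ζ, φ)` for all smooth compactly supported `ζ`.
-/

set_option autoImplicit false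
set_option linter.unusedSectionVars false

open Set Filter Topology MeasureTheory UniformSpace
open scoped ContDiff ComplexConjugate

namespace Crest.Agent.R276.RepC_201

open Crest.Agent.R276.IpcG1_975 Crest.Agent.R276.K4_817 Crest.Agent.R276.Nat_591

/-! ## cut-off functions -/

theorem exists_cut {X K : Set ℂ} (hX : IsOpen X) (hK : IsCompact K) (hKX : K ⊆ X) :
    ∃ χ : ℂ → ℝ, ContDiff ℝ ∞ χ ∧ (∀ x, 0 ≤ χ x) ∧ (∀ x, χ x ≤ 1) ∧ (∀ x ∈ K, χ x = 1) ∧
      ∃ L ⊆ X, IsCompact L ∧ ∀ x ∉ L, χ x = 0 := by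
  obtain ⟨L, hL, hKL, hLX⟩ := exists_compact_between hK hX hKX
  obtain ⟨f, h1, h0, hf⟩ := exists_contMDiffMap_one_nhds_of_subset_interior
    (modelWithCornersSelf ℝ ℂ) (n := ⊤) hK.isClosed hKL
  refine ⟨f, f.contMDiff.contDiff, fun x => (hf x).1, fun x => (hf x).2,
    fun x hx => h1.self_of_nhdsSet x hx, L, hLX, hL, h0⟩

/-- a real cut-off as an element of `CS` -/
structure Cut (X : Set ℂ) (χ : ℂ → ℝ) : Prop where
  sm : ContDiff ℝ ∞ χ
  nn : ∀ x, 0 ≤ χ x
  le : ∀ x, χ x ≤ 1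
  cp : ∃ L ⊆ X, IsCompact L ∧ ∀ x ∉ L, χ x = 0

theorem Cut.cs {X : Set ℂ} {χ : ℂ → ℝ} (h : Cut X χ) : CS X (fun x => (χ x : ℂ)) := by
  refine ⟨fun z _ => (Complex.ofRealCLM.contDiff.comp h.sm).contDiffAt, ?_⟩
  obtain ⟨L, hL, hLc, h0⟩ := h.cp
  exact ⟨L, hL, hLc, fun x hx => by rw [h0 x hx, Complex.ofReal_zero]⟩

theorem Cut.abs_le {X : Set ℂ} {χ : ℂ → ℝ} (h : Cut X χ) (x : ℂ) : ‖(χ x : ℂ)‖ ≤ 1 := by
  rw [Complex.norm_real, Real.norm_eq_abs, abs_of_nonneg (h.nn x)]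
  exact h.le x

/-- cut-off equal to one on a compact set -/
theorem exists_cut' {X K : Set ℂ} (hX : IsOpen X) (hK : IsCompact K) (hKX : K ⊆ X) :
    ∃ χ : ℂ → ℝ, Cut X χ ∧ ∀ x ∈ K, χ x = 1 := by
  obtain ⟨χ, h1, h2, h3, h4, h5⟩ := exists_cut hX hK hKX
  exact ⟨χ, ⟨h1, h2, h3, h5⟩, h4⟩

/-- exhausting sequence of cut-offs -/
theorem exists_cuts {X : Set ℂ} (hX : IsOpen X) :
    ∃ χ : ℕ → ℂ → ℝ, (∀ n, Cut X (χ n)) ∧
      ∀ K ⊆ X, IsCompact K → ∀ᶠ n in atTop, ∀ x ∈ K, χ n x = 1 := by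
  have : LocallyCompactSpace X := hX.locallyCompactSpace
  let E : CompactExhaustion X := CompactExhaustion.choice X
  have hc : ∀ n, IsCompact ((↑) '' (E n) : Set ℂ) := fun n =>
    (E.isCompact n).image continuous_subtype_val
  have hs : ∀ n, ((↑) '' (E n) : Set ℂ) ⊆ X := by
    rintro n _ ⟨x, -, rfl⟩
    exact x.2
  choose χ h1 h2 using fun n => exists_cut' hX (hc n) (hs n)
  refine ⟨χ, h1, fun K hK hKc => ?_⟩
  have hK' : IsCompact ((↑) ⁻¹' K : Set X) := by
    rw [Subtype.isCompact_iff, Subtype.image_preimage_coe, inter_eq_right.2 hK]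
    exact hKc
  obtain ⟨N, hN⟩ := E.exists_superset_of_isCompact hK'
  filter_upwards [eventually_ge_atTop N] with n hn x hx
  refine h2 n x ⟨⟨x, hK hx⟩, E.subset hn (hN hx), rfl⟩

variable {V V' : Type*} [NormedAddCommGroup V] [NormedSpace ℂ V] [NormedAddCommGroup V']
  [NormedSpace ℂ V'] {X X' : Set ℂ} {M : MB V X} {M' : MB V' X'}

/-! ## scalar fields -/

/-- scalar field of operators -/
noncomputable def sc (χ : ℂ → ℂ) (x : ℂ) : V →L[ℂ] V := χ x • (1 : V →L[ℂ] V)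

@[simp] theorem sc_apply (χ : ℂ → ℂ) (x : ℂ) (v : V) : sc χ x v = χ x • v := rfl

theorem smO_sc (F : FB V X) {χ : ℂ → ℂ} (h : ∀ z ∈ X, ContDiffAt ℝ ∞ χ z) : F.SmO (sc χ) := by
  intro z hz
  obtain ⟨U, hU⟩ := F.exists_nb hz
  have e : F.trO z (sc χ) =ᶠ[𝓝 z] fun y => χ y • (1 : V →L[ℂ] V) := by
    filter_upwards [hU.op.mem_nhds hU.mem] with y hy
    unfold FB.trO sc
    rw [mul_smul_comm, smul_mul_assoc, mul_one, hU.inv hU.mem hy]
  exact ((h z hz).smul contDiffAt_const).congr_of_eventuallyEq e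

theorem G_smul_smul (x : ℂ) (c : ℂ) (u : V) :
    (M.G x (c • u) (c • u)).re = ‖c‖ ^ 2 * (M.G x u u).re := gn_smul (M := M) x c u

theorem ok_sc {χ : ℂ → ℂ} (h : ∀ z ∈ X, ContDiffAt ℝ ∞ χ z) {C : ℝ}
    (hC : ∀ x ∈ X, ‖χ x‖ ≤ C) : M.Ok (sc χ) := by
  refine ⟨smO_sc _ h, max C 0, le_max_right _ _, fun x hx u => ?_⟩
  rw [sc_apply, G_smul_smul]
  refine mul_le_mul_of_nonneg_right ?_ (M.G_nonneg hx u)
  exact pow_le_pow_left₀ (norm_nonneg _) ((hC x hx).trans (le_max_left _ _)) 2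

theorem CS.exists_bd {χ : ℂ → ℂ} (h : CS X χ) : ∃ C, ∀ x, ‖χ x‖ ≤ C :=
  h.hasCompactSupport.exists_bound_of_continuous h.continuous

theorem CS.ok {χ : ℂ → ℂ} (h : CS X χ) : M.Ok (sc χ) := by
  obtain ⟨C, hC⟩ := CS.exists_bd h
  exact ok_sc h.sm fun x _ => hC x

theorem CS.star {χ : ℂ → ℂ} (h : CS X χ) : CS X (fun x => conj (χ x)) := by
  refine ⟨fun z hz => Complex.conjCLE.contDiff.contDiffAt.comp z (h.sm z hz), ?_⟩
  obtain ⟨K, hK, hKc, h0⟩ := h.cp
  exact ⟨K, hK, hKc, fun x hx => by rw [h0 x hx, map_zero]⟩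


/-- adjoint of a scalar field -/
theorem inner_sc {χ : ℂ → ℂ} (h : M.Ok (sc χ)) (h' : M.Ok (sc (fun x => conj (χ x))))
    (u v : M.L2) : inner ℂ (M.opL (sc (fun x => conj (χ x))) u) v = inner ℂ u (M.opL (sc χ) v) := by
  refine M.op_adj h' h (fun x hx a b => ?_) u v
  rw [sc_apply, sc_apply, ContinuousLinearMap.map_smulₛₗ, smul_apply, map_smul,
    starRingEnd_self_apply]

/-- two elements with the same products with `H0` are equal -/
theorem ext_H0 {u v : M.L2} (h : ∀ ζ : M.H0, inner ℂ (ζ : M.L2) u = inner ℂ (ζ : M.L2) v) :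
    u = v := by
  refine ext_inner_left ℂ fun w => ?_
  exact M.dense_ext (f := fun w => inner ℂ w u) (g := fun w => inner ℂ w v) (by fun_prop)
    (by fun_prop) h w

/-! ## representation by smooth sections -/

/-- `u` is represented by the smooth section `φ` -/
def Rep (M : MB V X) (u : M.L2) (φ : ℂ → V) : Prop :=
  M.Sm φ ∧ ∀ ζ : M.H0, inner ℂ (ζ : M.L2) u = ∫ x, M.G x (ζ.f x) (φ x)

theorem integrable_left (ζ : M.H0) {φ : ℂ → V} (hφ : M.Sm φ) :
    Integrable (fun x => M.G x (ζ.f x) (φ x)) := (M.cs_left ζ.mem hφ).integrable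

theorem Rep.coe (φ : M.H0) : Rep M (φ : M.L2) φ.f := by
  refine ⟨φ.mem.1, fun ζ => ?_⟩
  rw [Completion.inner_coe, MB.inner_H0]

theorem Rep.zero : Rep M (0 : M.L2) (fun _ => 0) := by
  have := Rep.coe (M := M) 0
  rwa [Completion.coe_zero, MB.zero_f] at this

theorem Rep.add {u v : M.L2} {φ ψ : ℂ → V} (h : Rep M u φ) (h' : Rep M v ψ) :
    Rep M (u + v) (fun x => φ x + ψ x) := by
  refine ⟨h.1.add h'.1, fun ζ => ?_⟩
  rw [inner_add_right, h.2, h'.2, ← integral_add (integrable_left ζ h.1) (integrable_left ζ h'.1)]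
  refine integral_congr_ae (Eventually.of_forall fun x => ?_)
  simp

theorem Rep.smul {u : M.L2} {φ : ℂ → V} (h : Rep M u φ) (c : ℂ) :
    Rep M (c • u) (fun x => c • φ x) := by
  refine ⟨h.1.const_smul c, fun ζ => ?_⟩
  rw [inner_smul_right, h.2, ← integral_const_mul]
  refine integral_congr_ae (Eventually.of_forall fun x => ?_)
  simp

theorem Rep.sub {u v : M.L2} {φ ψ : ℂ → V} (h : Rep M u φ) (h' : Rep M v ψ) :
    Rep M (u - v) (fun x => φ x - ψ x) := by
  refine ⟨h.1.sub h'.1, fun ζ => ?_⟩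
  rw [inner_sub_right, h.2, h'.2, ← integral_sub (integrable_left ζ h.1) (integrable_left ζ h'.1)]
  refine integral_congr_ae (Eventually.of_forall fun x => ?_)
  simp

/-- (r1) a section represents at most one element -/
theorem Rep.unique {u v : M.L2} {φ : ℂ → V} (h : Rep M u φ) (h' : Rep M v φ) : u = v :=
  ext_H0 fun ζ => by rw [h.2, h'.2]

theorem Rep.congr {u : M.L2} {φ ψ : ℂ → V} (h : Rep M u φ) (e : ∀ x ∈ X, φ x = ψ x) :
    Rep M u ψ := by
  refine ⟨fun z hz => ?_, fun ζ => ?_⟩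
  · refine (h.1 z hz).congr_of_eventuallyEq ?_
    filter_upwards [M.op.mem_nhds hz] with y hy
    unfold FB.tr
    rw [e y hy]
  · rw [h.2]
    refine integral_congr_ae (Eventually.of_forall fun x => ?_)
    by_cases hx : x ∈ X
    · simp only [e x hx]
    · obtain ⟨K, hK, -, h0⟩ := ζ.mem.2
      have : ζ.f x = 0 := h0 x (fun hh => hx (hK hh))
      simp [this]

/-- (r2) cutting off -/
theorem Rep.cut {u : M.L2} {φ : ℂ → V} (h : Rep M u φ) {χ : ℂ → ℂ} (hχ : CS X χ) :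
    M.opL (sc χ) u = (M.s0 (fun z => χ z • φ z) (FB.smul_mem_A0 h.1 hχ) : M.H0) := by
  refine ext_H0 fun ζ => ?_
  rw [← inner_sc (CS.ok hχ) (CS.ok (CS.star hχ)), M.op_coe (CS.ok (CS.star hχ)), h.2,
    Completion.inner_coe, MB.inner_H0]
  refine integral_congr_ae (Eventually.of_forall fun x => ?_)
  simp only [MB.s0_f, sc_apply, ContinuousLinearMap.map_smulₛₗ, smul_apply, map_smul,
    starRingEnd_self_apply]

/-- an element of `H0` is not changed by a cut-off equal to one on its support -/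
theorem opL_sc_coe {χ : ℂ → ℂ} (h : M.Ok (sc χ)) (φ : M.H0) (h1 : ∀ x, φ.f x ≠ 0 → χ x = 1) :
    M.opL (sc χ) (φ : M.L2) = φ := by
  rw [M.op_coe h]
  congr 1
  refine MB.H0.ext ?_
  funext x
  rw [MB.s0_f, sc_apply]
  by_cases hx : φ.f x = 0
  · rw [hx, smul_zero]
  · rw [h1 x hx, one_smul]

/-- cut-off equal to one on the support of an element of `H0` -/
theorem exists_cut_H0 (M : MB V X) (ζ : M.H0) :
    ∃ χ : ℂ → ℝ, Cut X χ ∧ ∀ x, ζ.f x ≠ 0 → χ x = 1 := by
  obtain ⟨K, hK, hKc, h0⟩ := ζ.mem.2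
  obtain ⟨χ, hχ, h1⟩ := exists_cut' M.op hKc hK
  refine ⟨χ, hχ, fun x hx => h1 x ?_⟩
  by_contra hcon
  exact hx (h0 x hcon)

/-- (r1) an element is represented by at most one section on `X` -/
theorem Rep.eqOn {u : M.L2} {φ ψ : ℂ → V} (h : Rep M u φ) (h' : Rep M u ψ) {x : ℂ} (hx : x ∈ X) :
    φ x = ψ x := by
  have h3 := h.sub h'
  rw [sub_self] at h3
  set θ : ℂ → V := fun x => φ x - ψ x with hθ
  obtain ⟨χ, hχ, h1⟩ := exists_cut' M.op (isCompact_singleton (x := x)) (singleton_subset_iff.2 hx)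
  have h4 := h3.cut hχ.cs
  rw [map_zero] at h4
  have h5 := h3.2 (M.s0 (fun z => (χ z : ℂ) • θ z) (FB.smul_mem_A0 h3.1 hχ.cs))
  rw [inner_zero_right] at h5
  simp only [MB.s0_f, ContinuousLinearMap.map_smulₛₗ, smul_apply, Complex.conj_ofReal] at h5
  have h6 : ∫ y, χ y * (M.G y (θ y) (θ y)).re = 0 := by
    have e := congrArg Complex.re h5
    rw [Complex.zero_re] at e
    have e2 : (∫ y, (χ y : ℂ) • M.G y (θ y) (θ y)).re = ∫ y, ((χ y : ℂ) • M.G y (θ y) (θ y)).re := by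
      have hi : Integrable (fun y => (χ y : ℂ) • M.G y (θ y) (θ y)) := by
        have := integrable_left (M.s0 (fun z => (χ z : ℂ) • θ z) (FB.smul_mem_A0 h3.1 hχ.cs)) h3.1
        simpa only [MB.s0_f, ContinuousLinearMap.map_smulₛₗ, smul_apply, Complex.conj_ofReal]
          using this
      exact (integral_re hi).symm
    rw [e2] at e
    rw [e]
    refine integral_congr_ae (Eventually.of_forall fun y => ?_)
    simp
  have hcs : CS X (fun y => M.G y ((fun z => (χ z : ℂ) • θ z) y) (θ y)) :=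
    M.cs_left (FB.smul_mem_A0 h3.1 hχ.cs) h3.1
  have hcont : Continuous (fun y => χ y * (M.G y (θ y) (θ y)).re) := by
    have := Complex.continuous_re.comp hcs.continuous
    refine this.congr fun y => ?_
    simp only [Function.comp_apply, ContinuousLinearMap.map_smulₛₗ, smul_apply,
      Complex.conj_ofReal, smul_eq_mul, Complex.re_ofReal_mul]
  have hnn : ∀ y, 0 ≤ χ y * (M.G y (θ y) (θ y)).re := by
    intro y
    by_cases hy : y ∈ X
    · exact mul_nonneg (hχ.nn y) (M.G_nonneg hy _)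
    · obtain ⟨L, hL, -, h0⟩ := hχ.cp
      rw [h0 y (fun hh => hy (hL hh)), zero_mul]
  have hint : Integrable (fun y => χ y * (M.G y (θ y) (θ y)).re) := by
    have := hcs.integrable.re
    refine this.congr (Eventually.of_forall fun y => ?_)
    simp only [ContinuousLinearMap.map_smulₛₗ, smul_apply,
      Complex.conj_ofReal, smul_eq_mul]
    exact Complex.re_ofReal_mul _ _
  have h7 := (integral_eq_zero_iff_of_nonneg hnn hint).1 h6
  have h8 : (fun y => χ y * (M.G y (θ y) (θ y)).re) = fun _ => 0 :=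
    (Continuous.ae_eq_iff_eq volume hcont continuous_const).1 h7
  have h9 := congrFun h8 x
  simp only [h1 x (mem_singleton x), one_mul] at h9
  obtain ⟨C, hC, hb⟩ := M.bd x hx
  have h10 := (hb.self_of_nhds (θ x)).1
  rw [h9, mul_zero, M.one x hx] at h10
  have h11 : ‖θ x‖ = 0 := by
    have : ‖θ x‖ ^ 2 ≤ 0 := h10
    nlinarith [norm_nonneg (θ x)]
  exact sub_eq_zero.1 (norm_eq_zero.1 h11)

/-- characterisation by cut-offs: local nature of `Rep` -/
theorem rep_of_cut {u : M.L2} {φ : ℂ → V} (hφ : M.Sm φ)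
    (h : ∀ χ : ℂ → ℝ, (hχ : Cut X χ) → M.opL (sc (fun x => (χ x : ℂ))) u =
      (M.s0 (fun z => (χ z : ℂ) • φ z) (FB.smul_mem_A0 hφ hχ.cs) : M.H0)) : Rep M u φ := by
  refine ⟨hφ, fun ζ => ?_⟩
  obtain ⟨χ, hχ, h1⟩ := exists_cut_H0 M ζ
  have hs : M.opL (sc (fun x => conj (χ x : ℂ))) (ζ : M.L2) = ζ := by
    refine opL_sc_coe (CS.ok (CS.star hχ.cs)) ζ fun x hx => ?_
    rw [h1 x hx]
    simp
  rw [← hs, inner_sc (CS.ok hχ.cs) (CS.ok (CS.star hχ.cs)), h χ hχ, Completion.inner_coe,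
    MB.inner_H0]
  refine integral_congr_ae (Eventually.of_forall fun x => ?_)
  simp only [MB.s0_f, map_smul]
  by_cases hx : ζ.f x = 0
  · simp [hx]
  · rw [h1 x hx, Complex.ofReal_one, one_smul]

/-- scalar fields commute with fields of operators -/
theorem opL_sc_comm {χ : ℂ → ℂ} {A : ℂ → (V →L[ℂ] V)} (h : M.Ok (sc χ)) (hA : M.Ok A) (u : M.L2) :
    M.opL (sc χ) (M.opL A u) = M.opL A (M.opL (sc χ) u) := by
  refine M.dense_ext (f := fun u => M.opL (sc χ) (M.opL A u))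
    (g := fun u => M.opL A (M.opL (sc χ) u)) ((M.opL _).continuous.comp (M.opL A).continuous)
    ((M.opL A).continuous.comp (M.opL _).continuous) (fun φ => ?_) u
  rw [M.op_coe hA, M.op_coe h, M.op_coe h, M.op_coe hA]
  congr 1
  refine MB.H0.ext ?_
  funext x
  simp only [MB.s0_f, sc_apply, map_smul]

/-- (r5) fields of operators -/
theorem Rep.opL {u : M.L2} {φ : ℂ → V} (h : Rep M u φ) {A : ℂ → (V →L[ℂ] V)} (hA : M.Ok A) :
    Rep M (M.opL A u) (fun x => A x (φ x)) := by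
  refine rep_of_cut (FB.Sm.app hA.1 h.1) fun χ hχ => ?_
  rw [opL_sc_comm (CS.ok hχ.cs) hA, h.cut hχ.cs, M.op_coe hA]
  congr 1
  refine MB.H0.ext ?_
  funext x
  simp only [MB.s0_f, map_smul]

/-- a scalar field, not necessarily with compact support -/
theorem Rep.sc {u : M.L2} {φ : ℂ → V} (h : Rep M u φ) {χ : ℂ → ℂ} (hχ : M.Ok (sc χ)) :
    Rep M (M.opL (RepC_201.sc χ) u) (fun x => χ x • φ x) := h.opL hχ

/-- the composition of a smooth function with compact support with a bundle map -/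
theorem Mor.cs_comp {F : FB V X} {F' : FB V' X'} {Ψ : ℂ → ℂ} {K : ℂ → (V →L[ℂ] V')}
    (h : Mor F F' Ψ K) {χ : ℂ → ℂ} (hχ : CS X χ) : CS X' (fun x => χ (Ψ x)) := by
  refine ⟨fun z hz => (hχ.sm (Ψ z) (h.maps z hz)).comp z (h.smΨ z hz), ?_⟩
  obtain ⟨K₀, hK, hKc, h0⟩ := hχ.cp
  obtain ⟨K₁, hK₁, hKc₁, h1⟩ := h.prop K₀ hK hKc
  exact ⟨K₁, hK₁, hKc₁, fun x hx => h0 _ (h1 x hx)⟩

/-- (r3) bundle maps -/
theorem Rep.T {Ψ : ℂ → ℂ} {K : ℂ → (V →L[ℂ] V')} {J : ℂ → ℝ} {C : ℝ} (h : MMor M M' Ψ K J C)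
    {u : M.L2} {φ : ℂ → V} (hu : Rep M u φ) : Rep M' (h.T u) (pb K Ψ φ) := by
  refine ⟨h.toMor.sm hu.1, fun ζ => ?_⟩
  obtain ⟨L', hL', hLc', h0'⟩ := ζ.mem.2
  have hcomp : IsCompact (Ψ '' L') :=
    hLc'.image_of_continuousOn fun x hx => ((h.smΨ x (hL' hx)).continuousAt).continuousWithinAt
  have hsub : Ψ '' L' ⊆ X := by
    rintro _ ⟨x, hx, rfl⟩
    exact h.maps x (hL' hx)
  obtain ⟨χ, hχ, h1⟩ := exists_cut' M.op hcomp hsub
  have hone : ∀ x, ζ.f x ≠ 0 → χ (Ψ x) = 1 := by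
    intro x hx
    refine h1 _ ⟨x, ?_, rfl⟩
    by_contra hcon
    exact hx (h0' x hcon)
  have hcs := Mor.cs_comp h.toMor hχ.cs
  have hok : M'.Ok (RepC_201.sc (fun x => ((χ (Ψ x) : ℝ) : ℂ))) := CS.ok hcs
  have hok' : M'.Ok (RepC_201.sc (fun x => conj ((χ (Ψ x) : ℝ) : ℂ))) := CS.ok (CS.star hcs)
  have hs : M'.opL (RepC_201.sc (fun x => conj ((χ (Ψ x) : ℝ) : ℂ))) (ζ : M'.L2) = ζ := by
    refine opL_sc_coe hok' ζ fun x hx => ?_
    rw [hone x hx]
    simp
  have hT : M'.opL (RepC_201.sc (fun x => ((χ (Ψ x) : ℝ) : ℂ))) (h.T u) =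
      h.T (M.opL (RepC_201.sc (fun x => ((χ x : ℝ) : ℂ))) u) := by
    rw [h.T_op (CS.ok hχ.cs) hok fun x hx v => by simp only [sc_apply, map_smul]]
  rw [← hs, inner_sc hok hok', hT, hu.cut hχ.cs, h.T_coe, Completion.inner_coe, MB.inner_H0]
  refine integral_congr_ae (Eventually.of_forall fun x => ?_)
  simp only [MB.s0_f, pb, map_smul]
  by_cases hx : ζ.f x = 0
  · simp [hx]
  · rw [hone x hx, Complex.ofReal_one, one_smul]

/-! ## square integrable smooth sections -/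

theorem integrableOn_cut {φ : ℂ → V} (hφ : M.Sm φ) {χ : ℂ → ℝ} (hχ : Cut X χ) :
    Integrable (fun x => χ x ^ 2 * (M.G x (φ x) (φ x)).re) := by
  have h1 := (M.cs (FB.smul_mem_A0 hφ hχ.cs) (FB.smul_mem_A0 hφ hχ.cs)).integrable.re
  refine h1.congr (Eventually.of_forall fun x => ?_)
  have := G_smul_smul (M := M) x (χ x : ℂ) (φ x)
  rw [Complex.norm_real, Real.norm_eq_abs, sq_abs] at this
  exact this

theorem norm_sq_cut {φ : ℂ → V} (hφ : M.Sm φ) {χ : ℂ → ℝ} (hχ : Cut X χ) :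
    ‖M.s0 (fun z => (χ z : ℂ) • φ z) (FB.smul_mem_A0 hφ hχ.cs)‖ ^ 2 =
      ∫ x, χ x ^ 2 * (M.G x (φ x) (φ x)).re := by
  rw [MB.norm_sq_H0]
  refine integral_congr_ae (Eventually.of_forall fun x => ?_)
  have := G_smul_smul (M := M) x (χ x : ℂ) (φ x)
  rw [Complex.norm_real, Real.norm_eq_abs, sq_abs] at this
  exact this

theorem cut_zero_off {χ : ℂ → ℝ} (hχ : Cut X χ) {x : ℂ} (hx : x ∉ X) : χ x = 0 := by
  obtain ⟨L, hL, -, h0⟩ := hχ.cp
  exact h0 x (fun hh => hx (hL hh))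

theorem norm_sq_cut' {φ : ℂ → V} (hφ : M.Sm φ) {χ : ℂ → ℝ} (hχ : Cut X χ) :
    ‖M.s0 (fun z => (χ z : ℂ) • φ z) (FB.smul_mem_A0 hφ hχ.cs)‖ ^ 2 =
      ∫ x in X, χ x ^ 2 * (M.G x (φ x) (φ x)).re := by
  rw [norm_sq_cut hφ hχ]
  refine (setIntegral_eq_integral_of_forall_compl_eq_zero fun x hx => ?_).symm
  rw [cut_zero_off hχ hx]
  simp

theorem norm_sq_cut_le {φ : ℂ → V} (hφ : M.Sm φ)
    (hi : IntegrableOn (fun x => (M.G x (φ x) (φ x)).re) X) {χ : ℂ → ℝ} (hχ : Cut X χ) :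
    ‖M.s0 (fun z => (χ z : ℂ) • φ z) (FB.smul_mem_A0 hφ hχ.cs)‖ ^ 2 ≤
      ∫ x in X, (M.G x (φ x) (φ x)).re := by
  rw [norm_sq_cut' hφ hχ]
  refine setIntegral_mono_on (integrableOn_cut hφ hχ).integrableOn hi M.op.measurableSet
    fun x hx => ?_
  have h1 : χ x ^ 2 ≤ 1 := pow_le_one₀ (hχ.nn x) (hχ.le x)
  have h2 := M.G_nonneg hx (φ x)
  nlinarith

/-- (r4) existence -/
theorem exists_rep {φ : ℂ → V} (hφ : M.Sm φ)
    (hi : IntegrableOn (fun x => (M.G x (φ x) (φ x)).re) X) : ∃ u : M.L2, Rep M u φ := by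
  set I : ℝ := ∫ x in X, (M.G x (φ x) (φ x)).re with hI
  have hI0 : 0 ≤ I := setIntegral_nonneg M.op.measurableSet fun x hx => M.G_nonneg hx _
  -- the antilinear functional `ζ ↦ ∫ G(φ, ζ)`
  have hint : ∀ ζ : M.H0, Integrable (fun x => M.G x (φ x) (ζ.f x)) := by
    intro ζ
    have h1 := (integrable_left ζ hφ)
    have h2 : Integrable (fun x => conj (M.G x (ζ.f x) (φ x))) :=
      (Complex.conjLIE.toContinuousLinearEquiv.toContinuousLinearMap).integrable_comp h1
    refine h2.congr (Eventually.of_forall fun x => ?_)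
    by_cases hx : x ∈ X
    · exact M.herm x hx _ _
    · obtain ⟨K, hK, -, h0⟩ := ζ.mem.2
      have : ζ.f x = 0 := h0 x (fun hh => hx (hK hh))
      simp [this]
  have hconj : ∀ ζ : M.H0, conj (∫ x, M.G x (φ x) (ζ.f x)) = ∫ x, M.G x (ζ.f x) (φ x) := by
    intro ζ
    rw [← integral_conj]
    refine integral_congr_ae (Eventually.of_forall fun x => ?_)
    by_cases hx : x ∈ X
    · exact M.herm x hx _ _
    · obtain ⟨K, hK, -, h0⟩ := ζ.mem.2
      have : ζ.f x = 0 := h0 x (fun hh => hx (hK hh))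
      simp [this]
  have hbd : ∀ ζ : M.H0, ‖∫ x, M.G x (φ x) (ζ.f x)‖ ≤ Real.sqrt I * ‖ζ‖ := by
    intro ζ
    obtain ⟨χ, hχ, h1⟩ := exists_cut_H0 M ζ
    have e : ∫ x, M.G x (φ x) (ζ.f x) =
        inner ℂ (M.s0 (fun z => (χ z : ℂ) • φ z) (FB.smul_mem_A0 hφ hχ.cs)) ζ := by
      rw [MB.inner_H0]
      refine integral_congr_ae (Eventually.of_forall fun x => ?_)
      simp only [MB.s0_f, ContinuousLinearMap.map_smulₛₗ, smul_apply, Complex.conj_ofReal]
      by_cases hx : ζ.f x = 0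
      · simp [hx]
      · rw [h1 x hx, Complex.ofReal_one, one_smul]
    rw [e]
    refine (norm_inner_le_norm _ _).trans (mul_le_mul_of_nonneg_right ?_ (norm_nonneg _))
    exact Real.le_sqrt_of_sq_le (norm_sq_cut_le hφ hi hχ)
  let f : M.H0 →L[ℂ] ℂ := LinearMap.mkContinuous
    { toFun := fun ζ => ∫ x, M.G x (φ x) (ζ.f x)
      map_add' := fun ζ ξ => by
        rw [← integral_add (hint ζ) (hint ξ)]
        refine integral_congr_ae (Eventually.of_forall fun x => ?_)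
        simp
      map_smul' := fun c ζ => by
        rw [RingHom.id_apply, smul_eq_mul, ← integral_const_mul]
        refine integral_congr_ae (Eventually.of_forall fun x => ?_)
        simp } (Real.sqrt I) hbd
  have hdense : DenseRange (Completion.toComplL (𝕜 := ℂ) (E := M.H0)) := Completion.denseRange_coe
  have hind : IsUniformInducing (Completion.toComplL (𝕜 := ℂ) (E := M.H0)) :=
    Completion.isUniformInducing_coe _
  let g : M.L2 →L[ℂ] ℂ := f.extend (Completion.toComplL (𝕜 := ℂ) (E := M.H0))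
  have hg : ∀ ζ : M.H0, g (ζ : M.L2) = ∫ x, M.G x (φ x) (ζ.f x) := by
    intro ζ
    exact ContinuousLinearMap.extend_eq f hdense hind ζ
  refine ⟨(InnerProductSpace.toDual ℂ M.L2).symm g, hφ, fun ζ => ?_⟩
  rw [← inner_conj_symm, InnerProductSpace.toDual_symm_apply, hg, hconj]

/-- strong convergence of cut-offs to the identity -/
theorem tendsto_cuts {χ : ℕ → ℂ → ℝ} (h1 : ∀ n, Cut X (χ n))
    (h2 : ∀ K ⊆ X, IsCompact K → ∀ᶠ n in atTop, ∀ x ∈ K, χ n x = 1) (u : M.L2) :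
    Tendsto (fun n => M.opL (sc (fun x => (χ n x : ℂ))) u) atTop (𝓝 u) := by
  have hn : ∀ n (w : M.L2), ‖M.opL (sc (fun x => (χ n x : ℂ))) w‖ ≤ 1 * ‖w‖ := by
    intro n w
    refine M.norm_op_le (CS.ok (h1 n).cs).1 ⟨zero_le_one, fun x hx a => ?_⟩ w
    rw [sc_apply, G_smul_smul]
    refine mul_le_mul_of_nonneg_right ?_ (M.G_nonneg hx a)
    exact pow_le_pow_left₀ (norm_nonneg _) ((h1 n).abs_le x) 2
  rw [Metric.tendsto_atTop]
  intro ε hε
  obtain ⟨φ, hφ⟩ : ∃ φ : M.H0, ‖u - (φ : M.L2)‖ < ε / 2 := by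
    have := Completion.denseRange_coe (α := M.H0) |>.exists_dist_lt u (half_pos hε)
    obtain ⟨φ, hφ⟩ := this
    exact ⟨φ, by rwa [dist_eq_norm] at hφ⟩
  obtain ⟨K, hK, hKc, h0⟩ := φ.mem.2
  obtain ⟨N, hN⟩ := eventually_atTop.1 (h2 K hK hKc)
  refine ⟨N, fun n hnN => ?_⟩
  have e : M.opL (sc (fun x => (χ n x : ℂ))) (φ : M.L2) = φ := by
    refine opL_sc_coe (CS.ok (h1 n).cs) φ fun x hx => ?_
    have : x ∈ K := by
      by_contra hcon
      exact hx (h0 x hcon)
    rw [hN n hnN x this, Complex.ofReal_one]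
  rw [dist_eq_norm]
  have e2 : M.opL (sc (fun x => (χ n x : ℂ))) u - u =
      M.opL (sc (fun x => (χ n x : ℂ))) (u - φ) - (u - φ) := by
    rw [map_sub, e]
    abel
  rw [e2]
  calc ‖_ - _‖ ≤ ‖M.opL (sc (fun x => (χ n x : ℂ))) (u - φ)‖ + ‖u - φ‖ := norm_sub_le _ _
    _ ≤ 1 * ‖u - φ‖ + ‖u - φ‖ := by gcongr; exact hn n _
    _ < ε := by linarith

/-- pointwise Cauchy-Schwarz for the metric -/
theorem G_cs {x : ℂ} (hx : x ∈ X) (a b : V) :
    ‖M.G x a b‖ ≤ (M.G x a a).re + (M.G x b b).re := by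
  by_cases h0 : M.G x a b = 0
  · rw [h0, norm_zero]
    exact add_nonneg (M.G_nonneg hx a) (M.G_nonneg hx b)
  set g := M.G x a b with hg
  set c : ℂ := conj g / ‖g‖ with hc
  have hgn : (‖g‖ : ℂ) ≠ 0 := by exact_mod_cast norm_ne_zero_iff.2 h0
  have hcn : ‖c‖ = 1 := by
    rw [hc, norm_div, RCLike.norm_conj, Complex.norm_real, norm_norm]
    exact div_self (norm_ne_zero_iff.2 h0)
  have h1 := M.G_nonneg hx (a - c • b)
  have e1 : M.G x (a - c • b) (a - c • b) =
      M.G x a a - c * g - conj (c * g) + M.G x (c • b) (c • b) := by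
    have h3 : M.G x b a = conj g := (M.herm x hx a b).symm
    simp only [map_sub, sub_apply, ContinuousLinearMap.map_smulₛₗ, smul_apply, smul_eq_mul,
      RingHom.id_apply, h3, map_mul, ← hg]
    ring
  have h2 : c * g = ‖g‖ := by
    rw [hc, div_mul_eq_mul_div, Complex.conj_mul', pow_two]
    field_simp
  rw [e1, h2, Complex.conj_ofReal] at h1
  have h3 : (M.G x (c • b) (c • b)).re = (M.G x b b).re := by
    rw [G_smul_smul, hcn]
    simp
  simp only [Complex.add_re, Complex.sub_re, Complex.ofReal_re, h3] at h1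
  have h4 := norm_nonneg g
  have h5 := M.G_nonneg hx a
  have h6 := M.G_nonneg hx b
  nlinarith

/-- a represented element has a square integrable representative -/
theorem Rep.integrableOn {u : M.L2} {φ : ℂ → V} (h : Rep M u φ) :
    IntegrableOn (fun x => (M.G x (φ x) (φ x)).re) X := by
  obtain ⟨χ, h1, h2⟩ := exists_cuts M.op
  have hmeas : AEStronglyMeasurable (fun x => (M.G x (φ x) (φ x)).re) (volume.restrict X) := by
    refine ContinuousOn.aestronglyMeasurable (fun x hx => ?_) M.op.measurableSet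
    exact (Complex.continuous_re.continuousAt.comp
      (M.smG φ φ h.1 h.1 x hx).continuousAt).continuousWithinAt
  have hb : ∀ n, ∫ x in X, χ n x ^ 2 * (M.G x (φ x) (φ x)).re ≤ ‖u‖ ^ 2 := by
    intro n
    rw [← norm_sq_cut' h.1 (h1 n), ← Completion.norm_coe, ← h.cut (h1 n).cs]
    refine pow_le_pow_left₀ (norm_nonneg _) ?_ 2
    have := M.norm_op_le (CS.ok (M := M) (h1 n).cs).1 (C := 1) ⟨zero_le_one, fun x hx a => by
      rw [sc_apply, G_smul_smul]
      refine mul_le_mul_of_nonneg_right ?_ (M.G_nonneg hx a)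
      exact pow_le_pow_left₀ (norm_nonneg _) ((h1 n).abs_le x) 2⟩ u
    rwa [one_mul] at this
  refine ⟨hmeas, ?_⟩
  have hfin : ∫⁻ x in X, ‖(M.G x (φ x) (φ x)).re‖ₑ ≤ ENNReal.ofReal (‖u‖ ^ 2) := by
    have hlim : ∀ x ∈ X, Tendsto (fun n => ENNReal.ofReal (χ n x ^ 2 * (M.G x (φ x) (φ x)).re))
        atTop (𝓝 ‖(M.G x (φ x) (φ x)).re‖ₑ) := by
      intro x hx
      refine tendsto_const_nhds.congr' ?_
      filter_upwards [h2 {x} (singleton_subset_iff.2 hx) isCompact_singleton] with n hn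
      rw [hn x (mem_singleton x), one_pow, one_mul,
        Real.enorm_of_nonneg (M.G_nonneg hx _)]
    have hle : ∀ n, ∫⁻ x in X, ENNReal.ofReal (χ n x ^ 2 * (M.G x (φ x) (φ x)).re) ≤
        ENNReal.ofReal (‖u‖ ^ 2) := by
      intro n
      rw [← ofReal_integral_eq_lintegral_ofReal (integrableOn_cut h.1 (h1 n)).integrableOn]
      · exact ENNReal.ofReal_le_ofReal (hb n)
      · filter_upwards [ae_restrict_mem M.op.measurableSet] with x hx
        exact mul_nonneg (sq_nonneg _) (M.G_nonneg hx _)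
    calc ∫⁻ x in X, ‖(M.G x (φ x) (φ x)).re‖ₑ
        = ∫⁻ x in X, liminf (fun n => ENNReal.ofReal (χ n x ^ 2 * (M.G x (φ x) (φ x)).re)) atTop := by
          refine setLIntegral_congr_fun M.op.measurableSet fun x hx => ?_
          exact (hlim x hx).liminf_eq.symm
      _ ≤ liminf (fun n => ∫⁻ x in X, ENNReal.ofReal (χ n x ^ 2 * (M.G x (φ x) (φ x)).re)) atTop := by
          refine lintegral_liminf_le' fun n => ?_
          exact (integrableOn_cut h.1 (h1 n)).1.aemeasurable.ennreal_ofReal.restrict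
      _ ≤ ENNReal.ofReal (‖u‖ ^ 2) := by
          refine liminf_le_of_frequently_le' ?_
          exact Frequently.of_forall hle
  exact hfin.trans_lt ENNReal.ofReal_lt_top

/-- the product of two represented elements -/
theorem Rep.inner_eq {u v : M.L2} {φ ψ : ℂ → V} (h : Rep M u φ) (h' : Rep M v ψ) :
    inner ℂ u v = ∫ x in X, M.G x (φ x) (ψ x) := by
  obtain ⟨χ, h1, h2⟩ := exists_cuts M.op
  have hl : Tendsto (fun n => inner ℂ (M.opL (RepC_201.sc (fun x => (χ n x : ℂ))) u) v) atTop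
      (𝓝 (inner ℂ u v)) := (tendsto_cuts h1 h2 u).inner tendsto_const_nhds
  have e : ∀ n, inner ℂ (M.opL (RepC_201.sc (fun x => (χ n x : ℂ))) u) v =
      ∫ x in X, (χ n x : ℂ) * M.G x (φ x) (ψ x) := by
    intro n
    rw [h.cut (h1 n).cs, h'.2]
    have e2 : ∀ x, M.G x ((M.s0 (fun z => (χ n z : ℂ) • φ z) (FB.smul_mem_A0 h.1 (h1 n).cs)).f x)
        (ψ x) = (χ n x : ℂ) * M.G x (φ x) (ψ x) := by
      intro x
      simp only [MB.s0_f, ContinuousLinearMap.map_smulₛₗ, smul_apply,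
        Complex.conj_ofReal, smul_eq_mul]
    rw [← setIntegral_eq_integral_of_forall_compl_eq_zero (s := X) fun x hx => by
      rw [e2, cut_zero_off (h1 n) hx]; simp]
    exact setIntegral_congr_fun M.op.measurableSet fun x _ => e2 x
  have hr : Tendsto (fun n => ∫ x in X, (χ n x : ℂ) * M.G x (φ x) (ψ x)) atTop
      (𝓝 (∫ x in X, M.G x (φ x) (ψ x))) := by
    have hcont : ContinuousOn (fun x => M.G x (φ x) (ψ x)) X := fun x hx =>
      ((M.smG φ ψ h.1 h'.1 x hx).continuousAt).continuousWithinAt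
    refine tendsto_integral_of_dominated_convergence
      (fun x => (M.G x (φ x) (φ x)).re + (M.G x (ψ x) (ψ x)).re) (fun n => ?_)
      (h.integrableOn.add h'.integrableOn) (fun n => ?_) ?_
    · refine ContinuousOn.aestronglyMeasurable ?_ M.op.measurableSet
      exact ((h1 n).cs.continuous.continuousOn).mul hcont
    · filter_upwards [ae_restrict_mem M.op.measurableSet] with x hx
      rw [norm_mul]
      have h3 := (h1 n).abs_le x
      have h4 := G_cs (M := M) hx (φ x) (ψ x)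
      calc ‖(χ n x : ℂ)‖ * ‖M.G x (φ x) (ψ x)‖ ≤ 1 * ‖M.G x (φ x) (ψ x)‖ := by gcongr
        _ ≤ _ := by rw [one_mul]; exact h4
    · filter_upwards [ae_restrict_mem M.op.measurableSet] with x hx
      refine tendsto_const_nhds.congr' ?_
      filter_upwards [h2 {x} (singleton_subset_iff.2 hx) isCompact_singleton] with n hn
      rw [hn x (mem_singleton x), Complex.ofReal_one, one_mul]
  simp_rw [e] at hl
  exact tendsto_nhds_unique hl hr

theorem Rep.norm_sq {u : M.L2} {φ : ℂ → V} (h : Rep M u φ) :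
    ‖u‖ ^ 2 = ∫ x in X, (M.G x (φ x) (φ x)).re := by
  have h1 : ‖u‖ ^ 2 = (inner ℂ u u).re := norm_sq_eq_re_inner (𝕜 := ℂ) u
  rw [h1, h.inner_eq h]
  have hi : IntegrableOn (fun x => M.G x (φ x) (φ x)) X := by
    have h2 : IntegrableOn (fun x => (((M.G x (φ x) (φ x)).re : ℝ) : ℂ)) X :=
      h.integrableOn.ofReal
    refine h2.congr_fun (fun x hx => ?_) M.op.measurableSet
    apply Complex.ext
    · simp
    · simp [M.G_im hx]
  exact (integral_re hi).symm



end Crest.Agent.R276.RepC_201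
end

-- ▼ part R276/TopE_175
section

/-!
# R276, IPC-LOC (helper175): the top piece in the completion model of 975

`TopS M f` : holomorphic section of the top piece with finite `L²` norm; `emb M f : M.L` the element of the
Hilbert space of forms represented by `f dx`.  `emb_zc`, `emb_ty`, `emb_surj`, `emb_norm`.
-/

set_option autoImplicit false
set_option linter.unusedSectionVars false

open Set Filter Topology MeasureTheory UniformSpace
open scoped ContDiff ComplexConjugate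

namespace Crest.Agent.R276.TopE_175

open Crest.Agent.R276.IpcG1_975 Crest.Agent.R276.IpcGr_975

variable {V : Type*} [NormedAddCommGroup V] [NormedSpace ℂ V] {X : Set ℂ} {w : ℕ}

/-- holomorphic square integrable sections of the top piece -/
structure TopS (M : PV V X w) (f : ℂ → V) : Prop where
  sm : M.Sm f
  ty : ∀ z ∈ X, M.Pf w z (f z) = f z
  hol : ∀ z ∈ X, M.d2 f z = 0
  int : IntegrableOn (fun z => (M.Gf z (f z) (f z)).re) X

/-- the form `f dx` -/
def fx (f : ℂ → V) (z : ℂ) : V × V := (f z, 0)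

@[simp] theorem fx_fst (f : ℂ → V) (z : ℂ) : (fx f z).1 = f z := rfl
@[simp] theorem fx_snd (f : ℂ → V) (z : ℂ) : (fx f z).2 = 0 := rfl

variable {M : PV V X w}

theorem sm_zero (F : FB V X) : F.Sm (fun _ => (0 : V)) := by
  intro z _
  have e : F.tr z (fun _ => (0 : V)) = fun _ => 0 := by funext y; simp [FB.tr]
  rw [e]
  exact contDiffAt_const

theorem sm_fx {f : ℂ → V} (h : M.Sm f) : M.toFB.dbl.Sm (fx f) :=
  FB.sm_dbl.2 ⟨h, sm_zero _⟩

theorem d1_zero (F : FB V X) (z : ℂ) : F.d1 (fun _ => (0 : V)) z = 0 := by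
  have e : F.tr z (fun _ => (0 : V)) = fun _ => 0 := by funext y; simp [FB.tr]
  show VCalc_442.dW (F.tr z (fun _ => (0 : V))) 1 z = 0
  rw [e, VCalc_442.dW_const]

variable [FiniteDimensional ℂ V]


theorem G_fx (f g : ℂ → V) (z : ℂ) : M.mb.dbl.G z (fx f z) (fx g z) = M.Gf z (f z) (g z) := by
  show M.Gf z (f z) (g z) + M.Gf z 0 0 = _
  simp

theorem TopS.exists_rep {f : ℂ → V} (h : TopS M f) : ∃ u : M.L, M.Rep u (fx f) := by
  refine RepC_201.exists_rep (M := M.mb.dbl) (sm_fx h.sm) ?_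
  refine h.int.congr_fun (fun z _ => ?_) M.op.measurableSet
  exact (congrArg Complex.re (G_fx (M := M) f f z)).symm

variable (M) in
open Classical in
/-- the element represented by `f dx` -/
noncomputable def emb (f : ℂ → V) : M.L := if h : ∃ u : M.L, M.Rep u (fx f) then h.choose else 0

theorem TopS.rep {f : ℂ → V} (h : TopS M f) : M.Rep (emb M f) (fx f) := by
  unfold emb
  rw [dif_pos h.exists_rep]
  exact h.exists_rep.choose_spec

theorem emb_eq {f : ℂ → V} {u : M.L} (h : M.Rep u (fx f)) : emb M f = u := by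
  unfold emb
  have h' : ∃ u : M.L, M.Rep u (fx f) := ⟨u, h⟩
  rw [dif_pos h']
  exact RepC_201.Rep.unique (M := M.mb.dbl) h'.choose_spec h

theorem fx_add (f g : ℂ → V) : fx (f + g) = fun x => fx f x + fx g x := by
  funext x
  simp [fx]

theorem fx_smul (c : ℂ) (f : ℂ → V) : fx (c • f) = fun x => c • fx f x := by
  funext x
  simp [fx]

theorem emb_add {f g : ℂ → V} (hf : TopS M f) (hg : TopS M g) :
    emb M (f + g) = emb M f + emb M g := by
  refine emb_eq ?_
  rw [fx_add]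
  exact hf.rep.add hg.rep

theorem emb_smul (c : ℂ) {f : ℂ → V} (hf : TopS M f) : emb M (c • f) = c • emb M f := by
  refine emb_eq ?_
  rw [fx_smul]
  exact hf.rep.smul c

theorem emb_zc {f : ℂ → V} (hf : TopS M f) : emb M f ∈ M.Zc := by
  refine hf.rep.mem_Zc fun z hz => ?_
  show M.d2 f z = M.d1 (fun _ => 0) z
  rw [hf.hol z hz, d1_zero]

theorem emb_ty {f : ℂ → V} (hf : TopS M f) : M.Ty (w + 1) (emb M f) = emb M f := by
  have h1 : RepC_201.Rep M.mb.dbl (M.Ty (w + 1) (emb M f)) (fun z => M.ty (w + 1) z (fx f z)) :=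
    RepC_201.Rep.opL (M := M.mb.dbl) hf.rep (M.ok_ty (w + 1))
  have h2 : RepC_201.Rep M.mb.dbl (M.Ty (w + 1) (emb M f)) (fx f) := by
    refine h1.congr fun z hz => ?_
    show (M.Pm (w + 1) z (f z), M.Pf (w + 1) z 0) = fx f z
    rw [M.Pm_succ, hf.ty z hz, map_zero]
    rfl
  exact RepC_201.Rep.unique (M := M.mb.dbl) h2 hf.rep

/-- `β` on the top type -/
theorem be_top {u : M.L} (h : M.Ty (w + 1) u = u) : M.be u = (-1 : ℂ) ^ (w + 1) • u := by
  rw [← M.Jop_eq, HsB_817.Jop_apply, Finset.sum_eq_single (w + 1)]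
  · rw [h]
  · intro P _ hP
    rw [← h, M.Ty_Ty, if_neg hP, smul_zero]
  · intro h'
    exact absurd (Finset.mem_range.2 (Nat.lt_succ_self _)) h'

theorem inner_top {u : M.L} (h : M.Ty (w + 1) u = u) :
    (-1 : ℝ) ^ (w + 1) * (inner ℂ (M.be u) u).re = ‖u‖ ^ 2 := by
  rw [be_top h, inner_smul_left]
  have h1 : inner ℂ u u = ((‖u‖ ^ 2 : ℝ) : ℂ) := by
    rw [inner_self_eq_norm_sq_to_K]
    push_cast
    rfl
  have h2 : (starRingEnd ℂ) ((-1 : ℂ) ^ (w + 1)) = (((-1 : ℝ) ^ (w + 1) : ℝ) : ℂ) := by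
    rw [map_pow, map_neg, map_one]
    push_cast
    rfl
  rw [h1, h2, ← Complex.ofReal_mul, Complex.ofReal_re, ← mul_assoc, ← mul_pow]
  simp

theorem emb_norm {f : ℂ → V} (hf : TopS M f) :
    (-1 : ℝ) ^ (w + 1) * (inner ℂ (M.be (emb M f)) (emb M f)).re =
      ∫ z in X, (M.Gf z (f z) (f z)).re := by
  rw [inner_top (emb_ty hf), RepC_201.Rep.norm_sq (M := M.mb.dbl) hf.rep]
  refine setIntegral_congr_fun M.op.measurableSet fun z _ => ?_
  exact congrArg Complex.re (G_fx (M := M) f f z)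

/-- a weakly closed element which is represented by a smooth form has a closed representative -/
theorem rep_closed {u : M.L} {α : ℂ → V × V} (hu : M.Rep u α) (hz : u ∈ M.Zc) :
    ∀ z ∈ X, M.d2 (fun x => (α x).1) z = M.d1 (fun x => (α x).2) z := by
  obtain ⟨h1, h2⟩ := FB.sm_dbl.1 hu.1
  set ψ : ℂ → V := fun z => M.d2 (fun x => (α x).1) z - M.d1 (fun x => (α x).2) z with hψ
  have hsm : M.Sm ψ := h1.d2.sub h2.d1
  have h0 : RepC_201.Rep M.mb 0 ψ := by
    refine ⟨hsm, fun ζ => ?_⟩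
    rw [inner_zero_right]
    have hm : (fun z => M.Jf z (ζ.f z)) ∈ M.toFB.A0 := FB.app_mem_A0 M.smJ ζ.mem
    have e1 := hu.pair ⟨_, hm⟩
    have e2 : inner ℂ (M.DL ⟨_, hm⟩) (M.be u) = 0 := by
      rw [← inner_conj_symm, (M.mem_Zc'.1 hz) ⟨_, hm⟩, map_zero]
    rw [e2] at e1
    exact e1
  intro z hz
  have h3 := h0.eqOn (RepC_201.Rep.zero (M := M.mb)) hz
  exact sub_eq_zero.1 h3

/-- the form data of a represented element of top type -/
theorem topS_of_rep {u : M.L} {α : ℂ → V × V} (hu : M.Rep u α) (hz : u ∈ M.Zc)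
    (ht : M.Ty (w + 1) u = u) : TopS M (fun z => (α z).1) ∧ ∀ z ∈ X, (α z).2 = 0 := by
  have h1 : RepC_201.Rep M.mb.dbl (M.Ty (w + 1) u) (fun z => M.ty (w + 1) z (α z)) :=
    RepC_201.Rep.opL (M := M.mb.dbl) hu (M.ok_ty (w + 1))
  rw [ht] at h1
  have h2 : ∀ z ∈ X, α z = M.ty (w + 1) z (α z) := fun z hz =>
    RepC_201.Rep.eqOn (M := M.mb.dbl) hu h1 hz
  have ha : ∀ z ∈ X, M.Pf w z (α z).1 = (α z).1 := by
    intro z hz
    have := congrArg Prod.fst (h2 z hz)
    exact this.symm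
  have hb : ∀ z ∈ X, (α z).2 = 0 := by
    intro z hz
    have := congrArg Prod.snd (h2 z hz)
    have h3 : (M.ty (w + 1) z (α z)).2 = M.Pf (w + 1) z (α z).2 := rfl
    have h4 : M.Pf (w + 1) z = 0 := pr_gt (by omega) _
    rw [this, h3, h4]
    rfl
  have hsm := FB.sm_dbl.1 hu.1
  refine ⟨⟨hsm.1, ha, fun z hz' => ?_, ?_⟩, hb⟩
  · rw [rep_closed hu hz z hz']
    have e : M.tr z (fun x => (α x).2) =ᶠ[𝓝 z] fun _ => 0 := by
      filter_upwards [M.op.mem_nhds hz'] with y hy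
      show M.P z y (α y).2 = 0
      rw [hb y hy, map_zero]
    show VCalc_442.dW (M.tr z (fun x => (α x).2)) 1 z = 0
    rw [VCalc_442.dW_congr e, VCalc_442.dW_const]
  · have h5 := RepC_201.Rep.integrableOn (M := M.mb.dbl) hu
    refine h5.congr_fun (fun z hz => ?_) M.op.measurableSet
    show (M.Gf z (α z).1 (α z).1 + M.Gf z (α z).2 (α z).2).re = _
    rw [hb z hz]
    simp

end Crest.Agent.R276.TopE_175

namespace Crest.Agent.R276.TopE_175

open Crest.Agent.R276.IpcG1_975 Crest.Agent.R276.IpcGr_975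

variable {ι : Type*} [Fintype ι] [DecidableEq ι] {X : Set ℂ} {w : ℕ} {M : PV (ι → ℂ) X w}

/-- **every closed element of top type is `f dx`** -/
theorem emb_surj {u : M.L} (hz : u ∈ M.Zc) (ht : M.Ty (w + 1) u = u) :
    ∃ f, TopS M f ∧ emb M f = u := by
  have hb : M.be u ∈ M.Zc := by
    rw [be_top ht]
    exact M.Zc.smul_mem _ hz
  obtain ⟨α, hα⟩ := PV.exists_rep hz hb
  obtain ⟨h1, h2⟩ := topS_of_rep hα hz ht
  refine ⟨_, h1, emb_eq ?_⟩
  refine RepC_201.Rep.congr (M := M.mb.dbl) hα fun z hz => ?_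
  exact Prod.ext rfl (h2 z hz)

end Crest.Agent.R276.TopE_175
end

-- ▼ part R276/PvO_175

/-!
# R276, IPC-LOC (helper175): a polarised variation over a punctured plane as a `PV` of 975

`pvOf R : PV (Fin N → ℂ) (Aᶜ) w` with `P x y = mc (cm (R.P x y))`, `S x = mg (R.S x)`, `E x = mc (R.E x)`,
and the dictionary between `PVHS` (IpcDefs) and `PV`.
-/

set_option autoImplicit false

noncomputable section

open Set Filter Topology MeasureTheory Matrix
open scoped ContDiff ComplexConjugate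

namespace Crest.Agent.R276.PvO_175

open Crest.Agent.R276.Ipc735 Crest.Agent.R276.Nat_591 Crest.Agent.R276.IpcG1_975
open Crest.Agent.R276.IpcGr_975 Crest.Agent.R276.TopE_175

/-! ### the algebra map from matrices to operators -/

section alg

variable {N : ℕ}

/-- `mc` as an algebra map -/
def mcA : Matrix (Fin N) (Fin N) ℂ →ₐ[ℂ] ((Fin N → ℂ) →L[ℂ] (Fin N → ℂ)) where
  toFun := mc
  map_one' := by
    ext v i
    simp
  map_mul' A B := by
    refine ContinuousLinearMap.ext fun v => ?_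
    show (A * B) *ᵥ v = A *ᵥ (B *ᵥ v)
    rw [mulVec_mulVec]
  map_zero' := by
    refine ContinuousLinearMap.ext fun v => ?_
    show (0 : Matrix (Fin N) (Fin N) ℂ) *ᵥ v = 0
    rw [zero_mulVec]
  map_add' A B := by
    refine ContinuousLinearMap.ext fun v => ?_
    show (A + B) *ᵥ v = A *ᵥ v + B *ᵥ v
    rw [add_mulVec]
  commutes' c := by
    refine ContinuousLinearMap.ext fun v => ?_
    show (algebraMap ℂ (Matrix (Fin N) (Fin N) ℂ) c) *ᵥ v = c • v
    rw [Algebra.algebraMap_eq_smul_one, smul_mulVec, one_mulVec]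

theorem mcA_apply (A : Matrix (Fin N) (Fin N) ℂ) : mcA A = mc A := rfl

theorem mc_mul (A B : Matrix (Fin N) (Fin N) ℂ) : mc (A * B) = mc A * mc B := map_mul mcA A B
theorem mc_one : mc (1 : Matrix (Fin N) (Fin N) ℂ) = 1 := map_one mcA
theorem mc_sub (A B : Matrix (Fin N) (Fin N) ℂ) : mc (A - B) = mc A - mc B := map_sub mcA A B
theorem mc_neg (A : Matrix (Fin N) (Fin N) ℂ) : mc (-A) = -mc A := map_neg mcA A
theorem mc_zero : mc (0 : Matrix (Fin N) (Fin N) ℂ) = 0 := map_zero mcA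

theorem mc_aeval (A : Matrix (Fin N) (Fin N) ℂ) (f : Polynomial ℂ) :
    Polynomial.aeval (mc A) f = mc (Polynomial.aeval A f) := by
  rw [← mcA_apply, ← mcA_apply]
  exact Polynomial.aeval_algHom_apply mcA A f

theorem lag_eq {w p : ℕ} (hp : p ≤ w) :
    lag w p = Lagrange.basis (Finset.range (w + 1)) (fun q : ℕ => (q : ℂ)) p := by
  unfold lag Lagrange.basis Lagrange.basisDivisor
  rw [if_pos hp]

theorem pr_mc {w p : ℕ} (hp : p ≤ w) (E : Matrix (Fin N) (Fin N) ℂ) :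
    pr w p (mc E) = mc (hpr w p E) := by
  unfold pr hpr
  rw [mc_aeval, lag_eq hp]

theorem J_mc (w : ℕ) (E : Matrix (Fin N) (Fin N) ℂ) : IpcGr_975.J w (mc E) = mc (weil w E) := by
  unfold IpcGr_975.J weil
  rw [← mcA_apply (∑ p ∈ Finset.range (w + 1), (-1 : ℂ) ^ p • hpr w p E), map_sum]
  refine Finset.sum_congr rfl fun p hp => ?_
  rw [pr_mc (by have := Finset.mem_range.1 hp; omega), map_smul]
  rfl

theorem sp_mc {w : ℕ} {S E : Matrix (Fin N) (Fin N) ℂ} (h : IsHS w S E) : Sp w (mc E) := by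
  unfold Sp nod
  rw [mc_aeval, h.eig, mc_zero]


/-- smoothness of `mc` of a matrix function with smooth entries -/
theorem contDiffAt_mc {F : ℂ → Matrix (Fin N) (Fin N) ℂ} {z : ℂ}
    (h : ∀ i k, ContDiffAt ℝ (⊤ : ℕ∞) (fun y => F y i k) z) :
    ContDiffAt ℝ (⊤ : ℕ∞) (fun y => mc (F y)) z := by
  have e : (fun y => mc (F y)) = fun y => ∑ i, ∑ k, F y i k • mc (Matrix.single i k (1 : ℂ)) := by
    funext y
    have h1 := matrix_eq_sum_single (F y)
    conv_lhs => rw [h1]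
    rw [← mcA_apply, map_sum]
    refine Finset.sum_congr rfl fun i _ => ?_
    rw [map_sum]
    refine Finset.sum_congr rfl fun k _ => ?_
    rw [← mcA_apply, ← map_smul, smul_single, smul_eq_mul, mul_one]
  rw [e]
  exact ContDiffAt.sum fun i _ => ContDiffAt.sum fun k _ => (h i k).smul contDiffAt_const

/-- derivative of `mc` of a matrix function -/
theorem dW_mc {F : ℂ → Matrix (Fin N) (Fin N) ℂ} {z : ℂ}
    (h : ∀ i k, DifferentiableAt ℝ (fun y => F y i k) z) :
    VCalc_442.dW (fun y => mc (F y)) 1 z = mc (Matrix.of fun i k => wz (fun y => F y i k) z) := by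
  have hF : DifferentiableAt ℝ (fun y => mc (F y)) z := by
    have e : (fun y => mc (F y)) = fun y => ∑ i, ∑ k, F y i k • mc (Matrix.single i k (1 : ℂ)) := by
      funext y
      have h1 := matrix_eq_sum_single (F y)
      conv_lhs => rw [h1]
      rw [← mcA_apply, map_sum]
      refine Finset.sum_congr rfl fun i _ => ?_
      rw [map_sum]
      refine Finset.sum_congr rfl fun k _ => ?_
      rw [← mcA_apply, ← map_smul, smul_single, smul_eq_mul, mul_one]
    rw [e]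
    exact DifferentiableAt.fun_sum fun i _ => DifferentiableAt.fun_sum fun k _ =>
      (h i k).smul (differentiableAt_const _)
  -- test on basis vectors and coordinates
  have key : ∀ i k, (VCalc_442.dW (fun y => mc (F y)) 1 z) (Pi.single k 1) i =
      wz (fun y => F y i k) z := by
    intro i k
    let T : ((Fin N → ℂ) →L[ℂ] (Fin N → ℂ)) →L[ℂ] ℂ :=
      (ContinuousLinearMap.proj (R := ℂ) (φ := fun _ : Fin N => ℂ) i).comp
        (ContinuousLinearMap.apply ℂ (Fin N → ℂ) (Pi.single k 1))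
    have h1 := VCalc_442.dW_clm T hF 1
    have h2 : (fun y => T (mc (F y))) = fun y => F y i k := by
      funext y
      show (F y *ᵥ Pi.single k 1) i = F y i k
      rw [mulVec_single_one]
      rfl
    rw [h2, dW_one] at h1
    exact h1.symm
  refine ContinuousLinearMap.ext fun v => ?_
  funext i
  have h3 : v = ∑ k, v k • (Pi.single k 1 : Fin N → ℂ) := by
    ext j
    simp [Finset.sum_apply, Pi.single_apply]
  rw [mc_apply]
  conv_lhs => rw [h3]
  rw [map_sum, Finset.sum_apply]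
  unfold mulVec dotProduct
  refine Finset.sum_congr rfl fun k _ => ?_
  rw [map_smul, Pi.smul_apply, key, smul_eq_mul, mul_comm]
  rfl

end alg

/-! ### the variation -/

variable {A : Finset ℂ} {N w : ℕ}

theorem cm_star_dot (u v : Fin N → ℂ) (g S : Matrix (Fin N) (Fin N) ℂ) :
    star (g *ᵥ u) ⬝ᵥ S *ᵥ (g *ᵥ v) = star u ⬝ᵥ (gᴴ * S * g) *ᵥ v := by
  rw [star_mulVec, ← dotProduct_mulVec, mulVec_mulVec, mulVec_mulVec, mul_assoc]

/-- **the polarised variation as a `PV`** -/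
def pvOf (R : PVHS A N w) : PV (Fin N → ℂ) ((A : Set ℂ)ᶜ) w where
  P x y := mc (cm (R.P x y))
  op := A.finite_toSet.isClosed.isOpen_compl
  ndc := by
    intro z hz
    obtain ⟨U, hU, h⟩ := R.ndc z hz
    refine ⟨U, hU, fun x hx y hy v hv => ?_⟩
    rw [← mc_mul, ← cm_mul, h x hx y hy v hv]
  one := by
    intro z hz
    rw [DR_175.ndc_self R.ndc hz, cm_one, mc_one]
  S x := mg (R.S x)
  E x := mc (R.E x)
  flatS := by
    intro z hz
    filter_upwards [R.flatS z (fun h => hz h)] with y hy u v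
    rw [mg_apply, mg_apply, mc_apply, mc_apply, hy, cm_star_dot]
  hermS := by
    intro z hz u v
    have h := (R.hs z (fun h => hz h)).herm
    rw [mg_apply, mg_apply, starRingEnd_apply, star_dotProduct, star_mulVec, star_star,
      ← dotProduct_mulVec, h.eq]
  sa := by
    intro z hz u v
    have h := (R.hs z (fun h => hz h)).adj
    rw [mg_apply, mg_apply, mc_apply, mc_apply, star_mulVec, ← dotProduct_mulVec, mulVec_mulVec,
      mulVec_mulVec, h]
  sp := by
    intro z hz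
    exact sp_mc (R.hs z (fun h => hz h))
  pos := by
    intro z hz u hu
    have h := R.hs z (fun h => hz h)
    have h1 := h.hodge_pos hu
    rw [J_mc, mg_apply, mc_apply, star_mulVec, ← dotProduct_mulVec, mulVec_mulVec, ← h.S_weil]
    exact h1
  smE := by
    intro z hz
    have h1 := contDiffAt_mc (F := fun y => lM R.P R.E z y) (z := z) (R.smE z (fun h => hz h))
    refine h1.congr_of_eventuallyEq ?_
    obtain ⟨U, hU, hc⟩ := R.ndc z hz
    filter_upwards [hU] with y hy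
    show mc (cm (R.P z y)) * mc (R.E y) * mc (cm (R.P y z)) = mc (lM R.P R.E z y)
    have h2 : R.P z y * R.P y z = 1 := by
      rw [hc z (mem_of_mem_nhds hU) y hy z (mem_of_mem_nhds hU), DR_175.ndc_self R.ndc hz]
    have h3 : R.P y z = (R.P z y)⁻¹ := (inv_eq_of_mul_eq_one_right h2).symm
    unfold lM
    rw [mc_mul, mc_mul, h3]
  lo := by
    intro z hz
    have hz' : z ∉ A := fun h => hz h
    have h1 : mc (wM R.P R.E z) = VCalc_442.dW (fun y => mc (lM R.P R.E z y)) 1 z :=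
      (dW_mc fun i k => ((R.smE z hz' i k).differentiableAt (by simp))).symm
    have h2 : (fun y => mc (cm (R.P z y)) * mc (R.E y) * mc (cm (R.P y z))) =ᶠ[𝓝 z]
        fun y => mc (lM R.P R.E z y) := by
      obtain ⟨U, hU, hc⟩ := R.ndc z hz
      filter_upwards [hU] with y hy
      have h2 : R.P z y * R.P y z = 1 := by
        rw [hc z (mem_of_mem_nhds hU) y hy z (mem_of_mem_nhds hU), DR_175.ndc_self R.ndc hz]
      have h3 : R.P y z = (R.P z y)⁻¹ := (inv_eq_of_mul_eq_one_right h2).symm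
      unfold lM
      rw [mc_mul, mc_mul, h3]
    have h3 := R.tr z hz'
    unfold Lo
    have h4 : VCalc_442.dW (fun y => mc (cm (R.P z y)) * mc (R.E y) * mc (cm (R.P y z))) 1 z =
        mc (wM R.P R.E z) := by
      rw [h1]
      exact VCalc_442.dW_congr h2 1
    show mc (R.E z) * VCalc_442.dW (fun y => mc (cm (R.P z y)) * mc (R.E y) * mc (cm (R.P y z))) 1 z -
      VCalc_442.dW (fun y => mc (cm (R.P z y)) * mc (R.E y) * mc (cm (R.P y z))) 1 z * mc (R.E z) =
      - VCalc_442.dW (fun y => mc (cm (R.P z y)) * mc (R.E y) * mc (cm (R.P y z))) 1 z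
    rw [h4, ← mc_mul, ← mc_mul, ← mc_sub, h3, mc_neg]

/-! ### dictionary -/

variable (R : PVHS A N w)

theorem pvOf_P (x y : ℂ) (v : Fin N → ℂ) : (pvOf R).P x y v = cm (R.P x y) *ᵥ v := rfl
theorem pvOf_S (x : ℂ) (u v : Fin N → ℂ) : (pvOf R).S x u v = star u ⬝ᵥ R.S x *ᵥ v := mg_apply _ u v


theorem pvOf_Pf {p : ℕ} (hp : p ≤ w) (x : ℂ) (v : Fin N → ℂ) :
    (pvOf R).Pf p x v = hpr w p (R.E x) *ᵥ v := by
  show pr w p (mc (R.E x)) v = _
  rw [pr_mc hp]
  rfl

theorem pvOf_Jf (x : ℂ) (v : Fin N → ℂ) : (pvOf R).Jf x v = weil w (R.E x) *ᵥ v := by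
  show IpcGr_975.J w (mc (R.E x)) v = _
  rw [J_mc]
  rfl

theorem pvOf_G {x : ℂ} (hx : x ∉ A) (u v : Fin N → ℂ) :
    (pvOf R).Gf x u v = star u ⬝ᵥ R.H x *ᵥ v := by
  rw [PV.Gf_apply, pvOf_Jf, pvOf_S, star_mulVec, ← dotProduct_mulVec, mulVec_mulVec,
    ← (R.hs x hx).S_weil]
  rfl

theorem pvOf_nsq {x : ℂ} (hx : x ∉ A) (φ : ℂ → Fin N → ℂ) :
    ((pvOf R).Gf x (φ x) (φ x)).re = R.nsq φ x := by
  rw [pvOf_G R hx]
  rfl



theorem sm_iff (φ : ℂ → Fin N → ℂ) : (pvOf R).Sm φ ↔ R.Sm φ :=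
  ⟨fun h z hz => h z hz, fun h z hz => h z hz⟩

theorem d1_eq (φ : ℂ → Fin N → ℂ) (z : ℂ) : (pvOf R).d1 φ z = R.d1 φ z := by
  show VCalc_442.dW (lV R.P φ z) 1 z = wz (lV R.P φ z) z
  unfold VCalc_442.dW wz
  simp

theorem d2_eq (φ : ℂ → Fin N → ℂ) (z : ℂ) : (pvOf R).d2 φ z = R.d2 φ z := by
  show VCalc_442.dB (lV R.P φ z) 1 z = wb (lV R.P φ z) z
  unfold VCalc_442.dB wb
  simp

theorem closed_iff (a b : ℂ → Fin N → ℂ) :
    (∀ z ∈ ((A : Set ℂ)ᶜ), (pvOf R).d2 a z = (pvOf R).d1 b z) ↔ R.Closed a b := by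
  constructor
  · intro h z hz
    have := h z hz
    rwa [d2_eq, d1_eq] at this
  · intro h z hz
    rw [d2_eq, d1_eq]
    exact h z hz

end Crest.Agent.R276.PvO_175
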