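import Crest.Agent.R276.IpcAs_975
import Crest.Agent.R276.NoEx_827
import Crest.Agent.R276.EndP3_659
import Crest.Agent.R276.DR4_175
import Crest.Agent.R276.PvT_175
import Crest.Agent.R276.LocB_454
import Crest.Agent.R276.Nat10_591
import Crest.Agent.R276.FamB_563
import Crest.Agent.R276.Nat8_591
import Crest.Agent.R276.FamA_563
import Crest.Agent.R276.WclT_175
import Crest.Agent.R276.PvO_175
import Crest.Agent.R276.Res_735
import Mathlib
import Crest.Agent.R266.Osgood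
import Crest.Agent.R271.Weyl_399
import Crest.Agent.R276.IpcLoc_735
import Crest.Agent.R276.Grp5_591
import Crest.Agent.R276.PackB_454

-- ▼ part R276/IpcIn_975
section

/-!
# R276, IPC fixed-s assembly (helper975), part 15: the inputs `Inp` for a `PVHS` of IpcDefs_735

`Dic R M`: the dictionary between `R : PVHS A N w` and `M : PV (Fin N → ℂ) (ℂ \ A) w`.
-/

set_option autoImplicit false

open Set Filter Topology MeasureTheory UniformSpace Matrix
open scoped ContDiff ComplexConjugate ENNReal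

namespace Crest.Agent.R276.IpcG1_975

open VCalc_442 IpcGr_975 Ipc735

/-- dictionary -/
structure Dic {A : Finset ℂ} {N w : ℕ} (R : PVHS A N w) (M : PV (Fin N → ℂ) ((A : Set ℂ)ᶜ) w) :
    Prop where
  sm : ∀ φ, M.Sm φ ↔ R.Sm φ
  d1 : ∀ φ z, M.d1 φ z = R.d1 φ z
  d2 : ∀ φ z, M.d2 φ z = R.d2 φ z
  nsq : ∀ φ, ∀ x ∉ A, (M.Gf x (φ x) (φ x)).re = R.nsq φ x
  J : ∀ x ∉ A, ∀ v, M.Jf x v = weil w (R.E x) *ᵥ v

namespace Dic

variable {A : Finset ℂ} {N w : ℕ} {R : PVHS A N w} {M : PV (Fin N → ℂ) ((A : Set ℂ)ᶜ) w}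
  (h : Dic R M)

include h

theorem clo (α : ℂ → (Fin N → ℂ) × (Fin N → ℂ)) :
    M.toFB.Clo α ↔ R.Sm (fun x => (α x).1) ∧ R.Sm (fun x => (α x).2) ∧
      R.Closed (fun x => (α x).1) (fun x => (α x).2) := by
  unfold FB.Clo
  rw [FB.sm_dbl, h.sm, h.sm, and_assoc]
  refine and_congr Iff.rfl (and_congr Iff.rfl ?_)
  unfold PVHS.Closed
  constructor
  · intro h1 z hz
    have := h1 z hz
    rwa [h.d2, h.d1] at this
  · intro h1 z hz
    rw [h.d2, h.d1]
    exact h1 z hz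

theorem G2 (α : ℂ → (Fin N → ℂ) × (Fin N → ℂ)) {x : ℂ} (hx : x ∉ A) :
    (M.mb.dbl.G x (α x) (α x)).re =
      R.nsq (fun x => (α x).1) x + R.nsq (fun x => (α x).2) x := by
  rw [← h.nsq (fun x => (α x).1) x hx, ← h.nsq (fun x => (α x).2) x hx, ← Complex.add_re]
  rfl

theorem int_split {α : ℂ → (Fin N → ℂ) × (Fin N → ℂ)} (hs : M.toFB.dbl.Sm α) (hf : M.Fin2 α) :
    IntegrableOn (R.nsq (fun x => (α x).1)) ((A : Set ℂ)ᶜ) ∧
      IntegrableOn (R.nsq (fun x => (α x).2)) ((A : Set ℂ)ᶜ) := by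
  have hX : MeasurableSet ((A : Set ℂ)ᶜ) := M.op.measurableSet
  obtain ⟨h1, h2⟩ := FB.sm_dbl.1 hs
  have c1 : ContinuousOn (R.nsq (fun x => (α x).1)) ((A : Set ℂ)ᶜ) := by
    refine (MB.contOn_re (M := M.mb) h1).congr fun x hx => ?_
    exact (h.nsq (fun x => (α x).1) x hx).symm
  have c2 : ContinuousOn (R.nsq (fun x => (α x).2)) ((A : Set ℂ)ᶜ) := by
    refine (MB.contOn_re (M := M.mb) h2).congr fun x hx => ?_
    exact (h.nsq (fun x => (α x).2) x hx).symm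
  have nn : ∀ φ : ℂ → Fin N → ℂ, ∀ x ∉ A, 0 ≤ R.nsq φ x := by
    intro φ x hx
    rw [← h.nsq φ x hx]
    exact M.G_nonneg' hx _
  constructor
  · refine Integrable.mono hf (c1.aestronglyMeasurable hX) ?_
    filter_upwards [ae_restrict_mem hX] with x hx
    rw [Real.norm_of_nonneg (nn _ x hx), h.G2 α hx, Real.norm_of_nonneg (add_nonneg (nn _ x hx) (nn _ x hx))]
    linarith [nn (fun x => (α x).2) x hx]
  · refine Integrable.mono hf (c2.aestronglyMeasurable hX) ?_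
    filter_upwards [ae_restrict_mem hX] with x hx
    rw [Real.norm_of_nonneg (nn _ x hx), h.G2 α hx, Real.norm_of_nonneg (add_nonneg (nn _ x hx) (nn _ x hx))]
    linarith [nn (fun x => (α x).1) x hx]

theorem I3 (α : ℂ → (Fin N → ℂ) × (Fin N → ℂ)) (hc : M.toFB.Clo α) (hf : M.Fin2 α) :
    ∃ ζ ∈ M.ZS, M.Exact (fun x => α x - ζ.f x) := by
  obtain ⟨sa, sb, cab⟩ := (h.clo α).1 hc
  obtain ⟨i1, i2⟩ := h.int_split hc.1 hf
  have hpar := EndP_659.par_of_L2 R sa sb cab i1 i2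
  obtain ⟨g, hg, K, hK, hKA, hcut⟩ := DR_175.exists_cut (P := R.P) hpar.1 hpar.2
  have hgS : M.Sm g := (h.sm g).2 hg
  have hDg : M.toFB.dbl.Sm (M.toFB.Df g) := FB.sm_dbl.2 ⟨hgS.d1, hgS.d2⟩
  classical
  set β : ℂ → (Fin N → ℂ) × (Fin N → ℂ) := fun x => if x ∈ A then 0 else α x - M.toFB.Df g x with hβ
  have hβX : ∀ x ∈ ((A : Set ℂ)ᶜ), β x = α x - M.toFB.Df g x := fun x hx => by
    rw [hβ]; simp only; exact if_neg (fun h' => hx h')
  have hsm : M.toFB.dbl.Sm β := by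
    intro z hz
    refine ((hc.1.sub hDg) z hz).congr_of_eventuallyEq ?_
    filter_upwards [M.op.mem_nhds hz] with y hy
    rw [FB.tr, FB.tr, hβX y hy]
  have hmem : β ∈ M.toFB.dbl.A0 := by
    refine ⟨hsm, K, hKA, hK, fun x hx => ?_⟩
    by_cases hxA : x ∈ A
    · rw [hβ]; simp only; rw [if_pos hxA]
    · rw [hβX x hxA]
      obtain ⟨e1, e2⟩ := hcut x hx hxA
      refine Prod.ext ?_ ?_
      · show (α x).1 - M.d1 g x = 0
        rw [h.d1, e1]
        exact sub_self _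
      · show (α x).2 - M.d2 g x = 0
        rw [h.d2, e2]
        exact sub_self _
  have hclo : M.toFB.Clo β := by
    refine ⟨hsm, fun z hz => ?_⟩
    obtain ⟨s1, s2⟩ := FB.sm_dbl.1 hc.1
    have e1 : M.d2 (fun x => (β x).1) z = M.d2 ((fun x => (α x).1) + ((-1 : ℂ) • M.d1 g)) z := by
      have : M.tr z (fun x => (β x).1) =ᶠ[𝓝 z] M.tr z ((fun x => (α x).1) + ((-1 : ℂ) • M.d1 g)) := by
        filter_upwards [M.op.mem_nhds hz] with y hy
        rw [FB.tr, FB.tr, hβX y hy]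
        simp [FB.Df, sub_eq_add_neg]
      exact dB_congr this 1
    have e2 : M.d1 (fun x => (β x).2) z = M.d1 ((fun x => (α x).2) + ((-1 : ℂ) • M.d2 g)) z := by
      have : M.tr z (fun x => (β x).2) =ᶠ[𝓝 z] M.tr z ((fun x => (α x).2) + ((-1 : ℂ) • M.d2 g)) := by
        filter_upwards [M.op.mem_nhds hz] with y hy
        rw [FB.tr, FB.tr, hβX y hy]
        simp [FB.Df, sub_eq_add_neg]
      exact dW_congr this 1
    have c1 : M.Sm ((-1 : ℂ) • M.d1 g) := hgS.d1.const_smul _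
    have c2 : M.Sm ((-1 : ℂ) • M.d2 g) := hgS.d2.const_smul _
    rw [e1, e2, FB.d2_add s1 c1 hz, FB.d1_add s2 c2 hz,
      FB.d2_smul hgS.d1 _ hz, FB.d1_smul hgS.d2 _ hz, FB.d2_d1 hgS hz, hc.2 z hz]
  refine ⟨M.mb.dbl.s0 β hmem, hclo, g, hgS, fun x hx => ?_⟩
  simp only [MB.s0_f]
  rw [hβX x hx]
  abel

theorem I5 (ψ : ℂ → Fin N → ℂ) (hψ : M.Sm ψ) (hc : M.toFB.Clo (fun x => M.bt x (M.toFB.Df ψ x)))
    (hf : M.Fin2 (M.toFB.Df ψ)) : ∀ x ∈ ((A : Set ℂ)ᶜ), M.toFB.Df ψ x = 0 := by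
  have hsm : M.toFB.dbl.Sm (M.toFB.Df ψ) := FB.sm_dbl.2 ⟨hψ.d1, hψ.d2⟩
  obtain ⟨i1, i2⟩ := h.int_split hsm hf
  have hJ1 : M.Sm (fun x => M.Jf x (M.d1 ψ x)) := FB.Sm.app M.smJ hψ.d1
  have hJ2 : M.Sm (fun x => M.Jf x (M.d2 ψ x)) := FB.Sm.app M.smJ hψ.d2
  have hharm : ∀ z ∉ A, R.d2 (fun x => weil w (R.E x) *ᵥ R.d1 ψ x) z =
      - R.d1 (fun x => weil w (R.E x) *ᵥ R.d2 ψ x) z := by
    intro z hz
    have h1 := hc.2 z hz
    have e1 : M.d2 (fun x => (M.bt x (M.toFB.Df ψ x)).1) z =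
        - M.d2 (fun x => M.Jf x (M.d1 ψ x)) z := by
      have : (fun x => (M.bt x (M.toFB.Df ψ x)).1) = (-1 : ℂ) • (fun x => M.Jf x (M.d1 ψ x)) := by
        funext x
        simp [PV.bt, FB.Df]
      rw [this, FB.d2_smul hJ1 _ hz, neg_one_smul]
    have e2 : (fun x => (M.bt x (M.toFB.Df ψ x)).2) = (fun x => M.Jf x (M.d2 ψ x)) := rfl
    rw [e1, e2] at h1
    have hev : ∀ {f g : ℂ → Fin N → ℂ}, (∀ x ∉ A, f x = g x) →
        M.tr z f =ᶠ[𝓝 z] M.tr z g := by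
      intro f g hfg
      filter_upwards [M.op.mem_nhds hz] with y hy
      rw [FB.tr, FB.tr, hfg y hy]
    have e3 : M.d2 (fun x => M.Jf x (M.d1 ψ x)) z =
        M.d2 (fun x => weil w (R.E x) *ᵥ R.d1 ψ x) z := by
      refine dB_congr (hev fun x hx => ?_) 1
      rw [h.J x hx, h.d1]
    have e4 : M.d1 (fun x => M.Jf x (M.d2 ψ x)) z =
        M.d1 (fun x => weil w (R.E x) *ᵥ R.d2 ψ x) z := by
      refine dW_congr (hev fun x hx => ?_) 1
      rw [h.J x hx, h.d2]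
    rw [e3, e4, h.d2, h.d1] at h1
    rw [← h1, neg_neg]
  have i1' : IntegrableOn (R.nsq (R.d1 ψ)) ((A : Set ℂ)ᶜ) := by
    have : (fun x => (M.toFB.Df ψ x).1) = R.d1 ψ := by funext x; exact h.d1 ψ x
    rwa [this] at i1
  have i2' : IntegrableOn (R.nsq (R.d2 ψ)) ((A : Set ℂ)ᶜ) := by
    have : (fun x => (M.toFB.Df ψ x).2) = R.d2 ψ := by funext x; exact h.d2 ψ x
    rwa [this] at i2
  have h0 := NoEx_827.no_exact R ((h.sm ψ).1 hψ) hharm i1' i2'
  intro x hx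
  obtain ⟨a1, a2⟩ := h0 x hx
  refine Prod.ext ?_ ?_
  · show M.d1 ψ x = 0
    rw [h.d1, a1]
  · show M.d2 ψ x = 0
    rw [h.d2, a2]

theorem IT (α : ℂ → (Fin N → ℂ) × (Fin N → ℂ)) (hc : M.toFB.Clo α)
    (ha : ∀ ε : ℝ, 0 < ε → ∃ φ ∈ M.toFB.A0,
      IntegrableOn (fun x => (M.mb.dbl.G x (α x - M.toFB.Df φ x) (α x - M.toFB.Df φ x)).re)
        ((A : Set ℂ)ᶜ) ∧
      ∫ x in ((A : Set ℂ)ᶜ), (M.mb.dbl.G x (α x - M.toFB.Df φ x) (α x - M.toFB.Df φ x)).re < ε) :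
    M.Exact α := by
  obtain ⟨sa, sb, cab⟩ := (h.clo α).1 hc
  obtain ⟨ψ, h1, h2, h3⟩ := IpcEx_309.exact_of_approx R sa sb cab (fun K hK hKc ε hε => by
    obtain ⟨φ, hφ, hi, hlt⟩ := ha ε hε
    refine ⟨φ, (h.sm φ).1 hφ.1, lt_of_le_of_lt ?_ hlt⟩
    have e1 : ∫ z in K, (R.nsq (fun z => (α z).1 - R.d1 φ z) z +
        R.nsq (fun z => (α z).2 - R.d2 φ z) z) =
        ∫ x in K, (M.mb.dbl.G x (α x - M.toFB.Df φ x) (α x - M.toFB.Df φ x)).re := by
      refine setIntegral_congr_fun hKc.measurableSet fun x hx => ?_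
      simp only
      rw [h.G2 (fun x => α x - M.toFB.Df φ x) (hK hx)]
      have a1 : (fun x => (α x - M.toFB.Df φ x).1) = fun z => (α z).1 - R.d1 φ z := by
        funext z; show (α z).1 - M.d1 φ z = _; rw [h.d1]
      have a2 : (fun x => (α x - M.toFB.Df φ x).2) = fun z => (α z).2 - R.d2 φ z := by
        funext z; show (α z).2 - M.d2 φ z = _; rw [h.d2]
      rw [a1, a2]
    rw [e1]
    refine setIntegral_mono_set hi ?_ (HasSubset.Subset.eventuallyLE hK)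
    filter_upwards [ae_restrict_mem M.op.measurableSet] with x hx
    exact M.mb.dbl.G_nonneg hx _)
  refine ⟨ψ, (h.sm ψ).2 h1, fun x hx => ?_⟩
  refine Prod.ext ?_ ?_
  · show (α x).1 = M.d1 ψ x
    rw [h.d1, h2 x hx]
  · show (α x).2 = M.d2 ψ x
    rw [h.d2, h3 x hx]

/-- **the inputs hold** -/
theorem inp : M.Inp := ⟨h.I3, h.I5, h.IT⟩

end Dic

end Crest.Agent.R276.IpcG1_975
end

-- ▼ part R276/IpcIp_975
section

/-!
# R276, IPC fixed-s assembly (helper975), part 16: `inpOf` and the class map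

* `dicOf R : Dic R (pvOf R)`, `inpOf R : (pvOf R).Inp` : the inputs I3, I5, IT hold for `pvOf R`.
* `clV V s : (pvOf (V.res s)).Zc →L[ℂ] Wf V s` : the class map, with `clV_surj`, `clV_ker`, `clV_ZS`.
* `fixV V s : Fix (pvOf (V.res s)).L (Wf V s)`, `typesV V s`.
-/

set_option autoImplicit false

open Set Filter Topology MeasureTheory UniformSpace Matrix
open scoped ContDiff ComplexConjugate ENNReal

namespace Crest.Agent.R276.IpcG1_975

open VCalc_442 IpcGr_975 Ipc735 PvO_175 Top3_279 Crest.Agent.R271.Ho51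

section one

variable {A : Finset ℂ} {N w : ℕ} (R : PVHS A N w)

/-- the dictionary -/
theorem dicOf : Dic R (pvOf R) where
  sm := sm_iff R
  d1 := d1_eq R
  d2 := d2_eq R
  nsq := fun φ _ hx => pvOf_nsq R hx φ
  J := fun x _ v => pvOf_Jf R x v

/-- **the inputs I3, I5, IT hold for every polarised variation over a punctured plane** -/
theorem inpOf : (pvOf R).Inp := (dicOf R).inp

end one

section fam

variable {m N w : ℕ} {S : Type*} [TopologicalSpace S] [RDom m S] {k : ℕ} {Q : Punc S k}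
  (V : Ipc735.VHS (m + 1) (Tot Q) N w) (s : S)

/-- **the class map** on weakly closed `L²` forms (continuous for the norm of `Wf V s` given by
`Top3_279.wfNorm`) -/
noncomputable def clV := ((inpOf (V.res s)).exists_cl (cW V s) (cW_surj V s) (cW_ker V s)).choose

theorem clV_surj : Function.Surjective (clV V s) :=
  ((inpOf (V.res s)).exists_cl (cW V s) (cW_surj V s) (cW_ker V s)).choose_spec.1

theorem clV_ker (u : (pvOf (V.res s)).Zc) :
    clV V s u = 0 ↔ (u : (pvOf (V.res s)).L) ∈ (pvOf (V.res s)).Ex :=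
  ((inpOf (V.res s)).exists_cl (cW V s) (cW_surj V s) (cW_ker V s)).choose_spec.2.1 u

theorem clV_ZS (ζ : (pvOf (V.res s)).ZS) :
    clV V s ⟨((ζ : (pvOf (V.res s)).mb.dbl.H0) : (pvOf (V.res s)).L),
      (pvOf (V.res s)).ZS_mem_Zc ζ.2⟩ = cW V s ζ :=
  ((inpOf (V.res s)).exists_cl (cW V s) (cW_surj V s) (cW_ker V s)).choose_spec.2.2 ζ

/-- the data `Fix` of 817 -/
noncomputable def fixV : HsB_817.Fix (pvOf (V.res s)).L (Wf V s) :=
  (pvOf (V.res s)).fix (clV V s) (clV_surj V s) (clV_ker V s)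


variable {V s}

/-- the forms underlying smooth `L²` closed elements are parabolic -/
theorem par_of_rep {u : (pvOf (V.res s)).L} {α : ℂ → (Fin N → ℂ) × (Fin N → ℂ)}
    (hu : u ∈ (pvOf (V.res s)).Zc) (h : (pvOf (V.res s)).Rep u α) :
    Wcl_175.SC (V.res s) (fun x => (α x).1) (fun x => (α x).2) ∧
      (V.res s).Par (fun x => (α x).1) (fun x => (α x).2) := by
  have hc := h.clo hu
  obtain ⟨sa, sb, cab⟩ := ((dicOf (V.res s)).clo α).1 hc
  obtain ⟨i1, i2⟩ := (dicOf (V.res s)).int_split hc.1 h.g.integrableOn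
  exact ⟨⟨sa, sb, cab⟩, EndP_659.par_of_L2 (V.res s) sa sb cab i1 i2⟩

/-- **the class of a smooth representative** -/
theorem clL_rep {u : (pvOf (V.res s)).L} {α : ℂ → (Fin N → ℂ) × (Fin N → ℂ)}
    (hu : u ∈ (pvOf (V.res s)).Zc) (h : (pvOf (V.res s)).Rep u α) :
    (fixV V s).clL u = Wcl_175.wcl V s (fun x => (α x).1) (fun x => (α x).2) := by
  obtain ⟨hsc, hpar⟩ := par_of_rep hu h
  obtain ⟨ζ, hζ, hex⟩ := (inpOf (V.res s)).exists_smooth hu
  have hζz := (pvOf (V.res s)).ZS_mem_Zc hζ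
  have e1 : (fixV V s).clL u = (fixV V s).clL (ζ : (pvOf (V.res s)).L) :=
    ((fixV V s).clL_eq_iff hu hζz).2 hex
  have e2 : (fixV V s).clL (ζ : (pvOf (V.res s)).L) = cW V s ⟨ζ, hζ⟩ := by
    rw [(fixV V s).clL_eq hζz]
    exact clV_ZS V s ⟨ζ, hζ⟩
  rw [e1, e2, cW_apply]
  have hcf := cf_of_ZS hζ
  have h3 := (inpOf (V.res s)).exact_of_ex (h.sub ((pvOf (V.res s)).rep_coe ζ)) hex
  rw [exact_iff] at h3
  have h4 : Wcl_175.SC (V.res s) ((fun x => (α x).1) + (-1 : ℂ) • (fun x => (ζ.f x).1))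
      ((fun x => (α x).2) + (-1 : ℂ) • (fun x => (ζ.f x).2)) := hsc.add (hcf.toSC.smul (-1))
  have h5 : (V.res s).Par ((fun x => (α x).1) + (-1 : ℂ) • (fun x => (ζ.f x).1))
      ((fun x => (α x).2) + (-1 : ℂ) • (fun x => (ζ.f x).2)) :=
    Wcl_175.par_add hsc (hcf.toSC.smul (-1)) hpar (Wcl_175.par_smul (-1) hcf.toSC hcf.par)
  have h6 : Wcl_175.wcl V s ((fun x => (α x).1) + (-1 : ℂ) • (fun x => (ζ.f x).1))
      ((fun x => (α x).2) + (-1 : ℂ) • (fun x => (ζ.f x).2)) = 0 := by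
    rw [Wcl_175.wcl_eq_zero h4 h5]
    obtain ⟨φ, h7, h8⟩ := h3
    refine ⟨φ, h7, fun z hz => ?_⟩
    obtain ⟨h9, h10⟩ := h8 z hz
    refine ⟨?_, ?_⟩
    · rw [h9]
      simp [sub_eq_add_neg]
    · rw [h10]
      simp [sub_eq_add_neg]
  rw [Wcl_175.wcl_add hsc (hcf.toSC.smul (-1)) hpar (Wcl_175.par_smul (-1) hcf.toSC hcf.par),
    Wcl_175.wcl_smul (-1) hcf.toSC hcf.par, neg_one_smul, ← sub_eq_add_neg, sub_eq_zero] at h6
  exact h6.symm

end fam

end Crest.Agent.R276.IpcG1_975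
end

-- ▼ part R276/LocD_454
section

/-!
# R276, IPC-STEP (helper454): LOC, part D: the concrete pieces

`locPieces V : Pieces m S (w + 1)` and, from 563's local data `D : LD V z`, `trivOf D : (locPieces V).Triv z`.
-/

set_option autoImplicit false
set_option linter.unusedSectionVars false

noncomputable section

open Set Filter Topology MeasureTheory Matrix Metric UniformSpace
open scoped ContDiff ComplexConjugate

namespace Crest.Agent.R276.Step_454

open Crest.Agent.R271.Ho51 Crest.Agent.R276.Ipc735 Crest.Agent.R276.Top3_279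
open IpcG1_975 Psi_563 FamA_563 FamB_563 HsB_817 HsC_817 HsE_817 K4b_817 Wcl_175 DR_175 PvO_175
open Nat_591

variable {m k N w : ℕ} {S : Type} [TopologicalSpace S] [RDom m S] {Q : Punc S k}

/-- the Hilbert space package over `s` -/
abbrev FV (V : Ipc735.VHS (m + 1) (Tot Q) N w) (s : S) : Fix (pvOf (V.res s)).L (Wf V s) :=
  fixV V s

lemma isFixV (V : Ipc735.VHS (m + 1) (Tot Q) N w) (s : S) : IsFixV V s (FV V s) where
  be := rfl
  ex := rfl
  zc := rfl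
  zs ζ _ := clV_ZS V s ζ

variable [T2Space S]

/-- the pieces -/
def locPieces (V : Ipc735.VHS (m + 1) (Tot Q) N w) : Pieces m S (w + 1) where
  W s := Wf V s
  Lh s := (pvOf (V.res s)).L
  D := FV V
  π s := (pvOf (V.res s)).Ty
  ty s := ⟨1, (isFixV V s).types⟩
  L := LW V
  lat := Top3_279.lat V
  τ := tW V
  idt := tW_id V
  coc := tW_coc V
  int := tW_int V

/-- what 563's part C has to give -/
structure N3 {V : Ipc735.VHS (m + 1) (Tot Q) N w} {z : S} (D : LD V z) : Prop where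
  fm : IsFm (V.res z) (pvOf (V.res z)).mb.dbl (pvOf (V.res z)).bt
  n3 : ∀ x ∈ hU D, ∀ P ≤ w + 1, ∀ y ∉ Q.A z, ∀ v,
    opT (D.T P x y) (Kf (D.Ψ x) (Kv D x) y v) =
      Kf (D.Ψ x) (Kv D x) y ((pvOf (V.res (D.σ x))).ty P (D.Ψ x y) v)

variable {V : Ipc735.VHS (m + 1) (Tot Q) N w} {z : S}

/-- **the trivialisation** -/
def trivOf (D : LD V z) (h : N3 D) : (locPieces V).Triv z where
  U := hU D
  op := isOpen_hU D
  mem := mem_hU D
  T := TV D
  bij x hx := TV_bij hx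
  form x hx u v := TV_form' hx (isFixV V _) (isFixV V _) u v
  zc x hx u := TV_zc' hx (isFixV V _) (isFixV V _) u
  cl x hx u hu := TV_cl hx (inpOf _) (isFixV V _) (isFixV V _) hu
  π' x P := (pvOf (V.res z)).mb.dbl.opL (fun y => opT (D.T P x y))
  inter x hx P hP u :=
    (TV_Ty hx ((ptTypes D h.fm hx).okp P hP) (h.n3 x hx P hP) u).symm
  fam := by
    refine (ptFam D h.fm).family (FV V z) (isFixV V z).be fun x hx => ?_
    have hN : NatD (FV V z) (FV V (D.σ x)) (psiV D hx).TE :=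
      { form := fun u v => by
          rw [(isFixV V z).be, (isFixV V (D.σ x)).be]
          exact (psiV D hx).form u v
        ex := fun u => by
          rw [(isFixV V z).ex, (isFixV V (D.σ x)).ex]
          exact (psiV D hx).ex u }
    refine hN.stab (π' := (pvOf (V.res (D.σ x))).Ty) (fun P hP u => ?_)
      (isFixV V (D.σ x)).types.stab
    have := TV_Ty hx ((ptTypes D h.fm hx).okp P hP) (h.n3 x hx P hP) u
    rw [TV_of hx, TV_of hx] at this
    exact this.symm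

end Crest.Agent.R276.Step_454
end
end

-- ▼ part R276/FamD_563
section

/-!
# R276, leaf IPC-FAM (helper563), part D: local data with bumps in small discs

* `exists_local'` : 279's `exists_local` with the supports of the bumps in discs of radius `ρ`;
* `exists_LD'` : for `x₁ ∉ A s₀` and a neighbourhood `W` of `s₀` there is `D : LD V s₀` with
  `bB s₀ D.r ⊆ W` and `x₁ ∉ D.Bm.K`.
-/

set_option autoImplicit false
set_option linter.unusedSectionVars false

noncomputable section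

open Set Filter Topology Matrix Metric
open scoped ContDiff

namespace Crest.Agent.R276.FamD_563

open Crest.Agent.R271.Ho51 Crest.Agent.R276.Ipc735 Crest.Agent.R276.Top3_279
open Crest.Agent.R276.Psi_563 Crest.Agent.R276.FamA_563

variable {m : ℕ} {S : Type*} [TopologicalSpace S] [RDom m S] {k N w : ℕ} {Q : Punc S k}

/-- local data of a family of punctures near a point, bumps in discs of radius `ρ` -/
theorem exists_local' (Q : Punc S k) (s₀ : S) {ρ : ℝ} (hρ : 0 < ρ) :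
    ∃ (Bm : Bumps k) (α : S → Fin k → ℂ) (N : Set S),
    (∀ i, tsupport (Bm.χ i) ⊆ ball (Bm.a i) ρ) ∧
    N ∈ 𝓝 s₀ ∧ IsOpen N ∧ (∀ i, HolAt (fun s => α s i) s₀) ∧ ContinuousOn α N ∧ α s₀ = Bm.a ∧
    (∀ s ∈ N, ‖α s - Bm.a‖ < Bm.δ) ∧ (∀ s ∈ N, Function.Injective (α s)) ∧
    ∀ s ∈ N, Q.A s = Finset.univ.image (α s) := by
  obtain ⟨a, ha, hloc⟩ := Q.loc s₀
  obtain ⟨Bm, hBm, hsupp⟩ := exists_bumps (fun i => a i s₀) hloc.self_of_nhds.1 hρ
  have h1 : ∀ᶠ s in 𝓝 s₀, ContinuousAt (fun s => (fun i => a i s : Fin k → ℂ)) s := by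
    have : ∀ᶠ s in 𝓝 s₀, ∀ i, ContinuousAt (a i) s :=
      eventually_all.2 fun i => HolAt.eventually_continuousAt (ha i)
    filter_upwards [this] with s hs
    exact continuousAt_pi.2 hs
  have h2 : ∀ᶠ s in 𝓝 s₀, ‖(fun i => a i s : Fin k → ℂ) - Bm.a‖ < Bm.δ := by
    have hc : ContinuousAt (fun s => ‖(fun i => a i s : Fin k → ℂ) - Bm.a‖) s₀ :=
      (h1.self_of_nhds.sub continuousAt_const).norm
    refine hc.eventually_lt continuousAt_const ?_
    rw [hBm, sub_self, norm_zero]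
    exact Bm.δ_pos
  obtain ⟨N, hN1, hN2, hN3⟩ := mem_nhds_iff.1 (inter_mem h1 (inter_mem h2 hloc))
  refine ⟨Bm, fun s i => a i s, N, ?_, hN2.mem_nhds hN3, hN2, ha,
    fun s hs => ContinuousAt.continuousWithinAt (f := fun s i => a i s) (hN1 hs).1, hBm.symm,
    fun s hs => (hN1 hs).2.1, fun s hs => (hN1 hs).2.2.1, fun s hs => (hN1 hs).2.2.2⟩
  intro i
  rw [hBm]
  exact hsupp i

/-- local data with bumps in discs of radius `ρ` -/
theorem exists_LD_small [T2Space S] (V : Ipc735.VHS (m + 1) (Tot Q) N w) (s₀ : S) {W : Set S}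
    (hW : W ∈ 𝓝 s₀) {ρ : ℝ} (hρ : 0 < ρ) :
    ∃ D : LD V s₀, bB s₀ D.r ⊆ W ∧ ∀ i, tsupport (D.Bm.χ i) ⊆ ball (D.Bm.a i) ρ := by
  obtain ⟨Bm, α, N', hsupp, hN', hNo, hhol, hcont, h0, hδ, hinj, hA⟩ := exists_local' Q s₀ hρ
  have hcpt : cp s₀ ∈ (ch s₀).target := (isCh_ch s₀).cp_mem (mem_ch s₀)
  have ht : Tendsto (ch s₀).symm (𝓝 (cp s₀)) (𝓝 s₀) := by
    have := (ch s₀).symm.continuousAt (x := cp s₀) (by simpa using hcpt)
    rwa [ContinuousAt, symm_cp] at this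
  have hhol' : AnalyticAt ℂ (fun z => α ((ch s₀).symm z)) (cp s₀) := by
    rw [analyticAt_pi_iff]
    intro i
    exact hhol i
  obtain ⟨r, hr, hball⟩ := Metric.mem_nhds_iff.1 (inter_mem (inter_mem (ht.eventually_mem hN')
    (ht.eventually_mem hW)) (inter_mem ((ch s₀).open_target.mem_nhds hcpt)
      hhol'.eventually_analyticAt))
  have hsub : ball (cp s₀ : Fin m → ℂ) r ⊆ (ch s₀).target := fun z hz => (hball hz).2.1
  have hB : ∀ s ∈ bB s₀ r, s ∈ N' ∧ s ∈ W := by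
    intro s hs
    have h1 := (hball hs.2).1
    have h2 : (ch s₀).symm (cp s) = s := (isCh_ch s₀).symm_cp hs.1
    have h3 : (ch s₀).symm (cp s) ∈ N' ∧ (ch s₀).symm (cp s) ∈ W := h1
    rwa [h2] at h3
  have hcont' : ContinuousOn α (bB s₀ r) := hcont.mono fun s hs => (hB s hs).1
  have hδ' : ∀ s ∈ bB s₀ r, ‖α s - Bm.a‖ < Bm.δ := fun s hs => hδ s (hB s hs).1
  have hA' : ∀ s ∈ bB s₀ r, Q.A s = Finset.univ.image (α s) := fun s hs => hA s (hB s hs).1
  obtain ⟨gau⟩ := exists_gau (P := V.P) V.ndc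
    (locOf (Q := Q) Bm α hcont' h0 (mem_bB_self s₀ hr) hδ' hA') (sheet_bB hsub) (mem_bB_self s₀ hr)
  exact ⟨{ Bm := Bm, α := α, r := r, r_pos := hr, sub := hsub
           hol := fun z hz => (hball hz).2.2
           cont := hcont', h0 := h0, mem := mem_bB_self s₀ hr, hδ := hδ'
           inj := fun s hs => hinj s (hB s hs).1, hA := hA', gau := gau },
    fun s hs => (hB s hs).2, hsupp⟩

/-- **local data with bumps away from a given point of the fibre** -/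
theorem exists_LD' [T2Space S] (V : Ipc735.VHS (m + 1) (Tot Q) N w) (s₀ : S) {W : Set S}
    (hW : W ∈ 𝓝 s₀) {x₁ : ℂ} (hx : x₁ ∉ Q.A s₀) :
    ∃ D : LD V s₀, bB s₀ D.r ⊆ W ∧ x₁ ∉ D.Bm.K := by
  obtain ⟨ρ, hρ, hball⟩ := Metric.isOpen_iff.1 (Q.A s₀).finite_toSet.isClosed.isOpen_compl x₁ hx
  obtain ⟨D, hD, hsupp⟩ := exists_LD_small V s₀ hW hρ
  refine ⟨D, hD, ?_⟩
  unfold Bumps.K
  rw [Set.mem_iUnion]
  rintro ⟨i, hi⟩
  have h1 := hsupp i hi
  have h2 : D.Bm.a i ∈ ball x₁ ρ := by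
    rw [Metric.mem_ball, dist_comm]
    exact h1
  have h3 : D.Bm.a i ∈ Q.A s₀ := by
    rw [D.hA s₀ D.mem, D.h0]
    exact Finset.mem_image_of_mem _ (Finset.mem_univ i)
  exact hball h2 (Finset.mem_coe.2 h3)

end Crest.Agent.R276.FamD_563
end
end

-- ▼ part R276/LocE_454
section

/-!
# R276, IPC-STEP (helper454): LOC, part E: the top piece

`TH V` : what the holomorphy part (735 / 175) has to give; `topV V h : TopPieces (locPieces V) Q V`.
-/

set_option autoImplicit false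
set_option linter.unusedSectionVars false

noncomputable section

open Set Filter Topology MeasureTheory Matrix Metric UniformSpace
open scoped ContDiff ComplexConjugate

namespace Crest.Agent.R276.Step_454

open Crest.Agent.R271.Ho51 Crest.Agent.R276.Ipc735 Crest.Agent.R276.Top3_279
open IpcG1_975 Psi_563 FamA_563 FamB_563 HsB_817 HsC_817 HsE_817 K4b_817 Wcl_175 DR_175 PvO_175
open Nat_591 FamD_563

local notation "⟪" x ", " y "⟫" => inner ℂ x y

variable {m k N w : ℕ} {S : Type} [TopologicalSpace S] [RDom m S] {Q : Punc S k}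

/-- the element of `L²` of `f dx` -/
abbrev embV (V : Ipc735.VHS (m + 1) (Tot Q) N w) (s : S) (f : ℂ → Fin N → ℂ) :
    (pvOf (V.res s)).L := TopE_175.emb (pvOf (V.res s)) f

/-- holomorphic sections have holomorphic classes -/
def HolA (V : Ipc735.VHS (m + 1) (Tot Q) N w) : Prop :=
  ∀ (z : S) (D : LD V z) (f : S → ℂ → Fin N → ℂ), (∀ᶠ s in 𝓝 z, (V.res s).Top (f s)) →
    (∀ᶠ s in 𝓝 z, HolFib V f s) → ∀ ζ : (pvOf (V.res z)).ZS,
      AnalyticAt ℂ (fun x => ⟪(pvOf (V.res z)).be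
        ((ζ : (pvOf (V.res z)).mb.dbl.H0) : (pvOf (V.res z)).L),
        TV D x (embV V (D.σ x) (f (D.σ x)))⟫) (cp z)

/-- families which are holomorphic in `L²` are holomorphic outside of the support of the bumps -/
def HolB (V : Ipc735.VHS (m + 1) (Tot Q) N w) : Prop :=
  ∀ (z : S) (D : LD V z) (f : S → ℂ → Fin N → ℂ) (x₁ : ℂ) (hx : x₁ ∉ Q.A z), x₁ ∉ D.Bm.K →
    (∀ᶠ s in 𝓝 z, (V.res s).Top (f s)) →
    (∀ᶠ x in 𝓝 (cp z), DifferentiableAt ℂ (fun x => TV D x (embV V (D.σ x) (f (D.σ x)))) x) →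
    HolAt (lV V.P (sec f) (Tot.mk Q z x₁ hx)) (Tot.mk Q z x₁ hx)

variable [T2Space S] (V : Ipc735.VHS (m + 1) (Tot Q) N w)

/-- **the top piece** -/
def topV (h3 : ∀ (z : S) (D : LD V z), N3 D) (hA : HolA V) (hB : HolB V) :
    TopPieces (locPieces V) Q V where
  emb := embV V
  add s f g hf hg := emb_add' hf hg
  smul s c f hf := TopE_175.emb_smul c (Top.topS hf)
  zc s f hf := TopE_175.emb_zc (Top.topS hf)
  ty s f hf := TopE_175.emb_ty (Top.topS hf)
  surj s u hu ht := emb_surj' hu ht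
  norm s f hf := emb_norm' hf
  hol z := by
    obtain ⟨D, -⟩ := exists_LD V z univ_mem
    refine ⟨trivOf D (h3 z D), fun f hf hh v => ?_⟩
    obtain ⟨ζ, hζ⟩ := cW_surj V z v
    refine ⟨((ζ : (pvOf (V.res z)).mb.dbl.H0) : (pvOf (V.res z)).L),
      (pvOf (V.res z)).ZS_mem_Zc ζ.2, ?_, hA z D f hf hh ζ⟩
    show (fixV V z).clL _ = v
    rw [(fixV V z).clL_eq ((pvOf (V.res z)).ZS_mem_Zc ζ.2), ← hζ]
    exact clV_ZS V z ζ
  hol' z x₁ hx := by
    obtain ⟨D, -, hD⟩ := exists_LD' V z univ_mem hx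
    exact ⟨trivOf D (h3 z D), fun f hf hd => hB z D f x₁ hx hD hf hd⟩

end Crest.Agent.R276.Step_454
end
end

-- ▼ part R276/Top3l_279
section

/-!
# Row 276, IPC-TOP3 (helper279), part 12: the automorphisms on smooth closed forms

`ρ : Act V Γ`, `g : Γ`, `s : S`: the class of `(ρ_g a, ρ_g b)` is `uW ρ g s` of the class of `(a, b)`
(input of helper454's `ActPieces.cl`).
-/

set_option autoImplicit false
set_option linter.unusedSectionVars false

noncomputable section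

open Set Filter Topology Matrix
open Crest.Agent.R271.Ho51
open Crest.Agent.R276.Ipc735 Crest.Agent.R276.DR_175 Crest.Agent.R276.Wcl_175

namespace Crest.Agent.R276.Top3_279

variable {N w : ℕ} {m : ℕ} {S : Type*} [TopologicalSpace S] [T2Space S] [RDom m S] {k : ℕ} {Q : Punc S k}
  {V : VHS (m + 1) (Tot Q) N w} {Γ : Type} [Group Γ] (ρ : Act V Γ)

open Classical in
/-- the automorphism on the fibre over `s` as a function on the plane -/
def aG (g : Γ) (s : S) (x : ℂ) : GL (Fin N) ℤ :=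
  if hx : x ∉ Q.A s then ρ.ρ g (Tot.mk Q s x hx) else 1

lemma aG_of (g : Γ) {s : S} {x : ℂ} (hx : x ∉ Q.A s) : aG ρ g s x = ρ.ρ g (Tot.mk Q s x hx) := by
  unfold aG; rw [dif_pos hx]

lemma cm_aG (g : Γ) {s : S} {x : ℂ} (hx : x ∉ Q.A s) :
    cm (aG ρ g s x) = rM Q (fun q => cm (ρ.ρ g q)) s x := by
  unfold rM; rw [dif_pos hx, aG_of ρ g hx]

/-- `(id, aG)` is an automorphism of the flat bundle of the fibre -/
theorem plFrame_act (g : Γ) (s : S) :
    PlFrame ((Q.A s : Set ℂ)ᶜ) ((Q.A s : Set ℂ)ᶜ) (rP Q V.P s) (rP Q V.P s) (fun x => x)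
      (aG ρ g s) where
  smooth := fun _ _ => contDiffAt_id
  maps := fun _ hz => hz
  fr := by
    intro z hz
    obtain ⟨U, hU, h⟩ := frame_fP (act_frame ρ g) s ⟨z, hz⟩
    obtain ⟨W, hW, h2⟩ := exists_nhds _ hU
    refine ⟨W, hW, fun x hx y hy => ?_⟩
    obtain ⟨hx', hx2⟩ := h2 x hx
    obtain ⟨hy', hy2⟩ := h2 y hy
    have h3 := h _ hx2 _ hy2
    have e1 : rP Q V.P s x y = fP V.P s ⟨x, hx'⟩ ⟨y, hy'⟩ := rP_eq V s ⟨x, hx'⟩ ⟨y, hy'⟩
    rw [e1, aG_of ρ g hx', aG_of ρ g hy']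
    exact h3

lemma wz_id' (z : ℂ) : Ipc735.wz (fun x : ℂ => x) z = 1 := by
  refine wz_of_hasFDerivAt (q := 0) ?_
  have h := hasFDerivAt_id (𝕜 := ℝ) z
  refine h.congr_fderiv ?_
  ext; simp [wir_apply]

lemma wb_id' (z : ℂ) : Ipc735.wb (fun x : ℂ => x) z = 0 := by
  refine wb_of_hasFDerivAt (p := 1) ?_
  have h := hasFDerivAt_id (𝕜 := ℝ) z
  refine h.congr_fderiv ?_
  ext; simp [wir_apply]

/-- the form `ρ_g a` -/
def aF (g : Γ) (s : S) (a : ℂ → Fin N → ℂ) (x : ℂ) : Fin N → ℂ :=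
  rM Q (fun q => cm (ρ.ρ g q)) s x *ᵥ a x

lemma aF_eq (g : Γ) {s : S} (a : ℂ → Fin N → ℂ) {x : ℂ} (hx : x ∉ Q.A s) :
    aF ρ g s a x = DR_175.act (aG ρ g s x) (a x) := by
  unfold aF
  rw [← cm_aG ρ g hx, act_apply]


lemma aF_plA (g : Γ) {s : S} (a b : ℂ → Fin N → ℂ) {x : ℂ} (hx : x ∉ Q.A s) :
    aF ρ g s a x = plA (fun x => x) (aG ρ g s) a b x := by
  unfold plA plS
  rw [wz_id', wb_id', map_zero, zero_smul, one_smul, add_zero, aF_eq ρ g a hx]

lemma aF_plB (g : Γ) {s : S} (a b : ℂ → Fin N → ℂ) {x : ℂ} (hx : x ∉ Q.A s) :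
    aF ρ g s b x = plB (fun x => x) (aG ρ g s) a b x := by
  unfold plB plS
  rw [wz_id', wb_id', map_one, zero_smul, one_smul, zero_add, aF_eq ρ g b hx]

/-- class of `(ρ_g a, ρ_g b)` -/
theorem clH_act (g : Γ) {s : S} {a b : ℂ → Fin N → ℂ} (h : SC (V.res s) a b) :
    SC (V.res s) (aF ρ g s a) (aF ρ g s b) ∧
      clH V s (aF ρ g s a) (aF ρ g s b) = isoF (rC N) (act_frame ρ g) s (clH V s a b) := by
  obtain ⟨u, hu, hr⟩ := h.exists_rep
  have H := plFrame_act ρ g s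
  have hu' := H.cocOn hu
  have hr' : DR_175.Rep ((Q.A s : Set ℂ)ᶜ) (rP Q V.P s) (plU (fun x => x) (aG ρ g s) u)
      (aF ρ g s a) (aF ρ g s b) :=
    Wcl_175.Rep.congr (Rep.pull H hr) (fun z hz => aF_plA ρ g a b hz)
      (fun z hz => aF_plB ρ g a b hz)
  refine ⟨sc_of_rep hu' hr', ?_⟩
  rw [clH_eq hu hr, clH_eq hu' hr']
  unfold Top3_279.cl
  rw [isoF_cls]
  congr 1
  funext x y
  show DR_175.act (aG ρ g s x.1) (u x.1 y.1) = _
  rw [aG_of ρ g x.2]
  rfl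

/-- **`ActPieces.cl` on smooth parabolic forms** -/
theorem wcl_act (g : Γ) {s : S} {a b : ℂ → Fin N → ℂ} (h : SC (V.res s) a b)
    (hp : (V.res s).Par a b) :
    SC (V.res s) (aF ρ g s a) (aF ρ g s b) ∧ (V.res s).Par (aF ρ g s a) (aF ρ g s b) ∧
      wcl V s (aF ρ g s a) (aF ρ g s b) = uW ρ g s (wcl V s a b) := by
  obtain ⟨h1, h2⟩ := clH_act ρ g h
  have hp' : (V.res s).Par (aF ρ g s a) (aF ρ g s b) := by
    rw [← clH_mem_par_iff h1, h2]
    exact isoF_par (rC N) (act_frame ρ g) s ((clH_mem_par_iff h).2 hp)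
  refine ⟨h1, hp', ?_⟩
  apply Subtype.ext
  rw [wcl_val h1 hp', h2, uW_val, wcl_val h hp]


end Crest.Agent.R276.Top3_279
end
end

-- ▼ part R276/LocG_454
section

/-!
# R276, IPC-STEP (helper454): LOC, part G: the action

`AU ρ` : the action on `L²` (helper591's `actU`), `actV : ActPieces (topV V ..) Γ ρ`.
-/

set_option autoImplicit false
set_option linter.unusedSectionVars false

noncomputable section

open Set Filter Topology MeasureTheory Matrix Metric UniformSpace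
open scoped ContDiff ComplexConjugate

namespace Crest.Agent.R276.Step_454

open Crest.Agent.R271.Ho51 Crest.Agent.R276.Ipc735 Crest.Agent.R276.Top3_279
open IpcG1_975 Psi_563 FamA_563 FamB_563 HsB_817 HsC_817 HsE_817 K4b_817 Wcl_175 DR_175 PvO_175
open Nat_591 FamD_563

local notation "⟪" x ", " y "⟫" => inner ℂ x y

variable {m k N w : ℕ} {S : Type} [TopologicalSpace S] [T2Space S] [RDom m S] {Q : Punc S k}
  {V : Ipc735.VHS (m + 1) (Tot Q) N w} {Γ : Type} [Group Γ]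

/-- the action on `L²` -/
structure AU (ρ : Act V Γ) where
  U : Γ → ∀ s, (pvOf (V.res s)).L →L[ℂ] (pvOf (V.res s)).L
  form : ∀ g s u v, ⟪(pvOf (V.res s)).be (U g s u), U g s v⟫ = ⟪(pvOf (V.res s)).be u, v⟫
  ex : ∀ g s, ∀ u ∈ (pvOf (V.res s)).Ex, U g s u ∈ (pvOf (V.res s)).Ex
  zc : ∀ g s, ∀ u ∈ (pvOf (V.res s)).Zc, U g s u ∈ (pvOf (V.res s)).Zc
  ty : ∀ g s, ∀ P ≤ w + 1, ∀ u, (pvOf (V.res s)).Ty P (U g s u) = U g s ((pvOf (V.res s)).Ty P u)
  rep : ∀ g s (u : (pvOf (V.res s)).L) (α : ℂ → (Fin N → ℂ) × (Fin N → ℂ)),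
    (pvOf (V.res s)).Rep u α → (pvOf (V.res s)).Rep (U g s u)
      (fun x => (aF ρ g s (fun x => (α x).1) x, aF ρ g s (fun x => (α x).2) x))

variable {ρ : Act V Γ} (A : AU ρ)

theorem AU.cl (g : Γ) (s : S) (a : (pvOf (V.res s)).L) (ha : a ∈ (pvOf (V.res s)).Zc) :
    (fixV V s).clL (A.U g s a) = uW ρ g s ((fixV V s).clL a) := by
  obtain ⟨ζ, hζ, hex⟩ := (inpOf (V.res s)).exists_smooth ha
  have hζz := (pvOf (V.res s)).ZS_mem_Zc hζ
  have e1 : (fixV V s).clL a = (fixV V s).clL (ζ : (pvOf (V.res s)).L) :=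
    ((fixV V s).clL_eq_iff ha hζz).2 hex
  have e2 : (fixV V s).clL (A.U g s a) = (fixV V s).clL (A.U g s (ζ : (pvOf (V.res s)).L)) := by
    refine ((fixV V s).clL_eq_iff (A.zc g s a ha) (A.zc g s _ hζz)).2 ?_
    rw [← map_sub]
    exact A.ex g s _ hex
  have hrep := (pvOf (V.res s)).rep_coe ζ
  obtain ⟨h1, h2⟩ := par_of_rep hζz hrep
  rw [e1, e2, clL_rep hζz hrep, clL_rep (A.zc g s _ hζz) (A.rep g s _ _ hrep),
    ← (wcl_act ρ g h1 h2).2.2]

variable (h3 : ∀ (z : S) (D : LD V z), N3 D) (hA : HolA V) (hB : HolB V)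

/-- **the action** -/
def AU.actV : ActPieces (topV V h3 hA hB) Γ ρ where
  u g s := uW ρ g s
  one s v := uW_one ρ s v
  mul g h s v := uW_mul ρ g h s v
  int g s v hv := uW_int ρ g s v hv
  flat g z := uW_flat ρ g z
  U := A.U
  form := A.form
  zc := A.zc
  cl g s a ha := A.cl g s a ha
  ty := A.ty
  emb g s f hf := by
    have h1 := (Top.topS hf).rep
    have h2 := A.rep g s _ _ h1
    refine TopE_175.emb_eq ?_
    refine RepC_201.Rep.congr (M := (pvOf (V.res s)).mb.dbl) h2 fun z hz => ?_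
    refine Prod.ext rfl ?_
    show aF ρ g s (fun _ => 0) z = (0 : Fin N → ℂ)
    unfold aF
    rw [mulVec_zero]

end Crest.Agent.R276.Step_454
end
end

-- ▼ part R276/ActU_591
section

/-!
# R276, IPC-LOC (helper591): the action of the automorphisms on the `L²` spaces (request of helper454)

* `IsAut M K K'` : flat isometric automorphism of a polarised variation commuting with `E`;
* `actK ρ g s x` : the matrix of `g` at `(s, x)`;
* `actU ρ g s : (pvOf (V.res s)).L →L[ℂ] (pvOf (V.res s)).L`, with `actU_form`, `actU_ex`, `actU_zc`,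
  `actU_ty`, `actU_rep`, `actU_coe`.
-/

set_option autoImplicit false
set_option linter.unusedSectionVars false

noncomputable section

open Set Filter Topology MeasureTheory Matrix Metric UniformSpace
open scoped ContDiff ComplexConjugate

namespace Crest.Agent.R276.Nat_591

open VCalc_442 IpcGr_975 IpcG1_975 Psi_563 HsB_817 Crest.Agent.R271.Ho51 Ipc735 PvO_175

/-- no bumps -/
def B0 : Bumps 0 where
  a := Fin.elim0
  ρ := 1
  χ := Fin.elim0
  ρ_pos := one_pos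
  smooth i := i.elim0
  nonneg i := i.elim0
  le_one i := i.elim0
  compact i := i.elim0
  one i := i.elim0
  disj i := i.elim0

section gen

variable {V : Type*} [NormedAddCommGroup V] [NormedSpace ℂ V] {X : Set ℂ} {w : ℕ}

/-- flat isometric automorphism commuting with the Hodge grading -/
structure IsAut (M : PV V X w) (K K' : ℂ → (V →L[ℂ] V)) : Prop where
  flat : ∀ z ∈ X, ∀ᶠ y in 𝓝 z, (M.P z y).comp (K y) = (K z).comp (M.P z y)
  left : ∀ x ∈ X, ∀ v, K' x (K x v) = v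
  right : ∀ x ∈ X, ∀ v, K x (K' x v) = v
  iso : ∀ x ∈ X, ∀ u v, M.S x (K x u) (K x v) = M.S x u v
  comm : ∀ x ∈ X, K x * M.E x = M.E x * K x

namespace IsAut

variable {M : PV V X w} {K K' : ℂ → (V →L[ℂ] V)}

theorem comm_aeval (h : IsAut M K K') {x : ℂ} (hx : x ∈ X) (f : Polynomial ℂ) :
    K x * Polynomial.aeval (M.E x) f = Polynomial.aeval (M.E x) f * K x := by
  have hpow : ∀ n : ℕ, K x * M.E x ^ n = M.E x ^ n * K x := fun n =>
    (Commute.pow_right (h.comm x hx) n)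
  induction f using Polynomial.induction_on' with
  | add f g hf hg => rw [map_add, mul_add, add_mul, hf, hg]
  | monomial n a =>
    rw [Polynomial.aeval_monomial, ← Algebra.smul_def, mul_smul_comm, smul_mul_assoc, hpow]

theorem comm_Pf (h : IsAut M K K') {x : ℂ} (hx : x ∈ X) (p : ℕ) (v : V) :
    K x (M.Pf p x v) = M.Pf p x (K x v) :=
  congrArg (fun T : V →L[ℂ] V => T v) (h.comm_aeval hx _)

theorem comm_Pm (h : IsAut M K K') {x : ℂ} (hx : x ∈ X) (p : ℕ) (v : V) :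
    K x (M.Pm p x v) = M.Pm p x (K x v) := by
  cases p with
  | zero => rw [M.Pm_zero]; simp
  | succ p => rw [M.Pm_succ]; exact h.comm_Pf hx p v

theorem comm_Jf (h : IsAut M K K') {x : ℂ} (hx : x ∈ X) (v : V) :
    K x (M.Jf x v) = M.Jf x (K x v) := by
  rw [M.Jf_eq]
  exact congrArg (fun T : V →L[ℂ] V => T v) (h.comm_aeval hx _)

theorem Gf (h : IsAut M K K') {x : ℂ} (hx : x ∈ X) (u v : V) :
    M.Gf x (K x u) (K x v) = M.Gf x u v := by
  rw [PV.Gf_apply, PV.Gf_apply, ← h.comm_Jf hx, h.iso x hx]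

/-- **the transport data of an automorphism** -/
theorem psiP (h : IsAut M K K') : PsiP B0 0 M M K K' 1 where
  hb := by rw [norm_zero]; exact B0.δ_pos
  mem x := by rw [B0.psi_zero]
  flat z hz := by
    simp only [B0.psi_zero]
    exact h.flat z hz
  left := h.left
  right := h.right
  iso x hx u v := by rw [B0.psi_zero]; exact h.iso x hx u v
  c0 := one_pos
  le x hx v := by rw [B0.psi_zero, h.Gf hx]; simp
  ge x hx v := by rw [B0.psi_zero, h.Gf hx]; simp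

theorem Kf_eq (_h : IsAut M K K') (x : ℂ) (u : V × V) :
    Kf (B0.psi 0) K x u = (K x u.1, K x u.2) := by
  rw [Kf_apply, PsiM.dW_psi, PsiM.dB_psi, B0.P_zero, B0.Q_zero, pull_one_zero]

theorem pb_eq (h : IsAut M K K') (φ : ℂ → V × V) :
    pb (Kf (B0.psi 0) K) (B0.psi 0) φ = fun x => (K x (φ x).1, K x (φ x).2) := by
  funext x
  show Kf (B0.psi 0) K x (φ (B0.psi 0 x)) = _
  rw [h.Kf_eq, B0.psi_zero]

variable [FiniteDimensional ℂ V]

/-- **the isomorphism** -/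
def UE (h : IsAut M K K') : M.L ≃L[ℂ] M.L := h.psiP.TE

theorem UE_form (h : IsAut M K K') (u v : M.L) :
    inner ℂ (M.be (h.UE u)) (h.UE v) = inner ℂ (M.be u) v := h.psiP.form u v

theorem UE_ex (h : IsAut M K K') (u : M.L) : h.UE u ∈ M.Ex ↔ u ∈ M.Ex := h.psiP.ex u

theorem UE_zc (h : IsAut M K K') (u : M.L) : h.UE u ∈ M.Zc ↔ u ∈ M.Zc := h.psiP.zc u

theorem UE_ty (h : IsAut M K K') (P : ℕ) (u : M.L) : M.Ty P (h.UE u) = h.UE (M.Ty P u) := by
  refine (h.psiP.TE_Ty' (M.ok_ty P) (fun x hx v => ?_) u).symm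
  rw [h.Kf_eq, h.Kf_eq, B0.psi_zero]
  show (M.Pm P x (K x v.1), M.Pf P x (K x v.2)) = (K x (M.Pm P x v.1), K x (M.Pf P x v.2))
  rw [h.comm_Pm hx, h.comm_Pf hx]

theorem UE_rep (h : IsAut M K K') {u : M.L} {α : ℂ → V × V} (hu : M.Rep u α) :
    M.Rep (h.UE u) (fun x => (K x (α x).1, K x (α x).2)) := by
  have h1 : RepC_201.Rep M.mb.dbl u α := ⟨hu.1, hu.2⟩
  have h2 := RepC_201.Rep.T h.psiP.psiM.mmor h1
  rw [h.pb_eq] at h2
  exact ⟨h2.1, h2.2⟩


end IsAut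

end gen

/-! ### the action over the fibres -/

section act

variable {m : ℕ} {S : Type*} [TopologicalSpace S] [RDom m S] {k N w : ℕ} {Q : Punc S k}
  {V : Ipc735.VHS (m + 1) (Tot Q) N w} {Γ : Type} [Group Γ] (ρ : Act V Γ)

/-- the matrix of `g` at `(s, x)` -/
def actK (g : Γ) (s : S) (x : ℂ) : Matrix (Fin N) (Fin N) ℂ :=
  rM Q (fun q => cm (ρ.ρ g q)) s x

theorem actK_of (g : Γ) {s : S} {x : ℂ} (hx : x ∉ Q.A s) :
    actK ρ g s x = cm (ρ.ρ g (Tot.mk Q s x hx)) := rM_of _ hx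

theorem actK_mul_inv (g : Γ) {s : S} {x : ℂ} (hx : x ∉ Q.A s) :
    actK ρ g s x * actK ρ g⁻¹ s x = 1 := by
  rw [actK_of ρ g hx, actK_of ρ g⁻¹ hx, ← cm_mul, ← ρ.mul, mul_inv_cancel]
  have h := ρ.mul 1 1 (Tot.mk Q s x hx)
  rw [one_mul] at h
  rw [left_eq_mul.1 h, cm_one]

theorem actK_inv_mul (g : Γ) {s : S} {x : ℂ} (hx : x ∉ Q.A s) :
    actK ρ g⁻¹ s x * actK ρ g s x = 1 := by
  have := actK_mul_inv ρ g⁻¹ hx
  rwa [inv_inv] at this

/-- `g` gives an automorphism of the variation over the fibre -/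
theorem isAut (g : Γ) (s : S) : IsAut (pvOf (V.res s)) (fun x => mc (actK ρ g s x))
    (fun x => mc (actK ρ g⁻¹ s x)) where
  flat z hz := by
    have hz' : z ∉ Q.A s := by simpa using hz
    filter_upwards [(continuousAt_fib_tendsto hz').eventually (ρ.flat g (Tot.mk Q s z hz')),
      eventually_notMem _ hz'] with y hy hyA
    rw [fib_of hz' hyA] at hy
    refine ContinuousLinearMap.ext fun v => ?_
    show cm ((V.res s).P z y) *ᵥ (actK ρ g s y *ᵥ v) = actK ρ g s z *ᵥ (cm ((V.res s).P z y) *ᵥ v)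
    rw [actK_of ρ g hz', actK_of ρ g hyA, (V.isRes s).P, rP_of V.P hz' hyA, mulVec_mulVec,
      mulVec_mulVec, ← cm_mul, ← cm_mul, hy]
  left x hx v := by
    show actK ρ g⁻¹ s x *ᵥ (actK ρ g s x *ᵥ v) = v
    rw [mulVec_mulVec, actK_inv_mul ρ g (by simpa using hx), one_mulVec]
  right x hx v := by
    show actK ρ g s x *ᵥ (actK ρ g⁻¹ s x *ᵥ v) = v
    rw [mulVec_mulVec, actK_mul_inv ρ g (by simpa using hx), one_mulVec]
  iso x hx u v := by
    have hx' : x ∉ Q.A s := by simpa using hx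
    rw [pvOf_S, pvOf_S, mc_apply, mc_apply, cm_star_dot, actK_of ρ g hx', (V.isRes s).S,
      rM_of V.S hx', ρ.presS]
  comm x hx := by
    have hx' : x ∉ Q.A s := by simpa using hx
    show mc (actK ρ g s x) * mc ((V.res s).E x) = mc ((V.res s).E x) * mc (actK ρ g s x)
    rw [← mc_mul, ← mc_mul, actK_of ρ g hx', (V.isRes s).E, rM_of V.E hx', ρ.commE]

/-- **the action on the `L²` forms** -/
def actU (g : Γ) (s : S) : (pvOf (V.res s)).L →L[ℂ] (pvOf (V.res s)).L :=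
  ((isAut ρ g s).UE : (pvOf (V.res s)).L →L[ℂ] (pvOf (V.res s)).L)


/-- (form) -/
theorem actU_form (g : Γ) (s : S) (u v : (pvOf (V.res s)).L) :
    inner ℂ ((pvOf (V.res s)).be (actU ρ g s u)) (actU ρ g s v) =
      inner ℂ ((pvOf (V.res s)).be u) v := (isAut ρ g s).UE_form u v

/-- (ex) -/
theorem actU_ex (g : Γ) (s : S) (u : (pvOf (V.res s)).L) :
    actU ρ g s u ∈ (pvOf (V.res s)).Ex ↔ u ∈ (pvOf (V.res s)).Ex := (isAut ρ g s).UE_ex u

/-- (zc) -/
theorem actU_zc (g : Γ) (s : S) (u : (pvOf (V.res s)).L) :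
    actU ρ g s u ∈ (pvOf (V.res s)).Zc ↔ u ∈ (pvOf (V.res s)).Zc := (isAut ρ g s).UE_zc u

/-- (ty) -/
theorem actU_ty (g : Γ) (s : S) (P : ℕ) (u : (pvOf (V.res s)).L) :
    (pvOf (V.res s)).Ty P (actU ρ g s u) = actU ρ g s ((pvOf (V.res s)).Ty P u) :=
  (isAut ρ g s).UE_ty P u

/-- (rep) -/
theorem actU_rep (g : Γ) (s : S) {u : (pvOf (V.res s)).L} {α : ℂ → (Fin N → ℂ) × (Fin N → ℂ)}
    (hu : (pvOf (V.res s)).Rep u α) :
    (pvOf (V.res s)).Rep (actU ρ g s u)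
      (fun x => (actK ρ g s x *ᵥ (α x).1, actK ρ g s x *ᵥ (α x).2)) := (isAut ρ g s).UE_rep hu

end act

end Crest.Agent.R276.Nat_591
end
end

-- ▼ part R276/TopHolA_735
section

/-!
# Row 276, IPC-TOPHOL (helper735), part A: analytic cores

* `analyticOnNhd_cur`, `analyticOnNhd_integral` : holomorphic dependence on parameters (TH1);
* `mean_one` : mean value property with a smooth radial weight on `ℂ`;
* `joint` : a family `f s` of holomorphic functions of `x ∈ D`, weakly holomorphic in `s` and locally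
  bounded in `L²`, is jointly holomorphic (TH0).
-/

set_option autoImplicit false
set_option linter.unusedSectionVars false

noncomputable section

open Set Filter Topology MeasureTheory Metric
open scoped ContDiff ENNReal

namespace Crest.Agent.R276.TopHol_735

open Crest.Agent.R266.SCV

section th1

variable {E : Type*} [NormedAddCommGroup E] [NormedSpace ℂ E]
variable {F : Type*} [NormedAddCommGroup F] [NormedSpace ℂ F] [CompleteSpace F]
variable {K : Type*} [TopologicalSpace K] [CompactSpace K]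

/-- the family `f` as a map to `C(K, F)` -/
def cur (f : E → K → F) (s : E) : C(K, F) := ContinuousMap.mkD (f s) 0

lemma cur_apply {f : E → K → F} {U : Set E}
    (hc : ContinuousOn (fun p : E × K => f p.1 p.2) (U ×ˢ univ)) {s : E} (hs : s ∈ U) (x : K) :
    cur f s x = f s x := by
  rw [cur, ContinuousMap.mkD_apply_of_continuous]
  refine hc.comp_continuous (f := fun x : K => (s, x)) (by fun_prop) fun y => ⟨hs, mem_univ y⟩

lemma continuousOn_cur {f : E → K → F} {U : Set E}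
    (hc : ContinuousOn (fun p : E × K => f p.1 p.2) (U ×ˢ univ)) : ContinuousOn (cur f) U := by
  rw [continuousOn_iff_continuous_domRestrict]
  have h1 : Continuous (fun p : U × K => f p.1 p.2) := by
    refine hc.comp_continuous (f := fun p : U × K => ((p.1 : E), p.2)) (by fun_prop) ?_
    rintro ⟨s, x⟩
    exact ⟨s.2, mem_univ x⟩
  have h2 := (ContinuousMap.curry ⟨_, h1⟩).continuous
  refine h2.congr fun s => ?_
  ext x
  exact (cur_apply hc s.2 x).symm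

theorem analyticOnNhd_cur [FiniteDimensional ℂ E] {f : E → K → F} {U : Set E} (hU : IsOpen U)
    (hc : ContinuousOn (fun p : E × K => f p.1 p.2) (U ×ˢ univ))
    (hd : ∀ x : K, DifferentiableOn ℂ (fun s => f s x) U) : AnalyticOnNhd ℂ (cur f) U := by
  refine analyticOnNhd_of_gateaux hU (continuousOn_cur hc) fun s hs v => ?_
  have hcont : Continuous fun z : ℂ => s + z • v := by fun_prop
  have hopen : IsOpen ((fun z : ℂ => s + z • v) ⁻¹' U) := hU.preimage hcont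
  have h0 : (0 : ℂ) ∈ (fun z : ℂ => s + z • v) ⁻¹' U := by simpa using hs
  obtain ⟨r, hr, hrs⟩ := Metric.nhds_basis_closedBall.mem_iff.1 (hopen.mem_nhds h0)
  have h1 : DifferentiableOn ℂ (fun z : ℂ => cur f (s + z • v)) (ball 0 r) := by
    refine differentiableOn_of_separating (ι := K) (fun x => ContinuousMap.evalCLM ℂ x)
      (fun x y h => ContinuousMap.ext h) ?_ fun x z hz => ?_
    · exact (continuousOn_cur hc).comp hcont.continuousOn hrs
    · have hzU : s + z • v ∈ U := hrs (ball_subset_closedBall hz)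
      have h2 : DifferentiableAt ℂ (fun t : ℂ => f (s + t • v) x) z := by
        have h3 : DifferentiableAt ℂ (fun s => f s x) (s + z • v) :=
          (hd x).differentiableAt (hU.mem_nhds hzU)
        exact DifferentiableAt.comp (f := fun t : ℂ => s + t • v) z h3 (by fun_prop)
      refine h2.congr_of_eventuallyEq ?_
      filter_upwards [hopen.mem_nhds hzU] with t ht
      exact cur_apply hc ht x
  exact h1.differentiableAt (isOpen_ball.mem_nhds (mem_ball_self hr))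

end th1

section integral

variable {E : Type*} [NormedAddCommGroup E] [NormedSpace ℂ E] [FiniteDimensional ℂ E]
variable {F : Type*} [NormedAddCommGroup F] [NormedSpace ℂ F] [CompleteSpace F]
variable {X : Type*} [TopologicalSpace X] [MeasurableSpace X] [BorelSpace X] [T2Space X]

/-- the integral over a compact set as a functional on `C(K, F)` -/
def intK (K : Set X) [CompactSpace K] (μ : Measure X) [IsFiniteMeasureOnCompacts μ] :
    C(K, F) →L[ℂ] F :=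
  haveI : IsFiniteMeasure (Measure.comap (Subtype.val : K → X) μ) := by
    refine ⟨?_⟩
    have hK : IsCompact K := isCompact_iff_compactSpace.mpr inferInstance
    rw [Measure.comap_apply _ Subtype.val_injective (fun s hs =>
      hK.measurableSet.subtype_image hs) _ MeasurableSet.univ]
    simpa using hK.measure_lt_top
  LinearMap.mkContinuous
    { toFun := fun φ => ∫ x, φ x ∂(Measure.comap (Subtype.val : K → X) μ)
      map_add' := fun φ ψ => by
        have h1 : Integrable (fun x => φ x) (Measure.comap (Subtype.val : K → X) μ) :=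
          φ.continuous.integrable_of_hasCompactSupport (HasCompactSupport.of_compactSpace _)
        have h2 : Integrable (fun x => ψ x) (Measure.comap (Subtype.val : K → X) μ) :=
          ψ.continuous.integrable_of_hasCompactSupport (HasCompactSupport.of_compactSpace _)
        simp only [ContinuousMap.add_apply]
        exact integral_add h1 h2
      map_smul' := fun c φ => by
        simp only [ContinuousMap.smul_apply, RingHom.id_apply]
        exact integral_smul c _ }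
    ((Measure.comap (Subtype.val : K → X) μ).real univ)
    (fun φ => by
      have h1 : ‖∫ x, φ x ∂(Measure.comap (Subtype.val : K → X) μ)‖ ≤
          ‖φ‖ * (Measure.comap (Subtype.val : K → X) μ).real univ :=
        norm_integral_le_of_norm_le_const (Eventually.of_forall fun x => φ.norm_coe_le_norm x)
      rw [mul_comm]
      exact h1)

lemma intK_apply (K : Set X) [CompactSpace K] (μ : Measure X) [IsFiniteMeasureOnCompacts μ]
    (φ : C(K, F)) : intK K μ φ = ∫ x, φ x ∂(Measure.comap (Subtype.val : K → X) μ) := rfl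

/-- holomorphic dependence on a parameter of an integral over a compact set -/
theorem analyticOnNhd_integral {K : Set X} (hK : IsCompact K) (μ : Measure X)
    [IsFiniteMeasureOnCompacts μ] {f : E → X → F} {U : Set E} (hU : IsOpen U)
    (hc : ContinuousOn (fun p : E × X => f p.1 p.2) (U ×ˢ K))
    (hd : ∀ x ∈ K, DifferentiableOn ℂ (fun s => f s x) U) :
    AnalyticOnNhd ℂ (fun s => ∫ x in K, f s x ∂μ) U := by
  have hKc : CompactSpace K := isCompact_iff_compactSpace.mp hK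
  have hc' : ContinuousOn (fun p : E × K => f p.1 p.2) (U ×ˢ univ) := by
    refine hc.comp (f := fun p : E × K => (p.1, (p.2 : X))) (by fun_prop) ?_
    rintro ⟨s, x⟩ ⟨hs, _⟩
    exact ⟨hs, x.2⟩
  have h1 := analyticOnNhd_cur (f := fun s (x : K) => f s x) hU hc' fun x => hd x x.2
  intro s hs
  have h2 : AnalyticAt ℂ (fun s => intK K μ (cur (fun s (x : K) => f s x) s)) s :=
    ((intK (F := F) K μ).analyticAt _).comp (h1 s hs)
  refine h2.congr ?_
  filter_upwards [hU.mem_nhds hs] with t ht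
  rw [intK_apply, ← integral_subtype_comap hK.measurableSet]
  refine integral_congr_ae (Eventually.of_forall fun x => ?_)
  exact cur_apply hc' ht x

end integral

/-! ### mean value with a radial weight -/

section mean

open Crest.Agent.R271

/-- radial weight on `ℂ` -/
def wt (ε : ℝ) (z : ℂ) : ℝ := Weyl399.rho (n := 1) ε (fun _ => z)

lemma contDiff_wt (ε : ℝ) : ContDiff ℝ ∞ (wt ε) := by
  unfold wt
  exact (Weyl399.contDiff_rho (n := 1) ε).comp (contDiff_pi.mpr fun _ => contDiff_id)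

lemma wt_eq_zero {ε : ℝ} (hε : 0 < ε) {z : ℂ} (h : ε ≤ ‖z‖) : wt ε z = 0 := by
  unfold wt
  refine Weyl399.rho_eq_zero hε ?_
  rw [Pi.norm_def]
  simpa using h

lemma wt_nonneg {ε : ℝ} (hε : 0 < ε) (z : ℂ) : 0 ≤ wt ε z := Weyl399.rho_nonneg hε _

/-- mean value property with a smooth radial weight -/
theorem mean_one {ε : ℝ} (hε : 0 < ε) {f : ℂ → ℂ} {x : ℂ}
    (hf : ∀ y ∈ closedBall x ε, DifferentiableAt ℂ f y) :
    ∫ y, (wt ε (x - y) : ℂ) * f y = f x := by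
  have h1 := Weyl399.mean_value (n := 1) hε (f := fun v => f (v 0)) (x := fun _ => x) (by
    intro y hy
    have hy' : y 0 ∈ closedBall x ε := by
      rw [mem_closedBall, dist_pi_le_iff hε.le] at hy
      exact hy 0
    have h2 : DifferentiableAt ℂ (fun v : Fin 1 → ℂ => v 0) y := by fun_prop
    exact (hf (y 0) hy').comp y h2)
  have h2 : ∫ w : Fin 1 → ℂ, Weyl399.rho ε w • f (x - w 0) = f x := h1
  have h3 : ∫ w : Fin 1 → ℂ, Weyl399.rho ε w • f (x - w 0) =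
      ∫ z : ℂ, wt ε z • f (x - z) := by
    rw [← (volume_preserving_funUnique (Fin 1) ℂ).integral_comp'
      (g := fun z : ℂ => wt ε z • f (x - z))]
    refine integral_congr_ae (Eventually.of_forall fun w => ?_)
    have hw : (fun _ => w 0 : Fin 1 → ℂ) = w := by
      funext i
      rw [Subsingleton.elim i 0]
    simp only [MeasurableEquiv.funUnique_apply, Fin.default_eq_zero, wt, hw]
  rw [h3] at h2
  rw [← h2, ← integral_sub_left_eq_self (fun z : ℂ => wt ε z • f (x - z)) volume x]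
  refine integral_congr_ae (Eventually.of_forall fun y => ?_)
  simp only [sub_sub_cancel, Complex.real_smul]

end mean

/-! ### joint holomorphy -/

section joint

variable {E : Type*} [NormedAddCommGroup E] [NormedSpace ℂ E] [FiniteDimensional ℂ E]

/-- scalar version: `f s` holomorphic on `D`, `s ↦ f s x` holomorphic for each `x`, locally bounded
⟹ jointly holomorphic -/
theorem joint_of_bounded {U : Set E} (hU : IsOpen U) {D : Set ℂ} (hD : IsOpen D) {f : E → ℂ → ℂ}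
    (hx : ∀ s ∈ U, DifferentiableOn ℂ (f s) D)
    (hs : ∀ x ∈ D, DifferentiableOn ℂ (fun s => f s x) U)
    (hb : ∀ s₀ ∈ U, ∀ x₀ ∈ D, ∃ C : ℝ, ∃ r > 0, ∀ᶠ s in 𝓝 s₀, ∀ x ∈ closedBall x₀ r, ‖f s x‖ ≤ C) :
    AnalyticOnNhd ℂ (fun p : E × ℂ => f p.1 p.2) (U ×ˢ D) := by
  refine analyticOnNhd_of_separately (hU.prod hD) ?_ (fun p hp => ?_) (fun p hp => ?_)
  · rintro ⟨s₀, x₀⟩ ⟨hs₀, hx₀⟩
    refine ContinuousAt.continuousWithinAt ?_
    obtain ⟨C, r, hr, hC⟩ := hb s₀ hs₀ x₀ hx₀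
    obtain ⟨r₁, hr₁, hr₁D⟩ := Metric.nhds_basis_closedBall.mem_iff.1 (hD.mem_nhds hx₀)
    set ρ := min r r₁ / 2 with hρ
    have hρ0 : 0 < ρ := by
      have : 0 < min r r₁ := lt_min hr hr₁
      rw [hρ]; positivity
    have hρr : 2 * ρ ≤ r := by rw [hρ]; linarith [min_le_left r r₁]
    have hρr1 : 2 * ρ ≤ r₁ := by rw [hρ]; linarith [min_le_right r r₁]
    -- derivative bound
    have hder : ∀ᶠ s in 𝓝 s₀, ∀ x ∈ ball x₀ ρ, ‖deriv (f s) x‖ ≤ C / ρ := by
      filter_upwards [hC, hU.mem_nhds hs₀] with s hsC hsU x hxb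
      have hsub : closedBall x ρ ⊆ closedBall x₀ (2 * ρ) := by
        refine closedBall_subset_closedBall' ?_
        have := mem_ball.mp hxb
        linarith
      refine Complex.norm_deriv_le_of_forall_mem_sphere_norm_le hρ0 ?_ fun y hy => ?_
      · refine ⟨(hx s hsU).mono ?_, (hx s hsU).continuousOn.mono ?_⟩
        · exact ball_subset_closedBall.trans (hsub.trans
            ((closedBall_subset_closedBall hρr1).trans hr₁D))
        · rw [closure_ball x hρ0.ne']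
          exact hsub.trans ((closedBall_subset_closedBall hρr1).trans hr₁D)
      · exact hsC y (closedBall_subset_closedBall hρr (hsub (sphere_subset_closedBall hy)))
    have hlip : ∀ᶠ s in 𝓝 s₀, ∀ x ∈ ball x₀ ρ, ‖f s x - f s x₀‖ ≤ C / ρ * ‖x - x₀‖ := by
      filter_upwards [hder, hU.mem_nhds hs₀] with s hsd hsU x hxb
      refine Convex.norm_image_sub_le_of_norm_deriv_le (fun y hy => ?_) hsd (convex_ball x₀ ρ)
        (mem_ball_self hρ0) hxb
      have hyD : y ∈ D := hr₁D (closedBall_subset_closedBall (by linarith)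
        (ball_subset_closedBall hy))
      exact (hx s hsU).differentiableAt (hD.mem_nhds hyD)
    have hcs : ContinuousAt (fun s => f s x₀) s₀ :=
      ((hs x₀ hx₀).differentiableAt (hU.mem_nhds hs₀)).continuousAt
    rw [Metric.continuousAt_iff'] at hcs ⊢
    intro ε hε
    have hCρ : ∀ᶠ p : E × ℂ in 𝓝 (s₀, x₀), C / ρ * ‖p.2 - x₀‖ < ε / 2 := by
      have h1 : Tendsto (fun p : E × ℂ => C / ρ * ‖p.2 - x₀‖) (𝓝 (s₀, x₀)) (𝓝 (C / ρ * ‖x₀ - x₀‖)) := by
        have : Continuous fun p : E × ℂ => C / ρ * ‖p.2 - x₀‖ := by fun_prop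
        exact this.tendsto _
      rw [sub_self, norm_zero, mul_zero] at h1
      exact h1.eventually_lt_const (by positivity)
    have h2 : ∀ᶠ p : E × ℂ in 𝓝 (s₀, x₀), ∀ x ∈ ball x₀ ρ, ‖f p.1 x - f p.1 x₀‖ ≤
        C / ρ * ‖x - x₀‖ := (continuousAt_fst (p := (s₀, x₀))).eventually hlip
    have h3 : ∀ᶠ p : E × ℂ in 𝓝 (s₀, x₀), dist (f p.1 x₀) (f s₀ x₀) < ε / 2 :=
      (continuousAt_fst (p := (s₀, x₀))).eventually (hcs (ε / 2) (by positivity))
    have h4 : ∀ᶠ p : E × ℂ in 𝓝 (s₀, x₀), p.2 ∈ ball x₀ ρ :=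
      (continuousAt_snd (p := (s₀, x₀))).eventually (ball_mem_nhds x₀ hρ0)
    filter_upwards [hCρ, h2, h3, h4] with p hp1 hp2 hp3 hp4
    calc dist (f p.1 p.2) (f s₀ x₀) ≤ dist (f p.1 p.2) (f p.1 x₀) + dist (f p.1 x₀) (f s₀ x₀) :=
          dist_triangle _ _ _
      _ < ε / 2 + ε / 2 := by
          refine add_lt_add ?_ hp3
          rw [dist_eq_norm]
          exact (hp2 p.2 hp4).trans_lt hp1
      _ = ε := by ring
  · exact (hs p.2 hp.2).differentiableAt (hU.mem_nhds hp.1)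
  · exact (hx p.1 hp.1).differentiableAt (hD.mem_nhds hp.2)

/-- **(TH0)**, scalar version -/
theorem joint {U : Set E} (hU : IsOpen U) {D : Set ℂ} (hD : IsOpen D) {f : E → ℂ → ℂ}
    (hx : ∀ s ∈ U, DifferentiableOn ℂ (f s) D)
    (hs : ∀ g : ℂ → ℂ, ContDiff ℝ ∞ g → HasCompactSupport g → tsupport g ⊆ D →
      DifferentiableOn ℂ (fun s => ∫ x, g x * f s x) U)
    (hb : ∀ s₀ ∈ U, ∀ K ⊆ D, IsCompact K →
      ∃ C : ℝ≥0∞, C < ⊤ ∧ ∀ᶠ s in 𝓝 s₀, ∫⁻ x in K, ‖f s x‖ₑ ^ 2 ≤ C) :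
    AnalyticOnNhd ℂ (fun p : E × ℂ => f p.1 p.2) (U ×ˢ D) := by
  -- the representation of the values
  have hrep : ∀ x ∈ D, ∃ ε > 0, closedBall x ε ⊆ D ∧ ∀ s ∈ U,
      ∫ y, (wt ε (x - y) : ℂ) * f s y = f s x := by
    intro x hxD
    obtain ⟨ε, hε, hεD⟩ := Metric.nhds_basis_closedBall.mem_iff.1 (hD.mem_nhds hxD)
    exact ⟨ε, hε, hεD, fun s hsU => mean_one hε fun y hy =>
      (hx s hsU).differentiableAt (hD.mem_nhds (hεD hy))⟩
  have hsmooth : ∀ (ε : ℝ) (x : ℂ), ContDiff ℝ ∞ (fun y => (wt ε (x - y) : ℂ)) := by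
    intro ε x
    exact Complex.ofRealCLM.contDiff.comp ((contDiff_wt ε).comp (contDiff_const.sub contDiff_id))
  have hsupp : ∀ {ε : ℝ} (_ : 0 < ε) (x : ℂ),
      Function.support (fun y => (wt ε (x - y) : ℂ)) ⊆ closedBall x ε := by
    intro ε hε x y hy
    by_contra hcon
    apply hy
    have h1 : ε ≤ ‖x - y‖ := by
      rw [mem_closedBall, dist_comm, dist_eq_norm, not_le] at hcon
      exact hcon.le
    simp only [wt_eq_zero hε h1, Complex.ofReal_zero]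
  refine joint_of_bounded hU hD hx (fun x hxD => ?_) fun s₀ hs₀ x₀ hx₀ => ?_
  · obtain ⟨ε, hε, hεD, hr⟩ := hrep x hxD
    have h1 := hs (fun y => (wt ε (x - y) : ℂ)) (hsmooth ε x)
      (HasCompactSupport.of_support_subset_isCompact (isCompact_closedBall x ε) (hsupp hε x))
      ((closure_minimal (hsupp hε x) isClosed_closedBall).trans hεD)
    exact h1.congr fun s hsU => (hr s hsU).symm
  · -- local bound from the sub mean value inequality
    obtain ⟨r, hr, hrD⟩ := Metric.nhds_basis_closedBall.mem_iff.1 (hD.mem_nhds hx₀)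
    obtain ⟨C, hC, hev⟩ := hb s₀ hs₀ (closedBall x₀ r) hrD (isCompact_closedBall x₀ r)
    -- sup of the weight
    set ε := r / 2 with hε
    have hε0 : 0 < ε := by rw [hε]; positivity
    obtain ⟨M, hM⟩ : ∃ M : ℝ, ∀ z, wt ε z ≤ M := by
      have h1 : HasCompactSupport (wt ε) :=
        HasCompactSupport.of_support_subset_isCompact (isCompact_closedBall 0 ε) (by
          intro z hz
          by_contra hcon
          apply hz
          exact wt_eq_zero hε0 (by simpa using (not_le.mp (by simpa using hcon : ¬ ‖z‖ ≤ ε)).le))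
      obtain ⟨M, hM⟩ := (contDiff_wt ε).continuous.bounded_above_of_compact_support h1
      exact ⟨M, fun z => (le_abs_self _).trans (hM z)⟩
    have hM0 : 0 ≤ M := (wt_nonneg hε0 0).trans (hM 0)
    refine ⟨M * ((volume.real (closedBall x₀ r)) + C.toReal), ε, hε0, ?_⟩
    filter_upwards [hev, hU.mem_nhds hs₀] with s hsC hsU x hxb
    have hsub : closedBall x ε ⊆ closedBall x₀ r := by
      refine closedBall_subset_closedBall' ?_
      have := mem_closedBall.mp hxb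
      rw [hε] at this ⊢
      linarith
    have hval : ∫ y, (wt ε (x - y) : ℂ) * f s y = f s x := mean_one hε0 fun y hy =>
      (hx s hsU).differentiableAt (hD.mem_nhds (hrD (hsub hy)))
    have hcont : ContinuousOn (f s) (closedBall x₀ r) := (hx s hsU).continuousOn.mono hrD
    have hint2 : IntegrableOn (fun y => ‖f s y‖ ^ 2) (closedBall x₀ r) :=
      (hcont.norm.pow 2).integrableOn_compact (isCompact_closedBall x₀ r)
    have hint1 : IntegrableOn (fun y => 1 + ‖f s y‖ ^ 2) (closedBall x₀ r) :=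
      (continuousOn_const.add (hcont.norm.pow 2)).integrableOn_compact (isCompact_closedBall x₀ r)
    have h1 : ‖f s x‖ ≤ ∫ y in closedBall x₀ r, M * (1 + ‖f s y‖ ^ 2) := by
      rw [← hval]
      have h2 : ∫ y, (wt ε (x - y) : ℂ) * f s y =
          ∫ y in closedBall x₀ r, (wt ε (x - y) : ℂ) * f s y := by
        rw [← integral_indicator measurableSet_closedBall]
        refine integral_congr_ae (Eventually.of_forall fun y => ?_)
        by_cases hy : y ∈ closedBall x₀ r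
        · simp only [Set.indicator_of_mem hy]
        · simp only [Set.indicator_of_notMem hy]
          have h3 : (wt ε (x - y) : ℂ) = 0 := by
            by_contra hcon
            exact hy (hsub (hsupp hε0 x hcon))
          rw [h3, zero_mul]
      rw [h2]
      refine norm_integral_le_of_norm_le (hint1.const_mul M) ?_
      refine (ae_restrict_mem measurableSet_closedBall).mono fun y _ => ?_
      rw [norm_mul, Complex.norm_real, Real.norm_of_nonneg (wt_nonneg hε0 _)]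
      have h3 : ‖f s y‖ ≤ 1 + ‖f s y‖ ^ 2 := by nlinarith [sq_nonneg (‖f s y‖ - 1), norm_nonneg (f s y)]
      exact mul_le_mul (hM _) h3 (norm_nonneg _) hM0
    refine h1.trans ?_
    rw [integral_const_mul]
    refine mul_le_mul_of_nonneg_left ?_ hM0
    have hone : IntegrableOn (fun _ : ℂ => (1 : ℝ)) (closedBall x₀ r) :=
      continuousOn_const.integrableOn_compact (isCompact_closedBall x₀ r)
    rw [integral_add hone hint2]
    refine add_le_add (by simp) ?_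
    have h4 : ∫ y in closedBall x₀ r, ‖f s y‖ ^ 2 = (∫⁻ y in closedBall x₀ r, ‖f s y‖ₑ ^ 2).toReal := by
      rw [integral_eq_lintegral_of_nonneg_ae (Eventually.of_forall fun y => by positivity)
        hint2.aestronglyMeasurable]
      congr 1
      refine lintegral_congr fun y => ?_
      rw [← ofReal_norm, ENNReal.ofReal_pow (norm_nonneg _)]
    rw [h4]
    exact ENNReal.toReal_mono hC.ne hsC

end joint

end Crest.Agent.R276.TopHol_735
end
end

-- ▼ part R276/TopHolB_735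
section

/-!
# Row 276, IPC-TOPHOL (helper735), part B: charts on the total space

* `tk Q q₁ (c, x)` : the point of `Tot Q` with base coordinates `c` and fibre coordinate `x` near `q₁`;
* `holAt_tot_iff` : holomorphy at `q₁` in the coordinates `(c, x)`;
* `holAt_of_weak` : (TH0) for sections of a `VHS` over the total space.
-/

set_option autoImplicit false
set_option linter.unusedSectionVars false

noncomputable section

open Set Filter Topology MeasureTheory Matrix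
open Crest.Agent.R271.Ho51
open scoped ContDiff ENNReal

namespace Crest.Agent.R276.Ipc735

/-- a local section of the coordinates is the inverse of the chart -/
lemma ch_symm_eq {n : ℕ} {M : Type*} [TopologicalSpace M] [RDom n M] {x : M}
    {τ : (Fin n → ℂ) → M} (hτ : Tendsto τ (𝓝 (cp x)) (𝓝 x))
    (h : ∀ᶠ c in 𝓝 (cp x), cp (τ c) = c) : ∀ᶠ c in 𝓝 (cp x), (ch x).symm c = τ c := by
  filter_upwards [h, hτ.eventually ((ch x).open_source.mem_nhds (mem_ch x))] with c hc1 hc2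
  have h1 := (isCh_ch x).symm_cp hc2
  rwa [hc1] at h1

lemma ch_symm_tendsto {n : ℕ} {M : Type*} [TopologicalSpace M] [RDom n M] (x : M) :
    Tendsto (ch x).symm (𝓝 (cp x)) (𝓝 x) := by
  have := (ch x).symm.continuousAt (x := cp x) (by simpa using (isCh_ch x).cp_mem (mem_ch x))
  rwa [ContinuousAt, (isCh_ch x).symm_cp (mem_ch x)] at this

section tot

variable {m : ℕ} {S : Type*} [TopologicalSpace S] [RDom m S] {k : ℕ}

open Classical in
/-- the point with base coordinates `p.1` and fibre coordinate `p.2` near `q₁` -/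
def tk (Q : Punc S k) (q₁ : Tot Q) (p : (Fin m → ℂ) × ℂ) : Tot Q :=
  if h : p.2 ∉ Q.A ((ch q₁.1.1).symm p.1) then Tot.mk Q ((ch q₁.1.1).symm p.1) p.2 h else q₁

lemma tk_of {Q : Punc S k} {q₁ : Tot Q} {p : (Fin m → ℂ) × ℂ}
    (h : p.2 ∉ Q.A ((ch q₁.1.1).symm p.1)) :
    tk Q q₁ p = Tot.mk Q ((ch q₁.1.1).symm p.1) p.2 h := by
  unfold tk; rw [dif_pos h]

/-- centre of the coordinates -/
def tc0 {Q : Punc S k} (q₁ : Tot Q) : (Fin m → ℂ) × ℂ := (cp q₁.1.1, q₁.1.2)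


lemma tk_base_tendsto {Q : Punc S k} (q₁ : Tot Q) :
    Tendsto (fun p : (Fin m → ℂ) × ℂ => ((ch q₁.1.1).symm p.1, p.2)) (𝓝 (tc0 q₁)) (𝓝 q₁.1) := by
  have h1 : Tendsto (fun p : (Fin m → ℂ) × ℂ => (ch q₁.1.1).symm p.1) (𝓝 (tc0 q₁)) (𝓝 q₁.1.1) :=
    (ch_symm_tendsto q₁.1.1).comp (continuous_fst.tendsto (tc0 q₁))
  have h2 : Tendsto (fun p : (Fin m → ℂ) × ℂ => p.2) (𝓝 (tc0 q₁)) (𝓝 q₁.1.2) :=
    continuous_snd.tendsto (tc0 q₁)
  exact h1.prodMk_nhds h2

lemma eventually_tk {Q : Punc S k} (q₁ : Tot Q) :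
    ∀ᶠ p in 𝓝 (tc0 q₁), p.2 ∉ Q.A ((ch q₁.1.1).symm p.1) :=
  (tk_base_tendsto q₁).eventually ((isOpen_tot Q).mem_nhds q₁.2)

lemma tk_tendsto (Q : Punc S k) (q₁ : Tot Q) : Tendsto (tk Q q₁) (𝓝 (tc0 q₁)) (𝓝 q₁) := by
  have h4 : Topology.IsInducing (Subtype.val : {q : S × ℂ // q.2 ∉ Q.A q.1} → S × ℂ) :=
    Topology.IsInducing.subtypeVal
  refine h4.tendsto_nhds_iff.mpr ?_
  refine (tk_base_tendsto q₁).congr' ?_
  filter_upwards [eventually_tk q₁] with p hp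
  show _ = (tk Q q₁ p).1
  rw [tk_of hp]; rfl

/-- `(c, x) ↦ Fin.cons x c` as a continuous linear equivalence -/
def consL (m : ℕ) : ((Fin m → ℂ) × ℂ) ≃L[ℂ] (Fin (m + 1) → ℂ) :=
  (ContinuousLinearEquiv.prodComm ℂ _ _).trans (Fin.consEquivL ℂ (fun _ : Fin (m + 1) => ℂ))

lemma consL_apply (p : (Fin m → ℂ) × ℂ) : consL m p = Fin.cons p.2 p.1 := rfl


lemma cp_eq_consL {Q : Punc S k} (q₁ : Tot Q) : cp q₁ = consL m (tc0 q₁) := rfl

/-- the inverse chart in the coordinates `(c, x)` -/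
lemma ch_symm_tk (Q : Punc S k) (q₁ : Tot Q) :
    ∀ᶠ p in 𝓝 (tc0 q₁), (ch q₁).symm (consL m p) = tk Q q₁ p := by
  have hcs : Tendsto (consL m) (𝓝 (tc0 q₁)) (𝓝 (cp q₁)) := by
    rw [cp_eq_consL]; exact (consL m).continuous.tendsto _
  have hcs' : Tendsto (consL m).symm (𝓝 (cp q₁)) (𝓝 (tc0 q₁)) := by
    have := (consL m).symm.continuous.tendsto (cp q₁)
    rwa [cp_eq_consL, ContinuousLinearEquiv.symm_apply_apply] at this
  have h1 : ∀ᶠ c in 𝓝 (cp q₁), (ch q₁).symm c = tk Q q₁ ((consL m).symm c) := by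
    refine ch_symm_eq ((tk_tendsto Q q₁).comp hcs') ?_
    have h2 : ∀ᶠ p in 𝓝 (tc0 q₁), cp (tk Q q₁ p) = consL m p := by
      have h3 : ∀ᶠ p : (Fin m → ℂ) × ℂ in 𝓝 (tc0 q₁), p.1 ∈ (ch q₁.1.1).target :=
        (continuous_fst.tendsto (tc0 q₁)).eventually
          ((ch q₁.1.1).open_target.mem_nhds ((isCh_ch _).cp_mem (mem_ch _)))
      filter_upwards [eventually_tk q₁, h3] with p hp hp3
      rw [tk_of hp, cp_tot, consL_apply]
      have h4 : cp ((ch q₁.1.1).symm p.1) = p.1 := (isCh_ch _).cp_symm hp3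
      have h5 : (Tot.mk Q ((ch q₁.1.1).symm p.1) p.2 hp).1 = ((ch q₁.1.1).symm p.1, p.2) := rfl
      rw [h5]
      simp only [h4]
    filter_upwards [hcs'.eventually h2] with c hc
    rw [hc, ContinuousLinearEquiv.apply_symm_apply]
  filter_upwards [hcs.eventually h1] with p hp
  rw [hp, ContinuousLinearEquiv.symm_apply_apply]

/-- holomorphy at a point of the total space in the coordinates `(c, x)` -/
theorem holAt_tot_iff {G : Type*} [NormedAddCommGroup G] [NormedSpace ℂ G] {Q : Punc S k}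
    (F : Tot Q → G) (q₁ : Tot Q) :
    HolAt F q₁ ↔ AnalyticAt ℂ (fun p => F (tk Q q₁ p)) (tc0 q₁) := by
  have hev : (fun p => (F ∘ (ch q₁).symm) (consL m p)) =ᶠ[𝓝 (tc0 q₁)]
      fun p => F (tk Q q₁ p) := by
    filter_upwards [ch_symm_tk Q q₁] with p hp
    simp only [Function.comp_apply, hp]
  constructor
  · intro h
    have h1 : AnalyticAt ℂ (F ∘ (ch q₁).symm) (consL m (tc0 q₁)) := h
    have h2 : AnalyticAt ℂ (fun p => (F ∘ (ch q₁).symm) (consL m p)) (tc0 q₁) :=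
      h1.comp ((consL m).toContinuousLinearMap.analyticAt _)
    exact h2.congr hev
  · intro h
    have h2 : AnalyticAt ℂ (fun p => (F ∘ (ch q₁).symm) (consL m p)) (tc0 q₁) := h.congr hev.symm
    have h3 : AnalyticAt ℂ (fun p => (F ∘ (ch q₁).symm) (consL m p))
        ((consL m).symm (cp q₁)) := by
      rw [cp_eq_consL, ContinuousLinearEquiv.symm_apply_apply]; exact h2
    have h4 : AnalyticAt ℂ ((fun p => (F ∘ (ch q₁).symm) (consL m p)) ∘ (consL m).symm) (cp q₁) :=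
      h3.comp ((consL m).symm.toContinuousLinearMap.analyticAt _)
    have h5 : ((fun p => (F ∘ (ch q₁).symm) (consL m p)) ∘ (consL m).symm) =
        F ∘ (ch q₁).symm := by
      funext c
      simp
    rw [h5] at h4
    exact h4

/-- componentwise version -/
theorem holAt_tot_iff_pi {N : ℕ} {Q : Punc S k} (F : Tot Q → Fin N → ℂ) (q₁ : Tot Q) :
    HolAt F q₁ ↔ ∀ i, AnalyticAt ℂ (fun p => F (tk Q q₁ p) i) (tc0 q₁) := by
  rw [holAt_tot_iff, analyticAt_pi_iff]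

/-- **(TH0)+(TH2)** a family of sections of a flat bundle over the total space which is holomorphic in
the fibre coordinate, weakly holomorphic in the base coordinates and locally bounded in `L²` is a
holomorphic section. Everything is seen in the frame at `q₁`. -/
theorem holAt_of_weak {N : ℕ} {Q : Punc S k} (P : Tot Q → Tot Q → GL (Fin N) ℤ)
    (f : S → ℂ → Fin N → ℂ) (q₁ : Tot Q) {U : Set (Fin m → ℂ)} (hU : IsOpen U)
    (hs1 : cp q₁.1.1 ∈ U) {D : Set ℂ} (hD : IsOpen D) (hx1 : q₁.1.2 ∈ D)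
    (hx : ∀ c ∈ U, ∀ i, DifferentiableOn ℂ (fun x => lV P (sec f) q₁ (tk Q q₁ (c, x)) i) D)
    (hs : ∀ ζ : ℂ → ℂ, ContDiff ℝ ∞ ζ → HasCompactSupport ζ → tsupport ζ ⊆ D → ∀ i,
      DifferentiableOn ℂ (fun c => ∫ x, ζ x * lV P (sec f) q₁ (tk Q q₁ (c, x)) i) U)
    (hb : ∀ c₀ ∈ U, ∀ K ⊆ D, IsCompact K → ∀ i, ∃ C : ℝ≥0∞, C < ⊤ ∧
      ∀ᶠ c in 𝓝 c₀, ∫⁻ x in K, ‖lV P (sec f) q₁ (tk Q q₁ (c, x)) i‖ₑ ^ 2 ≤ C) :
    HolAt (lV P (sec f) q₁) q₁ := by
  rw [holAt_tot_iff_pi]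
  intro i
  have h1 := TopHol_735.joint hU hD (f := fun c x => lV P (sec f) q₁ (tk Q q₁ (c, x)) i)
    (fun c hc => hx c hc i) (fun ζ h1 h2 h3 => hs ζ h1 h2 h3 i)
    (fun c₀ hc₀ K hK hKc => hb c₀ hc₀ K hK hKc i)
  exact h1 (tc0 q₁) ⟨hs1, hx1⟩

end tot

end Crest.Agent.R276.Ipc735
end
end

-- ▼ part R276/TopHolC_735
section

/-!
# Row 276, IPC-TOPHOL (helper735), part C: holomorphic sections in a trivialisation of the family

`D : LD V s₀` (helper563), `f : S → ℂ → Fin N → ℂ`.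
* `D.fT f z x = G(z,x)⁻¹ f(σ z)(Ψ_z x)` : the coefficient of `f dx` moved to the fibre over `s₀`.
* `fT_local` : local formula; `fT_diff`, `fT_cont`.
* `hol_pair`, `hol_S`, `hol_H` : holomorphy of integrals of `fT` against compactly supported sections.
-/

set_option autoImplicit false
set_option linter.unusedSectionVars false

noncomputable section

open Set Filter Topology MeasureTheory Matrix Metric
open scoped ContDiff ENNReal

namespace Crest.Agent.R276.FamA_563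

open Crest.Agent.R271.Ho51 Crest.Agent.R276.Ipc735 Crest.Agent.R276.Top3_279
open Crest.Agent.R276.Psi_563

variable {m : ℕ} {S : Type*} [TopologicalSpace S] [RDom m S] {k N w : ℕ} {Q : Punc S k}

namespace LD

variable {V : Ipc735.VHS (m + 1) (Tot Q) N w} {s₀ : S} (D : LD V s₀)

/-- the coefficient of `f dx` moved to the fibre over `s₀` -/
def fT (D : LD V s₀) (f : S → ℂ → Fin N → ℂ) (z : Fin m → ℂ) (x : ℂ) : Fin N → ℂ :=
  cm (D.G z x)⁻¹ *ᵥ f (D.σ z) (D.Ψ z x)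

variable {D} in
/-- local formula -/
theorem fT_local (f : S → ℂ → Fin N → ℂ) {z₁ : Fin m → ℂ} {x₁ : ℂ} (hz₁ : z₁ ∈ D.U)
    (hx₁ : x₁ ∉ Q.A s₀) :
    ∀ᶠ p in 𝓝 ((z₁, x₁) : (Fin m → ℂ) × ℂ), cm (rP Q V.P s₀ x₁ p.2) *ᵥ D.fT f p.1 p.2 =
      cm (D.G z₁ x₁)⁻¹ *ᵥ lV V.P (sec f) (D.pt z₁ x₁ hz₁ hx₁).1
        ((ch (D.pt z₁ x₁ hz₁ hx₁).1).symm (D.γ p)) := by
  obtain ⟨W, hW, hfr⟩ := frame_nhds hz₁ hx₁
  set q₁ : Tot Q := (D.pt z₁ x₁ hz₁ hx₁).1 with hq₁
  have h1 : ∀ᶠ q : Over Q (bB s₀ D.r) in 𝓝 (D.pt z₁ x₁ hz₁ hx₁), q.1 ∈ (ch q₁).source :=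
    (continuous_subtype_val.continuousAt (x := D.pt z₁ x₁ hz₁ hx₁)).eventually
      ((ch q₁).open_source.mem_nhds (mem_ch q₁))
  filter_upwards [ev_pt hz₁ hx₁ h1, hW, D.ev_U x₁ hz₁, ev_A z₁ hx₁]
    with p hsrc hpW hz hx
  have e1 := hfr (z₁, x₁) (mem_of_mem_nhds hW) p hpW hz₁ hx₁ hz hx
  simp only at e1
  have e2 : (ch q₁).symm (D.γ p) = (D.pt p.1 p.2 hz hx).1 := by
    have e3 := (isCh_ch q₁).symm_cp (hsrc hz hx)
    rw [cp_pt hz hx] at e3
    exact e3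
  have e4 : sec f (D.pt p.1 p.2 hz hx).1 = f (D.σ p.1) (D.Ψ p.1 p.2) := rfl
  rw [e2, lV, hq₁, e1, e4, cm_mul, cm_mul, fT]
  rw [Matrix.mulVec_mulVec, Matrix.mulVec_mulVec, ← Matrix.mul_assoc, ← Matrix.mul_assoc,
    cm_inv_mul_cm, Matrix.one_mul]

variable {D} in
/-- `fT` is holomorphic in `z` -/
theorem fT_diff {f : S → ℂ → Fin N → ℂ} {z₁ : Fin m → ℂ} {x₁ : ℂ} (hz₁ : z₁ ∈ D.U)
    (hx₁ : x₁ ∉ Q.A s₀) (hf : HolFib V f (D.σ z₁)) :
    DifferentiableAt ℂ (fun z => D.fT f z x₁) z₁ := by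
  set q₁ : Tot Q := (D.pt z₁ x₁ hz₁ hx₁).1 with hq₁
  have h1 : AnalyticAt ℂ (lV V.P (sec f) q₁ ∘ (ch q₁).symm) (cp q₁) := hf q₁ rfl
  have h2 : (fun z => D.fT f z x₁) =ᶠ[𝓝 z₁] fun z =>
      cm (D.G z₁ x₁)⁻¹ *ᵥ (lV V.P (sec f) q₁ ∘ (ch q₁).symm) (D.γ (z, x₁)) := by
    filter_upwards [ev_fst (fT_local f hz₁ hx₁)] with z hz
    simp only [rP_diag hx₁] at hz
    simpa using hz
  refine DifferentiableAt.congr_of_eventuallyEq ?_ h2
  have h3 : DifferentiableAt ℂ (fun z => (lV V.P (sec f) q₁ ∘ (ch q₁).symm) (D.γ (z, x₁))) z₁ := by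
    have h4 : DifferentiableAt ℂ (lV V.P (sec f) q₁ ∘ (ch q₁).symm) (D.γ (z₁, x₁)) := by
      rw [← cp_pt hz₁ hx₁]
      exact h1.differentiableAt
    exact DifferentiableAt.comp (g := lV V.P (sec f) q₁ ∘ (ch q₁).symm)
      (f := fun z => D.γ (z, x₁)) z₁ h4 (diffAt_γ hz₁ x₁)
  exact ((Matrix.mulVecLin (cm (D.G z₁ x₁)⁻¹)).toContinuousLinearMap).differentiableAt.comp z₁ h3

variable {D} in
/-- `fT` is continuous in local frames -/
theorem fT_cont {f : S → ℂ → Fin N → ℂ} {z₁ : Fin m → ℂ} {x₁ : ℂ} (hz₁ : z₁ ∈ D.U)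
    (hx₁ : x₁ ∉ Q.A s₀) (hf : HolFib V f (D.σ z₁)) :
    ContinuousAt (fun p : (Fin m → ℂ) × ℂ => cm (rP Q V.P s₀ x₁ p.2) *ᵥ D.fT f p.1 p.2)
      (z₁, x₁) := by
  set q₁ : Tot Q := (D.pt z₁ x₁ hz₁ hx₁).1 with hq₁
  have h1 : AnalyticAt ℂ (lV V.P (sec f) q₁ ∘ (ch q₁).symm) (cp q₁) := hf q₁ rfl
  have h2 : (fun p : (Fin m → ℂ) × ℂ => cm (rP Q V.P s₀ x₁ p.2) *ᵥ D.fT f p.1 p.2)
      =ᶠ[𝓝 (z₁, x₁)] fun p =>
      cm (D.G z₁ x₁)⁻¹ *ᵥ (lV V.P (sec f) q₁ ∘ (ch q₁).symm) (D.γ p) := fT_local f hz₁ hx₁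
  refine ContinuousAt.congr ?_ h2.symm
  have h3 : ContinuousAt (fun p => (lV V.P (sec f) q₁ ∘ (ch q₁).symm) (D.γ p)) (z₁, x₁) := by
    have h4 : ContinuousAt (lV V.P (sec f) q₁ ∘ (ch q₁).symm) (D.γ (z₁, x₁)) := by
      rw [← cp_pt hz₁ hx₁]
      exact h1.continuousAt
    exact ContinuousAt.comp (g := lV V.P (sec f) q₁ ∘ (ch q₁).symm)
      (f := D.γ) (x := (z₁, x₁)) h4 (contDiffAt_γ (p := (z₁, x₁)) hz₁).continuousAt
  exact ((Matrix.mulVecLin (cm (D.G z₁ x₁)⁻¹)).toContinuousLinearMap).continuous.continuousAt.comp h3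

/-- a continuous field of covectors -/
def Cov (V : Ipc735.VHS (m + 1) (Tot Q) N w) (s₀ : S) (c : ℂ → Fin N → ℂ) : Prop :=
  ∀ x₁ ∉ Q.A s₀, ContinuousAt (fun x => c x ᵥ* cm (rP Q V.P s₀ x x₁)) x₁

/-- the covector field `S(a, .)` is continuous -/
theorem cov_S {a : ℂ → Fin N → ℂ}
    (ha : ∀ x₁ ∉ Q.A s₀, ContinuousAt (lV (V.res s₀).P a x₁) x₁) :
    Cov V s₀ (fun x => star (a x) ᵥ* (V.res s₀).S x) := by
  intro x₁ hx₁
  rw [← (V.isRes s₀).P]
  set R := V.res s₀ with hR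
  obtain ⟨U, hU, hP⟩ := R.ndc x₁ (by simpa using hx₁)
  have hd : R.P x₁ x₁ = 1 := R.ndc.diag (by simpa using hx₁)
  have h1 : (fun x => star (lV R.P a x₁ x) ᵥ* R.S x₁) =ᶠ[𝓝 x₁]
      fun x => star (a x) ᵥ* R.S x ᵥ* cm (R.P x x₁) := by
    filter_upwards [hU, R.flatS x₁ hx₁] with x hx hS
    have h2 := hP x₁ (mem_of_mem_nhds hU) x hx x₁ (mem_of_mem_nhds hU)
    rw [hd] at h2
    have h3 : cm (R.P x₁ x) * cm (R.P x x₁) = 1 := by
      rw [← cm_mul, h2]; simp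
    rw [hS, lV, Matrix.star_mulVec, Matrix.vecMul_vecMul, Matrix.vecMul_vecMul,
      Matrix.mul_assoc, Matrix.mul_assoc, h3, Matrix.mul_one]
  refine ContinuousAt.congr ?_ h1
  have h4 := ha x₁ hx₁
  have h5 : ContinuousAt (fun x => star (lV R.P a x₁ x)) x₁ := h4.star
  exact (Continuous.matrix_vecMul continuous_id continuous_const).continuousAt.comp h5


end LD

end Crest.Agent.R276.FamA_563
end
end

-- ▼ part R276/TopHolT_175
section

/-!
# R276, IPC-LOC (helper175): the class of a holomorphic family of top forms is holomorphic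

`hol_top` : for `f` holomorphic with `f s` in the top piece, every class `v` has a representative `ζ` (a
compactly supported smooth closed form) whose pairing with the transported element of `f dx` is holomorphic.
-/

set_option autoImplicit false
set_option linter.unusedSectionVars false

noncomputable section

open Set Filter Topology MeasureTheory Matrix Metric UniformSpace
open scoped ContDiff ComplexConjugate

namespace Crest.Agent.R276.TopHolT_175

open Crest.Agent.R271.Ho51 Crest.Agent.R276.Ipc735 Crest.Agent.R276.Top3_279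
open IpcG1_975 Psi_563 FamA_563 HsB_817 Wcl_175 DR_175 PvO_175 Nat_591 TopE_175

variable {m : ℕ} {S : Type*} [TopologicalSpace S] [RDom m S] {k N w : ℕ} {Q : Punc S k}
variable {V : Ipc735.VHS (m + 1) (Tot Q) N w} {s₀ : S}

/-- the pairing of a continuous field of covectors with `fT` is continuous -/
theorem cont_pair {D : LD V s₀} {U' : Set (Fin m → ℂ)} (hUU : U' ⊆ D.U)
    {f : S → ℂ → Fin N → ℂ} (hf : ∀ z ∈ U', HolFib V f (D.σ z))
    {c : ℂ → Fin N → ℂ} (hc : LD.Cov V s₀ c) {z₁ : Fin m → ℂ} (hz₁ : z₁ ∈ U') {x₁ : ℂ}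
    (hxA : x₁ ∉ Q.A s₀) :
    ContinuousAt (fun p : (Fin m → ℂ) × ℂ => c p.2 ⬝ᵥ D.fT f p.1 p.2) (z₁, x₁) := by
  have h1 := LD.fT_cont (hUU hz₁) hxA (hf z₁ hz₁)
  have h2 : ContinuousAt (fun p : (Fin m → ℂ) × ℂ => c p.2 ᵥ* cm (rP Q V.P s₀ p.2 x₁))
      (z₁, x₁) :=
    ContinuousAt.comp (g := fun x => c x ᵥ* cm (rP Q V.P s₀ x x₁))
      (f := fun p : (Fin m → ℂ) × ℂ => p.2) (x := (z₁, x₁)) (hc x₁ hxA) continuousAt_snd
  have h3 : ContinuousAt (fun p : (Fin m → ℂ) × ℂ =>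
      (c p.2 ᵥ* cm (rP Q V.P s₀ p.2 x₁)) ⬝ᵥ (cm (rP Q V.P s₀ x₁ p.2) *ᵥ D.fT f p.1 p.2))
      (z₁, x₁) := by
    simp only [dotProduct]
    refine tendsto_finsetSum _ fun i _ => ?_
    exact Tendsto.mul ((continuous_apply i).continuousAt.comp h2)
      ((continuous_apply i).continuousAt.comp h1)
  refine h3.congr ?_
  obtain ⟨U, hU, hP⟩ := (V.res s₀).ndc x₁ (by simpa using hxA)
  rw [(V.isRes s₀).P] at hP
  have hev : ∀ᶠ p : (Fin m → ℂ) × ℂ in 𝓝 (z₁, x₁), p.2 ∈ U ∧ p.2 ∉ Q.A s₀ :=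
    (continuousAt_snd (p := ((z₁, x₁) : (Fin m → ℂ) × ℂ))).eventually
      ((show ∀ᶠ x in 𝓝 x₁, x ∈ U from hU).and (eventually_notMem _ hxA))
  filter_upwards [hev] with p hp
  have h4 := hP p.2 hp.1 x₁ (mem_of_mem_nhds hU) p.2 hp.1
  rw [LD.rP_diag hp.2] at h4
  rw [Matrix.dotProduct_mulVec, Matrix.vecMul_vecMul, ← Ipc735.cm_mul, h4]
  simp

theorem diff_pair {D : LD V s₀} {U' : Set (Fin m → ℂ)} (hUU : U' ⊆ D.U)
    {f : S → ℂ → Fin N → ℂ} (hf : ∀ z ∈ U', HolFib V f (D.σ z))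
    (c : Fin N → ℂ) {z₁ : Fin m → ℂ} (hz₁ : z₁ ∈ U') {x₁ : ℂ}
    (hxA : x₁ ∉ Q.A s₀) :
    DifferentiableAt ℂ (fun z => c ⬝ᵥ D.fT f z x₁) z₁ := by
  have h1 := LD.fT_diff (hUU hz₁) hxA (hf z₁ hz₁)
  simp only [dotProduct]
  exact DifferentiableAt.fun_sum fun i _ => (differentiableAt_pi.1 h1 i).const_mul _

/-- **pairing of `f dx`, pulled back, with a compactly supported form** -/
theorem hol_int {D : LD V s₀} {U' : Set (Fin m → ℂ)} (hU' : IsOpen U') (hUU : U' ⊆ D.U)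
    {f : S → ℂ → Fin N → ℂ} (hf : ∀ z ∈ U', HolFib V f (D.σ z)) {K : Set ℂ} (hK : IsCompact K)
    (hKA : ∀ x ∈ K, x ∉ Q.A s₀) {c₁ c₂ : ℂ → Fin N → ℂ} (h₁ : LD.Cov V s₀ c₁)
    (h₂ : LD.Cov V s₀ c₂) :
    AnalyticOnNhd ℂ (fun z => ∫ x in K, (D.Bm.Q (D.b z) x * (c₂ x ⬝ᵥ D.fT f z x) -
      D.Bm.P (D.b z) x * (c₁ x ⬝ᵥ D.fT f z x))) U' := by
  refine TopHol_735.analyticOnNhd_integral hK volume hU'
    (f := fun z x => D.Bm.Q (D.b z) x * (c₂ x ⬝ᵥ D.fT f z x) -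
      D.Bm.P (D.b z) x * (c₁ x ⬝ᵥ D.fT f z x)) ?_ ?_
  · rintro ⟨z₁, x₁⟩ ⟨hz₁, hx₁⟩
    refine ContinuousAt.continuousWithinAt ?_
    have hz := hUU hz₁
    have hP := (FamB_563.contDiffAt_Pz (D := D) (p := (z₁, x₁)) hz).continuousAt
    have hQ := (FamB_563.contDiffAt_Qz (D := D) (p := (z₁, x₁)) hz).continuousAt
    exact (hQ.mul (cont_pair hUU hf h₂ hz₁ (hKA x₁ hx₁))).sub
      (hP.mul (cont_pair hUU hf h₁ hz₁ (hKA x₁ hx₁)))
  · intro x hx z hz
    refine DifferentiableAt.differentiableWithinAt ?_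
    have h1 : ∀ i, DifferentiableAt ℂ (fun z => D.b z i) z := fun i =>
      (differentiableAt_pi.1 (LD.diffAt_b (hUU hz))) i
    have hP : DifferentiableAt ℂ (fun z => D.Bm.P (D.b z) x) z := by
      simp only [Bumps.P_eq]
      exact (differentiableAt_const _).add
        (DifferentiableAt.fun_sum fun i _ => (h1 i).mul_const _)
    have hQ : DifferentiableAt ℂ (fun z => D.Bm.Q (D.b z) x) z := by
      simp only [Bumps.Q_eq]
      exact DifferentiableAt.fun_sum fun i _ => (h1 i).mul_const _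
    exact (hQ.mul (diff_pair hUU hf (c₂ x) hz (hKA x hx))).sub
      (hP.mul (diff_pair hUU hf (c₁ x) hz (hKA x hx)))

/-- the transported element of `f dx` is represented by the pulled back form -/
theorem rep_TV {D : LD V s₀} {z : Fin m → ℂ} (hz : z ∈ hU D)
    {u : (pvOf (V.res (D.σ z))).L} {α : ℂ → (Fin N → ℂ) × (Fin N → ℂ)}
    (h : (pvOf (V.res (D.σ z))).Rep u α) :
    (pvOf (V.res s₀)).Rep (TV D z u) (pb (Kf (D.Ψ z) (Kv D z)) (D.Ψ z) α) := by
  have h1 : TV D z u = (psiV D hz).psiM.mmor.T u := TV_of hz u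
  rw [h1]
  exact RepC_201.Rep.T (psiV D hz).psiM.mmor h

/-- covectors from a smooth form -/
theorem cov_of_sm {a : ℂ → Fin N → ℂ} (ha : (pvOf (V.res s₀)).Sm a) :
    LD.Cov V s₀ (fun x => star (a x) ᵥ* (V.res s₀).S x) := by
  refine LD.cov_S fun x₁ hx₁ => ?_
  exact (((sm_iff _ _).1 ha) x₁ hx₁).continuousAt

/-- pairing of a compactly supported form with a represented element -/
theorem inner_be (ζ : (pvOf (V.res s₀)).mb.dbl.H0) {u : (pvOf (V.res s₀)).L}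
    {φ : ℂ → (Fin N → ℂ) × (Fin N → ℂ)} (h : (pvOf (V.res s₀)).Rep u φ) :
    inner ℂ ((pvOf (V.res s₀)).be (ζ : (pvOf (V.res s₀)).L)) u =
    ∫ x, ((star (ζ.f x).2 ᵥ* (V.res s₀).S x) ⬝ᵥ (φ x).2 -
      (star (ζ.f x).1 ᵥ* (V.res s₀).S x) ⬝ᵥ (φ x).1) := by
  have h1 : (pvOf (V.res s₀)).be (ζ : (pvOf (V.res s₀)).L) =
      ((pvOf (V.res s₀)).mb.dbl.s0 (fun x => (pvOf (V.res s₀)).bt x (ζ.f x))
        (FB.app_mem_A0 (pvOf (V.res s₀)).ok_bt.1 ζ.mem) : (pvOf (V.res s₀)).mb.dbl.H0) :=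
    (pvOf (V.res s₀)).mb.dbl.op_coe (pvOf (V.res s₀)).ok_bt ζ
  rw [h1, h.2]
  refine integral_congr_ae (Eventually.of_forall fun x => ?_)
  simp only [MB.s0_f]
  by_cases hx : x ∈ ((Q.A s₀ : Set ℂ)ᶜ)
  · rw [PsiP.G_bt _ hx, pvOf_S, pvOf_S, dotProduct_mulVec, dotProduct_mulVec]
  · have h2 : ζ.f x = 0 := (pvOf (V.res s₀)).mb.dbl.f_eq_zero ζ hx
    rw [h2]
    simp

/-- pairing of a compactly supported form with a transported `f dx` -/
theorem inner_TV {D : LD V s₀} {z : Fin m → ℂ} (hz : z ∈ hU D) (ζ : (pvOf (V.res s₀)).mb.dbl.H0)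
    {f : S → ℂ → Fin N → ℂ} (hf : TopS (pvOf (V.res (D.σ z))) (f (D.σ z))) :
    inner ℂ ((pvOf (V.res s₀)).be (ζ : (pvOf (V.res s₀)).L))
      (TV D z (emb (pvOf (V.res (D.σ z))) (f (D.σ z)))) =
    ∫ x, (D.Bm.Q (D.b z) x * ((star (ζ.f x).2 ᵥ* (V.res s₀).S x) ⬝ᵥ D.fT f z x) -
      D.Bm.P (D.b z) x * ((star (ζ.f x).1 ᵥ* (V.res s₀).S x) ⬝ᵥ D.fT f z x)) := by
  rw [inner_be ζ (rep_TV hz hf.rep)]
  refine integral_congr_ae (Eventually.of_forall fun x => ?_)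
  have h1 : pb (Kf (D.Ψ z) (Kv D z)) (D.Ψ z) (fx (f (D.σ z))) x =
      (D.Bm.P (D.b z) x • D.fT f z x, D.Bm.Q (D.b z) x • D.fT f z x) := by
    show Kf (D.Ψ z) (Kv D z) x (f (D.σ z) (D.Ψ z x), 0) = _
    rw [Kf_apply]
    have h2 : Kv D z x (f (D.σ z) (D.Ψ z x)) = D.fT f z x := rfl
    simp only [h2, map_zero]
    unfold Psi_563.pull
    simp only [smul_zero, add_zero]
    rfl
  simp only [h1, dotProduct_smul, smul_eq_mul]

/-- **`HolA`** : the pairing of the transported element of `f dx` with any smooth closed form with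
compact support is holomorphic -/
theorem holA (D : LD V s₀) (f : S → ℂ → Fin N → ℂ) (hf : ∀ᶠ s in 𝓝 s₀, (V.res s).Top (f s))
    (hh : ∀ᶠ s in 𝓝 s₀, HolFib V f s) (ζ : (pvOf (V.res s₀)).mb.dbl.H0) :
    AnalyticAt ℂ (fun x => inner ℂ ((pvOf (V.res s₀)).be (ζ : (pvOf (V.res s₀)).L))
      (TV D x (emb (pvOf (V.res (D.σ x))) (f (D.σ x))))) (cp s₀) := by
  -- the neighbourhood
  have hσ : ContinuousAt D.σ (cp s₀) := LD.continuousAt_σ D.center_mem
  have hσ' : Tendsto D.σ (𝓝 (cp s₀)) (𝓝 s₀) := by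
    have := hσ.tendsto
    rwa [D.σ_center] at this
  have hev : ∀ᶠ x in 𝓝 (cp s₀), x ∈ hU D ∧ (V.res (D.σ x)).Top (f (D.σ x)) ∧
      HolFib V f (D.σ x) :=
    (show ∀ᶠ x in 𝓝 (cp s₀), x ∈ hU D from (isOpen_hU D).mem_nhds (mem_hU D)).and
      ((hσ'.eventually hf).and (hσ'.eventually hh))
  obtain ⟨U', hU'sub, hU'o, hU'm⟩ := _root_.mem_nhds_iff.1 hev
  have hUU : U' ⊆ D.U := fun x hx => half_sub D (hU'sub hx).1
  obtain ⟨K, hK, hKc, h0⟩ := ζ.mem.2
  have hKA : ∀ x ∈ K, x ∉ Q.A s₀ := fun x hx hA => hK hx (by exact_mod_cast hA)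
  have hsm := FB.sm_dbl.1 ζ.mem.1
  have han := hol_int (D := D) hU'o hUU (fun z hz => (hU'sub hz).2.2) hKc hKA
    (cov_of_sm hsm.1) (cov_of_sm hsm.2)
  refine (han _ hU'm).congr ?_
  filter_upwards [hU'o.mem_nhds hU'm] with x hx
  have h1 := hU'sub hx
  have h2 := inner_TV h1.1 ζ (f := f) (PvO_175.Top.topS h1.2.1)
  refine Eq.trans ?_ h2.symm
  refine setIntegral_eq_integral_of_forall_compl_eq_zero fun y hy => ?_
  rw [h0 y hy]
  simp


end Crest.Agent.R276.TopHolT_175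
end
end

-- ▼ part R276/FamC_563
section

/-!
# R276, leaf IPC-FAM (helper563), part C: the bundle `pvOf (V.res s₀)` and the intertwining (N3)

* `isFm` : `(pvOf R).mb.dbl`, `(pvOf R).bt` are as in `FamB_563.IsFm`;
* `ptFam` : the pointwise input of the L² half for `(pvOf (V.res s₀)).mb.dbl`;
* `ty_pull` : (N3), `opT (D.T P z x)` corresponds to the type projector of the fibre over `D.σ z`.
-/

set_option autoImplicit false
set_option linter.unusedSectionVars false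

noncomputable section

open Set Filter Topology MeasureTheory Matrix Metric
open scoped ContDiff Kronecker ComplexConjugate

namespace Crest.Agent.R276.FamC_563

open Crest.Agent.R271.Ho51 Crest.Agent.R276.Ipc735 Crest.Agent.R276.Top3_279
open Crest.Agent.R276.Psi_563 Crest.Agent.R276.FamA_563 Crest.Agent.R276.BndB_563
open Crest.Agent.R276.FamB_563 Crest.Agent.R276.IpcG1_975 Crest.Agent.R276.IpcGr_975
open Crest.Agent.R276.K4_817 Crest.Agent.R276.K4b_817 Crest.Agent.R276.Nat_591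
open Crest.Agent.R276.PvO_175 Crest.Agent.R276.HsB_817 Crest.Agent.R276.HsC_817

section pv

variable {A : Finset ℂ} {N w : ℕ} (R : PVHS A N w)

theorem isFm : IsFm R (pvOf R).mb.dbl (pvOf R).bt where
  P := fun _ _ _ _ _ => rfl
  G := fun x hx u v => by
    show (pvOf R).Gf x u.1 v.1 + (pvOf R).Gf x u.2 v.2 = _
    rw [pvOf_G R hx, pvOf_G R hx]
  bE := fun x _ u => by
    show (-(pvOf R).Jf x u.1, (pvOf R).Jf x u.2) = _
    rw [pvOf_Jf, pvOf_Jf]
  okb := (pvOf R).ok_bt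

theorem Pf_hq (n : ℕ) (x : ℂ) (v : Fin N → ℂ) : (pvOf R).Pf n x v = hq w (R.E x) n *ᵥ v := by
  by_cases hn : n ≤ w
  · rw [pvOf_Pf R hn, hq_of_le hn]
  · have h1 : lag w n = 0 := if_neg hn
    show pr w n (mc (R.E x)) v = _
    unfold pr hq
    rw [h1, map_zero, if_neg hn, Matrix.zero_mulVec]
    rfl

theorem Pm_shq (n : ℕ) (x : ℂ) (v : Fin N → ℂ) : (pvOf R).Pm n x v = shq w n (R.E x) *ᵥ v := by
  cases n with
  | zero => rw [(pvOf R).Pm_zero]; simp [shq]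
  | succ n => rw [(pvOf R).Pm_succ, Pf_hq]; rfl

theorem ty_eq (n : ℕ) (x : ℂ) (u : VV N) :
    (pvOf R).ty n x u = (shq w n (R.E x) *ᵥ u.1, hq w (R.E x) n *ᵥ u.2) := by
  show ((pvOf R).Pm n x u.1, (pvOf R).Pf n x u.2) = _
  rw [Pm_shq, Pf_hq]

end pv

variable {m : ℕ} {S : Type*} [TopologicalSpace S] [RDom m S] {k N w : ℕ} {Q : Punc S k}
  {V : Ipc735.VHS (m + 1) (Tot Q) N w} {s₀ : S} (D : LD V s₀)


lemma shiftP_eq (n : ℕ) (z : Fin m → ℂ) (x : ℂ) :
    shiftP (fun p z => hq w (D.E z x) p) n z = shq w n (D.E z x) := by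
  unfold shiftP
  cases n with
  | zero => rfl
  | succ n => rfl

/-- the Hodge structure of the fibre at `Ψ_z x`, in the frame at `(s₀, x)` -/
lemma E_res {z : Fin m → ℂ} (hz : z ∈ D.U) {x : ℂ} (hx : x ∉ Q.A s₀) :
    D.E z x = cm (D.G z x)⁻¹ * (V.res (D.σ z)).E (D.Ψ z x) * cm (D.G z x) := by
  rw [LD.E_of hz hx, (V.isRes (D.σ z)).E, rM_of V.E (LD.Ψ_notMem hz hx)]
  rfl

/-- `opT (D.T n z x)` on a pulled back form -/
theorem opT_pull {z : Fin m → ℂ} (hz : z ∈ D.U) (x : ℂ) (n : ℕ) (a b : Fin N → ℂ) :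
    opT (D.T n z x) (pull (D.Bm.P (D.b z) x) (D.Bm.Q (D.b z) x) (a, b)) =
      pull (D.Bm.P (D.b z) x) (D.Bm.Q (D.b z) x)
        (shq w n (D.E z x) *ᵥ a, hq w (D.E z x) n *ᵥ b) := by
  have h := tot_pull (D.pair x) hz (fun p z => hq w (D.E z x) p) n a b
  rw [opT_apply]
  have h2 : D.T n z x *ᵥ vp (pull (D.Bm.P (D.b z) x) (D.Bm.Q (D.b z) x) (a, b)).1
      (pull (D.Bm.P (D.b z) x) (D.Bm.Q (D.b z) x) (a, b)).2 = _ := h
  rw [h2, uvL_vp, shiftP_eq]

/-- **(N3)** : intertwining of the total types -/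
theorem ty_pull {z : Fin m → ℂ} (hz : z ∈ D.U) {x : ℂ} (hx : x ∉ Q.A s₀) (n : ℕ) (u : VV N) :
    opT (D.T n z x) (Kf (D.Bm.psi (D.b z)) (fun x => mc (cm (D.G z x)⁻¹)) x u) =
      Kf (D.Bm.psi (D.b z)) (fun x => mc (cm (D.G z x)⁻¹)) x
        ((pvOf (V.res (D.σ z))).ty n (D.Bm.psi (D.b z) x) u) := by
  rw [Kf_apply, Kf_apply, ty_eq]
  simp only [mc_apply]
  have h := opT_pull D hz x n (cm (D.G z x)⁻¹ *ᵥ u.1) (cm (D.G z x)⁻¹ *ᵥ u.2)
  have e : (V.res (D.σ z)).E (D.Bm.psi (D.b z) x) = cm (D.G z x) * D.E z x * cm (D.G z x)⁻¹ := by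
    rw [E_res D hz hx]
    have h1 : cm (D.G z x) * cm (D.G z x)⁻¹ = 1 := cm_mul_cm_inv _
    calc (V.res (D.σ z)).E (D.Bm.psi (D.b z) x)
        = 1 * (V.res (D.σ z)).E (D.Bm.psi (D.b z) x) * 1 := by rw [one_mul, mul_one]
      _ = (cm (D.G z x) * cm (D.G z x)⁻¹) * (V.res (D.σ z)).E (D.Ψ z x) *
          (cm (D.G z x) * cm (D.G z x)⁻¹) := by rw [h1]; rfl
      _ = _ := by noncomm_ring
  rw [e, shq_conj (cm_mul_cm_inv _) (cm_inv_mul_cm _), hq_conj (cm_mul_cm_inv _) (cm_inv_mul_cm _)]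
  have h1 : cm (D.G z x)⁻¹ * cm (D.G z x) = 1 := cm_inv_mul_cm _
  have key : ∀ (B : Matrix (Fin N) (Fin N) ℂ) (v : Fin N → ℂ),
      cm (D.G z x)⁻¹ *ᵥ ((cm (D.G z x) * B * cm (D.G z x)⁻¹) *ᵥ v) =
        B *ᵥ (cm (D.G z x)⁻¹ *ᵥ v) := by
    intro B v
    rw [Matrix.mulVec_mulVec, Matrix.mulVec_mulVec]
    congr 1
    calc cm (D.G z x)⁻¹ * (cm (D.G z x) * B * cm (D.G z x)⁻¹)
        = (cm (D.G z x)⁻¹ * cm (D.G z x)) * B * cm (D.G z x)⁻¹ := by noncomm_ring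
      _ = _ := by rw [h1, one_mul]
  rw [key, key]
  exact h

end Crest.Agent.R276.FamC_563
end
end

-- ▼ part R276/FamE_563
section

/-!
# R276, leaf IPC-FAM (helper563), part E: the trivialisation of helper454's `locPieces V`

* `n3 D : N3 D`;
* `triv D : (locPieces V).Triv z`, `triv_T`, `triv_U`, `triv_π'`;
* `exists_triv : ∀ z, Nonempty ((locPieces V).Triv z)`.
-/

set_option autoImplicit false
set_option linter.unusedSectionVars false

noncomputable section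

open Set Filter Topology MeasureTheory Matrix Metric

namespace Crest.Agent.R276.FamE_563

open Crest.Agent.R271.Ho51 Crest.Agent.R276.Ipc735 Crest.Agent.R276.Top3_279
open Crest.Agent.R276.Psi_563 Crest.Agent.R276.FamA_563 Crest.Agent.R276.FamB_563
open Crest.Agent.R276.FamC_563 Crest.Agent.R276.IpcG1_975 Crest.Agent.R276.Nat_591
open Crest.Agent.R276.PvO_175 Crest.Agent.R276.HsB_817 Crest.Agent.R276.HsC_817
open Crest.Agent.R276.Step_454 Crest.Agent.R276.FamD_563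

variable {m k N w : ℕ} {S : Type} [TopologicalSpace S] [RDom m S] {Q : Punc S k}
  {V : Ipc735.VHS (m + 1) (Tot Q) N w} {z : S}

/-- **(N3)** in the form of helper454 -/
theorem n3 [T2Space S] (D : LD V z) : N3 D where
  fm := isFm (V.res z)
  n3 := fun _ hx P _ _ hy v => ty_pull D (U2_sub D hx) hy P v

variable [T2Space S]

/-- the trivialisation -/
def triv (D : LD V z) : (locPieces V).Triv z := trivOf D (n3 D)



theorem exists_triv (V : Ipc735.VHS (m + 1) (Tot Q) N w) (z : S) :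
    Nonempty ((locPieces V).Triv z) := by
  obtain ⟨D, -⟩ := exists_LD V z univ_mem
  exact ⟨triv D⟩

end Crest.Agent.R276.FamE_563
end
end

-- ▼ part R276/Grp6_591
section

/-!
# R276, leaf IPC-GRP (helper591), part 6: an `Act` on a `VHS` from linear maps of the fibres

`act_of_maps` : linear maps `U g s` of the fibres `ℂ^N` (frames of `W`), multiplicative in `g`, integral,
flat near the diagonal, preserving the form and the eigenspaces of the grading operator, come from an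
`Act W Γ`.
-/

set_option autoImplicit false
set_option linter.unusedSectionVars false

noncomputable section

open Set Filter Topology MeasureTheory Matrix

namespace Crest.Agent.R276.Grp_591

open Crest.Agent.R276.Ipc735

section spec

variable {N w : ℕ} {S E : Matrix (Fin N) (Fin N) ℂ}

theorem injOn_cast (w : ℕ) : Set.InjOn (fun q : ℕ => (q : ℂ)) (Finset.range (w + 1) : Set ℕ) :=
  (Nat.cast_injective (R := ℂ)).injOn

theorem sum_hpr (w : ℕ) (E : Matrix (Fin N) (Fin N) ℂ) :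
    ∑ p ∈ Finset.range (w + 1), hpr w p E = 1 := by
  unfold hpr
  rw [← map_sum, Lagrange.sum_basis (injOn_cast w) ⟨0, by simp⟩, map_one]

theorem E_hpr (h : IsHS w S E) {p : ℕ} (hp : p ∈ Finset.range (w + 1)) :
    E * hpr w p E = (p : ℂ) • hpr w p E := by
  have h1 : (Polynomial.X - Polynomial.C (p : ℂ)) *
      Lagrange.basis (Finset.range (w + 1)) (fun q : ℕ => (q : ℂ)) p =
      (∏ j ∈ (Finset.range (w + 1)).erase p, Polynomial.C (((p : ℂ) - (j : ℂ))⁻¹)) *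
        ∏ q ∈ Finset.range (w + 1), (Polynomial.X - Polynomial.C (q : ℂ)) := by
    rw [← Finset.mul_prod_erase _ _ hp]
    unfold Lagrange.basis Lagrange.basisDivisor
    rw [Finset.prod_mul_distrib]
    ring
  have h2 := congrArg (Polynomial.aeval E) h1
  rw [map_mul, map_mul, h.eig, mul_zero, map_sub, Polynomial.aeval_X, Polynomial.aeval_C,
    sub_mul, sub_eq_zero] at h2
  unfold hpr
  rw [h2, Algebra.algebraMap_eq_smul_one, smul_mul_assoc, one_mul]

/-- a matrix preserving all eigenspaces of the grading operator commutes with it -/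
theorem comm_of_eigen (h : IsHS w S E) {A : Matrix (Fin N) (Fin N) ℂ}
    (hA : ∀ (p : ℕ) (v : Fin N → ℂ), p ≤ w → E *ᵥ v = (p : ℂ) • v →
      E *ᵥ (A *ᵥ v) = (p : ℂ) • (A *ᵥ v)) : A * E = E * A := by
  have key : ∀ v : Fin N → ℂ, (A * E) *ᵥ v = (E * A) *ᵥ v := by
    intro v
    have hv : v = ∑ p ∈ Finset.range (w + 1), hpr w p E *ᵥ v := by
      rw [← sum_mulVec, sum_hpr, one_mulVec]
    rw [hv, mulVec_sum, mulVec_sum]
    refine Finset.sum_congr rfl (fun p hp => ?_)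
    have h1 : E *ᵥ (hpr w p E *ᵥ v) = (p : ℂ) • (hpr w p E *ᵥ v) := by
      rw [mulVec_mulVec, E_hpr h hp, smul_mulVec]
    have h2 := hA p _ (Nat.lt_succ_iff.1 (Finset.mem_range.1 hp)) h1
    rw [← mulVec_mulVec, ← mulVec_mulVec, h1, h2, mulVec_smul]
  ext i j
  have := congrFun (key (Pi.single j 1)) i
  simpa using this

end spec

section maps

open Crest.Agent.R271.Ho51

variable {m : ℕ} {X : Type*} [TopologicalSpace X] [RDom m X] {N w : ℕ}

theorem map_cast_inj {n : ℕ} {a b : Matrix (Fin n) (Fin n) ℤ}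
    (h : a.map (fun x : ℤ => (x : ℂ)) = b.map (fun x : ℤ => (x : ℂ))) : a = b := by
  ext i j
  have := congrFun (congrFun h i) j
  simpa using this

theorem map_cast_mul {n : ℕ} (a b : Matrix (Fin n) (Fin n) ℤ) :
    (a * b).map (fun x : ℤ => (x : ℂ)) =
      a.map (fun x : ℤ => (x : ℂ)) * b.map (fun x : ℤ => (x : ℂ)) := by
  ext i j
  simp [Matrix.mul_apply]

theorem exists_int_mat {n : ℕ} (U : (Fin n → ℂ) →ₗ[ℂ] (Fin n → ℂ))
    (h : ∀ v : Fin n → ℤ, ∃ u : Fin n → ℤ, U (fun i => (v i : ℂ)) = fun i => (u i : ℂ)) :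
    ∃ A : Matrix (Fin n) (Fin n) ℤ, A.map (fun x : ℤ => (x : ℂ)) = LinearMap.toMatrix' U := by
  choose f hf using fun j : Fin n => h (Pi.single j 1)
  refine ⟨Matrix.of (fun i j => f j i), ?_⟩
  ext i j
  rw [LinearMap.toMatrix'_apply]
  have h1 : (fun i => (((Pi.single j 1 : Fin n → ℤ) i : ℤ) : ℂ)) = Pi.single j 1 := by
    ext k
    by_cases hk : k = j
    · subst hk; simp
    · simp [hk]
  have h2 := congrFun (hf j) i
  rw [h1] at h2
  rw [h2]
  rfl

/-- **an action from linear maps of the fibres** -/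
theorem act_of_maps (W : VHS m X N w) (Γ : Type) [Group Γ]
    (U : Γ → X → ((Fin N → ℂ) →ₗ[ℂ] (Fin N → ℂ)))
    (h1 : ∀ s v, U 1 s v = v)
    (hmul : ∀ g h s v, U (g * h) s v = U g s (U h s v))
    (hint : ∀ g s (v : Fin N → ℤ), ∃ u : Fin N → ℤ, U g s (fun i => (v i : ℂ)) = fun i => (u i : ℂ))
    (hflat : ∀ g z, ∀ᶠ y in 𝓝 z, ∀ v, cm (W.P z y) *ᵥ U g y v = U g z (cm (W.P z y) *ᵥ v))
    (hE : ∀ g s (p : ℕ) v, p ≤ w → W.E s *ᵥ v = (p : ℂ) • v → W.E s *ᵥ U g s v = (p : ℂ) • U g s v)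
    (hS : ∀ g s v u, star (U g s v) ⬝ᵥ W.S s *ᵥ U g s u = star v ⬝ᵥ W.S s *ᵥ u) :
    ∃ ρ : Act W Γ, ∀ g s v, cm (ρ.ρ g s) *ᵥ v = U g s v := by
  choose A hA using fun g s => exists_int_mat (U g s) (hint g s)
  have hAv : ∀ g s v, (A g s).map (fun x : ℤ => (x : ℂ)) *ᵥ v = U g s v := by
    intro g s v
    rw [hA, LinearMap.toMatrix'_mulVec]
  have hA1 : ∀ s, A 1 s = 1 := by
    intro s
    apply map_cast_inj
    rw [hA]
    have : U 1 s = LinearMap.id := LinearMap.ext (fun v => h1 s v)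
    rw [this, LinearMap.toMatrix'_id]
    exact (Matrix.map_one _ Int.cast_zero Int.cast_one).symm
  have hAm : ∀ g h s, A (g * h) s = A g s * A h s := by
    intro g h s
    apply map_cast_inj
    rw [map_cast_mul, hA, hA, hA, ← LinearMap.toMatrix'_comp]
    congr 1
    exact LinearMap.ext (fun v => hmul g h s v)
  let ρ : Γ → X → GL (Fin N) ℤ := fun g s =>
    ⟨A g s, A g⁻¹ s, by rw [← hAm, mul_inv_cancel, hA1], by rw [← hAm, inv_mul_cancel, hA1]⟩
  have hcm : ∀ g s, cm (ρ g s) = (A g s).map (fun x : ℤ => (x : ℂ)) := fun g s => rfl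
  have hcv : ∀ g s v, cm (ρ g s) *ᵥ v = U g s v := fun g s v => by rw [hcm, hAv]
  have hext : ∀ {M M' : Matrix (Fin N) (Fin N) ℂ}, (∀ v, M *ᵥ v = M' *ᵥ v) → M = M' := by
    intro M M' h
    ext i j
    have := congrFun (h (Pi.single j 1)) i
    simpa using this
  refine ⟨⟨ρ, ?_, ?_, ?_, ?_⟩, hcv⟩
  · intro g h x
    exact Units.ext (hAm g h x)
  · intro g z
    filter_upwards [hflat g z] with y hy
    apply Units.ext
    apply map_cast_inj
    have : cm (W.P z y * ρ g y) = cm (ρ g z * W.P z y) := by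
      rw [cm_mul, cm_mul]
      apply hext
      intro v
      rw [← mulVec_mulVec, ← mulVec_mulVec, hcv, hcv, hy]
    exact this
  · intro g x
    refine comm_of_eigen (W.hs x) (fun p v hp hv => ?_)
    rw [hcv]
    exact hE g x p v hp hv
  · intro g x
    have h2 : ∀ v u : Fin N → ℂ, star v ⬝ᵥ ((cm (ρ g x))ᴴ * W.S x * cm (ρ g x)) *ᵥ u =
        star v ⬝ᵥ W.S x *ᵥ u := by
      intro v u
      rw [← hS g x v u, ← hcv, ← hcv, star_mulVec, ← dotProduct_mulVec, mulVec_mulVec, mulVec_mulVec]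
    apply hext
    intro u
    ext i
    have := h2 (Pi.single i 1) u
    simpa [Pi.single_star, ← Pi.single_star] using this

end maps

end Crest.Agent.R276.Grp_591
end
end

-- ▼ part R276/Step_454
section

/-!
# R276, IPC-STEP (helper454): `Loc → OneStep`
-/

set_option autoImplicit false

noncomputable section

open Set Filter Topology MeasureTheory Matrix
open scoped ContDiff
open Crest.Agent.R271.Ho51
open Crest.Agent.R276.Ipc735 Crest.Agent.R276.Lat_348 Crest.Agent.R276.Flag_454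

namespace Crest.Agent.R276.Step_454

namespace Bas

variable {m n : ℕ} {S : Type} [TopologicalSpace S] [RDom m S] {H : HFam m S n} (D : Bas H)

/-- the action on the packed variation -/
theorem exists_act {Γ : Type} [Group Γ] (G : H.GAct Γ) :
    ∃ ρ : Act D.vhs Γ, ∀ g s v, cm (ρ.ρ g s) *ᵥ D.e s v = D.e s (G.u g s v) := by
  set U : Γ → S → ((Fin D.N → ℂ) →ₗ[ℂ] (Fin D.N → ℂ)) := fun g s =>
    (D.e s).toLinearMap ∘ₗ G.u g s ∘ₗ (D.e s).symm.toLinearMap with hU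
  have hUe : ∀ g s v, U g s (D.e s v) = D.e s (G.u g s v) := by
    intro g s v
    simp [hU]
  -- `u g s` is invertible
  have hinv : ∀ g s v, G.u g s (G.u g⁻¹ s v) = v := by
    intro g s v
    rw [← G.mul, mul_inv_cancel, G.one]
  have hF : ∀ g s p v, G.u g s v ∈ H.F s p ↔ v ∈ H.F s p := by
    intro g s p v
    refine ⟨fun h => ?_, G.presF g s p v⟩
    have h1 := G.presF g⁻¹ s p _ h
    have h2 := hinv g⁻¹ s v
    rw [inv_inv] at h2
    rwa [h2] at h1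
  suffices h : ∃ ρ : Act D.vhs Γ, ∀ g s v, cm (ρ.ρ g s) *ᵥ v = U g s v by
    obtain ⟨ρ, hρ⟩ := h
    exact ⟨ρ, fun g s v => by rw [hρ, hUe]⟩
  refine Grp_591.act_of_maps D.vhs Γ U ?_ ?_ ?_ ?_ ?_ ?_
  · intro s v
    obtain ⟨v, rfl⟩ := (D.e s).surjective v
    rw [hUe, G.one]
  · intro g h s v
    obtain ⟨v, rfl⟩ := (D.e s).surjective v
    rw [hUe, hUe, hUe, G.mul]
  · intro g s a
    obtain ⟨v, hv⟩ := (D.e s).surjective (fun i => (a i : ℂ))
    rw [← hv, hUe]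
    exact (D.mem_L_int _).1 (G.int g s v ((D.mem_L_int v).2 ⟨a, hv⟩))
  · intro g z
    obtain ⟨A, hA, hA'⟩ := D.e_τ_near z
    obtain ⟨B, hB, hB'⟩ := G.flat g z
    filter_upwards [inter_mem hA hB] with y hy v
    obtain ⟨v, rfl⟩ := (D.e y).surjective v
    rw [hUe, vhs_P, ← hA' z (mem_of_mem_nhds hA) y hy.1, ← hA' z (mem_of_mem_nhds hA) y hy.1, hUe,
      hB' z (mem_of_mem_nhds hB) y hy.2]
  · intro g s p v hp hv
    obtain ⟨v, rfl⟩ := (D.e s).surjective v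
    rw [hUe, vhs_E, D.Em_iff hp] at *
    refine ⟨G.presF g s p _ hv.1, fun u hu => ?_⟩
    have h1 : u = G.u g s (G.u g⁻¹ s u) := (hinv g s u).symm
    rw [h1, G.presB]
    refine hv.2 _ (G.presF g⁻¹ s _ _ hu)
  · intro g s v u
    obtain ⟨v, rfl⟩ := (D.e s).surjective v
    obtain ⟨u, rfl⟩ := (D.e s).surjective u
    rw [hUe, hUe, vhs_S]
    have h1 := D.sf_e s (G.u g s v) (G.u g s u)
    have h2 := D.sf_e s v u
    rw [G.presB, ← h2] at h1
    exact h1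

/-- Hodge norm of a vector of the top piece -/
lemma hodge_top {s : S} {v : H.W s} (hv : v ∈ H.F s n) :
    (star (D.e s v) ⬝ᵥ hodge n (D.Sm s) (D.Em s) *ᵥ D.e s v).re =
      (-1 : ℝ) ^ n * (H.B s v v).re := by
  have hs : IsHS n (D.Sm s) (D.Em s) := D.vhs.hs s
  have h1 : D.Em s *ᵥ D.e s v = (n : ℂ) • D.e s v := (D.Em_top_iff v).2 hv
  rw [hs.hodge_mulVec_of_eig le_rfl h1, dotProduct_smul]
  have h2 : star (D.e s v) ⬝ᵥ D.Sm s *ᵥ D.e s v = H.B s v v := D.sf_e s v v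
  rw [h2, smul_eq_mul]
  have h3 : ((-1 : ℂ) ^ n) = (((-1 : ℝ) ^ n : ℝ) : ℂ) := by push_cast; rfl
  rw [h3, Complex.re_ofReal_mul]

/-- holomorphy in the frame at `z` -/
lemma holAt_iff (z : S) (c : ∀ s, H.W s) :
    HolAt (lV D.vhs.P (fun s => D.e s (c s)) z) z ↔
      ∀ l : H.W z →ₗ[ℂ] ℂ, HolAt (fun s => l (H.τ z s (c s))) z := by
  obtain ⟨A, hA, hA'⟩ := D.e_τ_near z
  have hev : (lV D.vhs.P (fun s => D.e s (c s)) z) =ᶠ[𝓝 z] fun s => D.e z (H.τ z s (c s)) := by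
    filter_upwards [hA] with s hs
    show cm (D.P z s) *ᵥ D.e s (c s) = _
    rw [hA' z (mem_of_mem_nhds hA) s hs]
  have hev' : (lV D.vhs.P (fun s => D.e s (c s)) z) ∘ (ch z).symm =ᶠ[𝓝 (cp z)]
      (fun s => D.e z (H.τ z s (c s))) ∘ (ch z).symm := by
    filter_upwards [eventually_symm hev] with x hx
    exact hx
  constructor
  · intro h l
    have h1 : AnalyticAt ℂ ((fun s => D.e z (H.τ z s (c s))) ∘ (ch z).symm) (cp z) :=
      AnalyticAt.congr h hev'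
    have h2 := ((LinearMap.toContinuousLinearMap
      (l ∘ₗ (D.e z).symm.toLinearMap)).analyticAt _).comp h1
    refine h2.congr (Filter.Eventually.of_forall fun x => ?_)
    simp
  · intro h
    refine AnalyticAt.congr ?_ hev'.symm
    have h1 : AnalyticAt ℂ (fun x => D.e z (H.τ z ((ch z).symm x) (c ((ch z).symm x)))) (cp z) := by
      rw [analyticAt_pi_iff]
      intro i
      exact h (LinearMap.proj i ∘ₗ (D.e z).toLinearMap)
    exact h1

end Bas

/-- **STEP**: `Loc` implies the one-step theorem -/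
theorem oneStep_of_loc (hloc : Loc) : OneStep := by
  intro m k N w S _ _ _ _ Q V Γ _ ρ R hR
  obtain ⟨⟨H, T, act⟩⟩ := hloc m k N w S Q V
  obtain ⟨D⟩ := H.exists_bas
  obtain ⟨G, hG⟩ := act Γ ρ
  obtain ⟨ρ', hρ'⟩ := D.exists_act G
  -- `R = V.res`
  have hRV : R = fun s => V.res s := by
    funext s
    have h1 := hR s
    have h2 := V.isRes s
    cases hRs : R s with
    | mk P S' E a b c d e =>
      cases hVs : V.res s with
      | mk P₂ S₂ E₂ a₂ b₂ c₂ d₂ e₂ =>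
        rw [hRs] at h1
        rw [hVs] at h2
        obtain ⟨p1, p2, p3⟩ := h1
        obtain ⟨q1, q2, q3⟩ := h2
        simp only at p1 p2 p3 q1 q2 q3
        subst p1 p2 p3 q1 q2 q3
        rfl
  subst hRV
  refine ⟨D.N, D.vhs, ρ', fun s f => D.e s (T.tc s f), ?_, ?_, ?_, ?_, ?_, ?_, ?_, ?_⟩
  · intro s f g hf hg
    beta_reduce
    rw [T.add s f g hf hg, map_add]
  · intro s c f hf
    beta_reduce
    rw [T.smul s c f hf, map_smul]
  · intro s f hf
    exact (D.Em_top_iff _).2 (T.mem s f hf)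
  · intro s v hv
    obtain ⟨v, rfl⟩ := (D.e s).surjective v
    obtain ⟨f, hf, hfv⟩ := T.surj s v ((D.Em_top_iff v).1 hv)
    exact ⟨f, hf, by beta_reduce; rw [hfv]⟩
  · intro s f hf
    exact (D.hodge_top (T.mem s f hf)).trans (T.norm s f hf)
  · intro s g f hf
    beta_reduce
    rw [hρ', ← hG s g f hf]
  · intro s₀ f hf hhol
    rw [D.holAt_iff]
    exact T.hol s₀ f hf hhol
  · intro s₀ v f hv hE hf
    have h1 : ∀ᶠ s in 𝓝 s₀, (V.res s).Top (f s) := hf.mono fun s hs => hs.1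
    refine T.hol' s₀ f h1 ?_
    rw [← D.holAt_iff]
    refine AnalyticAt.congr hv ?_
    filter_upwards [eventually_symm hf] with x hx
    show cm (D.P s₀ ((ch s₀).symm x)) *ᵥ v ((ch s₀).symm x) =
      cm (D.P s₀ ((ch s₀).symm x)) *ᵥ D.e _ (T.tc _ (f _))
    rw [← hx.2]

end Crest.Agent.R276.Step_454
end
end

-- ▼ part R276/LocF_454
section

/-!
# R276, IPC-STEP (helper454): LOC, part F: the end

`loc_of : (∀ V, HolB V) → Loc`, `oneStep_of : (∀ V, HolB V) → OneStep`.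
-/

set_option autoImplicit false
set_option linter.unusedSectionVars false

noncomputable section

open Set Filter Topology MeasureTheory Matrix Metric UniformSpace
open scoped ContDiff ComplexConjugate

namespace Crest.Agent.R276.Step_454

open Crest.Agent.R271.Ho51 Crest.Agent.R276.Ipc735 Crest.Agent.R276.Top3_279
open IpcG1_975 Psi_563 FamA_563 FamB_563 HsB_817 HsC_817 HsE_817 K4b_817 Wcl_175 DR_175 PvO_175
open Nat_591 FamD_563

section

variable {m k N w : ℕ} {S : Type} [TopologicalSpace S] [RDom m S] {Q : Punc S k}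
  (V : Ipc735.VHS (m + 1) (Tot Q) N w)

theorem holA : HolA V := fun _ D f hf hh ζ => TopHolT_175.holA D f hf hh _

/-- the action on `L²` of helper591 -/
def auV {V : Ipc735.VHS (m + 1) (Tot Q) N w} {Γ : Type} [Group Γ] [T2Space S] (ρ : Act V Γ) :
    AU ρ where
  U := actU ρ
  form := actU_form ρ
  ex g s u hu := (actU_ex ρ g s u).2 hu
  zc g s u hu := (actU_zc ρ g s u).2 hu
  ty g s P _ u := actU_ty ρ g s P u
  rep g s u α hu := actU_rep ρ g s hu

/-- LOC for one variation -/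
def locStepV [T2Space S] (hB : HolB V) : LocStep Q V :=
  locStep (topV V (fun _ D => FamE_563.n3 D) (holA V) hB)
    (fun z => FamE_563.exists_triv V z) (fun _ _ ρ => ⟨(auV ρ).actV _ _ _⟩)

end

/-- **LOC from the last holomorphy statement** -/
theorem loc_of (hB : ∀ (m k N w : ℕ) (S : Type) [TopologicalSpace S] [T2Space S]
    [PreconnectedSpace S] [RDom m S] (Q : Punc S k) (V : VHS (m + 1) (Tot Q) N w), HolB V) : Loc :=
  fun m k N w S _ _ _ _ Q V => ⟨locStepV V (hB m k N w S Q V)⟩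


end Crest.Agent.R276.Step_454
end
end

-- ▼ part R276/TopHolD_735
section

/-!
# Row 276, IPC-TOPHOL (helper735), part D: the fields `hol` and `hol'` of 454's `TopPieces`

In 975's completion model, with 591's trivialisation `TV D` and 175's `emb`.
* `uT D f z` : the element `f dx` moved to the fixed Hilbert space; `rep_uT` : its representative;
* `inner_be` : the pairing formula; `hol_field`; `hol'_field`.
-/

set_option autoImplicit false
set_option linter.unusedSectionVars false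

noncomputable section

open Set Filter Topology MeasureTheory Matrix Metric UniformSpace
open scoped ContDiff ComplexConjugate ENNReal

namespace Crest.Agent.R276.TopHolD_735

open Crest.Agent.R271.Ho51 Crest.Agent.R276.Ipc735 Crest.Agent.R276.Top3_279
open IpcG1_975 Psi_563 FamA_563 HsB_817 PvO_175 Nat_591 TopE_175

variable {m : ℕ} {S : Type*} [TopologicalSpace S] [RDom m S] {k N w : ℕ} {Q : Punc S k}
  {V : Ipc735.VHS (m + 1) (Tot Q) N w} {s₀ : S}

/-- the element represented by `f dx` moved to the fixed Hilbert space -/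
def uT (D : LD V s₀) (f : S → ℂ → Fin N → ℂ) (z : Fin m → ℂ) : (pvOf (V.res s₀)).L :=
  TV D z (emb (pvOf (V.res (D.σ z))) (f (D.σ z)))

/-- the form `f dx` moved to the fixed fibre -/
def fF (D : LD V s₀) (f : S → ℂ → Fin N → ℂ) (z : Fin m → ℂ) (x : ℂ) :
    (Fin N → ℂ) × (Fin N → ℂ) :=
  (D.Bm.P (D.b z) x • D.fT f z x, D.Bm.Q (D.b z) x • D.fT f z x)

lemma fF_eq (D : LD V s₀) (f : S → ℂ → Fin N → ℂ) (z : Fin m → ℂ) :
    pb (Kf (D.Ψ z) (Kv D z)) (D.Ψ z) (fx (f (D.σ z))) = fF D f z := by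
  funext x
  have h1 : Kv D z x 0 = 0 := map_zero _
  have h2 : Kv D z x (f (D.σ z) (D.Ψ z x)) = D.fT f z x := rfl
  show Kf (D.Ψ z) (Kv D z) x (f (D.σ z) (D.Ψ z x), 0) = _
  rw [Kf_apply, h1, h2]
  simp only [Psi_563.pull, smul_zero, add_zero]
  rfl

variable {D : LD V s₀}

theorem rep_uT {f : S → ℂ → Fin N → ℂ} {z : Fin m → ℂ} (hz : z ∈ hU D)
    (hf : (V.res (D.σ z)).Top (f (D.σ z))) :
    RepC_201.Rep (pvOf (V.res s₀)).mb.dbl (uT D f z) (fF D f z) := by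
  have h1 : RepC_201.Rep (pvOf (V.res (D.σ z))).mb.dbl (emb (pvOf (V.res (D.σ z))) (f (D.σ z)))
      (fx (f (D.σ z))) := (Top.topS hf).rep
  have h2 := RepC_201.Rep.T (psiV D hz).psiM.mmor h1
  have h3 : (psiV D hz).psiM.mmor.T (emb (pvOf (V.res (D.σ z))) (f (D.σ z))) = uT D f z :=
    (TV_of hz _).symm
  rw [h3] at h2
  have h4 : pb (Kf (D.Bm.psi (D.b z)) (Kv D z)) (D.Bm.psi (D.b z)) (fx (f (D.σ z))) = fF D f z :=
    fF_eq D f z
  rw [← h4]
  exact h2

/-- **the pairing formula** -/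
theorem inner_be {u : (pvOf (V.res s₀)).L} {φ : ℂ → (Fin N → ℂ) × (Fin N → ℂ)}
    (h : RepC_201.Rep (pvOf (V.res s₀)).mb.dbl u φ) (ζ : (pvOf (V.res s₀)).mb.dbl.H0) :
    inner ℂ ((pvOf (V.res s₀)).be (ζ : (pvOf (V.res s₀)).L)) u =
      ∫ x, (star (ζ.f x).2 ⬝ᵥ (V.res s₀).S x *ᵥ (φ x).2 -
        star (ζ.f x).1 ⬝ᵥ (V.res s₀).S x *ᵥ (φ x).1) := by
  have h1 : (pvOf (V.res s₀)).be (ζ : (pvOf (V.res s₀)).L) =
      (((pvOf (V.res s₀)).mb.dbl.s0 (fun z => (pvOf (V.res s₀)).bt z (ζ.f z))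
        (FB.app_mem_A0 (pvOf (V.res s₀)).ok_bt.1 ζ.mem) : (pvOf (V.res s₀)).mb.dbl.H0) :
        (pvOf (V.res s₀)).L) := (pvOf (V.res s₀)).mb.dbl.op_coe (pvOf (V.res s₀)).ok_bt ζ
  rw [h1, h.2]
  refine integral_congr_ae (Eventually.of_forall fun x => ?_)
  simp only [MB.s0_f]
  by_cases hx : x ∈ ((Q.A s₀ : Set ℂ)ᶜ)
  · rw [PsiP.G_bt _ hx]
    rw [pvOf_S, pvOf_S]
  · have h0 : ζ.f x = 0 := (pvOf (V.res s₀)).mb.dbl.f_eq_zero ζ hx
    rw [h0]
    simp


/-- a property near `s₀` in the coordinates -/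
lemma ev_σ {p : S → Prop} (D : LD V s₀) (h : ∀ᶠ s in 𝓝 s₀, p s) :
    ∀ᶠ z in 𝓝 (cp s₀ : Fin m → ℂ), p (D.σ z) := (ch_symm_tendsto s₀).eventually h








/-! ### the field `hol'` -/

open scoped ComplexOrder in
/-- the flat form is nondegenerate -/
lemma isUnit_S {N w : ℕ} {S E : Matrix (Fin N) (Fin N) ℂ} (h : IsHS w S E) : IsUnit S.det := by
  have h1 : IsUnit (hodge w S E).det := (Matrix.isUnit_iff_isUnit_det _).1 h.hodge_posDef.isUnit
  have h2 : (hodge w S E).det = S.det * (weil w E).det := by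
    unfold hodge; rw [Matrix.det_mul]
  rw [h2] at h1
  exact isUnit_of_mul_isUnit_left h1

lemma psi_eq_nhds (B : Bumps k) (b : Fin k → ℂ) {x : ℂ} (hx : x ∉ B.K) :
    B.psi b =ᶠ[𝓝 x] fun y => y := by
  filter_upwards [B.isCompact_K.isClosed.isOpen_compl.mem_nhds hx] with y hy
  exact B.psi_eq_off hy b

lemma P_eq_one (B : Bumps k) (b : Fin k → ℂ) {x : ℂ} (hx : x ∉ B.K) : B.P b x = 1 := by
  have h1 : B.P b x = VCalc_442.dW (fun y : ℂ => y) 1 x :=
    VCalc_442.dW_congr (psi_eq_nhds B b hx) 1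
  rw [h1, dW_id_one]

/-- near a point outside the bumps the trivialisation is the identity -/
lemma tk_eq (D : LD V s₀) {x₁ : ℂ} (hx₁ : x₁ ∉ Q.A s₀) {z : Fin m → ℂ} {x : ℂ} (hz : z ∈ D.U)
    (hx : x ∉ Q.A s₀) (hK : x ∉ D.Bm.K) :
    tk Q (Tot.mk Q s₀ x₁ hx₁) (z, x) = (D.pt z x hz hx).1 := by
  have h1 : D.Ψ z x = x := D.Bm.psi_eq_off hK _
  have h2 : x ∉ Q.A (D.σ z) := by
    have := LD.Ψ_notMem hz hx
    rwa [h1] at this
  have h3 : ((z, x) : (Fin m → ℂ) × ℂ).2 ∉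
      Q.A ((ch (Tot.mk Q s₀ x₁ hx₁).1.1).symm ((z, x) : (Fin m → ℂ) × ℂ).1) := h2
  rw [tk_of h3]
  exact Tot.ext' rfl h1.symm

/-- the section in the frame at `(s₀, x₁)` -/
def Fz (V : Ipc735.VHS (m + 1) (Tot Q) N w) (f : S → ℂ → Fin N → ℂ) (q₁ : Tot Q)
    (z : Fin m → ℂ) (x : ℂ) : Fin N → ℂ := lV V.P (sec f) q₁ (tk Q q₁ (z, x))

/-- good neighbourhoods for `hol'` -/
structure Gd (D : LD V s₀) (f : S → ℂ → Fin N → ℂ) {x₁ : ℂ} (hx₁ : x₁ ∉ Q.A s₀)
    (U₁ : Set (Fin m → ℂ)) (D₁ : Set ℂ) (C : ℝ) : Prop where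
  opU : IsOpen U₁
  opD : IsOpen D₁
  cU : cp s₀ ∈ U₁
  cD : x₁ ∈ D₁
  hu : U₁ ⊆ hU D
  df : ∀ z ∈ U₁, DifferentiableAt ℂ (uT D f) z
  top : ∀ z ∈ U₁, (V.res (D.σ z)).Top (f (D.σ z))
  nA : ∀ x ∈ D₁, x ∉ Q.A s₀
  nK : ∀ x ∈ D₁, x ∉ D.Bm.K
  eq : ∀ z ∈ U₁, ∀ x ∈ D₁,
    Fz V f (Tot.mk Q s₀ x₁ hx₁) z x = cm (rP Q V.P s₀ x₁ x) *ᵥ D.fT f z x
  hol : ∀ z ∈ U₁, ∀ x ∈ D₁, DifferentiableAt ℂ (Fz V f (Tot.mk Q s₀ x₁ hx₁) z) x
  ndc : ∀ x ∈ D₁, ∀ y ∈ D₁, (V.res s₀).P x₁ x * (V.res s₀).P x y = (V.res s₀).P x₁ y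
  flS : ∀ x ∈ D₁, (V.res s₀).S x = (cm ((V.res s₀).P x₁ x))ᴴ * (V.res s₀).S x₁ *
    cm ((V.res s₀).P x₁ x)
  C0 : 0 < C
  bd : ∀ x ∈ D₁, ∀ u : Fin N → ℂ, ‖cm (rP Q V.P s₀ x₁ x) *ᵥ u‖ ^ 2 ≤
    C * ((pvOf (V.res s₀)).Gf x u u).re

theorem exists_Gd (D : LD V s₀) {x₁ : ℂ} (hx₁ : x₁ ∉ Q.A s₀) (hK : x₁ ∉ D.Bm.K)
    {f : S → ℂ → Fin N → ℂ} (hf : ∀ᶠ s in 𝓝 s₀, (V.res s).Top (f s))
    (hd : ∀ᶠ z in 𝓝 (cp s₀), DifferentiableAt ℂ (uT D f) z) :
    ∃ U₁ D₁ C, Gd D f hx₁ U₁ D₁ C := by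
  set q₁ : Tot Q := Tot.mk Q s₀ x₁ hx₁ with hq₁
  have hxX : x₁ ∈ ((Q.A s₀ : Set ℂ)ᶜ) := hx₁
  obtain ⟨W, hW, hPW⟩ := V.ndc q₁
  obtain ⟨Wf, hWf, hfr⟩ := LD.frame_nhds (D := D) D.center_mem hx₁
  obtain ⟨C, hC, hbd⟩ := (pvOf (V.res s₀)).bd hxX
  obtain ⟨Wn, hWn, hPn⟩ := (V.res s₀).ndc x₁ hxX
  have e1 : ∀ᶠ z in 𝓝 (cp s₀ : Fin m → ℂ), z ∈ hU D ∧ DifferentiableAt ℂ (uT D f) z ∧
      (V.res (D.σ z)).Top (f (D.σ z)) := by
    filter_upwards [(isOpen_hU D).mem_nhds (mem_hU D), hd, ev_σ D hf] with z h1 h2 h3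
    exact ⟨h1, h2, h3⟩
  have e2 : ∀ᶠ x in 𝓝 x₁, (x ∉ Q.A s₀ ∧ x ∉ D.Bm.K) ∧ x ∈ Wn ∧
      (V.res s₀).S x = (cm ((V.res s₀).P x₁ x))ᴴ * (V.res s₀).S x₁ * cm ((V.res s₀).P x₁ x) ∧
      ∀ u : Fin N → ℂ, ‖(pvOf (V.res s₀)).P x₁ x u‖ ^ 2 ≤
        C * ((pvOf (V.res s₀)).Gf x u u).re := by
    filter_upwards [eventually_notMem _ hx₁, D.Bm.isCompact_K.isClosed.isOpen_compl.mem_nhds hK,
      hWn, (V.res s₀).flatS x₁ hx₁, hbd] with x h1 h2 h3 h4 h5
    exact ⟨⟨h1, h2⟩, h3, h4, fun u => (h5 u).1⟩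
  have e3 : ∀ᶠ p in 𝓝 ((cp s₀, x₁) : (Fin m → ℂ) × ℂ), tk Q q₁ p ∈ W ∧ p ∈ Wf :=
    ((tk_tendsto Q q₁).eventually_mem hW).and hWf
  have e4 : ∀ᶠ p in 𝓝 ((cp s₀, x₁) : (Fin m → ℂ) × ℂ), (p.1 ∈ hU D ∧
      DifferentiableAt ℂ (uT D f) p.1 ∧ (V.res (D.σ p.1)).Top (f (D.σ p.1))) ∧
      ((p.2 ∉ Q.A s₀ ∧ p.2 ∉ D.Bm.K) ∧ p.2 ∈ Wn ∧
      (V.res s₀).S p.2 = (cm ((V.res s₀).P x₁ p.2))ᴴ * (V.res s₀).S x₁ *
        cm ((V.res s₀).P x₁ p.2) ∧
      ∀ u : Fin N → ℂ, ‖(pvOf (V.res s₀)).P x₁ p.2 u‖ ^ 2 ≤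
        C * ((pvOf (V.res s₀)).Gf p.2 u u).re) ∧ (tk Q q₁ p ∈ W ∧ p ∈ Wf) :=
    ((continuous_fst.tendsto ((cp s₀, x₁) : (Fin m → ℂ) × ℂ)).eventually e1).and
      (((continuous_snd.tendsto ((cp s₀, x₁) : (Fin m → ℂ) × ℂ)).eventually e2).and e3)
  rw [nhds_prod_eq] at e4
  obtain ⟨pU, hpU, pD, hpD, hall⟩ := eventually_prod_iff.1 e4
  obtain ⟨U₁, hU₁, hopU, hcU⟩ := _root_.eventually_nhds_iff.1 hpU
  obtain ⟨D₁, hD₁, hopD, hcD⟩ := _root_.eventually_nhds_iff.1 hpD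
  have key : ∀ z ∈ U₁, ∀ x ∈ D₁, _ := fun z hz x hx => hall (hU₁ z hz) (hD₁ x hx)
  have hnA : ∀ x ∈ D₁, x ∉ Q.A s₀ := fun x hx => (key _ hcU x hx).2.1.1.1
  have hnK : ∀ x ∈ D₁, x ∉ D.Bm.K := fun x hx => (key _ hcU x hx).2.1.1.2
  have hUU : ∀ z ∈ U₁, z ∈ hU D := fun z hz => (key z hz _ hcD).1.1
  have hUD : ∀ z ∈ U₁, z ∈ D.U := fun z hz => half_sub D (hUU z hz)
  refine ⟨U₁, D₁, C, hopU, hopD, hcU, hcD, hUU, fun z hz => (key z hz _ hcD).1.2.1,
    fun z hz => (key z hz _ hcD).1.2.2, hnA, hnK, ?_, ?_, ?_, ?_, hC, ?_⟩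
  · -- the formula in terms of `fT`
    intro z hz x hx
    have h1 := hfr (cp s₀, x₁) (mem_of_mem_nhds hWf) (z, x) (key z hz x hx).2.2.2
      D.center_mem hx₁ (hUD z hz) (hnA x hx)
    simp only at h1
    have h2 : (D.pt (cp s₀) x₁ D.center_mem hx₁).1 = q₁ := by
      rw [D.pt_center hx₁]; rfl
    rw [h2, D.G_center, one_mul] at h1
    unfold Fz
    rw [tk_eq D hx₁ (hUD z hz) (hnA x hx) (hnK x hx), lV, h1, cm_mul]
    show _ = cm (rP Q V.P s₀ x₁ x) *ᵥ D.fT f z x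
    rw [← Matrix.mulVec_mulVec]
    rfl
  · -- holomorphy in the fibre
    intro z hz x hx
    have hxz : x ∉ Q.A (D.σ z) := by
      have h3 := LD.Ψ_notMem (hUD z hz) (hnA x hx)
      have h4 : D.Ψ z x = x := D.Bm.psi_eq_off (hnK x hx) _
      rwa [h4] at h3
    have h5 := (key z hz x hx).1.2.2.hol x hxz
    have h6 : Fz V f q₁ z =ᶠ[𝓝 x] fun y =>
        cm (V.P q₁ (tk Q q₁ (z, x))) *ᵥ lV (V.res (D.σ z)).P (f (D.σ z)) x y := by
      filter_upwards [hopD.mem_nhds hx, eventually_notMem _ hxz] with y hy hyz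
      have h7 := hPW q₁ (mem_of_mem_nhds hW) _ (key z hz x hx).2.2.1 _ (key z hz y hy).2.2.1
      have t1 : ((z, x) : (Fin m → ℂ) × ℂ).2 ∉
        Q.A ((ch q₁.1.1).symm ((z, x) : (Fin m → ℂ) × ℂ).1) := hxz
      have t2 : ((z, y) : (Fin m → ℂ) × ℂ).2 ∉
        Q.A ((ch q₁.1.1).symm ((z, y) : (Fin m → ℂ) × ℂ).1) := hyz
      have t3 : tk Q q₁ (z, x) = Tot.mk Q (D.σ z) x hxz := tk_of t1
      have t4 : tk Q q₁ (z, y) = Tot.mk Q (D.σ z) y hyz := tk_of t2
      unfold Fz lV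
      rw [← h7, cm_mul, (V.isRes (D.σ z)).P, rP_of V.P hxz hyz, t3, t4, Matrix.mulVec_mulVec]
      rfl
    refine DifferentiableAt.congr_of_eventuallyEq ?_ h6
    exact ((Matrix.mulVecLin (cm (V.P q₁ (tk Q q₁ (z, x))))).toContinuousLinearMap).differentiableAt.comp
      x h5.differentiableAt
  · intro x hx y hy
    exact hPn x₁ (mem_of_mem_nhds hWn) x (key _ hcU x hx).2.1.2.1 y (key _ hcU y hy).2.1.2.1
  · intro x hx
    exact (key _ hcU x hx).2.1.2.2.1
  · intro x hx u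
    have h1 := (key _ hcU x hx).2.1.2.2.2 u
    rw [pvOf_P, (V.isRes s₀).P] at h1
    exact h1


section test

variable {A : Finset ℂ} (R : PVHS A N w)

/-- the test section -/
def tst (x₁ : ℂ) (v₀ : Fin N → ℂ) (ζ : ℂ → ℂ) (x : ℂ) : Fin N → ℂ :=
  conj (ζ x) • (cm (R.P x₁ x)⁻¹ *ᵥ v₀)

theorem sm_tst {x₁ : ℂ} {D₁ : Set ℂ} (hD₁ : IsOpen D₁)
    (hP : ∀ x ∈ D₁, ∀ y ∈ D₁, R.P x₁ x * R.P x y = R.P x₁ y) (v₀ : Fin N → ℂ) {ζ : ℂ → ℂ}
    (hζ : ContDiff ℝ ∞ ζ) (hs : tsupport ζ ⊆ D₁) : R.Sm (tst R x₁ v₀ ζ) := by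
  intro z hz
  by_cases hzs : z ∈ tsupport ζ
  · have hzD := hs hzs
    have h1 : lV R.P (tst R x₁ v₀ ζ) z =ᶠ[𝓝 z] fun y => conj (ζ y) • (cm (R.P x₁ z)⁻¹ *ᵥ v₀) := by
      filter_upwards [hD₁.mem_nhds hzD] with y hy
      unfold lV tst
      rw [Matrix.mulVec_smul, Matrix.mulVec_mulVec, ← cm_mul, ← hP z hzD y hy]
      congr 4
      group
    refine ContDiffAt.congr_of_eventuallyEq ?_ h1
    exact ((Complex.conjCLE.contDiff.comp hζ).contDiffAt).smul contDiffAt_const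
  · have h1 : lV R.P (tst R x₁ v₀ ζ) z =ᶠ[𝓝 z] fun _ => 0 := by
      filter_upwards [(isClosed_tsupport ζ).isOpen_compl.mem_nhds hzs] with y hy
      have h2 : ζ y = 0 := image_eq_zero_of_notMem_tsupport hy
      unfold lV tst
      rw [h2]; simp
    exact contDiffAt_const.congr_of_eventuallyEq h1

theorem tst_pair {x₁ x : ℂ} (hS : R.S x = (cm (R.P x₁ x))ᴴ * R.S x₁ * cm (R.P x₁ x))
    (v₀ v : Fin N → ℂ) (ζ : ℂ → ℂ) :
    star (tst R x₁ v₀ ζ x) ⬝ᵥ R.S x *ᵥ v =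
      ζ x * (star v₀ ⬝ᵥ R.S x₁ *ᵥ (cm (R.P x₁ x) *ᵥ v)) := by
  unfold tst
  rw [hS, star_smul, smul_dotProduct, ← cm_star_dot, Matrix.mulVec_mulVec, cm_mul_cm_inv,
    Matrix.one_mulVec]
  simp

theorem coord_of_S {x₁ : ℂ} (hx₁ : x₁ ∉ A) (i : Fin N) (u : Fin N → ℂ) :
    star ((R.S x₁)⁻¹ *ᵥ Pi.single i 1) ⬝ᵥ R.S x₁ *ᵥ u = u i := by
  have h1 := isUnit_S (R.hs x₁ hx₁)
  have h2 := (R.hs x₁ hx₁).herm
  rw [Matrix.star_mulVec, ← Matrix.dotProduct_mulVec, Matrix.mulVec_mulVec,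
    Matrix.conjTranspose_nonsing_inv, h2.eq, Matrix.nonsing_inv_mul _ h1, Matrix.one_mulVec]
  have h3 : star (Pi.single i 1 : Fin N → ℂ) = Pi.single i 1 := by
    rw [Pi.star_single]; simp
  rw [h3, single_dotProduct, one_mul]

end test

variable {f : S → ℂ → Fin N → ℂ} {x₁ : ℂ} {hx₁ : x₁ ∉ Q.A s₀} {U₁ : Set (Fin m → ℂ)}
  {D₁ : Set ℂ} {C : ℝ}

/-- weak holomorphy in the base -/
theorem Gd.weak (g : Gd D f hx₁ U₁ D₁ C) {ζ : ℂ → ℂ} (hζ : ContDiff ℝ ∞ ζ)
    (hc : HasCompactSupport ζ) (hs : tsupport ζ ⊆ D₁) (i : Fin N) :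
    DifferentiableOn ℂ (fun c => ∫ x, ζ x * Fz V f (Tot.mk Q s₀ x₁ hx₁) c x i) U₁ := by
  set R := V.res s₀ with hR
  set v₀ : Fin N → ℂ := (R.S x₁)⁻¹ *ᵥ Pi.single i 1 with hv₀
  have hsm : R.Sm (tst R x₁ v₀ ζ) := sm_tst R g.opD g.ndc v₀ hζ hs
  have h0 : ∀ x ∉ tsupport ζ, tst R x₁ v₀ ζ x = 0 := by
    intro x hx
    have h2 : ζ x = 0 := image_eq_zero_of_notMem_tsupport hx
    unfold tst
    rw [h2]; simp
  have hmem : (fun x => ((tst R x₁ v₀ ζ x, 0) : (Fin N → ℂ) × (Fin N → ℂ))) ∈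
      (pvOf R).mb.dbl.A0 := by
    refine ⟨FB.sm_dbl.2 ⟨(sm_iff R _).2 hsm, sm_zero _⟩, tsupport ζ, ?_, hc, fun x hx => ?_⟩
    · intro x hx
      exact fun h => g.nA x (hs hx) h
    · show (tst R x₁ v₀ ζ x, (0 : Fin N → ℂ)) = 0
      rw [h0 x hx]; rfl
  set η : (pvOf R).mb.dbl.H0 := (pvOf R).mb.dbl.s0 _ hmem with hη
  have key : ∀ c ∈ U₁, (∫ x, ζ x * Fz V f (Tot.mk Q s₀ x₁ hx₁) c x i) =
      - inner ℂ ((pvOf R).be (η : (pvOf R).L)) (uT D f c) := by
    intro c hcU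
    rw [inner_be (rep_uT (g.hu hcU) (g.top c hcU)) η, ← integral_neg]
    refine integral_congr_ae (Eventually.of_forall fun x => ?_)
    have e1 : η.f x = (tst R x₁ v₀ ζ x, 0) := rfl
    simp only [e1]
    by_cases hx : x ∈ D₁
    · have e2 : (fF D f c x).1 = D.fT f c x := by
        show D.Bm.P (D.b c) x • D.fT f c x = _
        rw [P_eq_one _ _ (g.nK x hx), one_smul]
      rw [e2, tst_pair R (g.flS x hx), hv₀, coord_of_S R hx₁ i, g.eq c hcU x hx,
        (V.isRes s₀).P]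
      simp
    · have h2 : ζ x = 0 := image_eq_zero_of_notMem_tsupport fun h => hx (hs h)
      rw [h0 x fun h => hx (hs h), h2]
      simp
  have hdiff : DifferentiableOn ℂ
      (fun c => - inner ℂ ((pvOf R).be (η : (pvOf R).L)) (uT D f c)) U₁ := by
    intro c hcU
    have h3 : DifferentiableAt ℂ
        (fun c => (innerSL ℂ ((pvOf R).be (η : (pvOf R).L))) (uT D f c)) c :=
      (innerSL ℂ ((pvOf R).be (η : (pvOf R).L))).differentiableAt.comp c (g.df c hcU)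
    exact h3.neg.differentiableWithinAt
  exact hdiff.congr key

/-- local `L²` bound -/
theorem Gd.bound (g : Gd D f hx₁ U₁ D₁ C) {c₀ : Fin m → ℂ} (hc₀ : c₀ ∈ U₁) {K : Set ℂ}
    (hKD : K ⊆ D₁) (hK : IsCompact K) (i : Fin N) :
    ∃ C' : ℝ≥0∞, C' < ⊤ ∧ ∀ᶠ c in 𝓝 c₀, ∫⁻ x in K, ‖Fz V f (Tot.mk Q s₀ x₁ hx₁) c x i‖ₑ ^ 2 ≤ C' := by
  have key : ∀ c ∈ U₁, ∫⁻ x in K, ‖Fz V f (Tot.mk Q s₀ x₁ hx₁) c x i‖ₑ ^ 2 ≤
      ENNReal.ofReal (C * ‖uT D f c‖ ^ 2) := by
    intro c hcU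
    have hrep := rep_uT (g.hu hcU) (g.top c hcU)
    have hint := hrep.integrableOn
    have hX : IsOpen ((Q.A s₀ : Set ℂ)ᶜ) := (pvOf (V.res s₀)).op
    have hpt : ∀ x ∈ K, ‖Fz V f (Tot.mk Q s₀ x₁ hx₁) c x i‖ₑ ^ 2 ≤ ENNReal.ofReal
        (C * ((pvOf (V.res s₀)).mb.dbl.G x (fF D f c x) (fF D f c x)).re) := by
      intro x hx
      have hxD := hKD hx
      have hxX : x ∈ ((Q.A s₀ : Set ℂ)ᶜ) := g.nA x hxD
      have h1 : ‖Fz V f (Tot.mk Q s₀ x₁ hx₁) c x i‖ ≤ ‖Fz V f (Tot.mk Q s₀ x₁ hx₁) c x‖ := norm_le_pi_norm _ i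
      have h2 := g.bd x hxD (D.fT f c x)
      rw [← g.eq c hcU x hxD] at h2
      have h3 : ((pvOf (V.res s₀)).Gf x (D.fT f c x) (D.fT f c x)).re ≤
          ((pvOf (V.res s₀)).mb.dbl.G x (fF D f c x) (fF D f c x)).re := by
        have e2 : (fF D f c x).1 = D.fT f c x := by
          show D.Bm.P (D.b c) x • D.fT f c x = _
          rw [P_eq_one _ _ (g.nK x hxD), one_smul]
        have e3 : (pvOf (V.res s₀)).mb.dbl.G x (fF D f c x) (fF D f c x) =
            (pvOf (V.res s₀)).Gf x (D.fT f c x) (D.fT f c x) +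
            (pvOf (V.res s₀)).Gf x (fF D f c x).2 (fF D f c x).2 := by
          rw [← e2]
          rfl
        rw [e3, Complex.add_re]
        have h4 : 0 ≤ ((pvOf (V.res s₀)).Gf x (fF D f c x).2 (fF D f c x).2).re :=
          (pvOf (V.res s₀)).mb.G_nonneg hxX _
        linarith
      have h5 : ‖Fz V f (Tot.mk Q s₀ x₁ hx₁) c x i‖ ^ 2 ≤
          C * ((pvOf (V.res s₀)).mb.dbl.G x (fF D f c x) (fF D f c x)).re := by
        calc ‖Fz V f (Tot.mk Q s₀ x₁ hx₁) c x i‖ ^ 2 ≤ ‖Fz V f (Tot.mk Q s₀ x₁ hx₁) c x‖ ^ 2 :=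
              pow_le_pow_left₀ (norm_nonneg _) h1 2
          _ ≤ C * ((pvOf (V.res s₀)).Gf x (D.fT f c x) (D.fT f c x)).re := h2
          _ ≤ _ := mul_le_mul_of_nonneg_left h3 g.C0.le
      rw [← ofReal_norm, ← ENNReal.ofReal_pow (norm_nonneg _)]
      exact ENNReal.ofReal_le_ofReal h5
    calc ∫⁻ x in K, ‖Fz V f (Tot.mk Q s₀ x₁ hx₁) c x i‖ₑ ^ 2
        ≤ ∫⁻ x in K, ENNReal.ofReal
          (C * ((pvOf (V.res s₀)).mb.dbl.G x (fF D f c x) (fF D f c x)).re) :=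
          setLIntegral_mono' hK.measurableSet hpt
      _ ≤ ∫⁻ x in ((Q.A s₀ : Set ℂ)ᶜ), ENNReal.ofReal
          (C * ((pvOf (V.res s₀)).mb.dbl.G x (fF D f c x) (fF D f c x)).re) :=
          lintegral_mono_set fun x hx => g.nA x (hKD hx)
      _ = ENNReal.ofReal (∫ x in ((Q.A s₀ : Set ℂ)ᶜ),
          C * ((pvOf (V.res s₀)).mb.dbl.G x (fF D f c x) (fF D f c x)).re) := by
          rw [ofReal_integral_eq_lintegral_ofReal (hint.const_mul C)]
          refine (ae_restrict_iff' hX.measurableSet).2 (Eventually.of_forall fun x hx => ?_)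
          exact mul_nonneg g.C0.le ((pvOf (V.res s₀)).mb.dbl.G_nonneg hx _)
      _ = ENNReal.ofReal (C * ‖uT D f c‖ ^ 2) := by
          rw [integral_const_mul, hrep.norm_sq]
  refine ⟨ENNReal.ofReal (C * (‖uT D f c₀‖ + 1) ^ 2), ENNReal.ofReal_lt_top, ?_⟩
  have h1 : ContinuousAt (uT D f) c₀ := (g.df c₀ hc₀).continuousAt
  have h2 : ∀ᶠ c in 𝓝 c₀, ‖uT D f c‖ < ‖uT D f c₀‖ + 1 :=
    h1.norm.eventually_lt continuousAt_const (by simp)
  filter_upwards [h2, g.opU.mem_nhds hc₀] with c hc hcU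
  refine (key c hcU).trans (ENNReal.ofReal_le_ofReal ?_)
  exact mul_le_mul_of_nonneg_left (pow_le_pow_left₀ (norm_nonneg _) hc.le 2) g.C0.le

/-- **the field `hol'`** -/
theorem hol'_field (D : LD V s₀) {x₁ : ℂ} (hx₁ : x₁ ∉ Q.A s₀) (hK : x₁ ∉ D.Bm.K)
    {f : S → ℂ → Fin N → ℂ} (hf : ∀ᶠ s in 𝓝 s₀, (V.res s).Top (f s))
    (hd : ∀ᶠ z in 𝓝 (cp s₀), DifferentiableAt ℂ (uT D f) z) :
    HolAt (lV V.P (sec f) (Tot.mk Q s₀ x₁ hx₁)) (Tot.mk Q s₀ x₁ hx₁) := by
  obtain ⟨U₁, D₁, C, g⟩ := exists_Gd D hx₁ hK hf hd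
  refine holAt_of_weak V.P f (Tot.mk Q s₀ x₁ hx₁) g.opU g.cU g.opD g.cD ?_ ?_ ?_
  · intro c hc i x hx
    exact (differentiableAt_pi.1 (g.hol c hc x hx) i).differentiableWithinAt
  · intro ζ h1 h2 h3 i
    exact g.weak h1 h2 h3 i
  · intro c₀ hc₀ K hKD hKc i
    exact g.bound hc₀ hKD hKc i

end Crest.Agent.R276.TopHolD_735
end
end

-- ▼ part R276/LocH_454

/-!
# R276, IPC-STEP (helper454): `loc : Loc` and `oneStep : OneStep`

The theorem of the fixed part of a relative intersection cohomology: for a polarised variation over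
a family of punctured planes the parabolic cohomology of the fibres is a polarised variation, with
the `L²` top pieces.
-/

set_option autoImplicit false

noncomputable section

open Set Filter Topology MeasureTheory Matrix Metric
open scoped ContDiff ComplexConjugate

namespace Crest.Agent.R276.Step_454

open Crest.Agent.R271.Ho51 Crest.Agent.R276.Ipc735

theorem holB {m k N w : ℕ} {S : Type} [TopologicalSpace S] [RDom m S] {Q : Punc S k}
    (V : Ipc735.VHS (m + 1) (Tot Q) N w) : HolB V :=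
  fun _ D _ _ hx hK hf hd => TopHolD_735.hol'_field D hx hK hf hd

/-- **LOC** -/
theorem loc : Loc := loc_of fun _ _ _ _ _ _ _ _ _ _ V => holB V

/-- **the one dimensional step** -/
theorem oneStep : OneStep := oneStep_of_loc loc

end Crest.Agent.R276.Step_454
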