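import Crest.Agent.R276.VCalcF_442

/-!
# R276, leaf VCalc (helper442): flat sections of a polarised VHS, norms

* `hn w S P u x = |u|²` (Hodge norm of the flat section `u`):
  `VHS.curv_hn` (`log |u|²` is psh), `VHS.growth_hn` (`|∂_v |u|²| ≤ 2 √g_v |u|²`).
* `tc w S P p u x = |P_p u|²`: `VHS.curv_tc` if `P_{p+1} u = 0`.
-/

set_option autoImplicit false
set_option linter.unusedSectionVars false

open Set Filter Topology Matrix Finset InnerProductSpace Laplacian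
open scoped ContDiff ComplexConjugate ComplexOrder

namespace Crest.Agent.R276.VCalc_442

variable {X : Type*} [NormedAddCommGroup X] [NormedSpace ℂ X]
variable {ι : Type*} [Fintype ι] [DecidableEq ι]

section vec

/-- the sesquilinear form `uᴴ M v` -/
noncomputable def sf (M : Matrix ι ι ℂ) (u v : ι → ℂ) : ℂ := star u ⬝ᵥ (M *ᵥ v)

/-- `∑ |u_i|²` -/
noncomputable def n2 (u : ι → ℂ) : ℝ := ∑ i, ‖u i‖ ^ 2

theorem n2_nonneg (u : ι → ℂ) : 0 ≤ n2 u := Finset.sum_nonneg fun _ _ => by positivity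

theorem n2_eq_zero {u : ι → ℂ} (h : n2 u = 0) : u = 0 := by
  funext i
  have h1 := (Finset.sum_eq_zero_iff_of_nonneg (fun i _ => by positivity)).1 h i (Finset.mem_univ i)
  simpa using h1

theorem star_dot_self (u : ι → ℂ) : star u ⬝ᵥ u = (n2 u : ℂ) := by
  unfold n2 dotProduct
  push_cast
  refine Finset.sum_congr rfl fun i _ => ?_
  rw [Pi.star_apply, Complex.star_def, mul_comm, Complex.mul_conj, Complex.normSq_eq_norm_sq]
  push_cast
  ring

theorem dot_cs (u v : ι → ℂ) : ‖star u ⬝ᵥ v‖ ^ 2 ≤ n2 u * n2 v := by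
  have h1 : ‖star u ⬝ᵥ v‖ ≤ ∑ i, ‖u i‖ * ‖v i‖ := by
    unfold dotProduct
    refine (norm_sum_le _ _).trans (Finset.sum_le_sum fun i _ => ?_)
    simp
  exact (pow_le_pow_left₀ (norm_nonneg _) h1 2).trans (Finset.sum_mul_sq_le_sq_mul_sq _ _ _)

theorem n2_mulVec (A : Matrix ι ι ℂ) (u : ι → ℂ) : n2 (A *ᵥ u) ≤ hs A * n2 u := by
  unfold n2 hs
  rw [Finset.sum_mul]
  refine Finset.sum_le_sum fun i _ => ?_
  have h1 : ‖(A *ᵥ u) i‖ ≤ ∑ j, ‖A i j‖ * ‖u j‖ := by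
    unfold mulVec dotProduct
    refine (norm_sum_le _ _).trans (Finset.sum_le_sum fun j _ => ?_)
    simp
  exact (pow_le_pow_left₀ (norm_nonneg _) h1 2).trans (Finset.sum_mul_sq_le_sq_mul_sq _ _ _)

theorem sf_sqrt (B : Matrix ι ι ℂ) (u v : ι → ℂ) :
    sf (Bᴴ * B) u v = star (B *ᵥ u) ⬝ᵥ (B *ᵥ v) := by
  unfold sf
  rw [Matrix.star_mulVec, ← Matrix.mulVec_mulVec, Matrix.dotProduct_mulVec]

variable {K : Matrix ι ι ℂ}

theorem sf_self_real (hK : K.PosDef) (u : ι → ℂ) : sf K u u = ((sf K u u).re : ℂ) := by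
  obtain ⟨B, hB, hKB⟩ := exists_sqrt hK
  rw [hKB, sf_sqrt, star_dot_self]
  simp

theorem sf_self_nonneg (hK : K.PosDef) (u : ι → ℂ) : 0 ≤ (sf K u u).re := by
  obtain ⟨B, hB, hKB⟩ := exists_sqrt hK
  rw [hKB, sf_sqrt, star_dot_self]
  simpa using n2_nonneg _

theorem mulVec_inj {B : Matrix ι ι ℂ} (hB : IsUnit B) {u : ι → ℂ} (h : B *ᵥ u = 0) : u = 0 := by
  have hd : IsUnit B.det := (Matrix.isUnit_iff_isUnit_det B).1 hB
  have h1 : B⁻¹ *ᵥ (B *ᵥ u) = u := by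
    rw [Matrix.mulVec_mulVec, Matrix.nonsing_inv_mul B hd, Matrix.one_mulVec]
  rw [← h1, h, Matrix.mulVec_zero]

theorem eq_zero_of_sf (hK : K.PosDef) {u : ι → ℂ} (h : (sf K u u).re = 0) : u = 0 := by
  obtain ⟨B, hB, hKB⟩ := exists_sqrt hK
  rw [hKB, sf_sqrt, star_dot_self] at h
  exact mulVec_inj hB (n2_eq_zero (by simpa using h))

theorem sf_pos (hK : K.PosDef) {u : ι → ℂ} (h : u ≠ 0) : 0 < (sf K u u).re :=
  lt_of_le_of_ne (sf_self_nonneg hK u) fun h0 => h (eq_zero_of_sf hK h0.symm)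

/-- Cauchy-Schwarz -/
theorem sf_cs (hK : K.PosDef) (u v : ι → ℂ) :
    ‖sf K u v‖ ^ 2 ≤ (sf K u u).re * (sf K v v).re := by
  obtain ⟨B, hB, hKB⟩ := exists_sqrt hK
  rw [hKB, sf_sqrt, sf_sqrt, sf_sqrt, star_dot_self, star_dot_self]
  simpa using dot_cs _ _

theorem sf_swap (hK : K.PosDef) (u v : ι → ℂ) : sf K v u = star (sf K u v) := by
  obtain ⟨B, hB, hKB⟩ := exists_sqrt hK
  rw [hKB, sf_sqrt, sf_sqrt]
  exact Matrix.star_dotProduct _ _

theorem sf_mul_right (K a : Matrix ι ι ℂ) (u v : ι → ℂ) : sf (K * a) u v = sf K u (a *ᵥ v) := by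
  unfold sf
  rw [Matrix.mulVec_mulVec]

theorem Adj.sf_left {a a' : Matrix ι ι ℂ} (h : Adj K a a') (u v : ι → ℂ) :
    sf (K * a') u v = sf K (a *ᵥ u) v := by
  unfold sf
  rw [← h, ← Matrix.mulVec_mulVec, Matrix.star_mulVec, Matrix.dotProduct_mulVec]

theorem Adj.sf_bound (hK : K.PosDef) {a a' : Matrix ι ι ℂ} (h : Adj K a a') (u : ι → ℂ) :
    (sf K (a *ᵥ u) (a *ᵥ u)).re ≤ (a * a').trace.re * (sf K u u).re := by
  obtain ⟨B, hB, hKB⟩ := exists_sqrt hK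
  have hd : IsUnit B.det := (Matrix.isUnit_iff_isUnit_det B).1 hB
  have e1 : (a * a').trace.re = hs (B * a * B⁻¹) := by
    rw [← trace_conj hB, mul_conj hB, adj_conj hB hKB h, trace_mul_conjTranspose_self]
    simp
  have e2 : B *ᵥ (a *ᵥ u) = (B * a * B⁻¹) *ᵥ (B *ᵥ u) := by
    rw [Matrix.mulVec_mulVec, Matrix.mulVec_mulVec, mul_assoc (B * a), Matrix.nonsing_inv_mul B hd,
      mul_one]
  rw [e1, hKB, sf_sqrt, sf_sqrt, star_dot_self, star_dot_self, e2]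
  simpa using n2_mulVec (B * a * B⁻¹) (B *ᵥ u)

end vec

/-- the Hodge norm squared of the flat section `u` -/
noncomputable def hn (w : ℕ) (S : Matrix ι ι ℂ) (P : ℕ → X → Matrix ι ι ℂ) (u : ι → ℂ) (x : X) :
    ℝ := (sf (hm w S P x) u u).re


section nm

attribute [local instance] Matrix.linftyOpNormedRing Matrix.linftyOpNormedAlgebra

/-- `M ↦ uᴴ M v` as a continuous linear map -/
noncomputable def sfL (u v : ι → ℂ) := mkL (R := Matrix ι ι ℂ)
  { toFun := fun M => sf M u v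
    map_add' := fun M N => by simp [sf, Matrix.add_mulVec, dotProduct_add]
    map_smul' := fun c M => by simp [sf, Matrix.smul_mulVec, dotProduct_smul] }

theorem sfL_apply (u v : ι → ℂ) (M : Matrix ι ι ℂ) : sfL u v M = sf M u v := rfl

namespace VHS

variable {w : ℕ} {U : Set X} {S : Matrix ι ι ℂ} {P : ℕ → X → Matrix ι ι ℂ} {x : X}

theorem hn_nonneg (h : VHS w U S P) (hx : x ∈ U) (u : ι → ℂ) : 0 ≤ hn w S P u x :=
  sf_self_nonneg (h.hmPos hx) u

theorem hn_pos (h : VHS w U S P) (hx : x ∈ U) {u : ι → ℂ} (hu : u ≠ 0) : 0 < hn w S P u x :=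
  sf_pos (h.hmPos hx) hu

theorem sm_hn (h : VHS w U S P) (u : ι → ℂ) : ContDiffOn ℝ ∞ (hn w S P u) U := by
  have h1 : ContDiffOn ℝ ∞ (fun y => sfL u u (hm w S P y)) U :=
    ((sfL u u).restrictScalars ℝ).contDiff.comp_contDiffOn h.sm_hm
  exact Complex.reCLM.contDiff.comp_contDiffOn h1

theorem cx_hn_ev (h : VHS w U S P) (hx : x ∈ U) (u : ι → ℂ) :
    cx (hn w S P u) =ᶠ[𝓝 x] fun y => sfL u u (hm w S P y) :=
  Filter.eventually_of_mem (h.op.mem_nhds hx) fun _ hy => (sf_self_real (h.hmPos hy) u).symm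

theorem dW_hn (h : VHS w U S P) (hx : x ∈ U) (u : ι → ℂ) (v : X) :
    dW (cx (hn w S P u)) v x = -2 * sf (hm w S P x) u (dW (grOp w P) v x *ᵥ u) := by
  rw [dW_congr (h.cx_hn_ev hx u) v]
  refine (dW_clm (sfL u u) (h.d_hm hx) v).trans ?_
  rw [h.dW_hm hx, sfL_apply, ← sf_mul_right]
  unfold sf
  rw [Matrix.smul_mulVec, dotProduct_smul]
  rfl



/-- growth of flat sections -/
theorem growth_hn (h : VHS w U S P) (hx : x ∈ U) (u : ι → ℂ) (v : X) :
    ‖dW (cx (hn w S P u)) v x‖ ≤ 2 * Real.sqrt (gden w P v x) * hn w S P u x := by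
  rw [h.dW_hn hx]
  have hK := h.hmPos hx
  have hadj := h.adj_th_tb hx v
  have h1 := sf_cs hK u (dW (grOp w P) v x *ᵥ u)
  have h2 := hadj.sf_bound hK u
  have h3 : (dW (grOp w P) v x * tb (grOp w P) v x).trace.re = gden w P v x := by
    unfold gden
    rw [h.gg_eq hx]
    rfl
  rw [h3] at h2
  have h4 := h.gden_nonneg hx v
  have h5 := h.hn_nonneg hx u
  have h6 : ‖sf (hm w S P x) u (dW (grOp w P) v x *ᵥ u)‖ ^ 2 ≤
      (Real.sqrt (gden w P v x) * hn w S P u x) ^ 2 := by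
    rw [mul_pow, Real.sq_sqrt h4]
    refine h1.trans ?_
    unfold hn at h5 ⊢
    nlinarith [mul_le_mul_of_nonneg_left h2 h5]
  have h7 := (le_abs_self _).trans (abs_le_of_sq_le_sq h6 (mul_nonneg (Real.sqrt_nonneg _) h5))
  rw [norm_mul]
  norm_num
  rw [mul_assoc]
  linarith

end VHS

end nm

end Crest.Agent.R276.VCalc_442
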