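import Mathlib
import Crest.Agent.R276.Liou_739
import Crest.Agent.R276.EndTh_659
import Crest.Agent.R276.VCalcG_442
import Crest.Agent.R276.PdC_571
import Crest.Agent.R276.Flux_317
import Crest.Agent.R276.TrB_617
import Crest.Agent.R276.DiscA_651

-- ▼ part R276/Sheets_574
section

/-!
# R276, GVHS (helper574): sheets of a model over a line, sums over the fibres

`M → {h ≠ 0}` is a finite covering (`Prp h M`, `M` Hausdorff).

* `fib_finite`, `sheets`, `sum_fb` : the fibres are finite, near every `ζ` with `h ζ ≠ 0` the fibre is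
  `{(ch y).symm ξ | y over ζ}` and the sum over the fibre of a function is
  `∑ y, f ((ch y).symm ξ)`.
* `neg_sum` : `Δ log g ≥ c g` for the summands gives `Δ log G ≥ (c / k) G` for the sum.
* `liouG` : `u` of class `C²`, `lev u ≥ 0`, `|d_v u|² ≤ C g_v`, `Δ log g_v ≥ c g_v` along lines
  (`c > 0`) ==> `lev u = 0`, given the statement `PlaneSt` about the plane minus finitely many points.
-/

set_option autoImplicit false

open Set Filter Topology Metric InnerProductSpace Laplacian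

namespace Crest.Agent.R276.Sheets_574

open Crest.Agent.R271.Ho51 Crest.Agent.R276.Liou_739 Crest.Agent.R276.Ahl_25
  Crest.Agent.R276.MaxP_25

/-! ### sums of densities -/

/-- square of the gradient -/
noncomputable def gr2 (u : ℂ → ℝ) (z : ℂ) : ℝ := (fderiv ℝ u z 1) ^ 2 + (fderiv ℝ u z Complex.I) ^ 2

theorem lap_log' {u : ℂ → ℝ} {z : ℂ} (hu : ContDiffAt ℝ 2 u z) (h0 : 0 < u z) :
    (Δ (fun w => Real.log (u w))) z = ((Δ u) z * u z - gr2 u z) / (u z) ^ 2 := by
  rw [EndTh_659.lap_log hu h0, EndTh_659.norm_dW_sq (hu.differentiableAt (by norm_num))]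
  rfl

theorem norm_sq_le (A : ℂ →L[ℝ] ℝ) : ‖A‖ ^ 2 ≤ (A 1) ^ 2 + (A Complex.I) ^ 2 := by
  set B := (A 1) ^ 2 + (A Complex.I) ^ 2 with hB
  have hB0 : 0 ≤ B := by positivity
  have h1 : ‖A‖ ≤ Real.sqrt B := by
    refine A.opNorm_le_bound (Real.sqrt_nonneg _) fun w => ?_
    have e1 : w = w.re • (1 : ℂ) + w.im • Complex.I := by
      apply Complex.ext <;> simp
    have e2 : A w = w.re * A 1 + w.im * A Complex.I := by
      conv_lhs => rw [e1]
      rw [map_add, map_smul, map_smul, smul_eq_mul, smul_eq_mul]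
    have e3 : ‖w‖ ^ 2 = w.re ^ 2 + w.im ^ 2 := by
      rw [← Complex.normSq_eq_norm_sq, Complex.normSq_apply]; ring
    rw [e2, Real.norm_eq_abs]
    apply abs_le_of_sq_le_sq _ (by positivity)
    rw [mul_pow, Real.sq_sqrt hB0, e3, hB]
    nlinarith [sq_nonneg (w.re * A Complex.I - w.im * A 1)]
  calc ‖A‖ ^ 2 ≤ (Real.sqrt B) ^ 2 := by gcongr
    _ = B := Real.sq_sqrt hB0

section sum

variable {ι : Type*} {s : Finset ι}

theorem fderiv_sum' {g : ι → ℂ → ℝ} {z : ℂ} (h2 : ∀ i ∈ s, ContDiffAt ℝ 2 (g i) z) (v : ℂ) :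
    fderiv ℝ (fun w => ∑ i ∈ s, g i w) z v = ∑ i ∈ s, fderiv ℝ (g i) z v := by
  rw [fderiv_fun_sum (fun i hi => (h2 i hi).differentiableAt (by norm_num)), _root_.sum_apply]

theorem lap_sum {g : ι → ℂ → ℝ} {z : ℂ} (h2 : ∀ i ∈ s, ContDiffAt ℝ 2 (g i) z) :
    (Δ (fun w => ∑ i ∈ s, g i w)) z = ∑ i ∈ s, (Δ (g i)) z := by
  classical
  induction s using Finset.induction_on with
  | empty =>
    simp only [Finset.sum_empty]
    rw [lap_eq]
    simp
  | insert a s ha ih =>
    have h3 : ∀ i ∈ s, ContDiffAt ℝ 2 (g i) z := fun i hi => h2 i (Finset.mem_insert_of_mem hi)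
    have h4 : (fun w => ∑ i ∈ insert a s, g i w) = g a + fun w => ∑ i ∈ s, g i w := by
      funext w
      rw [Finset.sum_insert ha]; rfl
    rw [h4, Finset.sum_insert ha, ← ih h3]
    exact (h2 a (Finset.mem_insert_self _ _)).laplacian_add (ContDiffAt.sum fun i hi => h3 i hi)

/-- the gradient of a sum -/
theorem gr2_sum_le {g : ι → ℂ → ℝ} {z : ℂ} (h2 : ∀ i ∈ s, ContDiffAt ℝ 2 (g i) z) :
    gr2 (fun w => ∑ i ∈ s, g i w) z ≤ s.card * ∑ i ∈ s, gr2 (g i) z := by
  unfold gr2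
  rw [fderiv_sum' h2, fderiv_sum' h2, Finset.sum_add_distrib, mul_add]
  exact add_le_add sq_sum_le_card_mul_sum_sq sq_sum_le_card_mul_sum_sq

/-- the curvature of a sum of densities -/
theorem neg_sum {g : ι → ℂ → ℝ} {z : ℂ} {c : ℝ} (hc : 0 < c)
    (h2 : ∀ i ∈ s, ContDiffAt ℝ 2 (g i) z) (h0 : ∀ i ∈ s, ∀ᶠ w in 𝓝 z, 0 ≤ g i w)
    (hn : ∀ i ∈ s, g i z ≠ 0 → c * g i z ≤ (Δ (fun w => Real.log (g i w))) z)
    (hne : (∑ i ∈ s, g i z) ≠ 0) :
    c / s.card * ∑ i ∈ s, g i z ≤ (Δ (fun w => Real.log (∑ i ∈ s, g i w))) z := by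
  have h00 : ∀ i ∈ s, 0 ≤ g i z := fun i hi => (h0 i hi).self_of_nhds
  have hA : 0 < ∑ i ∈ s, g i z := lt_of_le_of_ne (Finset.sum_nonneg h00) (Ne.symm hne)
  have hs : 0 < s.card := by
    rcases Finset.eq_empty_or_nonempty s with rfl | h
    · simp at hne
    · exact h.card_pos
  have hs' : (0 : ℝ) < s.card := by exact_mod_cast hs
  -- at the zeros
  have hz : ∀ i ∈ s, g i z = 0 → fderiv ℝ (g i) z = 0 ∧ 0 ≤ (Δ (g i)) z := by
    intro i hi h
    have hm : IsLocalMin (g i) z := by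
      filter_upwards [h0 i hi] with w hw
      rw [h]; exact hw
    refine ⟨hm.fderiv_eq_zero, ?_⟩
    have h3 : (Δ (fun w => - g i w)) z ≤ 0 := lap_nonpos_of_isLocalMax (h2 i hi).neg hm.neg
    have h4 : (Δ (fun w => - g i w)) z = - (Δ (g i)) z := by
      have h5 := laplacian_smul (-1 : ℝ) (h2 i hi)
      have h6 : (fun w => - g i w) = (-1 : ℝ) • g i := by funext w; simp
      rw [h6, h5]; simp
    rw [h4] at h3
    linarith
  -- one term
  have h1 : ∀ i ∈ s, c * (g i z) ^ 2 + ((fderiv ℝ (g i) z 1) ^ 2 / g i z +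
      (fderiv ℝ (g i) z Complex.I) ^ 2 / g i z) ≤ (Δ (g i)) z := by
    intro i hi
    rcases eq_or_ne (g i z) 0 with h | h
    · obtain ⟨e1, e2⟩ := hz i hi h
      rw [e1, h]; simpa using e2
    · have hp : 0 < g i z := lt_of_le_of_ne (h00 i hi) (Ne.symm h)
      have h3 := hn i hi h
      rw [lap_log' (h2 i hi) hp, le_div_iff₀ (by positivity)] at h3
      have h4 : c * (g i z) ^ 2 + ((fderiv ℝ (g i) z 1) ^ 2 / g i z +
          (fderiv ℝ (g i) z Complex.I) ^ 2 / g i z) =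
          (c * g i z * (g i z) ^ 2 + gr2 (g i) z) / g i z := by
        unfold gr2
        field_simp
      rw [h4, div_le_iff₀ hp]
      linarith
  have hsum := Finset.sum_le_sum h1
  rw [Finset.sum_add_distrib, Finset.sum_add_distrib, ← Finset.mul_sum] at hsum
  -- Cauchy-Schwarz
  have hCS : ∀ v : ℂ, (∑ i ∈ s, fderiv ℝ (g i) z v) ^ 2 ≤
      (∑ i ∈ s, g i z) * ∑ i ∈ s, (fderiv ℝ (g i) z v) ^ 2 / g i z := by
    intro v
    refine Finset.sum_sq_le_sum_mul_sum_of_sq_le_mul s h00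
      (fun i hi => div_nonneg (sq_nonneg _) (h00 i hi)) fun i hi => le_of_eq ?_
    rcases eq_or_ne (g i z) 0 with h | h
    · rw [(hz i hi h).1]; simp [h]
    · field_simp
  have hsq : (∑ i ∈ s, g i z) ^ 2 ≤ s.card * ∑ i ∈ s, (g i z) ^ 2 := sq_sum_le_card_mul_sum_sq
  have h2' : ContDiffAt ℝ 2 (fun w => ∑ i ∈ s, g i w) z := ContDiffAt.sum h2
  rw [lap_log' h2' hA, lap_sum h2, le_div_iff₀ (by positivity)]
  unfold gr2
  rw [fderiv_sum' h2, fderiv_sum' h2]
  have h5 := hCS 1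
  have h6 := hCS Complex.I
  set A := ∑ i ∈ s, g i z with hAdef
  set P := ∑ i ∈ s, fderiv ℝ (g i) z 1
  set Q := ∑ i ∈ s, fderiv ℝ (g i) z Complex.I
  set p := ∑ i ∈ s, (fderiv ℝ (g i) z 1) ^ 2 / g i z
  set q := ∑ i ∈ s, (fderiv ℝ (g i) z Complex.I) ^ 2 / g i z
  set S2 := ∑ i ∈ s, (g i z) ^ 2
  set L := ∑ i ∈ s, (Δ (g i)) z
  have h7 : A * (c * S2 + (p + q)) ≤ A * L := mul_le_mul_of_nonneg_left hsum hA.le
  have h8 : c / s.card * A * A ^ 2 ≤ A * (c * S2) := by
    rw [div_mul_eq_mul_div, div_mul_eq_mul_div, div_le_iff₀ hs']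
    have := mul_le_mul_of_nonneg_left hsq (mul_nonneg hc.le hA.le)
    linarith
  nlinarith

end sum

/-- the statement about the plane minus finitely many points (proved by 317) -/
def PlaneSt : Prop := ∀ (F : Finset ℂ) (U G : ℂ → ℝ) (c C : ℝ), 0 < c →
  (∀ z ∉ F, ContDiffAt ℝ 2 U z ∧ 0 ≤ (Δ U) z) → (∀ z ∉ F, ContDiffAt ℝ 2 G z ∧ 0 ≤ G z) →
  Neg c G ((F : Set ℂ)ᶜ) → (∀ z ∉ F, ‖fderiv ℝ U z‖ ^ 2 ≤ C * G z) → ∀ z ∉ F, (Δ U) z = 0

/-! ### sheets -/

section sheets

variable {n : ℕ} {M : Type*} [TopologicalSpace M] [RDom n M] {h : MvPolynomial (Fin n) ℂ}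

theorem fib_finite (P : Prp h M) (ζ : Fin n → ℂ) : {y : M | cp y = ζ}.Finite := by
  by_cases hζ : MvPolynomial.eval ζ h = 0
  · have : {y : M | cp y = ζ} = ∅ := by
      rw [Set.eq_empty_iff_forall_notMem]
      intro y hy
      apply P.ne y
      rw [show cp y = ζ from hy, hζ]
    rw [this]; exact Set.finite_empty
  · have hK := P.cpt ‖ζ‖ ‖MvPolynomial.eval ζ h‖ (norm_pos_iff.2 hζ)
    have hcl : IsClosed {y : M | cp y = ζ} := isClosed_eq cp_cont continuous_const
    have hc : IsCompact {y : M | cp y = ζ} := by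
      refine hK.of_isClosed_subset hcl fun y hy => ?_
      have hy' : cp y = ζ := hy
      simp [hy']
    refine hc.finite ?_
    rw [isDiscrete_iff_nhdsWithin]
    intro y hy
    have hy' : cp y = ζ := hy
    rw [nhdsWithin, ← principal_singleton]
    refine le_antisymm ?_ ?_
    · rw [le_principal_iff, mem_inf_principal]
      filter_upwards [(ch y).open_source.mem_nhds (mem_ch y)] with x hx hx'
      exact (isCh_ch y).injOn hx (mem_ch y) ((show cp x = ζ from hx').trans hy'.symm)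
    · refine le_inf ?_ ?_
      · rw [principal_singleton]; exact pure_le_nhds y
      · rw [principal_mono, singleton_subset_iff]; exact hy

/-- the fibre -/
noncomputable def fb (P : Prp h M) (ζ : Fin n → ℂ) : Finset M := (fib_finite P ζ).toFinset

theorem mem_fb (P : Prp h M) {ζ : Fin n → ℂ} {y : M} : y ∈ fb P ζ ↔ cp y = ζ := by
  simp [fb]

theorem tendsto_symm (y : M) : Tendsto (ch y).symm (𝓝 (cp y)) (𝓝 y) := by
  have := (ch y).symm.continuousAt (x := cp y) (by simpa using (isCh_ch y).cp_mem (mem_ch y))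
  rwa [ContinuousAt, (isCh_ch y).symm_cp (mem_ch y)] at this

/-- **local structure of the fibres** -/
theorem sheets [T2Space M] (P : Prp h M) {ζ : Fin n → ℂ} (hζ : MvPolynomial.eval ζ h ≠ 0) :
    ∀ᶠ ξ in 𝓝 ζ, (∀ y ∈ fb P ζ, ξ ∈ (ch y).target) ∧
      Set.InjOn (fun y : M => (ch y).symm ξ) (fb P ζ : Set M) ∧
      ∀ x, cp x = ξ → ∃ y ∈ fb P ζ, (ch y).symm ξ = x := by
  classical
  have h1 : ∀ᶠ ξ in 𝓝 ζ, ∀ y ∈ fb P ζ, ξ ∈ (ch y).target := by
    rw [Filter.eventually_all_finset]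
    intro y hy
    rw [mem_fb] at hy
    rw [← hy]
    exact (ch y).open_target.mem_nhds ((isCh_ch y).cp_mem (mem_ch y))
  have h2 : ∀ᶠ ξ in 𝓝 ζ, Set.InjOn (fun y : M => (ch y).symm ξ) (fb P ζ : Set M) := by
    have h3 : ∀ y ∈ fb P ζ, ∀ y' ∈ fb P ζ, ∀ᶠ ξ in 𝓝 ζ,
        (ch y).symm ξ = (ch y').symm ξ → y = y' := by
      intro y hy y' hy'
      rw [mem_fb] at hy hy'
      by_cases hne : y = y'
      · exact Eventually.of_forall fun _ _ => hne
      obtain ⟨U, U', hU, hU', hyU, hyU', hd⟩ := t2_separation hne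
      have e1 : ∀ᶠ ξ in 𝓝 ζ, (ch y).symm ξ ∈ U := by
        have := tendsto_symm y
        rw [hy] at this
        exact this.eventually (hU.mem_nhds hyU)
      have e2 : ∀ᶠ ξ in 𝓝 ζ, (ch y').symm ξ ∈ U' := by
        have := tendsto_symm y'
        rw [hy'] at this
        exact this.eventually (hU'.mem_nhds hyU')
      filter_upwards [e1, e2] with ξ hξ1 hξ2 he
      exfalso
      rw [he] at hξ1
      exact Set.disjoint_left.1 hd hξ1 hξ2
    have h4 : ∀ᶠ ξ in 𝓝 ζ, ∀ y ∈ fb P ζ, ∀ y' ∈ fb P ζ,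
        (ch y).symm ξ = (ch y').symm ξ → y = y' := by
      rw [Filter.eventually_all_finset]
      intro y hy
      rw [Filter.eventually_all_finset]
      intro y' hy'
      exact h3 y hy y' hy'
    filter_upwards [h4] with ξ hξ y hy y' hy' he
    exact hξ y hy y' hy' he
  -- surjectivity
  have hδ : 0 < ‖MvPolynomial.eval ζ h‖ := norm_pos_iff.2 hζ
  set K : Set M := {x : M | ‖cp x‖ ≤ ‖ζ‖ + 1 ∧
    ‖MvPolynomial.eval ζ h‖ / 2 ≤ ‖MvPolynomial.eval (cp x) h‖} with hK
  have hKc : IsCompact K := P.cpt _ _ (by positivity)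
  set O : Set M := ⋃ y ∈ fb P ζ, (ch y).source with hO
  have hOo : IsOpen O := isOpen_biUnion fun y _ => (ch y).open_source
  have hK' : IsCompact (K \ O) := hKc.diff hOo
  have hc : IsClosed (cp '' (K \ O)) := (hK'.image cp_cont).isClosed
  have hζ' : ζ ∉ cp '' (K \ O) := by
    rintro ⟨x, ⟨_, hx⟩, hx'⟩
    apply hx
    rw [hO, mem_iUnion₂]
    exact ⟨x, (mem_fb P).2 hx', mem_ch x⟩
  have h5 : ∀ᶠ ξ in 𝓝 ζ, ξ ∉ cp '' (K \ O) := hc.isOpen_compl.mem_nhds hζ'
  have h6 : ∀ᶠ ξ in 𝓝 ζ, ‖ξ‖ < ‖ζ‖ + 1 :=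
    continuous_norm.continuousAt.eventually (gt_mem_nhds (by linarith))
  have h7 : ∀ᶠ ξ in 𝓝 ζ, ‖MvPolynomial.eval ζ h‖ / 2 < ‖MvPolynomial.eval ξ h‖ := by
    have : Continuous fun ξ : Fin n → ℂ => ‖MvPolynomial.eval ξ h‖ :=
      (MvPolynomial.continuous_eval h).norm
    exact this.continuousAt.eventually (lt_mem_nhds (by linarith))
  filter_upwards [h1, h2, h5, h6, h7] with ξ hξ1 hξ2 hξ5 hξ6 hξ7
  refine ⟨hξ1, hξ2, fun x hx => ?_⟩
  have hxK : x ∈ K := by
    refine ⟨?_, ?_⟩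
    · rw [hx]; exact hξ6.le
    · rw [hx]; exact hξ7.le
  have hxO : x ∈ O := by
    by_contra hcon
    exact hξ5 ⟨x, ⟨hxK, hcon⟩, hx⟩
  rw [hO, mem_iUnion₂] at hxO
  obtain ⟨y, hy, hxy⟩ := hxO
  refine ⟨y, hy, ?_⟩
  rw [← hx]
  exact (isCh_ch y).symm_cp hxy

/-- the fibre near `ζ` -/
theorem fb_eq [T2Space M] [DecidableEq M] (P : Prp h M) {ζ : Fin n → ℂ}
    (hζ : MvPolynomial.eval ζ h ≠ 0) :
    ∀ᶠ ξ in 𝓝 ζ, fb P ξ = (fb P ζ).image (fun y => (ch y).symm ξ) := by
  filter_upwards [sheets P hζ] with ξ hξ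
  obtain ⟨h1, _, h3⟩ := hξ
  ext x
  rw [mem_fb, Finset.mem_image]
  constructor
  · intro hx
    exact h3 x hx
  · rintro ⟨y, hy, rfl⟩
    exact (isCh_ch y).cp_symm (h1 y hy)

/-- sums over the fibre -/
theorem sum_fb [T2Space M] (P : Prp h M) {ζ : Fin n → ℂ} (hζ : MvPolynomial.eval ζ h ≠ 0)
    (f : M → ℝ) :
    ∀ᶠ ξ in 𝓝 ζ, ∑ x ∈ fb P ξ, f x = ∑ y ∈ fb P ζ, (f ∘ (ch y).symm) ξ := by
  classical
  filter_upwards [sheets P hζ, fb_eq P hζ] with ξ h1 h2
  rw [h2, Finset.sum_image]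
  · rfl
  · exact h1.2.1

theorem card_fb [T2Space M] (P : Prp h M) {ζ : Fin n → ℂ} (hζ : MvPolynomial.eval ζ h ≠ 0) :
    ∀ᶠ ξ in 𝓝 ζ, (fb P ξ).card = (fb P ζ).card := by
  classical
  filter_upwards [sheets P hζ, fb_eq P hζ] with ξ h1 h2
  rw [h2, Finset.card_image_of_injOn h1.2.1]

/-! ### Liouville along lines -/

theorem tendsto_cline (z0 v : Fin n → ℂ) (t : ℂ) :
    Tendsto (fun s : ℂ => z0 + s • v) (𝓝 t) (𝓝 (z0 + t • v)) := by
  have : Continuous (fun s : ℂ => z0 + s • v) := by fun_prop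
  exact this.tendsto t

theorem gr2_cline {u : (Fin n → ℂ) → ℝ} {z0 v : Fin n → ℂ} {t : ℂ}
    (hu : ContDiffAt ℝ 2 u (z0 + t • v)) :
    gr2 (fun s : ℂ => u (z0 + s • v)) t =
      (fderiv ℝ u (z0 + t • v) v) ^ 2 + (fderiv ℝ u (z0 + t • v) (Complex.I • v)) ^ 2 := by
  have h1 := ((hu.differentiableAt (by norm_num)).hasFDerivAt.comp t
    (hasFDerivAt_cline z0 v t)).fderiv
  have h2 : fderiv ℝ (fun s : ℂ => u (z0 + s • v)) t = (fderiv ℝ u (z0 + t • v)).comp
    ((ContinuousLinearMap.id ℝ ℂ).smulRight v) := h1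
  unfold gr2
  rw [h2]
  simp

/-- the number of sheets is constant along a line -/
theorem card_line [T2Space M] (P : Prp h M) {z0 v : Fin n → ℂ} {F : Finset ℂ}
    (hF : ∀ t ∉ F, MvPolynomial.eval (z0 + t • v) h ≠ 0) {t t' : ℂ} (ht : t ∉ F) (ht' : t' ∉ F) :
    (fb P (z0 + t • v)).card = (fb P (z0 + t' • v)).card := by
  have hpre : IsPreconnected ((F : Set ℂ)ᶜ) :=
    (F.countable_toSet.isConnected_compl_of_one_lt_rank (by simp)).2
  refine hpre.constant (f := fun t : ℂ => (fb P (z0 + t • v)).card) ?_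
    (by simpa using ht) (by simpa using ht')
  intro s hs
  have hs' : s ∉ F := by simpa using hs
  refine ContinuousAt.continuousWithinAt ?_
  have h1 := (tendsto_cline z0 v s).eventually (card_fb P (hF s hs'))
  exact continuousAt_const.congr (h1.mono fun _ h => h.symm)

/-- **Liouville along lines.** -/
theorem liouG [T2Space M] (hpl : PlaneSt) (P : Prp h M) {u : M → ℝ} {g : (Fin n → ℂ) → M → ℝ}
    {c C : ℝ} (hc : 0 < c)
    (hu : ∀ x, ContDiffAt ℝ 2 (u ∘ (ch x).symm) (cp x))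
    (hl : ∀ x v, 0 ≤ lev (u ∘ (ch x).symm) (cp x) v)
    (hg : ∀ x v, ContDiffAt ℝ 2 (g v ∘ (ch x).symm) (cp x))
    (hg0 : ∀ x v, 0 ≤ g v x)
    (hn : ∀ x v, g v x ≠ 0 →
      c * g v x ≤ lev (fun ξ => Real.log ((g v ∘ (ch x).symm) ξ)) (cp x) v)
    (hd : ∀ x v, (fderiv ℝ (u ∘ (ch x).symm) (cp x) v) ^ 2 +
      (fderiv ℝ (u ∘ (ch x).symm) (cp x) (Complex.I • v)) ^ 2 ≤ C * g v x) (x : M)
    (v : Fin n → ℂ) : lev (u ∘ (ch x).symm) (cp x) v = 0 := by
  classical
  set z0 := cp x with hz0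
  have hq0 : (lpoly h z0 v).eval 0 ≠ 0 := by
    rw [lpoly_eval, zero_smul, add_zero]; exact P.ne x
  have hq : lpoly h z0 v ≠ 0 := by
    intro h0; rw [h0] at hq0; simp at hq0
  set F : Finset ℂ := (lpoly h z0 v).roots.toFinset with hFdef
  have hF : ∀ t ∉ F, MvPolynomial.eval (z0 + t • v) h ≠ 0 := by
    intro t ht h0
    apply ht
    rw [hFdef, Multiset.mem_toFinset, Polynomial.mem_roots hq, Polynomial.IsRoot, lpoly_eval, h0]
  have h0F : (0 : ℂ) ∉ F := by
    intro h0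
    rw [hFdef, Multiset.mem_toFinset, Polynomial.mem_roots hq] at h0
    exact hq0 h0
  set k := (fb P z0).card with hk
  have hcard : ∀ t ∉ F, (fb P (z0 + t • v)).card = k := by
    intro t ht
    have := card_line P hF ht h0F
    rw [zero_smul, add_zero] at this
    exact this
  have hkpos : 0 < k := Finset.card_pos.2 ⟨x, (mem_fb P).2 rfl⟩
  have hkpos' : (0 : ℝ) < k := by exact_mod_cast hkpos
  -- local formulas
  have hloc : ∀ (f : M → ℝ) (t : ℂ), t ∉ F → (fun s : ℂ => ∑ y ∈ fb P (z0 + s • v), f y) =ᶠ[𝓝 t]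
      fun s => ∑ y ∈ fb P (z0 + t • v), (f ∘ (ch y).symm) (z0 + s • v) := fun f t ht =>
    (tendsto_cline z0 v t).eventually (sum_fb P (hF t ht) f)
  have hC2 : ∀ (f : M → ℝ), (∀ y, ContDiffAt ℝ 2 (f ∘ (ch y).symm) (cp y)) → ∀ t : ℂ,
      ∀ y ∈ fb P (z0 + t • v), ContDiffAt ℝ 2 (fun s : ℂ => (f ∘ (ch y).symm) (z0 + s • v)) t := by
    intro f hf t y hy
    have h1 := hf y
    rw [(mem_fb P).1 hy] at h1
    exact ContDiffAt.comp (g := f ∘ (ch y).symm) (f := fun s : ℂ => z0 + s • v) t h1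
      (contDiff_cline z0 v).contDiffAt
  set U : ℂ → ℝ := fun t => ∑ y ∈ fb P (z0 + t • v), u y with hU
  set G : ℂ → ℝ := fun t => ∑ y ∈ fb P (z0 + t • v), g v y with hG
  have hUlap : ∀ t ∉ F, ContDiffAt ℝ 2 U t ∧
      (Δ U) t = ∑ y ∈ fb P (z0 + t • v), lev (u ∘ (ch y).symm) (cp y) v := by
    intro t ht
    have h1 := hloc u t ht
    refine ⟨(ContDiffAt.sum fun y hy => hC2 u hu t y hy).congr_of_eventuallyEq h1, ?_⟩
    rw [(laplacian_congr_nhds h1).self_of_nhds, lap_sum (hC2 u hu t)]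
    refine Finset.sum_congr rfl fun y hy => ?_
    have h2 := hu y
    rw [(mem_fb P).1 hy] at h2
    rw [lap_cline h2, (mem_fb P).1 hy]
  have hres := hpl F U G (c / k) (k * C) (by positivity) ?_ ?_ ?_ ?_
  · have h1 := hres 0 h0F
    rw [(hUlap 0 h0F).2] at h1
    have h2 := (Finset.sum_eq_zero_iff_of_nonneg fun y _ => hl y v).1 h1 x
      ((mem_fb P).2 (by simp [hz0]))
    exact h2
  · intro t ht
    refine ⟨(hUlap t ht).1, ?_⟩
    rw [(hUlap t ht).2]
    exact Finset.sum_nonneg fun y _ => hl y v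
  · intro t ht
    refine ⟨(ContDiffAt.sum fun y hy => hC2 (g v) (fun y => hg y v) t y hy).congr_of_eventuallyEq
      (hloc (g v) t ht), ?_⟩
    exact Finset.sum_nonneg fun y _ => hg0 y v
  · intro t ht hne
    have ht' : t ∉ F := by simpa using ht
    have h1 := hloc (g v) t ht'
    have e1 : G t = ∑ y ∈ fb P (z0 + t • v), (g v ∘ (ch y).symm) (z0 + t • v) := h1.self_of_nhds
    have e2 : (Δ (fun w => Real.log (G w))) t = (Δ (fun w : ℂ => Real.log
        (∑ y ∈ fb P (z0 + t • v), (g v ∘ (ch y).symm) (z0 + w • v)))) t := by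
      refine (laplacian_congr_nhds ?_).self_of_nhds
      filter_upwards [h1] with w hw
      rw [show G w = _ from hw]
    rw [e2, e1]
    rw [e1] at hne
    have h2 := neg_sum (s := fb P (z0 + t • v))
      (g := fun y w => (g v ∘ (ch y).symm) (z0 + w • v)) (z := t) hc
      (hC2 (g v) (fun y => hg y v) t) (fun y _ => Eventually.of_forall fun w => hg0 _ v) ?_ hne
    · rw [hcard t ht'] at h2
      exact h2
    · intro y hy hy0
      have hcy := (mem_fb P).1 hy
      have h3 : (g v ∘ (ch y).symm) (z0 + t • v) = g v y := by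
        rw [← hcy, Function.comp_apply, symm_cp]
      have h4 := hg y v
      rw [hcy] at h4
      have h5 := hn y v (by rw [← h3]; exact hy0)
      rw [hcy] at h5
      rw [lap_cline (u := fun ξ => Real.log ((g v ∘ (ch y).symm) ξ)) (h4.log hy0)]
      calc c * (g v ∘ (ch y).symm) (z0 + t • v) = c * g v y := by rw [h3]
        _ ≤ _ := h5
  · intro t ht
    have h1 := hloc u t ht
    refine (norm_sq_le _).trans ?_
    have e1 : gr2 U t = gr2 (fun s => ∑ y ∈ fb P (z0 + t • v), (u ∘ (ch y).symm) (z0 + s • v)) t := by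
      unfold gr2
      rw [h1.fderiv_eq]
    calc (fderiv ℝ U t 1) ^ 2 + (fderiv ℝ U t Complex.I) ^ 2 = gr2 U t := rfl
      _ ≤ (fb P (z0 + t • v)).card * ∑ y ∈ fb P (z0 + t • v),
          gr2 (fun s => (u ∘ (ch y).symm) (z0 + s • v)) t := by
        rw [e1]
        exact gr2_sum_le (hC2 u hu t)
      _ ≤ k * (∑ y ∈ fb P (z0 + t • v), C * g v y) := by
        rw [hcard t ht]
        refine mul_le_mul_of_nonneg_left (Finset.sum_le_sum fun y hy => ?_) hkpos'.le
        have h2 := hu y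
        rw [(mem_fb P).1 hy] at h2
        rw [gr2_cline h2, ← (mem_fb P).1 hy]
        exact hd y v
      _ = k * C * G t := by rw [← Finset.mul_sum, ← mul_assoc]

end sheets

end Crest.Agent.R276.Sheets_574
end

-- ▼ part R276/SSVar_720
section

/-!
# R276, helper720, task SSVAR: local analysis for the global theory of a variation (574's GVHS)

`V` a polarised variation in a flat frame (`VCalc_442.VHS w U S P`), `K = hm w S P` the Hodge metric,
`θ_v = th w P v`, `θ̄_v = thb w P v`.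

* `gm B K = Bᴴ K B`, `pj B K = B (Bᴴ K B)⁻¹ Bᴴ K` (the `K`-orthogonal projector on the range of `B`),
  `ug = log det gm` for a CONSTANT matrix `B` with independent columns.
* `dW_ug`, `dB_dW_ug`, `sm_ug`, `ug_nonneg`, `ug_bound`, `lap_ug` (DS); `ug_eq_at`, `pj_const` (DS0).
* `na = tr (K⁻¹ Aᴴ K A)`, `ua = log (1 + na)` for a constant matrix `A`: `dB_dW_na`, `sm_ua`,
  `ua_nonneg`, `ua_bound`, `lap_ua`; `ua_eq_at`, `comm_const` (FP).
* change of frames: `gm_frame`, `pj_frame`, `trace_frame`, `det_gm_mul`, `pj_mul`.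
-/

set_option autoImplicit false
set_option linter.unusedSectionVars false

open Set Filter Topology Matrix Finset InnerProductSpace Laplacian
open scoped ContDiff ComplexConjugate ComplexOrder

namespace Crest.Agent.R276.SSVar_720

open Crest.Agent.R276.VCalc_442

variable {X : Type*} [NormedAddCommGroup X] [NormedSpace ℂ X]
variable {ι κ : Type*} [Fintype ι] [DecidableEq ι] [Fintype κ] [DecidableEq κ]

/-- Gram matrix of the columns of `B` -/
def gm (B : Matrix ι κ ℂ) (K : Matrix ι ι ℂ) : Matrix κ κ ℂ := Bᴴ * K * B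

/-- the `K`-orthogonal projector on the range of `B` -/
noncomputable def pj (B : Matrix ι κ ℂ) (K : Matrix ι ι ℂ) : Matrix ι ι ℂ :=
  B * (gm B K)⁻¹ * Bᴴ * K

section alg

variable {B : Matrix ι κ ℂ} {K : Matrix ι ι ℂ}

theorem gm_posDef (hB : Function.Injective B.mulVec) (hK : K.PosDef) : (gm B K).PosDef :=
  hK.conjTranspose_mul_mul_same hB

theorem gm_det (hB : Function.Injective B.mulVec) (hK : K.PosDef) : IsUnit (gm B K).det :=
  (Matrix.isUnit_iff_isUnit_det _).1 (gm_posDef hB hK).isUnit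

theorem pj_mul_B (hB : Function.Injective B.mulVec) (hK : K.PosDef) : pj B K * B = B := by
  have h1 : pj B K * B = B * ((gm B K)⁻¹ * (gm B K)) := by
    unfold pj gm
    simp only [Matrix.mul_assoc]
  rw [h1, Matrix.nonsing_inv_mul _ (gm_det hB hK), Matrix.mul_one]

theorem pj_mul_pj (hB : Function.Injective B.mulVec) (hK : K.PosDef) :
    pj B K * pj B K = pj B K := by
  have h1 : pj B K * pj B K = (pj B K * B) * (gm B K)⁻¹ * Bᴴ * K := by
    conv_lhs => rw [show pj B K * pj B K = pj B K * (B * (gm B K)⁻¹ * Bᴴ * K) from rfl]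
    simp only [Matrix.mul_assoc]
  rw [h1, pj_mul_B hB hK]
  rfl

theorem adj_pj (hB : Function.Injective B.mulVec) (hK : K.PosDef) :
    Adj K (pj B K) (pj B K) := by
  unfold Adj pj
  have h1 : ((gm B K)⁻¹)ᴴ = (gm B K)⁻¹ := (gm_posDef hB hK).1.inv
  have h2 : Kᴴ = K := hK.1
  simp only [Matrix.conjTranspose_mul, Matrix.conjTranspose_conjTranspose, h1, h2,
    Matrix.mul_assoc]

theorem mem_range_iff (hB : Function.Injective B.mulVec) (hK : K.PosDef) (v : ι → ℂ) :
    (∃ c, v = B *ᵥ c) ↔ pj B K *ᵥ v = v := by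
  constructor
  · rintro ⟨c, rfl⟩
    rw [Matrix.mulVec_mulVec, pj_mul_B hB hK]
  · intro h
    refine ⟨((gm B K)⁻¹ * Bᴴ * K) *ᵥ v, ?_⟩
    rw [Matrix.mulVec_mulVec]
    conv_lhs => rw [← h]
    unfold pj
    simp only [Matrix.mul_assoc]

theorem trace_pj (hB : Function.Injective B.mulVec) (hK : K.PosDef) :
    (pj B K).trace = (Fintype.card κ : ℂ) := by
  have h1 : (pj B K).trace = ((gm B K)⁻¹ * gm B K).trace := by
    unfold pj
    rw [Matrix.mul_assoc, Matrix.mul_assoc, Matrix.trace_mul_comm]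
    unfold gm
    simp only [Matrix.mul_assoc]
  rw [h1, Matrix.nonsing_inv_mul _ (gm_det hB hK), Matrix.trace_one]

end alg

/-! ### calculus of inverses and determinants -/

section lc

variable {A : Type*} [NormedAddCommGroup A] [NormedSpace ℂ A]

/-- a function with vanishing derivatives on an open set is locally constant -/
theorem loc_const {F : X → A} {U : Set X} (hU : IsOpen U) (hd : ∀ x ∈ U, DifferentiableAt ℝ F x)
    (h1 : ∀ x ∈ U, ∀ v, dW F v x = 0) (h2 : ∀ x ∈ U, ∀ v, dB F v x = 0) {x : X} (hx : x ∈ U) :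
    ∀ᶠ y in 𝓝 x, F y = F x := by
  obtain ⟨ε, hε, hb⟩ := Metric.isOpen_iff.1 hU x hx
  filter_upwards [Metric.ball_mem_nhds x hε] with y hy
  have h3 : ∀ z ∈ Metric.ball x ε, fderiv ℝ F z = 0 := by
    intro z hz
    ext v
    rw [VCalc_442.fderiv_eq, h1 z (hb hz), h2 z (hb hz)]
    simp
  exact (convex_ball x ε).is_const_of_fderivWithin_eq_zero (𝕜 := ℝ)
    (fun z hz => (hd z (hb hz)).differentiableWithinAt)
    (fun z hz => by rw [fderivWithin_of_isOpen Metric.isOpen_ball hz, h3 z hz]) hy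
    (Metric.mem_ball_self hε)

end lc

section inv

variable {R : Type*} [NormedRing R] [NormedAlgebra ℂ R] [CompleteSpace R]

theorem hasFDerivAt_inv {F : X → R} {x : X} (hF : DifferentiableAt ℝ F x) (hu : IsUnit (F x)) :
    DifferentiableAt ℝ (fun y => Ring.inverse (F y)) x ∧
    ∀ v, fderiv ℝ (fun y => Ring.inverse (F y)) x v =
      -(Ring.inverse (F x) * fderiv ℝ F x v * Ring.inverse (F x)) := by
  obtain ⟨u, hu⟩ := hu
  have h1 := hasFDerivAt_ringInverse (𝕜 := ℝ) u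
  rw [hu] at h1
  have h2 := h1.comp x hF.hasFDerivAt
  have e : (fun y => Ring.inverse (F y)) = Ring.inverse ∘ F := rfl
  rw [e]
  refine ⟨h2.differentiableAt, fun v => ?_⟩
  rw [h2.fderiv, ← hu, Ring.inverse_unit]
  simp

theorem dW_inv {F : X → R} {x : X} (hF : DifferentiableAt ℝ F x) (hu : IsUnit (F x)) (v : X) :
    dW (fun y => Ring.inverse (F y)) v x =
      -(Ring.inverse (F x) * dW F v x * Ring.inverse (F x)) := by
  have h := (hasFDerivAt_inv hF hu).2
  unfold dW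
  rw [h, h]
  simp only [mul_sub, sub_mul, mul_smul_comm, smul_mul_assoc]
  module

theorem dB_inv {F : X → R} {x : X} (hF : DifferentiableAt ℝ F x) (hu : IsUnit (F x)) (v : X) :
    dB (fun y => Ring.inverse (F y)) v x =
      -(Ring.inverse (F x) * dB F v x * Ring.inverse (F x)) := by
  have h := (hasFDerivAt_inv hF hu).2
  unfold dB
  rw [h, h]
  simp only [mul_add, add_mul, mul_smul_comm, smul_mul_assoc]
  module

theorem contDiffOn_inv {F : X → R} {U : Set X} (hF : ContDiffOn ℝ ∞ F U)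
    (hu : ∀ x ∈ U, IsUnit (F x)) : ContDiffOn ℝ ∞ (fun y => Ring.inverse (F y)) U := by
  intro x hx
  obtain ⟨u, h1⟩ := hu x hx
  have h2 : ContDiffAt ℝ ∞ Ring.inverse (F x) := by
    rw [← h1]; exact contDiffAt_ringInverse ℝ u
  exact h2.comp_contDiffWithinAt x (hF x hx)

end inv

/-- linear maps between finite dimensional normed algebras are continuous -/
noncomputable def mkM {R R' : Type*} [NormedRing R] [NormedAlgebra ℂ R] [FiniteDimensional ℂ R]
    [NormedRing R'] [NormedAlgebra ℂ R'] (f : R →ₗ[ℂ] R') : R →L[ℂ] R' :=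
  LinearMap.toContinuousLinearMap f

section nm

attribute [local instance] Matrix.linftyOpNormedRing Matrix.linftyOpNormedAlgebra

theorem differentiableAt_det (A : Matrix κ κ ℂ) :
    DifferentiableAt ℝ (fun B : Matrix κ κ ℂ => B.det) A := by
  simp only [Matrix.det_apply]
  refine DifferentiableAt.fun_sum fun σ _ => ?_
  refine DifferentiableAt.fun_const_smul ?_ _
  exact (HasFDerivAt.finsetProd (u := Finset.univ) (g := fun i (B : Matrix κ κ ℂ) => B (σ i) i)
    (x := A) (fun i _ => (((ent (σ i) i).restrictScalars ℝ).differentiableAt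
      (x := A)).hasFDerivAt)).differentiableAt

theorem contDiff_det : ContDiff ℝ ∞ (fun B : Matrix κ κ ℂ => B.det) := by
  simp only [Matrix.det_apply]
  refine ContDiff.sum fun σ _ => ?_
  refine ContDiff.const_smul _ ?_
  exact contDiff_prod fun i _ => ((ent (σ i) i).restrictScalars ℝ).contDiff

theorem hasDerivAt_det_one_add (B : Matrix κ κ ℂ) :
    HasDerivAt (fun t : ℝ => (1 + (t : ℂ) • B).det) B.trace 0 := by
  have h : ∀ t : ℝ, (1 + (t : ℂ) • B).det = 1 + B.trace * (t : ℂ)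
      + (((1 : Matrix κ κ (Polynomial ℂ)) + (Polynomial.X : Polynomial ℂ) •
        B.map Polynomial.C).det.divX.divX.eval (t : ℂ)) * (t : ℂ) ^ 2 := by
    intro t; exact Matrix.det_one_add_smul _ _
  simp only [h]
  have h0 : HasDerivAt (fun t : ℝ => (t : ℂ)) 1 0 := Complex.ofRealCLM.hasDerivAt
  have h1 := (Polynomial.hasDerivAt ((1 : Matrix κ κ (Polynomial ℂ)) +
    (Polynomial.X : Polynomial ℂ) • B.map Polynomial.C).det.divX.divX ((0 : ℝ) : ℂ)).comp (0 : ℝ) h0
  have h2 := ((h0.const_mul B.trace).const_add 1).add (h1.mul (h0.pow 2))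
  refine h2.congr_deriv ?_
  simp

/-- Jacobi's formula -/
theorem fderiv_det {F : X → Matrix κ κ ℂ} {x : X} (hF : DifferentiableAt ℝ F x)
    (hu : IsUnit (F x)) (v : X) :
    fderiv ℝ (fun y => (F y).det) x v = (F x).det * ((F x)⁻¹ * fderiv ℝ F x v).trace := by
  have hd := (Matrix.isUnit_iff_isUnit_det _).1 hu
  have h1 := (differentiableAt_det (F x)).hasFDerivAt
  have h2 := (h1.comp x hF.hasFDerivAt).fderiv
  have e : fderiv ℝ (fun y => (F y).det) x = _ := h2
  rw [e]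
  set A' := fderiv ℝ F x v with hA'
  show fderiv ℝ (fun B : Matrix κ κ ℂ => B.det) (F x) A' = _
  have h3 : HasDerivAt (fun t : ℝ => F x + t • A') A' 0 := by
    have h := ((hasDerivAt_id (0 : ℝ)).smul_const A').const_add (F x)
    rw [one_smul] at h
    exact h
  have h4 : HasFDerivAt (fun B : Matrix κ κ ℂ => B.det)
      (fderiv ℝ (fun B : Matrix κ κ ℂ => B.det) (F x)) (F x + (0 : ℝ) • A') := by
    simpa using h1
  have h5 := h4.comp_hasDerivAt (0 : ℝ) h3
  have h6 : ((fun B : Matrix κ κ ℂ => B.det) ∘ fun t : ℝ => F x + t • A')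
      = fun t : ℝ => (F x).det * (1 + (t : ℂ) • ((F x)⁻¹ * A')).det := by
    ext t
    simp only [Function.comp]
    rw [← Matrix.det_mul, Matrix.mul_add, Matrix.mul_one, Matrix.mul_smul, ← Matrix.mul_assoc,
      Matrix.mul_nonsing_inv _ hd, Matrix.one_mul]
    congr 2
  rw [h6] at h5
  have h7 := (hasDerivAt_det_one_add ((F x)⁻¹ * A')).const_mul (F x).det
  exact h5.unique h7

/-- derivative of `log det` -/
theorem dW_logdet {F : X → Matrix κ κ ℂ} {x : X} (hF : DifferentiableAt ℝ F x)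
    (hp : ∀ᶠ y in 𝓝 x, (F y).PosDef) (v : X) :
    DifferentiableAt ℝ (fun y => Real.log (F y).det.re) x ∧
    dW (cx (fun y => Real.log (F y).det.re)) v x = ((F x)⁻¹ * dW F v x).trace ∧
    dB (cx (fun y => Real.log (F y).det.re)) v x = ((F x)⁻¹ * dB F v x).trace := by
  have hx : (F x).PosDef := hp.self_of_nhds
  have hdet : ∀ M : Matrix κ κ ℂ, M.PosDef → 0 < M.det.re ∧ M.det = (M.det.re : ℂ) := by
    intro M hM
    have h1 := Complex.pos_iff.1 hM.det_pos
    exact ⟨h1.1, Complex.ext (by simp) (by simp [← h1.2])⟩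
  have hdF : DifferentiableAt ℝ (fun y => (F y).det) x :=
    (differentiableAt_det (F x)).comp x hF
  have hre : DifferentiableAt ℝ (fun y => (F y).det.re) x :=
    Complex.reCLM.differentiableAt.comp x hdF
  have hlog : DifferentiableAt ℝ (fun y => Real.log (F y).det.re) x :=
    hre.log (hdet _ hx).1.ne'
  have hev : cx (fun y => Real.log (F y).det.re) =ᶠ[𝓝 x] fun y => Complex.log (F y).det := by
    filter_upwards [hp] with y hy
    have h2 := hdet _ hy
    unfold cx
    rw [Complex.ofReal_log h2.1.le, ← h2.2]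
  have hsl : (F x).det ∈ Complex.slitPlane := by
    rw [(hdet _ hx).2]
    exact Complex.ofReal_mem_slitPlane.2 (hdet _ hx).1
  have key : ∀ v, fderiv ℝ (cx (fun y => Real.log (F y).det.re)) x v =
      ((F x)⁻¹ * fderiv ℝ F x v).trace := by
    intro v
    rw [hev.fderiv_eq]
    have h3 := ((Complex.hasStrictFDerivAt_log_real hsl).hasFDerivAt.comp x
      hdF.hasFDerivAt).fderiv
    have e3 : fderiv ℝ (fun y => Complex.log (F y).det) x = _ := h3
    rw [e3]
    show (F x).det⁻¹ • fderiv ℝ (fun y => (F y).det) x v = _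
    rw [fderiv_det hF hx.isUnit, smul_eq_mul, ← mul_assoc,
      inv_mul_cancel₀ (Complex.slitPlane_ne_zero hsl), one_mul]
  refine ⟨hlog, ?_, ?_⟩
  · unfold dW
    rw [key, key, Matrix.mul_smul, Matrix.mul_sub, Matrix.mul_smul, Matrix.trace_smul,
      Matrix.trace_sub, Matrix.trace_smul]
    rfl
  · unfold dB
    rw [key, key, Matrix.mul_smul, Matrix.mul_add, Matrix.mul_smul, Matrix.trace_smul,
      Matrix.trace_add, Matrix.trace_smul]
    rfl

/-- `M ↦ Bᴴ M B` -/
noncomputable def gmL (B : Matrix ι κ ℂ) := mkM (R := Matrix ι ι ℂ) (R' := Matrix κ κ ℂ)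
  { toFun := fun M => Bᴴ * M * B
    map_add' := fun M N => by rw [Matrix.mul_add, Matrix.add_mul]
    map_smul' := fun c M => by rw [Matrix.mul_smul, Matrix.smul_mul]; rfl }

theorem gmL_apply (B : Matrix ι κ ℂ) (M : Matrix ι ι ℂ) : gmL B M = Bᴴ * M * B := rfl

/-- `M ↦ B M Bᴴ` -/
noncomputable def brL (B : Matrix ι κ ℂ) := mkM (R := Matrix κ κ ℂ) (R' := Matrix ι ι ℂ)
  { toFun := fun M => B * M * Bᴴ
    map_add' := fun M N => by rw [Matrix.mul_add, Matrix.add_mul]
    map_smul' := fun c M => by rw [Matrix.mul_smul, Matrix.smul_mul]; rfl }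

theorem brL_apply (B : Matrix ι κ ℂ) (M : Matrix κ κ ℂ) : brL B M = B * M * Bᴴ := rfl

/-- `log det` of the Gram matrix of the constant frame `B` -/
noncomputable def ug (w : ℕ) (S : Matrix ι ι ℂ) (P : ℕ → X → Matrix ι ι ℂ) (B : Matrix ι κ ℂ)
    (x : X) : ℝ := Real.log (gm B (hm w S P x)).det.re

section vhs

variable {w : ℕ} {U : Set X} {S : Matrix ι ι ℂ} {P : ℕ → X → Matrix ι ι ℂ} {x : X}
  {B : Matrix ι κ ℂ}

theorem sm_gm (h : VHS w U S P) (B : Matrix ι κ ℂ) :
    ContDiffOn ℝ ∞ (fun y => gm B (hm w S P y)) U :=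
  ((gmL B).restrictScalars ℝ).contDiff.comp_contDiffOn h.sm_hm

theorem d_gm (h : VHS w U S P) (B : Matrix ι κ ℂ) (hx : x ∈ U) :
    DifferentiableAt ℝ (fun y => gm B (hm w S P y)) x := diffAt h.op (sm_gm h B) hx

theorem dW_gm (h : VHS w U S P) (B : Matrix ι κ ℂ) (hx : x ∈ U) (v : X) :
    dW (fun y => gm B (hm w S P y)) v x =
      (-2 : ℂ) • (Bᴴ * (hm w S P x * dW (grOp w P) v x) * B) := by
  have h1 : dW (fun y => gmL B (hm w S P y)) v x = gmL B (dW (hm w S P) v x) :=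
    dW_clm (gmL B) (h.d_hm hx) v
  refine h1.trans ?_
  rw [h.dW_hm hx, map_smul, gmL_apply]

theorem dB_gm (h : VHS w U S P) (B : Matrix ι κ ℂ) (hx : x ∈ U) (v : X) :
    dB (fun y => gm B (hm w S P y)) v x =
      (-2 : ℂ) • (Bᴴ * (hm w S P x * tb (grOp w P) v x) * B) := by
  have h1 : dB (fun y => gmL B (hm w S P y)) v x = gmL B (dB (hm w S P) v x) :=
    dB_clm (gmL B) (h.d_hm hx) v
  refine h1.trans ?_
  rw [h.dB_hm hx, map_smul, gmL_apply]

theorem unit_gm (h : VHS w U S P) (hB : Function.Injective B.mulVec) (hx : x ∈ U) :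
    IsUnit (gm B (hm w S P x)) := (gm_posDef hB (h.hmPos hx)).isUnit

/-- `R = B G⁻¹ Bᴴ` -/
noncomputable def rj (B : Matrix ι κ ℂ) (K : Matrix ι ι ℂ) : Matrix ι ι ℂ := brL B (Ring.inverse (gm B K))

theorem pj_eq (B : Matrix ι κ ℂ) (K : Matrix ι ι ℂ) : pj B K = rj B K * K := by
  unfold pj rj
  rw [brL_apply, Matrix.nonsing_inv_eq_ringInverse]

theorem sm_rj (h : VHS w U S P) (hB : Function.Injective B.mulVec) :
    ContDiffOn ℝ ∞ (fun y => rj B (hm w S P y)) U :=
  ((brL B).restrictScalars ℝ).contDiff.comp_contDiffOn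
    (contDiffOn_inv (sm_gm h B) fun _ hy => unit_gm h hB hy)

theorem sm_pj (h : VHS w U S P) (hB : Function.Injective B.mulVec) :
    ContDiffOn ℝ ∞ (fun y => pj B (hm w S P y)) U := by
  have e : (fun y => pj B (hm w S P y)) = fun y => rj B (hm w S P y) * hm w S P y := by
    funext y; exact pj_eq _ _
  rw [e]
  exact (sm_rj h hB).mul h.sm_hm

theorem dW_rj (h : VHS w U S P) (hB : Function.Injective B.mulVec) (hx : x ∈ U) (v : X) :
    dW (fun y => rj B (hm w S P y)) v x = (2 : ℂ) • (rj B (hm w S P x) *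
      (hm w S P x * dW (grOp w P) v x) * rj B (hm w S P x)) := by
  have hu := unit_gm h hB hx
  have hd := d_gm h B hx
  have h1 : dW (fun y => rj B (hm w S P y)) v x =
      brL B (dW (fun y => Ring.inverse (gm B (hm w S P y))) v x) :=
    dW_clm (brL B) (hasFDerivAt_inv hd hu).1 v
  rw [h1, dW_inv hd hu, dW_gm h B hx]
  unfold rj
  rw [brL_apply, brL_apply, mul_smul_comm, smul_mul_assoc, ← neg_smul, Matrix.mul_smul,
    Matrix.smul_mul, neg_neg]
  simp only [Matrix.mul_assoc]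

theorem dB_rj (h : VHS w U S P) (hB : Function.Injective B.mulVec) (hx : x ∈ U) (v : X) :
    dB (fun y => rj B (hm w S P y)) v x = (2 : ℂ) • (rj B (hm w S P x) *
      (hm w S P x * tb (grOp w P) v x) * rj B (hm w S P x)) := by
  have hu := unit_gm h hB hx
  have hd := d_gm h B hx
  have h1 : dB (fun y => rj B (hm w S P y)) v x =
      brL B (dB (fun y => Ring.inverse (gm B (hm w S P y))) v x) :=
    dB_clm (brL B) (hasFDerivAt_inv hd hu).1 v
  rw [h1, dB_inv hd hu, dB_gm h B hx]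
  unfold rj
  rw [brL_apply, brL_apply, mul_smul_comm, smul_mul_assoc, ← neg_smul, Matrix.mul_smul,
    Matrix.smul_mul, neg_neg]
  simp only [Matrix.mul_assoc]

/-- `∂_v Π = -2 Π θ_v (1-Π)` -/
theorem dW_pj (h : VHS w U S P) (hB : Function.Injective B.mulVec) (hx : x ∈ U) (v : X) :
    dW (fun y => pj B (hm w S P y)) v x = (-2 : ℂ) • (pj B (hm w S P x) *
      dW (grOp w P) v x * (1 - pj B (hm w S P x))) := by
  have e : (fun y => pj B (hm w S P y)) = fun y => rj B (hm w S P y) * hm w S P y := by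
    funext y; exact pj_eq _ _
  rw [e, dW_mul (diffAt h.op (sm_rj h hB) hx) (h.d_hm hx), dW_rj h hB hx, h.dW_hm hx, pj_eq]
  simp only [smul_mul_assoc, mul_smul_comm, mul_sub, mul_one, ← mul_assoc]
  module

/-- `∂̄_v Π = -2 Π θ̄_v (1-Π)` -/
theorem dB_pj (h : VHS w U S P) (hB : Function.Injective B.mulVec) (hx : x ∈ U) (v : X) :
    dB (fun y => pj B (hm w S P y)) v x = (-2 : ℂ) • (pj B (hm w S P x) *
      tb (grOp w P) v x * (1 - pj B (hm w S P x))) := by
  have e : (fun y => pj B (hm w S P y)) = fun y => rj B (hm w S P y) * hm w S P y := by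
    funext y; exact pj_eq _ _
  rw [e, dB_mul (diffAt h.op (sm_rj h hB) hx) (h.d_hm hx), dB_rj h hB hx, h.dB_hm hx, pj_eq]
  simp only [smul_mul_assoc, mul_smul_comm, mul_sub, mul_one, ← mul_assoc]
  module

theorem sm_ug (h : VHS w U S P) (hB : Function.Injective B.mulVec) :
    ContDiffOn ℝ ∞ (ug w S P B) U := by
  have h1 : ContDiffOn ℝ ∞ (fun y => (gm B (hm w S P y)).det.re) U :=
    Complex.reCLM.contDiff.comp_contDiffOn (contDiff_det.comp_contDiffOn (sm_gm h B))
  exact h1.log fun y hy => (Complex.pos_iff.1 (gm_posDef hB (h.hmPos hy)).det_pos).1.ne'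

theorem posDef_ev (h : VHS w U S P) (hB : Function.Injective B.mulVec) (hx : x ∈ U) :
    ∀ᶠ y in 𝓝 x, (gm B (hm w S P y)).PosDef :=
  Filter.eventually_of_mem (h.op.mem_nhds hx) fun _ hy => gm_posDef hB (h.hmPos hy)

/-- `∂_v u = -2 tr (Π θ_v)` -/
theorem dW_ug (h : VHS w U S P) (hB : Function.Injective B.mulVec) (hx : x ∈ U) (v : X) :
    dW (cx (ug w S P B)) v x = -2 * trL (pj B (hm w S P x) * dW (grOp w P) v x) := by
  have h1 := (dW_logdet (d_gm h B hx) (posDef_ev h hB hx) v).2.1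
  have e : dW (cx (ug w S P B)) v x = _ := h1
  rw [e, dW_gm h B hx, Matrix.mul_smul, Matrix.trace_smul, smul_eq_mul, trL_apply]
  congr 1
  unfold pj
  rw [Matrix.trace_mul_comm]
  rw [Matrix.mul_assoc B, Matrix.mul_assoc B, Matrix.mul_assoc B, Matrix.trace_mul_comm B]
  rw [Matrix.trace_mul_comm]
  simp only [Matrix.mul_assoc]

/-- trace identity behind the second derivative -/
theorem trace_id (p t s : Matrix ι ι ℂ) (hp : p * p = p) :
    -2 * trL ((-2 : ℂ) • (p * s * (1 - p)) * t + p * (s * t - t * s)) =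
      2 * (((1 - p) * t * p * (p * (s * (1 - p)))).trace +
        ((1 - p) * s * p * (p * (t * (1 - p)))).trace) := by
  have hq : (1 - p) * (1 - p) = 1 - p := by
    rw [mul_sub, sub_mul, sub_mul, hp]; simp
  have key : ∀ a b : Matrix ι ι ℂ, ((1 - p) * a * p * (p * (b * (1 - p)))).trace =
      (p * b * a).trace - (p * b * p * a).trace := by
    intro a b
    calc ((1 - p) * a * p * (p * (b * (1 - p)))).trace
        = ((p * (b * (1 - p))) * ((1 - p) * a * p)).trace := Matrix.trace_mul_comm _ _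
      _ = ((p * b * ((1 - p) * (1 - p)) * a) * p).trace := by
          congr 1; noncomm_ring
      _ = (p * (p * b * ((1 - p) * (1 - p)) * a)).trace := Matrix.trace_mul_comm _ _
      _ = ((p * p) * b * (1 - p) * a).trace := by rw [hq]; congr 1; noncomm_ring
      _ = (p * b * a - p * b * p * a).trace := by rw [hp]; congr 1; noncomm_ring
      _ = _ := Matrix.trace_sub _ _
  have e : (p * t * p * s).trace = (p * s * p * t).trace := by
    rw [mul_assoc (p * t), Matrix.trace_mul_comm, ← mul_assoc]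
  rw [key, key, e]
  simp only [map_add, map_sub, map_smul, mul_sub, sub_mul, mul_one, smul_sub, smul_mul_assoc,
    trL_apply, ← mul_assoc, smul_eq_mul]
  ring

theorem adj_one {K : Matrix ι ι ℂ} : Adj K 1 1 := by
  unfold Adj; simp

theorem adj_a (h : VHS w U S P) (hB : Function.Injective B.mulVec) (hx : x ∈ U) {t s : Matrix ι ι ℂ}
    (hts : Adj (hm w S P x) t s) :
    Adj (hm w S P x) ((1 - pj B (hm w S P x)) * t * pj B (hm w S P x))
      (pj B (hm w S P x) * (s * (1 - pj B (hm w S P x)))) := by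
  have h1 := adj_pj hB (h.hmPos hx)
  have h2 : Adj (hm w S P x) (1 - pj B (hm w S P x)) (1 - pj B (hm w S P x)) := adj_one.sub h1
  exact (h2.mul hts).mul h1

/-- **(DS)** `∂̄_v ∂_v u = 2 (|(1-Π) θ_v Π|² + |(1-Π) θ̄_v Π|²)` -/
theorem dB_dW_ug (h : VHS w U S P) (hB : Function.Injective B.mulVec) (hx : x ∈ U) (v : X) :
    dB (dW (cx (ug w S P B)) v) v x =
      2 * (((1 - pj B (hm w S P x)) * dW (grOp w P) v x * pj B (hm w S P x) *
          (pj B (hm w S P x) * (tb (grOp w P) v x * (1 - pj B (hm w S P x))))).trace +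
        ((1 - pj B (hm w S P x)) * tb (grOp w P) v x * pj B (hm w S P x) *
          (pj B (hm w S P x) * (dW (grOp w P) v x * (1 - pj B (hm w S P x))))).trace) := by
  have hdp : DifferentiableAt ℝ (fun y => pj B (hm w S P y)) x := diffAt h.op (sm_pj h hB) hx
  have hdt := h.gr.d_th hx v
  have h1 : dW (cx (ug w S P B)) v =ᶠ[𝓝 x]
      fun y => (-2 : ℂ) • trL (pj B (hm w S P y) * dW (grOp w P) v y) :=
    Filter.eventually_of_mem (h.op.mem_nhds hx) fun y hy => dW_ug h hB hy v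
  have hdd : DifferentiableAt ℝ (fun y => pj B (hm w S P y) * dW (grOp w P) v y) x :=
    hdp.fun_mul hdt
  have hdT : DifferentiableAt ℝ (fun y => trL (pj B (hm w S P y) * dW (grOp w P) v y)) x :=
    ((trL (ι := ι)).restrictScalars ℝ).differentiableAt.comp x hdd
  rw [dB_congr h1 v, dB_const_smul _ hdT, dB_clm trL hdd, dB_mul hdp hdt, dB_pj h hB hx,
    h.gr.dB_th hx, smul_eq_mul]
  exact trace_id _ _ _ (pj_mul_pj hB (h.hmPos hx))

theorem ug_nonneg (h : VHS w U S P) (hB : Function.Injective B.mulVec) (hx : x ∈ U) (v : X) :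
    0 ≤ (dB (dW (cx (ug w S P B)) v) v x).re := by
  rw [dB_dW_ug h hB hx]
  have hK := h.hmPos hx
  have h1 := (adj_a h hB hx (h.adj_th_tb hx v)).trace_re_nonneg hK
  have h2 := (adj_a h hB hx ((h.adj_th_tb hx v).symm hK.1)).trace_re_nonneg hK
  have e : ∀ a b : ℂ, (2 * (a + b)).re = 2 * (a.re + b.re) := by
    intro a b; simp
  rw [e]
  linarith

/-- `|∂_v u|² ≤ 4 (rank) g_v` -/
theorem ug_bound (h : VHS w U S P) (hB : Function.Injective B.mulVec) (hx : x ∈ U) (v : X) :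
    ‖dW (cx (ug w S P B)) v x‖ ^ 2 ≤ 4 * Fintype.card κ * gden w P v x := by
  have hK := h.hmPos hx
  have h1 := (adj_pj hB hK).cauchy hK ((h.adj_th_tb hx v).symm hK.1)
  have h2 : (pj B (hm w S P x) * pj B (hm w S P x)).trace.re = Fintype.card κ := by
    rw [pj_mul_pj hB hK, trace_pj hB hK]; simp
  have h3 : (tb (grOp w P) v x * dW (grOp w P) v x).trace.re = gden w P v x := by
    unfold gden
    rw [h.gg_eq hx, Matrix.trace_mul_comm]
    rfl
  rw [h2, h3] at h1
  rw [dW_ug h hB hx, norm_mul, mul_pow]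
  norm_num
  have h4 : ‖trL (pj B (hm w S P x) * dW (grOp w P) v x)‖ ^ 2 ≤
    Fintype.card κ * gden w P v x := h1
  linarith


/-- **(DS0)** equality case at a point -/
theorem ug_eq_at (h : VHS w U S P) (hB : Function.Injective B.mulVec) (hx : x ∈ U) {v : X}
    (h3 : (dB (dW (cx (ug w S P B)) v) v x).re = 0) :
    dW (grOp w P) v x * pj B (hm w S P x) = pj B (hm w S P x) * dW (grOp w P) v x ∧
    tb (grOp w P) v x * pj B (hm w S P x) = pj B (hm w S P x) * tb (grOp w P) v x := by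
  have hK := h.hmPos hx
  have a1 := adj_a h hB hx (h.adj_th_tb hx v)
  have a2 := adj_a h hB hx ((h.adj_th_tb hx v).symm hK.1)
  have n1 := a1.trace_re_nonneg hK
  have n2 := a2.trace_re_nonneg hK
  rw [dB_dW_ug h hB hx] at h3
  have e : ∀ a b : ℂ, (2 * (a + b)).re = 2 * (a.re + b.re) := by
    intro a b; simp
  rw [e] at h3
  have z1 := a1.eq_zero_of_trace hK (by linarith)
  have z2 := a2.eq_zero_of_trace hK (by linarith)
  have hp := pj_mul_pj hB hK
  -- the adjoints vanish as well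
  have adj0 : ∀ {a a' : Matrix ι ι ℂ}, Adj (hm w S P x) a a' → a = 0 → a' = 0 := by
    intro a a' haa h0
    have h4 : hm w S P x * a' = hm w S P x * 0 := by
      rw [← haa, h0]; simp
    exact hK.isUnit.mul_left_cancel h4
  have z3 := adj0 a1 z1
  have z4 := adj0 a2 z2
  set p := pj B (hm w S P x)
  set t := dW (grOp w P) v x
  set s := tb (grOp w P) v x
  have f1 : t * p = p * t * p := by
    have : t * p - p * t * p = (1 - p) * t * p := by noncomm_ring
    rw [← sub_eq_zero, this, z1]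
  have f2 : p * t = p * t * p := by
    have : p * t - p * t * p = p * (t * (1 - p)) := by noncomm_ring
    rw [← sub_eq_zero, this, z4]
  have f3 : s * p = p * s * p := by
    have : s * p - p * s * p = (1 - p) * s * p := by noncomm_ring
    rw [← sub_eq_zero, this, z2]
  have f4 : p * s = p * s * p := by
    have : p * s - p * s * p = p * (s * (1 - p)) := by noncomm_ring
    rw [← sub_eq_zero, this, z3]
  exact ⟨f1.trans f2.symm, f3.trans f4.symm⟩

/-- if the Levi form of `u = log det Gram` vanishes on `U`, the projector `Π` is locally constant -/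
theorem pj_const (h : VHS w U S P) (hB : Function.Injective B.mulVec)
    (h0 : ∀ x ∈ U, ∀ v, (dB (dW (cx (ug w S P B)) v) v x).re = 0) (hx : x ∈ U) :
    ∀ᶠ y in 𝓝 x, pj B (hm w S P y) = pj B (hm w S P x) := by
  refine loc_const (F := fun y => pj B (hm w S P y)) h.op
    (fun y hy => diffAt h.op (sm_pj h hB) hy) ?_ ?_ hx
  · intro y hy v
    have h1 := (ug_eq_at h hB hy (h0 y hy v)).1
    rw [dW_pj h hB hy, ← h1, mul_sub, mul_one, mul_assoc, pj_mul_pj hB (h.hmPos hy), sub_self,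
      smul_zero]
  · intro y hy v
    have h1 := (ug_eq_at h hB hy (h0 y hy v)).2
    rw [dB_pj h hB hy, ← h1, mul_sub, mul_one, mul_assoc, pj_mul_pj hB (h.hmPos hy), sub_self,
      smul_zero]


/-! ### flat endomorphisms -/

/-- the adjoint `K⁻¹ Aᴴ K` -/
noncomputable def sj (A K : Matrix ι ι ℂ) : Matrix ι ι ℂ := Ring.inverse K * Aᴴ * K

/-- squared Hodge norm `tr (A* A)` of the flat endomorphism `A` -/
noncomputable def na (w : ℕ) (S : Matrix ι ι ℂ) (P : ℕ → X → Matrix ι ι ℂ) (A : Matrix ι ι ℂ)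
    (x : X) : ℝ := (trL (sj A (hm w S P x) * A)).re

theorem adj_sj {A K : Matrix ι ι ℂ} (hK : K.PosDef) : Adj K A (sj A K) := by
  unfold Adj sj
  have hd := (Matrix.isUnit_iff_isUnit_det _).1 hK.isUnit
  rw [← Matrix.nonsing_inv_eq_ringInverse]
  calc Aᴴ * K = 1 * (Aᴴ * K) := by rw [one_mul]
    _ = K * K⁻¹ * (Aᴴ * K) := by rw [Matrix.mul_nonsing_inv _ hd]
    _ = _ := by simp only [mul_assoc]

theorem sm_sj (h : VHS w U S P) (A : Matrix ι ι ℂ) :
    ContDiffOn ℝ ∞ (fun y => sj A (hm w S P y)) U :=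
  ((contDiffOn_inv h.sm_hm fun _ hy => (h.hmPos hy).isUnit).mul contDiffOn_const).mul h.sm_hm

theorem dW_sj (h : VHS w U S P) (A : Matrix ι ι ℂ) (hx : x ∈ U) (v : X) :
    dW (fun y => sj A (hm w S P y)) v x = (2 : ℂ) • (dW (grOp w P) v x * sj A (hm w S P x) -
      sj A (hm w S P x) * dW (grOp w P) v x) := by
  have hu := (h.hmPos hx).isUnit
  have hd := h.d_hm hx
  have hi := (hasFDerivAt_inv hd hu).1
  have e : (fun y => sj A (hm w S P y)) = fun y => Ring.inverse (hm w S P y) * Aᴴ * hm w S P y := rfl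
  rw [e, dW_mul (hi.fun_mul (differentiableAt_const _)) hd,
    dW_mul hi (differentiableAt_const _), dW_inv hd hu, h.dW_hm hx, dW_const]
  have hinv : Ring.inverse (hm w S P x) * hm w S P x = 1 := Ring.inverse_mul_cancel _ hu
  unfold sj
  simp only [mul_smul_comm, smul_mul_assoc, mul_zero, add_zero, neg_mul, ← mul_assoc]
  rw [hinv, one_mul]
  module

theorem dB_sj (h : VHS w U S P) (A : Matrix ι ι ℂ) (hx : x ∈ U) (v : X) :
    dB (fun y => sj A (hm w S P y)) v x = (2 : ℂ) • (tb (grOp w P) v x * sj A (hm w S P x) -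
      sj A (hm w S P x) * tb (grOp w P) v x) := by
  have hu := (h.hmPos hx).isUnit
  have hd := h.d_hm hx
  have hi := (hasFDerivAt_inv hd hu).1
  have e : (fun y => sj A (hm w S P y)) = fun y => Ring.inverse (hm w S P y) * Aᴴ * hm w S P y := rfl
  rw [e, dB_mul (hi.fun_mul (differentiableAt_const _)) hd,
    dB_mul hi (differentiableAt_const _), dB_inv hd hu, h.dB_hm hx, dB_const]
  have hinv : Ring.inverse (hm w S P x) * hm w S P x = 1 := Ring.inverse_mul_cancel _ hu
  unfold sj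
  simp only [mul_smul_comm, smul_mul_assoc, mul_zero, add_zero, neg_mul, ← mul_assoc]
  rw [hinv, one_mul]
  module

theorem sm_na (h : VHS w U S P) (A : Matrix ι ι ℂ) : ContDiffOn ℝ ∞ (na w S P A) U := by
  have h1 : ContDiffOn ℝ ∞ (fun y => trL (sj A (hm w S P y) * A)) U :=
    ((trL (ι := ι)).restrictScalars ℝ).contDiff.comp_contDiffOn ((sm_sj h A).mul contDiffOn_const)
  exact Complex.reCLM.contDiff.comp_contDiffOn h1

theorem na_eq (h : VHS w U S P) (A : Matrix ι ι ℂ) (hx : x ∈ U) :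
    (na w S P A x : ℂ) = trL (sj A (hm w S P x) * A) := by
  have h1 := (adj_sj (A := A) (h.hmPos hx)).trace_im (h.hmPos hx)
  apply Complex.ext
  · rfl
  · rw [Complex.ofReal_im, trL_comm]
    exact h1.symm

theorem na_nonneg (h : VHS w U S P) (A : Matrix ι ι ℂ) (hx : x ∈ U) : 0 ≤ na w S P A x := by
  have h1 := (adj_sj (A := A) (h.hmPos hx)).trace_re_nonneg (h.hmPos hx)
  unfold na
  rw [trL_comm]
  exact h1


theorem na_ev (h : VHS w U S P) (A : Matrix ι ι ℂ) (hx : x ∈ U) :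
    cx (na w S P A) =ᶠ[𝓝 x] fun y => trL (sj A (hm w S P y) * A) :=
  Filter.eventually_of_mem (h.op.mem_nhds hx) fun _ hy => na_eq h A hy

theorem d_sj (h : VHS w U S P) (A : Matrix ι ι ℂ) (hx : x ∈ U) :
    DifferentiableAt ℝ (fun y => sj A (hm w S P y)) x := diffAt h.op (sm_sj h A) hx

/-- `∂_v |A|² = -2 tr (A* [θ_v, A])` -/
theorem dW_na (h : VHS w U S P) (A : Matrix ι ι ℂ) (hx : x ∈ U) (v : X) :
    dW (cx (na w S P A)) v x =
      -2 * trL (sj A (hm w S P x) * (dW (grOp w P) v x * A - A * dW (grOp w P) v x)) := by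
  rw [dW_congr (na_ev h A hx), dW_clm trL ((d_sj h A hx).fun_mul (differentiableAt_const _)),
    dW_mul (d_sj h A hx) (differentiableAt_const _), dW_sj h A hx, dW_const]
  set s := sj A (hm w S P x)
  set t := dW (grOp w P) v x
  have e : trL (t * s * A) = trL (s * A * t) := by rw [mul_assoc, trL_comm]
  simp only [mul_zero, add_zero, smul_mul_assoc, map_smul, sub_mul, mul_sub, map_sub, ← mul_assoc,
    smul_eq_mul]
  rw [e]
  ring

/-- **(FP)** `∂̄_v ∂_v |A|² = 2 (|[θ_v,A]|² + |[θ̄_v,A]|²)` -/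
theorem dB_dW_na (h : VHS w U S P) (A : Matrix ι ι ℂ) (hx : x ∈ U) (v : X) :
    dB (dW (cx (na w S P A)) v) v x =
      2 * (((dW (grOp w P) v x * A - A * dW (grOp w P) v x) *
          (sj A (hm w S P x) * tb (grOp w P) v x - tb (grOp w P) v x * sj A (hm w S P x))).trace +
        ((tb (grOp w P) v x * A - A * tb (grOp w P) v x) *
          (sj A (hm w S P x) * dW (grOp w P) v x -
            dW (grOp w P) v x * sj A (hm w S P x))).trace) := by
  have hdt := h.gr.d_th hx v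
  have hds := d_sj h A hx
  have hdA : DifferentiableAt ℝ (fun _ : X => A) x := differentiableAt_const _
  have h1 : dW (cx (na w S P A)) v =ᶠ[𝓝 x]
      fun y => (-2 : ℂ) • trL (sj A (hm w S P y) *
        (dW (grOp w P) v y * A - A * dW (grOp w P) v y)) :=
    Filter.eventually_of_mem (h.op.mem_nhds hx) fun y hy => dW_na h A hy v
  have hdc : DifferentiableAt ℝ (fun y => dW (grOp w P) v y * A - A * dW (grOp w P) v y) x :=
    (hdt.fun_mul hdA).fun_sub (hdA.fun_mul hdt)
  have hdd := hds.fun_mul hdc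
  have hdT : DifferentiableAt ℝ (fun y => trL (sj A (hm w S P y) *
      (dW (grOp w P) v y * A - A * dW (grOp w P) v y))) x :=
    ((trL (ι := ι)).restrictScalars ℝ).differentiableAt.comp x hdd
  rw [dB_congr h1 v, dB_const_smul _ hdT, dB_clm trL hdd, dB_mul hds hdc, dB_sj h A hx,
    dB_sub (hdt.fun_mul hdA) (hdA.fun_mul hdt), dB_mul hdt hdA, dB_mul hdA hdt,
    h.gr.dB_th hx, dB_const]
  set a := sj A (hm w S P x)
  set t := dW (grOp w P) v x
  set s := tb (grOp w P) v x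
  have c1 : ∀ b c d e : Matrix ι ι ℂ, trL (b * c * d * e) = trL (c * d * e * b) := by
    intro b c d e
    rw [show b * c * d * e = b * (c * d * e) by noncomm_ring, trL_comm]
  have r1 : trL (t * A * a * s) = trL (a * s * t * A) := by rw [c1, c1]
  have r2 : trL (t * A * s * a) = trL (a * t * A * s) := by rw [c1, c1, c1]
  have r3 : trL (A * t * a * s) = trL (a * s * A * t) := by rw [c1, c1]
  have r4 : trL (A * t * s * a) = trL (a * A * t * s) := by rw [c1, c1, c1]
  have r5 : trL (s * A * a * t) = trL (a * t * s * A) := by rw [c1, c1]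
  have r6 : trL (s * A * t * a) = trL (a * s * A * t) := by rw [c1, c1, c1]
  have r7 : trL (A * s * a * t) = trL (a * t * A * s) := by rw [c1, c1]
  have r8 : trL (A * s * t * a) = trL (a * A * s * t) := by rw [c1, c1, c1]
  have r9 : trL (s * a * t * A) = trL (a * t * A * s) := by rw [c1]
  have r10 : trL (s * a * A * t) = trL (a * A * t * s) := by rw [c1]
  simp only [← trL_apply, mul_zero, zero_mul, add_zero, zero_add, smul_mul_assoc, map_smul, sub_mul,
    mul_sub, map_sub, map_add, ← mul_assoc, smul_eq_mul, smul_sub]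
  rw [r1, r2, r3, r4, r5, r6, r7, r8, r9, r10]
  ring

theorem adj_X (h : VHS w U S P) (A : Matrix ι ι ℂ) (hx : x ∈ U) {t s : Matrix ι ι ℂ}
    (hts : Adj (hm w S P x) t s) :
    Adj (hm w S P x) (t * A - A * t) (sj A (hm w S P x) * s - s * sj A (hm w S P x)) :=
  (hts.mul (adj_sj (h.hmPos hx))).sub ((adj_sj (h.hmPos hx)).mul hts)

/-- submultiplicativity of the Hilbert-Schmidt norm -/
theorem hs_mul_le (M N : Matrix ι ι ℂ) : hs (M * N) ≤ hs M * hs N := by
  have e : ∀ M : Matrix ι ι ℂ, hs M = ∑ j, n2 (fun i => M i j) := by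
    intro M
    unfold hs n2
    rw [Finset.sum_comm]
  rw [e (M * N), e N, Finset.mul_sum]
  refine Finset.sum_le_sum fun j _ => ?_
  exact n2_mulVec M (fun i => N i j)

theorem hs_sub_le (M N : Matrix ι ι ℂ) : hs (M - N) ≤ 2 * hs M + 2 * hs N := by
  unfold hs
  rw [Finset.mul_sum, Finset.mul_sum, ← Finset.sum_add_distrib]
  refine Finset.sum_le_sum fun i _ => ?_
  rw [Finset.mul_sum, Finset.mul_sum, ← Finset.sum_add_distrib]
  refine Finset.sum_le_sum fun j _ => ?_
  have h1 := norm_sub_le (M i j) (N i j)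
  have h2 : ‖(M - N) i j‖ = ‖M i j - N i j‖ := rfl
  rw [h2]
  nlinarith [norm_nonneg (M i j - N i j), norm_nonneg (M i j), norm_nonneg (N i j),
    sq_nonneg (‖M i j‖ - ‖N i j‖)]

theorem adj_hs {K D a a' : Matrix ι ι ℂ} (hD : IsUnit D) (hK : K = Dᴴ * D) (h : Adj K a a') :
    (a * a').trace.re = hs (D * a * D⁻¹) := by
  rw [← VCalc_442.trace_conj hD, mul_conj hD, adj_conj hD hK h, trace_mul_conjTranspose_self]
  simp

/-- `|[t, A]|² ≤ 4 |t|² |A|²` -/
theorem comm_bound {K a a' b b' : Matrix ι ι ℂ} (hK : K.PosDef) (h : Adj K a a')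
    (h2 : Adj K b b') : ((a * b - b * a) * (b' * a' - a' * b')).trace.re ≤
      4 * ((a * a').trace.re * (b * b').trace.re) := by
  obtain ⟨D, hD, hKD⟩ := exists_sqrt hK
  rw [adj_hs hD hKD h, adj_hs hD hKD h2, adj_hs hD hKD ((h.mul h2).sub (h2.mul h))]
  have e : D * (a * b - b * a) * D⁻¹ = (D * a * D⁻¹) * (D * b * D⁻¹) -
      (D * b * D⁻¹) * (D * a * D⁻¹) := by
    rw [mul_sub, sub_mul, mul_conj hD, mul_conj hD]
  rw [e]
  refine (hs_sub_le _ _).trans ?_
  have h3 := hs_mul_le (D * a * D⁻¹) (D * b * D⁻¹)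
  have h4 := hs_mul_le (D * b * D⁻¹) (D * a * D⁻¹)
  nlinarith

/-- `log |A|²` is plurisubharmonic -/
theorem curv_na (h : VHS w U S P) (A : Matrix ι ι ℂ) (hx : x ∈ U) (v : X) :
    ‖dW (cx (na w S P A)) v x‖ ^ 2 ≤ na w S P A x * (dB (dW (cx (na w S P A)) v) v x).re := by
  have hK := h.hmPos hx
  have hts := h.adj_th_tb hx v
  have hst := hts.symm hK.1
  have hA : Adj (hm w S P x) A (sj A (hm w S P x)) := adj_sj hK
  have aX := adj_X h A hx hts
  have aY := adj_X h A hx hst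
  have c1 := aX.cauchy hK hA
  have c2 := hA.cauchy hK aY
  have hna : (A * sj A (hm w S P x)).trace.re = na w S P A x := by
    unfold na
    rw [trL_comm]
    rfl
  rw [dW_na h A hx, dB_dW_na h A hx, norm_mul, mul_pow]
  rw [hna] at c1 c2
  set a := sj A (hm w S P x)
  set t := dW (grOp w P) v x
  set s := tb (grOp w P) v x
  have e1 : trL (a * (t * A - A * t)) = ((t * A - A * t) * a).trace := by
    rw [trL_comm]; rfl
  have e2 : trL (a * (t * A - A * t)) = (A * (a * t - t * a)).trace := by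
    rw [← trL_apply]
    have : trL (t * a * A) = trL (a * A * t) := by rw [mul_assoc, trL_comm]
    rw [trL_comm A]
    simp only [mul_sub, sub_mul, map_sub, ← mul_assoc]
    rw [this]
  have d1 : ‖trL (a * (t * A - A * t))‖ ^ 2 ≤
      ((t * A - A * t) * (a * s - s * a)).trace.re * na w S P A x := by rw [e1]; exact c1
  have d2 : ‖trL (a * (t * A - A * t))‖ ^ 2 ≤
      na w S P A x * ((s * A - A * s) * (a * t - t * a)).trace.re := by rw [e2]; exact c2
  have e : ∀ a b : ℂ, (2 * (a + b)).re = 2 * (a.re + b.re) := by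
    intro a b; simp
  rw [e]
  norm_num
  linarith

/-- `|∂_v |A|²|² ≤ 16 g_v |A|⁴` -/
theorem na_bound (h : VHS w U S P) (A : Matrix ι ι ℂ) (hx : x ∈ U) (v : X) :
    ‖dW (cx (na w S P A)) v x‖ ^ 2 ≤ 16 * gden w P v x * na w S P A x ^ 2 := by
  have hK := h.hmPos hx
  have hts := h.adj_th_tb hx v
  have hA : Adj (hm w S P x) A (sj A (hm w S P x)) := adj_sj hK
  have aX := adj_X h A hx hts
  have c1 := aX.cauchy hK hA
  have c2 := comm_bound hK hts hA
  have hna : (A * sj A (hm w S P x)).trace.re = na w S P A x := by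
    unfold na
    rw [trL_comm]
    rfl
  have h3 : (dW (grOp w P) v x * tb (grOp w P) v x).trace.re = gden w P v x := by
    unfold gden
    rw [h.gg_eq hx]
    rfl
  have h0 := na_nonneg h A hx
  rw [hna] at c1 c2
  rw [h3] at c2
  rw [dW_na h A hx, norm_mul, mul_pow, trL_comm]
  norm_num
  have d1 : ‖trL ((dW (grOp w P) v x * A - A * dW (grOp w P) v x) * sj A (hm w S P x))‖ ^ 2 ≤
      ((dW (grOp w P) v x * A - A * dW (grOp w P) v x) *
        (sj A (hm w S P x) * tb (grOp w P) v x - tb (grOp w P) v x * sj A (hm w S P x))).trace.re *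
        na w S P A x := c1
  nlinarith [mul_le_mul_of_nonneg_right c2 h0]

/-- `u_A = log (1 + tr (A* A))` -/
noncomputable def ua (w : ℕ) (S : Matrix ι ι ℂ) (P : ℕ → X → Matrix ι ι ℂ) (A : Matrix ι ι ℂ)
    (x : X) : ℝ := Real.log (1 + na w S P A x)

theorem sm_ua (h : VHS w U S P) (A : Matrix ι ι ℂ) : ContDiffOn ℝ ∞ (ua w S P A) U :=
  (contDiffOn_const.add (sm_na h A)).log fun _ hy => by
    have := na_nonneg h A hy
    positivity

theorem cx_one_add {f : X → ℝ} {x : X} (hf : ∀ᶠ y in 𝓝 x, DifferentiableAt ℝ f y) (v : X) :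
    dW (cx (fun y => 1 + f y)) v x = dW (cx f) v x ∧
    dB (dW (cx (fun y => 1 + f y)) v) v x = dB (dW (cx f) v) v x := by
  have h1 : ∀ᶠ y in 𝓝 x, dW (cx (fun y => 1 + f y)) v y = dW (cx f) v y := by
    filter_upwards [hf] with y hy
    have e1 : fderiv ℝ (fun y => 1 + f y) y = fderiv ℝ f y := by
      rw [fderiv_const_add]
    rw [dW_cx (hy.const_add 1), dW_cx hy, e1]
  exact ⟨h1.self_of_nhds, dB_congr h1 v⟩

theorem d_na_ev (h : VHS w U S P) (A : Matrix ι ι ℂ) (hx : x ∈ U) :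
    ∀ᶠ y in 𝓝 x, DifferentiableAt ℝ (na w S P A) y :=
  Filter.eventually_of_mem (h.op.mem_nhds hx) fun y hy =>
    ((sm_na h A).contDiffAt (h.op.mem_nhds hy)).differentiableAt (by simp)

theorem dW_ua (h : VHS w U S P) (A : Matrix ι ι ℂ) (hx : x ∈ U) (v : X) :
    dW (cx (ua w S P A)) v x = ((1 + na w S P A x)⁻¹ : ℝ) * dW (cx (na w S P A)) v x := by
  have hd : DifferentiableAt ℝ (na w S P A) x := (d_na_ev h A hx).self_of_nhds
  have hp : 0 < 1 + na w S P A x := by
    have := na_nonneg h A hx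
    positivity
  have e1 : fderiv ℝ (ua w S P A) x = (1 + na w S P A x)⁻¹ • fderiv ℝ (na w S P A) x := by
    have := ((hd.const_add 1).hasFDerivAt.log hp.ne').fderiv
    rw [fderiv_const_add] at this
    exact this
  have hd2 : DifferentiableAt ℝ (ua w S P A) x := (hd.const_add 1).log hp.ne'
  rw [dW_cx hd2, dW_cx hd, e1]
  simp only [_root_.smul_apply, smul_eq_mul]
  push_cast
  ring

/-- `|∂_v u_A|² ≤ 16 g_v` -/
theorem ua_bound (h : VHS w U S P) (A : Matrix ι ι ℂ) (hx : x ∈ U) (v : X) :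
    ‖dW (cx (ua w S P A)) v x‖ ^ 2 ≤ 16 * gden w P v x := by
  have h0 := na_nonneg h A hx
  have hp : 0 < 1 + na w S P A x := by positivity
  have h1 := na_bound h A hx v
  have h2 := h.gden_nonneg hx v
  rw [dW_ua h A hx, norm_mul, mul_pow, Complex.norm_real, norm_inv, Real.norm_of_nonneg hp.le,
    inv_pow, inv_mul_le_iff₀ (by positivity)]
  have h3 : na w S P A x ^ 2 ≤ (1 + na w S P A x) ^ 2 := by nlinarith
  nlinarith [mul_le_mul_of_nonneg_left h3 h2]

/-- the Levi form of `u_A` along a line -/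
theorem lap_ua_eq (h : VHS w U S P) (A : Matrix ι ι ℂ) {z v : X} {ζ : ℂ} (hx : z + ζ • v ∈ U) :
    (Δ (fun ξ : ℂ => ua w S P A (z + ξ • v))) ζ =
      4 * ((1 + na w S P A (z + ζ • v)) * (dB (dW (cx (na w S P A)) v) v (z + ζ • v)).re -
        ‖dW (cx (na w S P A)) v (z + ζ • v)‖ ^ 2) / (1 + na w S P A (z + ζ • v)) ^ 2 := by
  have hC2 : ContDiffAt ℝ 2 (fun y => 1 + na w S P A y) (z + ζ • v) :=
    contDiffAt_const.add
      (((sm_na h A).contDiffAt (h.op.mem_nhds hx)).of_le ENat.LEInfty.out)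
  have hp : (1 + na w S P A (z + ζ • v)) ≠ 0 := by
    have := na_nonneg h A hx
    positivity
  have e := lap_log_line hC2 hp
  have e2 := cx_one_add (d_na_ev h A hx) v
  rw [e2.1, e2.2] at e
  exact e

theorem lap_ua (h : VHS w U S P) (A : Matrix ι ι ℂ) {z v : X} {ζ : ℂ}
    (hx : z + ζ • v ∈ U) : 0 ≤ (Δ (fun ξ : ℂ => ua w S P A (z + ξ • v))) ζ := by
  rw [lap_ua_eq h A hx]
  have h0 := na_nonneg h A hx
  have h1 := curv_na h A hx v
  have h2 : 0 ≤ (dB (dW (cx (na w S P A)) v) v (z + ζ • v)).re := by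
    rw [dB_dW_na h A hx]
    have hK := h.hmPos hx
    have n1 := (adj_X h A hx (h.adj_th_tb hx v)).trace_re_nonneg hK
    have n2 := (adj_X h A hx ((h.adj_th_tb hx v).symm hK.1)).trace_re_nonneg hK
    have e : ∀ a b : ℂ, (2 * (a + b)).re = 2 * (a.re + b.re) := by
      intro a b; simp
    rw [e]
    linarith
  refine div_nonneg ?_ (by positivity)
  linarith

/-- the Levi form of `u_A` is nonnegative -/
theorem ua_nonneg (h : VHS w U S P) (A : Matrix ι ι ℂ) (hx : x ∈ U) (v : X) :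
    0 ≤ (dB (dW (cx (ua w S P A)) v) v x).re := by
  have hC2 : ContDiffAt ℝ 2 (ua w S P A) (x + (0 : ℂ) • v) := by
    rw [zero_smul, add_zero]
    exact ((sm_ua h A).contDiffAt (h.op.mem_nhds hx)).of_le ENat.LEInfty.out
  have hx' : x + (0 : ℂ) • v ∈ U := by rwa [zero_smul, add_zero]
  have h1 := lap_ua h A hx'
  rw [lap_line hC2, zero_smul, add_zero] at h1
  linarith

/-- **(FP)** equality case at a point -/
theorem ua_eq_at (h : VHS w U S P) (A : Matrix ι ι ℂ) (hx : x ∈ U) {v : X}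
    (h0 : (dB (dW (cx (ua w S P A)) v) v x).re = 0) :
    dW (grOp w P) v x * A = A * dW (grOp w P) v x ∧
    tb (grOp w P) v x * A = A * tb (grOp w P) v x := by
  have hK := h.hmPos hx
  have hC2 : ContDiffAt ℝ 2 (ua w S P A) (x + (0 : ℂ) • v) := by
    rw [zero_smul, add_zero]
    exact ((sm_ua h A).contDiffAt (h.op.mem_nhds hx)).of_le ENat.LEInfty.out
  have hx' : x + (0 : ℂ) • v ∈ U := by rwa [zero_smul, add_zero]
  have h1 := lap_ua_eq h A hx'
  rw [lap_line hC2, zero_smul, add_zero, h0, mul_zero] at h1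
  have hn := na_nonneg h A hx
  have hp : 0 < (1 + na w S P A x) ^ 2 := by positivity
  have h2 := curv_na h A hx v
  have h4 : (1 + na w S P A x) * (dB (dW (cx (na w S P A)) v) v x).re -
      ‖dW (cx (na w S P A)) v x‖ ^ 2 = 0 := by
    rcases div_eq_zero_iff.1 h1.symm with h5 | h5
    · linarith
    · exact absurd h5 hp.ne'
  have h3 : (dB (dW (cx (na w S P A)) v) v x).re ≤ 0 := by nlinarith
  have a1 := adj_X h A hx (h.adj_th_tb hx v)
  have a2 := adj_X h A hx ((h.adj_th_tb hx v).symm hK.1)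
  have n1 := a1.trace_re_nonneg hK
  have n2 := a2.trace_re_nonneg hK
  rw [dB_dW_na h A hx] at h3
  have e : ∀ a b : ℂ, (2 * (a + b)).re = 2 * (a.re + b.re) := by
    intro a b; simp
  rw [e] at h3
  exact ⟨sub_eq_zero.1 (a1.eq_zero_of_trace hK (by linarith)),
    sub_eq_zero.1 (a2.eq_zero_of_trace hK (by linarith))⟩

/-- if the Levi form of `u_A` vanishes on `U`, then `[E, A]` is locally constant -/
theorem comm_const (h : VHS w U S P) (A : Matrix ι ι ℂ)
    (h0 : ∀ x ∈ U, ∀ v, (dB (dW (cx (ua w S P A)) v) v x).re = 0) (hx : x ∈ U) :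
    ∀ᶠ y in 𝓝 x, grOp w P y * A - A * grOp w P y = grOp w P x * A - A * grOp w P x := by
  have hdA : ∀ y, DifferentiableAt ℝ (fun _ : X => A) y := fun y => differentiableAt_const _
  refine loc_const (F := fun y => grOp w P y * A - A * grOp w P y) h.op
    (fun y hy => ((h.dE hy).fun_mul (hdA y)).fun_sub ((hdA y).fun_mul (h.dE hy))) ?_ ?_ hx
  · intro y hy v
    have h1 := (ua_eq_at h A hy (h0 y hy v)).1
    rw [dW_sub ((h.dE hy).fun_mul (hdA y)) ((hdA y).fun_mul (h.dE hy)), dW_mul (h.dE hy) (hdA y),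
      dW_mul (hdA y) (h.dE hy), dW_const, h1]
    simp
  · intro y hy v
    have h1 := (ua_eq_at h A hy (h0 y hy v)).2
    rw [dB_sub ((h.dE hy).fun_mul (hdA y)) ((hdA y).fun_mul (h.dE hy)), dB_mul (h.dE hy) (hdA y),
      dB_mul (hdA y) (h.dE hy), dB_const]
    have h2 : dB (grOp w P) v y * A = A * dB (grOp w P) v y := by
      have h3 : (- dB (grOp w P) v y) * A = A * (- dB (grOp w P) v y) := h1
      rw [neg_mul, mul_neg] at h3
      exact neg_injective h3
    rw [h2]
    simp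

/-! ### statements without a norm on matrices -/



end vhs

end nm

/-! ### change of frames -/

section frame

variable {B : Matrix ι κ ℂ} {K : Matrix ι ι ℂ}

theorem gm_mul (B : Matrix ι κ ℂ) (K : Matrix ι ι ℂ) (c : Matrix κ κ ℂ) :
    gm (B * c) K = cᴴ * gm B K * c := by
  unfold gm
  rw [Matrix.conjTranspose_mul]
  simp only [Matrix.mul_assoc]

theorem det_gm_mul (B : Matrix ι κ ℂ) (K : Matrix ι ι ℂ) (c : Matrix κ κ ℂ) :
    (gm (B * c) K).det = star c.det * c.det * (gm B K).det := by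
  rw [gm_mul, Matrix.det_mul, Matrix.det_mul, Matrix.det_conjTranspose]
  ring

/-- the Gram matrix in another frame (`gᴴ K' g = K`) -/
theorem gm_frame {g K' : Matrix ι ι ℂ} (hg : gᴴ * K' * g = K) (B : Matrix ι κ ℂ) :
    gm (g * B) K' = gm B K := by
  unfold gm
  rw [← hg, Matrix.conjTranspose_mul]
  simp only [Matrix.mul_assoc]

/-- the projector in another frame -/
theorem pj_frame {g K' : Matrix ι ι ℂ} (hg : gᴴ * K' * g = K) (B : Matrix ι κ ℂ) :
    pj (g * B) K' * g = g * pj B K := by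
  have h1 : pj (g * B) K' * g = g * (B * (gm B K)⁻¹ * Bᴴ * (gᴴ * K' * g)) := by
    unfold pj
    rw [gm_frame hg, Matrix.conjTranspose_mul]
    simp only [Matrix.mul_assoc]
  rw [h1, hg]
  rfl

/-- the projector depends on the range of `B` only -/
theorem pj_mul (B : Matrix ι κ ℂ) (K : Matrix ι ι ℂ) {c : Matrix κ κ ℂ}
    (hc : IsUnit c) : pj (B * c) K = pj B K := by
  have hd := (Matrix.isUnit_iff_isUnit_det _).1 hc
  have hdH : IsUnit (cᴴ).det := by rw [Matrix.det_conjTranspose]; exact hd.star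
  unfold pj
  rw [gm_mul, Matrix.mul_inv_rev, Matrix.mul_inv_rev, Matrix.conjTranspose_mul]
  calc B * c * (c⁻¹ * ((gm B K)⁻¹ * (cᴴ)⁻¹)) * (cᴴ * Bᴴ) * K
      = B * (c * c⁻¹) * (gm B K)⁻¹ * ((cᴴ)⁻¹ * cᴴ) * Bᴴ * K := by simp only [Matrix.mul_assoc]
    _ = B * (gm B K)⁻¹ * Bᴴ * K := by
        rw [Matrix.mul_nonsing_inv _ hd, Matrix.nonsing_inv_mul _ hdH, Matrix.mul_one,
          Matrix.mul_one]

/-- the adjoint in another frame -/
theorem sj_frame {g K' A A' : Matrix ι ι ℂ} (hu : IsUnit g)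
    (hg : gᴴ * K' * g = K) (hA : A' * g = g * A) : g * sj A K = sj A' K' * g := by
  have hd := (Matrix.isUnit_iff_isUnit_det _).1 hu
  have hdH : IsUnit (gᴴ).det := by rw [Matrix.det_conjTranspose]; exact hd.star
  have hK' : K' = (gᴴ)⁻¹ * K * g⁻¹ := by
    rw [← hg]
    calc K' = ((gᴴ)⁻¹ * gᴴ) * K' * (g * g⁻¹) := by
          rw [Matrix.nonsing_inv_mul _ hdH, Matrix.mul_nonsing_inv _ hd, one_mul, mul_one]
      _ = _ := by simp only [mul_assoc]
  have hA' : A'ᴴ = (gᴴ)⁻¹ * Aᴴ * gᴴ := by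
    have h1 := congrArg Matrix.conjTranspose hA
    rw [Matrix.conjTranspose_mul, Matrix.conjTranspose_mul] at h1
    calc A'ᴴ = ((gᴴ)⁻¹ * gᴴ) * A'ᴴ := by rw [Matrix.nonsing_inv_mul _ hdH, one_mul]
      _ = (gᴴ)⁻¹ * (gᴴ * A'ᴴ) := by rw [mul_assoc]
      _ = _ := by rw [h1, mul_assoc]
  have hKi : K'⁻¹ = g * K⁻¹ * gᴴ := by
    rw [hK', Matrix.mul_inv_rev, Matrix.mul_inv_rev, Matrix.nonsing_inv_nonsing_inv _ hd,
      Matrix.nonsing_inv_nonsing_inv _ hdH, mul_assoc]
  unfold sj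
  rw [← Matrix.nonsing_inv_eq_ringInverse, ← Matrix.nonsing_inv_eq_ringInverse, hKi, hA', hK']
  calc g * (K⁻¹ * Aᴴ * K) = g * K⁻¹ * 1 * Aᴴ * 1 * K * 1 := by simp only [mul_assoc, mul_one]
    _ = g * K⁻¹ * (gᴴ * (gᴴ)⁻¹) * Aᴴ * (gᴴ * (gᴴ)⁻¹) * K * (g⁻¹ * g) := by
        rw [Matrix.mul_nonsing_inv _ hdH, Matrix.nonsing_inv_mul _ hd]
    _ = _ := by simp only [mul_assoc]

/-- `tr (A* A)` in another frame -/
theorem trace_frame {g K' A A' : Matrix ι ι ℂ} (hu : IsUnit g)
    (hg : gᴴ * K' * g = K) (hA : A' * g = g * A) :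
    (sj A' K' * A').trace = (sj A K * A).trace := by
  have hd := (Matrix.isUnit_iff_isUnit_det _).1 hu
  have h1 := sj_frame hu hg hA
  calc (sj A' K' * A').trace = (sj A' K' * A' * (g * g⁻¹)).trace := by
        rw [Matrix.mul_nonsing_inv _ hd, mul_one]
    _ = ((sj A' K' * (A' * g)) * g⁻¹).trace := by simp only [mul_assoc]
    _ = ((sj A' K' * g) * A * g⁻¹).trace := by rw [hA]; simp only [mul_assoc]
    _ = (g⁻¹ * (g * sj A K * A)).trace := by rw [← h1, Matrix.trace_mul_comm]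
    _ = (sj A K * A).trace := by
        rw [mul_assoc, ← mul_assoc, Matrix.nonsing_inv_mul _ hd, one_mul]

end frame


end Crest.Agent.R276.SSVar_720
end

-- ▼ part R276/Gram_574
section

/-!
# R276, GVHS (helper574): Gram functions of flat fields on a model

`X` with `Prp h X`, `T2Space X`; `V : VHS m X N w` (735).

* `liouV` : a function which near every point satisfies `Levi ≥ 0`, `|∂_v u|² ≤ C g_v` is
  pluriharmonic (`Levi = 0`).
* `adE_field` : `E Φ - Φ E` is flat if `Φ` is.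
* `pj_field` : the orthogonal projector on a flat subbundle with unimodular transitions is flat.
-/

set_option autoImplicit false
set_option linter.unusedSectionVars false

noncomputable section

open Set Filter Topology Matrix InnerProductSpace Laplacian
open scoped ContDiff ComplexConjugate ComplexOrder
open Crest.Agent.R271.Ho51
open Crest.Agent.R276.Ipc735
open Crest.Agent.R276.Pd571
open Crest.Agent.R276.Liou_739
open Crest.Agent.R276.Sheets_574
open Crest.Agent.R276.Tr_617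

namespace Crest.Agent.R276.Gram_574

theorem planeSt : PlaneSt := fun F _ _ _ _ hc hU hG hn hd =>
  Flux_317.plane (F := F) hc hU hG hn hd

section flat

variable {m : ℕ}

theorem lev_eq_dB {f : (Fin m → ℂ) → ℝ} {c : Fin m → ℂ} (hf : ContDiffAt ℝ 2 f c)
    (v : Fin m → ℂ) : MaxP_25.lev f c v = 4 * (VCalc_442.dB (VCalc_442.dW (VCalc_442.cx f) v) v c).re := by
  have h0 : ContDiffAt ℝ 2 f (c + (0 : ℂ) • v) := by rwa [zero_smul, add_zero]
  have h1 := MaxP_25.lap_cline h0
  have h2 := VCalc_442.lap_line h0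
  rw [zero_smul, add_zero] at h1 h2
  rw [← h1, h2]

theorem lev_congr {f g : (Fin m → ℂ) → ℝ} {c : Fin m → ℂ} (h : f =ᶠ[𝓝 c] g) (v : Fin m → ℂ) :
    MaxP_25.lev f c v = MaxP_25.lev g c v := by
  rw [MaxP_25.lev_eq, MaxP_25.lev_eq, h.fderiv.fderiv_eq]

end flat

variable {m N w : ℕ} {X : Type*} [TopologicalSpace X] [RDom m X] (V : Ipc735.VHS m X N w)

/-- the period density in the direction `v` -/
def gd (v : Fin m → ℂ) (x : X) : ℝ := VCalc_442.gden w (PL V x) v (cp x)

variable {V}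

theorem gg_sum {z : X} {U : Set (Fin m → ℂ)} (h : Nb V z U) {c : Fin m → ℂ} (hc : c ∈ U)
    (v : Fin m → ℂ) : VCalc_442.gg w (PL V z) v v c =
      ∑ k, conj (v k) * ∑ j, gP V ((ch z).symm c) j k * v j :=
  (gg_expand w (PL V z) v v c).trans (Finset.sum_congr rfl fun k _ =>
    congrArg (fun t => conj (v k) * t) (Finset.sum_congr rfl fun j _ =>
      congrArg (fun t => t * v j) (h.gg_eq hc j k)))

theorem gd_eq {z : X} {U : Set (Fin m → ℂ)} (h : Nb V z U) {c : Fin m → ℂ} (hc : c ∈ U)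
    (v : Fin m → ℂ) : gd V v ((ch z).symm c) = VCalc_442.gden w (PL V z) v c := by
  obtain ⟨W, hW, hN⟩ := exists_Nb V ((ch z).symm c)
  have h1 := gg_sum hN hW v
  rw [symm_cp] at h1
  have h2 := gg_sum h hc v
  exact congrArg Complex.re (h1.trans h2.symm)

theorem gd_germ {z : X} {U : Set (Fin m → ℂ)} (h : Nb V z U) (hz : cp z ∈ U)
    (v : Fin m → ℂ) : (gd V v ∘ (ch z).symm) =ᶠ[𝓝 (cp z)] VCalc_442.gden w (PL V z) v := by
  filter_upwards [h.op.mem_nhds hz] with c hc
  exact gd_eq h hc v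

theorem gd_smooth (z : X) (v : Fin m → ℂ) : ContDiffAt ℝ 2 (gd V v ∘ (ch z).symm) (cp z) := by
  obtain ⟨U, hz, h⟩ := exists_Nb V z
  refine ContDiffAt.congr_of_eventuallyEq ?_ (gd_germ h hz v)
  exact ((h.loc.sm_gden v).contDiffAt (h.op.mem_nhds hz)).of_le ENat.LEInfty.out

theorem gd_nonneg (z : X) (v : Fin m → ℂ) : 0 ≤ gd V v z := by
  obtain ⟨U, hz, h⟩ := exists_Nb V z
  exact h.loc.gden_nonneg hz v

/-- negative curvature of the density -/
theorem gd_neg (N : ℕ) : ∃ c : ℝ, 0 < c ∧ ∀ {m w : ℕ} {X : Type*} [TopologicalSpace X] [RDom m X]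
    (V : Ipc735.VHS m X N w) (x : X) (v : Fin m → ℂ), gd V v x ≠ 0 →
    c * gd V v x ≤ MaxP_25.lev (fun ξ => Real.log ((gd V v ∘ (ch x).symm) ξ)) (cp x) v := by
  obtain ⟨c, hc, hn⟩ := VCalc_442.exists_neg (Fin N)
  refine ⟨c, hc, fun {m w X} _ _ V x v hne => ?_⟩
  obtain ⟨U, hz, h⟩ := exists_Nb V x
  have h1 := hn (Fin m → ℂ) w U (V.S x) (PL V x) h.loc (cp x) v (0 : ℂ)
    (by simpa using hz) (by simpa [gd] using hne)
  have h2 : ContDiffAt ℝ 2 (fun ξ => Real.log (VCalc_442.gden w (PL V x) v ξ))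
      (cp x + (0 : ℂ) • v) := by
    rw [zero_smul, add_zero]
    exact (((h.loc.sm_gden v).contDiffAt (h.op.mem_nhds hz)).of_le ENat.LEInfty.out).log hne
  have h3 := MaxP_25.lap_cline (t := (0 : ℂ)) h2
  have h4 : (fun ξ => Real.log ((gd V v ∘ (ch x).symm) ξ)) =ᶠ[𝓝 (cp x)]
      fun ξ => Real.log (VCalc_442.gden w (PL V x) v ξ) := by
    filter_upwards [gd_germ h hz v] with ξ hξ
    rw [hξ]
  rw [lev_congr h4]
  rw [zero_smul, add_zero] at h3
  rw [← h3]
  calc c * gd V v x = c * VCalc_442.gden w (PL V x) v (cp x + (0 : ℂ) • v) := by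
        rw [zero_smul, add_zero]; rfl
    _ ≤ _ := h1

/-- local data of a function -/
structure Lo (V : Ipc735.VHS m X N w) (u : X → ℝ) (C : ℝ) (z : X) (U : Set (Fin m → ℂ))
    (f : (Fin m → ℂ) → ℝ) : Prop where
  nb : Nb V z U
  eq : ∀ c ∈ U, u ((ch z).symm c) = f c
  sm : ContDiffOn ℝ ∞ f U
  lv : ∀ c ∈ U, ∀ v, 0 ≤ (VCalc_442.dB (VCalc_442.dW (VCalc_442.cx f) v) v c).re
  bd : ∀ c ∈ U, ∀ v, ‖VCalc_442.dW (VCalc_442.cx f) v c‖ ^ 2 ≤ C * VCalc_442.gden w (PL V z) v c

/-- **Liouville for functions bounded by the period metric** -/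
theorem liouV [T2Space X] {h : MvPolynomial (Fin m) ℂ} (hP : Prp h X) {u : X → ℝ} {C : ℝ}
    (hloc : ∀ z, ∃ U f, cp z ∈ U ∧ Lo V u C z U f) {z : X} {U : Set (Fin m → ℂ)}
    {f : (Fin m → ℂ) → ℝ} (hL : Lo V u C z U f) {c : Fin m → ℂ} (hc : c ∈ U) (v : Fin m → ℂ) :
    (VCalc_442.dB (VCalc_442.dW (VCalc_442.cx f) v) v c).re = 0 := by
  obtain ⟨κ, hκ, hneg⟩ := gd_neg N
  have hC2 : ∀ {z : X} {U : Set (Fin m → ℂ)} {f : (Fin m → ℂ) → ℝ}, Lo V u C z U f →
      ∀ c ∈ U, ContDiffAt ℝ 2 f c := fun hL c hc =>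
    (hL.sm.contDiffAt (hL.nb.op.mem_nhds hc)).of_le ENat.LEInfty.out
  have hgerm : ∀ {z : X} {U : Set (Fin m → ℂ)} {f : (Fin m → ℂ) → ℝ}, Lo V u C z U f →
      cp z ∈ U → (u ∘ (ch z).symm) =ᶠ[𝓝 (cp z)] f := by
    intro z U f hL hz
    filter_upwards [hL.nb.op.mem_nhds hz] with c hc
    exact hL.eq c hc
  have main := liouG (c := κ) (C := 4 * C) planeSt hP (u := u) (g := gd V) hκ ?_ ?_
    (fun x v => gd_smooth x v) (fun x v => gd_nonneg x v) (fun x v hne => hneg V x v hne) ?_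
  · -- conclusion at the point over `c`
    set y := (ch z).symm c with hy
    have hys : y ∈ (ch z).source := (ch z).map_target (hL.nb.sub hc)
    have hcy : cp y = c := (isCh_ch z).cp_symm (hL.nb.sub hc)
    have h1 := main y v
    have h2 : (u ∘ (ch y).symm) =ᶠ[𝓝 c] f := by
      have e1 := (isCh_ch z).germ (isCh_ch y) hys (mem_ch y)
      rw [hcy] at e1
      filter_upwards [e1, hL.nb.op.mem_nhds hc] with d hd hd2
      rw [← hL.eq d hd2, hd]
      rfl
    rw [hcy, lev_congr h2, lev_eq_dB (hC2 hL c hc)] at h1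
    linarith
  · intro x
    obtain ⟨U, f, hx, hL⟩ := hloc x
    exact (hC2 hL _ hx).congr_of_eventuallyEq (hgerm hL hx)
  · intro x v
    obtain ⟨U, f, hx, hL⟩ := hloc x
    rw [lev_congr (hgerm hL hx), lev_eq_dB (hC2 hL _ hx)]
    have := hL.lv _ hx v
    linarith
  · intro x v
    obtain ⟨U, f, hx, hL⟩ := hloc x
    rw [(hgerm hL hx).fderiv_eq, ← VCalc_442.normSq_dW_cx ((hC2 hL _ hx).differentiableAt (by norm_num))]
    have h1 := hL.bd _ hx v
    have h2 : gd V v x = VCalc_442.gden w (PL V x) v (cp x) := rfl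
    rw [h2]
    linarith

/-! ### flat fields -/

theorem ev_of_chart {z : X} {p : X → Prop} (h : ∀ᶠ c in 𝓝 (cp z), p ((ch z).symm c)) :
    ∀ᶠ y in 𝓝 z, p y := by
  have h1 : ∀ᶠ y in 𝓝 z, p ((ch z).symm (cp y)) := cp_cont.continuousAt.eventually h
  filter_upwards [h1, (ch z).open_source.mem_nhds (mem_ch z)] with y hy hys
  rwa [(isCh_ch z).symm_cp hys] at hy

theorem ev_to_chart {z : X} {p : X → Prop} (h : ∀ᶠ y in 𝓝 z, p y) :
    ∀ᶠ c in 𝓝 (cp z), p ((ch z).symm c) := (tendsto_symm z).eventually h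

theorem Nb.mono {z : X} {U U' : Set (Fin m → ℂ)} (h : Nb V z U) (hU' : IsOpen U') (hs : U' ⊆ U) :
    Nb V z U' where
  op := hU'
  sub := hs.trans h.sub
  coc := fun c hc d hd => h.coc c (hs hc) d (hs hd)
  trS := fun c hc => h.trS c (hs hc)
  loc :=
    { op := hU'
      sm := fun p i j => (h.loc.sm p i j).mono hs
      idem := fun x hx => h.loc.idem x (hs hx)
      orth := fun x hx => h.loc.orth x (hs hx)
      top := fun x hx => h.loc.top x (hs hx)
      sum := fun x hx => h.loc.sum x (hs hx)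
      herm := h.loc.herm
      adj := fun x hx => h.loc.adj x (hs hx)
      pos := fun x hx => h.loc.pos x (hs hx)
      hor := fun x hx => h.loc.hor x (hs hx) }

/-- the Hodge metric in the frame at `z` -/
theorem hm_eq {z : X} (c : Fin m → ℂ) :
    VCalc_442.hm w (V.S z) (PL V z) c = hodge w (V.S z) (EL V z c) := by
  unfold VCalc_442.hm hodge
  rw [← sgOp_hq (X := Fin m → ℂ) (EL V z) c]
  rfl

theorem hodge_frame {z : X} {U : Set (Fin m → ℂ)} (h : Nb V z U) {c : Fin m → ℂ} (hc : c ∈ U) :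
    (cm (V.P z ((ch z).symm c)))ᴴ * VCalc_442.hm w (V.S z) (PL V z) c *
      cm (V.P z ((ch z).symm c)) =
        hodge w (V.S ((ch z).symm c)) (V.E ((ch z).symm c)) := by
  rw [hm_eq]
  refine (DiscA_651.hodge_conj ?_ (h.trS c hc).symm w).symm
  unfold EL lM
  rw [mul_assoc (cm (V.P z ((ch z).symm c)) * V.E ((ch z).symm c)), Pd571.cm_inv_mul, mul_one]

/-- **`E Φ - Φ E` is flat if `Φ` is flat** -/
theorem adE_field [T2Space X] {h : MvPolynomial (Fin m) ℂ} (hP : Prp h X)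
    {Φ : X → Matrix (Fin N) (Fin N) ℂ} (hΦ : FlM V.P Φ) :
    FlM V.P (fun x => V.E x * Φ x - Φ x * V.E x) := by
  set u : X → ℝ := fun x => Real.log (1 +
    (SSVar_720.sj (Φ x) (hodge w (V.S x) (V.E x)) * Φ x).trace.re) with hu
  have key : ∀ z, ∃ U, cp z ∈ U ∧ Lo V u 16 z U (SSVar_720.ua w (V.S z) (PL V z) (Φ z)) ∧
      ∀ c ∈ U, Φ z * cm (V.P z ((ch z).symm c)) = cm (V.P z ((ch z).symm c)) * Φ ((ch z).symm c) := by
    intro z
    obtain ⟨U₀, hz₀, h₀⟩ := exists_Nb V z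
    obtain ⟨W, hW, hWo, hzW⟩ := mem_nhds_iff.1 (ev_to_chart (hΦ z))
    have hN : Nb V z (U₀ ∩ W) := Nb.mono h₀ (h₀.op.inter hWo) inter_subset_left
    have hcomm : ∀ c ∈ U₀ ∩ W, Φ z * cm (V.P z ((ch z).symm c)) =
        cm (V.P z ((ch z).symm c)) * Φ ((ch z).symm c) := by
      intro c hc
      have h1 : lM V.P Φ z ((ch z).symm c) = Φ z := hW hc.2
      rw [← h1]
      unfold lM
      rw [mul_assoc, Pd571.cm_inv_mul, mul_one]
    refine ⟨U₀ ∩ W, ⟨hz₀, hzW⟩, ⟨hN, ?_, SSVar_720.sm_ua hN.loc _, ?_, ?_⟩, hcomm⟩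
    · intro c hc
      have h1 : (SSVar_720.sj (Φ z) (VCalc_442.hm w (V.S z) (PL V z) c) * Φ z).trace =
          (SSVar_720.sj (Φ ((ch z).symm c)) (hodge w (V.S ((ch z).symm c)) (V.E ((ch z).symm c))) *
            Φ ((ch z).symm c)).trace := by
        refine SSVar_720.trace_frame (g := cm (V.P z ((ch z).symm c))) ?_ (hodge_frame hN hc)
          (hcomm c hc)
        exact IsUnit.of_mul_eq_one _ (Pd571.cm_mul_inv _)
      show Real.log (1 + (SSVar_720.sj (Φ ((ch z).symm c)) (hodge w (V.S ((ch z).symm c))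
        (V.E ((ch z).symm c))) * Φ ((ch z).symm c)).trace.re) = _
      rw [← h1]
      rfl
    · intro c hc v
      exact SSVar_720.ua_nonneg hN.loc _ hc v
    · intro c hc v
      exact SSVar_720.ua_bound hN.loc _ hc v
  intro z
  obtain ⟨U, hz, hL, hcomm⟩ := key z
  have h0 : ∀ c ∈ U, ∀ v, (VCalc_442.dB (VCalc_442.dW (VCalc_442.cx
      (SSVar_720.ua w (V.S z) (PL V z) (Φ z))) v) v c).re = 0 := fun c hc v =>
    liouV hP (fun z => by obtain ⟨U, hz, hL, _⟩ := key z; exact ⟨U, _, hz, hL⟩) hL hc v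
  have h1 := SSVar_720.comm_const hL.nb.loc (Φ z) h0 hz
  refine ev_of_chart ?_
  filter_upwards [h1, hL.nb.op.mem_nhds hz] with c hc hcU
  rw [hL.nb.gr hcU, hL.nb.gr hz] at hc
  have h2 : EL V z (cp z) = V.E z := by
    unfold EL
    rw [symm_cp]
    exact lM_self (V.ndc.on Set.univ) V.E (Set.mem_univ z)
  rw [h2] at hc
  rw [← hc]
  set g := cm (V.P z ((ch z).symm c)) with hg
  set g' := cm (V.P z ((ch z).symm c))⁻¹ with hg'
  have hgg : g * g' = 1 := Pd571.cm_mul_inv _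
  have hgg' : g' * g = 1 := Pd571.cm_inv_mul _
  have h3 : Φ z = g * Φ ((ch z).symm c) * g' := by
    rw [← hcomm c hcU, mul_assoc, hgg, mul_one]
  have h4 : EL V z c = g * V.E ((ch z).symm c) * g' := rfl
  show g * (V.E ((ch z).symm c) * Φ ((ch z).symm c) - Φ ((ch z).symm c) * V.E ((ch z).symm c)) * g'
    = _
  rw [h3, h4]
  calc _ = g * (V.E ((ch z).symm c) * 1 * Φ ((ch z).symm c) -
        Φ ((ch z).symm c) * 1 * V.E ((ch z).symm c)) * g' := by simp only [mul_one]
    _ = g * (V.E ((ch z).symm c) * (g' * g) * Φ ((ch z).symm c) -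
        Φ ((ch z).symm c) * (g' * g) * V.E ((ch z).symm c)) * g' := by rw [hgg']
    _ = _ := by noncomm_ring

/-- **the orthogonal projector on a flat subbundle with unimodular transitions is flat** -/
theorem pj_field [T2Space X] {h : MvPolynomial (Fin m) ℂ} (hP : Prp h X) {κ : Type*} [Fintype κ]
    [DecidableEq κ] {B : X → Matrix (Fin N) κ ℂ} (hinj : ∀ x, Function.Injective (B x).mulVec)
    (hB : ∀ z, ∀ᶠ y in 𝓝 z, ∃ c : Matrix κ κ ℂ, ‖c.det‖ = 1 ∧ cm (V.P z y) * B y = B z * c) :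
    FlM V.P (fun x => SSVar_720.pj (B x) (hodge w (V.S x) (V.E x))) := by
  set u : X → ℝ := fun x => Real.log (SSVar_720.gm (B x) (hodge w (V.S x) (V.E x))).det.re with hu
  have key : ∀ z, ∃ U, cp z ∈ U ∧
      Lo V u (4 * Fintype.card κ) z U (SSVar_720.ug w (V.S z) (PL V z) (B z)) ∧
      ∀ c ∈ U, ∃ k : Matrix κ κ ℂ, ‖k.det‖ = 1 ∧
        cm (V.P z ((ch z).symm c)) * B ((ch z).symm c) = B z * k := by
    intro z
    obtain ⟨U₀, hz₀, h₀⟩ := exists_Nb V z
    obtain ⟨W, hW, hWo, hzW⟩ := mem_nhds_iff.1 (ev_to_chart (hB z))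
    have hN : Nb V z (U₀ ∩ W) := Nb.mono h₀ (h₀.op.inter hWo) inter_subset_left
    refine ⟨U₀ ∩ W, ⟨hz₀, hzW⟩, ⟨hN, ?_, SSVar_720.sm_ug hN.loc (hinj z), ?_, ?_⟩,
      fun c hc => hW hc.2⟩
    · intro c hc
      obtain ⟨k, hk, hBk⟩ : ∃ k : Matrix κ κ ℂ, ‖k.det‖ = 1 ∧
        cm (V.P z ((ch z).symm c)) * B ((ch z).symm c) = B z * k := hW hc.2
      have h1 := SSVar_720.gm_frame (hodge_frame hN hc) (B ((ch z).symm c))
      rw [hBk] at h1
      have h2 : (SSVar_720.gm (B ((ch z).symm c)) (hodge w (V.S ((ch z).symm c))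
          (V.E ((ch z).symm c)))).det =
          (SSVar_720.gm (B z) (VCalc_442.hm w (V.S z) (PL V z) c)).det := by
        rw [← h1, SSVar_720.det_gm_mul]
        have h3 : star k.det * k.det = 1 := by
          rw [mul_comm, Complex.star_def, Complex.mul_conj, Complex.normSq_eq_norm_sq, hk]
          simp
        rw [h3, one_mul]
      show Real.log _ = _
      rw [h2]
      rfl
    · intro c hc v
      exact SSVar_720.ug_nonneg hN.loc (hinj z) hc v
    · intro c hc v
      exact SSVar_720.ug_bound hN.loc (hinj z) hc v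
  intro z
  obtain ⟨U, hz, hL, hk⟩ := key z
  have h0 : ∀ c ∈ U, ∀ v, (VCalc_442.dB (VCalc_442.dW (VCalc_442.cx
      (SSVar_720.ug w (V.S z) (PL V z) (B z))) v) v c).re = 0 := fun c hc v =>
    liouV hP (fun z => by obtain ⟨U, hz, hL, _⟩ := key z; exact ⟨U, _, hz, hL⟩) hL hc v
  have h1 := SSVar_720.pj_const hL.nb.loc (hinj z) h0 hz
  refine ev_of_chart ?_
  filter_upwards [h1, hL.nb.op.mem_nhds hz] with c hc hcU
  obtain ⟨k, hkd, hBk⟩ := hk c hcU
  have hku : IsUnit k := by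
    rw [Matrix.isUnit_iff_isUnit_det, isUnit_iff_ne_zero]
    intro h5; rw [h5] at hkd; simp at hkd
  have h2 : EL V z (cp z) = V.E z := by
    unfold EL
    rw [symm_cp]
    exact lM_self (V.ndc.on Set.univ) V.E (Set.mem_univ z)
  have h3 : VCalc_442.hm w (V.S z) (PL V z) (cp z) = hodge w (V.S z) (V.E z) := by
    rw [hm_eq, h2]
  have h4 := SSVar_720.pj_frame (hodge_frame hL.nb hcU) (B ((ch z).symm c))
  rw [hBk, SSVar_720.pj_mul _ _ hku, hc, h3] at h4
  show cm (V.P z ((ch z).symm c)) * _ * cm (V.P z ((ch z).symm c))⁻¹ = _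
  rw [← h4, mul_assoc, Pd571.cm_mul_inv, mul_one]

end Crest.Agent.R276.Gram_574
end
end

-- ▼ part R276/Mono_574

/-!
# R276, GVHS (helper574): semisimplicity and the fixed part theorem on a model

`mono` : on a connected model (`Prp h X`, Hausdorff) the monodromy group of a variation of Hodge
structure with lattice satisfies `Hull_574.Mono` at every point.
-/

set_option autoImplicit false
set_option linter.unusedSectionVars false

noncomputable section

open Set Filter Topology Matrix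
open scoped ContDiff ComplexConjugate ComplexOrder
open Crest.Agent.R271.Ho51
open Crest.Agent.R276.Ipc735
open Crest.Agent.R276.Liou_739
open Crest.Agent.R276.Hull_574
open Crest.Agent.R276.Tr_617
open Crest.Agent.R276.Gram_574

namespace Crest.Agent.R276.Mono_574

section lattice

variable {N : ℕ} {κ : Type*} [Fintype κ] [DecidableEq κ]

/-- an integral matrix as complex matrix -/
def im {a b : Type*} (B : Matrix a b ℤ) : Matrix a b ℂ := B.map (fun n : ℤ => (n : ℂ))

theorem im_mul {a b c : Type*} [Fintype b] (A : Matrix a b ℤ) (B : Matrix b c ℤ) :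
    im (A * B) = im A * im B := Matrix.map_mul (f := Int.castRingHom ℂ)

theorem im_transpose {a b : Type*} (A : Matrix a b ℤ) : im Aᵀ = (im A)ᴴ := by
  ext i j
  simp [im, Matrix.conjTranspose_apply]

theorem im_det (A : Matrix κ κ ℤ) : (im A).det = ((A.det : ℤ) : ℂ) :=
  ((Int.castRingHom ℂ).map_det A).symm

theorem im_gl (g : GL (Fin N) ℤ) : im (g : Matrix (Fin N) (Fin N) ℤ) = cm g := rfl

/-- a matrix of an integral automorphism on a rational subspace has determinant of absolute value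
`≥ 1` -/
theorem one_le_det {B : Matrix (Fin N) κ ℤ} (hB : Function.Injective (im B).mulVec)
    {γ : GL (Fin N) ℤ} {c : Matrix κ κ ℂ} (h : cm γ * im B = im B * c) (hc : c.det ≠ 0) :
    1 ≤ ‖c.det‖ := by
  have hpow : ∀ n : ℕ, cm (γ ^ n) * im B = im B * c ^ n := by
    intro n
    induction n with
    | zero => rw [pow_zero, pow_zero, Hull_574.cm_one, Matrix.one_mul, Matrix.mul_one]
    | succ n ih =>
      rw [pow_succ', pow_succ', Hull_574.cm_mul, Matrix.mul_assoc, ih, ← Matrix.mul_assoc, h,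
        Matrix.mul_assoc]
  have hG : ((im B)ᴴ * im B).PosDef := by
    have h1 := (Matrix.PosDef.one (n := Fin N) (R := ℂ)).conjTranspose_mul_mul_same hB
    simpa using h1
  set G := (im B)ᴴ * im B with hGdef
  have hG0 : G.det ≠ 0 := hG.det_pos.ne'
  have key : ∀ n : ℕ, 1 ≤ ‖G.det‖ * ‖c.det‖ ^ n := by
    intro n
    set K : Matrix κ κ ℤ := Bᵀ * (((γ ^ n : GL (Fin N) ℤ) : Matrix (Fin N) (Fin N) ℤ) * B) with hK
    have h1 : im K = G * c ^ n := by
      rw [hK, im_mul, im_mul, im_gl, hpow, im_transpose, hGdef, Matrix.mul_assoc]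
    have h2 : ((K.det : ℤ) : ℂ) = G.det * c.det ^ n := by
      rw [← im_det, h1, Matrix.det_mul, Matrix.det_pow]
    have h3 : K.det ≠ 0 := by
      intro h0
      rw [h0] at h2
      simp only [Int.cast_zero] at h2
      exact mul_ne_zero hG0 (pow_ne_zero _ hc) h2.symm
    have h4 : (1 : ℝ) ≤ ‖((K.det : ℤ) : ℂ)‖ := by
      rw [Complex.norm_intCast]
      exact_mod_cast Int.one_le_abs h3
    rw [h2, norm_mul, norm_pow] at h4
    exact h4
  by_contra hlt
  push Not at hlt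
  have h5 : Tendsto (fun n : ℕ => ‖G.det‖ * ‖c.det‖ ^ n) atTop (𝓝 (‖G.det‖ * 0)) :=
    (tendsto_pow_atTop_nhds_zero_of_lt_one (norm_nonneg _) hlt).const_mul _
  rw [mul_zero] at h5
  have h6 := ge_of_tendsto' h5 key
  linarith

/-- unimodularity -/
theorem det_eq_one {B : Matrix (Fin N) κ ℤ} (hB : Function.Injective (im B).mulVec)
    {γ : GL (Fin N) ℤ} {c c' : Matrix κ κ ℂ} (h : cm γ * im B = im B * c)
    (h' : cm γ⁻¹ * im B = im B * c') : ‖c.det‖ = 1 := by
  have h1 : im B * (c * c') = im B * (1 : Matrix κ κ ℂ) := by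
    calc im B * (c * c') = cm γ * im B * c' := by rw [← Matrix.mul_assoc, ← h]
      _ = cm γ * (cm γ⁻¹ * im B) := by rw [Matrix.mul_assoc, ← h']
      _ = im B * (1 : Matrix κ κ ℂ) := by
        rw [← Matrix.mul_assoc, Hull_574.cm_mul_inv, Matrix.one_mul, Matrix.mul_one]
  have h2 : c * c' = 1 := by
    ext i j
    have h3 := congrArg (fun M => M *ᵥ (Pi.single j 1 : κ → ℂ)) h1
    simp only [← Matrix.mulVec_mulVec] at h3
    have h4 := congrFun (hB h3) i
    rw [Matrix.mulVec_mulVec, Matrix.mulVec_single_one, Matrix.mulVec_single_one] at h4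
    exact h4
  have h3 : c.det * c'.det = 1 := by rw [← Matrix.det_mul, h2, Matrix.det_one]
  have hc : c.det ≠ 0 := left_ne_zero_of_mul_eq_one h3
  have hc' : c'.det ≠ 0 := right_ne_zero_of_mul_eq_one h3
  have h4 := one_le_det hB h hc
  have h5 := one_le_det hB h' hc'
  have h6 : ‖c.det‖ * ‖c'.det‖ = 1 := by rw [← norm_mul, h3, norm_one]
  nlinarith

/-- an integral basis of a rational subspace -/
theorem exists_basis (R : Submodule ℚ (Fin N → ℚ)) : ∃ (r : ℕ) (B : Matrix (Fin N) (Fin r) ℤ),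
    Function.Injective (im B).mulVec ∧ ∀ v, v ∈ zer R ↔ ∃ c, v = im B *ᵥ c := by
  classical
  obtain ⟨b, hb, hspan, hli⟩ := exists_linearIndependent ℂ
    {v : Fin N → ℂ | ∃ u : Fin N → ℤ, zv u = v ∧ v ∈ zer R}
  have hfin : b.Finite := hli.setFinite
  have : Fintype b := hfin.fintype
  set e : b ≃ Fin (Fintype.card b) := Fintype.equivFin b
  have hch : ∀ j : Fin (Fintype.card b), ∃ u : Fin N → ℤ, zv u = (e.symm j : Fin N → ℂ) :=
    fun j => by obtain ⟨u, hu, _⟩ := hb (e.symm j).2; exact ⟨u, hu⟩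
  choose u hu using hch
  refine ⟨Fintype.card b, Matrix.of fun i j => u j i, ?_, ?_⟩
  · have h1 : LinearIndependent ℂ (fun j : Fin (Fintype.card b) => (e.symm j : Fin N → ℂ)) :=
      hli.comp _ e.symm.injective
    rw [Matrix.mulVec_injective_iff]
    have h2 : (im (Matrix.of fun i j => u j i : Matrix (Fin N) (Fin (Fintype.card b)) ℤ)).col =
        fun j : Fin (Fintype.card b) => (e.symm j : Fin N → ℂ) := by
      funext j
      rw [← hu j]
      rfl
    rw [h2]
    exact h1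
  · intro v
    have h2 : zer R = Submodule.span ℂ (Set.range fun j : Fin (Fintype.card b) =>
        (e.symm j : Fin N → ℂ)) := by
      rw [zer_eq_span, ← hspan]
      congr 1
      ext x
      constructor
      · intro hx
        exact ⟨e ⟨x, hx⟩, by simp⟩
      · rintro ⟨j, rfl⟩
        exact (e.symm j).2
    rw [h2, Submodule.mem_span_range_iff_exists_fun]
    constructor
    · rintro ⟨c, rfl⟩
      refine ⟨c, ?_⟩
      funext i
      simp only [Matrix.mulVec, dotProduct, im, Matrix.map_apply, Matrix.of_apply,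
        Finset.sum_apply, Pi.smul_apply, smul_eq_mul]
      refine Finset.sum_congr rfl fun j _ => ?_
      rw [← hu j, mul_comm]
      rfl
    · rintro ⟨c, rfl⟩
      refine ⟨c, ?_⟩
      funext i
      simp only [Matrix.mulVec, dotProduct, im, Matrix.map_apply, Matrix.of_apply,
        Finset.sum_apply, Pi.smul_apply, smul_eq_mul]
      refine Finset.sum_congr rfl fun j _ => ?_
      rw [← hu j, mul_comm]
      rfl

end lattice

variable {m N w : ℕ} {X : Type*} [TopologicalSpace X] [RDom m X] {V : Ipc735.VHS m X N w}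

/-- **Semisimplicity and fixed part theorem on a model.** -/
theorem mono [T2Space X] [PreconnectedSpace X] {h : MvPolynomial (Fin m) ℂ} (hP : Prp h X)
    (x₀ : X) : Mono w (V.S x₀) (V.E x₀) (mon V.P x₀) where
  hs := V.hs x₀
  pres := fun g hg => vhs_mon_S V hg
  adE := by
    intro A hA
    obtain ⟨Φ, hΦ, h0, _⟩ := vhs_mat_extend V x₀ hA
    have h1 := mat_fl (x := x₀) (adE_field hP hΦ)
    rw [h0] at h1
    exact h1
  semi := by
    intro R hst
    have := rdom_lc (X := X)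
    obtain ⟨r, B₀, hinj, hmem⟩ := exists_basis R
    have hch : ∀ x, ∃ g, Tr V.P x x₀ g := fun x => exists_tr V.ndc x x₀
    choose g hg using hch
    -- the matrix of a monodromy transformation
    have hc : ∀ k ∈ mon V.P x₀, ∃ c : Matrix (Fin r) (Fin r) ℂ, cm k * im B₀ = im B₀ * c := by
      intro k hk
      have h1 : ∀ j, ∃ c : Fin r → ℂ, cm k *ᵥ (im B₀ *ᵥ Pi.single j 1) = im B₀ *ᵥ c := by
        intro j
        exact (hmem _).1 (hst k hk _ ((hmem _).2 ⟨_, rfl⟩))
      choose c hc using h1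
      refine ⟨Matrix.of fun i j => c j i, ?_⟩
      ext i j
      have h2 := congrFun (hc j) i
      rw [Matrix.mulVec_mulVec, Matrix.mulVec_single_one] at h2
      exact h2
    set B : X → Matrix (Fin N) (Fin r) ℂ := fun x => cm (g x) * im B₀ with hBdef
    have hBinj : ∀ x, Function.Injective (B x).mulVec := by
      intro x a b hab
      have h1 : cm (g x) *ᵥ (im B₀ *ᵥ a) = cm (g x) *ᵥ (im B₀ *ᵥ b) := by
        rw [Matrix.mulVec_mulVec, Matrix.mulVec_mulVec]; exact hab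
      have h2 := congrArg (fun v => cm (g x)⁻¹ *ᵥ v) h1
      simp only [Matrix.mulVec_mulVec, ← Matrix.mul_assoc, Hull_574.cm_inv_mul,
        Matrix.one_mul] at h2
      exact hinj h2
    have hflat : ∀ z, ∀ᶠ y in 𝓝 z, ∃ c : Matrix (Fin r) (Fin r) ℂ, ‖c.det‖ = 1 ∧
        cm (V.P z y) * B y = B z * c := by
      intro z
      filter_upwards [tr_near V.ndc z] with y hy
      have hk : (g z)⁻¹ * (V.P z y * g y) ∈ mon V.P x₀ := (hg z).inv_mul_mem (hy.1.trans (hg y))
      obtain ⟨c, hc1⟩ := hc _ hk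
      obtain ⟨c', hc2⟩ := hc _ (inv_mem hk)
      refine ⟨c, det_eq_one hinj hc1 hc2, ?_⟩
      calc cm (V.P z y) * B y = cm (V.P z y * g y) * im B₀ := by
            rw [hBdef, Hull_574.cm_mul, Matrix.mul_assoc]
        _ = cm (g z * ((g z)⁻¹ * (V.P z y * g y))) * im B₀ := by rw [mul_inv_cancel_left]
        _ = cm (g z) * (cm ((g z)⁻¹ * (V.P z y * g y)) * im B₀) := by
            rw [Hull_574.cm_mul, Matrix.mul_assoc]
        _ = B z * c := by rw [hc1, hBdef, Matrix.mul_assoc]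
    have hfl := pj_field hP hBinj hflat
    have hK := HSL_574.hodge_posDef (V.hs x₀)
    refine ⟨SSVar_720.pj (B x₀) (hodge w (V.S x₀) (V.E x₀)), mat_fl (x := x₀) hfl,
      SSVar_720.pj_mul_pj (hBinj x₀) hK, SSVar_720.adj_pj (hBinj x₀) hK, fun v => ?_⟩
    rw [← SSVar_720.mem_range_iff (hBinj x₀) hK, hmem]
    have hg0 : g x₀ ∈ mon V.P x₀ := hg x₀
    constructor
    · rintro ⟨c, rfl⟩
      obtain ⟨d, hd⟩ := (hmem _).1 (hst _ (inv_mem hg0) _ ((hmem _).2 ⟨c, rfl⟩))
      refine ⟨d, ?_⟩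
      rw [hBdef]
      show im B₀ *ᵥ c = (cm (g x₀) * im B₀) *ᵥ d
      rw [← Matrix.mulVec_mulVec, ← hd, Matrix.mulVec_mulVec, Hull_574.cm_mul_inv,
        Matrix.one_mulVec]
    · rintro ⟨c, rfl⟩
      obtain ⟨d, hd⟩ := (hmem _).1 (hst _ hg0 _ ((hmem _).2 ⟨c, rfl⟩))
      refine ⟨d, ?_⟩
      show (cm (g x₀) * im B₀) *ᵥ c = im B₀ *ᵥ d
      rw [← Matrix.mulVec_mulVec, hd]

end Crest.Agent.R276.Mono_574
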