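import Mathlib
import Crest.Agent.R300.An1

-- ▼ part R276/Circ_696
section

/-
ROW 276, task CIRC (helper696).  Sharp extension from a dual sub-mean-value inequality on a circle.
-/

namespace Crest.Agent.R276.Circ_696

open MeasureTheory Metric AddCircle Polynomial Complex
open scoped InnerProductSpace ComplexConjugate ENNReal ComplexOrder

noncomputable section

/-! ## Abstract Hilbert space part -/

section Abstract

variable {𝓗 : Type*} [NormedAddCommGroup 𝓗] [InnerProductSpace ℂ 𝓗] [CompleteSpace 𝓗]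

theorem abstract_min (M M' : 𝓗 →L[ℂ] 𝓗) (hM : 0 ≤ M) (h1 : M * M' = 1) (h2 : M' * M = 1)
    (P : Submodule ℂ 𝓗) (v : 𝓗) {a : ℝ} (ha : 0 ≤ a)
    (hyp : ∀ y : 𝓗, (∀ p ∈ P, ⟪y, p⟫_ℂ = 0) → ‖⟪y, v⟫_ℂ‖ ^ 2 ≤ a * RCLike.re ⟪y, M' y⟫_ℂ)
    {ε : ℝ} (hε : 0 < ε) :
    ∃ p ∈ P, RCLike.re ⟪v - p, M (v - p)⟫_ℂ ≤ a + ε := by
  set R : 𝓗 →L[ℂ] 𝓗 := CFC.sqrt M with hR
  have hRR : R * R = M := CFC.sqrt_mul_sqrt_self M hM
  have hRn : 0 ≤ R := CFC.sqrt_nonneg M
  have hRs : IsSelfAdjoint R := IsSelfAdjoint.of_nonneg hRn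
  have hsym : ∀ x y : 𝓗, ⟪R x, y⟫_ℂ = ⟪x, R y⟫_ℂ := by
    intro x y
    have := (ContinuousLinearMap.isSelfAdjoint_iff_isSymmetric.mp hRs)
    exact this x y
  -- R commutes with M'
  have hcomm : M' * R = R * M' := by
    have h3 : R * M = M * R := by rw [← hRR]; simp [mul_assoc]
    calc M' * R = M' * R * (M * M') := by rw [h1, mul_one]
      _ = M' * (R * M) * M' := by simp [mul_assoc]
      _ = M' * (M * R) * M' := by rw [h3]
      _ = (M' * M) * R * M' := by simp [mul_assoc]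
      _ = R * M' := by rw [h2, one_mul]
  have hRMR : R * M' * R = 1 := by
    rw [mul_assoc, hcomm, ← mul_assoc, hRR, h1]
  let Z : Submodule ℂ 𝓗 := (P.map (R : 𝓗 →ₗ[ℂ] 𝓗)).topologicalClosure
  have : CompleteSpace Z := (Submodule.isClosed_topologicalClosure _).completeSpace_coe
  set u : 𝓗 := Z.starProjection (R v) with hu
  have huZ : u ∈ Z := Submodule.starProjection_apply_mem Z (R v)
  set w : 𝓗 := R v - u with hw
  have hwZ : ∀ z ∈ Z, ⟪w, z⟫_ℂ = 0 := by
    intro z hz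
    have := Submodule.sub_starProjection_mem_orthogonal (K := Z) (R v)
    exact (Submodule.mem_orthogonal' _ _).1 this z hz
  have hy : ∀ p ∈ P, ⟪R w, p⟫_ℂ = 0 := by
    intro p hp
    rw [hsym]
    exact hwZ _ (Submodule.le_topologicalClosure _ (Submodule.mem_map_of_mem hp))
  have hyv : ⟪R w, v⟫_ℂ = (‖w‖ ^ 2 : ℝ) := by
    rw [hsym]
    have : R v = w + u := by rw [hw]; abel
    rw [this, inner_add_right, hwZ u huZ, add_zero, inner_self_eq_norm_sq_to_K]
    push_cast; rfl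
  have hyM : ⟪R w, M' (R w)⟫_ℂ = (‖w‖ ^ 2 : ℝ) := by
    rw [hsym]
    have : R (M' (R w)) = w := by
      have := congrArg (fun T : 𝓗 →L[ℂ] 𝓗 => T w) hRMR
      simpa using this
    rw [this, inner_self_eq_norm_sq_to_K]
    push_cast; rfl
  have key := hyp (R w) hy
  rw [hyv, hyM] at key
  have hre : RCLike.re (((‖w‖ ^ 2 : ℝ) : ℂ)) = ‖w‖ ^ 2 := by
    rw [RCLike.re_eq_complex_re, Complex.ofReal_re]
  rw [hre] at key
  have hwa : ‖w‖ ^ 2 ≤ a := by
    rcases eq_or_lt_of_le (sq_nonneg ‖w‖) with h0 | h0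
    · rw [← h0]; exact ha
    · have : (‖w‖ ^ 2) * (‖w‖ ^ 2) ≤ a * ‖w‖ ^ 2 := by
        rw [Complex.norm_real, Real.norm_eq_abs, sq_abs, sq (‖w‖ ^ 2)] at key
        exact key
      exact le_of_mul_le_mul_right this h0
  -- approximate `u`
  have hu' : u ∈ closure ((P.map (R : 𝓗 →ₗ[ℂ] 𝓗) : Submodule ℂ 𝓗) : Set 𝓗) := by
    rw [← Submodule.topologicalClosure_coe]; exact huZ
  obtain ⟨q, hq, hqd⟩ := Metric.mem_closure_iff.1 hu' (Real.sqrt ε) (Real.sqrt_pos.2 hε)
  obtain ⟨p, hp, rfl⟩ := hq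
  refine ⟨p, hp, ?_⟩
  have e1 : RCLike.re ⟪v - p, M (v - p)⟫_ℂ = ‖R (v - p)‖ ^ 2 := by
    rw [← hRR]
    change RCLike.re ⟪v - p, R (R (v - p))⟫_ℂ = _
    rw [← hsym, inner_self_eq_norm_sq]
  have e2 : R (v - p) = w + (u - R p) := by rw [map_sub, hw]; abel
  have hz : u - R p ∈ Z := Z.sub_mem huZ
    (Submodule.le_topologicalClosure _ (Submodule.mem_map_of_mem hp))
  have e3 : ‖w + (u - R p)‖ ^ 2 = ‖w‖ ^ 2 + ‖u - R p‖ ^ 2 := by
    have := norm_add_sq_eq_norm_sq_add_norm_sq_of_inner_eq_zero w (u - R p) (hwZ _ hz)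
    nlinarith [this]
  have e4 : ‖u - R p‖ ^ 2 ≤ ε := by
    have h5 : ‖u - R p‖ ≤ Real.sqrt ε := by
      rw [← dist_eq_norm]; exact hqd.le
    calc ‖u - R p‖ ^ 2 ≤ (Real.sqrt ε) ^ 2 := pow_le_pow_left₀ (norm_nonneg _) h5 2
      _ = ε := Real.sq_sqrt hε.le
  rw [e1, e2, e3]
  linarith

end Abstract

/-! ## Multiplication operators on `L²` of the circle -/

section L2

local instance factPi : Fact (0 < 2 * Real.pi) := ⟨Real.two_pi_pos⟩

abbrev TT := AddCircle (2 * Real.pi)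
abbrev μ : Measure TT := haarAddCircle
abbrev L2 := Lp ℂ 2 μ

def toL (f : C(TT, ℂ)) : L2 := ContinuousMap.toLp 2 μ ℂ f

def mul (h : C(TT, ℂ)) : L2 →L[ℂ] L2 :=
  (ContinuousLinearMap.mul ℂ ℂ).holderL μ ∞ 2 2 (ContinuousMap.toLp ∞ μ ℂ h)

theorem toL_coe (f : C(TT, ℂ)) : (toL f : TT → ℂ) =ᵐ[μ] f := ContinuousMap.coeFn_toLp μ f

theorem mul_coe (h : C(TT, ℂ)) (x : L2) : (mul h x : TT → ℂ) =ᵐ[μ] fun θ => h θ * x θ := by
  have h1 := ContinuousLinearMap.coeFn_holder (μ := μ) (p := ∞) (q := 2) (r := 2)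
    (ContinuousLinearMap.mul ℂ ℂ) (ContinuousMap.toLp ∞ μ ℂ h) x
  have h2 : (ContinuousMap.toLp (E := ℂ) ∞ μ ℂ h : TT → ℂ) =ᵐ[μ] h :=
    ContinuousMap.coeFn_toLp μ h
  filter_upwards [h1, h2] with θ h3 h4
  have h5 : mul h x = ContinuousLinearMap.holder 2 (ContinuousLinearMap.mul ℂ ℂ)
      (ContinuousMap.toLp ∞ μ ℂ h) x := rfl
  rw [h5, h3, h4]; rfl


theorem mul_mul (h k : C(TT, ℂ)) (x : L2) : mul h (mul k x) = mul (h * k) x := by
  apply Lp.ext
  filter_upwards [mul_coe h (mul k x), mul_coe k x, mul_coe (h * k) x] with θ h1 h2 h3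
  rw [h1, h2, h3, ContinuousMap.mul_apply]; ring

theorem mul_one' (x : L2) : mul 1 x = x := by
  apply Lp.ext
  filter_upwards [mul_coe 1 x] with θ h1
  rw [h1]; simp


theorem mul_zero' : mul 0 = 0 := by
  unfold mul; simp

theorem mul_sum' {ι : Type*} (s : Finset ι) (h : ι → C(TT, ℂ)) :
    mul (∑ i ∈ s, h i) = ∑ i ∈ s, mul (h i) := by
  unfold mul; simp

theorem inner_L2 (x y : L2) : ⟪x, y⟫_ℂ = ∫ θ, y θ * conj (x θ) ∂μ := by
  rw [L2.inner_def]; rfl

theorem inner_toL (f g : C(TT, ℂ)) : ⟪toL f, toL g⟫_ℂ = ∫ θ, g θ * conj (f θ) ∂μ := by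
  rw [inner_L2]
  apply integral_congr_ae
  filter_upwards [toL_coe f, toL_coe g] with θ h1 h2
  rw [h1, h2]

end L2

section Vec

attribute [local instance] factPi

variable {s : ℕ}

abbrev HH (s : ℕ) := PiLp 2 (fun _ : Fin s => L2)

def emb (f : Fin s → C(TT, ℂ)) : HH s := WithLp.toLp 2 (fun i => toL (f i))

theorem emb_apply (f : Fin s → C(TT, ℂ)) (i : Fin s) : emb f i = toL (f i) := rfl

def opM (A : Matrix (Fin s) (Fin s) C(TT, ℂ)) : HH s →L[ℂ] HH s :=
  ((PiLp.continuousLinearEquiv 2 ℂ (fun _ : Fin s => L2)).symm : _ →L[ℂ] _) ∘L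
   (ContinuousLinearMap.pi fun i => ∑ j, (mul (A i j)) ∘L (PiLp.proj 2 (fun _ : Fin s => L2) j))

theorem opM_apply (A : Matrix (Fin s) (Fin s) C(TT, ℂ)) (x : HH s) (i : Fin s) :
    (opM A x) i = ∑ j, mul (A i j) (x j) := by
  simp [opM]

theorem opM_mul (A B : Matrix (Fin s) (Fin s) C(TT, ℂ)) : opM A * opM B = opM (A * B) := by
  ext1 x
  change opM A (opM B x) = opM (A * B) x
  ext1 i
  rw [opM_apply, opM_apply]
  simp_rw [opM_apply, map_sum, mul_mul]
  rw [Finset.sum_comm]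
  refine Finset.sum_congr rfl fun k _ => ?_
  rw [Matrix.mul_apply, mul_sum', _root_.sum_apply]

theorem opM_one : opM (1 : Matrix (Fin s) (Fin s) C(TT, ℂ)) = 1 := by
  ext1 x
  change opM 1 x = x
  ext1 i
  rw [opM_apply, Finset.sum_eq_single i]
  · rw [Matrix.one_apply_eq, mul_one']
  · intro j _ hj
    rw [Matrix.one_apply_ne (Ne.symm hj), mul_zero']; rfl
  · simp


theorem inner_HH (x y : HH s) : ⟪x, y⟫_ℂ = ∑ i, ⟪x i, y i⟫_ℂ := PiLp.inner_apply _ _

theorem inner_opM (A : Matrix (Fin s) (Fin s) C(TT, ℂ)) (x y : HH s) :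
    ⟪x, opM A y⟫_ℂ =
      ∫ θ, (star (fun i => x i θ) ⬝ᵥ (Matrix.of fun i j => A i j θ).mulVec (fun i => y i θ)) ∂μ := by
  have hint : ∀ i j : Fin s, Integrable (fun θ => star (x i θ) * (A i j θ * y j θ)) μ := by
    intro i j
    have h1 := L2.integrable_inner (𝕜 := ℂ) (x i) (mul (A i j) (y j))
    refine h1.congr ?_
    filter_upwards [mul_coe (A i j) (y j)] with θ h
    rw [h]
    simp [mul_comm]
  rw [inner_HH]
  have e1 : ∀ i, ⟪x i, (opM A y) i⟫_ℂ = ∑ j, ∫ θ, star (x i θ) * (A i j θ * y j θ) ∂μ := by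
    intro i
    rw [opM_apply, inner_sum]
    refine Finset.sum_congr rfl fun j _ => ?_
    rw [inner_L2]
    apply integral_congr_ae
    filter_upwards [mul_coe (A i j) (y j)] with θ h
    rw [h]
    simp [mul_comm]
  simp_rw [e1]
  rw [← Finset.sum_congr rfl fun i _ => integral_finsetSum (Finset.univ) (fun j _ => hint i j)]
  rw [← integral_finsetSum _ (fun i _ => integrable_finsetSum _ (fun j _ => hint i j))]
  apply integral_congr_ae
  filter_upwards with θ
  simp only [dotProduct, Matrix.mulVec, Matrix.of_apply, Pi.star_apply, Finset.mul_sum]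

theorem opM_nonneg (A : Matrix (Fin s) (Fin s) C(TT, ℂ))
    (hA : ∀ θ, (Matrix.of fun i j => A i j θ).PosSemidef) : 0 ≤ opM A := by
  rw [ContinuousLinearMap.nonneg_iff_isPositive, ContinuousLinearMap.isPositive_iff_complex]
  intro x
  have h0 : ⟪x, opM A x⟫_ℂ = ((∫ θ, RCLike.re (star (fun i => x i θ) ⬝ᵥ
      (Matrix.of fun i j => A i j θ).mulVec (fun i => x i θ)) ∂μ : ℝ) : ℂ) := by
    rw [inner_opM, ← integral_complex_ofReal]
    apply integral_congr_ae
    filter_upwards with θ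
    have := (hA θ).dotProduct_mulVec_nonneg (fun i => x i θ)
    rw [Complex.le_def] at this
    apply Complex.ext
    · rfl
    · rw [← this.2]; simp
  have h2 : ⟪opM A x, x⟫_ℂ = ((∫ θ, RCLike.re (star (fun i => x i θ) ⬝ᵥ
      (Matrix.of fun i j => A i j θ).mulVec (fun i => x i θ)) ∂μ : ℝ) : ℂ) := by
    rw [← inner_conj_symm, h0, Complex.conj_ofReal]
  rw [h2]
  constructor
  · simp
  · rw [RCLike.re_eq_complex_re, Complex.ofReal_re]
    apply integral_nonneg
    intro θ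
    have := (hA θ).dotProduct_mulVec_nonneg (fun i => x i θ)
    rw [Complex.le_def] at this
    simpa using this.1

end Vec

section Mat

variable {s : ℕ}

/-- squared norm of a vector -/
def vN (H : Matrix (Fin s) (Fin s) ℂ) (v : Fin s → ℂ) : ℝ := (star v ⬝ᵥ H.mulVec v).re

/-- squared dual norm of a covector -/
def dN (H : Matrix (Fin s) (Fin s) ℂ) (ξ : Fin s → ℂ) : ℝ := (ξ ⬝ᵥ H⁻¹.mulVec (star ξ)).re

theorem dN_eq (H : Matrix (Fin s) (Fin s) ℂ) (ξ : Fin s → ℂ) : dN H ξ = vN H⁻¹ (star ξ) := by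
  simp [dN, vN]

theorem vN_nonneg {H : Matrix (Fin s) (Fin s) ℂ} (hH : H.PosSemidef) (v : Fin s → ℂ) :
    0 ≤ vN H v := hH.re_dotProduct_nonneg v


theorem dN_nonneg {H : Matrix (Fin s) (Fin s) ℂ} (hH : H.PosDef) (ξ : Fin s → ℂ) :
    0 ≤ dN H ξ := by rw [dN_eq]; exact vN_nonneg hH.inv.posSemidef _

@[reducible] def core {H : Matrix (Fin s) (Fin s) ℂ} (hH : H.PosSemidef) :
    PreInnerProductSpace.Core ℂ (Fin s → ℂ) where
  inner x y := star x ⬝ᵥ H.mulVec y
  conj_inner_symm x y := by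
    rw [starRingEnd_apply, ← Matrix.star_dotProduct_star, star_star, Matrix.star_mulVec,
      hH.isHermitian.eq, ← Matrix.dotProduct_mulVec]
  re_inner_nonneg x := hH.re_dotProduct_nonneg x
  add_left x y z := by simp [star_add, add_dotProduct]
  smul_left x y c := by simp [star_smul, smul_dotProduct]

theorem cs {H : Matrix (Fin s) (Fin s) ℂ} (hH : H.PosDef) (ξ v : Fin s → ℂ) :
    ‖ξ ⬝ᵥ v‖ ^ 2 ≤ dN H ξ * vN H v := by
  have hu : IsUnit H.det := (Matrix.isUnit_iff_isUnit_det _).1 hH.isUnit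
  have h := @InnerProductSpace.Core.inner_mul_inner_self_le ℂ (Fin s → ℂ) _ _ _
    (core hH.posSemidef) (H⁻¹.mulVec (star ξ)) v
  change ‖star (H⁻¹.mulVec (star ξ)) ⬝ᵥ H.mulVec v‖ * ‖star v ⬝ᵥ H.mulVec (H⁻¹.mulVec (star ξ))‖ ≤
    (star (H⁻¹.mulVec (star ξ)) ⬝ᵥ H.mulVec (H⁻¹.mulVec (star ξ))).re * vN H v at h
  have e1 : H.mulVec (H⁻¹.mulVec (star ξ)) = star ξ := by
    rw [Matrix.mulVec_mulVec, Matrix.mul_nonsing_inv _ hu, Matrix.one_mulVec]
  have e2 : star (H⁻¹.mulVec (star ξ)) ⬝ᵥ H.mulVec v = ξ ⬝ᵥ v := by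
    rw [Matrix.star_mulVec, star_star, hH.inv.isHermitian.eq, ← Matrix.dotProduct_mulVec,
      Matrix.mulVec_mulVec, Matrix.nonsing_inv_mul _ hu, Matrix.one_mulVec]
  rw [e1, e2] at h
  have e3 : ‖star v ⬝ᵥ star ξ‖ = ‖ξ ⬝ᵥ v‖ := by
    rw [Matrix.star_dotProduct_star, norm_star]
  have e4 : (star (H⁻¹.mulVec (star ξ)) ⬝ᵥ star ξ).re = dN H ξ := by
    rw [Matrix.star_dotProduct_star, dN]
    simp
  rw [e3, e4] at h
  rw [sq]; exact h

end Mat

section Circ

attribute [local instance] factPi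

variable {s : ℕ} {ρ : ℝ}

/-- the coordinate function on the circle of radius `ρ` -/
def ee (ρ : ℝ) : C(TT, ℂ) := (ρ : ℂ) • fourier 1

theorem ee_apply (θ : TT) : ee ρ θ = ρ * fourier 1 θ := rfl

theorem ee_coe (x : ℝ) : ee ρ (x : TT) = circleMap 0 ρ x := by
  rw [ee_apply, fourier_coe_apply, circleMap, zero_add]
  congr 2
  push_cast
  have : (Real.pi : ℂ) ≠ 0 := by exact_mod_cast Real.pi_ne_zero
  field_simp

theorem norm_ee (hρ : 0 ≤ ρ) (θ : TT) : ‖ee ρ θ‖ = ρ := by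
  rw [ee_apply, norm_mul, fourier_one, Circle.norm_coe, mul_one, Complex.norm_real,
    Real.norm_eq_abs, abs_of_nonneg hρ]

theorem ee_mem (hρ : 0 ≤ ρ) (θ : TT) : ee ρ θ ∈ sphere (0 : ℂ) ρ := by
  rw [mem_sphere_zero_iff_norm, norm_ee hρ]

theorem circleAverage_eq {E : Type*} [NormedAddCommGroup E] [NormedSpace ℝ E] (f : ℂ → E) :
    Real.circleAverage f 0 ρ = ∫ θ, f (ee ρ θ) ∂μ := by
  rw [Real.circleAverage_def, integral_haarAddCircle,
    ← AddCircle.intervalIntegral_preimage (2 * Real.pi) 0 (fun θ => f (ee ρ θ)), zero_add]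
  simp_rw [ee_coe]

theorem ee_pow (k : ℕ) (θ : TT) : (ee ρ θ) ^ k = (ρ : ℂ) ^ k * fourier k θ := by
  rw [ee_apply, mul_pow]
  congr 1
  induction k with
  | zero => simp
  | succ n ih => rw [pow_succ, ih, Nat.cast_succ, fourier_add]

/-- a polynomial as a function on the circle -/
def ev (ρ : ℝ) (q : ℂ[X]) : C(TT, ℂ) := aeval (ee ρ) q

theorem ev_apply (q : ℂ[X]) (θ : TT) : ev ρ q θ = q.eval (ee ρ θ) := by
  unfold ev
  induction q using Polynomial.induction_on' with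
  | add p q hp hq => rw [map_add, ContinuousMap.add_apply, hp, hq, eval_add]
  | monomial n a => simp [aeval_monomial]

theorem ev_add (p q : ℂ[X]) : ev ρ (p + q) = ev ρ p + ev ρ q := map_add _ _ _

theorem ev_C_mul (c : ℂ) (q : ℂ[X]) : ev ρ (C c * q) = c • ev ρ q := by
  ext θ; simp [ev_apply]

/-- conjugate analytic elements -/
def J (ρ : ℝ) (ξ : Fin s → ℂ[X]) : HH s := emb fun i => star (ev ρ (ξ i))

def SS (s : ℕ) (ρ : ℝ) : Submodule ℂ (HH s) where
  carrier := Set.range (J (s := s) ρ)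
  add_mem' := by
    rintro _ _ ⟨ξ, rfl⟩ ⟨η, rfl⟩
    refine ⟨ξ + η, ?_⟩
    ext1 i
    simp only [J, emb_apply, PiLp.add_apply, Pi.add_apply, ev_add, star_add]
    simp [toL]
  zero_mem' := by
    refine ⟨0, ?_⟩
    ext1 i
    simp only [J, emb_apply, Pi.zero_apply, PiLp.zero_apply]
    have : ev ρ 0 = 0 := map_zero _
    rw [this, star_zero]; simp [toL]
  smul_mem' := by
    rintro c _ ⟨ξ, rfl⟩
    refine ⟨fun i => C (conj c) * ξ i, ?_⟩
    ext1 i
    simp only [J, emb_apply, PiLp.smul_apply, ev_C_mul, star_smul]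
    simp [toL]

def PP (s : ℕ) (ρ : ℝ) : Submodule ℂ (HH s) where
  carrier := Set.range (fun τ : Fin s → ℂ[X] => (emb fun i => ev ρ (X * τ i) : HH s))
  add_mem' := by
    rintro _ _ ⟨ξ, rfl⟩ ⟨η, rfl⟩
    refine ⟨ξ + η, ?_⟩
    ext1 i
    simp only [emb_apply, PiLp.add_apply, Pi.add_apply, mul_add, ev_add]
    simp [toL]
  zero_mem' := by
    refine ⟨0, ?_⟩
    ext1 i
    simp only [emb_apply, Pi.zero_apply, PiLp.zero_apply, mul_zero]
    have : ev ρ 0 = 0 := map_zero _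
    rw [this]; simp [toL]
  smul_mem' := by
    rintro c _ ⟨ξ, rfl⟩
    refine ⟨fun i => C c * ξ i, ?_⟩
    ext1 i
    simp only [emb_apply, PiLp.smul_apply]
    rw [mul_left_comm, ev_C_mul]
    simp [toL]

theorem toL_fourier (n : ℤ) : toL (fourier n) = fourierLp 2 n := rfl

/-- everything orthogonal to the polynomials vanishing at `0` is a limit of conjugate analytic
elements -/
theorem mem_closure (hρ : 0 < ρ) {y : HH s} (hy : ∀ p ∈ PP s ρ, ⟪y, p⟫_ℂ = 0) :
    y ∈ closure ((SS s ρ : Submodule ℂ (HH s)) : Set (HH s)) := by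
  have hρ' : (ρ : ℂ) ≠ 0 := by exact_mod_cast hρ.ne'
  rw [← Submodule.topologicalClosure_coe, ← Submodule.orthogonal_orthogonal_eq_closure]
  change y ∈ (SS s ρ)ᗮᗮ
  rw [Submodule.mem_orthogonal]
  intro z hz
  rw [inner_HH]
  refine Finset.sum_eq_zero fun i _ => ?_
  rw [← (fourierBasis (T := 2 * Real.pi)).tsum_inner_mul_inner (z i) (y i)]
  have h0 : ∀ k : ℤ, ⟪z i, fourierBasis (T := 2 * Real.pi) k⟫_ℂ *
      ⟪fourierBasis (T := 2 * Real.pi) k, y i⟫_ℂ = 0 := by
    intro k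
    rw [coe_fourierBasis, ← toL_fourier]
    rcases le_or_gt k 0 with hk | hk
    · -- `k ≤ 0`
      obtain ⟨n, rfl⟩ : ∃ n : ℕ, k = -(n : ℤ) := ⟨k.natAbs, by omega⟩
      have h1 : ⟪z i, toL (fourier (-(n : ℤ)))⟫_ℂ = 0 := by
        have hm : J ρ (Pi.single i (C ((ρ : ℂ) ^ n)⁻¹ * X ^ n)) ∈ SS s ρ := ⟨_, rfl⟩
        have h2 := (Submodule.mem_orthogonal' _ _).1 hz _ hm
        rw [inner_HH, Finset.sum_eq_single i] at h2
        · rw [J, emb_apply, Pi.single_eq_same] at h2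
          have h3 : star (ev ρ (C ((ρ : ℂ) ^ n)⁻¹ * X ^ n)) = fourier (-(n : ℤ)) := by
            ext θ
            rw [ContinuousMap.star_apply, ev_apply, eval_mul, eval_C, eval_pow, eval_X, ee_pow,
              ← mul_assoc, inv_mul_cancel₀ (pow_ne_zero _ hρ'), one_mul, fourier_neg]
            rfl
          rw [h3] at h2
          exact h2
        · intro j _ hj
          rw [J, emb_apply, Pi.single_eq_of_ne hj]
          have : ev ρ 0 = 0 := map_zero _
          rw [this, star_zero]; simp [toL]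
        · simp
      rw [h1, zero_mul]
    · obtain ⟨n, rfl⟩ : ∃ n : ℕ, k = (n : ℤ) + 1 := ⟨(k - 1).natAbs, by omega⟩
      have h1 : ⟪y i, toL (fourier ((n : ℤ) + 1))⟫_ℂ = 0 := by
        have hm : (emb fun j => ev ρ (X * (Pi.single i (C ((ρ : ℂ) ^ (n + 1))⁻¹ * X ^ n) :
            Fin s → ℂ[X]) j) : HH s) ∈ PP s ρ := ⟨_, rfl⟩
        have h2 := hy _ hm
        rw [inner_HH, Finset.sum_eq_single i] at h2
        · rw [emb_apply, Pi.single_eq_same] at h2
          have h3 : ev ρ (X * (C ((ρ : ℂ) ^ (n + 1))⁻¹ * X ^ n)) = fourier ((n : ℤ) + 1) := by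
            ext θ
            have h4 : X * (C ((ρ : ℂ) ^ (n + 1))⁻¹ * X ^ n) = C ((ρ : ℂ) ^ (n + 1))⁻¹ * X ^ (n + 1) := by
              ring
            rw [h4, ev_apply, eval_mul, eval_C, eval_pow, eval_X, ee_pow,
              ← mul_assoc, inv_mul_cancel₀ (pow_ne_zero _ hρ'), one_mul]
            simp
          rw [h3] at h2
          exact h2
        · intro j _ hj
          rw [emb_apply, Pi.single_eq_of_ne hj, mul_zero]
          have : ev ρ 0 = 0 := map_zero _
          rw [this]; simp [toL]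
        · simp
      rw [← inner_conj_symm (toL (fourier ((n : ℤ) + 1))) (y i), h1, map_zero, mul_zero]
  simp_rw [h0]
  simp

/-- a continuous matrix function on the circle -/
def mat (hρ : 0 ≤ ρ) (H : ℂ → Matrix (Fin s) (Fin s) ℂ) (hH : ContinuousOn H (sphere 0 ρ)) :
    Matrix (Fin s) (Fin s) C(TT, ℂ) := fun i j =>
  ⟨fun θ => H (ee ρ θ) i j, by
    have h1 : Continuous fun θ => H (ee ρ θ) :=
      hH.comp_continuous (ee ρ).continuous (fun θ => ee_mem hρ θ)
    exact h1.matrix_elem i j⟩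

theorem mat_apply (hρ : 0 ≤ ρ) (H : ℂ → Matrix (Fin s) (Fin s) ℂ)
    (hH : ContinuousOn H (sphere 0 ρ)) (i j : Fin s) (θ : TT) :
    mat hρ H hH i j θ = H (ee ρ θ) i j := rfl

theorem continuousOn_inv {H : ℂ → Matrix (Fin s) (Fin s) ℂ} (hH : ContinuousOn H (sphere 0 ρ))
    (hp : ∀ t ∈ sphere (0 : ℂ) ρ, (H t).PosDef) : ContinuousOn (fun t => (H t)⁻¹) (sphere 0 ρ) := by
  intro t ht
  have hu : IsUnit (H t).det := (Matrix.isUnit_iff_isUnit_det _).1 (hp t ht).isUnit
  have h1 : ContinuousAt Ring.inverse (H t).det := by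
    have := NormedRing.inverse_continuousAt hu.unit
    simpa using this
  exact (continuousAt_matrix_inv _ h1).comp_continuousWithinAt (hH t ht)

theorem re_inner_opM (hρ : 0 ≤ ρ) (H : ℂ → Matrix (Fin s) (Fin s) ℂ)
    (hH : ContinuousOn H (sphere 0 ρ)) (f : Fin s → C(TT, ℂ)) :
    RCLike.re ⟪emb f, opM (mat hρ H hH) (emb f)⟫_ℂ =
      ∫ θ, vN (H (ee ρ θ)) (fun i => f i θ) ∂μ := by
  have hc : Continuous fun θ => H (ee ρ θ) :=
      hH.comp_continuous (ee ρ).continuous (fun θ => ee_mem hρ θ)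
  have hf : Continuous fun θ => (fun i => f i θ : Fin s → ℂ) :=
    continuous_pi fun i => (f i).continuous
  have h1 : ⟪emb f, opM (mat hρ H hH) (emb f)⟫_ℂ =
      ∫ θ, (star (fun i => f i θ) ⬝ᵥ (H (ee ρ θ)).mulVec (fun i => f i θ)) ∂μ := by
    rw [inner_opM]
    apply integral_congr_ae
    have h2 : ∀ᵐ θ ∂μ, ∀ i, (emb f i : TT → ℂ) θ = f i θ :=
      Filter.eventually_all.2 fun i => toL_coe (f i)
    filter_upwards [h2] with θ h
    have h3 : (fun i => (emb f i : TT → ℂ) θ) = fun i => f i θ := funext h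
    rw [h3]
    rfl
  have hci : Continuous fun θ => (star (fun i => f i θ) ⬝ᵥ (H (ee ρ θ)).mulVec (fun i => f i θ)) := by
    apply Continuous.dotProduct
    · exact continuous_pi fun i => (continuous_star.comp (f i).continuous)
    · exact hc.matrix_mulVec hf
  rw [h1, RCLike.re_eq_complex_re]
  have h4 := integral_re (𝕜 := ℂ) (μ := μ) (f := fun θ => (star (fun i => f i θ) ⬝ᵥ
    (H (ee ρ θ)).mulVec (fun i => f i θ))) (hci.integrable_of_hasCompactSupport
      (HasCompactSupport.of_compactSpace _))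
  rw [RCLike.re_eq_complex_re] at h4
  rw [← h4]
  rfl

theorem mean_poly (hρ : 0 < ρ) (q : ℂ[X]) : ∫ θ, q.eval (ee ρ θ) ∂μ = q.eval 0 := by
  rw [← circleAverage_eq (ρ := ρ) (fun t => q.eval t)]
  exact q.differentiable.diffContOnCl.circleAverage

theorem inner_J (hρ : 0 < ρ) (ξ : Fin s → ℂ[X]) (v : Fin s → ℂ) :
    ⟪J ρ ξ, (emb fun i => ev ρ (C (v i)) : HH s)⟫_ℂ = (fun i => (ξ i).eval 0) ⬝ᵥ v := by
  rw [inner_HH]
  unfold dotProduct
  refine Finset.sum_congr rfl fun i _ => ?_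
  change _ = (ξ i).eval 0 * v i
  rw [J, emb_apply, emb_apply, inner_toL, ← mean_poly hρ (ξ i), ← integral_mul_const]
  apply integral_congr_ae
  filter_upwards with θ
  rw [ContinuousMap.star_apply, ev_apply, ev_apply, eval_C]
  simp [mul_comm]

/-- **CIRCLE.** Sharp extension from the centre of a disc for a Hermitian metric on the boundary
circle, from the dual sub-mean-value inequality for polynomial covectors. -/
theorem circle (hρ : 0 < ρ) {H : ℂ → Matrix (Fin s) (Fin s) ℂ}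
    (hH : ContinuousOn H (sphere 0 ρ)) (hp : ∀ t ∈ sphere (0 : ℂ) ρ, (H t).PosDef)
    {H0 : Matrix (Fin s) (Fin s) ℂ} (h0 : H0.PosDef)
    (hyp : ∀ ξ : Fin s → ℂ[X], dN H0 (fun i => (ξ i).eval 0) ≤
      Real.circleAverage (fun t => dN (H t) (fun i => (ξ i).eval t)) 0 ρ)
    (v : Fin s → ℂ) {ε : ℝ} (hε : 0 < ε) :
    ∃ τ : Fin s → ℂ[X], (∀ i, (τ i).eval 0 = v i) ∧
      Real.circleAverage (fun t => vN (H t) (fun i => (τ i).eval t)) 0 ρ ≤ vN H0 v + ε := by
  have hρ0 := hρ.le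
  have hHi := continuousOn_inv hH hp
  set M := opM (mat hρ0 H hH) with hM
  set M' := opM (mat hρ0 (fun t => (H t)⁻¹) hHi) with hM'
  have hM0 : 0 ≤ M := opM_nonneg _ fun θ => (hp _ (ee_mem hρ0 θ)).posSemidef
  have hu : ∀ θ, IsUnit (H (ee ρ θ)).det := fun θ =>
    (Matrix.isUnit_iff_isUnit_det _).1 (hp _ (ee_mem hρ0 θ)).isUnit
  have h1 : M * M' = 1 := by
    rw [hM, hM', opM_mul, ← opM_one]
    congr 1
    ext i j θ
    have := congrFun (congrFun (Matrix.mul_nonsing_inv _ (hu θ)) i) j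
    rw [Matrix.mul_apply] at this ⊢
    rw [ContinuousMap.sum_apply]
    simp only [ContinuousMap.mul_apply, mat_apply]
    rw [this, Matrix.one_apply, Matrix.one_apply]
    split_ifs <;> simp
  have h2 : M' * M = 1 := by
    rw [hM, hM', opM_mul, ← opM_one]
    congr 1
    ext i j θ
    have := congrFun (congrFun (Matrix.nonsing_inv_mul _ (hu θ)) i) j
    rw [Matrix.mul_apply] at this ⊢
    rw [ContinuousMap.sum_apply]
    simp only [ContinuousMap.mul_apply, mat_apply]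
    rw [this, Matrix.one_apply, Matrix.one_apply]
    split_ifs <;> simp
  set V : HH s := emb fun i => ev ρ (C (v i)) with hV
  have hyp' : ∀ y : HH s, (∀ p ∈ PP s ρ, ⟪y, p⟫_ℂ = 0) →
      ‖⟪y, V⟫_ℂ‖ ^ 2 ≤ vN H0 v * RCLike.re ⟪y, M' y⟫_ℂ := by
    intro y hy
    have hcl : IsClosed {y : HH s | ‖⟪y, V⟫_ℂ‖ ^ 2 ≤ vN H0 v * RCLike.re ⟪y, M' y⟫_ℂ} := by
      apply isClosed_le
      · fun_prop
      · fun_prop
    refine (closure_minimal ?_ hcl) (mem_closure hρ hy)
    rintro _ ⟨ξ, rfl⟩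
    change ‖⟪J ρ ξ, V⟫_ℂ‖ ^ 2 ≤ vN H0 v * RCLike.re ⟪J ρ ξ, M' (J ρ ξ)⟫_ℂ
    rw [hV, inner_J hρ]
    refine (cs h0 _ v).trans ?_
    rw [mul_comm]
    apply mul_le_mul_of_nonneg_left _ (vN_nonneg h0.posSemidef v)
    refine (hyp ξ).trans (le_of_eq ?_)
    rw [circleAverage_eq, J, hM', re_inner_opM]
    apply integral_congr_ae
    filter_upwards with θ
    rw [dN_eq]
    congr 1
    funext i
    rw [ContinuousMap.star_apply, ev_apply]
    rfl
  obtain ⟨p, ⟨τ, rfl⟩, hτ⟩ := abstract_min M M' hM0 h1 h2 (PP s ρ) V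
    (vN_nonneg h0.posSemidef v) hyp' hε
  refine ⟨fun i => C (v i) - X * τ i, fun i => by simp, ?_⟩
  rw [circleAverage_eq]
  have e1 : V - (emb fun i => ev ρ (X * τ i) : HH s) = emb fun i => ev ρ (C (v i) - X * τ i) := by
    ext1 i
    rw [hV, PiLp.sub_apply, emb_apply, emb_apply, emb_apply]
    have : ev ρ (C (v i) - X * τ i) = ev ρ (C (v i)) - ev ρ (X * τ i) := map_sub _ _ _
    rw [this]; simp [toL]
  change RCLike.re ⟪V - (emb fun i => ev ρ (X * τ i) : HH s),
    M (V - (emb fun i => ev ρ (X * τ i) : HH s))⟫_ℂ ≤ _ at hτ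
  rw [e1, hM, re_inner_opM] at hτ
  simp_rw [ev_apply] at hτ
  exact hτ

end Circ

end

end Crest.Agent.R276.Circ_696
end

-- ▼ part R276/NBcore_696

/-
ROW 276, task CIRC (helper696), second half.
NB-CORE: sharp `L^{2θ}` extension over a disc by iterated Hoelder, and the sub-mean-value property of the
`L^{2θ}`-Bergman kernel (`θ = 1/N`), formalism independent.
-/

namespace Crest.Agent.R276.NBcore_696

open MeasureTheory Metric Polynomial Complex Real
open Crest.Agent.R276.Circ_696 (vN dN circle)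
open scoped ComplexOrder

noncomputable section

variable {ρ : ℝ} {s : ℕ}

theorem ci (hρ : 0 < ρ) {f : ℂ → ℝ} (hf : ContinuousOn f (sphere 0 ρ)) :
    CircleIntegrable f 0 ρ := hf.circleIntegrable hρ.le

theorem mono (hρ : 0 < ρ) {f g : ℂ → ℝ} (hf : ContinuousOn f (sphere 0 ρ))
    (hg : ContinuousOn g (sphere 0 ρ)) (h : ∀ t ∈ sphere (0 : ℂ) ρ, f t ≤ g t) :
    circleAverage f 0 ρ ≤ circleAverage g 0 ρ := by
  apply circleAverage_mono (ci hρ hf) (ci hρ hg)
  rwa [abs_of_pos hρ]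

/-- Hoelder for circle averages. -/
theorem holder_avg (hρ : 0 < ρ) {f g : ℂ → ℝ} (hf : ContinuousOn f (sphere 0 ρ))
    (hg : ContinuousOn g (sphere 0 ρ)) (hf0 : ∀ t ∈ sphere (0 : ℂ) ρ, 0 ≤ f t)
    (hg0 : ∀ t ∈ sphere (0 : ℂ) ρ, 0 ≤ g t) {θ a b : ℝ} (hθ : 0 < θ) (hθ1 : θ ≤ 1)
    (ha : 0 < a) (hb : 0 < b) (hfa : circleAverage f 0 ρ ≤ a) (hgb : circleAverage g 0 ρ ≤ b)
    {k : ℂ → ℝ} (hk : ContinuousOn k (sphere 0 ρ))
    (hkfg : ∀ t ∈ sphere (0 : ℂ) ρ, k t ≤ f t ^ θ * g t ^ (1 - θ)) :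
    circleAverage k 0 ρ ≤ a ^ θ * b ^ (1 - θ) := by
  set c := a ^ θ * b ^ (1 - θ) with hc
  have hc0 : 0 < c := by positivity
  have h1 : ∀ t ∈ sphere (0 : ℂ) ρ, k t ≤ (c * θ / a) * f t + (c * (1 - θ) / b) * g t := by
    intro t ht
    refine (hkfg t ht).trans ?_
    have h2 := Real.geom_mean_le_arith_mean2_weighted hθ.le (sub_nonneg.2 hθ1)
      (div_nonneg (hf0 t ht) ha.le) (div_nonneg (hg0 t ht) hb.le) (by ring)
    rw [Real.div_rpow (hf0 t ht) ha.le, Real.div_rpow (hg0 t ht) hb.le] at h2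
    have ha' : (a ^ θ) ≠ 0 := by positivity
    have hb' : (b ^ (1 - θ)) ≠ 0 := by positivity
    calc f t ^ θ * g t ^ (1 - θ) = c * (f t ^ θ / a ^ θ * (g t ^ (1 - θ) / b ^ (1 - θ))) := by
          rw [hc]; field_simp
      _ ≤ c * (θ * (f t / a) + (1 - θ) * (g t / b)) := mul_le_mul_of_nonneg_left h2 hc0.le
      _ = _ := by ring
  have h3 : circleAverage k 0 ρ ≤
      circleAverage (fun t => (c * θ / a) * f t + (c * (1 - θ) / b) * g t) 0 ρ := by
    apply mono hρ hk _ h1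
    exact (continuousOn_const.mul hf).add (continuousOn_const.mul hg)
  have h4 : circleAverage (fun t => (c * θ / a) * f t + (c * (1 - θ) / b) * g t) 0 ρ =
      (c * θ / a) * circleAverage f 0 ρ + (c * (1 - θ) / b) * circleAverage g 0 ρ := by
    have cf : ContinuousOn (fun t => (c * θ / a) * f t) (sphere 0 ρ) := continuousOn_const.mul hf
    have cg : ContinuousOn (fun t => (c * (1 - θ) / b) * g t) (sphere 0 ρ) :=
      continuousOn_const.mul hg
    rw [circleAverage_fun_add (ci hρ cf) (ci hρ cg)]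
    have e1 := circleAverage_fun_smul (a := (c * θ / a)) (f := f) (c := 0) (R := ρ)
    have e2 := circleAverage_fun_smul (a := (c * (1 - θ) / b)) (f := g) (c := 0) (R := ρ)
    simp only [smul_eq_mul] at e1 e2
    rw [e1, e2]
  rw [h4] at h3
  refine h3.trans ?_
  have h5 : (c * θ / a) * circleAverage f 0 ρ ≤ (c * θ / a) * a :=
    mul_le_mul_of_nonneg_left hfa (by positivity)
  have h6 : (c * (1 - θ) / b) * circleAverage g 0 ρ ≤ (c * (1 - θ) / b) * b :=
    mul_le_mul_of_nonneg_left hgb (div_nonneg (mul_nonneg hc0.le (sub_nonneg.2 hθ1)) hb.le)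
  have h7 : (c * θ / a) * a = c * θ := by field_simp
  have h8 : (c * (1 - θ) / b) * b = c * (1 - θ) := by field_simp
  rw [h7] at h5
  rw [h8] at h6
  calc _ ≤ c * θ + c * (1 - θ) := add_le_add h5 h6
    _ = c := by ring

/-- Jensen for circle averages. -/
theorem avg_log_le (hρ : 0 < ρ) {h : ℂ → ℝ} (hh : ContinuousOn h (sphere 0 ρ))
    (hpos : ∀ t ∈ sphere (0 : ℂ) ρ, 0 < h t) {a : ℝ} (ha : 0 < a)
    (hle : circleAverage h 0 ρ ≤ a) :
    circleAverage (fun t => Real.log (h t)) 0 ρ ≤ Real.log a := by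
  have ch : ContinuousOn (fun t => a⁻¹ * h t) (sphere 0 ρ) := continuousOn_const.mul hh
  have cc : ContinuousOn (fun _ : ℂ => Real.log a - 1) (sphere 0 ρ) := continuousOn_const
  have h1 : circleAverage (fun t => Real.log (h t)) 0 ρ ≤
      circleAverage (fun t => a⁻¹ * h t + (Real.log a - 1)) 0 ρ := by
    refine mono hρ (hh.log fun t ht => (hpos t ht).ne') (ch.add cc) ?_
    intro t ht
    have h2 := Real.log_le_sub_one_of_pos (div_pos (hpos t ht) ha)
    rw [Real.log_div (hpos t ht).ne' ha.ne'] at h2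
    rw [inv_mul_eq_div]
    linarith
  refine h1.trans ?_
  rw [circleAverage_fun_add (ci hρ ch) (ci hρ cc), circleAverage_const]
  have e1 := circleAverage_fun_smul (a := a⁻¹) (f := h) (c := 0) (R := ρ)
  simp only [smul_eq_mul] at e1
  rw [e1]
  have h3 : a⁻¹ * circleAverage h 0 ρ ≤ a⁻¹ * a := mul_le_mul_of_nonneg_left hle (by positivity)
  rw [inv_mul_cancel₀ ha.ne'] at h3
  linarith

/-- the `δ`-log form of the sub-mean-value property implies the plain one -/
theorem le_avg_of_log (hρ : 0 < ρ) {b : ℂ → ℝ} (hb : ContinuousOn b (sphere 0 ρ))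
    (hb0 : ∀ t ∈ sphere (0 : ℂ) ρ, 0 ≤ b t) {b0 : ℝ} (h0 : 0 ≤ b0) {δ : ℝ} (hδ : 0 < δ)
    (h : Real.log (b0 + δ) ≤ circleAverage (fun t => Real.log (b t + δ)) 0 ρ) :
    b0 ≤ circleAverage b 0 ρ := by
  have h1 : 0 ≤ circleAverage b 0 ρ := by
    apply circleAverage_nonneg_of_nonneg
    intro t ht
    rw [abs_of_pos hρ] at ht
    exact hb0 t ht
  have h2 : circleAverage (fun t => Real.log (b t + δ)) 0 ρ ≤
      Real.log (circleAverage b 0 ρ + δ) := by
    have hbδ : ContinuousOn (fun t => b t + δ) (sphere 0 ρ) := hb.add continuousOn_const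
    apply avg_log_le hρ hbδ (fun t ht => by have := hb0 t ht; linarith) (by linarith)
    have : circleAverage (fun t => b t + δ) 0 ρ = circleAverage b 0 ρ + δ := by
      rw [circleAverage_fun_add (ci hρ hb) (ci hρ continuousOn_const), circleAverage_const]
    exact this.le
  have h3 := (Real.log_le_log_iff (by linarith) (by linarith)).1 (h.trans h2)
  linarith

/-- the dual norm is attained -/
theorem dN_attained {H : Matrix (Fin s) (Fin s) ℂ} (hH : H.PosDef) (ξ : Fin s → ℂ) :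
    ‖ξ ⬝ᵥ H⁻¹.mulVec (star ξ)‖ = dN H ξ ∧ vN H (H⁻¹.mulVec (star ξ)) = dN H ξ := by
  have hu : IsUnit H.det := (Matrix.isUnit_iff_isUnit_det _).1 hH.isUnit
  constructor
  · have h1 := hH.inv.posSemidef.dotProduct_mulVec_nonneg (star ξ)
    rw [star_star] at h1
    have h2 : ξ ⬝ᵥ H⁻¹.mulVec (star ξ) = ((dN H ξ : ℝ) : ℂ) := by
      rw [Complex.le_def] at h1
      apply Complex.ext
      · rfl
      · rw [← h1.2]; simp
    rw [h2, Complex.norm_real, Real.norm_eq_abs, abs_of_nonneg (Circ_696.dN_nonneg hH ξ)]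
  · have h3 : H.mulVec (H⁻¹.mulVec (star ξ)) = star ξ := by
      rw [Matrix.mulVec_mulVec, Matrix.mul_nonsing_inv _ hu, Matrix.one_mulVec]
    rw [vN, h3, Matrix.star_dotProduct_star, dN]
    simp

/-- upper bounds of the dual norm -/
theorem dN_le {H : Matrix (Fin s) (Fin s) ℂ} (hH : H.PosDef) {ξ : Fin s → ℂ} {c : ℝ} (hc : 0 ≤ c)
    (h : ∀ v, ‖ξ ⬝ᵥ v‖ ^ 2 ≤ c * vN H v) : dN H ξ ≤ c := by
  have h1 := h (H⁻¹.mulVec (star ξ))
  obtain ⟨h2, h3⟩ := dN_attained hH ξ
  rw [h2, h3] at h1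
  rcases eq_or_lt_of_le (Circ_696.dN_nonneg hH ξ) with h0 | h0
  · rw [← h0]; exact hc
  · rw [sq] at h1
    exact le_of_mul_le_mul_right h1 h0

/-- the geometric mean is superadditive with respect to constants -/
theorem geom_superadd (hρ : 0 < ρ) {B : ℂ → ℝ} (hB : ContinuousOn B (sphere 0 ρ))
    (hB0 : ∀ t ∈ sphere (0 : ℂ) ρ, 0 ≤ B t) {δ' c : ℝ} (hδ' : 0 < δ') (hc : 0 < c) :
    Real.exp (circleAverage (fun t => Real.log (B t + δ')) 0 ρ) + c ≤
      Real.exp (circleAverage (fun t => Real.log (B t + (δ' + c))) 0 ρ) := by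
  have p1 : ∀ t ∈ sphere (0 : ℂ) ρ, 0 < B t + δ' := fun t ht => by have := hB0 t ht; linarith
  have p2 : ∀ t ∈ sphere (0 : ℂ) ρ, 0 < B t + (δ' + c) := fun t ht => by
    have := hB0 t ht; linarith
  have c1 : ContinuousOn (fun t => B t + δ') (sphere 0 ρ) := hB.add continuousOn_const
  have c2 : ContinuousOn (fun t => B t + (δ' + c)) (sphere 0 ρ) := hB.add continuousOn_const
  have c3 : ContinuousOn (fun t => (B t + δ') / (B t + (δ' + c))) (sphere 0 ρ) :=
    c1.div c2 fun t ht => (p2 t ht).ne'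
  have c4 : ContinuousOn (fun t => c / (B t + (δ' + c))) (sphere 0 ρ) :=
    continuousOn_const.div c2 fun t ht => (p2 t ht).ne'
  set G1 := circleAverage (fun t => Real.log (B t + δ')) 0 ρ with hG1
  set G2 := circleAverage (fun t => Real.log (B t + (δ' + c))) 0 ρ with hG2
  have l1 : ContinuousOn (fun t => Real.log (B t + δ')) (sphere 0 ρ) :=
    c1.log fun t ht => (p1 t ht).ne'
  have l2 : ContinuousOn (fun t => Real.log (B t + (δ' + c))) (sphere 0 ρ) :=
    c2.log fun t ht => (p2 t ht).ne'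
  set A1 := circleAverage (fun t => (B t + δ') / (B t + (δ' + c))) 0 ρ with hA1
  set A2 := circleAverage (fun t => c / (B t + (δ' + c))) 0 ρ with hA2
  have hsum : A1 + A2 = 1 := by
    rw [hA1, hA2, ← circleAverage_fun_add (ci hρ c3) (ci hρ c4)]
    rw [circleAverage_congr_sphere (f₂ := fun _ => (1 : ℝ)), circleAverage_const]
    intro t ht
    rw [abs_of_pos hρ] at ht
    have := (p2 t ht).ne'
    simp only
    rw [← add_div]
    rw [show B t + δ' + c = B t + (δ' + c) by ring, div_self this]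
  -- strict positivity of the averages
  have key : ∀ {h : ℂ → ℝ} (hh : ContinuousOn h (sphere 0 ρ)) (hp : ∀ t ∈ sphere (0 : ℂ) ρ, 0 < h t),
      Real.exp (circleAverage (fun t => Real.log (h t)) 0 ρ) ≤ circleAverage h 0 ρ := by
    intro h hh hp
    have h0 : 0 ≤ circleAverage h 0 ρ := by
      apply circleAverage_nonneg_of_nonneg
      intro t ht
      rw [abs_of_pos hρ] at ht
      exact (hp t ht).le
    apply le_of_forall_pos_le_add
    intro η hη
    have h1 := avg_log_le hρ hh hp (a := circleAverage h 0 ρ + η) (by linarith) (by linarith)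
    calc _ ≤ Real.exp (Real.log (circleAverage h 0 ρ + η)) := Real.exp_le_exp.2 h1
      _ = _ := Real.exp_log (by linarith)
  have k1 := key c3 (fun t ht => div_pos (p1 t ht) (p2 t ht))
  have k2 := key c4 (fun t ht => div_pos hc (p2 t ht))
  have e1 : circleAverage (fun t => Real.log ((B t + δ') / (B t + (δ' + c)))) 0 ρ = G1 - G2 := by
    rw [hG1, hG2, ← circleAverage_fun_sub (ci hρ l1) (ci hρ l2)]
    apply circleAverage_congr_sphere
    intro t ht
    rw [abs_of_pos hρ] at ht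
    exact Real.log_div (p1 t ht).ne' (p2 t ht).ne'
  have e2 : circleAverage (fun t => Real.log (c / (B t + (δ' + c)))) 0 ρ = Real.log c - G2 := by
    have : circleAverage (fun _ : ℂ => Real.log c) 0 ρ = Real.log c := circleAverage_const _ _ _
    rw [hG2, ← this, ← circleAverage_fun_sub (ci hρ continuousOn_const) (ci hρ l2)]
    apply circleAverage_congr_sphere
    intro t ht
    rw [abs_of_pos hρ] at ht
    exact Real.log_div hc.ne' (p2 t ht).ne'
  rw [e1, Real.exp_sub] at k1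
  rw [e2, Real.exp_sub, Real.exp_log hc] at k2
  have hG2p : 0 < Real.exp G2 := Real.exp_pos _
  have : (Real.exp G1 + c) / Real.exp G2 ≤ 1 := by
    rw [add_div, ← hsum]
    exact add_le_add k1 k2
  rwa [div_le_one hG2p] at this

/-- The input of the `L^{2θ}` theory over the disc of radius `ρ`: for every polynomial family `F` through
`v0` and every `η > 0` there is a Hermitian metric (the `L²` metric with the weight
`(|F|² + δ Σ|u_i|²)^{-(1-θ)}`) with the Hoelder inequality, the dual sub-mean-value inequality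
(positivity of direct images) and the bound at the centre. -/
def Weights (ρ θ : ℝ) (p : ℂ → (Fin s → ℂ) → ℝ) (v0 : Fin s → ℂ) (P0 : ℝ) : Prop :=
  ∀ F : Fin s → ℂ[X], (∀ i, (F i).eval 0 = v0 i) → ∀ η : ℝ, 0 < η →
    ∃ (H : ℂ → Matrix (Fin s) (Fin s) ℂ) (H0 : Matrix (Fin s) (Fin s) ℂ) (q : ℂ → ℝ),
      ContinuousOn H (sphere 0 ρ) ∧ (∀ t ∈ sphere (0 : ℂ) ρ, (H t).PosDef) ∧ H0.PosDef ∧
      (∀ ξ : Fin s → ℂ[X], dN H0 (fun i => (ξ i).eval 0) ≤
        circleAverage (fun t => dN (H t) (fun i => (ξ i).eval t)) 0 ρ) ∧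
      ContinuousOn q (sphere 0 ρ) ∧ (∀ t ∈ sphere (0 : ℂ) ρ, 0 ≤ q t) ∧
      (∀ t ∈ sphere (0 : ℂ) ρ, ∀ v, p t v ≤ (vN (H t) v) ^ θ * (q t) ^ (1 - θ)) ∧
      vN H0 v0 ≤ P0 ∧
      circleAverage q 0 ρ ≤ circleAverage (fun t => p t (fun i => (F i).eval t)) 0 ρ + η

/-- **Sharp `L^{2θ}` extension over a disc** (`θ = 1/N`). -/
theorem ext (hρ : 0 < ρ) {θ : ℝ} (hθ : 0 < θ) (hθ1 : θ ≤ 1) (p : ℂ → (Fin s → ℂ) → ℝ)
    (hpc : ContinuousOn (fun x : ℂ × (Fin s → ℂ) => p x.1 x.2) (sphere 0 ρ ×ˢ Set.univ))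
    (hp0 : ∀ t ∈ sphere (0 : ℂ) ρ, ∀ v, 0 ≤ p t v) (v0 : Fin s → ℂ) {P0 : ℝ} (hP0 : 0 ≤ P0)
    (hW : Weights ρ θ p v0 P0)
    {ε : ℝ} (hε : 0 < ε) :
    ∃ F : Fin s → ℂ[X], (∀ i, (F i).eval 0 = v0 i) ∧
      circleAverage (fun t => p t (fun i => (F i).eval t)) 0 ρ ≤ P0 + ε := by
  by_contra hcon
  push Not at hcon
  set JF : (Fin s → ℂ[X]) → ℝ := fun F => circleAverage (fun t => p t (fun i => (F i).eval t)) 0 ρ
    with hJF
  set S : Set ℝ := JF '' {F | ∀ i, (F i).eval 0 = v0 i} with hS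
  have hSne : S.Nonempty := ⟨_, fun i => C (v0 i), by simp, rfl⟩
  have hSb : BddBelow S := ⟨0, by
    rintro _ ⟨F, _, rfl⟩
    apply circleAverage_nonneg_of_nonneg
    intro t ht
    rw [abs_of_pos hρ] at ht
    exact hp0 t ht _⟩
  set I := sInf S with hI
  have hIge : P0 + ε ≤ I := by
    apply le_csInf hSne
    rintro _ ⟨F, hF, rfl⟩
    exact (hcon F hF).le
  have hI0 : 0 < I := by linarith
  have hpF : ∀ F : Fin s → ℂ[X], ContinuousOn (fun t => p t (fun i => (F i).eval t)) (sphere 0 ρ) := by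
    intro F
    have hc : Continuous fun t : ℂ => ((t, fun i => (F i).eval t) : ℂ × (Fin s → ℂ)) :=
      continuous_id.prodMk (continuous_pi fun i => (F i).continuous)
    exact hpc.comp hc.continuousOn (fun t ht => ⟨ht, Set.mem_univ _⟩)
  have hstep : ∀ η : ℝ, 0 < η → I ≤ (P0 + η) ^ θ * (I + 2 * η) ^ (1 - θ) := by
    intro η hη
    obtain ⟨_, ⟨F, hF, rfl⟩, hFI⟩ := exists_lt_of_csInf_lt hSne (show sInf S < I + η by linarith)
    obtain ⟨H, H0, q, hH, hHp, hH0, hyp, hq, hq0, hpq, hv0, hqF⟩ := hW F hF η hη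
    obtain ⟨τ, hτ0, hτ⟩ := circle hρ hH hHp hH0 hyp v0 hη
    have h1 : I ≤ JF τ := csInf_le hSb ⟨τ, hτ0, rfl⟩
    refine h1.trans ?_
    have hcτ : Continuous fun t : ℂ => (fun i => (τ i).eval t : Fin s → ℂ) :=
      continuous_pi fun i => (τ i).continuous
    have hvc : ContinuousOn (fun t => vN (H t) (fun i => (τ i).eval t)) (sphere 0 ρ) := by
      have h2 : ContinuousOn (fun t => star (fun i => (τ i).eval t : Fin s → ℂ) ⬝ᵥ
          (H t).mulVec (fun i => (τ i).eval t)) (sphere 0 ρ) := by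
        rw [continuousOn_iff_continuous_domRestrict] at hH ⊢
        have h3 : Continuous fun t : sphere (0 : ℂ) ρ => (fun i => (τ i).eval (t : ℂ) : Fin s → ℂ) :=
          hcτ.comp continuous_subtype_val
        exact (continuous_star.comp h3).dotProduct (hH.matrix_mulVec h3)
      exact Complex.continuous_re.comp_continuousOn h2
    exact holder_avg hρ hvc hq (fun t ht => Circ_696.vN_nonneg (hHp t ht).posSemidef _) hq0 hθ hθ1
      (by linarith) (by linarith) (hτ.trans (by linarith))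
      (hqF.trans (by have := hFI.le; simp only [hJF] at this; linarith))
      (hpF τ) (fun t ht => hpq t ht _)
  -- let `η → 0`
  have hlim : I ≤ (P0 + 0) ^ θ * (I + 2 * 0) ^ (1 - θ) := by
    have hcont : ContinuousWithinAt (fun η : ℝ => (P0 + η) ^ θ * (I + 2 * η) ^ (1 - θ))
        (Set.Ioi 0) 0 := by
      apply ContinuousAt.continuousWithinAt
      apply ContinuousAt.mul
      · exact (continuousAt_const.add continuousAt_id).rpow_const (Or.inr hθ.le)
      · apply ContinuousAt.rpow_const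
        · fun_prop
        · left; simpa using hI0.ne'
    apply ge_of_tendsto hcont.tendsto
    filter_upwards [self_mem_nhdsWithin] with η hη
    exact hstep η hη
  rw [add_zero, mul_zero, add_zero] at hlim
  have h5 : I = I ^ θ * I ^ (1 - θ) := by
    rw [← Real.rpow_add hI0]; simp
  have h6 : I ^ θ ≤ P0 ^ θ := by
    have h7 : I ^ θ * I ^ (1 - θ) ≤ P0 ^ θ * I ^ (1 - θ) := h5 ▸ hlim
    exact le_of_mul_le_mul_right h7 (by positivity)
  have h8 : I ≤ P0 := by
    by_contra hlt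
    push Not at hlt
    exact absurd h6 (not_le.2 (Real.rpow_lt_rpow hP0 hlt hθ))
  linarith

/-- **Sub-mean-value property of the `L^{2θ}`-Bergman kernel** (`θ = 1/N`) along a holomorphic family
`e t` of evaluation functionals, in the `δ`-form. -/
theorem nb (hρ : 0 < ρ) {θ : ℝ} (hθ : 0 < θ) (hθ1 : θ ≤ 1) (p : ℂ → (Fin s → ℂ) → ℝ)
    (hpc : ContinuousOn (fun x : ℂ × (Fin s → ℂ) => p x.1 x.2) (sphere 0 ρ ×ˢ Set.univ))
    (hp0 : ∀ t ∈ sphere (0 : ℂ) ρ, ∀ v, 0 ≤ p t v) (v0 : Fin s → ℂ) {P0 : ℝ} (hP0 : 0 < P0)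
    (hW : Weights ρ θ p v0 P0) (e : ℂ → Fin s → ℂ)
    (he : ∀ i, AnalyticOnNhd ℂ (fun t => e t i) (closedBall 0 ρ))
    {B : ℂ → ℝ} (hB : ContinuousOn B (sphere 0 ρ)) (hB0 : ∀ t ∈ sphere (0 : ℂ) ρ, 0 ≤ B t)
    (hBp : ∀ t ∈ sphere (0 : ℂ) ρ, ∀ w : Fin s → ℂ, ‖e t ⬝ᵥ w‖ ^ (2 * θ) ≤ B t * p t w)
    {δ : ℝ} (hδ : 0 < δ) :
    Real.log (‖e 0 ⬝ᵥ v0‖ ^ (2 * θ) / P0 + δ) ≤
      circleAverage (fun t => Real.log (B t + δ)) 0 ρ := by
  have p1 : ∀ δ : ℝ, 0 < δ → ∀ t ∈ sphere (0 : ℂ) ρ, 0 < B t + δ := fun δ hδ t ht => by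
    have := hB0 t ht; linarith
  have c1 : ∀ δ : ℝ, ContinuousOn (fun t => B t + δ) (sphere 0 ρ) := fun δ =>
    hB.add continuousOn_const
  have l1 : ∀ δ : ℝ, 0 < δ → ContinuousOn (fun t => Real.log (B t + δ)) (sphere 0 ρ) :=
    fun δ hδ => (c1 δ).log fun t ht => (p1 δ hδ t ht).ne'
  rcases eq_or_ne (e 0 ⬝ᵥ v0) 0 with h0 | h0
  · -- trivial case
    rw [h0, norm_zero, Real.zero_rpow (by positivity), zero_div, zero_add]
    have : circleAverage (fun _ : ℂ => Real.log δ) 0 ρ = Real.log δ := circleAverage_const _ _ _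
    rw [← this]
    apply mono hρ continuousOn_const (l1 δ hδ)
    intro t ht
    exact Real.log_le_log hδ (by have := hB0 t ht; linarith)
  set b0 := ‖e 0 ⬝ᵥ v0‖ ^ (2 * θ) / P0 with hb0
  have hn0 : 0 < ‖e 0 ⬝ᵥ v0‖ := norm_pos_iff.2 h0
  have hb0p : 0 < b0 := by positivity
  -- first step: `b0 ≤ G(δ')` for every `δ' > 0`
  have hG : ∀ δ' : ℝ, 0 < δ' →
      b0 ≤ Real.exp (circleAverage (fun t => Real.log (B t + δ')) 0 ρ) := by
    intro δ' hδ'
    have h1 : ∀ ε : ℝ, 0 < ε → 2 * θ * Real.log ‖e 0 ⬝ᵥ v0‖ ≤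
        circleAverage (fun t => Real.log (B t + δ')) 0 ρ + Real.log (P0 + 2 * ε) := by
      intro ε hε
      obtain ⟨F, hF0, hF⟩ := ext hρ hθ hθ1 p hpc hp0 v0 hP0.le hW hε
      set f : ℂ → ℂ := fun t => e t ⬝ᵥ (fun i => (F i).eval t) with hf
      have hfa : AnalyticOnNhd ℂ f (closedBall 0 ρ) := by
        have : f = fun t => ∑ i, e t i * (F i).eval t := rfl
        rw [this]
        intro t ht
        apply Finset.analyticAt_fun_sum
        intro i _
        exact (he i t ht).mul ((F i).differentiable.analyticAt t)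
      have hf0 : f 0 = e 0 ⬝ᵥ v0 := by
        simp only [hf]
        congr 1
        funext i; exact hF0 i
      have hf0' : f 0 ≠ 0 := by rw [hf0]; exact h0
      have h2 := R300.log_norm_le_circleAverage hρ hfa hf0'
      rw [hf0] at h2
      have cF : ContinuousOn (fun t => p t (fun i => (F i).eval t)) (sphere 0 ρ) := by
        have hc : Continuous fun t : ℂ => ((t, fun i => (F i).eval t) : ℂ × (Fin s → ℂ)) :=
          continuous_id.prodMk (continuous_pi fun i => (F i).continuous)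
        exact hpc.comp hc.continuousOn (fun t ht => ⟨ht, Set.mem_univ _⟩)
      have cFε : ContinuousOn (fun t => p t (fun i => (F i).eval t) + ε) (sphere 0 ρ) :=
        cF.add continuousOn_const
      have hpε : ∀ t ∈ sphere (0 : ℂ) ρ, 0 < p t (fun i => (F i).eval t) + ε := fun t ht => by
        have := hp0 t ht (fun i => (F i).eval t); linarith
      have lF : ContinuousOn (fun t => Real.log (p t (fun i => (F i).eval t) + ε)) (sphere 0 ρ) :=
        cFε.log fun t ht => (hpε t ht).ne'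
      -- a.e. comparison
      have h3 : circleAverage (fun t => (2 * θ) * Real.log ‖f t‖) 0 ρ ≤
          circleAverage (fun t => Real.log (B t + δ') +
            Real.log (p t (fun i => (F i).eval t) + ε)) 0 ρ := by
        have hi1 : CircleIntegrable (fun t => (2 * θ) * Real.log ‖f t‖) 0 ρ := by
          have h4 : CircleIntegrable (fun t => Real.log ‖f t‖) 0 ρ := by
            apply MeromorphicOn.circleIntegrable_log_norm
            intro t ht
            rw [abs_of_pos hρ] at ht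
            exact (hfa t (sphere_subset_closedBall ht)).meromorphicAt
          exact h4.const_mul _
        have hi2 : CircleIntegrable (fun t => Real.log (B t + δ') +
            Real.log (p t (fun i => (F i).eval t) + ε)) 0 ρ := ci hρ ((l1 δ' hδ').add lF)
        rw [circleAverage_def, circleAverage_def]
        apply smul_le_smul_of_nonneg_left _ (by positivity)
        apply intervalIntegral.integral_mono_ae_restrict (by positivity) hi1 hi2
        have h5 := R300.ae_circleMap_ne_zero hρ hfa hf0'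
        rw [Set.uIoc_of_le (by positivity)] at h5
        rw [← restrict_Ioc_eq_restrict_Icc]
        filter_upwards [h5] with x hx
        have ht : circleMap 0 ρ x ∈ sphere (0 : ℂ) ρ := circleMap_mem_sphere _ hρ.le _
        have hxn : 0 < ‖f (circleMap 0 ρ x)‖ := norm_pos_iff.2 hx
        rw [← Real.log_rpow hxn, ← Real.log_mul (p1 δ' hδ' _ ht).ne' (hpε _ ht).ne']
        apply Real.log_le_log (by positivity)
        refine (hBp _ ht _).trans ?_
        apply mul_le_mul _ _ (hp0 _ ht _) (p1 δ' hδ' _ ht).le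
        · linarith
        · linarith
      have h6 : circleAverage (fun t => (2 * θ) * Real.log ‖f t‖) 0 ρ =
          (2 * θ) * circleAverage (fun t => Real.log ‖f t‖) 0 ρ := by
        have := circleAverage_fun_smul (a := 2 * θ) (f := fun t => Real.log ‖f t‖) (c := 0) (R := ρ)
        simpa only [smul_eq_mul] using this
      rw [h6, circleAverage_fun_add (ci hρ (l1 δ' hδ')) (ci hρ lF)] at h3
      have h7 : circleAverage (fun t => Real.log (p t (fun i => (F i).eval t) + ε)) 0 ρ ≤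
          Real.log (P0 + 2 * ε) := by
        apply avg_log_le hρ cFε hpε (by linarith)
        rw [circleAverage_fun_add (ci hρ cF) (ci hρ continuousOn_const), circleAverage_const]
        linarith
      have h8 : 2 * θ * Real.log ‖e 0 ⬝ᵥ v0‖ ≤
          2 * θ * circleAverage (fun t => Real.log ‖f t‖) 0 ρ :=
        mul_le_mul_of_nonneg_left h2 (by positivity)
      linarith
    have h9 : 2 * θ * Real.log ‖e 0 ⬝ᵥ v0‖ ≤
        circleAverage (fun t => Real.log (B t + δ')) 0 ρ + Real.log (P0 + 2 * 0) := by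
      have hcont : ContinuousWithinAt (fun ε : ℝ =>
          circleAverage (fun t => Real.log (B t + δ')) 0 ρ + Real.log (P0 + 2 * ε))
          (Set.Ioi 0) 0 := by
        apply ContinuousAt.continuousWithinAt
        apply ContinuousAt.add continuousAt_const
        apply ContinuousAt.log (by fun_prop)
        simpa using hP0.ne'
      apply ge_of_tendsto hcont.tendsto
      filter_upwards [self_mem_nhdsWithin] with ε hε
      exact h1 ε hε
    rw [mul_zero, add_zero] at h9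
    have h10 : Real.log b0 ≤ circleAverage (fun t => Real.log (B t + δ')) 0 ρ := by
      rw [hb0, Real.log_div (by positivity) hP0.ne', Real.log_rpow hn0]
      linarith
    calc b0 = Real.exp (Real.log b0) := (Real.exp_log hb0p).symm
      _ ≤ _ := Real.exp_le_exp.2 h10
  -- second step: superadditivity
  have h11 : b0 + δ ≤ Real.exp (circleAverage (fun t => Real.log (B t + δ)) 0 ρ) := by
    apply le_of_forall_pos_le_add
    intro η hη
    set δ' := min (δ / 2) η with hδ'd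
    have hδ'0 : 0 < δ' := lt_min (by linarith) hη
    have hδ'1 : δ' < δ := lt_of_le_of_lt (min_le_left _ _) (by linarith)
    have h12 := geom_superadd hρ hB hB0 hδ'0 (sub_pos.2 hδ'1)
    rw [show δ' + (δ - δ') = δ by ring] at h12
    have h13 := hG δ' hδ'0
    have h14 : δ' ≤ η := min_le_right _ _
    linarith
  calc Real.log (b0 + δ) ≤ Real.log (Real.exp (circleAverage (fun t => Real.log (B t + δ)) 0 ρ)) :=
        Real.log_le_log (by positivity) h11
    _ = _ := Real.log_exp _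

end

end Crest.Agent.R276.NBcore_696
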