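import Mathlib
import Crest.Agent.R276.Fdc_999
import Crest.Agent.R276.NBcore_696
import Crest.Agent.R276.PVj_159

-- ▼ part R276/Fdd_999
section

/-!
# Flatness on a disc (helper999, row 276), part (d): `flat_disc`
-/

set_option linter.unusedSectionVars false

namespace Crest.Agent.R276.Fdd_999

open MeasureTheory Metric Filter Topology Matrix Polynomial
open scoped ComplexOrder
open Real (circleAverage circleAverage_const posLog)
open Crest.Agent.R276.Nc_999 Crest.Agent.R276.Poi_999 Crest.Agent.R276.Fda_999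
open Crest.Agent.R276.Fdb_999 Crest.Agent.R276.Fdc_999

variable {s : ℕ}

open scoped MatrixOrder in
theorem exists_root {W : Matrix (Fin s) (Fin s) ℂ} (hW : W.PosSemidef) :
    ∃ B : Matrix (Fin s) (Fin s) ℂ, W = Bᴴ * B := by
  obtain ⟨B, hB⟩ := CStarAlgebra.nonneg_iff_eq_star_mul_self.mp hW.nonneg
  exact ⟨B, hB⟩

/-- existence of an orthonormal basis for a positive definite matrix -/
theorem exists_frame {W : Matrix (Fin s) (Fin s) ℂ} (hW : W.PosDef) :
    ∃ T0 : Matrix (Fin s) (Fin s) ℂ, T0ᴴ * W * T0 = 1 := by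
  obtain ⟨B, hB⟩ := exists_root hW.posSemidef
  have hdet : IsUnit W.det := (isUnit_iff_isUnit_det W).mp hW.isUnit
  have hBdet : IsUnit B.det := by
    rw [hB, det_mul] at hdet
    exact isUnit_of_mul_isUnit_right hdet
  refine ⟨B⁻¹, ?_⟩
  have h1 : B * B⁻¹ = 1 := mul_nonsing_inv B hBdet
  calc (B⁻¹)ᴴ * W * B⁻¹ = (B * B⁻¹)ᴴ * (B * B⁻¹) := by
        rw [hB, conjTranspose_mul]
        simp only [Matrix.mul_assoc]
    _ = 1 := by rw [h1]; simp

/-- the (OT) hypothesis at the centre -/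
def OT (H : ℂ → Matrix (Fin s) (Fin s) ℂ) : Prop :=
  ∀ v : Fin s → ℂ, ∀ ε > 0, ∃ p : Fin s → ℂ[X], ev p 0 = v ∧ En H p ≤ qf (H 0) v + ε

theorem dN_adj_cont (W : Matrix (Fin s) (Fin s) ℂ) (j : Fin s) :
    Continuous fun A : Matrix (Fin s) (Fin s) ℂ => dN W (A.adjugate j) := by
  have h1 : Continuous fun A : Matrix (Fin s) (Fin s) ℂ => A.adjugate j :=
    (continuous_apply j).comp (Continuous.matrix_adjugate continuous_id)
  have h2 : Continuous fun A : Matrix (Fin s) (Fin s) ℂ => star (A.adjugate j) := h1.star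
  have h4 : Continuous fun v : Fin s → ℂ => qf W⁻¹ v :=
    qf_cont.comp (Continuous.prodMk (continuous_const (y := W⁻¹)) continuous_id)
  exact h4.comp h2

theorem tendsto_matrix {ι : Type*} {l : Filter ι} {A : ι → Matrix (Fin s) (Fin s) ℂ}
    {B : Matrix (Fin s) (Fin s) ℂ} (h : ∀ i k, Tendsto (fun m => A m i k) l (𝓝 (B i k))) :
    Tendsto A l (𝓝 B) := by
  refine tendsto_pi_nhds.mpr fun i => ?_
  exact tendsto_pi_nhds.mpr fun k => h i k

/-- the key limit -/
theorem key_lim {n : ℕ} {H : ℂ → Matrix (Fin (n + 1)) (Fin (n + 1)) ℂ}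
    (hHc : ContinuousOn H (closedBall 0 1)) (hH : ∀ z ∈ closedBall (0 : ℂ) 1, (H z).PosDef)
    (hPV : PV H)
    {q : ℂ → ℂ} (hq : AnalyticOnNhd ℂ q (closedBall 0 1)) (hq0 : ∀ z ∈ closedBall (0 : ℂ) 1, q z ≠ 0)
    (hdet : ∀ z ∈ closedBall (0 : ℂ) 1, (H z).det = ((‖q z‖ ^ 2 : ℝ) : ℂ))
    {D0 : ℝ} (hD0 : ∀ z ∈ closedBall (0 : ℂ) 1, ‖q z‖ ^ 2 ≤ D0)
    (pm : ℕ → Fin (n + 1) → Fin (n + 1) → ℂ[X])
    (hnorm0 : ∀ m, ‖((Tm (pm m)).det).eval 0 * q 0‖ = 1)
    (hpE : ∀ m k, En H (pm m k) ≤ 1 + 1 / ((m : ℝ) + 1))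
    {T : ℂ → Matrix (Fin (n + 1)) (Fin (n + 1)) ℂ}
    (hTlim : ∀ w ∈ ball (0 : ℂ) 1, Tendsto (fun m => TmE (pm m) w) atTop (𝓝 (T w)))
    {w : ℂ} (hw : w ∈ ball (0 : ℂ) 1) (j : Fin (n + 1)) {δ : ℝ} (hδ : 0 < δ) :
    Real.log (dN (H w) ((T w).adjugate j) + δ) + 2 * Real.log ‖q w‖ ≤ δ * D0 := by
  have hwn : ‖w‖ < 1 := by simpa using hw
  have hwc : w ∈ closedBall (0 : ℂ) 1 := ball_subset_closedBall hw
  have hdn := dN_nonneg (hH w hwc) ((T w).adjugate j)
  obtain ⟨Cw, hCw⟩ : ∃ Cw, Cw = (1 + ‖w‖) / (1 - ‖w‖) := ⟨_, rfl⟩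
  have hCw0 : 0 ≤ Cw := by rw [hCw]; exact div_nonneg (by positivity) (by linarith)
  obtain ⟨b, hb⟩ : ∃ b, b = 2 * Real.log ‖q w‖ := ⟨_, rfl⟩
  obtain ⟨a, ha⟩ : ∃ a, a = Real.log (dN (H w) ((T w).adjugate j) + δ) := ⟨_, rfl⟩
  rw [← hb, ← ha]
  have hlim : Tendsto (fun m => Real.log (dN (H w) ((TmE (pm m) w).adjugate j) + δ) + b) atTop
      (𝓝 (a + b)) := by
    have h2 : Tendsto (fun m => dN (H w) ((TmE (pm m) w).adjugate j)) atTop
        (𝓝 (dN (H w) ((T w).adjugate j))) :=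
      ((dN_adj_cont (H w) j).tendsto (T w)).comp (hTlim w hw)
    have h3 := (h2.add_const δ).log (by linarith : dN (H w) ((T w).adjugate j) + δ ≠ 0)
    rw [ha]
    exact h3.add_const b
  obtain ⟨N, hN⟩ : ∃ N : ℝ, N = ((n + 1 : ℕ) : ℝ) := ⟨_, rfl⟩
  have hl : ∀ l > 0, a + b ≤ Cw * (N * (l / 2)) + δ * D0 := by
    intro l hl
    have hupper : Tendsto (fun m : ℕ => Cw * (N * (1 / ((m : ℝ) + 1)) / l +
        N * (l / 2)) + δ * D0) atTop
        (𝓝 (Cw * (N * 0 / l + N * (l / 2)) + δ * D0)) := by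
      have h1 : Tendsto (fun m : ℕ => 1 / ((m : ℝ) + 1)) atTop (𝓝 (0 : ℝ)) :=
        tendsto_one_div_add_atTop_nhds_zero_nat
      exact ((((h1.const_mul _).div_const l).add_const _).const_mul Cw).add_const _
    have h4 := le_of_tendsto_of_tendsto' hlim hupper (fun m => by
      have h5 := interior_le hHc hH hq hq0 hdet hPV hD0 (pm m) hδ j hwn
      have h6 := avg_B_le hHc hH hq hq0 hdet (pm m) (hnorm0 m) (ε := 1 / ((m : ℝ) + 1))
        (fun k => hpE m k) hl
      rw [← hCw, ← hb] at h5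
      rw [← hN] at h6
      have h7 := mul_le_mul_of_nonneg_left h6 hCw0
      linarith)
    simpa using h4
  refine le_of_forall_pos_le_add fun ε hε => ?_
  have hN1 : 0 < N := by rw [hN]; positivity
  obtain ⟨l, hldef⟩ : ∃ l, l = ε / ((Cw + 1) * N) := ⟨_, rfl⟩
  have hlpos : 0 < l := by rw [hldef]; positivity
  have h8 := hl l hlpos
  have h9 : Cw * (N * (l / 2)) ≤ ε := by
    have e1 : N * l = ε / (Cw + 1) := by
      rw [hldef]; field_simp
    have e2 : Cw * (N * (l / 2)) = Cw * (ε / (Cw + 1)) / 2 := by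
      rw [← e1]; ring
    rw [e2]
    have e3 : Cw * (ε / (Cw + 1)) ≤ ε := by
      rw [mul_div_assoc', div_le_iff₀ (by positivity)]
      nlinarith
    linarith
  linarith

/-- the diagonal of the adjugate of the limit Gram matrix is at most one -/
theorem adj_le_one {n : ℕ} {H : ℂ → Matrix (Fin (n + 1)) (Fin (n + 1)) ℂ}
    (hHc : ContinuousOn H (closedBall 0 1)) (hH : ∀ z ∈ closedBall (0 : ℂ) 1, (H z).PosDef)
    (hPV : PV H)
    {q : ℂ → ℂ} (hq : AnalyticOnNhd ℂ q (closedBall 0 1)) (hq0 : ∀ z ∈ closedBall (0 : ℂ) 1, q z ≠ 0)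
    (hdet : ∀ z ∈ closedBall (0 : ℂ) 1, (H z).det = ((‖q z‖ ^ 2 : ℝ) : ℂ))
    {D0 : ℝ} (hD0 : ∀ z ∈ closedBall (0 : ℂ) 1, ‖q z‖ ^ 2 ≤ D0)
    (pm : ℕ → Fin (n + 1) → Fin (n + 1) → ℂ[X])
    (hnorm0 : ∀ m, ‖((Tm (pm m)).det).eval 0 * q 0‖ = 1)
    (hpE : ∀ m k, En H (pm m k) ≤ 1 + 1 / ((m : ℝ) + 1))
    {T : ℂ → Matrix (Fin (n + 1)) (Fin (n + 1)) ℂ}
    (hTlim : ∀ w ∈ ball (0 : ℂ) 1, Tendsto (fun m => TmE (pm m) w) atTop (𝓝 (T w)))
    {w : ℂ} (hw : w ∈ ball (0 : ℂ) 1) (j : Fin (n + 1)) :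
    ‖q w‖ ^ 2 * dN (H w) ((T w).adjugate j) ≤ 1 := by
  have hwc : w ∈ closedBall (0 : ℂ) 1 := ball_subset_closedBall hw
  have hqw : 0 < ‖q w‖ := norm_pos_iff.mpr (hq0 w hwc)
  have hdn := dN_nonneg (hH w hwc) ((T w).adjugate j)
  have hkey := fun (δ : ℝ) (hδ : 0 < δ) =>
    key_lim hHc hH hPV hq hq0 hdet hD0 pm hnorm0 hpE hTlim hw j hδ
  obtain ⟨d, hd⟩ : ∃ d, d = dN (H w) ((T w).adjugate j) := ⟨_, rfl⟩
  rw [← hd] at hdn ⊢
  have key2 : ∀ δ > 0, ‖q w‖ ^ 2 * d ≤ Real.exp (δ * D0) := by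
    intro δ hδ
    have h1 := hkey δ hδ
    rw [← hd] at h1
    have h2 : Real.log ((d + δ) * ‖q w‖ ^ 2) ≤ δ * D0 := by
      rw [Real.log_mul (by linarith) (by positivity), Real.log_pow]
      push_cast; exact h1
    rw [Real.log_le_iff_le_exp (by positivity)] at h2
    have h3 : 0 ≤ δ * ‖q w‖ ^ 2 := by positivity
    nlinarith
  have hlim : Tendsto (fun δ : ℝ => Real.exp (δ * D0)) (𝓝[>] 0) (𝓝 1) := by
    have : Continuous fun δ : ℝ => Real.exp (δ * D0) := by fun_prop
    have h1 := this.tendsto 0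
    simp only [zero_mul, Real.exp_zero] at h1
    exact h1.mono_left nhdsWithin_le_nhds
  exact ge_of_tendsto hlim (by
    filter_upwards [self_mem_nhdsWithin] with δ hδ
    exact key2 δ hδ)

/-- **FLATNESS ON A DISC**, rank at least two. -/
theorem flat_disc_aux {n : ℕ} (hn : 1 ≤ n) {H : ℂ → Matrix (Fin (n + 1)) (Fin (n + 1)) ℂ}
    (hHc : ContinuousOn H (closedBall 0 1)) (hH : ∀ z ∈ closedBall (0 : ℂ) 1, (H z).PosDef)
    (hOT : OT H) (hPV : PV H)
    {q : ℂ → ℂ} (hq : AnalyticOnNhd ℂ q (closedBall 0 1)) (hq0 : ∀ z ∈ closedBall (0 : ℂ) 1, q z ≠ 0)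
    (hdet : ∀ z ∈ closedBall (0 : ℂ) 1, (H z).det = ((‖q z‖ ^ 2 : ℝ) : ℂ)) :
    ∃ T : ℂ → Matrix (Fin (n + 1)) (Fin (n + 1)) ℂ,
      (∀ i k, DifferentiableOn ℂ (fun w => T w i k) (ball 0 1)) ∧
      ∀ w ∈ ball (0 : ℂ) 1, (T w)ᴴ * H w * T w = 1 := by
  classical
  have h00 : (0 : ℂ) ∈ closedBall (0 : ℂ) 1 := by simp
  obtain ⟨T0, hT0⟩ := exists_frame (hH 0 h00)
  -- columns
  have hcol : ∀ k, qf (H 0) (fun i => T0 i k) = 1 := by
    intro k
    have h1 : (T0ᴴ * H 0 * T0) k k = 1 := by rw [hT0]; simp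
    have h2 : qf (H 0) (fun i => T0 i k) = ((T0ᴴ * H 0 * T0) k k).re := by
      unfold qf
      congr 1
      rw [Matrix.mul_assoc, Matrix.mul_apply]
      simp only [dotProduct]
      apply Finset.sum_congr rfl
      intro i _
      congr 1
    rw [h2, h1, Complex.one_re]
  have hex := fun k : Fin (n + 1) => exists_minimiser hHc hH (fun i => T0 i k) 1 (fun ε hε => by
    obtain ⟨p, hp, hpe⟩ := hOT (fun i => T0 i k) ε hε
    exact ⟨p, hp, by rw [hcol k] at hpe; exact hpe⟩)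
  choose p f hp0 hpE hfd hft using hex
  -- p k m : the m-th approximation of the k-th column
  let pm : ℕ → Fin (n + 1) → Fin (n + 1) → ℂ[X] := fun m k => p k m
  let T : ℂ → Matrix (Fin (n + 1)) (Fin (n + 1)) ℂ := fun w => Matrix.of fun i k => f k w i
  have hTlim : ∀ w ∈ ball (0 : ℂ) 1, Tendsto (fun m => TmE (pm m) w) atTop (𝓝 (T w)) := by
    intro w hw
    refine tendsto_matrix fun i k => ?_
    have := tendsto_pi_nhds.mp (hft k w hw) i
    exact this
  have hTm0 : ∀ m, TmE (pm m) 0 = T0 := by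
    intro m
    ext i k
    have := congrFun (hp0 k m) i
    exact this
  have hT00 : T 0 = T0 := by
    have h1 := hTlim 0 (by simp)
    simp only [hTm0] at h1
    exact (tendsto_nhds_unique h1 tendsto_const_nhds)
  -- bound for q
  obtain ⟨D0, hD0⟩ : ∃ D0 : ℝ, ∀ z ∈ closedBall (0 : ℂ) 1, ‖q z‖ ^ 2 ≤ D0 := by
    have hc : ContinuousOn (fun z => ‖q z‖ ^ 2) (closedBall (0 : ℂ) 1) := (hq.continuousOn.norm).pow 2
    obtain ⟨z0, _, hz0⟩ := (isCompact_closedBall (0 : ℂ) 1).exists_isMaxOn ⟨0, h00⟩ hc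
    exact ⟨_, fun z hz => hz0 hz⟩
  have hnorm0 : ∀ m, ‖((Tm (pm m)).det).eval 0 * q 0‖ = 1 := by
    intro m
    have h1 := Gr_det (H := H) (pm m) (hdet 0 h00)
    have h2 : Gr H (pm m) 0 = 1 := by
      unfold Gr; rw [hTm0, hT0]
    rw [h2, det_one] at h1
    have h3 : ‖((Tm (pm m)).det).eval 0 * q 0‖ ^ 2 = 1 := by
      exact_mod_cast h1.symm
    have h4 := norm_nonneg (((Tm (pm m)).det).eval 0 * q 0)
    nlinarith
  -- the diagonal of the adjugate is at most one
  have hadj : ∀ w ∈ ball (0 : ℂ) 1, ∀ j, ‖q w‖ ^ 2 * dN (H w) ((T w).adjugate j) ≤ 1 :=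
    fun w hw j => adj_le_one hHc hH hPV hq hq0 hdet hD0 pm hnorm0 (fun m k => hpE k m) hTlim hw j
  -- the determinant
  have hdiff : ∀ i k, DifferentiableOn ℂ (fun w => T w i k) (ball 0 1) := by
    intro i k
    have := hfd k
    rw [differentiableOn_pi] at this
    exact this i
  have hTdet : DifferentiableOn ℂ (fun w => (T w).det) (ball 0 1) := by
    simp only [Matrix.det_apply]
    apply DifferentiableOn.fun_sum
    intro σ _
    apply DifferentiableOn.const_smul
    apply DifferentiableOn.fun_finsetProd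
    intro i _
    exact hdiff _ _
  set F : ℂ → ℂ := fun w => (T w).det * q w with hF
  have hFd : DifferentiableOn ℂ F (ball 0 1) :=
    hTdet.mul (hq.differentiableOn.mono ball_subset_closedBall)
  have hGdet : ∀ w ∈ ball (0 : ℂ) 1, ((T w)ᴴ * H w * T w).det = ((‖F w‖ ^ 2 : ℝ) : ℂ) := by
    intro w hw
    rw [det_mul, det_mul, det_conjTranspose, hdet w (ball_subset_closedBall hw)]
    have : star (T w).det * (T w).det = ((‖(T w).det‖ ^ 2 : ℝ) : ℂ) := by
      rw [mul_comm, Complex.star_def, Complex.mul_conj, Complex.normSq_eq_norm_sq]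
    calc star (T w).det * ((‖q w‖ ^ 2 : ℝ) : ℂ) * (T w).det
        = (star (T w).det * (T w).det) * ((‖q w‖ ^ 2 : ℝ) : ℂ) := by ring
      _ = _ := by rw [this, hF]; simp only [norm_mul, mul_pow]; push_cast; rfl
  have hGpsd : ∀ w ∈ ball (0 : ℂ) 1, ((T w)ᴴ * H w * T w).PosSemidef := fun w hw =>
    (hH w (ball_subset_closedBall hw)).posSemidef.conjTranspose_mul_mul_same _
  have hdiag : ∀ w ∈ ball (0 : ℂ) 1, ∀ j, (((T w)ᴴ * H w * T w).adjugate j j).re ≤ 1 := by
    intro w hw j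
    rw [adj_diag (hH w (ball_subset_closedBall hw)) (hdet w (ball_subset_closedBall hw))]
    exact hadj w hw j
  have hadjpsd : ∀ w ∈ ball (0 : ℂ) 1, (((T w)ᴴ * H w * T w).adjugate).PosSemidef := by
    intro w hw
    -- adj (T* H T) = (adj T) (det H • H⁻¹) (adj T)*
    have hW := hH w (ball_subset_closedBall hw)
    have hdetu : IsUnit (H w).det := (isUnit_iff_isUnit_det _).mp hW.isUnit
    have hadjH : (H w).adjugate = (H w).det • (H w)⁻¹ := by
      rw [Matrix.inv_def, smul_smul, Ring.mul_inverse_cancel _ hdetu, one_smul]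
    rw [adjugate_mul_distrib, adjugate_mul_distrib, hadjH, ← adjugate_conjTranspose,
      ← Matrix.mul_assoc]
    have h1 : ((H w).det • (H w)⁻¹).PosSemidef := by
      rw [hdet w (ball_subset_closedBall hw)]
      have h2 := (hW.inv.posSemidef).smul (a := ((‖q w‖ ^ 2 : ℝ) : ℂ)) (by
        rw [Complex.zero_le_real]; positivity)
      exact h2
    exact h1.mul_mul_conjTranspose_same _
  have hFle : ∀ w ∈ ball (0 : ℂ) 1, ‖F w‖ ≤ 1 := by
    intro w hw
    have h1 := Nil_840.det_le_prod_diag (hadjpsd w hw)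
    have h2 : (((T w)ᴴ * H w * T w).adjugate.det).re = (‖F w‖ ^ 2) ^ n := by
      rw [det_adjugate, hGdet w hw]
      simp only [Fintype.card_fin, Nat.add_sub_cancel]
      rw [← Complex.ofReal_pow, Complex.ofReal_re]
    have h3 : ∏ j, (((T w)ᴴ * H w * T w).adjugate j j).re ≤ 1 := by
      apply Finset.prod_le_one
      · intro j _
        have := (hadjpsd w hw).diag_nonneg (i := j)
        exact (Complex.nonneg_iff.mp this).1
      · intro j _; exact hdiag w hw j
    rw [h2] at h1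
    have h4 : (‖F w‖ ^ 2) ^ n ≤ 1 := h1.trans h3
    have h5 : ‖F w‖ ^ 2 ≤ 1 := (pow_le_one_iff_of_nonneg (by positivity) (by omega)).mp h4
    nlinarith [norm_nonneg (F w)]
  have hF0 : ‖F 0‖ = 1 := by
    have h1 := hGdet 0 (by simp)
    rw [hT00, hT0, det_one] at h1
    have h3 : ‖F 0‖ ^ 2 = 1 := by exact_mod_cast h1.symm
    nlinarith [norm_nonneg (F 0)]
  have hFone : ∀ w ∈ ball (0 : ℂ) 1, ‖F w‖ = 1 := by
    intro w hw
    have hm : IsMaxOn (norm ∘ F) (ball (0 : ℂ) 1) 0 := by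
      intro z hz
      simp only [Function.comp_apply, Set.mem_ofPred_eq]
      rw [hF0]; exact hFle z hz
    have := Complex.norm_eqOn_of_isPreconnected_of_isMaxOn (convex_ball (0 : ℂ) 1).isPreconnected
      isOpen_ball hFd (by simp) hm hw
    simp only [Function.comp_apply, Function.const_apply] at this
    rw [this, hF0]
  refine ⟨T, hdiff, fun w hw => ?_⟩
  set G := (T w)ᴴ * H w * T w with hG
  have hGd : G.det = 1 := by
    rw [hG, hGdet w hw, hFone w hw]; simp
  have hadjpd : G.adjugate.PosDef := by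
    rw [(hadjpsd w hw).posDef_iff_det_ne_zero, ← hG, det_adjugate, hGd]
    simp
  have hadj1 : G.adjugate = 1 := by
    apply eq_one_of_trace hadjpd
    · unfold Matrix.trace
      rw [Complex.re_sum]
      calc ∑ j, (G.adjugate.diag j).re ≤ ∑ _j : Fin (n + 1), (1 : ℝ) :=
            Finset.sum_le_sum fun j _ => hdiag w hw j
        _ = ((n + 1 : ℕ) : ℝ) := by simp
    · rw [det_adjugate, hGd]; simp
  have h1 : G * G.adjugate = G.det • (1 : Matrix (Fin (n + 1)) (Fin (n + 1)) ℂ) := mul_adjugate G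
  rw [hadj1, hGd, one_smul, mul_one] at h1
  exact h1

/-- **FLATNESS ON A DISC.** -/
theorem flat_disc {H : ℂ → Matrix (Fin s) (Fin s) ℂ}
    (hHc : ContinuousOn H (closedBall 0 1)) (hH : ∀ z ∈ closedBall (0 : ℂ) 1, (H z).PosDef)
    (hOT : OT H) (hPV : PV H)
    {q : ℂ → ℂ} (hq : AnalyticOnNhd ℂ q (closedBall 0 1)) (hq0 : ∀ z ∈ closedBall (0 : ℂ) 1, q z ≠ 0)
    (hdet : ∀ z ∈ closedBall (0 : ℂ) 1, (H z).det = ((‖q z‖ ^ 2 : ℝ) : ℂ)) :
    ∃ T : ℂ → Matrix (Fin s) (Fin s) ℂ,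
      (∀ i k, DifferentiableOn ℂ (fun w => T w i k) (ball 0 1)) ∧
      ∀ w ∈ ball (0 : ℂ) 1, (T w)ᴴ * H w * T w = 1 := by
  match s, H, hHc, hH, hOT, hPV, hdet with
  | 0, H, _, _, _, _, _ =>
    exact ⟨fun _ => 1, fun i => i.elim0, fun w _ => by ext i; exact i.elim0⟩
  | 1, H, _, _, _, _, hdet =>
    refine ⟨fun w => Matrix.of fun _ _ => (q w)⁻¹, fun i k => ?_, fun w hw => ?_⟩
    · simp only [Matrix.of_apply]
      exact (hq.differentiableOn.mono ball_subset_closedBall).inv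
        (fun z hz => hq0 z (ball_subset_closedBall hz))
    · have h1 := hdet w (ball_subset_closedBall hw)
      have h2 := hq0 w (ball_subset_closedBall hw)
      have h3 : H w 0 0 = ((‖q w‖ ^ 2 : ℝ) : ℂ) := by
        rw [← h1]; simp
      ext i k
      fin_cases i; fin_cases k
      simp only [Matrix.mul_apply, Finset.univ_unique, Fin.default_eq_zero, Finset.sum_singleton,
        Fin.zero_eta, conjTranspose_apply, Matrix.of_apply, Matrix.one_apply_eq, h3]
      have h4 : star (q w)⁻¹ * (q w)⁻¹ = ((‖q w‖ ^ 2 : ℝ) : ℂ)⁻¹ := by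
        have : star (q w) * (q w) = ((‖q w‖ ^ 2 : ℝ) : ℂ) := by
          rw [mul_comm, Complex.star_def, Complex.mul_conj, Complex.normSq_eq_norm_sq]
        rw [star_inv₀, ← this, mul_inv]
      have h5 : ((‖q w‖ ^ 2 : ℝ) : ℂ) ≠ 0 := by
        have : ‖q w‖ ^ 2 ≠ 0 := by
          have := norm_pos_iff.mpr h2
          positivity
        exact_mod_cast this
      calc star (q w)⁻¹ * ((‖q w‖ ^ 2 : ℝ) : ℂ) * (q w)⁻¹
          = (star (q w)⁻¹ * (q w)⁻¹) * ((‖q w‖ ^ 2 : ℝ) : ℂ) := by ring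
        _ = 1 := by rw [h4, inv_mul_cancel₀ h5]
  | n + 2, H, hHc, hH, hOT, hPV, hdet =>
    exact flat_disc_aux (n := n + 1) (by omega) hHc hH hOT hPV hq hq0 hdet

end Crest.Agent.R276.Fdd_999
end

-- ▼ part R276/Pvx_999

/-!
# Consequences of (PV) on a disc (helper999, row 276)

`PVw` (Jensen form, output of 159's `FF.pv`) ⟹ `PV` ⟹ `OT` (through 696's CIRCLE) and
`circleAverage (log det H) ≤ log det H(0)`.
-/

set_option autoImplicit false
set_option linter.unusedSectionVars false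

namespace Crest.Agent.R276.Pvx_999

open MeasureTheory Metric Filter Topology Matrix Polynomial
open scoped ComplexOrder
open Real (circleAverage circleAverage_const)
open Crest.Agent.R276.Nc_999 Crest.Agent.R276.Poi_999 Crest.Agent.R276.Fda_999
open Crest.Agent.R276.Fdb_999 Crest.Agent.R276.Fdc_999 Crest.Agent.R276.Fdd_999

variable {s : ℕ} {H : ℂ → Matrix (Fin s) (Fin s) ℂ}

/-- full circle mean value inequality -/
theorem subM_circle {u : ℂ → ℝ} (hu : ContinuousOn u (closedBall 0 1)) (hs : SubM u) :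
    u 0 ≤ circleAverage u 0 1 := by
  have h := poisson_le hu hs (w := 0) (by simp)
  refine h.trans (le_of_eq ?_)
  apply Real.circleAverage_congr_sphere
  intro z hz
  rw [abs_one] at hz
  have hz0 : z ≠ 0 := by
    intro h0; rw [h0] at hz; simp at hz
  simp only [herglotzRieszKernel]
  simp [hz0]

theorem dN_log_contOn (hHc : ContinuousOn H (closedBall 0 1))
    (hH : ∀ z ∈ closedBall (0 : ℂ) 1, (H z).PosDef) (ξ : Fin s → ℂ[X]) {δ : ℝ} (hδ : 0 < δ) :
    ContinuousOn (fun z => Real.log (dN (H z) (ev ξ z) + δ)) (closedBall 0 1) := by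
  apply ContinuousOn.log
  · exact (dN_contOn hHc hH (ev_cont _).continuousOn).add continuousOn_const
  · intro z hz
    have := dN_nonneg (hH z hz) (ev ξ z)
    linarith

/-- dual norms are sub-mean on the full circle -/
theorem dN_circle (hHc : ContinuousOn H (closedBall 0 1))
    (hH : ∀ z ∈ closedBall (0 : ℂ) 1, (H z).PosDef) (hPV : PV H) (ξ : Fin s → ℂ[X]) :
    dN (H 0) (ev ξ 0) ≤ circleAverage (fun z => dN (H z) (ev ξ z)) 0 1 := by
  have h1 := subM_circle (dN_log_contOn hHc hH ξ one_pos) (hPV ξ 1 one_pos)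
  have hsph : ∀ t ∈ sphere (0 : ℂ) 1, t ∈ closedBall (0 : ℂ) 1 := fun t ht =>
    sphere_subset_closedBall ht
  refine NBcore_696.le_avg_of_log one_pos ?_ (fun t ht => dN_nonneg (hH t (hsph t ht)) _)
    (dN_nonneg (hH 0 (by simp)) _) one_pos h1
  exact (dN_contOn hHc hH (ev_cont _).continuousOn).mono sphere_subset_closedBall

theorem dN_eq (W : Matrix (Fin s) (Fin s) ℂ) (ξ : Fin s → ℂ) : Circ_696.dN W ξ = dN W ξ := by
  rw [Circ_696.dN_eq]; rfl

/-- **(PV) implies (OT)** -/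
theorem ot_of_pv (hHc : ContinuousOn H (closedBall 0 1))
    (hH : ∀ z ∈ closedBall (0 : ℂ) 1, (H z).PosDef) (hPV : PV H) : OT H := by
  intro v ε hε
  obtain ⟨τ, h1, h2⟩ := Circ_696.circle (ρ := 1) one_pos (H := H)
    (hHc.mono sphere_subset_closedBall) (fun t ht => hH t (sphere_subset_closedBall ht))
    (H0 := H 0) (hH 0 (by simp)) (fun ξ => by
      have h := dN_circle hHc hH hPV ξ
      simp only [dN_eq]
      exact h) v hε
  refine ⟨τ, funext h1, ?_⟩
  exact h2

theorem prod_add_le {ι : Type*} (t : Finset ι) (ht : t.Nonempty) (a : ι → ℝ)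
    (ha : ∀ k, 0 ≤ a k) {ε : ℝ} (hε : 0 < ε) :
    ∏ k ∈ t, a k + ε ^ t.card ≤ ∏ k ∈ t, (a k + ε) := by
  classical
  induction ht using Finset.Nonempty.cons_induction with
  | singleton b => simp
  | cons b t hb _ ih =>
    rw [Finset.prod_cons, Finset.prod_cons, Finset.card_cons, pow_succ]
    have e1 := ha b
    have e2 : 0 ≤ ∏ k ∈ t, a k := Finset.prod_nonneg fun k _ => ha k
    have e3 : 0 < ε ^ t.card := by positivity
    nlinarith [mul_nonneg e1 e3.le, mul_nonneg hε.le e2, mul_le_mul_of_nonneg_left ih e1,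
      mul_le_mul_of_nonneg_left ih hε.le]

/-- **(PV) implies: `log det H` is super-mean** -/
theorem det_supermean (hHc : ContinuousOn H (closedBall 0 1))
    (hH : ∀ z ∈ closedBall (0 : ℂ) 1, (H z).PosDef) (hOT : OT H) :
    circleAverage (fun z => Real.log (H z).det.re) 0 1 ≤ Real.log (H 0).det.re := by
  classical
  rcases Nat.eq_zero_or_pos s with hs0 | hs0
  · subst hs0
    have h1 : ∀ z, (H z).det = 1 := fun z => Matrix.det_isEmpty
    simp only [h1, Complex.one_re, Real.log_one]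
    exact le_of_eq (circleAverage_const _ _ _)
  have hne : Nonempty (Fin s) := ⟨⟨0, hs0⟩⟩
  have h00 : (0 : ℂ) ∈ closedBall (0 : ℂ) 1 := by simp
  have hsub : sphere (0 : ℂ) 1 ⊆ closedBall 0 1 := sphere_subset_closedBall
  have hdpos : ∀ z ∈ closedBall (0 : ℂ) 1, 0 < (H z).det.re := fun z hz =>
    (Complex.pos_iff.mp (hH z hz).det_pos).1
  have hdc : ContinuousOn (fun z => (H z).det.re) (closedBall 0 1) :=
    Complex.continuous_re.comp_continuousOn
      ((Continuous.matrix_det continuous_id).comp_continuousOn hHc)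
  obtain ⟨T0, hT0⟩ := exists_frame (hH 0 h00)
  have hcol : ∀ k, qf (H 0) (fun i => T0 i k) = 1 := by
    intro k
    have h1 : (T0ᴴ * H 0 * T0) k k = 1 := by rw [hT0]; simp
    have h2 : qf (H 0) (fun i => T0 i k) = ((T0ᴴ * H 0 * T0) k k).re := by
      unfold qf
      congr 1
      rw [Matrix.mul_assoc, Matrix.mul_apply]
      simp only [dotProduct]
      apply Finset.sum_congr rfl
      intro i _
      congr 1
    rw [h2, h1, Complex.one_re]
  -- a bound for det H on the circle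
  obtain ⟨D0, hD0⟩ : ∃ D0 : ℝ, ∀ z ∈ closedBall (0 : ℂ) 1, (H z).det.re ≤ D0 := by
    obtain ⟨z0, _, hz0⟩ := (isCompact_closedBall (0 : ℂ) 1).exists_isMaxOn ⟨0, h00⟩ hdc
    exact ⟨_, fun z hz => hz0 hz⟩
  have hD0p : 0 < D0 := (hdpos 0 h00).trans_le (hD0 0 h00)
  -- the main inequality with ε
  have main : ∀ ε > 0, circleAverage (fun z => Real.log (H z).det.re) 0 1 ≤
      s * Real.log (1 + ε + ε) + Real.log (H 0).det.re := by
    intro ε hε
    have hex := fun k : Fin s => hOT (fun i => T0 i k) ε hε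
    choose p hp0 hpE using hex
    have hpE' : ∀ k, En H (p k) ≤ 1 + ε := fun k => by
      have := hpE k; rwa [hcol k] at this
    set g : ℂ → ℂ := fun z => ((Tm p).det).eval z with hg
    have hga : AnalyticOnNhd ℂ g (closedBall 0 1) := fun z _ =>
      (Polynomial.differentiable (Tm p).det).analyticAt z
    set η : ℝ := ε ^ s / D0 with hη
    have hηp : 0 < η := by positivity
    -- value at zero
    have hT00 : TmE p 0 = T0 := by
      ext i k
      exact congrFun (hp0 k) i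
    have hg0 : ‖g 0‖ ^ 2 * (H 0).det.re = 1 := by
      have h1 : ((TmE p 0)ᴴ * H 0 * TmE p 0).det = 1 := by rw [hT00, hT0, det_one]
      rw [det_mul, det_mul, det_conjTranspose, TmE_det] at h1
      have h2 : star (g 0) * (H 0).det * g 0 = ((‖g 0‖ ^ 2 : ℝ) : ℂ) * (H 0).det := by
        have : star (g 0) * g 0 = ((‖g 0‖ ^ 2 : ℝ) : ℂ) := by
          rw [mul_comm, Complex.star_def, Complex.mul_conj, Complex.normSq_eq_norm_sq]
        rw [← this]; ring
      have h3 : ((‖g 0‖ ^ 2 : ℝ) : ℂ) * (H 0).det = 1 := by rw [← h2]; exact h1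
      have h4 := congrArg Complex.re h3
      rw [Complex.re_ofReal_mul] at h4
      simpa using h4
    -- pointwise bound
    have hpt : ∀ z ∈ sphere (0 : ℂ) |(1 : ℝ)|, Real.log (H z).det.re + Real.log (‖g z‖ ^ 2 + η) ≤
        ∑ k, Real.log (qf (H z) (ev (p k) z) + ε) := by
      intro z hz
      rw [abs_one] at hz
      have hzb := hsub hz
      have hq0 : ∀ k, 0 ≤ qf (H z) (ev (p k) z) := fun k => qf_nonneg (hH z hzb) _
      rw [← Real.log_mul (hdpos z hzb).ne' (by positivity),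
        ← Real.log_prod (fun k _ => by have := hq0 k; linarith)]
      apply Real.log_le_log
      · exact mul_pos (hdpos z hzb) (by positivity)
      have h1 := Nil_840.det_le_prod_diag (Gr_psd p (hH z hzb))
      have h2 : (Gr H p z).det.re = ‖g z‖ ^ 2 * (H z).det.re := by
        unfold Gr
        rw [det_mul, det_mul, det_conjTranspose, TmE_det]
        have : star (g z) * (H z).det * g z = ((‖g z‖ ^ 2 : ℝ) : ℂ) * (H z).det := by
          have : star (g z) * g z = ((‖g z‖ ^ 2 : ℝ) : ℂ) := by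
            rw [mul_comm, Complex.star_def, Complex.mul_conj, Complex.normSq_eq_norm_sq]
          rw [← this]; ring
        change (star (g z) * (H z).det * g z).re = _
        rw [this, Complex.re_ofReal_mul]
      rw [h2] at h1
      simp only [Gr_diag] at h1
      have h3 : ∏ k, qf (H z) (ev (p k) z) + ε ^ s ≤ ∏ k, (qf (H z) (ev (p k) z) + ε) := by
        have := prod_add_le (Finset.univ : Finset (Fin s)) Finset.univ_nonempty
          (fun k => qf (H z) (ev (p k) z)) hq0 hε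
        simpa using this
      have h4 : (H z).det.re * η ≤ ε ^ s := by
        rw [hη, mul_div_assoc', div_le_iff₀ hD0p, mul_comm]
        exact mul_le_mul_of_nonneg_left (hD0 z hzb) (by positivity)
      calc (H z).det.re * (‖g z‖ ^ 2 + η) = ‖g z‖ ^ 2 * (H z).det.re + (H z).det.re * η := by ring
        _ ≤ _ := by linarith
    -- averages
    have ci1 : CircleIntegrable (fun z => Real.log (H z).det.re) 0 1 :=
      ContinuousOn.circleIntegrable' ((hdc.log (fun z hz => (hdpos z hz).ne')).mono (by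
        rw [abs_one]; exact hsub))
    have cg : ContinuousOn (fun z => Real.log (‖g z‖ ^ 2 + η)) (sphere (0 : ℂ) |(1 : ℝ)|) := by
      apply ContinuousOn.log
      · exact ((((Tm p).det.continuous).norm.pow 2).add continuous_const).continuousOn
      · intro z _; positivity
    have ci2 : CircleIntegrable (fun z => Real.log (‖g z‖ ^ 2 + η)) 0 1 :=
      ContinuousOn.circleIntegrable' cg
    have cq : ∀ k, ContinuousOn (fun z => qf (H z) (ev (p k) z) + ε) (sphere (0 : ℂ) 1) := fun k =>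
      ((qfev_cont hHc (p k)).mono hsub).add continuousOn_const
    have hqpos : ∀ k, ∀ z ∈ sphere (0 : ℂ) 1, 0 < qf (H z) (ev (p k) z) + ε := fun k z hz => by
      have := qf_nonneg (hH z (hsub hz)) (ev (p k) z)
      linarith
    have ci3 : ∀ k ∈ Finset.univ, CircleIntegrable
        (fun z => Real.log (qf (H z) (ev (p k) z) + ε)) 0 1 := by
      intro k _
      apply ContinuousOn.circleIntegrable'
      rw [abs_one]
      exact (cq k).log (fun z hz => (hqpos k z hz).ne')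
    have hmono := Real.circleAverage_mono (ci1.add ci2)
      (CircleIntegrable.fun_sum Finset.univ ci3) hpt
    rw [Real.circleAverage_add ci1 ci2, Real.circleAverage_fun_sum ci3] at hmono
    have hg1 := PV_159.log_add_le_cA (r := 1) one_pos hηp hga
    have hg2 : -Real.log (H 0).det.re ≤ Real.log (‖g 0‖ ^ 2 + η) := by
      rw [← Real.log_inv]
      apply Real.log_le_log (inv_pos.mpr (hdpos 0 h00))
      have h5 : ((H 0).det.re)⁻¹ = ‖g 0‖ ^ 2 := inv_eq_of_mul_eq_one_left hg0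
      rw [h5]; linarith
    have hk : ∀ k, circleAverage (fun z => Real.log (qf (H z) (ev (p k) z) + ε)) 0 1 ≤
        Real.log (1 + ε + ε) := by
      intro k
      refine NBcore_696.avg_log_le one_pos (cq k) (hqpos k) (by linarith) ?_
      have hi1 := qfev_int hHc (p k)
      have hi2 : CircleIntegrable (fun _ : ℂ => ε) 0 1 :=
        ContinuousOn.circleIntegrable' continuousOn_const
      rw [Real.circleAverage_fun_add hi1 hi2, circleAverage_const]
      have := hpE' k
      unfold En at this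
      linarith
    have hsum : ∑ k, circleAverage (fun z => Real.log (qf (H z) (ev (p k) z) + ε)) 0 1 ≤
        s * Real.log (1 + ε + ε) := by
      calc _ ≤ ∑ _k : Fin s, Real.log (1 + ε + ε) := Finset.sum_le_sum fun k _ => hk k
        _ = _ := by simp
    linarith
  -- the limit
  have hlim : Tendsto (fun ε : ℝ => s * Real.log (1 + ε + ε) + Real.log (H 0).det.re) (𝓝[>] 0)
      (𝓝 (s * Real.log (1 + 0 + 0) + Real.log (H 0).det.re)) := by
    have : ContinuousAt (fun ε : ℝ => s * Real.log (1 + ε + ε) + Real.log (H 0).det.re) 0 := by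
      apply ContinuousAt.add _ continuousAt_const
      apply ContinuousAt.mul continuousAt_const
      apply ContinuousAt.log
      · fun_prop
      · norm_num
    exact this.tendsto.mono_left nhdsWithin_le_nhds
  have := ge_of_tendsto hlim (by
    filter_upwards [self_mem_nhdsWithin] with ε hε
    exact main ε hε)
  simpa using this




end Crest.Agent.R276.Pvx_999
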