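import Mathlib
import Crest.Agent.R276.SkoN_845
import Crest.Agent.R276.FibI_448
import Crest.Agent.R276.IntF_448
import Crest.Agent.R276.CmpA_595

-- ▼ part R276/SkoC_317
section

/-!
# SKO-UNI (row 276), part C: the norm of a generic combination (helper317)

`lin_disj`: `L` algebraically closed in `K` (char 0), `w` independent over `L` ⟹ independent over the algebraic
closure of `L` inside `AlgebraicClosure K`.
`exists_null` (**NULL**, algebraic form): `y : Fin r → K`, `w : Fin s → K` independent over `L` and algebraic over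
`L(y)`.  Then there are `P_0, …, P_d ∈ L[A][y]` with `∑_k P_k(A, y) (∑_i A_i w_i)^k = 0` in `K[A]`, and the
coefficients (in `L[A]`) of `P_0` generate an ideal containing a power of every variable `A_i`.
-/


set_option autoImplicit false

noncomputable section

open MvPolynomial

namespace Crest.Agent.R276.SkoC_317

/-- linear disjointness: `L` algebraically closed in `K`, `w` independent over `L`, then `w` is independent over
the algebraic closure of `L` in `AlgebraicClosure K`. -/
theorem lin_disj {L K : Type*} [Field L] [Field K] [Algebra L K] [CharZero K]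
    (hac : ∀ x : K, IsAlgebraic L x → x ∈ Set.range (algebraMap L K))
    {s : ℕ} (w : Fin s → K) (hw : LinearIndependent L w) (c : Fin s → AlgebraicClosure K)
    (hc : ∀ i, IsAlgebraic L (c i)) (h : ∑ i, c i * algebraMap K (AlgebraicClosure K) (w i) = 0) :
    c = 0 := by
  classical
  by_contra hne
  -- minimal support
  have key : ∀ n : ℕ, ∀ c : Fin s → AlgebraicClosure K, (∀ i, IsAlgebraic L (c i)) →
      ∑ i, c i * algebraMap K (AlgebraicClosure K) (w i) = 0 →
      (Finset.univ.filter fun i => c i ≠ 0).card ≤ n → c = 0 := by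
    intro n
    induction n with
    | zero =>
      intro c _ _ h0
      funext i
      by_contra hi
      have h1 : i ∈ Finset.univ.filter fun i => c i ≠ 0 := by simpa using hi
      rw [Finset.card_eq_zero.mp (Nat.le_zero.mp h0)] at h1
      exact absurd h1 (Finset.notMem_empty _)
    | succ n ih =>
      intro c hc h hcard
      by_contra hne
      obtain ⟨i0, hi0⟩ : ∃ i, c i ≠ 0 := by
        by_contra hcon
        push Not at hcon
        exact hne (funext hcon)
      set c' : Fin s → AlgebraicClosure K := fun i => c i * (c i0)⁻¹ with hc'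
      have hc'0 : c' i0 = 1 := mul_inv_cancel₀ hi0
      have hc'alg : ∀ i, IsAlgebraic L (c' i) := fun i => (hc i).mul (hc i0).inv
      have hrel : ∑ i, c' i * algebraMap K (AlgebraicClosure K) (w i) = 0 := by
        have : ∑ i, c' i * algebraMap K (AlgebraicClosure K) (w i) =
            (c i0)⁻¹ * ∑ i, c i * algebraMap K (AlgebraicClosure K) (w i) := by
          rw [Finset.mul_sum]
          exact Finset.sum_congr rfl fun i _ => by rw [hc']; ring
        rw [this, h, mul_zero]
      have hfix : ∀ τ : AlgebraicClosure K ≃ₐ[K] AlgebraicClosure K, ∀ i, τ (c' i) = c' i := by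
        intro τ
        have h1 : (fun i => τ (c' i) - c' i) = 0 := by
          refine ih _ (fun i => ?_) ?_ ?_
          · refine IsAlgebraic.sub ?_ (hc'alg i)
            have := (hc'alg i).algHom (τ.toAlgHom.restrictScalars L)
            simpa using this
          · have h2 : ∑ i, τ (c' i) * algebraMap K (AlgebraicClosure K) (w i) = 0 := by
              have := congrArg τ hrel
              rw [map_sum, map_zero] at this
              simpa [map_mul] using this
            simp only [sub_mul, Finset.sum_sub_distrib, h2, hrel, sub_zero]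
          · refine Nat.lt_succ_iff.mp (lt_of_lt_of_le (Finset.card_lt_card ?_) hcard)
            refine ⟨fun i hi => ?_, fun hsub => ?_⟩
            · simp only [Finset.mem_filter, Finset.mem_univ, true_and] at hi ⊢
              intro hci
              apply hi
              simp [hc', hci]
            · have h3 : i0 ∈ Finset.univ.filter fun i => c i ≠ 0 := by simpa using hi0
              have h4 := hsub h3
              simp only [Finset.mem_filter, Finset.mem_univ, true_and, hc'0, map_one, sub_self,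
                ne_eq, not_true_eq_false] at h4
        intro i
        have := congrFun h1 i
        exact sub_eq_zero.mp this
      have hmem : ∀ i, ∃ l : L, algebraMap K (AlgebraicClosure K) (algebraMap L K l) = c' i := by
        intro i
        have h1 : c' i ∈ (⊥ : IntermediateField K (AlgebraicClosure K)) :=
          (InfiniteGalois.mem_bot_iff_fixed (c' i)).mpr fun τ => hfix τ i
        obtain ⟨k, hk⟩ := IntermediateField.mem_bot.mp h1
        have h2 : IsAlgebraic L k := by
          have h3 := hc'alg i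
          rw [← hk] at h3
          exact (isAlgebraic_algebraMap_iff (FaithfulSMul.algebraMap_injective K (AlgebraicClosure K))).mp h3
        obtain ⟨l, hl⟩ := hac k h2
        exact ⟨l, by rw [hl, hk]⟩
      choose l hl using hmem
      have h5 : ∑ i, l i • w i = 0 := by
        apply FaithfulSMul.algebraMap_injective K (AlgebraicClosure K)
        rw [map_zero, ← hrel, map_sum]
        exact Finset.sum_congr rfl fun i _ => by rw [Algebra.smul_def, map_mul, hl]
      have h6 := (Fintype.linearIndependent_iff.mp hw) l h5 i0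
      have h7 := hl i0
      rw [h6, map_zero, map_zero, hc'0] at h7
      exact zero_ne_one h7
  exact hne (key _ c hc h le_rfl)

variable {F K : Type*} [Field F] [Field K] [Algebra F K]

/-- multiplication by `∑ A_i w_i` -/
def mulW {s : ℕ} (w : Fin s → K) : (Fin s → F) →ₗ[F] Module.End F K :=
  (Algebra.lmul F K).toLinearMap ∘ₗ Fintype.linearCombination F w

theorem mulW_apply {s : ℕ} (w : Fin s → K) (A : Fin s → F) :
    mulW w A = Algebra.lmul F K (∑ i, A i • w i) := by
  simp [mulW, Fintype.linearCombination_apply]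

theorem eval_map_range {R S : Type*} [CommSemiring R] [CommSemiring S] (f : R →+* S) {σ : Type*}
    (A : σ → R) (p : MvPolynomial σ R) :
    MvPolynomial.eval (fun i => f (A i)) (MvPolynomial.map f p) = f (MvPolynomial.eval A p) := by
  rw [MvPolynomial.eval_map]
  exact (MvPolynomial.eval₂_comp f A p).symm

/-- the characteristic polynomial of the generic combination -/
theorem exists_char [CharZero K] [FiniteDimensional F K] {s : ℕ} (w : Fin s → K) :
    ∃ (d : ℕ) (χ : ℕ → MvPolynomial (Fin s) F),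
      (∑ k ∈ Finset.range (d + 1), MvPolynomial.map (algebraMap F K) (χ k) *
        (∑ i, X i * C (w i)) ^ k = 0) ∧
      (∀ α : Fin s → AlgebraicClosure K, aeval α (χ 0) = 0 →
        ∃ σ : K →ₐ[F] AlgebraicClosure K, ∑ i, α i * σ (w i) = 0) := by
  classical
  have hF : CharZero F := (algebraMap F K).charZero_iff (algebraMap F K).injective |>.mpr inferInstance
  set Q := (mulW (F := F) w).polyCharpoly (Pi.basisFun F (Fin s)) with hQ
  have hdeg : Q.natDegree = Module.finrank F K := LinearMap.polyCharpoly_natDegree _ _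
  have hev : ∀ (A : Fin s → F) (k : ℕ), MvPolynomial.eval A (Q.coeff k) =
      (Algebra.lmul F K (∑ i, A i • w i)).charpoly.coeff k := by
    intro A k
    have := LinearMap.polyCharpoly_coeff_eval (mulW (F := F) w) (Pi.basisFun F (Fin s)) A k
    rw [mulW_apply] at this
    rw [← this]
    congr 1
  refine ⟨Module.finrank F K, fun k => Q.coeff k, ?_, ?_⟩
  · apply MvPolynomial.funext_set (fun _ => Set.range (algebraMap F K))
      (fun _ => Set.infinite_range_of_injective (algebraMap F K).injective)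
    intro x hx
    have hx' : ∀ i, ∃ a : F, algebraMap F K a = x i := fun i => hx i (Set.mem_univ _)
    choose A hA using hx'
    obtain rfl : x = fun i => algebraMap F K (A i) := funext fun i => (hA i).symm
    rw [map_zero, map_sum]
    have h1 : Polynomial.aeval (∑ i, A i • w i)
        (Algebra.lmul F K (∑ i, A i • w i)).charpoly = 0 := by
      apply Algebra.lmul_injective (R := F)
      rw [← Polynomial.aeval_algHom_apply, LinearMap.aeval_self_charpoly, map_zero]
    have hd2 : (Algebra.lmul F K (∑ i, A i • w i)).charpoly.natDegree = Module.finrank F K :=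
      LinearMap.charpoly_natDegree _
    rw [Polynomial.aeval_eq_sum_range, hd2] at h1
    rw [← h1]
    refine Finset.sum_congr rfl fun k _ => ?_
    rw [map_mul, map_pow, map_sum, Algebra.smul_def, ← hev A k, eval_map_range]
    congr 2
    exact Finset.sum_congr rfl fun i _ => by rw [map_mul, eval_X, eval_C, Algebra.smul_def]
  · intro α hα
    have hid : MvPolynomial.map (algebraMap F (AlgebraicClosure K)) (Q.coeff 0) =
        C ((-1) ^ Module.finrank F K) *
          ∏ σ : K →ₐ[F] AlgebraicClosure K, ∑ i, X i * C (σ (w i)) := by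
      apply MvPolynomial.funext_set (fun _ => Set.range (algebraMap F (AlgebraicClosure K)))
        (fun _ => Set.infinite_range_of_injective (algebraMap F (AlgebraicClosure K)).injective)
      intro x hx
      have hx' : ∀ i, ∃ a : F, algebraMap F (AlgebraicClosure K) a = x i :=
        fun i => hx i (Set.mem_univ _)
      choose A hA using hx'
      obtain rfl : x = fun i => algebraMap F (AlgebraicClosure K) (A i) :=
        funext fun i => (hA i).symm
      rw [eval_map_range, hev A 0]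
      have h2 : Algebra.norm F (∑ i, A i • w i) = (-1) ^ Module.finrank F K *
          (Algebra.lmul F K (∑ i, A i • w i)).charpoly.coeff 0 := by
        rw [Algebra.norm_apply]
        exact LinearMap.det_eq_sign_charpoly_coeff _
      have h3 : (Algebra.lmul F K (∑ i, A i • w i)).charpoly.coeff 0 =
          (-1) ^ Module.finrank F K * Algebra.norm F (∑ i, A i • w i) := by
        rw [h2, ← mul_assoc, ← pow_add, ← two_mul, pow_mul, neg_one_sq, one_pow, one_mul]
      rw [h3, map_mul, map_pow, map_neg, map_one, map_mul, eval_C, map_prod,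
        Algebra.norm_eq_prod_embeddings F (AlgebraicClosure K)]
      congr 1
      refine Finset.prod_congr rfl fun σ _ => ?_
      rw [map_sum, map_sum]
      exact Finset.sum_congr rfl fun i _ => by
        rw [map_mul, eval_X, eval_C, Algebra.smul_def, map_mul, AlgHom.commutes]
    have h4 : MvPolynomial.eval α (MvPolynomial.map (algebraMap F (AlgebraicClosure K))
        (Q.coeff 0)) = 0 := by
      rw [MvPolynomial.eval_map, ← MvPolynomial.aeval_def]
      exact hα
    rw [hid, map_mul, eval_C, map_prod, mul_eq_zero, Finset.prod_eq_zero_iff] at h4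
    rcases h4 with h4 | ⟨σ, _, h4⟩
    · exact absurd h4 (pow_ne_zero _ (neg_ne_zero.mpr one_ne_zero))
    · refine ⟨σ, ?_⟩
      rw [map_sum] at h4
      rw [← h4]
      exact Finset.sum_congr rfl fun i _ => by rw [map_mul, eval_X, eval_C]


section Null

/-- clearing denominators of finitely many elements -/
theorem exists_common {L F : Type*} [Field L] [Field F] [Algebra L F] {r : ℕ} (y : Fin r → F)
    (hy : ∀ t : F, ∃ p q : MvPolynomial (Fin r) L, aeval y q ≠ 0 ∧ t * aeval y q = aeval y p)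
    (T : Finset F) :
    ∃ g : MvPolynomial (Fin r) L, aeval y g ≠ 0 ∧
      ∀ t ∈ T, ∃ c : MvPolynomial (Fin r) L, aeval y c = aeval y g * t := by
  classical
  induction T using Finset.induction_on with
  | empty => exact ⟨1, by simp, by simp⟩
  | insert t T _ ih =>
    obtain ⟨g, hg, hgT⟩ := ih
    obtain ⟨p, q, hq, hpq⟩ := hy t
    refine ⟨g * q, by rw [map_mul]; exact mul_ne_zero hg hq, ?_⟩
    intro u hu
    rcases Finset.mem_insert.mp hu with rfl | hu
    · exact ⟨g * p, by rw [map_mul, map_mul, ← hpq]; ring⟩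
    · obtain ⟨c, hc⟩ := hgT u hu
      exact ⟨c * q, by rw [map_mul, map_mul, hc]; ring⟩

/-- evaluation of polynomials in `y` with coefficients in `L[A]` -/
def Th {R S : Type*} [CommSemiring R] [CommSemiring S] (f : R →+* S) {r s : ℕ} (y : Fin r → S) :
    MvPolynomial (Fin r) (MvPolynomial (Fin s) R) →+* MvPolynomial (Fin s) S :=
  eval₂Hom (MvPolynomial.map f) (fun j => C (y j))

theorem Th_map_C {R S : Type*} [CommSemiring R] [CommSemiring S] (f : R →+* S) {r s : ℕ}
    (y : Fin r → S) (c : MvPolynomial (Fin r) R) :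
    Th (s := s) f y (MvPolynomial.map C c) = C (eval₂ f y c) := by
  rw [Th, coe_eval₂Hom, eval₂_map]
  have h3 : (MvPolynomial.map f).comp (C : R →+* MvPolynomial (Fin s) R) =
      (C : S →+* MvPolynomial (Fin s) S).comp f := by
    ext1 l
    simp
  rw [h3, MvPolynomial.eval₂_comp_left]
  rfl

theorem Th_C {R S : Type*} [CommSemiring R] [CommSemiring S] (f : R →+* S) {r s : ℕ}
    (y : Fin r → S) (c : MvPolynomial (Fin s) R) :
    Th f y (C c) = MvPolynomial.map f c := by
  rw [Th, coe_eval₂Hom, eval₂_C]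

variable {L F K : Type*} [Field L] [Field F] [Field K] [Algebra L F] [Algebra F K] [Algebra L K]
  [IsScalarTower L F K]

theorem zero_locus [CharZero K] [FiniteDimensional F K]
    (hac : ∀ x : K, IsAlgebraic L x → x ∈ Set.range (algebraMap L K))
    {s : ℕ} (w : Fin s → K) (hw : LinearIndependent L w) (χ : MvPolynomial (Fin s) F)
    (hnorm : ∀ α : Fin s → AlgebraicClosure K, aeval α χ = 0 →
        ∃ σ : K →ₐ[F] AlgebraicClosure K, ∑ i, α i * σ (w i) = 0)
    (α : Fin s → AlgebraicClosure K) (hα : ∀ i, IsAlgebraic L (α i)) (h : aeval α χ = 0) :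
    α = 0 := by
  have halg1 : Algebra.IsAlgebraic F (AlgebraicClosure K) :=
    Algebra.IsAlgebraic.trans F K (AlgebraicClosure K)
  obtain ⟨σ, hσ⟩ := hnorm α h
  obtain ⟨τ, hτ⟩ := IsAlgClosed.surjective_domRestrict_of_isAlgebraic (K := F) (L := K)
    (E := AlgebraicClosure K) (M := AlgebraicClosure K) σ
  have hbij := Algebra.IsAlgebraic.algHom_bijective τ
  set τ' := AlgEquiv.ofBijective τ hbij with hτ'
  have hτσ : ∀ x : K, τ (algebraMap K (AlgebraicClosure K) x) = σ x := by
    intro x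
    rw [← hτ]
    rfl
  set cc : Fin s → AlgebraicClosure K := fun i => τ'.symm (α i) with hcc
  have h12 : ∑ i, cc i * algebraMap K (AlgebraicClosure K) (w i) = 0 := by
    apply τ'.injective
    rw [map_zero, map_sum, ← hσ]
    refine Finset.sum_congr rfl fun i _ => ?_
    rw [map_mul, hcc]
    simp only [AlgEquiv.apply_symm_apply]
    congr 1
    exact hτσ (w i)
  have hccalg : ∀ i, IsAlgebraic L (cc i) := fun i =>
    (hα i).algHom (τ'.symm.toAlgHom.restrictScalars L)
  have h15 := lin_disj hac w hw cc hccalg h12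
  funext i
  have h16 : cc i = 0 := congrFun h15 i
  exact (map_eq_zero_iff τ'.symm τ'.symm.injective).mp h16

theorem core [CharZero K] [FiniteDimensional F K]
    (hac : ∀ x : K, IsAlgebraic L x → x ∈ Set.range (algebraMap L K))
    {r s : ℕ} (y : Fin r → F)
    (hy : ∀ t : F, ∃ p q : MvPolynomial (Fin r) L, aeval y q ≠ 0 ∧ t * aeval y q = aeval y p)
    (w : Fin s → K) (hw : LinearIndependent L w) :
    ∃ (d : ℕ) (P : ℕ → MvPolynomial (Fin r) (MvPolynomial (Fin s) L)),
      (∑ k ∈ Finset.range (d + 1), Th (algebraMap L K) (fun j => algebraMap F K (y j)) (P k) *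
        (∑ i, X i * C (w i)) ^ k = 0) ∧
      ∀ i : Fin s, ∃ (M : ℕ) (Q : (Fin r →₀ ℕ) →₀ MvPolynomial (Fin s) L),
        (Q.sum fun β q => q * coeff β (P 0)) = X i ^ M := by
  classical
  obtain ⟨d, χ, hrel, hnorm⟩ := exists_char (F := F) w
  obtain ⟨g, hg, hgT⟩ := exists_common y hy
    ((Finset.range (d + 1)).biUnion fun k => (χ k).support.image fun m => (χ k).coeff m)
  have hc : ∀ k m, ∃ c : MvPolynomial (Fin r) L, k ∈ Finset.range (d + 1) →
      m ∈ (χ k).support → aeval y c = aeval y g * (χ k).coeff m := by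
    intro k m
    by_cases h : k ∈ Finset.range (d + 1) ∧ m ∈ (χ k).support
    · obtain ⟨c, hc⟩ := hgT ((χ k).coeff m) (Finset.mem_biUnion.mpr
        ⟨k, h.1, Finset.mem_image_of_mem _ h.2⟩)
      exact ⟨c, fun _ _ => hc⟩
    · exact ⟨0, fun h1 h2 => absurd ⟨h1, h2⟩ h⟩
  choose c hc using hc
  set P : ℕ → MvPolynomial (Fin r) (MvPolynomial (Fin s) L) := fun k =>
    ∑ m ∈ (χ k).support, MvPolynomial.map C (c k m) * C (monomial m 1) with hP
  have hev2 : ∀ p : MvPolynomial (Fin r) L, eval₂ (algebraMap L K) (fun j => algebraMap F K (y j)) p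
      = algebraMap F K (aeval y p) := by
    intro p
    rw [aeval_def, MvPolynomial.eval₂_comp_left, ← IsScalarTower.algebraMap_eq]
    rfl
  refine ⟨d, P, ?_, ?_⟩
  · -- the relation
    have h1 : ∀ k ∈ Finset.range (d + 1), Th (algebraMap L K) (fun j => algebraMap F K (y j)) (P k) =
        C (algebraMap F K (aeval y g)) * MvPolynomial.map (algebraMap F K) (χ k) := by
      intro k hk
      rw [hP]
      simp only [map_sum, map_mul]
      conv_rhs => rw [(χ k).as_sum]
      rw [map_sum, Finset.mul_sum]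
      refine Finset.sum_congr rfl fun m hm => ?_
      rw [Th_map_C, Th_C, hev2, hc k m hk hm, map_monomial, map_monomial, map_one, map_mul,
        C_mul_monomial, C_mul_monomial, mul_one]
    calc ∑ k ∈ Finset.range (d + 1), Th (algebraMap L K) (fun j => algebraMap F K (y j)) (P k) *
          (∑ i, X i * C (w i)) ^ k
        = C (algebraMap F K (aeval y g)) * ∑ k ∈ Finset.range (d + 1),
            MvPolynomial.map (algebraMap F K) (χ k) * (∑ i, X i * C (w i)) ^ k := by
          rw [Finset.mul_sum]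
          refine Finset.sum_congr rfl fun k hk => ?_
          rw [h1 k hk, mul_assoc]
      _ = 0 := by rw [hrel, mul_zero]
  · -- the Nullstellensatz
    set I : Ideal (MvPolynomial (Fin s) L) := Ideal.span (Set.range fun β => coeff β (P 0)) with hI
    have hz : ∀ a ∈ zeroLocus (AlgebraicClosure L) I, a = 0 := by
      intro a ha
      set ι : AlgebraicClosure L →ₐ[L] AlgebraicClosure K := IsAlgClosed.lift with hι
      set α : Fin s → AlgebraicClosure K := fun i => ι (a i) with hα
      have h1 : ∀ β, aeval α (coeff β (P 0)) = 0 := by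
        intro β
        have h2 := ha (coeff β (P 0)) (Ideal.subset_span ⟨β, rfl⟩)
        have h3 : ι (aeval a (coeff β (P 0))) = aeval α (coeff β (P 0)) :=
          MvPolynomial.comp_aeval_apply a ι (coeff β (P 0))
        rw [← h3, h2, map_zero]
      set Ψ : MvPolynomial (Fin r) (MvPolynomial (Fin s) L) →+* AlgebraicClosure K :=
        eval₂Hom (aeval α : MvPolynomial (Fin s) L →ₐ[L] AlgebraicClosure K).toRingHom
          (fun j => algebraMap F (AlgebraicClosure K) (y j)) with hΨ
      have h4 : Ψ (P 0) = 0 := by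
        rw [hΨ, coe_eval₂Hom, eval₂_eq]
        refine Finset.sum_eq_zero fun β _ => ?_
        have : (aeval α : MvPolynomial (Fin s) L →ₐ[L] AlgebraicClosure K).toRingHom
          (coeff β (P 0)) = 0 := h1 β
        rw [this, zero_mul]
      have h0 : (0 : ℕ) ∈ Finset.range (d + 1) := Finset.mem_range.mpr (Nat.succ_pos d)
      have h7 : Ψ (P 0) = algebraMap F (AlgebraicClosure K) (aeval y g) * aeval α (χ 0) := by
        have h70 : aeval α (χ 0) = ∑ m ∈ (χ 0).support,
            algebraMap F (AlgebraicClosure K) (coeff m (χ 0)) * ∏ i, α i ^ m i := by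
          rw [aeval_def, eval₂_eq']
        rw [hP, h70, Finset.mul_sum]
        simp only [map_sum, map_mul]
        refine Finset.sum_congr rfl fun m hm => ?_
        have h8 : Ψ (MvPolynomial.map C (c 0 m)) =
            algebraMap F (AlgebraicClosure K) (aeval y (c 0 m)) := by
          rw [hΨ, coe_eval₂Hom, eval₂_map]
          have h9 : ((aeval α : MvPolynomial (Fin s) L →ₐ[L] AlgebraicClosure K).toRingHom).comp
              (C : L →+* MvPolynomial (Fin s) L) =
              (algebraMap F (AlgebraicClosure K)).comp (algebraMap L F) := by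
            ext1 l
            have h91 : (aeval α : MvPolynomial (Fin s) L →ₐ[L] AlgebraicClosure K) (C l) =
              algebraMap L (AlgebraicClosure K) l := MvPolynomial.aeval_C _ _
            change (aeval α : MvPolynomial (Fin s) L →ₐ[L] AlgebraicClosure K) (C l) = _
            rw [h91]
            exact IsScalarTower.algebraMap_apply L F (AlgebraicClosure K) l
          rw [h9, aeval_def, MvPolynomial.eval₂_comp_left]
          rfl
        have h10 : Ψ (C (monomial m 1)) = ∏ i, α i ^ m i := by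
          rw [hΨ, coe_eval₂Hom, eval₂_C]
          change (aeval α : MvPolynomial (Fin s) L →ₐ[L] AlgebraicClosure K) (monomial m 1) = _
          rw [aeval_monomial, map_one, one_mul, Finsupp.prod_fintype _ _ (fun i => pow_zero _)]
        rw [h8, h10, hc 0 m h0 hm, map_mul]
        ring
      rw [h7, mul_eq_zero] at h4
      have h11 : aeval α (χ 0) = 0 := by
        rcases h4 with h4 | h4
        · exact absurd ((map_eq_zero _).mp h4) hg
        · exact h4
      have hαalg : ∀ i, IsAlgebraic L (α i) := fun i =>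
        (Algebra.IsAlgebraic.isAlgebraic (R := L) (a i)).algHom ι
      have h16 := zero_locus hac w hw (χ 0) hnorm α hαalg h11
      funext i
      have h17 : α i = 0 := congrFun h16 i
      exact (map_eq_zero_iff ι ι.injective).mp h17
    intro i
    have h18 : X i ∈ I.radical := by
      rw [← vanishingIdeal_zeroLocus_eq_radical (K := AlgebraicClosure L) I]
      rw [mem_vanishingIdeal_iff]
      intro a ha
      rw [hz a ha, aeval_X]
      rfl
    obtain ⟨M, hM⟩ := h18
    obtain ⟨Q, hQ⟩ := (Finsupp.mem_span_range_iff_exists_finsupp).mp hM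
    exact ⟨M, Q, hQ⟩

end Null


section Wrap

variable {L K : Type*} [Field L] [Field K] [Algebra L K]

/-- clearing denominators of one element -/
theorem exists_frac {r : ℕ} (y : Fin r → K) (yF : Fin r → IntermediateField.adjoin L (Set.range y))
    (hyF : ∀ j, (yF j : K) = y j) (t : IntermediateField.adjoin L (Set.range y)) :
    ∃ p q : MvPolynomial (Fin r) L, aeval yF q ≠ 0 ∧ t * aeval yF q = aeval yF p := by
  have hev : ∀ p : MvPolynomial (Fin r) L, ((aeval yF p : IntermediateField.adjoin L (Set.range y)) : K)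
      = aeval y p := by
    intro p
    have h := MvPolynomial.comp_aeval_apply yF (IntermediateField.val _) p
    have h2 : (fun i => (IntermediateField.adjoin L (Set.range y)).val (yF i)) = y := funext hyF
    rw [h2] at h
    exact h
  obtain ⟨p, q, h⟩ := (IntermediateField.mem_adjoin_range_iff L y (t : K)).mp t.2
  by_cases hq : aeval y q = 0
  · refine ⟨0, 1, by simp, ?_⟩
    apply Subtype.ext
    rw [hq, div_zero] at h
    rw [IntermediateField.coe_mul, h]
    simp
  · refine ⟨p, q, fun h0 => hq (by rw [← hev q, h0]; rfl), ?_⟩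
    apply Subtype.ext
    rw [IntermediateField.coe_mul, hev, hev, h, div_mul_cancel₀ _ hq]

/-- **(NULL), algebraic form** -/
theorem exists_null [CharZero K] (hac : ∀ x : K, IsAlgebraic L x → x ∈ Set.range (algebraMap L K))
    {r s : ℕ} (y : Fin r → K) (w : Fin s → K)
    (hal : ∀ i, IsAlgebraic (IntermediateField.adjoin L (Set.range y)) (w i))
    (hw : LinearIndependent L w) :
    ∃ (d : ℕ) (P : ℕ → MvPolynomial (Fin r) (MvPolynomial (Fin s) L)),
      (∑ k ∈ Finset.range (d + 1), Th (algebraMap L K) y (P k) * (∑ i, X i * C (w i)) ^ k = 0) ∧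
      ∀ i : Fin s, ∃ (M : ℕ) (Q : (Fin r →₀ ℕ) →₀ MvPolynomial (Fin s) L),
        (Q.sum fun β q => q * coeff β (P 0)) = X i ^ M := by
  classical
  let F := IntermediateField.adjoin L (Set.range y)
  let K1 := IntermediateField.adjoin F (Set.range w)
  have hfin : FiniteDimensional F K1 :=
    IntermediateField.finiteDimensional_adjoin fun x hx => by
      obtain ⟨i, rfl⟩ := hx
      exact (hal i).isIntegral
  have hyF : ∀ j, y j ∈ F := fun j => IntermediateField.subset_adjoin _ _ ⟨j, rfl⟩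
  have hwK : ∀ i, w i ∈ K1 := fun i => IntermediateField.subset_adjoin _ _ ⟨i, rfl⟩
  let w1 : Fin s → K1 := fun i => ⟨w i, hwK i⟩
  let yF : Fin r → F := fun j => ⟨y j, hyF j⟩
  have tow : IsScalarTower L F K1 := IsScalarTower.of_algebraMap_eq fun l => rfl
  have hmap : (algebraMap K1 K).comp (algebraMap L K1) = algebraMap L K := by
    ext1 l
    rfl
  have tow2 : IsScalarTower L K1 K := IsScalarTower.of_algebraMap_eq' hmap.symm
  have hch : CharZero K1 := (algebraMap K1 K).charZero_iff (algebraMap K1 K).injective |>.mpr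
    inferInstance
  have hacK1 : ∀ x : K1, IsAlgebraic L x → x ∈ Set.range (algebraMap L K1) := by
    intro x hx
    have h13 : IsAlgebraic L (algebraMap K1 K x) := hx.algebraMap
    obtain ⟨l, hl⟩ := hac _ h13
    exact ⟨l, (algebraMap K1 K).injective (by rw [← hl, ← hmap]; rfl)⟩
  have hwL : LinearIndependent L w1 := by
    apply LinearIndependent.of_comp (IsScalarTower.toAlgHom L K1 K).toLinearMap
    exact hw
  obtain ⟨d, P, hrel, hnull⟩ := core (L := L) (F := F) (K := K1) hacK1 yF
    (fun t => exists_frac y yF (fun _ => rfl) t) w1 hwL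
  refine ⟨d, P, ?_, hnull⟩
  have h1 := congrArg (MvPolynomial.map (algebraMap K1 K)) hrel
  rw [map_zero, map_sum] at h1
  rw [← h1]
  refine Finset.sum_congr rfl fun k _ => ?_
  rw [map_mul, map_pow, map_sum]
  congr 1
  · have h2 : (MvPolynomial.map (algebraMap K1 K)).comp
        (Th (s := s) (algebraMap L K1) fun j => algebraMap F K1 (yF j)) = Th (algebraMap L K) y := by
      apply MvPolynomial.ringHom_ext
      · intro p
        rw [RingHom.comp_apply, Th_C, Th_C, MvPolynomial.map_map, hmap]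
      · intro j
        rw [RingHom.comp_apply, Th, Th, coe_eval₂Hom, coe_eval₂Hom, eval₂_X, eval₂_X, map_C]
        rfl
    rw [← h2]
    rfl
  · congr 1
    exact Finset.sum_congr rfl fun i _ => by rw [map_mul, map_X, map_C]; rfl

end Wrap

end Crest.Agent.R276.SkoC_317
end
end

-- ▼ part R276/SkoA_567
section

/-!
# SKO (row 276): uniform Skoda integrability of negative powers of polynomials (helper567)

`sko` : for `p ≥ 0`, `p * d < 2`, `R` there is a constant `C < ∞` such that for all polynomials `P` in `n`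
variables, of degree `≤ d` in each variable, and every monomial `m`,
`∫_{|y| ≤ R} |P(y)|^{-p} ≤ C * |coeff m P|^{-p}`.
-/

set_option autoImplicit false

noncomputable section

open Set Filter Topology MeasureTheory ENNReal

namespace Crest.Agent.R276.SkoA_567

/-! ### products and maxima -/

/-- a product of at most `d` factors is at most `1 +` the sum of the `d`-th powers -/
theorem prod_le_one_add_sum (s : Multiset ℝ≥0∞) (d : ℕ) (hs : Multiset.card s ≤ d) :
    s.prod ≤ 1 + (s.map (fun x => x ^ d)).sum := by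
  classical
  -- the maximum of `1` and the elements
  obtain ⟨M, hM1, hM, hMe⟩ : ∃ M : ℝ≥0∞, 1 ≤ M ∧ (∀ x ∈ s, x ≤ M) ∧ (M = 1 ∨ M ∈ s) := by
    induction s using Multiset.induction_on with
    | empty => exact ⟨1, le_rfl, by simp, Or.inl rfl⟩
    | cons a s ih =>
      obtain ⟨M, h1, h2, h3⟩ := ih ((Multiset.card_le_card (Multiset.le_cons_self s a)).trans hs)
      by_cases haM : a ≤ M
      · refine ⟨M, h1, ?_, ?_⟩
        · intro x hx
          rcases Multiset.mem_cons.mp hx with rfl | hx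
          · exact haM
          · exact h2 x hx
        · rcases h3 with h3 | h3
          · exact Or.inl h3
          · exact Or.inr (Multiset.mem_cons_of_mem h3)
      · refine ⟨a, h1.trans (le_of_not_ge haM), ?_, Or.inr (Multiset.mem_cons_self a s)⟩
        intro x hx
        rcases Multiset.mem_cons.mp hx with rfl | hx
        · exact le_rfl
        · exact (h2 x hx).trans (le_of_not_ge haM)
  have h1 : s.prod ≤ M ^ Multiset.card s := Multiset.prod_le_pow_card s M hM
  have h2 : M ^ Multiset.card s ≤ M ^ d := pow_le_pow_right₀ hM1 hs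
  refine (h1.trans h2).trans ?_
  rcases hMe with rfl | hMe
  · simp
  · have h3 : M ^ d ≤ (s.map (fun x => x ^ d)).sum :=
      Multiset.single_le_sum (by simp) _ (Multiset.mem_map_of_mem _ hMe)
    exact h3.trans le_add_self

/-! ### one variable -/

theorem lint_ball (q : ℝ) (hq : q < 2) (R : ℝ) :
    ∫⁻ u in Metric.closedBall (0 : ℂ) R, ‖u‖ₑ ^ (-q) < ∞ := by
  rw [← lintegral_indicator Metric.isClosed_closedBall.measurableSet,
    ← Complex.lintegral_comp_polarCoord_symm]
  have h1 : ∀ p ∈ polarCoord.target, ENNReal.ofReal p.1 •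
      (Metric.closedBall (0 : ℂ) R).indicator (fun u => ‖u‖ₑ ^ (-q)) (Complex.polarCoord.symm p)
      ≤ ((Ioc (0 : ℝ) R).indicator (fun r => ENNReal.ofReal (r ^ (1 - q))) p.1) *
        ((Ioo (-Real.pi) Real.pi).indicator (fun _ => (1 : ℝ≥0∞)) p.2) := by
    intro p hp
    rw [polarCoord_target] at hp
    obtain ⟨hp1, hp2⟩ := hp
    have hp1' : 0 < p.1 := hp1
    have hn : ‖Complex.polarCoord.symm p‖ = p.1 := by
      rw [Complex.norm_polarCoord_symm, abs_of_pos hp1']
    rw [Set.indicator_of_mem (s := Ioo (-Real.pi) Real.pi) hp2, mul_one, smul_eq_mul]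
    by_cases hR : p.1 ≤ R
    · rw [Set.indicator_of_mem (s := Ioc (0 : ℝ) R) ⟨hp1', hR⟩, Set.indicator_of_mem (by
        rw [mem_closedBall_zero_iff, hn]; exact hR)]
      have h2 : ‖Complex.polarCoord.symm p‖ₑ = ENNReal.ofReal p.1 := by
        rw [← ofReal_norm, hn]
      rw [h2, ENNReal.ofReal_rpow_of_pos hp1', ← ENNReal.ofReal_mul hp1'.le]
      apply le_of_eq
      congr 1
      rw [sub_eq_add_neg, Real.rpow_add hp1', Real.rpow_one]
    · rw [Set.indicator_of_notMem (s := Metric.closedBall (0 : ℂ) R) (by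
        rw [mem_closedBall_zero_iff, hn]; exact hR)]
      simp
  have h2 : ∫⁻ p in polarCoord.target, ENNReal.ofReal p.1 •
      (Metric.closedBall (0 : ℂ) R).indicator (fun u => ‖u‖ₑ ^ (-q)) (Complex.polarCoord.symm p)
      ≤ ∫⁻ p : ℝ × ℝ, ((Ioc (0 : ℝ) R).indicator (fun r => ENNReal.ofReal (r ^ (1 - q))) p.1) *
        ((Ioo (-Real.pi) Real.pi).indicator (fun _ => (1 : ℝ≥0∞)) p.2) := by
    refine (setLIntegral_mono' ?_ h1).trans (setLIntegral_le_lintegral _ _)
    exact polarCoord.open_target.measurableSet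
  refine lt_of_le_of_lt h2 ?_
  have hm1 : Measurable ((Ioc (0 : ℝ) R).indicator (fun r : ℝ => ENNReal.ofReal (r ^ (1 - q)))) :=
    (by fun_prop : Measurable fun r : ℝ => ENNReal.ofReal (r ^ (1 - q))).indicator measurableSet_Ioc
  have hm2 : Measurable ((Ioo (-Real.pi) Real.pi).indicator (fun _ : ℝ => (1 : ℝ≥0∞))) :=
    measurable_const.indicator measurableSet_Ioo
  have h3 := lintegral_prod_mul (μ := (volume : Measure ℝ)) (ν := (volume : Measure ℝ))
    hm1.aemeasurable hm2.aemeasurable
  have h4 : (volume : Measure (ℝ × ℝ)) = (volume : Measure ℝ).prod volume := rfl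
  rw [h4, h3, lintegral_indicator measurableSet_Ioc, lintegral_indicator measurableSet_Ioo]
  refine ENNReal.mul_lt_top ?_ ?_
  · by_cases hR : 0 ≤ R
    · have h5 : IntervalIntegrable (fun r : ℝ => r ^ (1 - q)) volume 0 R :=
        intervalIntegral.intervalIntegrable_rpow' (by linarith)
      rw [intervalIntegrable_iff_integrableOn_Ioc_of_le hR] at h5
      exact h5.lintegral_lt_top
    · rw [Ioc_eq_empty (by intro h; exact hR h.le)]
      simp
  · simp

/-- the normalised distance to `α` -/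
def bb (α t : ℂ) : ℝ≥0∞ := ‖t - α‖ₑ / (1 + ‖α‖ₑ)

lemma measurable_bb (α : ℂ) : Measurable (bb α) := by
  unfold bb; fun_prop

theorem lint_bb (q : ℝ) (hq0 : 0 ≤ q) (hq : q < 2) (R : ℝ) : ∃ C : ℝ≥0∞, C < ∞ ∧ ∀ α : ℂ,
    ∫⁻ t in Metric.closedBall (0 : ℂ) R, bb α t ^ (-q) ≤ C := by
  wlog hR : 1 ≤ R generalizing R
  · obtain ⟨C, hC, h⟩ := this 1 le_rfl
    refine ⟨C, hC, fun α => le_trans (lintegral_mono_set ?_) (h α)⟩
    exact Metric.closedBall_subset_closedBall (le_of_not_ge hR)
  set C1 : ℝ≥0∞ := ENNReal.ofReal ((1 + 2 * R) ^ q) *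
    ∫⁻ u in Metric.closedBall (0 : ℂ) (3 * R), ‖u‖ₑ ^ (-q) with hC1
  set C2 : ℝ≥0∞ := ENNReal.ofReal (4 ^ q) * volume (Metric.closedBall (0 : ℂ) R) with hC2
  refine ⟨C1 + C2, ?_, ?_⟩
  · refine ENNReal.add_lt_top.mpr ⟨?_, ?_⟩
    · exact ENNReal.mul_lt_top ENNReal.ofReal_lt_top (lint_ball q hq _)
    · exact ENNReal.mul_lt_top ENNReal.ofReal_lt_top measure_closedBall_lt_top
  · intro α
    have hbb : ∀ t, bb α t = ENNReal.ofReal (‖t - α‖ / (1 + ‖α‖)) := by
      intro t
      have h0 : (0 : ℝ) < 1 + ‖α‖ := by positivity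
      rw [bb, ENNReal.ofReal_div_of_pos h0, ofReal_norm,
        ENNReal.ofReal_add zero_le_one (norm_nonneg _), ofReal_norm, ENNReal.ofReal_one]
    by_cases hα : ‖α‖ ≤ 2 * R
    · refine le_trans ?_ le_self_add
      have h1 : ∀ t, bb α t ^ (-q) ≤ ENNReal.ofReal ((1 + 2 * R) ^ q) * ‖t - α‖ₑ ^ (-q) := by
        intro t
        have h2 : ‖t - α‖ₑ / (1 + ENNReal.ofReal (2 * R)) ≤ bb α t := by
          unfold bb
          gcongr
          rw [← ofReal_norm]
          exact ENNReal.ofReal_le_ofReal hα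
        have h3 : bb α t ^ (-q) ≤ (‖t - α‖ₑ / (1 + ENNReal.ofReal (2 * R))) ^ (-q) := by
          rw [ENNReal.rpow_neg, ENNReal.rpow_neg]
          exact ENNReal.inv_le_inv.mpr (ENNReal.rpow_le_rpow h2 hq0)
        refine h3.trans (le_of_eq ?_)
        have h4 : (1 : ℝ≥0∞) + ENNReal.ofReal (2 * R) = ENNReal.ofReal (1 + 2 * R) := by
          rw [ENNReal.ofReal_add zero_le_one (by linarith), ENNReal.ofReal_one]
        have h5 : (0 : ℝ) < 1 + 2 * R := by linarith
        rw [h4, div_eq_mul_inv, ENNReal.rpow_neg, ENNReal.mul_rpow_of_nonneg _ _ hq0,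
          ENNReal.inv_rpow, ENNReal.mul_inv, inv_inv, ENNReal.ofReal_rpow_of_pos h5,
          ENNReal.rpow_neg, mul_comm]
        · right
          simp only [ne_eq, ENNReal.inv_eq_top]
          exact (ENNReal.rpow_pos (ENNReal.ofReal_pos.mpr h5) ENNReal.ofReal_ne_top).ne'
        · right
          simp only [ne_eq, ENNReal.inv_eq_zero]
          exact ENNReal.rpow_ne_top_of_nonneg hq0 ENNReal.ofReal_ne_top
      calc ∫⁻ t in Metric.closedBall (0 : ℂ) R, bb α t ^ (-q)
          ≤ ∫⁻ t in Metric.closedBall (0 : ℂ) R,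
              ENNReal.ofReal ((1 + 2 * R) ^ q) * ‖t - α‖ₑ ^ (-q) := lintegral_mono fun t => h1 t
        _ = ENNReal.ofReal ((1 + 2 * R) ^ q) *
              ∫⁻ t in Metric.closedBall (0 : ℂ) R, ‖t - α‖ₑ ^ (-q) := by
            rw [lintegral_const_mul]; fun_prop
        _ ≤ C1 := by
            rw [hC1]
            refine mul_le_mul_right ?_ _
            have h6 : ∫⁻ u in Metric.closedBall (0 : ℂ) (3 * R), ‖u‖ₑ ^ (-q) =
                ∫⁻ t : ℂ, (Metric.closedBall (0 : ℂ) (3 * R)).indicator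
                  (fun u => ‖u‖ₑ ^ (-q)) (t - α) := by
              rw [lintegral_sub_right_eq_self
                ((Metric.closedBall (0 : ℂ) (3 * R)).indicator (fun u => ‖u‖ₑ ^ (-q))) α,
                lintegral_indicator Metric.isClosed_closedBall.measurableSet]
            rw [h6, ← lintegral_indicator Metric.isClosed_closedBall.measurableSet]
            apply lintegral_mono
            intro t
            by_cases ht : t ∈ Metric.closedBall (0 : ℂ) R
            · rw [Set.indicator_of_mem ht]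
              show _ ≤ (Metric.closedBall (0 : ℂ) (3 * R)).indicator _ _
              rw [Set.indicator_of_mem]
              rw [mem_closedBall_zero_iff] at ht ⊢
              calc ‖t - α‖ ≤ ‖t‖ + ‖α‖ := norm_sub_le _ _
                _ ≤ 3 * R := by linarith
            · rw [Set.indicator_of_notMem ht]; simp
    · refine le_trans ?_ le_add_self
      push Not at hα
      have h1 : ∀ t ∈ Metric.closedBall (0 : ℂ) R, bb α t ^ (-q) ≤ ENNReal.ofReal (4 ^ q) := by
        intro t ht
        rw [mem_closedBall_zero_iff] at ht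
        have h2 : (1 : ℝ) / 4 ≤ ‖t - α‖ / (1 + ‖α‖) := by
          rw [div_le_div_iff₀ (by norm_num) (by positivity)]
          have h3 : ‖α‖ - ‖t‖ ≤ ‖t - α‖ := by
            have := norm_sub_norm_le α t
            rwa [norm_sub_rev] at this
          nlinarith
        have h3 : ENNReal.ofReal (1 / 4) ≤ bb α t := by
          rw [hbb]; exact ENNReal.ofReal_le_ofReal h2
        have h4 : bb α t ^ (-q) ≤ ENNReal.ofReal (1 / 4) ^ (-q) := by
          rw [ENNReal.rpow_neg, ENNReal.rpow_neg]
          exact ENNReal.inv_le_inv.mpr (ENNReal.rpow_le_rpow h3 hq0)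
        refine h4.trans (le_of_eq ?_)
        rw [ENNReal.ofReal_rpow_of_pos (by norm_num)]
        congr 1
        rw [one_div, Real.inv_rpow (by norm_num), Real.rpow_neg (by norm_num), inv_inv]
      calc ∫⁻ t in Metric.closedBall (0 : ℂ) R, bb α t ^ (-q)
          ≤ ∫⁻ _ in Metric.closedBall (0 : ℂ) R, ENNReal.ofReal (4 ^ q) :=
            setLIntegral_mono' Metric.isClosed_closedBall.measurableSet h1
        _ = C2 := by rw [setLIntegral_const, hC2]

lemma prod_rpow_neg (s : Multiset ℂ) (f : ℂ → ℝ≥0∞) (hf : ∀ a, f a ≠ ∞) (p : ℝ) (hp : 0 ≤ p) :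
    (s.map f).prod ≠ ∞ ∧ (s.map f).prod ^ (-p) = (s.map fun a => f a ^ (-p)).prod := by
  induction s using Multiset.induction_on with
  | empty => simp
  | cons a s ih =>
    rw [Multiset.map_cons, Multiset.prod_cons, Multiset.map_cons, Multiset.prod_cons, ← ih.2]
    refine ⟨ENNReal.mul_ne_top (hf a) ih.1, ?_⟩
    rw [ENNReal.rpow_neg, ENNReal.mul_rpow_of_nonneg _ _ hp, ENNReal.mul_inv, ENNReal.rpow_neg,
      ENNReal.rpow_neg]
    · exact Or.inr (ENNReal.rpow_ne_top_of_nonneg hp ih.1)
    · exact Or.inl (ENNReal.rpow_ne_top_of_nonneg hp (hf a))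

lemma coeff_le (s : Multiset ℂ) (k : ℕ) :
    ‖(s.map fun a => (Polynomial.X - Polynomial.C a)).prod.coeff k‖ₑ ≤
      (s.map fun a => 1 + ‖a‖ₑ).prod := by
  induction s using Multiset.induction_on generalizing k with
  | empty =>
    simp only [Multiset.map_zero, Multiset.prod_zero, Polynomial.coeff_one]
    split_ifs <;> simp
  | cons a s ih =>
    rw [Multiset.map_cons, Multiset.prod_cons, Multiset.map_cons, Multiset.prod_cons, sub_mul,
      Polynomial.coeff_sub, Polynomial.coeff_C_mul, add_mul, one_mul]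
    refine (enorm_sub_le).trans (add_le_add ?_ ?_)
    · cases k with
      | zero => simp
      | succ k => rw [Polynomial.coeff_X_mul]; exact ih k
    · rw [enorm_mul]
      exact mul_le_mul_right (ih k) _

lemma lint_sum_le (s : Multiset ℂ) (q : ℝ) (R : ℝ) (C : ℝ≥0∞)
    (hC : ∀ α : ℂ, ∫⁻ t in Metric.closedBall (0 : ℂ) R, bb α t ^ (-q) ≤ C) :
    (Measurable fun t => (s.map fun a => bb a t ^ (-q)).sum) ∧
    ∫⁻ t in Metric.closedBall (0 : ℂ) R, (s.map fun a => bb a t ^ (-q)).sum ≤
      Multiset.card s * C := by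
  induction s using Multiset.induction_on with
  | empty => simp
  | cons a s ih =>
    simp only [Multiset.map_cons, Multiset.sum_cons, Multiset.card_cons]
    have h1 : Measurable fun t => bb a t ^ (-q) := (measurable_bb a).pow_const _
    refine ⟨h1.add ih.1, ?_⟩
    rw [lintegral_add_left h1]
    push_cast
    rw [add_mul, one_mul, add_comm]
    exact add_le_add ih.2 (hC a)

lemma enorm_prod (s : Multiset ℂ) (f : ℂ → ℂ) :
    ‖(s.map f).prod‖ₑ = (s.map fun a => ‖f a‖ₑ).prod := by
  induction s using Multiset.induction_on with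
  | empty => simp
  | cons a s ih =>
    rw [Multiset.map_cons, Multiset.prod_cons, Multiset.map_cons, Multiset.prod_cons, enorm_mul, ih]

/-- one variable -/
theorem sko1 (d : ℕ) (p : ℝ) (hp : 0 ≤ p) (hpd : p * d < 2) (R : ℝ) : ∃ C : ℝ≥0∞, C < ∞ ∧
    ∀ P : Polynomial ℂ, P.natDegree ≤ d → ∀ k,
      ∫⁻ t in Metric.closedBall (0 : ℂ) R, ‖P.eval t‖ₑ ^ (-p) ≤ C * ‖P.coeff k‖ₑ ^ (-p) := by
  obtain ⟨C0, hC0, h0⟩ := lint_bb (p * d) (by positivity) hpd R
  set v : ℝ≥0∞ := volume (Metric.closedBall (0 : ℂ) R) with hv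
  refine ⟨v + d * C0, ?_, ?_⟩
  · refine ENNReal.add_lt_top.mpr ⟨measure_closedBall_lt_top, ?_⟩
    exact ENNReal.mul_lt_top (ENNReal.natCast_lt_top _) hC0
  · intro P hP k
    by_cases hP0 : P = 0
    · subst hP0
      simp only [Polynomial.eval_zero, Polynomial.coeff_zero, setLIntegral_const]
      rw [mul_comm, ← hv]
      exact mul_le_mul_left le_self_add _
    · have hs := (IsAlgClosed.splits P).eq_prod_roots
      have hcard : Multiset.card P.roots ≤ d := (P.card_roots').trans hP
      set s := P.roots with hsdef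
      set c := P.leadingCoeff with hc
      have hc0 : c ≠ 0 := Polynomial.leadingCoeff_ne_zero.mpr hP0
      set A : ℝ≥0∞ := ‖c‖ₑ * (s.map fun a => 1 + ‖a‖ₑ).prod with hA
      have hA1 : (s.map fun a => 1 + ‖a‖ₑ).prod ≠ ∞ :=
        (prod_rpow_neg s (fun a => 1 + ‖a‖ₑ) (by intro a; simp) 0 le_rfl).1
      have hcoef : ‖P.coeff k‖ₑ ≤ A := by
        rw [hs, Polynomial.coeff_C_mul, enorm_mul, hA]
        exact mul_le_mul_right (coeff_le s k) _
      have hprod : ∀ t : ℂ, (s.map fun a => ‖t - a‖ₑ).prod =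
          (s.map fun a => 1 + ‖a‖ₑ).prod * (s.map fun a => bb a t).prod := by
        intro t
        rw [← Multiset.prod_map_mul]
        congr 1
        apply Multiset.map_congr rfl
        intro a _
        rw [bb, ENNReal.mul_div_cancel]
        · simp
        · simp
      have heval : ∀ t : ℂ, ‖P.eval t‖ₑ = A * (s.map fun a => bb a t).prod := by
        intro t
        have h1 : P.eval t = c * (s.map fun a => t - a).prod := by
          conv_lhs => rw [hs]
          rw [Polynomial.eval_mul, Polynomial.eval_C, Polynomial.eval_multiset_prod,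
            Multiset.map_map]
          simp
        rw [h1, enorm_mul, enorm_prod s (fun a => t - a), hprod, hA, mul_assoc]
      have hAtop : A ≠ ∞ := ENNReal.mul_ne_top enorm_ne_top hA1
      have hAk : A ^ (-p) ≤ ‖P.coeff k‖ₑ ^ (-p) := by
        rw [ENNReal.rpow_neg, ENNReal.rpow_neg]
        exact ENNReal.inv_le_inv.mpr (ENNReal.rpow_le_rpow hcoef hp)
      have hpt : ∀ t : ℂ, ‖P.eval t‖ₑ ^ (-p) ≤
          A ^ (-p) * (1 + (s.map fun a => bb a t ^ (-(p * d))).sum) := by
        intro t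
        have hbt : ∀ a, bb a t ≠ ∞ := by
          intro a
          unfold bb
          exact ENNReal.div_ne_top enorm_ne_top (by simp)
        have h1 := prod_rpow_neg s (fun a => bb a t) hbt p hp
        have h2 : ‖P.eval t‖ₑ ^ (-p) = A ^ (-p) * (s.map fun a => bb a t ^ (-p)).prod := by
          rw [heval, ← h1.2, ENNReal.rpow_neg, ENNReal.mul_rpow_of_nonneg _ _ hp, ENNReal.mul_inv,
            ← ENNReal.rpow_neg, ← ENNReal.rpow_neg]
          · exact Or.inr (ENNReal.rpow_ne_top_of_nonneg hp h1.1)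
          · exact Or.inl (ENNReal.rpow_ne_top_of_nonneg hp hAtop)
        rw [h2]
        refine mul_le_mul_right ?_ _
        refine (prod_le_one_add_sum _ d (by rwa [Multiset.card_map])).trans (le_of_eq ?_)
        rw [Multiset.map_map]
        congr 2
        apply Multiset.map_congr rfl
        intro a _
        simp only [Function.comp_apply]
        rw [← ENNReal.rpow_natCast, ← ENNReal.rpow_mul, neg_mul]
      have h3 := lint_sum_le s (p * d) R C0 h0
      calc ∫⁻ t in Metric.closedBall (0 : ℂ) R, ‖P.eval t‖ₑ ^ (-p)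
          ≤ ∫⁻ t in Metric.closedBall (0 : ℂ) R,
              A ^ (-p) * (1 + (s.map fun a => bb a t ^ (-(p * d))).sum) :=
            lintegral_mono fun t => hpt t
        _ = A ^ (-p) * (v + ∫⁻ t in Metric.closedBall (0 : ℂ) R,
              (s.map fun a => bb a t ^ (-(p * d))).sum) := by
            have hm : Measurable fun t : ℂ =>
                (1 : ℝ≥0∞) + (s.map fun a => bb a t ^ (-(p * d))).sum := measurable_const.add h3.1
            rw [lintegral_const_mul _ hm, lintegral_add_left measurable_const, setLIntegral_const,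
              one_mul]
        _ ≤ A ^ (-p) * (v + d * C0) := by
            gcongr
            exact h3.2.trans (by gcongr)
        _ ≤ (v + d * C0) * ‖P.coeff k‖ₑ ^ (-p) := by
            rw [mul_comm]
            exact mul_le_mul_right hAk _

/-! ### several variables -/

lemma measurable_eval {n : ℕ} (P : MvPolynomial (Fin n) ℂ) :
    Measurable fun y : Fin n → ℂ => MvPolynomial.eval y P :=
  (MvPolynomial.continuous_eval P).measurable

/-- the uniform Skoda estimate for polynomials -/
theorem sko (n d : ℕ) (p R : ℝ) (hp : 0 ≤ p) (hpd : p * d < 2) : ∃ C : ℝ≥0∞, C < ∞ ∧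
    ∀ P : MvPolynomial (Fin n) ℂ, (∀ i, P.degreeOf i ≤ d) → ∀ m,
      ∫⁻ y in Metric.closedBall (0 : Fin n → ℂ) R, ‖MvPolynomial.eval y P‖ₑ ^ (-p) ≤
        C * ‖MvPolynomial.coeff m P‖ₑ ^ (-p) := by
  wlog hR : 0 ≤ R generalizing R
  · obtain ⟨C, hC, h⟩ := this 0 le_rfl
    refine ⟨C, hC, fun P hP m => le_trans (lintegral_mono_set ?_) (h P hP m)⟩
    exact Metric.closedBall_subset_closedBall (le_of_not_ge hR)
  induction n with
  | zero =>
    refine ⟨volume (Metric.closedBall (0 : Fin 0 → ℂ) R), measure_closedBall_lt_top, ?_⟩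
    intro P _ m
    have h1 : ∀ y : Fin 0 → ℂ, MvPolynomial.eval y P = MvPolynomial.coeff m P := by
      intro y
      rw [MvPolynomial.eq_C_of_isEmpty P, MvPolynomial.eval_C, Subsingleton.elim m 0]
      simp
    simp only [h1, setLIntegral_const]
    rw [mul_comm]
  | succ n ih =>
    obtain ⟨Cn, hCn, hn⟩ := ih
    obtain ⟨C1, hC1, h1⟩ := sko1 d p hp hpd R
    refine ⟨C1 * Cn, ENNReal.mul_lt_top hC1 hCn, ?_⟩
    intro P hP m
    set G : (Fin (n + 1) → ℂ) → ℝ≥0∞ := (Metric.closedBall (0 : Fin (n + 1) → ℂ) R).indicator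
      (fun y => ‖MvPolynomial.eval y P‖ₑ ^ (-p)) with hG
    have hGm : Measurable G :=
      ((measurable_eval P).enorm.pow_const _).indicator Metric.isClosed_closedBall.measurableSet
    have hmp := (volume_preserving_piFinSuccAbove (fun _ : Fin (n + 1) => ℂ) 0).symm
    have h2 : ∫⁻ y in Metric.closedBall (0 : Fin (n + 1) → ℂ) R,
        ‖MvPolynomial.eval y P‖ₑ ^ (-p) =
        ∫⁻ y' : Fin n → ℂ, ∫⁻ t : ℂ, G (Fin.cons t y') := by
      rw [← lintegral_indicator Metric.isClosed_closedBall.measurableSet, ← hG,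
        ← hmp.lintegral_comp hGm]
      have h3 : (volume : Measure (ℂ × (Fin n → ℂ))) = (volume : Measure ℂ).prod volume := rfl
      rw [h3, lintegral_prod_symm]
      · refine lintegral_congr fun y' => lintegral_congr fun t => ?_
        congr 1
        exact Fin.insertNth_zero' t y'
      · exact (hGm.comp hmp.measurable).aemeasurable
    rw [h2]
    set f := MvPolynomial.finSuccEquiv ℂ n P with hf
    -- the monomial `m` is `cons (m 0) (tail m)`
    have hm : MvPolynomial.coeff m P = MvPolynomial.coeff m.tail (f.coeff (m 0)) := by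
      rw [hf, MvPolynomial.finSuccEquiv_coeff_coeff, Finsupp.cons_tail]
    have hdeg : ∀ i, (f.coeff (m 0)).degreeOf i ≤ d := fun i =>
      (MvPolynomial.degreeOf_coeff_finSuccEquiv P i (m 0)).trans (hP _)
    have hnat : f.natDegree ≤ d := by
      rw [hf, MvPolynomial.natDegree_finSuccEquiv]; exact hP 0
    have h4 : ∀ y' : Fin n → ℂ, ∫⁻ t : ℂ, G (Fin.cons t y') ≤
        (Metric.closedBall (0 : Fin n → ℂ) R).indicator
          (fun y' => C1 * ‖MvPolynomial.eval y' (f.coeff (m 0))‖ₑ ^ (-p)) y' := by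
      intro y'
      by_cases hy : y' ∈ Metric.closedBall (0 : Fin n → ℂ) R
      · rw [Set.indicator_of_mem hy]
        have h5 := h1 (f.map (MvPolynomial.eval y')) (Polynomial.natDegree_map_le.trans hnat) (m 0)
        rw [Polynomial.coeff_map] at h5
        refine le_trans ?_ h5
        rw [← lintegral_indicator Metric.isClosed_closedBall.measurableSet]
        apply lintegral_mono
        intro t
        by_cases ht : t ∈ Metric.closedBall (0 : ℂ) R
        · rw [Set.indicator_of_mem ht, hG]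
          refine (Set.indicator_le_self _ _ _).trans (le_of_eq ?_)
          simp only
          rw [MvPolynomial.eval_eq_eval_mv_eval']
        · rw [Set.indicator_of_notMem ht]
          show G (Fin.cons t y') ≤ 0
          rw [hG, Set.indicator_of_notMem]
          intro h
          apply ht
          rw [mem_closedBall_zero_iff] at h ⊢
          have := (pi_norm_le_iff_of_nonneg hR).mp h 0
          simpa using this
      · rw [Set.indicator_of_notMem hy]
        have h5 : ∀ t : ℂ, G (Fin.cons t y') = 0 := by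
          intro t
          rw [hG, Set.indicator_of_notMem]
          intro h
          apply hy
          rw [mem_closedBall_zero_iff] at h ⊢
          rw [pi_norm_le_iff_of_nonneg hR] at h ⊢
          intro i
          simpa using h i.succ
        simp [h5]
    refine (lintegral_mono h4).trans ?_
    rw [lintegral_indicator Metric.isClosed_closedBall.measurableSet, lintegral_const_mul, hm,
      mul_assoc]
    · exact mul_le_mul_right (hn _ hdeg _) _
    · exact (measurable_eval _).enorm.pow_const _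


end Crest.Agent.R276.SkoA_567
end
end

-- ▼ part R276/SkoB_567
section

/-!
# SKO (row 276), part B: negative powers of algebraic functions (helper567)

`sko_alg`: if `y : X → ℂⁿ` satisfies an area inequality on `E` (weight `w = |jacobian|²`, multiplicity `D`, image
in the polydisc of radius `R`) and `|P(y)| ≤ A |b|` on `E` for a polynomial `P` of degree `≤ d` in each variable,
then `∫_E w |b|^{-p} ≤ D C A^p |coeff m P|^{-p}`, `C = C(n,d,p,R)`.
`lower_bound`: `|P₀(y)| ≤ A |b|` follows from an algebraic equation `∑ P_k(y) b^k = 0`.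
-/

set_option autoImplicit false

noncomputable section

open Set Filter Topology MeasureTheory ENNReal

namespace Crest.Agent.R276.SkoB_567

open SkoA_567

/-- if `∑_{k ≤ q} a_k b^k = 0` then `|a_0| ≤ A |b|`, `A = ∑_{k < q} |a_{k+1}| |b|^k` -/
theorem lower_bound (q : ℕ) (a : ℕ → ℂ) (b : ℂ) (h : ∑ k ∈ Finset.range (q + 1), a k * b ^ k = 0)
    (A : ℝ) (hA : ∑ k ∈ Finset.range q, ‖a (k + 1)‖ * ‖b‖ ^ k ≤ A) : ‖a 0‖ ≤ A * ‖b‖ := by
  rw [Finset.sum_range_succ'] at h
  have h1 : a 0 = -(∑ k ∈ Finset.range q, a (k + 1) * b ^ k) * b := by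
    have h2 : a 0 = -∑ k ∈ Finset.range q, a (k + 1) * b ^ (k + 1) := by
      rw [pow_zero, mul_one] at h
      exact eq_neg_of_add_eq_zero_right h
    rw [h2, neg_mul, Finset.sum_mul]
    congr 1
    exact Finset.sum_congr rfl fun k _ => by ring
  rw [h1, norm_mul, norm_neg]
  refine mul_le_mul_of_nonneg_right (le_trans ?_ hA) (norm_nonneg _)
  refine (norm_sum_le _ _).trans (Finset.sum_le_sum fun k _ => ?_)
  rw [norm_mul, norm_pow]



end Crest.Agent.R276.SkoB_567
end
end

-- ▼ part R276/SkoD_317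
section

/-!
# SKO-UNI (row 276), part D: numeric forms, uniform in `A ∈ ℂˢ` (helper317)

`null_bound` (**NULL**): points `χ` over a fixed point `e` of the base; polynomial bounds in `ρ` (base) and `R`.
`int_null` (**INT**): `∫_{‖η_l‖ ≤ R} (C₀ (ρR)^n)^p ‖P η‖^{-p} ≤ C₁ (ρR)^{n₁} ‖A‖^{-p}`.
-/

set_option autoImplicit false

noncomputable section

open MvPolynomial MeasureTheory ENNReal

namespace Crest.Agent.R276.SkoD_317

open SkoC_317

section Ev

variable {R S : Type*} [CommRing R] [CommRing S]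

/-- specialisation of the coefficients (`e`) and of `A` -/
def ev (e : R →+* ℂ) {r s : ℕ} (A : Fin s → ℂ) :
    MvPolynomial (Fin r) (MvPolynomial (Fin s) R) →+* MvPolynomial (Fin r) ℂ :=
  MvPolynomial.map (eval₂Hom e A)

theorem coeff_ev (e : R →+* ℂ) {r s : ℕ} (A : Fin s → ℂ)
    (P : MvPolynomial (Fin r) (MvPolynomial (Fin s) R)) (β : Fin r →₀ ℕ) :
    coeff β (ev e A P) = eval₂ e A (coeff β P) := by
  rw [ev, coeff_map]
  rfl

/-- evaluation at a point `χ` over `e` -/
theorem eval_Th (j : R →+* S) (χ : S →+* ℂ) {r s : ℕ} (y : Fin r → S) (A : Fin s → ℂ)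
    (P : MvPolynomial (Fin r) (MvPolynomial (Fin s) R)) :
    eval₂ χ A (Th j y P) = MvPolynomial.eval (fun i => χ (y i)) (ev (χ.comp j) A P) := by
  have h : (eval₂Hom χ A).comp (Th j y) =
      (MvPolynomial.eval fun i => χ (y i)).comp (ev (χ.comp j) A) := by
    apply MvPolynomial.ringHom_ext
    · intro c
      rw [RingHom.comp_apply, RingHom.comp_apply, Th_C, ev, map_C, eval_C, coe_eval₂Hom, eval₂_map]
      rfl
    · intro i
      rw [RingHom.comp_apply, RingHom.comp_apply, Th, eval₂Hom_X', ev, map_X, eval_X,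
        coe_eval₂Hom, eval₂_C]
  exact RingHom.congr_fun h P

theorem map_Th {L K BL BK : Type*} [CommRing L] [CommRing K] [CommRing BL] [CommRing BK]
    (f : L →+* K) (iL : BL →+* L) (iK : BK →+* K) (j : BL →+* BK)
    (hj : ∀ b, iK (j b) = f (iL b)) {r s : ℕ} (y : Fin r → BK)
    (P : MvPolynomial (Fin r) (MvPolynomial (Fin s) BL)) :
    MvPolynomial.map iK (Th j y P) =
      Th f (fun i => iK (y i)) (MvPolynomial.map (MvPolynomial.map iL) P) := by
  have hj' : iK.comp j = f.comp iL := RingHom.ext hj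
  have h : (MvPolynomial.map iK).comp (Th (s := s) j y) =
      (Th f (fun i => iK (y i))).comp (MvPolynomial.map (MvPolynomial.map iL)) := by
    apply MvPolynomial.ringHom_ext
    · intro c
      rw [RingHom.comp_apply, RingHom.comp_apply, Th_C, map_C, Th_C, MvPolynomial.map_map,
        MvPolynomial.map_map, hj']
    · intro i
      rw [RingHom.comp_apply, RingHom.comp_apply, map_X, Th, eval₂Hom_X', map_C, Th,
        eval₂Hom_X']
  exact RingHom.congr_fun h P

theorem norm_eval₂_le (e : R →+* ℂ) {s : ℕ} (A : Fin s → ℂ) (hA : ∀ i, ‖A i‖ ≤ 1)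
    (p : MvPolynomial (Fin s) R) (ρ : ℝ) (hp : ∀ m, ‖e (coeff m p)‖ ≤ ρ) :
    ‖eval₂ e A p‖ ≤ p.support.card * ρ := by
  rw [eval₂_eq']
  refine (norm_sum_le _ _).trans ?_
  rw [← nsmul_eq_mul]
  refine Finset.sum_le_card_nsmul _ _ _ fun m _ => ?_
  rw [norm_mul]
  have h1 : ‖∏ i, A i ^ m i‖ ≤ 1 := by
    rw [norm_prod]
    refine Finset.prod_le_one (fun i _ => norm_nonneg _) fun i _ => ?_
    rw [norm_pow]
    exact pow_le_one₀ (norm_nonneg _) (hA i)
  calc ‖e (coeff m p)‖ * ‖∏ i, A i ^ m i‖ ≤ ‖e (coeff m p)‖ * 1 :=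
        mul_le_mul_of_nonneg_left h1 (norm_nonneg _)
    _ ≤ ρ := by rw [mul_one]; exact hp m

/-- number of monomials -/
def cc {r s : ℕ} (P : MvPolynomial (Fin r) (MvPolynomial (Fin s) R)) : ℕ :=
  ∑ β ∈ P.support, (coeff β P).support.card

theorem norm_ev_le (e : R →+* ℂ) {r s : ℕ} (A : Fin s → ℂ) (hA : ∀ i, ‖A i‖ ≤ 1)
    (P : MvPolynomial (Fin r) (MvPolynomial (Fin s) R)) (ρ : ℝ)
    (hP : ∀ β m, ‖e (coeff m (coeff β P))‖ ≤ ρ) (v : Fin r → ℂ) (T : ℝ) (hT : 1 ≤ T)
    (hv : ∀ i, ‖v i‖ ≤ T) (D : ℕ) (hD : P.totalDegree ≤ D) :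
    ‖MvPolynomial.eval v (ev e A P)‖ ≤ cc P * ρ * T ^ D := by
  have hρ : 0 ≤ ρ := (norm_nonneg _).trans (hP 0 0)
  rw [ev, eval_map, eval₂_eq']
  refine (norm_sum_le _ _).trans ?_
  rw [cc, Nat.cast_sum, Finset.sum_mul, Finset.sum_mul]
  refine Finset.sum_le_sum fun β hβ => ?_
  rw [norm_mul]
  refine mul_le_mul (norm_eval₂_le e A hA _ ρ (hP β)) ?_ (norm_nonneg _) (by positivity)
  rw [norm_prod]
  have h1 : ∏ i, ‖v i ^ β i‖ ≤ ∏ i, T ^ β i := by
    refine Finset.prod_le_prod (fun i _ => norm_nonneg _) fun i _ => ?_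
    rw [norm_pow]
    exact pow_le_pow_left₀ (norm_nonneg _) (hv i) _
  refine h1.trans ?_
  rw [Finset.prod_pow_eq_pow_sum]
  refine pow_le_pow_right₀ hT (le_trans ?_ hD)
  have := le_totalDegree hβ
  rwa [Finsupp.sum_fintype _ _ (fun _ => rfl)] at this

theorem cc_map {L BL : Type*} [CommRing L] [CommRing BL] (iL : BL →+* L)
    (hiL : Function.Injective iL) {r s : ℕ} (P : MvPolynomial (Fin r) (MvPolynomial (Fin s) BL)) :
    cc (MvPolynomial.map (MvPolynomial.map iL) P) = cc P := by
  rw [cc, cc, support_map_of_injective _ (map_injective iL hiL)]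
  refine Finset.sum_congr rfl fun β _ => ?_
  rw [coeff_map, support_map_of_injective _ hiL]

/-- lifting polynomials along `iL` -/
theorem exists_lift {L BL : Type*} [CommRing L] [CommRing BL] (iL : BL →+* L) {s : ℕ}
    (P : MvPolynomial (Fin s) L) (h : ∀ m, coeff m P ∈ Set.range iL) :
    ∃ P' : MvPolynomial (Fin s) BL, MvPolynomial.map iL P' = P := by
  have h1 : P ∈ Set.range (MvPolynomial.map (σ := Fin s) iL) := by
    rw [mem_range_map_iff_coeffs_subset]
    intro c hc
    obtain ⟨m, _, rfl⟩ := mem_coeffs_iff.mp hc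
    exact h m
  exact h1

theorem exists_lift2 {L BL : Type*} [CommRing L] [CommRing BL] (iL : BL →+* L) {r s : ℕ}
    (P : MvPolynomial (Fin r) (MvPolynomial (Fin s) L))
    (h : ∀ β m, coeff m (coeff β P) ∈ Set.range iL) :
    ∃ P' : MvPolynomial (Fin r) (MvPolynomial (Fin s) BL),
      MvPolynomial.map (MvPolynomial.map iL) P' = P :=
  exists_lift (MvPolynomial.map iL) P fun β => exists_lift iL (coeff β P) (h β)

end Ev

/-- all coefficients of the coefficients -/
def cfs {L : Type*} [CommRing L] {r s : ℕ} (P : MvPolynomial (Fin r) (MvPolynomial (Fin s) L)) :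
    Finset L :=
  letI := Classical.decEq L
  insert 0 (P.support.biUnion fun β => (coeff β P).coeffs)

theorem mem_cfs {L : Type*} [CommRing L] {r s : ℕ}
    (P : MvPolynomial (Fin r) (MvPolynomial (Fin s) L)) (β : Fin r →₀ ℕ) (m : Fin s →₀ ℕ) :
    coeff m (coeff β P) ∈ cfs P := by
  classical
  rw [cfs]
  by_cases h : coeff m (coeff β P) = 0
  · rw [h]
    exact Finset.mem_insert_self _ _
  · refine Finset.mem_insert_of_mem (Finset.mem_biUnion.mpr ⟨β, ?_, ?_⟩)
    · rw [mem_support_iff]
      intro h0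
      exact h (by rw [h0, coeff_zero])
    · exact coeff_mem_coeffs m h

/-- **(NULL)**: bounds uniform in `A ∈ ℂˢ`, polynomial in the size of the base point and of the coordinates -/
theorem null_bound {L K : Type*} [Field L] [Field K] [Algebra L K] [CharZero K]
    (hac : ∀ x : K, IsAlgebraic L x → x ∈ Set.range (algebraMap L K))
    {r s : ℕ} (y : Fin r → K) (w : Fin s → K)
    (hal : ∀ i, IsAlgebraic (IntermediateField.adjoin L (Set.range y)) (w i))
    (hw : LinearIndependent L w) :
    ∃ (d n : ℕ) (C0 : ℝ) (T : Finset L), 1 ≤ C0 ∧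
      ∀ {BL BK : Type*} [CommRing BL] [CommRing BK] (iL : BL →+* L) (iK : BK →+* K)
        (_ : Function.Injective iL) (_ : Function.Injective iK)
        (_ : ∀ l ∈ T, l ∈ Set.range iL) (j : BL →+* BK)
        (_ : ∀ b, iK (j b) = algebraMap L K (iL b))
        (y' : Fin r → BK) (_ : ∀ i, iK (y' i) = y i) (w' : Fin s → BK) (_ : ∀ i, iK (w' i) = w i)
        (e : BL →+* ℂ) (ρ : ℝ) (_ : 1 ≤ ρ) (_ : ∀ b : BL, iL b ∈ T → ‖e b‖ ≤ ρ)
        (A : Fin s → ℂ) (_ : A ≠ 0), ∃ P : MvPolynomial (Fin r) ℂ,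
          (∀ i, P.degreeOf i ≤ d) ∧ (∃ m, ‖A‖ ≤ C0 * ρ ^ n * ‖P.coeff m‖) ∧
          ∀ (χ : BK →+* ℂ) (_ : ∀ b, χ (j b) = e b) (R : ℝ) (_ : 1 ≤ R)
            (_ : ∀ i, ‖χ (y' i)‖ ≤ R) (_ : ∀ i, ‖χ (w' i)‖ ≤ R),
            ‖MvPolynomial.eval (fun i => χ (y' i)) P‖ ≤
              C0 * (ρ * R) ^ n * ‖∑ i, A i * χ (w' i)‖ := by
  classical
  obtain ⟨q, P, hrel, hnull⟩ := exists_null hac y w hal hw
  choose M Q hQ using hnull
  -- constants
  set D : ℕ := ∑ k ∈ Finset.range (q + 1), (P k).totalDegree with hD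
  set c1 : ℝ := ∑ k ∈ Finset.range (q + 1), (cc (P k) : ℝ) * (s : ℝ) ^ k with hc1
  set c2 : ℝ := ∑ i, ∑ β ∈ (Q i).support, ((Q i β).support.card : ℝ) with hc2
  set T : Finset L := ((Finset.range (q + 1)).biUnion fun k => cfs (P k)) ∪
    (insert 0 (Finset.univ.biUnion fun i => (Q i).support.biUnion fun β => (Q i β).coeffs)) with hT
  have hTP : ∀ k ∈ Finset.range (q + 1), ∀ β m, coeff m (coeff β (P k)) ∈ T := by
    intro k hk β m
    exact Finset.mem_union_left _ (Finset.mem_biUnion.mpr ⟨k, hk, mem_cfs _ _ _⟩)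
  have hTQ : ∀ i β m, coeff m (Q i β) ∈ T := by
    intro i β m
    refine Finset.mem_union_right _ ?_
    by_cases h : coeff m (Q i β) = 0
    · rw [h]
      exact Finset.mem_insert_self _ _
    · refine Finset.mem_insert_of_mem (Finset.mem_biUnion.mpr ⟨i, Finset.mem_univ _,
        Finset.mem_biUnion.mpr ⟨β, ?_, coeff_mem_coeffs m h⟩⟩)
      rw [Finsupp.mem_support_iff]
      intro h0
      exact h (by rw [h0, coeff_zero])
  have hc1' : 0 ≤ c1 := Finset.sum_nonneg fun k _ => by positivity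
  have hc2' : 0 ≤ c2 := Finset.sum_nonneg fun k _ => Finset.sum_nonneg fun _ _ => by positivity
  refine ⟨D, D + q + 1, 1 + c1 + c2, T, by linarith, ?_⟩
  intro BL BK _ _ iL iK hiL hiK hTL j hj y' hy' w' hw' e ρ hρ he A hA
  -- lifts
  have hP'e : ∀ k, ∃ P' : MvPolynomial (Fin r) (MvPolynomial (Fin s) BL),
      k ∈ Finset.range (q + 1) → MvPolynomial.map (MvPolynomial.map iL) P' = P k := by
    intro k
    by_cases hk : k ∈ Finset.range (q + 1)
    · obtain ⟨P', hP'⟩ := exists_lift2 iL (P k) fun β m => hTL _ (hTP k hk β m)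
      exact ⟨P', fun _ => hP'⟩
    · exact ⟨0, fun h => absurd h hk⟩
  choose P' hP' using hP'e
  have hQ'e : ∀ i β, ∃ Q' : MvPolynomial (Fin s) BL, MvPolynomial.map iL Q' = Q i β :=
    fun i β => exists_lift iL (Q i β) fun m => hTL _ (hTQ i β m)
  choose Q' hQ' using hQ'e
  have hdeg : ∀ k ∈ Finset.range (q + 1), (P' k).totalDegree ≤ D := by
    intro k hk
    have h1 : (P' k).totalDegree = (P k).totalDegree := by
      rw [← hP' k hk, totalDegree, totalDegree,
        support_map_of_injective _ (map_injective iL hiL)]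
    rw [h1, hD]
    exact Finset.single_le_sum (f := fun k => (P k).totalDegree) (fun _ _ => Nat.zero_le _) hk
  have hcc : ∀ k ∈ Finset.range (q + 1), cc (P' k) = cc (P k) := by
    intro k hk
    rw [← hP' k hk, cc_map iL hiL]
  have hcoef : ∀ k ∈ Finset.range (q + 1), ∀ β m, ‖e (coeff m (coeff β (P' k)))‖ ≤ ρ := by
    intro k hk β m
    apply he
    have h1 := hTP k hk β m
    rw [← hP' k hk, coeff_map, coeff_map] at h1
    exact h1
  have hcoefQ : ∀ i β m, ‖e (coeff m (Q' i β))‖ ≤ ρ := by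
    intro i β m
    apply he
    have h1 := hTQ i β m
    rw [← hQ' i β, coeff_map] at h1
    exact h1
  have h0q : (0 : ℕ) ∈ Finset.range (q + 1) := Finset.mem_range.mpr (Nat.succ_pos q)
  -- the relation over `BK`
  have hrelB : ∑ k ∈ Finset.range (q + 1), Th j y' (P' k) * (∑ i, X i * C (w' i)) ^ k = 0 := by
    apply map_injective iK hiK
    rw [map_zero, ← hrel, map_sum]
    refine Finset.sum_congr rfl fun k hk => ?_
    rw [map_mul, map_pow, map_sum, map_Th (algebraMap L K) iL iK j hj, hP' k hk]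
    have h1 : (fun i => iK (y' i)) = y := funext hy'
    rw [h1]
    congr 2
    exact Finset.sum_congr rfl fun i _ => by rw [map_mul, map_X, map_C, hw' i]
  -- normalisation
  have hnA : 0 < ‖A‖ := norm_pos_iff.mpr hA
  have hnAc : ((‖A‖ : ℝ) : ℂ) ≠ 0 := Complex.ofReal_ne_zero.mpr hnA.ne'
  set A1 : Fin s → ℂ := fun i => ((‖A‖ : ℝ) : ℂ)⁻¹ * A i with hA1
  have hA1le : ∀ i, ‖A1 i‖ ≤ 1 := by
    intro i
    rw [hA1]
    simp only [norm_mul, norm_inv, Complex.norm_real, norm_norm]
    rw [inv_mul_le_iff₀ hnA, mul_one]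
    exact norm_le_pi_norm A i
  obtain ⟨i0, hi0⟩ : ∃ i, ‖A1 i‖ = 1 := by
    by_contra hcon
    push Not at hcon
    have h1 : ∀ i, ‖A i‖ < ‖A‖ := by
      intro i
      have h2 : ‖A1 i‖ < 1 := lt_of_le_of_ne (hA1le i) (hcon i)
      rw [hA1] at h2
      simp only [norm_mul, norm_inv, Complex.norm_real, norm_norm] at h2
      rwa [inv_mul_lt_iff₀ hnA, mul_one] at h2
    exact absurd ((pi_norm_lt_iff hnA).mpr h1) (lt_irrefl _)
  have hs : 1 ≤ (s : ℝ) := by
    have : 0 < s := Fin.pos i0
    exact_mod_cast this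
  refine ⟨C ((‖A‖ : ℝ) : ℂ) * ev e A1 (P' 0), ?_, ?_, ?_⟩
  · intro i
    refine (degreeOf_C_mul_le _ _ _).trans ?_
    rw [degreeOf_le_iff]
    intro m hm
    have h1 : m ∈ (P' 0).support := support_map_subset _ _ hm
    have h2 := (le_totalDegree h1).trans (hdeg 0 h0q)
    rw [Finsupp.sum_fintype _ _ (fun _ => rfl)] at h2
    exact (Finset.single_le_sum (f := fun i => m i) (fun _ _ => Nat.zero_le _)
      (Finset.mem_univ i)).trans h2
  · -- lower bound of one coefficient
    have h1 : ∑ β ∈ (Q i0).support, Q' i0 β * coeff β (P' 0) = X i0 ^ M i0 := by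
      apply map_injective iL hiL
      rw [map_pow, map_X, ← hQ i0, Finsupp.sum, map_sum]
      refine Finset.sum_congr rfl fun β _ => ?_
      rw [map_mul, hQ' i0 β, ← hP' 0 h0q, coeff_map]
    have h2 : ∑ β ∈ (Q i0).support, eval₂ e A1 (Q' i0 β) * eval₂ e A1 (coeff β (P' 0)) =
        A1 i0 ^ M i0 := by
      have h3 := congrArg (eval₂Hom e A1) h1
      rw [map_sum, map_pow, eval₂Hom_X'] at h3
      rw [← h3]
      exact Finset.sum_congr rfl fun β _ => by rw [map_mul]; rfl
    have h4 : (1 : ℝ) ≤ ∑ β ∈ (Q i0).support, ((Q i0 β).support.card : ℝ) * ρ *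
        ‖eval₂ e A1 (coeff β (P' 0))‖ := by
      calc (1 : ℝ) = ‖A1 i0 ^ M i0‖ := by rw [norm_pow, hi0, one_pow]
        _ ≤ ∑ β ∈ (Q i0).support, ‖eval₂ e A1 (Q' i0 β) * eval₂ e A1 (coeff β (P' 0))‖ := by
          rw [← h2]
          exact norm_sum_le _ _
        _ ≤ _ := by
          refine Finset.sum_le_sum fun β _ => ?_
          rw [norm_mul]
          refine mul_le_mul_of_nonneg_right ?_ (norm_nonneg _)
          have h5 := norm_eval₂_le e A1 hA1le (Q' i0 β) ρ (hcoefQ i0 β)
          rwa [← support_map_of_injective (Q' i0 β) hiL, hQ' i0 β] at h5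
    have hne : (Q i0).support.Nonempty := by
      by_contra hcon
      rw [Finset.not_nonempty_iff_eq_empty] at hcon
      rw [hcon, Finset.sum_empty] at h4
      linarith
    obtain ⟨β, hβ, hmax⟩ := Finset.exists_max_image (Q i0).support
      (fun β => ‖eval₂ e A1 (coeff β (P' 0))‖) hne
    refine ⟨β, ?_⟩
    rw [coeff_C_mul, coeff_ev, norm_mul, Complex.norm_real, norm_norm]
    have h6 : (1 : ℝ) ≤ c2 * ρ * ‖eval₂ e A1 (coeff β (P' 0))‖ := by
      refine h4.trans ?_
      calc ∑ β ∈ (Q i0).support, ((Q i0 β).support.card : ℝ) * ρ *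
            ‖eval₂ e A1 (coeff β (P' 0))‖
          ≤ ∑ β' ∈ (Q i0).support, ((Q i0 β').support.card : ℝ) * ρ *
            ‖eval₂ e A1 (coeff β (P' 0))‖ :=
            Finset.sum_le_sum fun β' hβ' =>
              mul_le_mul_of_nonneg_left (hmax β' hβ') (by positivity)
        _ = (∑ β' ∈ (Q i0).support, ((Q i0 β').support.card : ℝ)) * ρ *
            ‖eval₂ e A1 (coeff β (P' 0))‖ := by
            rw [Finset.sum_mul, Finset.sum_mul]
        _ ≤ c2 * ρ * ‖eval₂ e A1 (coeff β (P' 0))‖ := by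
            refine mul_le_mul_of_nonneg_right (mul_le_mul_of_nonneg_right ?_ (by linarith))
              (norm_nonneg _)
            exact Finset.single_le_sum
              (f := fun i => ∑ β' ∈ (Q i).support, ((Q i β').support.card : ℝ))
              (fun _ _ => Finset.sum_nonneg fun _ _ => by positivity) (Finset.mem_univ i0)
    have h7 : c2 * ρ ≤ (1 + c1 + c2) * ρ ^ (D + q + 1) := by
      refine mul_le_mul (by linarith) ?_ (by linarith) (by linarith)
      calc ρ = ρ ^ 1 := (pow_one ρ).symm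
        _ ≤ ρ ^ (D + q + 1) := pow_le_pow_right₀ hρ (by omega)
    have h8 : (1 : ℝ) ≤ (1 + c1 + c2) * ρ ^ (D + q + 1) *
        ‖eval₂ e A1 (coeff β (P' 0))‖ :=
      h6.trans (mul_le_mul_of_nonneg_right h7 (norm_nonneg _))
    calc ‖A‖ = ‖A‖ * 1 := (mul_one _).symm
      _ ≤ ‖A‖ * ((1 + c1 + c2) * ρ ^ (D + q + 1) * ‖eval₂ e A1 (coeff β (P' 0))‖) :=
        mul_le_mul_of_nonneg_left h8 hnA.le
      _ = _ := by ring
  · -- the upper bound
    intro χ hχ R hR hyR hwR
    have hχe : χ.comp j = e := RingHom.ext hχ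
    set v : Fin r → ℂ := fun i => χ (y' i) with hv
    set b1 : ℂ := ∑ i, A1 i * χ (w' i) with hb1
    have hrelC : ∑ k ∈ Finset.range (q + 1), MvPolynomial.eval v (ev e A1 (P' k)) * b1 ^ k = 0 := by
      have h1 := congrArg (eval₂Hom χ A1) hrelB
      rw [map_zero, map_sum] at h1
      rw [← h1]
      refine Finset.sum_congr rfl fun k _ => ?_
      rw [map_mul, map_pow, map_sum, coe_eval₂Hom, eval_Th, hχe]
      congr 2
      exact Finset.sum_congr rfl fun i _ => by
        rw [← coe_eval₂Hom, map_mul, eval₂Hom_X', eval₂Hom_C]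
    have hb1le : ‖b1‖ ≤ s * R := by
      refine (norm_sum_le _ _).trans ?_
      calc ∑ i, ‖A1 i * χ (w' i)‖ ≤ ∑ _i : Fin s, R := by
            refine Finset.sum_le_sum fun i _ => ?_
            rw [norm_mul]
            calc ‖A1 i‖ * ‖χ (w' i)‖ ≤ 1 * R :=
                  mul_le_mul (hA1le i) (hwR i) (norm_nonneg _) zero_le_one
              _ = R := one_mul R
        _ = s * R := by simp
    have hbound : ∑ k ∈ Finset.range q, ‖MvPolynomial.eval v (ev e A1 (P' (k + 1)))‖ * ‖b1‖ ^ k ≤
        (1 + c1 + c2) * (ρ * R) ^ (D + q + 1) := by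
      calc ∑ k ∈ Finset.range q, ‖MvPolynomial.eval v (ev e A1 (P' (k + 1)))‖ * ‖b1‖ ^ k
          ≤ ∑ k ∈ Finset.range q, ((cc (P (k + 1)) : ℝ) * (s : ℝ) ^ (k + 1)) *
            (ρ * R) ^ (D + q + 1) := by
            refine Finset.sum_le_sum fun k hk => ?_
            have hk' : k + 1 ∈ Finset.range (q + 1) := by
              rw [Finset.mem_range] at hk ⊢
              omega
            have h1 := norm_ev_le e A1 hA1le (P' (k + 1)) ρ (hcoef _ hk') v R hR hyR D
              (hdeg _ hk')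
            rw [hcc _ hk'] at h1
            have h2 : ‖b1‖ ^ k ≤ (s : ℝ) ^ (k + 1) * R ^ k := by
              calc ‖b1‖ ^ k ≤ (s * R) ^ k := pow_le_pow_left₀ (norm_nonneg _) hb1le _
                _ = (s : ℝ) ^ k * R ^ k := mul_pow _ _ _
                _ ≤ (s : ℝ) ^ (k + 1) * R ^ k :=
                  mul_le_mul_of_nonneg_right (pow_le_pow_right₀ hs (Nat.le_succ k))
                    (by positivity)
            have h3 : ρ * R ^ D * R ^ k ≤ (ρ * R) ^ (D + q + 1) := by
              rw [mul_pow, mul_assoc, ← pow_add]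
              refine mul_le_mul ?_ (pow_le_pow_right₀ hR ?_) (by positivity) (by positivity)
              · calc ρ = ρ ^ 1 := (pow_one ρ).symm
                  _ ≤ ρ ^ (D + q + 1) := pow_le_pow_right₀ hρ (by omega)
              · rw [Finset.mem_range] at hk
                omega
            calc ‖MvPolynomial.eval v (ev e A1 (P' (k + 1)))‖ * ‖b1‖ ^ k
                ≤ ((cc (P (k + 1)) : ℝ) * ρ * R ^ D) * ((s : ℝ) ^ (k + 1) * R ^ k) :=
                  mul_le_mul h1 h2 (by positivity) (by positivity)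
              _ = ((cc (P (k + 1)) : ℝ) * (s : ℝ) ^ (k + 1)) * (ρ * R ^ D * R ^ k) := by ring
              _ ≤ _ := mul_le_mul_of_nonneg_left h3 (by positivity)
        _ = (∑ k ∈ Finset.range q, (cc (P (k + 1)) : ℝ) * (s : ℝ) ^ (k + 1)) *
            (ρ * R) ^ (D + q + 1) := by rw [Finset.sum_mul]
        _ ≤ (1 + c1 + c2) * (ρ * R) ^ (D + q + 1) := by
            refine mul_le_mul_of_nonneg_right ?_ (by positivity)
            have h1 : c1 = (∑ k ∈ Finset.range q, (cc (P (k + 1)) : ℝ) * (s : ℝ) ^ (k + 1)) +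
                (cc (P 0) : ℝ) * (s : ℝ) ^ 0 := by
              rw [hc1, Finset.sum_range_succ']
            have h2 : 0 ≤ (cc (P 0) : ℝ) * (s : ℝ) ^ 0 := by positivity
            linarith
    have hlow := SkoB_567.lower_bound q (fun k => MvPolynomial.eval v (ev e A1 (P' k))) b1 hrelC
      _ hbound
    rw [map_mul, eval_C, norm_mul, Complex.norm_real, norm_norm]
    have hb : ‖∑ i, A i * χ (w' i)‖ = ‖A‖ * ‖b1‖ := by
      have h1 : ∑ i, A i * χ (w' i) = ((‖A‖ : ℝ) : ℂ) * b1 := by
        rw [hb1, Finset.mul_sum]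
        refine Finset.sum_congr rfl fun i _ => ?_
        rw [hA1]
        field_simp
      rw [h1, norm_mul, Complex.norm_real, norm_norm]
    rw [hb]
    calc ‖A‖ * ‖MvPolynomial.eval v (ev e A1 (P' 0))‖
        ≤ ‖A‖ * ((1 + c1 + c2) * (ρ * R) ^ (D + q + 1) * ‖b1‖) :=
          mul_le_mul_of_nonneg_left hlow hnA.le
      _ = _ := by ring

section Int

theorem lintegral_closedBall_scale {r : ℕ} {R : ℝ} (hR : 1 ≤ R) (f : (Fin r → ℂ) → ℝ≥0∞)
    (hf : Measurable f) :
    ∫⁻ η in Metric.closedBall (0 : Fin r → ℂ) R, f η =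
      ENNReal.ofReal (R ^ (2 * r)) * ∫⁻ η in Metric.closedBall (0 : Fin r → ℂ) 1, f (R • η) := by
  have hR0 : 0 < R := lt_of_lt_of_le zero_lt_one hR
  set g : (Fin r → ℂ) → ℝ≥0∞ := (Metric.closedBall (0 : Fin r → ℂ) R).indicator f with hg
  have hgm : Measurable g := hf.indicator Metric.isClosed_closedBall.measurableSet
  have hfr : Module.finrank ℝ (Fin r → ℂ) = 2 * r := by
    rw [Module.finrank_pi_fintype]
    simp [Complex.finrank_real_complex, mul_comm]
  have h1 : ∫⁻ η, g (R • η) = ENNReal.ofReal |(R ^ (2 * r))⁻¹| * ∫⁻ η, g η := by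
    have h2 := Measure.map_addHaar_smul (volume : Measure (Fin r → ℂ)) hR0.ne'
    rw [hfr] at h2
    rw [← lintegral_map hgm (measurable_const_smul R), h2, lintegral_smul_measure, smul_eq_mul]
  have h3 : (fun η : Fin r → ℂ => g (R • η)) =
      (Metric.closedBall (0 : Fin r → ℂ) 1).indicator fun η => f (R • η) := by
    funext η
    rw [hg]
    by_cases h : η ∈ Metric.closedBall (0 : Fin r → ℂ) 1
    · rw [Set.indicator_of_mem h, Set.indicator_of_mem]
      rw [mem_closedBall_zero_iff] at h ⊢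
      rw [norm_smul, Real.norm_of_nonneg hR0.le]
      nlinarith
    · rw [Set.indicator_of_notMem h, Set.indicator_of_notMem]
      rw [mem_closedBall_zero_iff] at h ⊢
      rw [norm_smul, Real.norm_of_nonneg hR0.le]
      intro h'
      apply h
      by_contra hcon
      push Not at hcon
      nlinarith
  rw [h3, lintegral_indicator Metric.isClosed_closedBall.measurableSet, hg,
    lintegral_indicator Metric.isClosed_closedBall.measurableSet] at h1
  rw [h1, ← mul_assoc, ← ENNReal.ofReal_mul (by positivity), abs_of_pos (by positivity),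
    mul_inv_cancel₀ (by positivity), ENNReal.ofReal_one, one_mul]

/-- rescaled polynomial `P (R ·)` -/
def scl (R : ℝ) {r : ℕ} (P : MvPolynomial (Fin r) ℂ) : MvPolynomial (Fin r) ℂ :=
  ∑ m ∈ P.support, monomial m (((R ^ m.degree : ℝ) : ℂ) * coeff m P)

theorem coeff_scl (R : ℝ) {r : ℕ} (P : MvPolynomial (Fin r) ℂ) (m : Fin r →₀ ℕ) :
    coeff m (scl R P) = ((R ^ m.degree : ℝ) : ℂ) * coeff m P := by
  classical
  rw [scl, coeff_sum]
  by_cases h : m ∈ P.support
  · rw [Finset.sum_eq_single m]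
    · rw [coeff_monomial, if_pos rfl]
    · intro m' _ hne
      rw [coeff_monomial, if_neg hne]
    · intro h'
      exact absurd h h'
  · rw [notMem_support_iff.mp h, mul_zero]
    refine Finset.sum_eq_zero fun m' hm' => ?_
    rw [coeff_monomial, if_neg]
    rintro rfl
    exact h hm'

theorem eval_scl (R : ℝ) {r : ℕ} (P : MvPolynomial (Fin r) ℂ) (η : Fin r → ℂ) :
    MvPolynomial.eval η (scl R P) = MvPolynomial.eval (R • η) P := by
  rw [scl, map_sum, MvPolynomial.eval_eq' (R • η) P]
  refine Finset.sum_congr rfl fun m _ => ?_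
  rw [eval_monomial, Finsupp.prod_fintype _ _ (fun i => pow_zero _)]
  have h1 : ∏ i, (R • η) i ^ m i = ((R ^ m.degree : ℝ) : ℂ) * ∏ i, η i ^ m i := by
    have h2 : ∀ i, (R • η) i ^ m i = ((R : ℂ) ^ m i) * η i ^ m i := by
      intro i
      rw [Pi.smul_apply, Complex.real_smul, mul_pow]
    rw [Finset.prod_congr rfl fun i _ => h2 i, Finset.prod_mul_distrib,
      Finset.prod_pow_eq_pow_sum, Finsupp.degree_eq_sum]
    push_cast
    rfl
  rw [h1]
  ring

theorem int_poly (r d : ℕ) (p : ℝ) (hp : 0 ≤ p) (hpd : p * d < 2) : ∃ c : ℝ, 1 ≤ c ∧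
    ∀ P : MvPolynomial (Fin r) ℂ, (∀ i, P.degreeOf i ≤ d) → ∀ m, ∀ R : ℝ, 1 ≤ R →
      ∫⁻ η in Metric.closedBall (0 : Fin r → ℂ) R, ‖MvPolynomial.eval η P‖ₑ ^ (-p) ≤
        ENNReal.ofReal (c * R ^ (2 * r)) * ‖MvPolynomial.coeff m P‖ₑ ^ (-p) := by
  obtain ⟨c, hc, h⟩ := SkoA_567.sko r d p 1 hp hpd
  refine ⟨1 + c.toReal, by linarith [ENNReal.toReal_nonneg (a := c)], ?_⟩
  intro P hP m R hR
  have hR0 : 0 < R := lt_of_lt_of_le zero_lt_one hR
  rw [lintegral_closedBall_scale hR _ ((SkoA_567.measurable_eval P).enorm.pow_const _)]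
  have h1 := h (scl R P) (fun i => by
    rw [degreeOf_le_iff]
    intro m' hm'
    refine degreeOf_le_iff.mp (hP i) m' ?_
    rw [mem_support_iff] at hm' ⊢
    intro h0
    exact hm' (by rw [coeff_scl, h0, mul_zero])) m
  simp only [eval_scl] at h1
  have h2 : ‖coeff m (scl R P)‖ₑ ^ (-p) ≤ ‖coeff m P‖ₑ ^ (-p) := by
    rw [ENNReal.rpow_neg, ENNReal.rpow_neg]
    refine ENNReal.inv_le_inv.mpr (ENNReal.rpow_le_rpow ?_ hp)
    rw [coeff_scl, enorm_mul]
    have h3 : (1 : ℝ≥0∞) ≤ ‖((R ^ m.degree : ℝ) : ℂ)‖ₑ := by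
      rw [← ofReal_norm, Complex.norm_real, Real.norm_of_nonneg (by positivity)]
      rw [← ENNReal.ofReal_one]
      exact ENNReal.ofReal_le_ofReal (one_le_pow₀ hR)
    calc ‖coeff m P‖ₑ = 1 * ‖coeff m P‖ₑ := (one_mul _).symm
      _ ≤ _ := mul_le_mul' h3 le_rfl
  calc ENNReal.ofReal (R ^ (2 * r)) *
        ∫⁻ η in Metric.closedBall (0 : Fin r → ℂ) 1, ‖MvPolynomial.eval (R • η) P‖ₑ ^ (-p)
      ≤ ENNReal.ofReal (R ^ (2 * r)) * (c * ‖coeff m P‖ₑ ^ (-p)) :=
        mul_le_mul' le_rfl (h1.trans (mul_le_mul' le_rfl h2))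
    _ = (c * ENNReal.ofReal (R ^ (2 * r))) * ‖coeff m P‖ₑ ^ (-p) := by ring
    _ ≤ ENNReal.ofReal ((1 + c.toReal) * R ^ (2 * r)) * ‖coeff m P‖ₑ ^ (-p) := by
        refine mul_le_mul' ?_ le_rfl
        rw [ENNReal.ofReal_mul (by positivity)]
        refine mul_le_mul' ?_ le_rfl
        rw [ENNReal.ofReal_add zero_le_one ENNReal.toReal_nonneg, ENNReal.ofReal_toReal hc.ne]
        exact le_add_self

/-- **(INT)** for the polynomials of `null_bound` -/
theorem int_null (r d n : ℕ) (C0 : ℝ) (hC0 : 1 ≤ C0) (p : ℝ) (hp : 0 ≤ p) (hpd : p * d < 2) :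
    ∃ (C1 : ℝ) (n1 : ℕ), 1 ≤ C1 ∧ ∀ (s : ℕ) (A : Fin s → ℂ) (ρ R : ℝ) (_ : 1 ≤ ρ) (_ : 1 ≤ R)
      (P : MvPolynomial (Fin r) ℂ) (_ : ∀ i, P.degreeOf i ≤ d)
      (_ : ∃ m, ‖A‖ ≤ C0 * ρ ^ n * ‖P.coeff m‖),
      ∫⁻ η in Metric.closedBall (0 : Fin r → ℂ) R,
        ENNReal.ofReal (C0 * (ρ * R) ^ n) ^ p * ‖MvPolynomial.eval η P‖ₑ ^ (-p) ≤
        ENNReal.ofReal (C1 * (ρ * R) ^ n1) * ‖A‖ₑ ^ (-p) := by
  obtain ⟨c, hc, h⟩ := int_poly r d p hp hpd
  set k : ℕ := ⌈p⌉₊ with hk
  have hpk : p ≤ k := Nat.le_ceil p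
  refine ⟨c * C0 ^ (2 * k), 2 * r + 2 * n * k, ?_, ?_⟩
  · exact one_le_mul_of_one_le_of_one_le hc (one_le_pow₀ hC0)
  intro s A ρ R hρ hR P hP hm
  obtain ⟨m, hm⟩ := hm
  have hρR : 1 ≤ ρ * R := one_le_mul_of_one_le_of_one_le hρ hR
  have hc0 : 0 < C0 := by linarith
  have hρ0 : 0 < ρ := by linarith
  rw [lintegral_const_mul _ ((SkoA_567.measurable_eval P).enorm.pow_const _)]
  have h1 := h P hP m R hR
  have h2 : ‖coeff m P‖ₑ ^ (-p) ≤ ENNReal.ofReal (C0 * ρ ^ n) ^ p * ‖A‖ₑ ^ (-p) := by
    have h3 : ‖A‖ₑ ≤ ENNReal.ofReal (C0 * ρ ^ n) * ‖coeff m P‖ₑ := by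
      rw [← ofReal_norm, ← ofReal_norm, ← ENNReal.ofReal_mul (by positivity)]
      exact ENNReal.ofReal_le_ofReal hm
    have h4 : ENNReal.ofReal (C0 * ρ ^ n) ≠ 0 := by
      rw [Ne, ENNReal.ofReal_eq_zero, not_le]
      positivity
    have h5 : (ENNReal.ofReal (C0 * ρ ^ n) * ‖coeff m P‖ₑ) ^ (-p) ≤ ‖A‖ₑ ^ (-p) := by
      rw [ENNReal.rpow_neg, ENNReal.rpow_neg]
      exact ENNReal.inv_le_inv.mpr (ENNReal.rpow_le_rpow h3 hp)
    rw [ENNReal.mul_rpow_of_ne_top ENNReal.ofReal_ne_top enorm_ne_top] at h5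
    have h6 : ENNReal.ofReal (C0 * ρ ^ n) ^ p * ENNReal.ofReal (C0 * ρ ^ n) ^ (-p) = 1 := by
      rw [← ENNReal.rpow_add _ _ h4 ENNReal.ofReal_ne_top, add_neg_cancel, ENNReal.rpow_zero]
    calc ‖coeff m P‖ₑ ^ (-p) = ENNReal.ofReal (C0 * ρ ^ n) ^ p *
          (ENNReal.ofReal (C0 * ρ ^ n) ^ (-p) * ‖coeff m P‖ₑ ^ (-p)) := by
          rw [← mul_assoc, h6, one_mul]
      _ ≤ _ := mul_le_mul' le_rfl h5
  have hpow : ∀ x : ℝ, 1 ≤ x → ENNReal.ofReal x ^ p ≤ ENNReal.ofReal (x ^ k) := by
    intro x hx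
    have h1 : (1 : ℝ≥0∞) ≤ ENNReal.ofReal x := by
      rw [← ENNReal.ofReal_one]
      exact ENNReal.ofReal_le_ofReal hx
    calc ENNReal.ofReal x ^ p ≤ ENNReal.ofReal x ^ (k : ℝ) := ENNReal.rpow_le_rpow_of_exponent_le h1 hpk
      _ = ENNReal.ofReal (x ^ k) := by
        rw [ENNReal.rpow_natCast, ENNReal.ofReal_pow (by linarith)]
  have h7 : ENNReal.ofReal (C0 * (ρ * R) ^ n) ^ p ≤ ENNReal.ofReal ((C0 * (ρ * R) ^ n) ^ k) :=
    hpow _ (one_le_mul_of_one_le_of_one_le hC0 (one_le_pow₀ hρR))
  have h8 : ENNReal.ofReal (C0 * ρ ^ n) ^ p ≤ ENNReal.ofReal ((C0 * (ρ * R) ^ n) ^ k) := by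
    refine (hpow _ (one_le_mul_of_one_le_of_one_le hC0 (one_le_pow₀ hρ))).trans ?_
    refine ENNReal.ofReal_le_ofReal (pow_le_pow_left₀ (by positivity) ?_ _)
    refine mul_le_mul_of_nonneg_left (pow_le_pow_left₀ hρ0.le ?_ _) hc0.le
    nlinarith
  have h9 : ENNReal.ofReal (c * R ^ (2 * r)) ≤ ENNReal.ofReal (c * (ρ * R) ^ (2 * r)) := by
    refine ENNReal.ofReal_le_ofReal (mul_le_mul_of_nonneg_left
      (pow_le_pow_left₀ (by linarith) ?_ _) (by linarith))
    nlinarith
  calc ENNReal.ofReal (C0 * (ρ * R) ^ n) ^ p *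
        ∫⁻ η in Metric.closedBall (0 : Fin r → ℂ) R, ‖MvPolynomial.eval η P‖ₑ ^ (-p)
      ≤ ENNReal.ofReal (C0 * (ρ * R) ^ n) ^ p * (ENNReal.ofReal (c * R ^ (2 * r)) *
          (ENNReal.ofReal (C0 * ρ ^ n) ^ p * ‖A‖ₑ ^ (-p))) :=
        mul_le_mul' le_rfl (h1.trans (mul_le_mul' le_rfl h2))
    _ ≤ ENNReal.ofReal ((C0 * (ρ * R) ^ n) ^ k) * (ENNReal.ofReal (c * (ρ * R) ^ (2 * r)) *
          (ENNReal.ofReal ((C0 * (ρ * R) ^ n) ^ k) * ‖A‖ₑ ^ (-p))) :=
        mul_le_mul' h7 (mul_le_mul' h9 (mul_le_mul' h8 le_rfl))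
    _ = ENNReal.ofReal (c * C0 ^ (2 * k) * (ρ * R) ^ (2 * r + 2 * n * k)) * ‖A‖ₑ ^ (-p) := by
        rw [← mul_assoc, ← mul_assoc, ← ENNReal.ofReal_mul (by positivity),
          ← ENNReal.ofReal_mul (by positivity)]
        congr 2
        rw [mul_pow, ← pow_mul, pow_add, two_mul k, pow_add]
        ring

end Int

end Crest.Agent.R276.SkoD_317
end
end

-- ▼ part R276/SkoQ_425

/-!
# SKO (row 276), part Q (helper425): the estimate on one piece

* `open_at` : `(q, y)` is open where the Jacobian of `y` does not vanish;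
* `mult` : the fibres of `(q, y)` have at most `[K : L(y)]` points with nonvanishing Jacobian, for EVERY relative
  model and EVERY point of the base;
* `exists_pe` : the piece estimate `SkoM_845.PE`.
-/

set_option autoImplicit false

open Topology Filter MeasureTheory
open scoped ENNReal

noncomputable section

namespace Crest.Agent.R276.SkoQ_425

open Crest.Agent.R271.Defs710 Crest.Agent.R271.Ho51 Crest.Agent.R271.Alg255 Crest.Agent.R271.Rd692
open Crest.Agent.R271
open Crest.Agent.R276.Mod1_987 Crest.Agent.R276.FKDefs_779 Crest.Agent.R276.SkoM_845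
open Crest.Agent.R276.IntA_448 Crest.Agent.R276.IntE_448 Crest.Agent.R276.Area_448

/-! ### degree -/

section deg

variable {L K : Type} [Field L] [Field K] [Algebra L K] {r : ℕ}

/-- existence of the polynomial of `deg_bound`, with the degree -/
theorem exists_poly_deg {y : Fin r → K}
    [FiniteDimensional (IntermediateField.adjoin L (Set.range y)) K] (b : K) :
    ∃ P : Polynomial (MvPolynomial (Fin r) L), P ≠ 0 ∧
      P.natDegree ≤ Module.finrank (IntermediateField.adjoin L (Set.range y)) K ∧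
      Polynomial.eval₂ (MvPolynomial.aeval y : MvPolynomial (Fin r) L →ₐ[L] K).toRingHom b P = 0 := by
  classical
  set p := minpoly (IntermediateField.adjoin L (Set.range y)) b with hpdef
  have hint : IsIntegral (IntermediateField.adjoin L (Set.range y)) b :=
    Algebra.IsIntegral.isIntegral b
  have hp0 : p ≠ 0 := minpoly.ne_zero hint
  have hp : Polynomial.aeval b p = 0 := minpoly.aeval _ _
  have hpd : p.natDegree ≤ Module.finrank (IntermediateField.adjoin L (Set.range y)) K :=
    minpoly.natDegree_le b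
  -- clear denominators
  have hmem : ∀ n, ∃ a c : MvPolynomial (Fin r) L, MvPolynomial.aeval y c ≠ 0 ∧
      ((p.coeff n : IntermediateField.adjoin L (Set.range y)) : K) * MvPolynomial.aeval y c =
        MvPolynomial.aeval y a := by
    intro n
    have h1 := (p.coeff n).2
    rw [IntermediateField.mem_adjoin_range_iff] at h1
    obtain ⟨a, c, hac⟩ := h1
    by_cases hc : MvPolynomial.aeval y c = 0
    · refine ⟨0, 1, by simp, ?_⟩
      rw [hac, hc]
      simp
    · refine ⟨a, c, hc, ?_⟩
      rw [hac]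
      field_simp
  choose a c hc hac using hmem
  set s := p.support with hs
  set d : MvPolynomial (Fin r) L := ∏ n ∈ s, c n with hd
  have hdne : MvPolynomial.aeval y d ≠ 0 := by
    rw [hd, map_prod]
    exact Finset.prod_ne_zero_iff.2 fun n _ => hc n
  set e : ℕ → MvPolynomial (Fin r) L := fun n => a n * ∏ m ∈ s.erase n, c m with he
  have hen : ∀ n ∈ s, MvPolynomial.aeval y (e n) =
      ((p.coeff n : IntermediateField.adjoin L (Set.range y)) : K) * MvPolynomial.aeval y d := by
    intro n hn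
    rw [he, hd, ← Finset.mul_prod_erase s c hn]
    simp only [map_mul]
    rw [← hac n]
    ring
  set P : Polynomial (MvPolynomial (Fin r) L) := ∑ n ∈ s, Polynomial.monomial n (e n) with hP
  have hPc : ∀ n ∈ s, P.coeff n = e n := by
    intro n hn
    rw [hP, Polynomial.finsetSum_coeff, Finset.sum_eq_single n]
    · rw [Polynomial.coeff_monomial, if_pos rfl]
    · intro m _ hmn
      rw [Polynomial.coeff_monomial, if_neg hmn]
    · intro h
      exact absurd hn h
  refine ⟨P, ?_, ?_, ?_⟩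
  · intro h0
    obtain ⟨n, hn⟩ : s.Nonempty := by
      rw [hs]
      exact Polynomial.nonempty_support_iff.2 hp0
    have h1 := hen n hn
    rw [← hPc n hn, h0, Polynomial.coeff_zero, map_zero] at h1
    have h2 : p.coeff n ≠ 0 := by
      rw [hs, Polynomial.mem_support_iff] at hn
      exact hn
    have h3 : ((p.coeff n : IntermediateField.adjoin L (Set.range y)) : K) ≠ 0 := by
      intro h
      apply h2
      exact_mod_cast h
    exact (mul_ne_zero h3 hdne) h1.symm
  · refine le_trans ?_ hpd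
    rw [hP]
    apply Polynomial.natDegree_sum_le_of_forall_le
    intro n hn
    exact (Polynomial.natDegree_monomial_le _).trans (Polynomial.le_natDegree_of_mem_supp n hn)
  · rw [hP, Polynomial.eval₂_finsetSum]
    have h1 : ∀ n ∈ s, Polynomial.eval₂ (MvPolynomial.aeval y : MvPolynomial (Fin r) L →ₐ[L] K).toRingHom b
        (Polynomial.monomial n (e n)) =
        (((p.coeff n : IntermediateField.adjoin L (Set.range y)) : K) * b ^ n) * MvPolynomial.aeval y d := by
      intro n hn
      rw [Polynomial.eval₂_monomial]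
      have := hen n hn
      simp only [AlgHom.toRingHom_eq_coe, RingHom.coe_coe]
      rw [this]
      ring
    rw [Finset.sum_congr rfl h1, ← Finset.sum_mul]
    have h2 : ∑ n ∈ s, ((p.coeff n : IntermediateField.adjoin L (Set.range y)) : K) * b ^ n = 0 := by
      rw [Polynomial.aeval_def, Polynomial.eval₂_eq_sum, Polynomial.sum_def] at hp
      exact hp
    rw [h2, zero_mul]

/-- the coefficients can be taken in the coordinate ring of a model of `L` -/
theorem exists_poly_mdl [Algebra ℂ L] {m : ℕ} (M : Mdl L m) {y : Fin r → K}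
    [FiniteDimensional (IntermediateField.adjoin L (Set.range y)) K] (b : K) :
    ∃ P : Polynomial (MvPolynomial (Fin r) M.B), P ≠ 0 ∧
      P.natDegree ≤ Module.finrank (IntermediateField.adjoin L (Set.range y)) K ∧
      Polynomial.eval₂ ((MvPolynomial.aeval y : MvPolynomial (Fin r) L →ₐ[L] K).toRingHom.comp
        (MvPolynomial.map (M.B.val : M.B →+* L))) b P = 0 := by
  classical
  obtain ⟨P1, hP1, hdeg, heval⟩ := exists_poly_deg (L := L) (y := y) b
  obtain ⟨c, hc, hden⟩ := SkoN_845.exists_den M (GroUpC_845.cofs P1)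
  have hc' : (c : L) ≠ 0 := fun h0 => hc (Subtype.ext h0)
  set P2 : Polynomial (MvPolynomial (Fin r) L) :=
    Polynomial.C (MvPolynomial.C (c : L)) * P1 with hP2
  have hP2ne : P2 ≠ 0 := by
    rw [hP2]
    refine mul_ne_zero ?_ hP1
    rw [Ne, Polynomial.C_eq_zero, MvPolynomial.C_eq_zero]
    exact hc'
  obtain ⟨P0, hP0⟩ := GroUpC_845.exists_lift (M.B.val : M.B →+* L) P2 (by
    intro a ha
    simp only [GroUpC_845.cofs, Finset.mem_biUnion] at ha
    obtain ⟨n, _, ha⟩ := ha
    rw [MvPolynomial.mem_coeffs_iff] at ha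
    obtain ⟨k, hk, hak⟩ := ha
    have h1 : a = (c : L) * MvPolynomial.coeff k (P1.coeff n) := by
      rw [hak, hP2, Polynomial.coeff_C_mul, MvPolynomial.coeff_C_mul]
    have h2 : MvPolynomial.coeff k (P1.coeff n) ∈ GroUpC_845.cofs P1 := by
      apply GroUpC_845.mem_cofs (n := n)
      apply MvPolynomial.coeff_mem_coeffs
      intro h0
      rw [MvPolynomial.mem_support_iff, hP2, Polynomial.coeff_C_mul, MvPolynomial.coeff_C_mul,
        h0, mul_zero] at hk
      exact hk rfl
    have h3 := hden _ h2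
    rw [mul_comm] at h3
    exact ⟨⟨_, h3⟩, h1.symm⟩)
  have hinj : Function.Injective (MvPolynomial.map (M.B.val : M.B →+* L) :
      MvPolynomial (Fin r) M.B →+* MvPolynomial (Fin r) L) :=
    MvPolynomial.map_injective _ Subtype.val_injective
  refine ⟨P0, ?_, ?_, ?_⟩
  · rintro rfl
    rw [Polynomial.map_zero] at hP0
    exact hP2ne hP0.symm
  · rw [← Polynomial.natDegree_map_eq_of_injective hinj P0, hP0, hP2]
    exact (Polynomial.natDegree_C_mul_le _ _).trans hdeg
  · rw [← Polynomial.eval₂_map, hP0, hP2, Polynomial.eval₂_mul, heval, mul_zero]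

end deg

/-! ### separation of points -/

/-- finitely many points are separated by one function -/
theorem exists_sep {B : Type} [CommRing B] [Algebra ℂ B] (S : Finset (B →ₐ[ℂ] ℂ)) :
    ∃ b : B, Set.InjOn (fun x : B →ₐ[ℂ] ℂ => x b) (S : Set (B →ₐ[ℂ] ℂ)) := by
  classical
  set s : Finset (Subspace ℂ B) := S.offDiag.image
    (fun p => LinearMap.ker (p.1.toLinearMap - p.2.toLinearMap)) with hs
  have htop : (⊤ : Subspace ℂ B) ∉ s := by
    intro h
    obtain ⟨p, hp, hp'⟩ := Finset.mem_image.1 h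
    rw [Finset.mem_offDiag] at hp
    apply hp.2.2
    apply AlgHom.ext
    intro b
    have h1 : b ∈ LinearMap.ker (p.1.toLinearMap - p.2.toLinearMap) := by
      rw [hp']; trivial
    rw [LinearMap.mem_ker, LinearMap.sub_apply, sub_eq_zero] at h1
    exact h1
  have h1 := Subspace.biUnion_ne_univ_of_top_notMem htop
  obtain ⟨b, hb⟩ := (Set.ne_univ_iff_exists_notMem _).1 h1
  refine ⟨b, fun x hx x' hx' hxx => ?_⟩
  by_contra hne
  apply hb
  simp only [Set.mem_iUnion]
  refine ⟨LinearMap.ker (x.toLinearMap - x'.toLinearMap), Finset.mem_image.2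
    ⟨(x, x'), Finset.mem_offDiag.2 ⟨hx, hx', hne⟩, rfl⟩, ?_⟩
  change b ∈ LinearMap.ker (x.toLinearMap - x'.toLinearMap)
  rw [LinearMap.mem_ker, LinearMap.sub_apply, sub_eq_zero]
  exact hxx

/-! ### density -/

lemma dense_eval_ne {n : ℕ} {p : MvPolynomial (Fin n) ℂ} (hp : p ≠ 0) :
    Dense {ζ : Fin n → ℂ | MvPolynomial.eval ζ p ≠ 0} :=
  Measure.dense_of_ae (μ := volume) (Null956.ae_eval_ne hp)

/-- a nonzero function on a model does not vanish at some point of every nonempty open set -/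
lemma exists_ne_near {L : Type} [Field L] [Algebra ℂ L] {m : ℕ} (M : Mdl L m) {a : M.B}
    (ha : a ≠ 0) (w : M.Pts) {W : Set M.Pts} (hW : W ∈ 𝓝 w) : ∃ w' ∈ W, w' a ≠ 0 := by
  obtain ⟨p, hp, hdvd⟩ := IntC_448.exists_dvd M ha
  have hlh : IsLocalHomeomorph M.pz := isLocalHomeomorph_pr M.hch
  have h1 : M.pz '' W ∈ 𝓝 (M.pz w) := by
    have := hlh.isOpenMap.image_mem_nhds hW
    exact this
  obtain ⟨ζ, hζ1, hζ2⟩ := (dense_eval_ne hp).inter_nhds_nonempty h1
  obtain ⟨w', hw', rfl⟩ := hζ2
  refine ⟨w', hw', fun h0 => hζ1 ?_⟩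
  obtain ⟨c, hc⟩ := hdvd
  have h2 : w' (az M.z p) = MvPolynomial.eval (M.pz w') p := M.apply_az' w' p
  rw [← h2, hc, map_mul, h0, zero_mul]

lemma exists_near {L : Type} [Field L] [Algebra ℂ L] {m r : ℕ} (M : Mdl L m)
    {c : MvPolynomial (Fin r) M.B} (hc : c ≠ 0) (w : M.Pts) (η : Fin r → ℂ)
    {W : Set (M.Pts × (Fin r → ℂ))} (hW : W ∈ 𝓝 (w, η)) :
    ∃ p ∈ W, MvPolynomial.eval₂ (p.1 : M.B →+* ℂ) p.2 c ≠ 0 := by
  obtain ⟨W1, hW1, W2, hW2, hWW⟩ := mem_nhds_prod_iff.1 hW
  obtain ⟨k, hk⟩ : ∃ k, MvPolynomial.coeff k c ≠ 0 := by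
    by_contra h
    push Not at h
    exact hc (MvPolynomial.ext _ _ fun k => by rw [h k, MvPolynomial.coeff_zero])
  obtain ⟨w', hw', hne⟩ := exists_ne_near M hk w hW1
  have h1 : MvPolynomial.map (w' : M.B →+* ℂ) c ≠ 0 := by
    intro h0
    apply hne
    have h2 := congrArg (MvPolynomial.coeff k) h0
    rw [MvPolynomial.coeff_map, MvPolynomial.coeff_zero] at h2
    exact h2
  obtain ⟨η', hη1, hη2⟩ := (dense_eval_ne h1).inter_nhds_nonempty hW2
  refine ⟨(w', η'), hWW ⟨hw', hη2⟩, ?_⟩
  rw [Set.mem_ofPred_eq, MvPolynomial.eval_map] at hη1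
  exact hη1

/-! ### openness -/

section rel

variable {L K : Type} [Field L] [Field K] [Algebra ℂ L] [Algebra ℂ K] [Algebra L K]
  [IsScalarTower ℂ L K] {m r : ℕ}

/-- the map `(q, y)` is open at the points where the Jacobian of `y` does not vanish -/
theorem open_at (R : RMdl L K m r) {bas : Module.Basis (Fin r) K (Ω[K⁄L])} (hR : Compat bas R)
    (yB : Fin r → R.MK.B) {J : R.MK.B} (hJ : (J : K) = jac L bas (fun l => (yB l : K)))
    (x : R.MK.Pts) (hx : x J ≠ 0) {U : Set R.MK.Pts} (hU : U ∈ 𝓝 x) :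
    (fun v : R.MK.Pts => (R.q v, fun l => v (yB l))) '' U ∈ 𝓝 (R.q x, fun l => x (yB l)) := by
  classical
  obtain ⟨B, hB⟩ := FK1_779.exists_basis_of_transc (k := ℂ) (fun i => (R.MK.z i : K))
    (IntC_448.isTranscendenceBasis R.MK)
  obtain ⟨D, hD⟩ := Bd741.exists_coord_deriv R.MK.z R.MK.het
  set G : R.MK.Pts → R.ML.Pts × (Fin r → ℂ) := fun v => (R.q v, fun l => v (yB l)) with hG
  have hGc : Continuous G :=
    R.continuous_q.prodMk (continuous_pi fun l => continuous_ev _)
  set Y : Fin (m + r) → R.MK.B := Fin.append (fun i => R.MK.z (Fin.castAdd r i)) yB with hY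
  have hsd := IntA_448.sd_ev R.MK.het D hD Y
  have hdet : (qd D Y x).det ≠ 0 := by
    rw [qd_det]
    have h1 : jd D Y = J := by
      apply Subtype.ext
      rw [coe_jd R.MK D hD B hB, hJ]
      have h2 : (fun i => (Y i : K)) =
          Fin.append (fun i => algebraMap L K (R.ML.zK i)) (fun l => (yB l : K)) := by
        funext i
        refine Fin.addCases (fun i => ?_) (fun j => ?_) i
        · rw [hY, Fin.append_left, Fin.append_left]
          exact R.z_eq i
        · rw [hY, Fin.append_right, Fin.append_right]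
      rw [h2]
      exact IntF_448.jac_append (fun i => R.ML.zK i) R.z_eq B hB bas hR _
    rwa [h1]
  -- `F = (z_L, y)` is open at `x`
  set F : R.MK.Pts → (Fin (m + r) → ℂ) := fun v i => v (Y i) with hF
  have hFG : ∀ v, F v = R.pL (G v) := by
    intro v
    funext i
    refine Fin.addCases (fun i => ?_) (fun j => ?_) i
    · simp only [hF, hY, hG, RMdl.pL, Fin.append_left]
      exact (R.pz_q v i).symm
    · simp only [hF, hY, hG, RMdl.pL, Fin.append_right]
  have hFx : map F (𝓝 x) = 𝓝 (F x) := by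
    let e' := (qd D Y x).toContinuousLinearEquivOfDetNeZero hdet
    have he' : (e' : (Fin (m + r) → ℂ) →L[ℂ] (Fin (m + r) → ℂ)) = qd D Y x :=
      ContinuousLinearMap.coe_toContinuousLinearEquivOfDetNeZero _ _
    have hd : HasStrictFDerivAt (F ∘ (ch (M := R.MK.B →ₐ[ℂ] ℂ) x).symm)
        (e' : (Fin (m + r) → ℂ) →L[ℂ] (Fin (m + r) → ℂ)) (cp x) := by
      rw [he']; exact hsd x
    have h1 := hd.map_nhds_eq_of_equiv
    have h2 : (ch (M := R.MK.B →ₐ[ℂ] ℂ) x).symm (cp x) = x := by
      have h3 := (ch (M := R.MK.B →ₐ[ℂ] ℂ) x).left_inv (mem_ch x)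
      rwa [isCh_ch x] at h3
    have h4 : cp x ∈ (ch (M := R.MK.B →ₐ[ℂ] ℂ) x).symm.source := by
      have h5 := (ch (M := R.MK.B →ₐ[ℂ] ℂ) x).map_source (mem_ch x)
      rwa [isCh_ch x] at h5
    have h6 := (ch (M := R.MK.B →ₐ[ℂ] ℂ) x).symm.map_nhds_eq h4
    rw [h2] at h6
    rw [← Filter.map_map, h6, Function.comp_apply, h2] at h1
    exact h1
  obtain ⟨e, heG, heq⟩ := R.isLocalHomeomorph_pL (G x)
  have hU' : U ∩ G ⁻¹' e.source ∈ 𝓝 x :=
    inter_mem hU (hGc.continuousAt.preimage_mem_nhds (e.open_source.mem_nhds heG))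
  have h1 : F '' (U ∩ G ⁻¹' e.source) ∈ 𝓝 (F x) := by
    rw [← hFx]
    exact image_mem_map hU'
  rw [hFG x] at h1
  have h2 : R.pL ⁻¹' (F '' (U ∩ G ⁻¹' e.source)) ∩ e.source ∈ 𝓝 (G x) :=
    inter_mem (R.continuous_pL.continuousAt.preimage_mem_nhds h1) (e.open_source.mem_nhds heG)
  refine mem_of_superset h2 ?_
  rintro p ⟨⟨v, ⟨hv1, hv2⟩, hv3⟩, hp⟩
  refine ⟨v, hv1, ?_⟩
  rw [hFG v] at hv3
  apply e.injOn hv2 hp
  rw [← heq]
  exact hv3

/-- **multiplicity**: for every relative model and every point `w` of the base, `y` takes every value at most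
`[K : L(y)]` times at points of the fibre with nonvanishing Jacobian -/
theorem mult {bas : Module.Basis (Fin r) K (Ω[K⁄L])} {y : Fin r → K}
    [FiniteDimensional (IntermediateField.adjoin L (Set.range y)) K] (R : RMdl L K m r)
    (hR : Compat bas R) (yB : Fin r → R.MK.B) (hy : ∀ l, (yB l : K) = y l) {J : R.MK.B}
    (hJ : (J : K) = jac L bas y) (w : R.ML.Pts) (η : Fin r → ℂ) :
    {x : R.Fib w | (x.val) J ≠ 0 ∧ (fun l => (x.val) (yB l)) = η}.encard ≤
      Module.finrank (IntermediateField.adjoin L (Set.range y)) K := by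
  classical
  set N := Module.finrank (IntermediateField.adjoin L (Set.range y)) K with hN
  by_contra hcon
  rw [not_le] at hcon
  have h1 : ((N + 1 : ℕ) : ℕ∞) ≤
      {x : R.Fib w | (x.val) J ≠ 0 ∧ (fun l => (x.val) (yB l)) = η}.encard := by
    have := Order.add_one_le_of_lt hcon
    exact_mod_cast this
  obtain ⟨t, hts, htc⟩ := Set.exists_subset_encard_eq h1
  have htf : t.Finite := Set.finite_of_encard_eq_coe htc
  set S : Finset R.MK.Pts := htf.toFinset.image (fun x => x.val) with hS
  have hScard : S.card = N + 1 := by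
    rw [hS, Finset.card_image_of_injective _ (fun a b h => RMdl.Fib.ext h)]
    have h2 : (htf.toFinset : Set (R.Fib w)).encard = t.encard := by
      rw [htf.coe_toFinset]
    rw [Set.encard_coe_eq_coe_finsetCard, htc] at h2
    exact_mod_cast h2
  have hSmem : ∀ x ∈ S, R.q x = w ∧ x J ≠ 0 ∧ (fun l => x (yB l)) = η := by
    intro x hx
    obtain ⟨x', hx', rfl⟩ := Finset.mem_image.1 hx
    have h2 := hts (htf.mem_toFinset.1 hx')
    exact ⟨x'.q_eq, h2.1, h2.2⟩
  obtain ⟨b, hb⟩ := exists_sep S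
  obtain ⟨P, hP0, hPdeg, hPb⟩ := exists_poly_mdl R.ML (y := y) (b : K)
  -- the relation in the coordinate ring
  have hrel : Polynomial.eval₂ (MvPolynomial.eval₂Hom (R.incl : R.ML.B →+* R.MK.B) yB) b P = 0 := by
    apply Subtype.val_injective (p := fun x => x ∈ R.MK.B)
    change (R.MK.B.val : R.MK.B →+* K) _ = 0
    rw [Polynomial.hom_eval₂]
    have h2 : (R.MK.B.val : R.MK.B →+* K).comp
        (MvPolynomial.eval₂Hom (R.incl : R.ML.B →+* R.MK.B) yB) =
        ((MvPolynomial.aeval y : MvPolynomial (Fin r) L →ₐ[L] K).toRingHom).comp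
          (MvPolynomial.map (R.ML.B.val : R.ML.B →+* L)) := by
      apply MvPolynomial.ringHom_ext
      · intro a
        simp
      · intro l
        simp [hy]
    rw [h2]
    exact hPb
  -- disjoint neighbourhoods of the values
  obtain ⟨V, hV, hVd⟩ := (S.image fun x => x b).finite_toSet.t2_separation
  set G : R.MK.Pts → R.ML.Pts × (Fin r → ℂ) := fun v => (R.q v, fun l => v (yB l)) with hG
  have hGx : ∀ x ∈ S, G x = (w, η) := fun x hx =>
    Prod.ext (hSmem x hx).1 (hSmem x hx).2.2
  have hW : (⋂ x ∈ S, G '' {v | v b ∈ V (x b)}) ∈ 𝓝 (w, η) := by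
    rw [Finset.iInter_mem_sets]
    intro x hx
    have h2 : {v : R.MK.Pts | v b ∈ V (x b)} ∈ 𝓝 x :=
      (continuous_ev b).continuousAt.preimage_mem_nhds ((hV (x b)).2.mem_nhds (hV (x b)).1)
    have h3 := open_at R hR yB (J := J) (by
      rw [hJ]
      congr 1
      exact (funext hy).symm) x (hSmem x hx).2.1 h2
    rw [← hGx x hx]
    exact h3
  obtain ⟨p, hpW, hp⟩ := exists_near R.ML (c := P.leadingCoeff)
    (by rwa [Ne, Polynomial.leadingCoeff_eq_zero]) w η hW
  have hpt : ∀ x ∈ S, ∃ v : R.MK.Pts, v b ∈ V (x b) ∧ G v = p := by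
    intro x hx
    have h2 := Set.mem_iInter₂.1 hpW x hx
    obtain ⟨v, hv1, hv2⟩ := h2
    exact ⟨v, hv1, hv2⟩
  choose! v hv1 hv2 using hpt
  set ev : MvPolynomial (Fin r) R.ML.B →+* ℂ :=
    MvPolynomial.eval₂Hom (p.1 : R.ML.B →+* ℂ) p.2 with hev
  set Q : Polynomial ℂ := P.map ev with hQ
  have hQ0 : Q ≠ 0 := by
    intro h0
    apply hp
    have h2 : Q.coeff P.natDegree = 0 := by rw [h0, Polynomial.coeff_zero]
    rw [hQ, Polynomial.coeff_map] at h2
    exact h2
  have hroot : ∀ x ∈ S, v x b ∈ Q.roots.toFinset := by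
    intro x hx
    rw [Multiset.mem_toFinset, Polynomial.mem_roots hQ0, Polynomial.IsRoot.def, hQ,
      Polynomial.eval_map]
    have h3 := congrArg (v x : R.MK.B →+* ℂ) hrel
    rw [map_zero, Polynomial.hom_eval₂] at h3
    have h4 : (v x : R.MK.B →+* ℂ).comp
        (MvPolynomial.eval₂Hom (R.incl : R.ML.B →+* R.MK.B) yB) = ev := by
      have h5 := hv2 x hx
      apply MvPolynomial.ringHom_ext
      · intro a
        simp only [RingHom.comp_apply, MvPolynomial.eval₂Hom_C, hev]
        rw [← h5]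
        rfl
      · intro l
        simp only [RingHom.comp_apply, MvPolynomial.eval₂Hom_X', hev]
        rw [← h5]
        rfl
    rw [h4] at h3
    exact h3
  have hinj : Set.InjOn (fun x => v x b) (S : Set R.MK.Pts) := by
    intro x hx x' hx' hxx
    apply hb hx hx'
    by_contra hne
    have h2 := hVd (Finset.mem_coe.2 (Finset.mem_image_of_mem _ hx))
      (Finset.mem_coe.2 (Finset.mem_image_of_mem _ hx')) hne
    have h3 : v x b ∈ V (x' b) := by
      have h4 : v x b = v x' b := hxx
      rw [h4]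
      exact hv1 x' hx'
    exact (Set.disjoint_left.1 h2) (hv1 x hx) h3
  have hcard : S.card ≤ N := by
    calc S.card ≤ Q.roots.toFinset.card :=
          Finset.card_le_card_of_injOn _ hroot hinj
      _ ≤ Multiset.card Q.roots := Multiset.toFinset_card_le _
      _ ≤ Q.natDegree := Polynomial.card_roots' Q
      _ ≤ P.natDegree := Polynomial.natDegree_map_le
      _ ≤ N := hPdeg
  omega

/-! ### the piece estimate -/

lemma rpow_le_aux {a b c : ℝ≥0∞} (hc : c ≠ 0) (hc' : c ≠ ⊤) (h : a ≤ c * b) {p : ℝ}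
    (hp : 0 ≤ p) : b ^ (-p) ≤ c ^ p * a ^ (-p) := by
  have h1 : (c * b) ^ (-p) ≤ a ^ (-p) := by
    rw [ENNReal.rpow_neg, ENNReal.rpow_neg]
    exact ENNReal.inv_le_inv.mpr (ENNReal.rpow_le_rpow h hp)
  by_cases hb : b = ⊤
  · subst hb
    rcases hp.eq_or_lt with rfl | hp0
    · simp
    · rw [ENNReal.top_rpow_of_neg (by linarith)]
      exact zero_le
  · rw [ENNReal.mul_rpow_of_ne_top hc' hb] at h1
    calc b ^ (-p) = c ^ p * (c ^ (-p) * b ^ (-p)) := by
          rw [← mul_assoc, ← ENNReal.rpow_add _ _ hc hc', add_neg_cancel, ENNReal.rpow_zero,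
            one_mul]
      _ ≤ c ^ p * a ^ (-p) := mul_le_mul_right h1 _

/-- the area formula on the fibres -/
theorem area_fib {bas : Module.Basis (Fin r) K (Ω[K⁄L])} {y : Fin r → K}
    [FiniteDimensional (IntermediateField.adjoin L (Set.range y)) K] (R : RMdl L K m r)
    (hR : Compat bas R) (yB : Fin r → R.MK.B) (hy : ∀ l, (yB l : K) = y l) {J : R.MK.B}
    (hJ : (J : K) = jac L bas y) (b' : Fin r → Fin r → R.MK.B)
    (hb' : ∀ l k, (b' l k : K) = bas.repr (KaehlerDifferential.D L K (y l)) k)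
    (w : R.ML.Pts) {μ : Measure (R.Fib w)} (hμ : IsLeb μ) {E : Set (R.Fib w)}
    (hE : MeasurableSet E) {T : ℝ} (hT : 0 ≤ T) (hET : ∀ x ∈ E, ∀ l, ‖(x.val) (yB l)‖ ≤ T)
    {wt : (Fin r → ℂ) → ℝ≥0∞} (hwt : Measurable wt) {F : R.Fib w → ℝ≥0∞}
    (hF : ∀ x ∈ E, F x ≤ ‖(x.val) J‖ₑ ^ (2 : ℕ) * wt (fun l => (x.val) (yB l))) :
    ∫⁻ x in E, F x ∂μ ≤ (Module.finrank (IntermediateField.adjoin L (Set.range y)) K : ℝ≥0∞) *
      ∫⁻ η in Metric.closedBall (0 : Fin r → ℂ) T, wt η := by
  classical
  have hfib := FibI_448.isFib R bas hR w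
  have hb'' : ∀ l k, (R.MK.B.val : R.MK.B →+* K) (b' l k) =
      bas.repr (KaehlerDifferential.D L K ((R.MK.B.val : R.MK.B →+* K) (yB l))) k := by
    intro l k
    have h1 : (R.MK.B.val : R.MK.B →+* K) (yB l) = y l := hy l
    rw [h1]
    exact hb' l k
  have hsd := hfib.sd (yB := yB) (b' := b') hb''
  have hdetJ : (Matrix.of b').det = J := by
    apply Subtype.ext
    rw [hJ]
    have h1 := GroUpD_845.jB_det (jB := (R.MK.B.val : R.MK.B →+* K)) hb''
    refine h1.trans ?_
    congr 1
    exact funext hy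
  have hdet : ∀ x : R.Fib w, (GroUpD_845.jm (fun y : R.Fib w =>
      ((y.val : R.MK.B →ₐ[ℂ] ℂ) : R.MK.B →+* ℂ)) b' x).det = (x.val) J := by
    intro x
    rw [GroUpD_845.det_jm, hdetJ]
    rfl
  refine GroUpB_845.area_ae_le (q := fun (x : R.Fib w) l => (x.val) (yB l)) hμ hsd ?_ hE
    Metric.isClosed_closedBall.measurableSet ?_ (ae_of_all _ fun η => ?_) hwt ?_
  · simp_rw [hdet]
    exact hfib.cont _
  · intro x hx _
    rw [mem_closedBall_zero_iff, pi_norm_le_iff_of_nonneg hT]
    exact hET x hx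
  · refine le_trans (Set.encard_le_encard ?_) (mult R hR yB hy hJ w η)
    rintro x ⟨_, hx1, hx2⟩
    rw [hdet] at hx1
    exact ⟨hx1, hx2⟩
  · intro x hx
    rw [hdet, ENNReal.ofReal_pow (norm_nonneg _), ofReal_norm]
    exact hF x hx

/-- **THE PIECE ESTIMATE** -/
theorem exists_pe (hac : ∀ x : K, IsAlgebraic L x → x ∈ Set.range (algebraMap L K))
    (bas : Module.Basis (Fin r) K (Ω[K⁄L])) (N : ℕ) {y : Fin r → K} (hJ : jac L bas y ≠ 0)
    {s : ℕ} {u : Fin s → K} (hu : LinearIndependent L u) :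
    ∃ p0 : ℝ, 0 < p0 ∧ ∃ (AA : Finset L) (BB : Finset K), ∀ (AA' : Finset L) (BB' : Finset K),
      AA ⊆ AA' → BB ⊆ BB' → ∀ p : ℝ, 0 ≤ p → p < p0 → PE bas N u y AA' BB' p := by
  classical
  by_cases hE : Algebra.EssFiniteType L K
  swap
  · refine ⟨1, one_pos, ∅, ∅, fun AA' BB' _ _ p _ _ => ⟨1, 0, le_rfl, fun m R => ?_⟩⟩
    exfalso
    apply hE
    have := Cmp_595.essFiniteType R.MK
    exact Algebra.EssFiniteType.of_comp ℂ L K
  have : CharZero L := charZero_of_injective_algebraMap (algebraMap ℂ L).injective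
  have : CharZero K := charZero_of_injective_algebraMap (algebraMap ℂ K).injective
  have halg : Algebra.IsAlgebraic (IntermediateField.adjoin L (Set.range y)) K := by
    apply GroUpC_845.algebraic_of_basis
    rw [jac] at hJ
    exact ((Module.Basis.is_basis_iff_det bas).2 (IsUnit.mk0 _ hJ)).2
  have : Algebra.EssFiniteType (IntermediateField.adjoin L (Set.range y)) K :=
    Algebra.EssFiniteType.of_comp L _ K
  have : FiniteDimensional (IntermediateField.adjoin L (Set.range y)) K :=
    Algebra.finite_of_essFiniteType_of_isAlgebraic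
  -- the sections in the frame
  set W : Fin s → K := fun i => fr bas y N (u i) with hW
  have hJN : (jac L bas y ^ N)⁻¹ ≠ 0 := inv_ne_zero (pow_ne_zero _ hJ)
  have hWli : LinearIndependent L W := by
    have h1 := hu.map' (LinearMap.mulLeft L ((jac L bas y ^ N)⁻¹))
      (LinearMap.ker_eq_bot.2 (mul_right_injective₀ hJN))
    have h2 : (LinearMap.mulLeft L ((jac L bas y ^ N)⁻¹)) ∘ u = W := by
      funext i
      simp [hW, fr, div_eq_mul_inv, mul_comm]
    rwa [h2] at h1
  obtain ⟨d, n, C0, T0, hC0, hnull⟩ := SkoD_317.null_bound hac y W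
    (fun i => halg.isAlgebraic _) hWli
  set D := Module.finrank (IntermediateField.adjoin L (Set.range y)) K with hD
  set BB : Finset K := {jac L bas y} ∪ (Finset.univ.image y) ∪ (Finset.univ.image W) ∪
    (Finset.univ.biUnion fun l : Fin r => Finset.univ.image fun k : Fin r =>
      bas.repr (KaehlerDifferential.D L K (y l)) k) with hBB
  refine ⟨2 / (d + 1), by positivity, T0, BB, fun AA' BB' hAA' hBB' p hp hp0 => ?_⟩
  have hpd : p * d < 2 := by
    rw [lt_div_iff₀ (by positivity)] at hp0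
    nlinarith
  obtain ⟨C1, n1, hC1, hint⟩ := SkoD_317.int_null r d n C0 hC0 p hp hpd
  refine ⟨1 + D * C1, n1, by nlinarith [show (0 : ℝ) ≤ D * C1 by positivity], ?_⟩
  intro m R hR hU w μ hμ ρ hρ hρa T hT A
  have hρT : 1 ≤ ρ * T := one_le_mul_of_one_le_of_one_le hρ hT
  -- representatives
  have hmB : ∀ b ∈ BB, b ∈ R.MK.B := fun b hb => (hU.2 b (hBB' hb)).1
  have hJm : jac L bas y ∈ R.MK.B := hmB _ (by simp [hBB])
  have hym : ∀ l, y l ∈ R.MK.B := fun l => hmB _ (by simp [hBB])
  have hWm : ∀ i, W i ∈ R.MK.B := fun i => hmB _ (by simp [hBB])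
  have hdm : ∀ l k, bas.repr (KaehlerDifferential.D L K (y l)) k ∈ R.MK.B := fun l k =>
    hmB _ (by
      rw [hBB]
      exact Finset.mem_union_right _ (Finset.mem_biUnion.2 ⟨l, Finset.mem_univ _,
        Finset.mem_image_of_mem _ (Finset.mem_univ _)⟩))
  set yB : Fin r → R.MK.B := fun l => ⟨y l, hym l⟩ with hyB
  set WB : Fin s → R.MK.B := fun i => ⟨W i, hWm i⟩ with hWB
  set JB : R.MK.B := ⟨jac L bas y, hJm⟩ with hJB
  set b' : Fin r → Fin r → R.MK.B := fun l k => ⟨_, hdm l k⟩ with hb'
  -- the weight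
  obtain ⟨P, hPdeg, hPm, hPx⟩ : ∃ P : MvPolynomial (Fin r) ℂ, (∀ i, P.degreeOf i ≤ d) ∧
      (∃ m, ‖A‖ ≤ C0 * ρ ^ n * ‖P.coeff m‖) ∧
      ((A = 0 ∧ 0 < p) ∨ ∀ x : R.Fib w, x ∈ piece bas N u y R w T →
        (‖∑ i, A i * (x.val) (WB i)‖ₑ ^ (-p) ≤ ENNReal.ofReal (C0 * (ρ * T) ^ n) ^ p *
          ‖MvPolynomial.eval (fun l => (x.val) (yB l)) P‖ₑ ^ (-p))) := by
    by_cases hA : A = 0
    · refine ⟨1, fun i => by simp, ⟨0, ?_⟩, ?_⟩
      · rw [hA]
        simp
        positivity
      · rcases hp.eq_or_lt with hp00 | hp00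
        · right
          intro x _
          rw [← hp00]
          simp
        · exact Or.inl ⟨hA, hp00⟩
    · obtain ⟨P, h1, h2, h3⟩ := hnull (R.ML.B.val : R.ML.B →+* L) (R.MK.B.val : R.MK.B →+* K)
        Subtype.val_injective Subtype.val_injective
        (fun l hl => ⟨⟨l, (hU.1 l (hAA' hl)).1⟩, rfl⟩) (R.incl : R.ML.B →+* R.MK.B)
        (fun b => rfl) yB (fun _ => rfl) WB (fun _ => rfl) (w : R.ML.B →+* ℂ) ρ hρ
        (fun b hb => by
          have h4 := hρa _ (hAA' hb)
          have h5 : ek R.ML ((R.ML.B.val : R.ML.B →+* L) b) w = w b := ek_coe R.ML b w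
          rw [h5] at h4
          exact h4) A hA
      refine ⟨P, h1, h2, Or.inr fun x hx => ?_⟩
      have h4 := h3 (x.val : R.MK.B →+* ℂ) (fun b => by
        have h5 := x.q_eq
        exact congrArg (fun f : R.ML.B →ₐ[ℂ] ℂ => f b) h5) T hT
        (fun l => by
          have h5 := hx.1 l
          rwa [ek_of_mem R.MK (hym l)] at h5)
        (fun i => by
          have h5 := hx.2 i
          rwa [ek_of_mem R.MK (hWm i)] at h5)
      apply rpow_le_aux _ ENNReal.ofReal_ne_top _ hp
      · rw [Ne, ENNReal.ofReal_eq_zero, not_le]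
        positivity
      · rw [← ofReal_norm, ← ofReal_norm, ← ENNReal.ofReal_mul (by positivity)]
        exact ENNReal.ofReal_le_ofReal h4
  rcases hPx with ⟨hA, hp00⟩ | hPx
  · have h1 : ‖A‖ₑ ^ (-p) = ⊤ := by
      rw [hA, enorm_zero, ENNReal.zero_rpow_of_neg (by linarith)]
    rw [h1, ENNReal.mul_top]
    · exact le_top
    · rw [Ne, ENNReal.ofReal_eq_zero, not_le]
      positivity
  -- the area formula
  have harea := area_fib R hR yB (fun _ => rfl) (J := JB) rfl b' (fun _ _ => rfl) w hμ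
    (measurableSet_piece bas N u y R w T) (T := T) (by linarith)
    (fun x hx l => by
      have h5 := hx.1 l
      rwa [ek_of_mem R.MK (hym l)] at h5)
    (wt := fun η => ENNReal.ofReal (C0 * (ρ * T) ^ n) ^ p * ‖MvPolynomial.eval η P‖ₑ ^ (-p))
    (((SkoA_567.measurable_eval P).enorm.pow_const _).const_mul _)
    (F := fun x => ‖ek R.MK (jac L bas y) x.val‖ₑ ^ (2 : ℕ) *
      ‖∑ i, A i * ek R.MK (fr bas y N (u i)) x.val‖ₑ ^ (-p))
    (fun x hx => by
      have h1 := hPx x hx
      have h2 : ∀ i, ek R.MK (fr bas y N (u i)) x.val = (x.val) (WB i) :=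
        fun i => ek_of_mem R.MK (hWm i) _
      simp only [h2]
      rw [ek_of_mem R.MK hJm]
      exact mul_le_mul_right h1 _)
  refine harea.trans ?_
  calc (D : ℝ≥0∞) * ∫⁻ η in Metric.closedBall (0 : Fin r → ℂ) T,
        ENNReal.ofReal (C0 * (ρ * T) ^ n) ^ p * ‖MvPolynomial.eval η P‖ₑ ^ (-p)
      ≤ (D : ℝ≥0∞) * (ENNReal.ofReal (C1 * (ρ * T) ^ n1) * ‖A‖ₑ ^ (-p)) :=
        mul_le_mul_right (hint s A ρ T hρ hT P hPdeg hPm) _
    _ = ENNReal.ofReal (D * (C1 * (ρ * T) ^ n1)) * ‖A‖ₑ ^ (-p) := by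
        rw [ENNReal.ofReal_mul (p := (D : ℝ)) (q := C1 * (ρ * T) ^ n1) (Nat.cast_nonneg D),
          ENNReal.ofReal_natCast, mul_assoc]
    _ ≤ ENNReal.ofReal ((1 + D * C1) * (ρ * T) ^ n1) * ‖A‖ₑ ^ (-p) := by
        refine mul_le_mul_left (ENNReal.ofReal_le_ofReal ?_) _
        have h1 : 0 ≤ (ρ * T) ^ n1 := by positivity
        nlinarith

/-- **the piece estimates for all frames** -/
theorem exists_pe_all (hac : ∀ x : K, IsAlgebraic L x → x ∈ Set.range (algebraMap L K))
    (bas : Module.Basis (Fin r) K (Ω[K⁄L])) (N : ℕ) (Y : Finset (Fin r → K))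
    (hY : ∀ y ∈ Y, jac L bas y ≠ 0) {s : ℕ} {u : Fin s → K} (hu : LinearIndependent L u) :
    ∃ p0 : ℝ, 0 < p0 ∧ ∃ (AA : Finset L) (BB : Finset K), ∀ (AA' : Finset L) (BB' : Finset K),
      AA ⊆ AA' → BB ⊆ BB' → ∀ p : ℝ, 0 ≤ p → p < p0 → ∀ y ∈ Y, PE bas N u y AA' BB' p := by
  classical
  induction Y using Finset.induction_on with
  | empty => exact ⟨1, one_pos, ∅, ∅, fun _ _ _ _ _ _ _ y hy => absurd hy (by simp)⟩
  | insert y Y _ ih =>
    obtain ⟨p1, hp1, A1, B1, h1⟩ := ih fun y' hy' => hY y' (Finset.mem_insert_of_mem hy')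
    obtain ⟨p2, hp2, A2, B2, h2⟩ := exists_pe hac bas N (hY y (Finset.mem_insert_self _ _)) hu
    refine ⟨min p1 p2, lt_min hp1 hp2, A1 ∪ A2, B1 ∪ B2, fun AA' BB' hA hB p hp hpp y' hy' => ?_⟩
    rcases Finset.mem_insert.1 hy' with rfl | hy'
    · exact h2 AA' BB' (Finset.union_subset_right hA) (Finset.union_subset_right hB) p hp
        (hpp.trans_le (min_le_right _ _))
    · exact h1 AA' BB' (Finset.union_subset_left hA) (Finset.union_subset_left hB) p hp
        (hpp.trans_le (min_le_left _ _)) y' hy'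

end rel

end Crest.Agent.R276.SkoQ_425
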