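import Crest.Agent.R276.OTB_189
import Crest.Agent.R276.Pb_748
import Crest.Agent.R300.An1
import Crest.Agent.R276.Sl_748
import Crest.Agent.R276.Ann_696
import Crest.Agent.R276.W2pg_505
import Crest.Agent.R276.Mod4_987
import Crest.Agent.R266.Osgood
import Crest.Agent.R276.C1bdD_986
import Crest.Agent.R276.WPack_505
import Crest.Agent.R276.AcOpen_89

-- ▼ part R276/OTd_748
section

/-!
# Row 276, W2 (helper748): discharge of the Ohsawa–Takegoshi input `OTS` of `Pb_748`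
with helper189's `OTF_189.ot_dec`.
-/

set_option autoImplicit false
set_option linter.unusedSectionVars false
set_option maxHeartbeats 800000

noncomputable section

open Set Filter Topology MeasureTheory Metric
open scoped ENNReal

namespace Crest.Agent.R276.P_748

open Crest.Agent.R271 Crest.Agent.R271.Ho51 Crest.Agent.R273.Dir73
  Crest.Agent.R276.EngU_29 Crest.Agent.R276.OTF_189 Crest.Agent.R276.PV_159
  Crest.Agent.R273.OTD_34 Crest.Agent.R273.Reg_844 Crest.Agent.R276.OTB_189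
open Crest.Agent.R271.W792 (Levi_eq_lev lev lev_const)

theorem ots {R : ℝ} (hR : 0 < R) : OTS R := by
  refine ⟨ENNReal.ofReal (R ^ 2) * ENNReal.ofReal (Cot 1 * Real.pi),
    ENNReal.mul_ne_top ENNReal.ofReal_ne_top ENNReal.ofReal_ne_top, fun D _ => ?_⟩
  letI : MeasurableSpace (Hs D.P (hyp (n := D.a) 0)) := borel _
  haveI : BorelSpace (Hs D.P (hyp (n := D.a) 0)) := ⟨rfl⟩
  obtain ⟨μ, hμ⟩ := exists_leb (M := D.P)
  obtain ⟨μD, hμD⟩ := exists_leb (M := Hs D.P (hyp (n := D.a) 0))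
  have hfD : Hol (fun y : Hs D.P (hyp (n := D.a) 0) => D.s (ι y)) :=
    hol_of_FHol (fun e he => D.s_hol.diffOn he)
  have hR2 : (0 : ℝ) < R ^ 2 := by positivity
  have hcs : ∀ (x : D.P) (w : Fin (D.a + 1) → ℂ), Levi (fun _ : D.P => Real.log (R ^ 2)) x w = 0 := by
    intro x w
    rw [Levi_eq_lev (Sm.const _), lev_const]
  obtain ⟨F, hF, hFf, hFb⟩ := ot_dec hμ hμD D.ρ_sm D.ρ_cpt
    (fun x w => by rw [Levi_eq_lev D.ρ_sm]; exact D.ρ_lev x w)
    (a := hyp (n := D.a) 0) (Ψ := fun _ => Real.log (R ^ 2)) (φ := D.φ) (Sm.const _) D.φ_sm D.φ_anti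
    (fun x => by
      rw [Real.exp_log hR2, ell_hyp, sub_zero]
      have := (D.tR x).le
      have h0 := norm_nonneg (tc x)
      exact pow_le_pow_left₀ h0 this 2)
    one_pos le_rfl (fun x w => by rw [hcs]) (fun k x w => by
      rw [hcs, mul_zero, Levi_eq_lev (D.φ_sm k)]
      exact D.φ_lev k x w) hfD
  have hen : ∀ c : ℂ, ‖c‖ₑ ^ 2 = ENNReal.ofReal (‖c‖ ^ 2) := fun c => by
    rw [← ofReal_norm, ENNReal.ofReal_pow (norm_nonneg _)]
  refine ⟨F, hF, fun x hx => ?_, ?_⟩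
  · have h1 : ell (hyp 0) (cp x) = 0 := by rw [ell_hyp]; exact sub_eq_zero.2 hx
    exact hFf (mkHs x h1)
  · have hFc : Continuous F := T7a297.Hol.continuous hF
    have hfc : Continuous (fun y : Hs D.P (hyp (n := D.a) 0) => D.s (ι y)) := T7a297.Hol.continuous hfD
    have h1 : ∫⁻ t, D.nrm F t = ∫⁻ x, D.dens F x ∂μ :=
      (lintegral_eq_fi hμ (D.dens_meas hFc.measurable)).symm
    have h2 : D.nrm D.s 0 = ∫⁻ y : Hs D.P (hyp (n := D.a) 0), D.dens D.s (ι y) ∂μD := by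
      refine (lintegral_Hs_eq_fi hμD (g := D.dens D.s) ?_).symm
      exact (hfc.measurable.enorm.pow_const 2).mul (D.wt_meas.comp continuous_ι.measurable)
    have h3 : ∫⁻ x, ENNReal.ofReal (‖F x‖ ^ 2) * ENNReal.ofReal (Real.exp (-Real.log (R ^ 2))) *
        (⨆ k, ENNReal.ofReal (Real.exp (-D.φ k x))) ∂μ =
        ENNReal.ofReal ((R ^ 2)⁻¹) * ∫⁻ x, D.dens F x ∂μ := by
      rw [← lintegral_const_mul _ (D.dens_meas hFc.measurable)]
      refine lintegral_congr fun x => ?_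
      rw [Real.exp_neg, Real.exp_log hR2]
      unfold PD.dens PD.wt
      rw [hen]
      ring
    rw [h3] at hFb
    have h4 : ∫⁻ y : Hs D.P (hyp (n := D.a) 0), ENNReal.ofReal (‖D.s (ι y)‖ ^ 2) *
        (⨆ k, ENNReal.ofReal (Real.exp (-D.φ k (ι y)))) ∂μD =
        ∫⁻ y : Hs D.P (hyp (n := D.a) 0), D.dens D.s (ι y) ∂μD := by
      refine lintegral_congr fun y => ?_
      unfold PD.dens PD.wt
      rw [hen]
    rw [h4, ← h2, ← h1] at hFb
    calc ∫⁻ t, D.nrm F t = ENNReal.ofReal (R ^ 2) *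
          (ENNReal.ofReal ((R ^ 2)⁻¹) * ∫⁻ t, D.nrm F t) := by
          rw [← mul_assoc, ← ENNReal.ofReal_mul hR2.le, mul_inv_cancel₀ hR2.ne', ENNReal.ofReal_one,
            one_mul]
      _ ≤ ENNReal.ofReal (R ^ 2) * (ENNReal.ofReal (Cot 1 * Real.pi) * D.nrm D.s 0) := by
          gcongr
      _ = _ := by rw [mul_assoc]

end Crest.Agent.R276.P_748
end
end

-- ▼ part R276/Jen_748
section

/-!
# Row 276, W2 (helper748): from the tensor power inequality to the sub-mean value property on circles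
(one complex variable)
-/

set_option autoImplicit false
set_option linter.unusedSectionVars false

noncomputable section

open Set Filter Topology MeasureTheory Metric
open scoped ENNReal Real

namespace Crest.Agent.R276.Jen_748

/-- the uniform probability measure on the angles `(-π, π)` -/
def cm : Measure ℝ := ENNReal.ofReal (2 * π)⁻¹ • volume.restrict (Ioo (-π) π)

lemma two_pi_pos' : (0 : ℝ) < 2 * π := by positivity

instance : IsProbabilityMeasure cm := by
  constructor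
  simp only [cm, Measure.smul_apply, smul_eq_mul, Measure.restrict_apply_univ, Real.volume_Ioo]
  rw [← ENNReal.ofReal_mul (by positivity)]
  have : (2 * π)⁻¹ * (π - -π) = 1 := by
    have := Real.pi_pos
    field_simp
    ring
  rw [this, ENNReal.ofReal_one]

lemma circleAverage_eq (f : ℂ → ℝ) (r : ℝ) :
    Real.circleAverage f 0 r = ∫ θ, f (circleMap 0 r θ) ∂cm := by
  rw [Real.circleAverage_eq_integral_add (-π),
    intervalIntegral.integral_comp_add_right (fun θ => f (circleMap 0 r θ))]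
  have h1 : (0 : ℝ) + -π = -π := by ring
  have h2 : 2 * π + -π = π := by ring
  rw [h1, h2, intervalIntegral.integral_of_le (by linarith [Real.pi_pos]), cm,
    integral_smul_measure, ENNReal.toReal_ofReal (by positivity), integral_Ioc_eq_integral_Ioo]

/-- polar coordinates -/
lemma lintegral_polar {A : ℂ → ℝ≥0∞} (hA : Measurable A) :
    ∫⁻ z, A z = ∫⁻ r in Ioi (0 : ℝ), ENNReal.ofReal (2 * π * r) * ∫⁻ θ, A (circleMap 0 r θ) ∂cm := by
  rw [← Complex.lintegral_comp_polarCoord_symm]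
  have h0 : ∀ p : ℝ × ℝ, Complex.polarCoord.symm p = circleMap 0 p.1 p.2 := by
    intro p
    rw [Complex.polarCoord_symm_apply, circleMap, zero_add, Complex.exp_mul_I]
    push_cast
    ring
  simp only [h0]
  have hm : Measurable fun p : ℝ × ℝ => ENNReal.ofReal p.1 • A (circleMap 0 p.1 p.2) := by
    refine (measurable_fst.ennreal_ofReal).smul (hA.comp ?_)
    refine Continuous.measurable ?_
    unfold circleMap
    fun_prop
  have ht : polarCoord.target = Ioi (0 : ℝ) ×ˢ Ioo (-π) π := rfl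
  rw [ht, Measure.volume_eq_prod, ← Measure.prod_restrict, lintegral_prod _ hm.aemeasurable]
  refine setLIntegral_congr_fun measurableSet_Ioi fun r hr => ?_
  have hr' : (0 : ℝ) < r := hr
  have hm2 : Measurable fun θ : ℝ => A (circleMap 0 r θ) :=
    hA.comp (continuous_circleMap 0 r).measurable
  simp only [smul_eq_mul]
  rw [lintegral_const_mul _ hm2, cm, lintegral_smul_measure, smul_eq_mul, ← mul_assoc,
    ← ENNReal.ofReal_mul (by positivity)]
  congr 2
  have := Real.pi_pos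
  field_simp

lemma measurable_circ {A : ℂ → ℝ≥0∞} (hA : Measurable A) :
    Measurable fun r : ℝ => ∫⁻ θ, A (circleMap 0 r θ) ∂cm := by
  refine Measurable.lintegral_prod_right' (f := fun p : ℝ × ℝ => A (circleMap 0 p.1 p.2)) ?_
  refine hA.comp (Continuous.measurable ?_)
  unfold circleMap
  fun_prop

lemma cont_integrable {f : ℝ → ℝ} (hf : Continuous f) : Integrable f cm := by
  refine Integrable.smul_measure ?_ ENNReal.ofReal_ne_top
  exact (hf.integrableOn_Icc (a := -π) (b := π)).mono_set Ioo_subset_Icc_self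

lemma integrable_of_bdd {f : ℝ → ℝ} (hf : Measurable f) {a b : ℝ} (ha : ∀ θ, a ≤ f θ)
    (hb : ∀ θ, f θ ≤ b) : Integrable f cm := by
  refine Integrable.of_bound hf.aestronglyMeasurable (max |a| |b|) ?_
  refine Eventually.of_forall fun θ => ?_
  rw [Real.norm_eq_abs, abs_le]
  constructor
  · have := neg_abs_le a
    have := le_max_left |a| |b|
    linarith [ha θ]
  · have := le_abs_self b
    have := le_max_right |a| |b|
    linarith [hb θ]

/-! ### Jensen -/

/-- tangent line inequality for `log (e^{κ x} + δ)` -/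
lemma tangent {κ δ x x0 : ℝ} (hδ : 0 < δ) :
    Real.log (Real.exp (κ * x0) + δ) + Real.exp (κ * x0) / (Real.exp (κ * x0) + δ) *
      (κ * x - κ * x0) ≤ Real.log (Real.exp (κ * x) + δ) := by
  set E := Real.exp (κ * x0) with hE
  have hE0 : 0 < E := Real.exp_pos _
  have hs : 0 < E + δ := by positivity
  set p := E / (E + δ) with hp
  have hp0 : 0 ≤ p := by positivity
  have hp1 : 0 ≤ 1 - p := by
    rw [hp, sub_nonneg, div_le_one hs]; linarith
  have h1 := convexOn_exp.2 (mem_univ (κ * x - κ * x0)) (mem_univ (0 : ℝ)) hp0 hp1 (by ring)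
  simp only [smul_eq_mul, mul_zero, add_zero, Real.exp_zero, mul_one] at h1
  have h2 : (E + δ) * (p * Real.exp (κ * x - κ * x0) + (1 - p)) = Real.exp (κ * x) + δ := by
    have h3 : Real.exp (κ * x) = E * Real.exp (κ * x - κ * x0) := by
      rw [hE, ← Real.exp_add]; congr 1; ring
    rw [h3, hp]
    field_simp
    ring
  rw [← h2, Real.log_mul hs.ne' (by
    have := Real.exp_pos (p * (κ * x - κ * x0))
    linarith)]
  have h4 : p * (κ * x - κ * x0) ≤ Real.log (p * Real.exp (κ * x - κ * x0) + (1 - p)) := by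
    rw [Real.le_log_iff_exp_le (lt_of_lt_of_le (Real.exp_pos _) h1)]
    exact h1
  linarith

/-- sub-mean value property of `log (|h|^κ + δ)` -/
theorem jensen {h : ℂ → ℂ} {R r κ δ : ℝ} (hh : DifferentiableOn ℂ h (ball 0 R)) (hr : 0 < r)
    (hrR : r < R) (hκ : 0 < κ) (hδ : 0 < δ) (h0 : h 0 ≠ 0) :
    Real.log (‖h 0‖ ^ κ + δ) ≤ ∫ θ, Real.log (‖h (circleMap 0 r θ)‖ ^ κ + δ) ∂cm := by
  have han : AnalyticOnNhd ℂ h (closedBall 0 r) := by
    intro z hz
    have hz1 : z ∈ ball (0 : ℂ) R := mem_ball.2 (lt_of_le_of_lt (mem_closedBall.1 hz) hrR)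
    exact hh.analyticAt (isOpen_ball.mem_nhds hz1)
  have hn : 0 < ‖h 0‖ := norm_pos_iff.2 h0
  have hJ := R300.log_norm_le_circleAverage hr han h0
  rw [circleAverage_eq] at hJ
  have hint : Integrable (fun θ => Real.log ‖h (circleMap 0 r θ)‖) cm := by
    have h1 : MeromorphicOn h (sphere 0 |r|) := by
      rw [abs_of_pos hr]
      exact (han.mono sphere_subset_closedBall).meromorphicOn
    have h2 : CircleIntegrable (fun z => Real.log ‖h z‖) 0 r := h1.circleIntegrable_log_norm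
    have h3 : IntervalIntegrable (fun θ => Real.log ‖h (circleMap 0 r θ)‖) volume (-π) π := by
      have hper : Function.Periodic (fun θ => Real.log ‖h (circleMap 0 r θ)‖) (2 * π) := fun x => by
        simp [periodic_circleMap 0 r x]
      have h4 : IntervalIntegrable (fun θ => Real.log ‖h (circleMap 0 r θ)‖) volume 0
          (0 + 2 * π) := by rw [zero_add]; exact h2
      exact hper.intervalIntegrable two_pi_pos'.ne' h4 _ _
    refine Integrable.smul_measure ?_ ENNReal.ofReal_ne_top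
    exact (h3.1).mono_set Ioo_subset_Ioc_self
  have hcont : Continuous fun θ : ℝ => h (circleMap 0 r θ) :=
    hh.continuousOn.comp_continuous (continuous_circleMap 0 r) fun θ => by
      simp [abs_of_pos hr, hrR]
  have hint2 : Integrable (fun θ => Real.log (‖h (circleMap 0 r θ)‖ ^ κ + δ)) cm := by
    refine cont_integrable ?_
    refine Continuous.log ((hcont.norm.rpow_const fun _ => Or.inr hκ.le).add continuous_const)
      fun θ => ?_
    have : 0 ≤ ‖h (circleMap 0 r θ)‖ ^ κ := Real.rpow_nonneg (norm_nonneg _) _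
    positivity
  have hae : ∀ᵐ θ ∂cm, h (circleMap 0 r θ) ≠ 0 := by
    have h1 := R300.ae_circleMap_ne_zero hr han h0
    rw [uIoc_of_le two_pi_pos'.le] at h1
    rw [ae_restrict_iff' measurableSet_Ioc] at h1
    have h2 : ∀ᵐ θ : ℝ, θ - 2 * π ∈ Ioc 0 (2 * π) → h (circleMap 0 r (θ - 2 * π)) ≠ 0 :=
      (measurePreserving_sub_right volume (2 * π)).quasiMeasurePreserving.ae h1
    have h3 : ∀ᵐ θ : ℝ, θ + 2 * π ∈ Ioc 0 (2 * π) → h (circleMap 0 r (θ + 2 * π)) ≠ 0 :=
      (measurePreserving_add_right volume (2 * π)).quasiMeasurePreserving.ae h1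
    refine Measure.ae_smul_measure ?_ _
    rw [ae_restrict_iff' measurableSet_Ioo]
    filter_upwards [h1, h3] with θ g1 g3 hθ
    rcases lt_or_ge 0 θ with hp | hp
    · exact g1 ⟨hp, by linarith [hθ.2, Real.pi_pos]⟩
    · have g4 := g3 ⟨by linarith [hθ.1, Real.pi_pos], by linarith⟩
      rwa [periodic_circleMap 0 r θ] at g4
  set p := ‖h 0‖ ^ κ / (‖h 0‖ ^ κ + δ) with hp
  have hp0 : 0 ≤ p := by
    have : 0 < ‖h 0‖ ^ κ := Real.rpow_pos_of_pos hn κ
    positivity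
  have key : ∀ᵐ θ ∂cm, Real.log (‖h 0‖ ^ κ + δ) + p * κ *
      (Real.log ‖h (circleMap 0 r θ)‖ - Real.log ‖h 0‖) ≤
        Real.log (‖h (circleMap 0 r θ)‖ ^ κ + δ) := by
    filter_upwards [hae] with θ hθ
    have hn' : 0 < ‖h (circleMap 0 r θ)‖ := norm_pos_iff.2 hθ
    have h1 := tangent (κ := κ) (δ := δ) (x := Real.log ‖h (circleMap 0 r θ)‖)
      (x0 := Real.log ‖h 0‖) hδ
    have e1 : Real.exp (κ * Real.log ‖h 0‖) = ‖h 0‖ ^ κ := by
      rw [Real.rpow_def_of_pos hn, mul_comm]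
    have e2 : Real.exp (κ * Real.log ‖h (circleMap 0 r θ)‖) = ‖h (circleMap 0 r θ)‖ ^ κ := by
      rw [Real.rpow_def_of_pos hn', mul_comm]
    rw [e1, e2] at h1
    rw [← hp] at h1
    linarith
  have h5 := integral_mono_ae (((integrable_const (Real.log (‖h 0‖ ^ κ + δ))).add
    ((hint.sub (integrable_const (Real.log ‖h 0‖))).const_mul (p * κ)))) hint2 key
  refine le_trans ?_ h5
  have hi : Integrable (fun θ => p * κ * (Real.log ‖h (circleMap 0 r θ)‖ - Real.log ‖h 0‖)) cm :=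
    (hint.sub (integrable_const (Real.log ‖h 0‖))).const_mul (p * κ)
  have h6 : ∫ θ, (Real.log (‖h 0‖ ^ κ + δ) + p * κ *
      (Real.log ‖h (circleMap 0 r θ)‖ - Real.log ‖h 0‖)) ∂cm = Real.log (‖h 0‖ ^ κ + δ) +
      p * κ * (∫ θ, Real.log ‖h (circleMap 0 r θ)‖ ∂cm - Real.log ‖h 0‖) := by
    rw [integral_add (integrable_const _) hi, integral_const_mul,
      integral_sub hint (integrable_const _)]
    simp
  have h7 : 0 ≤ p * κ * (∫ θ, Real.log ‖h (circleMap 0 r θ)‖ ∂cm - Real.log ‖h 0‖) :=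
    mul_nonneg (mul_nonneg hp0 hκ.le) (sub_nonneg.2 hJ)
  calc Real.log (‖h 0‖ ^ κ + δ) ≤ Real.log (‖h 0‖ ^ κ + δ) +
      p * κ * (∫ θ, Real.log ‖h (circleMap 0 r θ)‖ ∂cm - Real.log ‖h 0‖) := by linarith
    _ = _ := h6.symm

/-! ### the main statement -/

/-- the ENNReal valued version of `log (x + δ) - log δ` -/
def F (δ x : ℝ) : ℝ≥0∞ := ENNReal.ofReal (Real.log (x + δ) - Real.log δ)

lemma F_mono {δ x y : ℝ} (hδ : 0 < δ) (hx : 0 ≤ x) (h : x ≤ y) : F δ x ≤ F δ y := by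
  unfold F
  apply ENNReal.ofReal_le_ofReal
  have := Real.log_le_log (by linarith : 0 < x + δ) (by linarith : x + δ ≤ y + δ)
  linarith

lemma F_lt {δ x : ℝ} (hδ : 0 < δ) (hx : 0 ≤ x) {c : ℝ≥0∞} (h : F δ x < c) :
    ∃ y, x < y ∧ F δ y < c := by
  have h1 : ContinuousAt (F δ) x := by
    unfold F
    refine ENNReal.continuous_ofReal.continuousAt.comp ?_
    refine ContinuousAt.sub ?_ continuousAt_const
    exact ContinuousAt.log (by fun_prop) (by positivity)
  have h2 : ∀ᶠ y in 𝓝 x, F δ y < c := h1.eventually_lt continuousAt_const h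
  have h3 : ∀ᶠ y in 𝓝[>] x, F δ y < c := mem_nhdsWithin_of_mem_nhds h2
  obtain ⟨y, hy1, hy2⟩ := (h3.and self_mem_nhdsWithin).exists
  exact ⟨y, hy2, hy1⟩

/-- pointwise estimate -/
lemma pointwise {δ : ℝ} (hδ : 0 < δ) {b : ℝ} (hb : 0 ≤ b) {A : ℝ≥0∞} {w : ℂ} {j : ℕ}
    (h : ‖w‖ₑ ^ 2 ≤ ENNReal.ofReal b ^ (j + 1) * A) :
    F δ (‖w‖ ^ (2 / ((j : ℝ) + 1))) ≤ F δ b + A / ((j : ℝ≥0∞) + 1) := by
  have hj : (0 : ℝ) < (j : ℝ) + 1 := by positivity
  have hjt : ((j : ℝ≥0∞) + 1) ≠ ∞ := by finiteness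
  rcases eq_or_ne A ∞ with rfl | hA
  · rw [ENNReal.top_div_of_ne_top hjt]
    simp
  · obtain ⟨a, ha⟩ : ∃ a : ℝ, 0 ≤ a ∧ A = ENNReal.ofReal a :=
      ⟨A.toReal, ENNReal.toReal_nonneg, (ENNReal.ofReal_toReal hA).symm⟩
    obtain ⟨ha0, rfl⟩ := ha
    have h1 : ‖w‖ ^ 2 ≤ b ^ (j + 1) * a := by
      rw [← ENNReal.ofReal_pow hb, ← ENNReal.ofReal_mul (by positivity), ← ofReal_norm,
        ← ENNReal.ofReal_pow (norm_nonneg _)] at h
      exact (ENNReal.ofReal_le_ofReal_iff (by positivity)).1 h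
    have h2 : ‖w‖ ^ (2 / ((j : ℝ) + 1)) ≤ b * Real.exp (a / ((j : ℝ) + 1)) := by
      calc ‖w‖ ^ (2 / ((j : ℝ) + 1)) = (‖w‖ ^ 2) ^ (1 / ((j : ℝ) + 1)) := by
            rw [← Real.rpow_natCast, ← Real.rpow_mul (norm_nonneg _)]
            congr 1
            push_cast
            ring
        _ ≤ (b ^ (j + 1) * a) ^ (1 / ((j : ℝ) + 1)) := by gcongr
        _ ≤ (b ^ (j + 1) * Real.exp a) ^ (1 / ((j : ℝ) + 1)) := by
            have h5 : a ≤ Real.exp a := by linarith [Real.add_one_le_exp a]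
            gcongr
        _ = b * Real.exp (a / ((j : ℝ) + 1)) := by
            rw [Real.mul_rpow (by positivity) (Real.exp_pos _).le, ← Real.exp_mul,
              ← Real.rpow_natCast, ← Real.rpow_mul hb]
            push_cast
            rw [mul_one_div_cancel hj.ne', Real.rpow_one, mul_one_div]
    have h3 : ENNReal.ofReal a / ((j : ℝ≥0∞) + 1) = ENNReal.ofReal (a / ((j : ℝ) + 1)) := by
      rw [ENNReal.ofReal_div_of_pos hj]
      congr 1
      rw [ENNReal.ofReal_add (by positivity) one_pos.le]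
      simp
    rw [h3]
    have h4 : 0 ≤ a / ((j : ℝ) + 1) := by positivity
    have h6 : 1 ≤ Real.exp (a / ((j : ℝ) + 1)) := Real.one_le_exp h4
    have h7 : 0 ≤ Real.log (b + δ) - Real.log δ := by
      have := Real.log_le_log hδ (by linarith : δ ≤ b + δ)
      linarith
    unfold F
    rw [← ENNReal.ofReal_add h7 h4]
    apply ENNReal.ofReal_le_ofReal
    have h8 : ‖w‖ ^ (2 / ((j : ℝ) + 1)) + δ ≤ (b + δ) * Real.exp (a / ((j : ℝ) + 1)) := by
      nlinarith
    have h9 : 0 ≤ ‖w‖ ^ (2 / ((j : ℝ) + 1)) := Real.rpow_nonneg (norm_nonneg _) _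
    have h10 := Real.log_le_log (by linarith) h8
    rw [Real.log_mul (by positivity) (Real.exp_pos _).ne', Real.log_exp] at h10
    linarith

/-- **from the tensor powers to the sub-mean value property on the unit circle** -/
theorem circ {R : ℝ} (hR : 1 < R) {β : ℂ → ℝ} (hβ0 : ∀ l, 0 ≤ β l)
    (hβ : UpperSemicontinuousOn β (ball 0 R)) {s0 : ℂ} {C : ℝ≥0∞} (hC : C ≠ ∞) {δ : ℝ} (hδ : 0 < δ)
    (H : ∀ j : ℕ, ∃ (h : ℂ → ℂ) (A : ℂ → ℝ≥0∞), DifferentiableOn ℂ h (ball 0 R) ∧ Measurable A ∧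
      ∫⁻ l, A l ≤ C ∧ h 0 = s0 ^ (j + 1) ∧
      ∀ l ∈ ball (0 : ℂ) R, ‖h l‖ₑ ^ 2 ≤ ENNReal.ofReal (β l) ^ (j + 1) * A l) :
    Real.log (‖s0‖ ^ 2 + δ) ≤ Real.circleAverage (fun w => Real.log (β w + δ)) 0 1 := by
  have hpi := Real.pi_pos
  -- measurability and bounds on circles
  have hmem : ∀ r : ℝ, 0 < r → r < R → ∀ θ, circleMap 0 r θ ∈ ball (0 : ℂ) R := by
    intro r hr hrR θ
    simp [abs_of_pos hr, hrR]
  have husc : ∀ r : ℝ, 0 < r → r < R → UpperSemicontinuous fun θ : ℝ => β (circleMap 0 r θ) := by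
    intro r hr hrR θ y hy
    have h1 := hβ _ (hmem r hr hrR θ) y hy
    have h2 : Tendsto (fun θ : ℝ => circleMap 0 r θ) (𝓝 θ) (𝓝[ball 0 R] (circleMap 0 r θ)) :=
      tendsto_nhdsWithin_iff.2 ⟨(continuous_circleMap 0 r).tendsto θ,
        Eventually.of_forall fun θ => hmem r hr hrR θ⟩
    exact h2.eventually h1
  have hβm : ∀ r : ℝ, 0 < r → r < R → Measurable fun θ : ℝ => β (circleMap 0 r θ) :=
    fun r hr hrR => (husc r hr hrR).measurable
  have hFm : ∀ r : ℝ, 0 < r → r < R → Measurable fun θ : ℝ => F δ (β (circleMap 0 r θ)) := by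
    intro r hr hrR
    unfold F
    exact ((Real.measurable_log.comp ((hβm r hr hrR).add_const δ)).sub_const _).ennreal_ofReal
  set R1 : ℝ := (1 + R) / 2 with hR1
  have hR1a : 1 < R1 := by rw [hR1]; linarith
  have hR1b : R1 < R := by rw [hR1]; linarith
  obtain ⟨K, hK⟩ : ∃ K : ℝ, ∀ z ∈ closedBall (0 : ℂ) R1, β z ≤ K := by
    have h1 : UpperSemicontinuousOn β (closedBall 0 R1) :=
      hβ.mono (closedBall_subset_ball hR1b)
    obtain ⟨K, hK⟩ := h1.bddAbove_of_isCompact (isCompact_closedBall 0 R1)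
    exact ⟨K, fun z hz => hK ⟨z, hz, rfl⟩⟩
  have hcl : ∀ r : ℝ, 0 < r → r ≤ R1 → ∀ θ, circleMap 0 r θ ∈ closedBall (0 : ℂ) R1 := by
    intro r hr hrR θ
    simp [abs_of_pos hr, hrR]
  set T : ℝ≥0∞ := F δ (‖s0‖ ^ 2) with hT
  set G : ℝ → ℝ≥0∞ := fun r => ∫⁻ θ, F δ (β (circleMap 0 r θ)) ∂cm with hG
  choose h A hhd hAm hAC hh0 hhA using H
  -- step 1
  have step1 : ∀ (j : ℕ) (r : ℝ), 0 < r → r < R →
      T ≤ G r + (∫⁻ θ, A j (circleMap 0 r θ) ∂cm) / ((j : ℝ≥0∞) + 1) := by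
    intro j r hr hrR
    rcases eq_or_ne s0 0 with hs | hs
    · have : T = 0 := by rw [hT, hs]; simp [F]
      rw [this]; exact zero_le
    have hj : (0 : ℝ) < (j : ℝ) + 1 := by positivity
    have hh0' : h j 0 ≠ 0 := by rw [hh0]; exact pow_ne_zero _ hs
    have hJ := jensen (hhd j) hr hrR (κ := 2 / ((j : ℝ) + 1)) (by positivity) hδ hh0'
    have e0 : ‖h j 0‖ ^ (2 / ((j : ℝ) + 1)) = ‖s0‖ ^ 2 := by
      rw [hh0, norm_pow, ← Real.rpow_natCast, ← Real.rpow_mul (norm_nonneg _)]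
      push_cast
      rw [mul_div_cancel₀ _ hj.ne']
      exact_mod_cast Real.rpow_natCast ‖s0‖ 2
    rw [e0] at hJ
    have hcont : Continuous fun θ : ℝ => h j (circleMap 0 r θ) :=
      (hhd j).continuousOn.comp_continuous (continuous_circleMap 0 r) (hmem r hr hrR)
    have hnn : ∀ θ, 0 ≤ ‖h j (circleMap 0 r θ)‖ ^ (2 / ((j : ℝ) + 1)) := fun θ =>
      Real.rpow_nonneg (norm_nonneg _) _
    have hcont2 : Continuous fun θ : ℝ => Real.log
        (‖h j (circleMap 0 r θ)‖ ^ (2 / ((j : ℝ) + 1)) + δ) := by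
      refine Continuous.log ((hcont.norm.rpow_const fun _ => Or.inr (by positivity)).add
        continuous_const) fun θ => ?_
      have := hnn θ
      positivity
    have hi3 : Integrable (fun θ : ℝ => Real.log
        (‖h j (circleMap 0 r θ)‖ ^ (2 / ((j : ℝ) + 1)) + δ) - Real.log δ) cm :=
      cont_integrable (hcont2.sub continuous_const)
    have hAmc : Measurable fun θ : ℝ => A j (circleMap 0 r θ) :=
      (hAm j).comp (continuous_circleMap 0 r).measurable
    calc T = ENNReal.ofReal (Real.log (‖s0‖ ^ 2 + δ) - Real.log δ) := rfl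
      _ ≤ ENNReal.ofReal (∫ θ, (Real.log (‖h j (circleMap 0 r θ)‖ ^ (2 / ((j : ℝ) + 1)) + δ) -
          Real.log δ) ∂cm) := by
          apply ENNReal.ofReal_le_ofReal
          rw [integral_sub (cont_integrable hcont2) (integrable_const _)]
          simp only [integral_const, probReal_univ, one_smul]
          linarith
      _ = ∫⁻ θ, F δ (‖h j (circleMap 0 r θ)‖ ^ (2 / ((j : ℝ) + 1))) ∂cm := by
          rw [ofReal_integral_eq_lintegral_ofReal hi3]
          · rfl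
          · refine Eventually.of_forall fun θ => ?_
            have h3 := Real.log_le_log hδ (by linarith [hnn θ] :
              δ ≤ ‖h j (circleMap 0 r θ)‖ ^ (2 / ((j : ℝ) + 1)) + δ)
            simp only [Pi.zero_apply]
            linarith
      _ ≤ ∫⁻ θ, (F δ (β (circleMap 0 r θ)) + A j (circleMap 0 r θ) / ((j : ℝ≥0∞) + 1)) ∂cm :=
          lintegral_mono fun θ => pointwise hδ (hβ0 _) (hhA j _ (hmem r hr hrR θ))
      _ = _ := by
          rw [lintegral_add_left (hFm r hr hrR)]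
          congr 1
          simp only [div_eq_mul_inv]
          rw [lintegral_mul_const _ hAmc]
  -- step 2
  set J : ℝ → ℝ≥0∞ := fun r => ⨅ j : ℕ, (∫⁻ θ, A j (circleMap 0 r θ) ∂cm) / ((j : ℝ≥0∞) + 1)
    with hJ
  have hJm : Measurable J := Measurable.iInf fun j => (measurable_circ (hAm j)).div_const _
  have hJ0 : ∫⁻ r in Ioo 1 R, J r = 0 := by
    have h1 : ∀ j : ℕ, ∫⁻ r in Ioo 1 R, J r ≤ C / ((j : ℝ≥0∞) + 1) := by
      intro j
      calc ∫⁻ r in Ioo 1 R, J r ≤ ∫⁻ r in Ioo 1 R,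
            (ENNReal.ofReal (2 * π * r) * ∫⁻ θ, A j (circleMap 0 r θ) ∂cm) / ((j : ℝ≥0∞) + 1) := by
            refine setLIntegral_mono' measurableSet_Ioo fun r hr => ?_
            refine (iInf_le _ j).trans ?_
            refine ENNReal.div_le_div_right ?_ _
            have h2 : (1 : ℝ≥0∞) ≤ ENNReal.ofReal (2 * π * r) := by
              rw [← ENNReal.ofReal_one]
              apply ENNReal.ofReal_le_ofReal
              have := Real.pi_gt_three
              nlinarith [hr.1]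
            calc _ = 1 * ∫⁻ θ, A j (circleMap 0 r θ) ∂cm := (one_mul _).symm
              _ ≤ _ := by gcongr
        _ = (∫⁻ r in Ioo 1 R, ENNReal.ofReal (2 * π * r) * ∫⁻ θ, A j (circleMap 0 r θ) ∂cm) /
            ((j : ℝ≥0∞) + 1) := by
            simp only [div_eq_mul_inv]
            rw [lintegral_mul_const]
            refine Measurable.mul ?_ (measurable_circ (hAm j))
            exact (measurable_id.const_mul (2 * π)).ennreal_ofReal
        _ ≤ (∫⁻ r in Ioi 0, ENNReal.ofReal (2 * π * r) * ∫⁻ θ, A j (circleMap 0 r θ) ∂cm) /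
            ((j : ℝ≥0∞) + 1) := by
            refine ENNReal.div_le_div_right ?_ _
            refine lintegral_mono_set fun r hr => ?_
            have h1 : (1 : ℝ) < r := hr.1
            show (0 : ℝ) < r
            linarith
        _ ≤ C / ((j : ℝ≥0∞) + 1) := by
            rw [← lintegral_polar (hAm j)]
            exact ENNReal.div_le_div_right (hAC j) _
    have h2 : Tendsto (fun j : ℕ => C / ((j : ℝ≥0∞) + 1)) atTop (𝓝 0) := by
      have h3 : Tendsto (fun j : ℕ => ((j + 1 : ℕ) : ℝ≥0∞)) atTop (𝓝 ∞) :=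
        (ENNReal.tendsto_nat_nhds_top).comp (tendsto_add_atTop_nat 1)
      have h4 := ENNReal.Tendsto.const_div (a := C) h3 (Or.inr hC)
      rw [ENNReal.div_top] at h4
      refine h4.congr fun j => ?_
      push_cast; rfl
    exact le_antisymm (ge_of_tendsto' h2 h1) zero_le
  have hae : ∀ᵐ r ∂(volume.restrict (Ioo 1 R)), T ≤ G r := by
    have h1 := (lintegral_eq_zero_iff hJm).1 hJ0
    filter_upwards [h1, ae_restrict_mem measurableSet_Ioo] with r hr hrm
    have h2 : T ≤ ⨅ j : ℕ, (G r + (∫⁻ θ, A j (circleMap 0 r θ) ∂cm) / ((j : ℝ≥0∞) + 1)) :=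
      le_iInf fun j => step1 j r (by linarith [hrm.1]) hrm.2
    rw [← ENNReal.add_iInf] at h2
    have h3 : J r = 0 := hr
    rw [hJ] at h3
    simp only at h3
    rwa [h3, add_zero] at h2
  -- step 3
  have hseq : ∀ n : ℕ, ∃ r : ℝ, 1 < r ∧ r < 1 + (R1 - 1) / ((n : ℝ) + 1) ∧ T ≤ G r := by
    intro n
    have hn : (0 : ℝ) < (n : ℝ) + 1 := by positivity
    have h1 : 0 < (R1 - 1) / ((n : ℝ) + 1) := by
      have : 0 < R1 - 1 := by linarith
      positivity
    have h2 : (R1 - 1) / ((n : ℝ) + 1) ≤ R1 - 1 := by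
      apply div_le_self (by linarith)
      have : (0 : ℝ) ≤ (n : ℝ) := Nat.cast_nonneg n
      linarith
    have h3 : Ioo 1 (1 + (R1 - 1) / ((n : ℝ) + 1)) ⊆ Ioo 1 R := fun r hr => ⟨hr.1, by
      have := hr.2; linarith⟩
    have h4 : ∀ᵐ r ∂(volume.restrict (Ioo 1 (1 + (R1 - 1) / ((n : ℝ) + 1)))), T ≤ G r :=
      ae_restrict_of_ae_restrict_of_subset h3 hae
    have h5 : (volume.restrict (Ioo 1 (1 + (R1 - 1) / ((n : ℝ) + 1)))) ≠ 0 := by
      rw [Ne, Measure.restrict_eq_zero, Real.volume_Ioo]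
      simpa using h1
    haveI : (ae (volume.restrict (Ioo 1 (1 + (R1 - 1) / ((n : ℝ) + 1))))).NeBot := ae_neBot.2 h5
    obtain ⟨r, hr1, hr2⟩ := (h4.and (ae_restrict_mem measurableSet_Ioo)).exists
    exact ⟨r, hr2.1, hr2.2, hr1⟩
  choose r hr1 hr2 hr3 using hseq
  have hrR1 : ∀ n, r n ≤ R1 := by
    intro n
    have h2 : (R1 - 1) / ((n : ℝ) + 1) ≤ R1 - 1 := by
      apply div_le_self (by linarith)
      have : (0 : ℝ) ≤ (n : ℝ) := Nat.cast_nonneg n
      linarith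
    linarith [hr2 n]
  have hr0 : ∀ n, 0 < r n := fun n => by linarith [hr1 n]
  have hrlim : Tendsto r atTop (𝓝 1) := by
    refine tendsto_of_tendsto_of_tendsto_of_le_of_le (g := fun _ => (1 : ℝ))
      (h := fun n : ℕ => 1 + (R1 - 1) / ((n : ℝ) + 1)) tendsto_const_nhds ?_
      (fun n => (hr1 n).le) (fun n => (hr2 n).le)
    have h3 : Tendsto (fun n : ℕ => (R1 - 1) / ((n : ℝ) + 1)) atTop (𝓝 0) := by
      have := (tendsto_one_div_add_atTop_nhds_zero_nat (𝕜 := ℝ)).const_mul (R1 - 1)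
      simp only [mul_one_div, mul_zero] at this
      exact this
    simpa using h3.const_add 1
  have hTG : T ≤ G 1 := by
    have hb : ∀ n, (fun θ => F δ (β (circleMap 0 (r n) θ))) ≤ᵐ[cm] fun _ => F δ K := fun n =>
      Eventually.of_forall fun θ => F_mono hδ (hβ0 _) (hK _ (hcl _ (hr0 n) (hrR1 n) θ))
    have h1 := limsup_lintegral_le (μ := cm) (fun _ => F δ K)
      (fun n => hFm (r n) (hr0 n) ((hrR1 n).trans_lt hR1b)) hb (by
        rw [lintegral_const, measure_univ, mul_one]; exact ENNReal.ofReal_ne_top)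
    have h2 : T ≤ limsup (fun n => ∫⁻ θ, F δ (β (circleMap 0 (r n) θ)) ∂cm) atTop := by
      refine le_limsup_of_frequently_le (Frequently.of_forall fun n => hr3 n) ?_
      exact isBoundedUnder_of ⟨∞, fun _ => le_top⟩
    refine h2.trans (h1.trans ?_)
    refine lintegral_mono fun θ => ?_
    -- upper semicontinuity
    refine le_of_forall_gt fun c hc => ?_
    obtain ⟨y, hy1, hy2⟩ := F_lt hδ (hβ0 _) hc
    have h3 := hβ _ (hmem 1 one_pos hR θ) y hy1
    have h4 : Tendsto (fun n => circleMap 0 (r n) θ) atTop (𝓝[ball 0 R] (circleMap 0 1 θ)) := by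
      refine tendsto_nhdsWithin_iff.2 ⟨?_, Eventually.of_forall fun n =>
        hmem (r n) (hr0 n) ((hrR1 n).trans_lt hR1b) θ⟩
      have h5 : Continuous fun r : ℝ => circleMap 0 r θ := by
        unfold circleMap; fun_prop
      exact (h5.tendsto 1).comp hrlim
    have h5 := h4.eventually h3
    refine lt_of_le_of_lt ?_ hy2
    refine limsup_le_of_le (by isBoundedDefault) ?_
    filter_upwards [h5] with n hn
    exact F_mono hδ (hβ0 _) hn.le
  -- step 4
  have hlogm : Measurable fun θ : ℝ => Real.log (β (circleMap 0 1 θ) + δ) :=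
    Real.measurable_log.comp ((hβm 1 one_pos hR).add_const δ)
  have hlo : ∀ θ, Real.log δ ≤ Real.log (β (circleMap 0 1 θ) + δ) := fun θ =>
    Real.log_le_log hδ (by linarith [hβ0 (circleMap 0 1 θ)])
  have hhi : ∀ θ, Real.log (β (circleMap 0 1 θ) + δ) ≤ Real.log (K + δ) := fun θ =>
    Real.log_le_log (by linarith [hβ0 (circleMap 0 1 θ)])
      (by linarith [hK _ (hcl 1 one_pos hR1a.le θ)])
  have hi : Integrable (fun θ : ℝ => Real.log (β (circleMap 0 1 θ) + δ)) cm :=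
    integrable_of_bdd hlogm hlo hhi
  rw [circleAverage_eq]
  have hi2 : Integrable (fun θ : ℝ => Real.log (β (circleMap 0 1 θ) + δ) - Real.log δ) cm :=
    hi.sub (integrable_const _)
  have h6 : G 1 = ENNReal.ofReal (∫ θ, (Real.log (β (circleMap 0 1 θ) + δ) - Real.log δ) ∂cm) := by
    rw [ofReal_integral_eq_lintegral_ofReal hi2]
    · rfl
    · exact Eventually.of_forall fun θ => by
        simp only [Pi.zero_apply]
        linarith [hlo θ]
  rw [h6, hT] at hTG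
  have h7 : 0 ≤ ∫ θ, (Real.log (β (circleMap 0 1 θ) + δ) - Real.log δ) ∂cm :=
    integral_nonneg fun θ => by
      simp only [Pi.zero_apply]
      linarith [hlo θ]
  have h8 := (ENNReal.ofReal_le_ofReal_iff h7).1 hTG
  rw [integral_sub hi (integrable_const _)] at h8
  simp only [integral_const, probReal_univ, one_smul] at h8
  linarith

end Crest.Agent.R276.Jen_748
end
end

-- ▼ part R276/Berg_748
section

/-!
# Row 276, W2 (helper748): the fibrewise Bergman kernel is log plurisubharmonic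

`M` a Stein Riemann domain over `ℂⁿ`, `sp : Fin r ⊕ Fin d ≃ Fin n` a splitting of the coordinates,
`S : SD n M` (exhaustion, decreasing smooth psh weights `φ_k`, `S.wt = sup_k e^{-φ_k}`).
`bE sp S y = sup |s y|²`, `s` in the unit ball of the weighted Bergman space of the fibre through `y`.
Main theorem `lpsh_berg`: the usc regularisation of `bE` (as a real function) is `LPsh`.
-/

set_option autoImplicit false
set_option linter.unusedSectionVars false

noncomputable section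

open Set Filter Topology Complex MeasureTheory Metric
open scoped ENNReal

namespace Crest.Agent.R276.Sl_748

open Crest.Agent.R271 Crest.Agent.R271.Ho51 Crest.Agent.R271.W792 Crest.Agent.R276.PV_159
open Crest.Agent.R276.P_748

variable {r d n : ℕ} {M : Type} [TopologicalSpace M] [RDom n M] {sp : Fin r ⊕ Fin d ≃ Fin n}

/-- a piece of the fibre in a chart -/
lemma fs_ge {e : OpenPartialHomeomorph M (Fin n → ℂ)} (he : IsCh e) (g : M → ℝ≥0∞) {t : Fin r → ℂ}
    {A : Set (Fin d → ℂ)} (hA : MeasurableSet A) (h : ∀ x ∈ A, gl sp t x ∈ e.target) :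
    ∫⁻ x in A, g (e.symm (gl sp t x)) ≤ fs sp g t := by
  unfold fs
  refine le_trans (setLIntegral_mono' hA fun x hx => ?_) (setLIntegral_le_lintegral _ _)
  have h1 : cp (e.symm (gl sp t x)) = gl sp t x := he.cp_symm (h x hx)
  exact ENNReal.le_tsum (f := fun y : {y : M // cp y = gl sp t x} => g y.1)
    ⟨e.symm (gl sp t x), h1⟩

lemma dist_gl (t : Fin r → ℂ) (x y : Fin d → ℂ) : dist (gl sp t x) (gl sp t y) ≤ dist x y := by
  rw [dist_pi_le_iff dist_nonneg]
  intro k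
  unfold gl
  rcases sp.symm k with i | j
  · simp
  · exact dist_le_pi_dist x y j

/-- norm of the fibre space -/
def SD.nr (sp : Fin r ⊕ Fin d ≃ Fin n) (S : SD n M) (s : M → ℂ) (t : Fin r → ℂ) : ℝ≥0∞ :=
  fs sp (fun q => ‖s q‖ₑ ^ 2 * S.wt q) t

lemma SD.nr_mul (S : SD n M) (c : ℂ) (s : M → ℂ) (t : Fin r → ℂ) :
    S.nr sp (fun q => c * s q) t = ‖c‖ₑ ^ 2 * S.nr sp s t := by
  unfold SD.nr
  rw [← fs_const_mul (ENNReal.pow_ne_top enorm_ne_top)]
  refine fs_congr fun y _ => ?_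
  rw [enorm_mul, mul_pow, mul_assoc]

/-- evaluation is locally uniformly bounded -/
lemma ev_loc (S : SD n M) (x0 : M) : ∃ K : ℝ≥0∞, K ≠ ∞ ∧ ∀ᶠ y in 𝓝 x0, ∀ s : M → ℂ,
    FHs sp (bt sp (cp y)) s → ‖s y‖ₑ ^ 2 ≤ K * S.nr sp s (bt sp (cp y)) := by
  set e := ch x0 with he0
  have he : IsCh e := isCh_ch x0
  set c : ℝ := S.φ 0 x0 + 1 with hc
  have hO : IsOpen {y : M | S.φ 0 y < c} := isOpen_lt (S.φ_sm 0).continuous continuous_const
  have hV : IsOpen (e.target ∩ e.symm ⁻¹' {y : M | S.φ 0 y < c}) :=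
    e.isOpen_inter_preimage_symm hO
  have hx0 : cp x0 ∈ e.target ∩ e.symm ⁻¹' {y : M | S.φ 0 y < c} := by
    refine ⟨he.cp_mem (mem_ch x0), ?_⟩
    show S.φ 0 (e.symm (cp x0)) < c
    rw [he.symm_cp (mem_ch x0)]
    linarith
  obtain ⟨δ', hδ', hball⟩ := Metric.isOpen_iff.1 hV _ hx0
  set δ := δ' / 2 with hδd
  have hδ : 0 < δ := by positivity
  set V := volume (ball (0 : Fin d → ℂ) δ) with hVd
  have hV0 : V ≠ 0 := (measure_ball_pos volume _ hδ).ne'
  have hVt : V ≠ ∞ := measure_ball_lt_top.ne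
  set w0 := ENNReal.ofReal (Real.exp (-c)) with hw0
  have hw00 : w0 ≠ 0 := (ENNReal.ofReal_pos.2 (Real.exp_pos _)).ne'
  refine ⟨V⁻¹ * w0⁻¹, ENNReal.mul_ne_top (ENNReal.inv_ne_top.2 hV0) (ENNReal.inv_ne_top.2 hw00), ?_⟩
  have h1 : ∀ᶠ y in 𝓝 x0, y ∈ e.source := e.open_source.mem_nhds (mem_ch x0)
  have h2 : ∀ᶠ y in 𝓝 x0, cp y ∈ ball (cp x0) δ :=
    cp_cont.continuousAt.eventually_mem (ball_mem_nhds _ hδ)
  filter_upwards [h1, h2] with y hy1 hy2 s hs
  set t := bt sp (cp y) with ht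
  have hin : ∀ x ∈ ball (fx sp (cp y)) δ, gl sp t x ∈ e.target ∧
      S.φ 0 (e.symm (gl sp t x)) < c := by
    intro x hx
    apply hball
    rw [mem_ball] at hx hy2 ⊢
    have h3 : dist (gl sp t x) (cp y) ≤ dist x (fx sp (cp y)) := by
      have := dist_gl (sp := sp) t x (fx sp (cp y))
      rwa [gl_fx rfl] at this
    calc dist (gl sp t x) (cp x0) ≤ dist (gl sp t x) (cp y) + dist (cp y) (cp x0) :=
          dist_triangle _ _ _
      _ < δ + δ := by linarith
      _ = δ' := by rw [hδd]; ring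
  have hdiff : DifferentiableOn ℂ (fun x => s (e.symm (gl sp t x))) (ball (fx sp (cp y)) δ) := by
    intro x hx
    have h3 := (hin x hx).1
    have h4 := hs.at he (e.map_target h3) (by rw [he.cp_symm h3, bt_gl])
    rw [he.cp_symm h3, fx_gl] at h4
    exact h4.differentiableWithinAt
  have h5 := Montel868.enorm_sq_mul_le hδ hdiff
  have h6 : s (e.symm (gl sp t (fx sp (cp y)))) = s y := by
    rw [gl_fx rfl, he.symm_cp hy1]
  rw [h6] at h5
  have h7 : w0 * ∫⁻ x in ball (fx sp (cp y)) δ, ‖s (e.symm (gl sp t x))‖ₑ ^ 2 ≤ S.nr sp s t := by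
    rw [← lintegral_const_mul' _ _ ENNReal.ofReal_ne_top]
    refine le_trans ?_ (fs_ge he _ measurableSet_ball fun x hx => (hin x hx).1)
    refine setLIntegral_mono' measurableSet_ball fun x hx => ?_
    rw [mul_comm]
    gcongr
    refine le_trans ?_ (le_iSup _ 0)
    apply ENNReal.ofReal_le_ofReal
    apply Real.exp_le_exp.2
    have := (hin x hx).2
    linarith
  have h8 : w0 ≠ ∞ := ENNReal.ofReal_ne_top
  calc ‖s y‖ₑ ^ 2 = V⁻¹ * w0⁻¹ * (w0 * (‖s y‖ₑ ^ 2 * V)) := by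
        rw [show V⁻¹ * w0⁻¹ * (w0 * (‖s y‖ₑ ^ 2 * V)) = (V⁻¹ * V) * (w0⁻¹ * w0) * ‖s y‖ₑ ^ 2 by ring,
          ENNReal.inv_mul_cancel hV0 hVt, ENNReal.inv_mul_cancel hw00 h8, one_mul, one_mul]
    _ ≤ V⁻¹ * w0⁻¹ * (w0 * ∫⁻ x in ball (fx sp (cp y)) δ, ‖s (e.symm (gl sp t x))‖ₑ ^ 2) := by
        gcongr
    _ ≤ V⁻¹ * w0⁻¹ * S.nr sp s t := by gcongr

/-- the Bergman kernel of the fibre through `y` -/
def bE (sp : Fin r ⊕ Fin d ≃ Fin n) (S : SD n M) (y : M) : ℝ≥0∞ :=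
  ⨆ s : {s : M → ℂ // FHs sp (bt sp (cp y)) s ∧ S.nr sp s (bt sp (cp y)) ≤ 1}, ‖s.1 y‖ₑ ^ 2

lemma bE_loc (S : SD n M) (x0 : M) : ∃ K : ℝ≥0∞, K ≠ ∞ ∧ ∀ᶠ y in 𝓝 x0, bE sp S y ≤ K := by
  obtain ⟨K, hK, h⟩ := ev_loc (sp := sp) S x0
  refine ⟨K, hK, h.mono fun y hy => ?_⟩
  refine iSup_le fun s => (hy s.1 s.2.1).trans ?_
  calc K * S.nr sp s.1 (bt sp (cp y)) ≤ K * 1 := by gcongr; exact s.2.2
    _ = K := mul_one K

lemma bE_ne_top (S : SD n M) (y : M) : bE sp S y ≠ ∞ := by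
  obtain ⟨K, hK, h⟩ := bE_loc (sp := sp) S y
  exact ne_top_of_le_ne_top hK h.self_of_nhds

/-- a function of norm zero vanishes -/
lemma berg_zero (S : SD n M) {y : M} {s : M → ℂ} (hs : FHs sp (bt sp (cp y)) s)
    (h0 : S.nr sp s (bt sp (cp y)) = 0) : ‖s y‖ₑ ^ 2 = 0 := by
  obtain ⟨K, hK, h⟩ := ev_loc (sp := sp) S y
  have := h.self_of_nhds s hs
  rw [h0, mul_zero] at this
  exact le_antisymm this zero_le

/-- **Bergman inequality** for finite norm -/
lemma berg' (S : SD n M) {y : M} {s : M → ℂ} (hs : FHs sp (bt sp (cp y)) s)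
    (hN : S.nr sp s (bt sp (cp y)) ≠ ∞) :
    ‖s y‖ₑ ^ 2 ≤ bE sp S y * S.nr sp s (bt sp (cp y)) := by
  set N := S.nr sp s (bt sp (cp y)) with hNd
  by_cases h0 : N = 0
  · rw [berg_zero S hs h0]
    exact zero_le
  · have hNr : 0 < N.toReal := ENNReal.toReal_pos h0 hN
    set c : ℂ := (((Real.sqrt N.toReal)⁻¹ : ℝ) : ℂ) with hc
    have hcn : ‖c‖ₑ ^ 2 = N⁻¹ := by
      have h1 : ‖c‖ₑ ^ 2 = ENNReal.ofReal (‖c‖ ^ 2) := by
        rw [← ofReal_norm, ENNReal.ofReal_pow (norm_nonneg _)]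
      rw [h1, hc, Complex.norm_real, Real.norm_eq_abs, sq_abs, inv_pow, Real.sq_sqrt hNr.le,
        ENNReal.ofReal_inv_of_pos hNr, ENNReal.ofReal_toReal hN]
    have h2 : S.nr sp (fun q => c * s q) (bt sp (cp y)) ≤ 1 := by
      rw [S.nr_mul, hcn]
      exact (ENNReal.inv_mul_cancel h0 hN).le
    have h3 : ‖c * s y‖ₑ ^ 2 ≤ bE sp S y :=
      le_iSup (fun s : {s : M → ℂ // FHs sp (bt sp (cp y)) s ∧ S.nr sp s (bt sp (cp y)) ≤ 1} =>
        ‖s.1 y‖ₑ ^ 2) ⟨fun q => c * s q, hs.const_mul c, h2⟩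
    rw [enorm_mul, mul_pow, hcn] at h3
    calc ‖s y‖ₑ ^ 2 = N⁻¹ * ‖s y‖ₑ ^ 2 * N := by
          rw [mul_right_comm, ENNReal.inv_mul_cancel h0 hN, one_mul]
      _ ≤ bE sp S y * N := by gcongr

/-- **Bergman inequality** -/
lemma berg (S : SD n M) {y : M} {s : M → ℂ} (hs : FHs sp (bt sp (cp y)) s) {B : ℝ≥0∞}
    (hB : bE sp S y ≤ B) (hB0 : B ≠ 0) :
    ‖s y‖ₑ ^ 2 ≤ B * S.nr sp s (bt sp (cp y)) := by
  by_cases hN : S.nr sp s (bt sp (cp y)) = ∞
  · rw [hN, ENNReal.mul_top hB0]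
    exact le_top
  · exact (berg' S hs hN).trans (by gcongr)

/-- real form of the Bergman kernel -/
def bR (sp : Fin r ⊕ Fin d ≃ Fin n) (S : SD n M) (y : M) : ℝ := (bE sp S y).toReal

lemma bR_nonneg (S : SD n M) (y : M) : 0 ≤ bR sp S y := ENNReal.toReal_nonneg

lemma ofReal_bR (S : SD n M) (y : M) : ENNReal.ofReal (bR sp S y) = bE sp S y :=
  ENNReal.ofReal_toReal (bE_ne_top S y)

lemma bR_loc (S : SD n M) (x0 : M) : ∃ K : ℝ, ∀ᶠ y in 𝓝 x0, bR sp S y ≤ K := by
  obtain ⟨K, hK, h⟩ := bE_loc (sp := sp) S x0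
  exact ⟨K.toReal, h.mono fun y hy => ENNReal.toReal_mono hK hy⟩

/-- the fibre norm on the slice -/
lemma pd_nrm [T2Space M] [SecondCountableTopology M] (S : SD n M) {R : ℝ}
    {e : OpenPartialHomeomorph M (Fin n → ℂ)} (he : IsCh e) {z w : Fin n → ℂ}
    (hd : ∀ l ∈ ball (0 : ℂ) R, z + l • w ∈ e.target) (f : M → ℂ) (hf : FHs sp (bt sp z) f)
    {l : ℂ} (hl : ‖l‖ < R) {g : (S.pd he hd f hf).P → ℂ} {G : M → ℂ}
    (h : ∀ q : Sl M sp (bt sp z) (bt sp w) R, tc q = l → g q = G q.pr) :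
    (S.pd he hd f hf).nrm g l = S.nr sp G (bt sp z + l • bt sp w) := by
  unfold PD.nrm SD.nr
  refine fi_sl hl fun q hq => ?_
  show ‖g q‖ₑ ^ 2 * _ = ‖G q.pr‖ₑ ^ 2 * _
  rw [h q hq]
  rfl

/-- sub-mean value property -/
lemma berg_circ [T2Space M] [SecondCountableTopology M] (S : SD n M) {R : ℝ} (hR : 1 < R)
    {e : OpenPartialHomeomorph M (Fin n → ℂ)} (he : IsCh e) {z w : Fin n → ℂ}
    (hd : ∀ l ∈ ball (0 : ℂ) R, z + l • w ∈ e.target) {β : ℂ → ℝ} (hβ0 : ∀ l, 0 ≤ β l)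
    (hβ : UpperSemicontinuousOn β (ball 0 R))
    (hβb : ∀ l ∈ ball (0 : ℂ) R, bR sp S (e.symm (z + l • w)) < β l) {δ : ℝ} (hδ : 0 < δ) :
    Real.log (bR sp S (e.symm z) + δ) ≤ Real.circleAverage (fun w => Real.log (β w + δ)) 0 1 := by
  have hR0 : 0 < R := by linarith
  have hz : z ∈ e.target := by simpa using hd 0 (mem_ball_self hR0)
  have hcpz : cp (e.symm z) = z := he.cp_symm hz
  set A := Real.circleAverage (fun w => Real.log (β w + δ)) 0 1 with hA
  -- for every function in the unit ball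
  have key : ∀ s : M → ℂ, FHs sp (bt sp z) s → S.nr sp s (bt sp z) ≤ 1 →
      Real.log (‖s (e.symm z)‖ ^ 2 + δ) ≤ A := by
    intro s hs hN
    set D := S.pd he hd s hs with hD
    have hBI : D.BI (fun l => ENNReal.ofReal (β l)) := by
      intro l f hf
      have hl : ‖(l : ℂ)‖ < R := mem_ball_zero_iff.1 l.2
      have h1 := FH1.toM hl hf
      have hy : bt sp (cp (e.symm (z + (l : ℂ) • w))) = bt sp z + (l : ℂ) • bt sp w := by
        rw [he.cp_symm (hd l l.2)]; rfl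
      have h2 := berg S (sp := sp) (y := e.symm (z + (l : ℂ) • w)) (s := toM (l : ℂ) f)
        (by rw [hy]; exact h1) (B := ENNReal.ofReal (β l)) (by
          rw [← ofReal_bR]
          exact ENNReal.ofReal_le_ofReal (hβb l l.2).le)
        (ENNReal.ofReal_pos.2 (lt_of_le_of_lt (bR_nonneg _ _) (hβb l l.2))).ne'
      rw [hy] at h2
      have h3 : D.nrm f l = S.nr sp (toM (l : ℂ) f) (bt sp z + (l : ℂ) • bt sp w) :=
        pd_nrm S he hd s hs hl fun q hq => (toM_pr f q hq).symm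
      have h4 : f (D.p l) = toM (l : ℂ) f (e.symm (z + (l : ℂ) • w)) :=
        (toM_pr (l := (l : ℂ)) f (secl he hd l) rfl).symm
      rw [h3, h4]
      exact h2
    have hN' : D.nrm D.s 0 ≤ 1 := by
      have h3 : D.nrm D.s 0 = S.nr sp s (bt sp z + (0 : ℂ) • bt sp w) :=
        pd_nrm S he hd s hs (by simpa using hR0) fun q _ => rfl
      rw [h3, zero_smul, add_zero]
      exact hN
    obtain ⟨C, hC, H⟩ := PD.tensor (ots hR0) (fun l => ENNReal.ofReal_ne_top) hBI hR0 hN'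
    have h5 := Jen_748.circ hR hβ0 hβ hC hδ H
    have h6 : D.s (D.p ⟨0, mem_ball_self hR0⟩) = s (e.symm z) := by
      show s (e.symm (z + (0 : ℂ) • w)) = _
      rw [zero_smul, add_zero]
    rw [h6] at h5
    exact h5
  have h7 : bE sp S (e.symm z) ≤ ENNReal.ofReal (Real.exp A - δ) := by
    refine iSup_le fun s => ?_
    obtain ⟨s, hs1, hs2⟩ := s
    rw [hcpz] at hs1 hs2
    have h8 := key s hs1 hs2
    have h9 : ‖s (e.symm z)‖ ^ 2 + δ ≤ Real.exp A := by
      rw [← Real.log_le_iff_le_exp (by positivity)]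
      exact h8
    show ‖s (e.symm z)‖ₑ ^ 2 ≤ _
    rw [← ofReal_norm, ← ENNReal.ofReal_pow (norm_nonneg _)]
    exact ENNReal.ofReal_le_ofReal (by linarith)
  have h0 : δ ≤ Real.exp A := by
    have h8 := key (fun _ => 0) (fun y _ => differentiableAt_const _) (by
      unfold SD.nr
      have : (fun q : M => ‖(0 : ℂ)‖ₑ ^ 2 * S.wt q) = fun q => 0 := by
        funext q; simp
      rw [this]
      simp [fs])
    rw [Real.log_le_iff_le_exp (by positivity)] at h8
    simpa using h8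
  have h10 : bR sp S (e.symm z) ≤ Real.exp A - δ := by
    unfold bR
    refine (ENNReal.toReal_mono ENNReal.ofReal_ne_top h7).trans ?_
    rw [ENNReal.toReal_ofReal (by linarith)]
  have hb := bR_nonneg (sp := sp) S (e.symm z)
  rw [Real.log_le_iff_le_exp (by linarith)]
  linarith

open Crest.Agent.R275.FL606 Crest.Agent.R273.Reg_844 Crest.Agent.R276.EngU_29 in
/-- **the fibrewise Bergman kernel is log psh** -/
theorem lpsh_berg [T2Space M] [SecondCountableTopology M] (S : SD n M) :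
    LPsh (ush (bR sp S)) := by
  have h0 : ∀ x, 0 ≤ bR sp S x := bR_nonneg S
  have hbL : LocB (bR sp S) := fun x => by
    obtain ⟨K, hK⟩ := bR_loc (sp := sp) S x
    refine ⟨|K|, hK.mono fun y hy => ?_⟩
    rw [abs_of_nonneg (h0 y)]
    exact hy.trans (le_abs_self K)
  refine ⟨fun x => (h0 x).trans (hbL.le_ush x), fun δ hδ => ?_⟩
  have hS : LocB fun y => Real.log (bR sp S y + δ) := by
    intro y
    obtain ⟨K, hK⟩ := hbL y
    refine ⟨|Real.log δ| + |Real.log (K + δ)|, hK.mono fun w hw => ?_⟩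
    have h1 := (abs_le.1 hw).2
    have h2 : Real.log δ ≤ Real.log (bR sp S w + δ) :=
      Real.log_le_log hδ (by have := h0 w; linarith)
    have h3 : Real.log (bR sp S w + δ) ≤ Real.log (K + δ) :=
      Real.log_le_log (by have := h0 w; linarith) (by linarith)
    rw [abs_le]
    constructor
    · have := neg_abs_le (Real.log δ)
      have := abs_nonneg (Real.log (K + δ))
      linarith
    · have := le_abs_self (Real.log (K + δ))
      have := abs_nonneg (Real.log δ)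
      linarith
  have hSub : SubM fun y => Real.log (bR sp S y + δ) := by
    intro U hU1 hU2 hle e he z v hd
    obtain ⟨R, hR, hdR⟩ := Ann_696.exists_R hd
    have hdR' : ∀ l ∈ ball (0 : ℂ) R, z + l • v ∈ e.target := fun l hl =>
      hdR l (mem_ball_zero_iff.1 hl)
    have key : ∀ η : ℝ, 0 < η → η < δ →
        Real.log (bR sp S (e.symm z) + (δ - η)) ≤ av (U ∘ e.symm) z v := by
      intro η hη hηδ
      have hpos : ∀ x, bR sp S x + η ≤ Real.exp (U x) - δ + η := by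
        intro x
        have h1 : 0 < bR sp S x + δ := by have := h0 x; linarith
        have h2 : bR sp S x + δ ≤ Real.exp (U x) := by
          rw [← Real.exp_log h1]; exact Real.exp_le_exp.2 (hle x)
        linarith
      have hpos' : ∀ x, 0 ≤ Real.exp (U x) - δ + η := fun x => by
        have := hpos x
        have := h0 x
        linarith
      set G : ℝ → ℝ := fun s => max (Real.exp s - δ + η) 0 with hG
      have hGc : Continuous G := by fun_prop
      have hGm : Monotone G := by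
        intro s s' hs
        apply max_le_max _ le_rfl
        have := Real.exp_le_exp.2 hs
        linarith
      have hGU : UpperSemicontinuous (fun x => G (U x)) := hGc.comp_upperSemicontinuous hU1 hGm
      have hβ : UpperSemicontinuousOn (fun l : ℂ => G (U (e.symm (z + l • v)))) (ball 0 R) := by
        intro l hl c hc
        have h1 : ∀ᶠ x in 𝓝 (e.symm (z + l • v)), G (U x) < c := hGU _ c hc
        have h2 : ContinuousAt (fun l : ℂ => e.symm (z + l • v)) l := by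
          have h3 : ContinuousAt e.symm (z + l • v) :=
            e.continuousOn_symm.continuousAt (e.open_target.mem_nhds (hdR' l hl))
          exact ContinuousAt.comp (f := fun l : ℂ => z + l • v) h3 (by fun_prop)
        exact (h2.eventually h1).filter_mono nhdsWithin_le_nhds
      have h1 := berg_circ S hR he hdR' (β := fun l : ℂ => G (U (e.symm (z + l • v))))
        (fun l => le_max_right _ _) hβ (fun l hl => by
          show _ < max _ _
          rw [max_eq_left (hpos' _)]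
          have := hpos (e.symm (z + l • v))
          linarith) (sub_pos.2 hηδ)
      refine h1.trans (le_of_eq ?_)
      rw [av_eq_circleAverage]
      congr 1
      funext l
      show Real.log (max _ _ + (δ - η)) = U (e.symm (z + l • v))
      rw [max_eq_left (hpos' _), show Real.exp (U (e.symm (z + l • v))) - δ + η + (δ - η) =
        Real.exp (U (e.symm (z + l • v))) by ring, Real.log_exp]
    have hcont : ContinuousWithinAt (fun η : ℝ => Real.log (bR sp S (e.symm z) + (δ - η)))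
        (Ioo 0 δ) 0 := by
      apply ContinuousAt.continuousWithinAt
      refine ContinuousAt.log (by fun_prop) ?_
      have := h0 (e.symm z)
      simp
      linarith
    have hne : (𝓝[Ioo 0 δ] (0 : ℝ)).NeBot := by
      apply mem_closure_iff_nhdsWithin_neBot.1
      rw [closure_Ioo hδ.ne]
      exact ⟨le_rfl, hδ.le⟩
    have h7 := le_of_tendsto hcont.tendsto (b := av (U ∘ e.symm) z v) (by
      filter_upwards [self_mem_nhdsWithin] with η hη
      exact key η hη.1 hη.2)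
    simpa using h7
  have h8 := hSub.psh_ush hS
  have h9 : ush (fun y => Real.log (bR sp S y + δ)) = fun x => Real.log (ush (bR sp S) x + δ) := by
    funext x
    exact Ann_696.ush_log h0 hbL hδ x
  rwa [h9] at h8

end Crest.Agent.R276.Sl_748
end
end

-- ▼ part R276/W2a_748
section

/-!
# Row 276, W2 (helper748): the weight `b₂` of (C2), part a: definition, psh, growth, lower bound
-/

set_option autoImplicit false
set_option linter.unusedSectionVars false

open Set Filter Topology MeasureTheory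
open scoped ENNReal

noncomputable section

namespace Crest.Agent.R276.W2_748

open Crest.Agent.R271 Crest.Agent.R271.Rd692 Crest.Agent.R271.Ho51
open Crest.Agent.R271.W792 (nS nS_nonneg lg sm_lg lev_lg_nonneg lg_antitone Levi_eq_lev lev lev_const_mul)
open Crest.Agent.R271.Defs710 hiding glue
open Crest.Agent.R276.Mod1_987 Crest.Agent.R276.FKDefs_779
open Crest.Agent.R276.EngU_29 (LPsh)
open Crest.Agent.R276.SkelDefs_220 Crest.Agent.R276.W2Defs_748
open Crest.Agent.R276.Sl_748 (SD bt fx gl gl_eq_iff FHs fs bR bE)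
open Crest.Agent.R273.Reg_844 (ush LocB)

/-! ### general facts on the Bergman kernel -/

section gen

variable {r d n : ℕ} {M : Type} [TopologicalSpace M] [RDom n M] {sp : Fin r ⊕ Fin d ≃ Fin n}

lemma enorm_sq (c : ℂ) : ‖c‖ₑ ^ 2 = ENNReal.ofReal (‖c‖ ^ 2) := by
  rw [← ofReal_norm, ENNReal.ofReal_pow (norm_nonneg _)]

lemma bR_le (S : SD n M) {y : M} {c : ℝ} (hc : 0 ≤ c)
    (h : ∀ s : M → ℂ, FHs sp (bt sp (cp y)) s → S.nr sp s (bt sp (cp y)) ≤ 1 → ‖s y‖ ^ 2 ≤ c) :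
    bR sp S y ≤ c := by
  apply ENNReal.toReal_le_of_le_ofReal hc
  refine iSup_le fun s => ?_
  rw [enorm_sq]
  exact ENNReal.ofReal_le_ofReal (h s.1 s.2.1 s.2.2)

lemma locB_bR (S : SD n M) : LocB (bR sp S) := fun x => by
  obtain ⟨K, hK⟩ := Sl_748.bR_loc (sp := sp) S x
  refine ⟨|K|, hK.mono fun y hy => ?_⟩
  rw [abs_of_nonneg (Sl_748.bR_nonneg S y)]
  exact hy.trans (le_abs_self K)

lemma fhs_zero (t : Fin r → ℂ) : FHs sp t (fun _ : M => (0 : ℂ)) :=
  fun _ _ => differentiableAt_const _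

lemma nr_zero (S : SD n M) (t : Fin r → ℂ) : S.nr sp (fun _ : M => (0 : ℂ)) t ≤ 1 := by
  unfold SD.nr
  have : (fun q : M => ‖(0 : ℂ)‖ₑ ^ 2 * S.wt q) = fun q => 0 := by
    funext q; simp
  rw [this]
  simp [fs]

end gen

section one

variable {L : Type} [Field L] [Algebra ℂ L] {ρ a : ℕ} (ML : Mdl L (ρ + a)) {e : ℕ}
  (w : Fin (e + 1) → ML.B) (e₀ : ℕ)

/-- the exponent `(e₀-1)/e₀` -/
def al (e₀ : ℕ) : ℝ := ((e₀ : ℝ) - 1) / e₀

lemma al_nonneg {e₀ : ℕ} (he : 0 < e₀) : 0 ≤ al e₀ := by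
  unfold al
  have : (1 : ℝ) ≤ e₀ := by exact_mod_cast he
  apply div_nonneg <;> linarith

/-- the functions `w_j` -/
def wf (j : Fin (e + 1)) (z : ML.Pts) : ℂ := z (w j)

lemma Wf_eq (z : ML.Pts) : Wf w z = nS (wf ML w) z := rfl

lemma pos_k (k : ℕ) : (0 : ℝ) < 1 / ((k : ℝ) + 1) := by positivity

lemma pos_W (k : ℕ) (z : ML.Pts) : 0 < nS (wf ML w) z + 1 / ((k : ℝ) + 1) := by
  have := nS_nonneg (wf ML w) z
  have := pos_k k
  linarith

lemma hol_wf (j : Fin (e + 1)) : W792.Hol (wf ML w j) := ML.hol792_ev (w j)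

/-- the weights -/
def phi (k : ℕ) (z : ML.Pts) : ℝ := al e₀ * lg (wf ML w) (1 / ((k : ℝ) + 1)) z

/-- Stein data -/
def SDw (he : 0 < e₀) : SD (ρ + a) ML.Pts where
  ρ := ML.exists_rho.choose
  ρ_sm := ML.exists_rho.choose_spec.1
  ρ_cpt := ML.exists_rho.choose_spec.2.1
  ρ_lev := fun x v => by
    rw [← Levi_eq_lev ML.exists_rho.choose_spec.1]
    exact ML.exists_rho.choose_spec.2.2 x v
  φ := phi ML w e₀
  φ_sm := fun k => (Sm.const _).mulR (sm_lg (fun j => (hol_wf ML w j).sm) (pos_W ML w k))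
  φ_anti := fun x k l h => by
    refine mul_le_mul_of_nonneg_left ?_ (al_nonneg he)
    exact lg_antitone _ (one_div_le_one_div_of_le (by positivity) (by exact_mod_cast Nat.succ_le_succ h)) x
      (pos_W ML w l x)
  φ_lev := fun k x v => by
    have h1 : lev (phi ML w e₀ k) x v = al e₀ * lev (lg (wf ML w) (1 / ((k : ℝ) + 1))) x v :=
      lev_const_mul (sm_lg (fun j => (hol_wf ML w j).sm) (pos_W ML w k)) _ x v
    rw [h1]
    exact mul_nonneg (al_nonneg he) (lev_lg_nonneg (hol_wf ML w) (pos_k k).le (pos_W ML w k) x v)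

variable {e₀}

lemma wt_eq (he : 0 < e₀) (z : ML.Pts) :
    (SDw ML w e₀ he).wt z = ENNReal.ofReal (Wf w z) ^ (-(((e₀ : ℝ) - 1) / e₀)) := by
  have hterm : ∀ k : ℕ, ENNReal.ofReal (Real.exp (-(phi ML w e₀ k z))) =
      ENNReal.ofReal (Wf w z + 1 / ((k : ℝ) + 1)) ^ (-(al e₀)) := by
    intro k
    have hp := pos_W ML w k z
    rw [← Wf_eq] at hp
    rw [ENNReal.ofReal_rpow_of_pos hp, Real.rpow_def_of_pos hp]
    congr 2
    unfold phi lg
    rw [← Wf_eq]
    ring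
  have h1 : (SDw ML w e₀ he).wt z =
      ⨆ k : ℕ, ENNReal.ofReal (Real.exp (-(phi ML w e₀ k z))) := rfl
  rw [h1]
  apply iSup_eq_of_tendsto
  · intro k l hkl
    apply ENNReal.ofReal_le_ofReal
    exact Real.exp_le_exp.2 (neg_le_neg ((SDw ML w e₀ he).φ_anti z hkl))
  · simp_rw [hterm]
    have h2 : Tendsto (fun k : ℕ => Wf w z + 1 / ((k : ℝ) + 1)) atTop (𝓝 (Wf w z)) := by
      have := tendsto_one_div_add_atTop_nhds_zero_nat (𝕜 := ℝ)
      simpa using this.const_add (Wf w z)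
    exact (ENNReal.continuous_rpow_const.tendsto _).comp (ENNReal.tendsto_ofReal h2)

lemma tc_eq_bt (z : ML.Pts) : tc ML (eL ρ a) z = bt (eL ρ a) (cp z) := rfl

lemma sint_eq_fs (c : Cn ρ) (g : ML.Pts → ℝ≥0∞) : sint ML (eL ρ a) c g = fs (eL ρ a) g c := by
  unfold sint fs
  refine lintegral_congr fun x => ?_
  let E : {y : ML.Pts // tc ML (eL ρ a) y = c ∧ xc ML (eL ρ a) y = x} ≃
      {y : ML.Pts // cp y = gl (eL ρ a) c x} :=
    Equiv.subtypeEquivRight fun y => by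
      rw [gl_eq_iff]
      exact Iff.rfl
  exact E.tsum_eq (fun y => g y.1)

lemma nr_eq (he : 0 < e₀) (c : Cn ρ) (s : ML.Pts → ℂ) :
    (SDw ML w e₀ he).nr (eL ρ a) s c = nW ML w e₀ c s := by
  unfold SD.nr nW
  rw [sint_eq_fs]
  congr 1
  funext q
  rw [wt_eq]

lemma fhs_iff {c : Cn ρ} {s : ML.Pts → ℂ} : FHs (eL ρ a) c s ↔ HolS ML (eL ρ a) c s := by
  constructor
  · intro h y hy
    apply Crest.Agent.R266.SCV.analyticAt_of_eventually_differentiableAt
    have h2 : ∀ᶠ x : Cn a in 𝓝 (xc ML (eL ρ a) y), gl (eL ρ a) c x ∈ (ch y).target := by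
      refine (Sl_748.continuous_gl c).continuousAt.eventually_mem ?_
      have hy' : bt (eL ρ a) (cp y) = c := hy
      have h3 : gl (eL ρ a) c (xc ML (eL ρ a) y) = cp y := Sl_748.gl_fx (y := y) hy'
      rw [h3]
      exact (ch y).open_target.mem_nhds ((isCh_ch y).cp_mem (mem_ch y))
    filter_upwards [h2] with x hx
    have h3 : cp ((ch y).symm (gl (eL ρ a) c x)) = gl (eL ρ a) c x := (isCh_ch y).cp_symm hx
    have h4 := h.at (isCh_ch y) ((ch y).map_target hx) (by rw [h3, Sl_748.bt_gl])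
    rw [h3, Sl_748.fx_gl] at h4
    exact h4
  · intro h y hy
    exact (h y hy).differentiableAt

lemma inBall_iff (he : 0 < e₀) (z : ML.Pts) (s : ML.Pts → ℂ) : InBall ML w e₀ z s ↔
    FHs (eL ρ a) (bt (eL ρ a) (cp z)) s ∧
      (SDw ML w e₀ he).nr (eL ρ a) s (bt (eL ρ a) (cp z)) ≤ 1 := by
  unfold InBall
  rw [fhs_iff, nr_eq, tc_eq_bt]

/-- the weight `b₂` -/
def b2 (he : 0 < e₀) : ML.Pts → ℝ := ush (bR (eL ρ a) (SDw ML w e₀ he))

/-- **(C2), plurisubharmonicity** -/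
theorem psh_b2 (he : 0 < e₀) : LPsh (b2 ML w he) := Sl_748.lpsh_berg (SDw ML w e₀ he)

/-- **(C2), growth** -/
theorem gr_b2 (he : 0 < e₀) : PGr ML (b2 ML w he) := by
  obtain ⟨C, j, k, h⟩ := W2pg_505.pg ML w he
  refine ⟨C, j, k, fun z => ?_⟩
  set G : ML.Pts → ℝ := fun z => C * (1 + ∑ i, ‖ML.pz z i‖ ^ 2) ^ k /
    ‖MvPolynomial.eval (ML.pz z) ML.h‖ ^ j with hG
  have hne : ∀ z : ML.Pts, 0 < ‖MvPolynomial.eval (ML.pz z) ML.h‖ ^ j := fun z =>
    pow_pos (norm_pos_iff.2 (ML.eval_h_ne z)) _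
  have hpz : Continuous ML.pz := cp_cont (M := ML.Pts)
  have hGc : Continuous G := by
    refine Continuous.div ?_ ?_ fun z => (hne z).ne'
    · refine continuous_const.mul ((continuous_const.add (continuous_finsetSum _ fun i _ => ?_)).pow k)
      exact (((continuous_apply i).comp hpz).norm).pow 2
    · exact (((MvPolynomial.continuous_eval ML.h).comp hpz).norm).pow j
  have hb : ∀ z : ML.Pts, ∀ s : ML.Pts → ℂ, InBall ML w e₀ z s → ‖s z‖ ^ 2 ≤ G z := by
    intro z s hs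
    rw [hG]
    simp only
    rw [le_div_iff₀ (hne z)]
    exact h z s hs
  have hG0 : ∀ z : ML.Pts, 0 ≤ G z := by
    intro z
    have h1 := hb z (fun _ => 0) ((inBall_iff ML w he z _).2 ⟨fhs_zero _, nr_zero _ _⟩)
    simpa using h1
  have h2 : b2 ML w he z ≤ G z :=
    Crest.Agent.R273.Reg_844.ush_le_of_le hGc.upperSemicontinuous (fun z =>
      bR_le _ (hG0 z) fun s h1 h2 => hb z s ((inBall_iff ML w he z s).2 ⟨h1, h2⟩)) z
  calc b2 ML w he z * ‖MvPolynomial.eval (ML.pz z) ML.h‖ ^ j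
      ≤ G z * ‖MvPolynomial.eval (ML.pz z) ML.h‖ ^ j := by
        exact mul_le_mul_of_nonneg_right h2 (hne z).le
    _ = C * (1 + ∑ i, ‖ML.pz z i‖ ^ 2) ^ k := by
        rw [hG]
        exact div_mul_cancel₀ _ (hne z).ne'

/-- norm of `w_j` on the slice -/
lemma nW_wf (he : 0 < e₀) (c : Cn ρ) (j : Fin (e + 1)) :
    nW ML w e₀ c (wf ML w j) ≤
      sint ML (eL ρ a) c (fun z' => ENNReal.ofReal (Wf w z') ^ (1 / (e₀ : ℝ))) := by
  unfold nW
  rw [sint_eq_fs, sint_eq_fs]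
  refine Sl_748.fs_mono fun z _ => ?_
  have he' : (0 : ℝ) < e₀ := by exact_mod_cast he
  have h1 : ‖wf ML w j z‖ ^ 2 ≤ Wf w z := by
    rw [Wf_eq]
    exact Finset.single_le_sum (f := fun j => ‖wf ML w j z‖ ^ 2) (fun _ _ => by positivity)
      (Finset.mem_univ j)
  rcases (nS_nonneg (wf ML w) z).eq_or_lt with h0 | h0
  · rw [← Wf_eq] at h0
    rw [← h0] at h1
    have h2 : ‖wf ML w j z‖ₑ ^ 2 = 0 := by
      rw [enorm_sq]
      exact ENNReal.ofReal_eq_zero.2 h1
    rw [h2, zero_mul]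
    exact zero_le
  · rw [← Wf_eq] at h0
    have h3 : ENNReal.ofReal (Wf w z) ≠ 0 := (ENNReal.ofReal_pos.2 h0).ne'
    calc ‖wf ML w j z‖ₑ ^ 2 * ENNReal.ofReal (Wf w z) ^ (-(((e₀ : ℝ) - 1) / e₀))
        ≤ ENNReal.ofReal (Wf w z) * ENNReal.ofReal (Wf w z) ^ (-(((e₀ : ℝ) - 1) / e₀)) := by
          gcongr
          rw [enorm_sq]
          exact ENNReal.ofReal_le_ofReal h1
      _ = ENNReal.ofReal (Wf w z) ^ (1 : ℝ) *
            ENNReal.ofReal (Wf w z) ^ (-(((e₀ : ℝ) - 1) / e₀)) := by rw [ENNReal.rpow_one]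
      _ = ENNReal.ofReal (Wf w z) ^ (1 / (e₀ : ℝ)) := by
          rw [← ENNReal.rpow_add _ _ h3 ENNReal.ofReal_ne_top]
          congr 1
          field_simp
          ring

/-- **(C2), lower bound** (for every slice) -/
theorem low_b2 (he : 0 < e₀) (z : ML.Pts)
    (hJ : sint ML (eL ρ a) (tc ML (eL ρ a) z)
      (fun z' => ENNReal.ofReal (Wf w z') ^ (1 / (e₀ : ℝ))) ≠ ∞) :
    ENNReal.ofReal (Wf w z) ≤ (e + 1) *
      sint ML (eL ρ a) (tc ML (eL ρ a) z) (fun z' => ENNReal.ofReal (Wf w z') ^ (1 / (e₀ : ℝ))) *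
      ENNReal.ofReal (b2 ML w he z) := by
  set J := sint ML (eL ρ a) (tc ML (eL ρ a) z)
    (fun z' => ENNReal.ofReal (Wf w z') ^ (1 / (e₀ : ℝ))) with hJd
  have h1 : ∀ j : Fin (e + 1), ENNReal.ofReal (‖wf ML w j z‖ ^ 2) ≤
      J * ENNReal.ofReal (b2 ML w he z) := by
    intro j
    have h2 : (SDw ML w e₀ he).nr (eL ρ a) (wf ML w j) (bt (eL ρ a) (cp z)) ≤ J := by
      rw [nr_eq]
      exact nW_wf ML w he _ j
    have h3 : FHs (eL ρ a) (bt (eL ρ a) (cp z)) (wf ML w j) := by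
      rw [fhs_iff]
      intro y hy
      have hy' : bt (eL ρ a) (cp y) = bt (eL ρ a) (cp z) := hy
      have h4 : AnalyticAt ℂ (fun ζ => wf ML w j ((ch y).symm ζ)) (cp y) := by
        have h5 := ML.hol51_ev (w j) _ (isCh_ch y)
        exact Crest.Agent.R266.SCV.analyticOnNhd_of_differentiableOn (ch y).open_target h5 _
          ((isCh_ch y).cp_mem (mem_ch y))
      have h6 : AnalyticAt ℂ (fun x : Cn a => glue (eL ρ a) (bt (eL ρ a) (cp z)) x)
          (xc ML (eL ρ a) y) := by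
        refine AnalyticAt.pi fun k => ?_
        unfold glue
        rcases (eL ρ a).symm k with i | i
        · exact analyticAt_const
        · exact (ContinuousLinearMap.proj (R := ℂ) (φ := fun _ : Fin a => ℂ) i).analyticAt _
      have h7 : glue (eL ρ a) (bt (eL ρ a) (cp z)) (xc ML (eL ρ a) y) = cp y :=
        Sl_748.gl_fx (y := y) hy'
      exact AnalyticAt.comp_of_eq h4 h6 h7
    have h8 := Sl_748.berg' (SDw ML w e₀ he) h3 (ne_top_of_le_ne_top hJ h2)
    rw [← Sl_748.ofReal_bR, enorm_sq] at h8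
    refine h8.trans ?_
    rw [mul_comm]
    gcongr
    exact (locB_bR _).le_ush z
  calc ENNReal.ofReal (Wf w z) = ∑ j, ENNReal.ofReal (‖wf ML w j z‖ ^ 2) := by
        rw [Wf_eq]
        exact ENNReal.ofReal_sum_of_nonneg fun _ _ => by positivity
    _ ≤ ∑ _j : Fin (e + 1), J * ENNReal.ofReal (b2 ML w he z) :=
        Finset.sum_le_sum fun j _ => h1 j
    _ = (e + 1) * J * ENNReal.ofReal (b2 ML w he z) := by
        rw [Finset.sum_const, Finset.card_univ, Fintype.card_fin, nsmul_eq_mul, mul_assoc]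
        push_cast
        rfl

end one

end Crest.Agent.R276.W2_748
end
end

-- ▼ part R276/W2b_748
section

/-!
# Row 276, W2 (helper748): the bound of (C2) at the divisors (leaf integral, area formula,
L² Riemann extension, sub-mean value property)
-/

set_option autoImplicit false
set_option linter.unusedSectionVars false

open Set Filter Topology MeasureTheory Metric
open scoped ENNReal

noncomputable section

namespace Crest.Agent.R276.W2_748

open Crest.Agent.R271 Crest.Agent.R271.Rd692 Crest.Agent.R271.Ho51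
open Crest.Agent.R271.Defs710 hiding glue
open Crest.Agent.R276.Mod1_987 Crest.Agent.R276.FKDefs_779
open Crest.Agent.R276.SkelDefs_220 Crest.Agent.R276.W2Defs_748
open Crest.Agent.R276.AcOpen_89 Crest.Agent.R276.BR_590
open Crest.Agent.R276.C1bd_986 (fc jL Lf isOpen_Lf Xb analyticAt_Xb jL_cat analyticAt_jL_cat fibre_ge)

section leaf

variable {L : Type} [Field L] [Algebra ℂ L] {ρ a : ℕ} {ML : Mdl L (ρ + a)} {δ : ℝ}
  {i₀ : Option (Fin (ρ + a))}

/-- **change of variables on a leaf** -/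
theorem leaf_ge (X : AC ML δ i₀) {b c : Cn ρ}
    (hz : ∀ x ∈ Lf δ i₀ b, tc ML (eL ρ a) (X.s (cat b x)) = c) (g : ML.Pts → ℝ≥0∞) :
    ∫⁻ x in Lf δ i₀ b, g (X.s (cat b x)) * ‖jL X (cat b x)‖ₑ ^ 2 ≤ sint ML (eL ρ a) c g := by
  classical
  set F : Set ML.Pts := {y | tc ML (eL ρ a) y = c} with hF
  set Ω : Set (Cn a) := Lf δ i₀ b ∩ {x | jL X (cat b x) ≠ 0} with hΩ
  have hcont : ContinuousOn (fun x => jL X (cat b x)) (Lf δ i₀ b) := fun x hx =>
    (analyticAt_jL_cat X hx).continuousAt.continuousWithinAt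
  have hΩo : IsOpen Ω := hcont.isOpen_inter_preimage (isOpen_Lf b)
    (isOpen_ne : IsOpen {w : ℂ | w ≠ 0})
  have hinj : InjOn (fun x => X.s (cat b x)) Ω := by
    intro x hx y hy hxy
    have h1 := X.inj hx.1 hy.1 hxy
    have h2 := congrArg fb h1
    simpa using h2
  have h1 := fibre_ge (E := Cn a) volume (M := ML.Pts) (fun y => fc y) Ω hΩo
    (fun x => X.s (cat b x)) hinj (fun x => fderiv ℂ (Xb X b) x)
    (fun x hx => (analyticAt_Xb X hx.1).hasStrictFDerivAt)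
    (fun x hx => by rw [← jL_cat]; exact hx.2) (F.indicator g)
  have h2 : ∫⁻ x in Lf δ i₀ b, g (X.s (cat b x)) * ‖jL X (cat b x)‖ₑ ^ 2 =
      ∫⁻ x in Ω, (F.indicator g) (X.s (cat b x)) *
        ENNReal.ofReal (‖(fderiv ℂ (Xb X b) x).det‖ ^ 2) := by
    rw [← lintegral_indicator (isOpen_Lf b).measurableSet, ← lintegral_indicator hΩo.measurableSet]
    refine lintegral_congr fun x => ?_
    by_cases hx : x ∈ Lf δ i₀ b
    · rw [indicator_of_mem hx]
      by_cases hx2 : jL X (cat b x) = 0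
      · rw [indicator_of_notMem (fun h => h.2 hx2), hx2]
        simp
      · rw [indicator_of_mem (show x ∈ Ω from ⟨hx, hx2⟩)]
        have h3 : X.s (cat b x) ∈ F := hz x hx
        rw [indicator_of_mem h3, ← jL_cat, enorm_sq]
    · rw [indicator_of_notMem hx, indicator_of_notMem (fun h => hx h.1)]
  rw [h2]
  refine h1.trans (le_of_eq ?_)
  unfold sint
  refine lintegral_congr fun x => ?_
  have e1 := tsum_subtype {y : ML.Pts | fc y = x} (F.indicator g)
  have e2 := tsum_subtype {y : ML.Pts | tc ML (eL ρ a) y = c ∧ xc ML (eL ρ a) y = x} g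
  refine e1.trans (Eq.trans ?_ e2.symm)
  refine tsum_congr fun y => ?_
  have hfx : fc y = xc ML (eL ρ a) y := by
    funext j
    show ML.pz y (Fin.natAdd ρ j) = ML.pz y (eL ρ a (Sum.inr j))
    simp [eL]
  by_cases ha : fc y = x
  · rw [indicator_of_mem (show y ∈ {y : ML.Pts | fc y = x} from ha)]
    by_cases hb : y ∈ F
    · rw [indicator_of_mem hb, indicator_of_mem]
      exact ⟨hb, by rw [← hfx]; exact ha⟩
    · rw [indicator_of_notMem hb, indicator_of_notMem]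
      exact fun h => hb h.1
  · rw [indicator_of_notMem (show y ∉ {y : ML.Pts | fc y = x} from ha),
      indicator_of_notMem]
    exact fun h => ha (by rw [hfx]; exact h.2)

lemma glue_fc (y : ML.Pts) : glue (eL ρ a) (tc ML (eL ρ a) y) (fc y) = ML.pz y := by
  funext k
  refine Fin.addCases (fun i => ?_) (fun j => ?_) k
  · simp [glue, eL, tc]
  · simp [glue, eL, fc]

/-- a function holomorphic on the slice is analytic in the leaf coordinate -/
theorem HolS.comp_leaf {X : AC ML δ i₀} {b c : Cn ρ}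
    (hz : ∀ x ∈ Lf δ i₀ b, tc ML (eL ρ a) (X.s (cat b x)) = c) {s : ML.Pts → ℂ}
    (hs : HolS ML (eL ρ a) c s) {x : Cn a} (hx : x ∈ Lf δ i₀ b) :
    AnalyticAt ℂ (fun x => s (X.s (cat b x))) x := by
  have h1 := hs (X.s (cat b x)) (hz x hx)
  have hxc : xc ML (eL ρ a) (X.s (cat b x)) = Xb X b x := by
    funext j
    show ML.pz (X.s (cat b x)) (eL ρ a (Sum.inr j)) = ML.pz (X.s (cat b x)) (Fin.natAdd ρ j)
    simp [eL]
  rw [hxc] at h1
  have h3 := AnalyticAt.comp (g := fun x' : Cn a =>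
      s ((ch (X.s (cat b x))).symm (glue (eL ρ a) c x')))
    (f := fun x' : Cn a => Xb X b x') h1 (analyticAt_Xb X hx)
  refine h3.congr ?_
  have h5 : Tendsto (fun x' : Cn a => cat b x') (𝓝 x) (𝓝 (cat b x)) :=
    (continuous_cat b).continuousAt
  filter_upwards [h5.eventually (eventually_ch X hx), (isOpen_Lf b).mem_nhds hx] with x' h6 h7
  show s ((ch (X.s (cat b x))).symm (glue (eL ρ a) c (fc (X.s (cat b x'))))) = _
  have h8 := glue_fc (X.s (cat b x'))
  rw [hz x' h7] at h8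
  rw [h8, ← h6]

/-- coordinate hyperplanes are null sets -/
lemma null_coord (j : Fin a) : volume {x : Cn a | x j = 0} = 0 := by
  set l : Cn a →ₗ[ℝ] ℂ := LinearMap.proj (R := ℝ) (φ := fun _ : Fin a => ℂ) j with hl
  have h1 : {x : Cn a | x j = 0} = (LinearMap.ker l : Set (Cn a)) := by
    ext x
    simp [hl]
  rw [h1]
  refine Measure.addHaar_submodule volume (LinearMap.ker l) fun h => ?_
  have h2 : (fun _ => (1 : ℂ) : Cn a) ∈ LinearMap.ker l := by rw [h]; trivial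
  rw [LinearMap.mem_ker] at h2
  simp [hl] at h2

/-- the equation of the divisor on a leaf is zero free or a coordinate -/
lemma tau_cases {ζ : Cn (ρ + a)} (h : tau i₀ ζ ≠ 0) :
    volume {x : Cn a | tau i₀ (cat (bs ζ) x) = 0} = 0 := by
  rcases i₀ with _ | k
  · simp [tau]
  · revert h
    refine Fin.addCases (fun i => ?_) (fun j => ?_) k
    · intro h
      have h1 : ∀ x : Cn a, tau (some (Fin.castAdd a i)) (cat (bs ζ) x) ≠ 0 := by
        intro x
        show cat (bs ζ) x (Fin.castAdd a i) ≠ 0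
        rw [cat_castAdd]
        exact h
      have h2 : {x : Cn a | tau (some (Fin.castAdd a i)) (cat (bs ζ) x) = 0} = ∅ := by
        ext x
        simp [h1 x]
      rw [h2, measure_empty]
    · intro _
      have h2 : {x : Cn a | tau (some (Fin.natAdd ρ j)) (cat (bs ζ) x) = 0} =
          {x : Cn a | x j = 0} := by
        ext x
        show cat (bs ζ) x (Fin.natAdd ρ j) = 0 ↔ _
        rw [cat_natAdd]
        rfl
      rw [h2]
      exact null_coord j

variable {e : ℕ} {w : Fin (e + 1) → ML.B} {e₀ : ℕ}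

lemma W_nonneg (z : ML.Pts) : 0 ≤ Wf w z := Finset.sum_nonneg fun _ _ => by positivity

/-- lower bound of the weight -/
lemma weight_ge (he : 0 < e₀) {W J B : ℝ} (hW : 0 ≤ W) (hJ : 0 ≤ J) (hB : 0 < B)
    (h : W * J ^ (2 * e₀) ≤ B) :
    ENNReal.ofReal (J ^ (2 * (e₀ - 1))) ≤
      ENNReal.ofReal B ^ (al e₀) * ENNReal.ofReal W ^ (-(((e₀ : ℝ) - 1) / e₀)) := by
  have hal := al_nonneg he
  have he' : (0 : ℝ) < e₀ := by exact_mod_cast he
  have h1 : ENNReal.ofReal W * ENNReal.ofReal (J ^ (2 * e₀)) ≤ ENNReal.ofReal B := by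
    rw [← ENNReal.ofReal_mul hW]
    exact ENNReal.ofReal_le_ofReal h
  have h2 := ENNReal.rpow_le_rpow h1 hal
  rw [ENNReal.mul_rpow_of_nonneg _ _ hal] at h2
  have h3 : ENNReal.ofReal (J ^ (2 * e₀)) ^ (al e₀) = ENNReal.ofReal (J ^ (2 * (e₀ - 1))) := by
    rw [ENNReal.ofReal_rpow_of_nonneg (by positivity) hal]
    congr 1
    rw [← Real.rpow_natCast J (2 * e₀), ← Real.rpow_mul hJ, ← Real.rpow_natCast J (2 * (e₀ - 1))]
    congr 1
    unfold al
    push_cast [Nat.cast_sub he]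
    field_simp
  rw [h3] at h2
  have h4 : ENNReal.ofReal B ^ (al e₀) ≠ 0 := by
    have h5 : ENNReal.ofReal B ≠ 0 := (ENNReal.ofReal_pos.2 hB).ne'
    exact (ENNReal.rpow_pos (pos_iff_ne_zero.2 h5) ENNReal.ofReal_ne_top).ne'
  have h5 : ENNReal.ofReal B ^ (al e₀) ≠ ∞ := ENNReal.rpow_ne_top_of_nonneg hal ENNReal.ofReal_ne_top
  rw [show (-(((e₀ : ℝ) - 1) / e₀)) = -(al e₀) from rfl, ENNReal.rpow_neg, ← div_eq_mul_inv]
  rw [ENNReal.le_div_iff_mul_le (Or.inr h4) (Or.inr h5), mul_comm]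
  exact h2

/-- **the bound on a chart** -/
theorem bd_leaf (he : 0 < e₀) (X : AC ML δ i₀)
    (hfib : ∀ ζ ∈ PD δ i₀, ∀ ζ' ∈ PD δ i₀, bs ζ = bs ζ' →
      tc ML (eL ρ a) (X.s ζ) = tc ML (eL ρ a) (X.s ζ'))
    (hW : ∀ δ'' < δ, ∃ B : ℝ, ∀ ζ ∈ PD δ'' i₀, Wf w (X.s ζ) * ‖X.J ζ‖ ^ (2 * e₀) ≤ B)
    {δ' : ℝ} (hδ' : δ' < δ) :
    ∃ C : ℝ, ∀ ζ ∈ PD δ' i₀, ∀ s : ML.Pts → ℂ, InBall ML w e₀ (X.s ζ) s →
      ‖s (X.s ζ)‖ ^ 2 * ‖jL X ζ‖ ^ 2 * ‖X.J ζ‖ ^ (2 * (e₀ - 1)) ≤ C := by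
  set R : ℝ := (δ - δ') / 2 with hR
  have hR0 : 0 < R := by rw [hR]; linarith
  set δ'' : ℝ := (δ + δ') / 2 with hδ''
  have hδδ'' : δ'' < δ := by rw [hδ'']; linarith
  obtain ⟨B, hB⟩ := hW δ'' hδδ''
  set B' : ℝ := max B 1 with hB'
  have hB0 : 0 < B' := lt_of_lt_of_le one_pos (le_max_right _ _)
  set Kc : ℝ≥0∞ := ENNReal.ofReal B' ^ (al e₀) with hKc
  have hKt : Kc ≠ ∞ := ENNReal.rpow_ne_top_of_nonneg (al_nonneg he) ENNReal.ofReal_ne_top
  set V := volume (ball (0 : Cn a) R) with hV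
  have hV0 : V ≠ 0 := (measure_ball_pos volume _ hR0).ne'
  have hVt : V ≠ ∞ := measure_ball_lt_top.ne
  refine ⟨(Kc / V).toReal, fun ζ hζ s hs => ?_⟩
  obtain ⟨hs1, hs2⟩ := hs
  set b := bs ζ with hb
  set c := tc ML (eL ρ a) (X.s ζ) with hc
  have hζδ : ζ ∈ PD δ i₀ := PD_mono hδ'.le _ hζ
  have hz : ∀ x ∈ Lf δ i₀ b, tc ML (eL ρ a) (X.s (cat b x)) = c := fun x hx =>
    hfib _ hx _ hζδ (by rw [bs_cat])
  have hz' : ∀ x ∈ Lf δ'' i₀ b, x ∈ Lf δ i₀ b := fun x hx => PD_mono hδδ''.le _ hx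
  -- the divisor
  set Dv : Cn a → ℂ := fun x => tau i₀ (cat b x) with hDv
  have hDc : Dv (fb ζ) ≠ 0 := by
    show tau i₀ (cat (bs ζ) (fb ζ)) ≠ 0
    rw [cat_bs_fb]
    exact tau_ne hζ
  have hDnull : volume {x : Cn a | Dv x = 0} = 0 := tau_cases (tau_ne hζ)
  have hDan : AnalyticOnNhd ℂ Dv (ball (fb ζ) R) := fun x _ =>
    (analyticOnNhd_tau i₀ univ _ trivial).comp (analyticAt_cat b x)
  have hDne : ∀ x ∈ ball (fb ζ) R, ¬ (∀ᶠ x' in 𝓝 x, Dv x' = 0) := by
    intro x _ h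
    exact (Measure.measure_pos_of_mem_nhds volume h).ne' hDnull
  have hsmall : ∀ x ∈ ball (fb ζ) R, Dv x ≠ 0 → x ∈ Lf δ'' i₀ b := by
    intro x hx hDx
    show cat b x ∈ PD δ'' i₀
    rw [PD_eq]
    refine ⟨?_, hDx⟩
    rw [mem_ball, dist_eq_norm] at hx
    have h1 : ‖x‖ ≤ ‖x - fb ζ‖ + ‖fb ζ‖ := by
      have := norm_add_le (x - fb ζ) (fb ζ); rwa [sub_add_cancel] at this
    have h2 := norm_fb_le ζ
    have h3 := norm_bs_le ζ
    have h4 := hζ.1
    have hδ0 : 0 < δ'' := by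
      have := norm_nonneg ζ
      rw [hδ'']
      linarith
    rw [mem_ball_zero_iff]
    exact (norm_cat_lt hδ0).2 ⟨by rw [hb, hδ'']; linarith, by rw [hδ'']; rw [hR] at hx; linarith⟩
  -- the function
  set g₀ : Cn a → ℂ := fun x => s (X.s (cat b x)) * X.J (cat b x) ^ (e₀ - 1) * jL X (cat b x)
    with hg₀
  have hg₀an : ∀ x ∈ Lf δ i₀ b, AnalyticAt ℂ g₀ x := by
    intro x hx
    refine ((HolS.comp_leaf hz hs1 hx).mul (AnalyticAt.pow ?_ _)).mul (analyticAt_jL_cat X hx)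
    exact (analyticOnNhd_J X (cat b x) hx).comp (analyticAt_cat b x)
  have hint : ∫⁻ x in ball (fb ζ) R ∩ {x | Dv x ≠ 0}, ‖g₀ x‖ₑ ^ 2 ≤ Kc := by
    calc ∫⁻ x in ball (fb ζ) R ∩ {x | Dv x ≠ 0}, ‖g₀ x‖ₑ ^ 2
        ≤ ∫⁻ x in Lf δ'' i₀ b, ‖g₀ x‖ₑ ^ 2 :=
          lintegral_mono_set fun x hx => hsmall x hx.1 hx.2
      _ ≤ ∫⁻ x in Lf δ'' i₀ b, Kc * ((‖s (X.s (cat b x))‖ₑ ^ 2 *
            ENNReal.ofReal (Wf w (X.s (cat b x))) ^ (-(((e₀ : ℝ) - 1) / e₀))) *
              ‖jL X (cat b x)‖ₑ ^ 2) := by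
          refine setLIntegral_mono' (isOpen_Lf b).measurableSet fun x hx => ?_
          have h1 : Wf w (X.s (cat b x)) * ‖X.J (cat b x)‖ ^ (2 * e₀) ≤ B' :=
            (hB _ hx).trans (le_max_left _ _)
          have h2 := weight_ge he (W_nonneg (w := w) _) (norm_nonneg (X.J (cat b x))) hB0 h1
          have h3 : ‖g₀ x‖ₑ ^ 2 = ‖s (X.s (cat b x))‖ₑ ^ 2 *
              ENNReal.ofReal (‖X.J (cat b x)‖ ^ (2 * (e₀ - 1))) * ‖jL X (cat b x)‖ₑ ^ 2 := by
            rw [hg₀]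
            simp only
            rw [enorm_mul, enorm_mul, mul_pow, mul_pow, enorm_pow, ← pow_mul]
            congr 2
            rw [← ofReal_norm, ← ENNReal.ofReal_pow (norm_nonneg _)]
            congr 2
            ring
          rw [h3]
          calc ‖s (X.s (cat b x))‖ₑ ^ 2 *
                ENNReal.ofReal (‖X.J (cat b x)‖ ^ (2 * (e₀ - 1))) * ‖jL X (cat b x)‖ₑ ^ 2
              ≤ ‖s (X.s (cat b x))‖ₑ ^ 2 * (Kc *
                  ENNReal.ofReal (Wf w (X.s (cat b x))) ^ (-(((e₀ : ℝ) - 1) / e₀))) *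
                    ‖jL X (cat b x)‖ₑ ^ 2 := by gcongr
            _ = _ := by ring
      _ = Kc * ∫⁻ x in Lf δ'' i₀ b, (‖s (X.s (cat b x))‖ₑ ^ 2 *
            ENNReal.ofReal (Wf w (X.s (cat b x))) ^ (-(((e₀ : ℝ) - 1) / e₀))) *
              ‖jL X (cat b x)‖ₑ ^ 2 := lintegral_const_mul' _ _ hKt
      _ ≤ Kc * ∫⁻ x in Lf δ i₀ b, (‖s (X.s (cat b x))‖ₑ ^ 2 *
            ENNReal.ofReal (Wf w (X.s (cat b x))) ^ (-(((e₀ : ℝ) - 1) / e₀))) *
              ‖jL X (cat b x)‖ₑ ^ 2 := by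
          gcongr
          exact hz'
      _ ≤ Kc * nW ML w e₀ c s := by
          gcongr
          exact leaf_ge X hz (fun z => ‖s z‖ₑ ^ 2 *
            ENNReal.ofReal (Wf w z) ^ (-(((e₀ : ℝ) - 1) / e₀)))
      _ ≤ Kc * 1 := by gcongr
      _ = Kc := mul_one _
  -- extension
  obtain ⟨g, hg, hge⟩ := RExt747.riemann_ext (f := g₀) isOpen_ball hDan hDne
    (fun x hx => ((hg₀an x (hz' x (hsmall x hx.1 hx.2))).differentiableAt).differentiableWithinAt)
    (fun x hx => ⟨ball (fb ζ) R, isOpen_ball.mem_nhds hx, lt_of_le_of_lt hint hKt.lt_top⟩)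
  have h5 := Montel868.enorm_sq_mul_le hR0 hg
  have h6 : ∫⁻ x in ball (fb ζ) R, ‖g x‖ₑ ^ 2 ≤ Kc := by
    refine le_trans (le_of_eq ?_) hint
    have h7 : (ball (fb ζ) R ∩ {x | Dv x ≠ 0} : Set (Cn a)) =ᵐ[volume] ball (fb ζ) R := by
      rw [ae_eq_set]
      constructor
      · rw [sdiff_eq_empty.2 inter_subset_left, measure_empty]
      · refine measure_mono_null (fun x hx => ?_) hDnull
        by_contra h
        exact hx.2 ⟨hx.1, h⟩
    rw [← setLIntegral_congr h7]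
    refine setLIntegral_congr_fun ?_ fun x hx => ?_
    · refine IsOpen.measurableSet ?_
      exact (hDan.continuousOn).isOpen_inter_preimage isOpen_ball
        (isOpen_ne : IsOpen {w : ℂ | w ≠ 0})
    · rw [hge x hx.1 hx.2]
  have h8 : g (fb ζ) = g₀ (fb ζ) := hge _ (mem_ball_self hR0) hDc
  have h9 : ‖g₀ (fb ζ)‖ₑ ^ 2 ≤ Kc / V := by
    rw [ENNReal.le_div_iff_mul_le (Or.inl hV0) (Or.inl hVt), ← h8]
    exact h5.trans h6
  have h10 : ‖g₀ (fb ζ)‖ ^ 2 ≤ (Kc / V).toReal := by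
    have := ENNReal.toReal_mono (ENNReal.div_ne_top hKt hV0) h9
    rwa [ENNReal.toReal_pow, toReal_enorm] at this
  refine le_trans (le_of_eq ?_) h10
  have h11 : cat b (fb ζ) = ζ := cat_bs_fb ζ
  rw [hg₀]
  simp only
  rw [h11, norm_mul, norm_mul, norm_pow]
  ring

end leaf

end Crest.Agent.R276.W2_748
end
end

-- ▼ part R276/W2_748
section

/-!
# Row 276, W2 (helper748): the weight `b₂` of (C2), assembly
-/

set_option autoImplicit false
set_option linter.unusedSectionVars false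

open Set Filter Topology MeasureTheory
open scoped ENNReal

noncomputable section

namespace Crest.Agent.R276.W2_748

open Crest.Agent.R271 Crest.Agent.R271.Rd692 Crest.Agent.R271.Ho51
open Crest.Agent.R271.Defs710 hiding glue
open Crest.Agent.R276.Mod1_987 Crest.Agent.R276.FKDefs_779
open Crest.Agent.R276.EngU_29 (LPsh)
open Crest.Agent.R276.SkelDefs_220 Crest.Agent.R276.W2Defs_748
open Crest.Agent.R276.Sl_748 (SD bt fx gl gl_eq_iff FHs fs bR bE)
open Crest.Agent.R273.Reg_844 (ush LocB ush_le)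
open Crest.Agent.R276.AcOpen_89

variable {T L K : Type} [Field T] [Field L] [Field K] [Algebra ℂ T] [Algebra ℂ L] [Algebra ℂ K]
  [Algebra T L] [Algebra L K] [IsScalarTower ℂ T L] [IsScalarTower ℂ L K] {ρ a r : ℕ}
  {MT : Mdl T ρ} {ML : Mdl L (ρ + a)} {MK : Mdl K (ρ + a + r)}
  {H₁ : Rel MT ML} {H₂ : Rel ML MK}

/-- the fibre block of a linear map -/
def blA (ρ a : ℕ) : Cn (ρ + a) →L[ℂ] Cn a :=
  ContinuousLinearMap.pi fun j => ContinuousLinearMap.proj (Fin.natAdd ρ j)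

/-- inclusion of the fibre coordinates -/
def blB (ρ a : ℕ) : Cn a →L[ℂ] Cn (ρ + a) :=
  ContinuousLinearMap.pi fun k => Fin.addCases (motive := fun _ => Cn a →L[ℂ] ℂ) (fun _ => 0)
    (fun j => ContinuousLinearMap.proj j) k

lemma append_eq (c : Cn ρ) (x : Cn a) : (Fin.append c x : Cn (ρ + a)) = Fin.append c 0 + blB ρ a x := by
  funext k
  refine Fin.addCases (fun i => ?_) (fun j => ?_) k
  · simp [blB]
  · simp [blB]

lemma append_self (η : Cn (ρ + a)) : (Fin.append (fun i => η (Fin.castAdd a i))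
    (fun j => η (Fin.natAdd ρ j)) : Cn (ρ + a)) = η := by
  funext k
  refine Fin.addCases (fun i => ?_) (fun j => ?_) k
  · simp
  · simp

/-- `jG` is a minor of the differential -/
lemma jG_eq {R : ValuationSubring K} (Y : TChart H₁ H₂ R) {η : Cn (ρ + a)}
    (hη : η ∈ PD Y.δ (low (some Y.i₀))) :
    Y.jG η = ((blA ρ a).comp ((fderiv ℂ (fun ζ => ML.pz (Y.cL.s ζ)) η).comp (blB ρ a))).det := by
  unfold TChart.jG
  congr 1
  apply HasFDerivAt.fderiv
  have h1 : HasFDerivAt (fun ζ => ML.pz (Y.cL.s ζ)) (fderiv ℂ (fun ζ => ML.pz (Y.cL.s ζ)) η)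
      (Fin.append (fun i => η (Fin.castAdd a i)) (fun j => η (Fin.natAdd ρ j))) := by
    rw [append_self]
    exact (analyticAt_pz Y.cL hη).differentiableAt.hasFDerivAt
  have h2 : HasFDerivAt (fun x : Cn a => (Fin.append (fun i => η (Fin.castAdd a i)) x : Cn (ρ + a)))
      (blB ρ a) (fun j => η (Fin.natAdd ρ j)) := by
    have h3 : (fun x : Cn a => (Fin.append (fun i => η (Fin.castAdd a i)) x : Cn (ρ + a))) =
        fun x => Fin.append (fun i => η (Fin.castAdd a i)) 0 + blB ρ a x := by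
      funext x
      exact append_eq _ x
    rw [h3]
    exact (blB ρ a).hasFDerivAt.const_add _
  have h3 := h1.comp (fun j => η (Fin.natAdd ρ j)) h2
  exact (blA ρ a).hasFDerivAt.comp (fun j => η (Fin.natAdd ρ j)) h3

lemma continuousAt_jG {R : ValuationSubring K} (Y : TChart H₁ H₂ R) {η : Cn (ρ + a)}
    (hη : η ∈ PD Y.δ (low (some Y.i₀))) : ContinuousAt Y.jG η := by
  have h1 : ContinuousAt (fun η => ((blA ρ a).comp
      ((fderiv ℂ (fun ζ => ML.pz (Y.cL.s ζ)) η).comp (blB ρ a))).det) η := by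
    have h2 : ContinuousAt (fderiv ℂ (fun ζ => ML.pz (Y.cL.s ζ))) η :=
      (analyticAt_pz Y.cL hη).fderiv.continuousAt
    refine ContinuousLinearMap.continuous_det.continuousAt.comp ?_
    exact ContinuousAt.clm_comp continuousAt_const (h2.clm_comp continuousAt_const)
  refine h1.congr ?_
  filter_upwards [(isOpen_PD _ _).mem_nhds hη] with ζ hζ
  exact (jG_eq Y hζ).symm

/-- **(C2), boundary behaviour** -/
theorem bd {e : ℕ} {w : Fin (e + 1) → ML.B} {e₀ : ℕ} (he : 0 < e₀) {R : ValuationSubring K}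
    (h : BdStmt H₁ H₂ w e₀ R) : BdL H₁ H₂ R fun Y η =>
      b2 ML w he (Y.cL.s η) * ‖Y.jG η‖ ^ 2 * ‖Y.cL.J η‖ ^ (2 * (e₀ - 1)) := by
  obtain ⟨F, FL, hF, hFL, h⟩ := h
  refine ⟨F, FL, hF, hFL, fun Y hD hG hGL => WPack_505.logB_of_bdd ?_⟩
  intro δ' hδ'
  obtain ⟨δ'', h1, h2⟩ := exists_between hδ'
  obtain ⟨C, hC⟩ := h Y hD hG hGL δ'' h2
  obtain ⟨k, hJ, -⟩ := hD.JL
  refine ⟨C, fun η hη => ?_⟩
  show b2 ML w he (Y.cL.s η) * ‖Y.jG η‖ ^ 2 * ‖Y.cL.J η‖ ^ (2 * (e₀ - 1)) ≤ C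
  have hη2 : η ∈ PD δ'' (low (some Y.i₀)) := PD_mono h1.le _ hη
  have hη3 : η ∈ PD Y.δ (low (some Y.i₀)) := PD_mono h2.le _ hη2
  have hC0 : 0 ≤ C := by
    have := hC η hη2 (fun _ => 0) ((inBall_iff ML w he _ _).2 ⟨fhs_zero _, nr_zero _ _⟩)
    simpa using this
  by_cases hj : Y.jG η = 0
  · rw [hj]
    simpa using hC0
  have hJ0 : Y.cL.J η ≠ 0 := Mono.ne_zero hJ hη3
  set P : Cn (ρ + a) → ℝ := fun η => ‖Y.jG η‖ ^ 2 * ‖Y.cL.J η‖ ^ (2 * (e₀ - 1)) with hP
  have hPc : ContinuousAt P η := by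
    refine ContinuousAt.mul ?_ ?_
    · exact (continuousAt_jG Y hη3).norm.pow 2
    · exact (analyticOnNhd_J Y.cL η hη3).continuousAt.norm.pow _
  have hP0 : 0 < P η := by
    have := norm_pos_iff.2 hj
    have := norm_pos_iff.2 hJ0
    positivity
  have hGc : ContinuousAt (fun η => C / P η) η := continuousAt_const.div hPc hP0.ne'
  have hle : b2 ML w he (Y.cL.s η) ≤ C / P η := by
    refine le_of_forall_pos_le_add fun ε hε => ?_
    apply ush_le
    have h3 : ∀ᶠ η' in 𝓝 η, bR (eL ρ a) (SDw ML w e₀ he) (Y.cL.s η') ≤ C / P η + ε := by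
      have h4 : ∀ᶠ η' in 𝓝 η, C / P η' < C / P η + ε :=
        hGc.eventually (gt_mem_nhds (by linarith))
      have h5 : ∀ᶠ η' in 𝓝 η, 0 < P η' := hPc.eventually (lt_mem_nhds hP0)
      filter_upwards [h4, h5, (isOpen_PD _ _).mem_nhds hη2] with η' h6 h7 h8
      refine le_trans (bR_le _ (by positivity) fun s hs1 hs2 => ?_) h6.le
      rw [le_div_iff₀ h7]
      have h9 := hC η' h8 s ((inBall_iff ML w he _ _).2 ⟨hs1, hs2⟩)
      rw [mul_assoc] at h9
      exact h9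
    exact (nhds_le Y.cL hη3 hJ0) h3
  calc b2 ML w he (Y.cL.s η) * ‖Y.jG η‖ ^ 2 * ‖Y.cL.J η‖ ^ (2 * (e₀ - 1))
      = b2 ML w he (Y.cL.s η) * P η := by rw [hP]; ring
    _ ≤ C / P η * P η := by gcongr
    _ = C := div_mul_cancel₀ _ hP0.ne'

/-- **(C2)** from the bound `BdStmt` at the divisors -/
theorem c2_of_bd (H₁ : Rel MT ML) (H₂ : Rel ML MK) {e : ℕ} (w : Fin (e + 1) → ML.B) {e₀ : ℕ}
    (he : 0 < e₀)
    (h : ∀ R : ValuationSubring K, IsDiv ℂ (ρ + a + r) R → BdStmt H₁ H₂ w e₀ R) :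
    C2 H₁ H₂ w e₀ (b2 ML w he) where
  psh := psh_b2 ML w he
  gr := gr_b2 ML w he
  bd := fun R hR => bd he (h R hR)
  low := Eventually.of_forall fun c hc z hz => by
    subst hz
    exact low_b2 ML w he z hc

end Crest.Agent.R276.W2_748
end
end

-- ▼ part R276/W2c_748

/-!
# Row 276, W2 (helper748): `c2`, the complete (C2) of `SkelDefs_220`
-/

set_option autoImplicit false
set_option linter.unusedSectionVars false

open Set Filter Topology MeasureTheory Metric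
open scoped ENNReal

noncomputable section

namespace Crest.Agent.R276.W2_748

open Crest.Agent.R271 Crest.Agent.R271.Rd692 Crest.Agent.R271.Ho51
open Crest.Agent.R271.Defs710 hiding glue
open Crest.Agent.R276.Mod1_987 Crest.Agent.R276.FKDefs_779
open Crest.Agent.R276.SkelDefs_220 Crest.Agent.R276.W2Defs_748
open Crest.Agent.R276.AcOpen_89 Crest.Agent.R276.BR_590 Crest.Agent.R276.WPack_505

variable {T L K : Type} [Field T] [Field L] [Field K] [Algebra ℂ T] [Algebra ℂ L] [Algebra ℂ K]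
  [Algebra T L] [Algebra L K] [IsScalarTower ℂ T L] [IsScalarTower ℂ L K] {ρ a r : ℕ}
  {MT : Mdl T ρ} {ML : Mdl L (ρ + a)} {MK : Mdl K (ρ + a + r)}
  {H₁ : Rel MT ML} {H₂ : Rel ML MK}

lemma tc_f (H₁ : Rel MT ML) (y : ML.Pts) : tc ML (eL ρ a) y = MT.pz (H₁.f y) := by
  funext i
  rw [C1bd_986.pz_f]
  show ML.pz y (eL ρ a (Sum.inl i)) = _
  simp [eL]

lemma fib_cL {R : ValuationSubring K} (Y : TChart H₁ H₂ R) :
    ∀ ζ ∈ PD Y.δ (SkelDefs_220.low (some Y.i₀)), ∀ ζ' ∈ PD Y.δ (SkelDefs_220.low (some Y.i₀)),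
    bs ζ = bs ζ' → tc ML (eL ρ a) (Y.cL.s ζ) = tc ML (eL ρ a) (Y.cL.s ζ') := by
  intro ζ hζ ζ' hζ' h
  have h1 : pw Y.e₂ (SkelDefs_220.low (some Y.i₀)) ζ = pw Y.e₂ (SkelDefs_220.low (some Y.i₀)) ζ' := by
    funext j
    have h1 : ζ (Fin.castAdd a j) = ζ' (Fin.castAdd a j) := congrFun h j
    unfold pw
    rw [h1]
  rw [tc_f H₁, tc_f H₁, Y.compT ζ hζ, Y.compT ζ' hζ', h1]

/-- **(W2-BD)** -/
theorem bdw (H₁ : Rel MT ML) (H₂ : Rel ML MK) {e e₀ : ℕ} (w : Fin (e + 1) → ML.B) (he : 0 < e₀)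
    (b : Module.Basis (Fin (ρ + a)) L (Ω[L⁄ℂ]))
    (hb : ∀ j, b j = KaehlerDifferential.D ℂ L (ML.z j)) {R : ValuationSubring K}
    (hw : ∀ j, RegAt ℂ (R.comap (algebraMap L K)) b e₀ (w j : L)) : BdStmt H₁ H₂ w e₀ R := by
  classical
  refine ⟨∅, (Finset.univ.image fun j => (w j : L)).filter (· ≠ 0), by simp, fun f hf =>
    (Finset.mem_filter.1 hf).2, fun Y hD _ hGL δ' hδ' => ?_⟩
  refine bd_leaf he Y.cL (fib_cL Y) (fun δ'' hδ'' => ?_) hδ'
  have key : ∀ j, ∃ C : ℝ, ∀ η ∈ PD δ'' (SkelDefs_220.low (some Y.i₀)),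
      ‖Y.cL.s η (w j)‖ ^ 2 * ‖Y.cL.J η‖ ^ (2 * e₀) ≤ C := by
    intro j
    by_cases h0 : (w j : L) = 0
    · refine ⟨0, fun η _ => ?_⟩
      have : w j = 0 := Subtype.ext h0
      rw [this, map_zero]
      simp
    · obtain ⟨k, hk⟩ := hGL (w j : L) (Finset.mem_filter.2 ⟨Finset.mem_image.2
        ⟨j, Finset.mem_univ j, rfl⟩, h0⟩)
      obtain ⟨C, hC⟩ := form_bound Y hD hb (hw j) hk hδ''
      refine ⟨C ^ 2, fun η hη => ?_⟩
      have h1 := hC η hη
      calc ‖Y.cL.s η (w j)‖ ^ 2 * ‖Y.cL.J η‖ ^ (2 * e₀) =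
            (‖Y.cL.s η (w j)‖ * ‖Y.cL.J η‖ ^ e₀) ^ 2 := by ring
        _ ≤ C ^ 2 := by gcongr
  choose C hC using key
  refine ⟨∑ j, C j, fun η hη => ?_⟩
  show (∑ j, ‖Y.cL.s η (w j)‖ ^ 2) * ‖Y.cL.J η‖ ^ (2 * e₀) ≤ ∑ j, C j
  rw [Finset.sum_mul]
  exact Finset.sum_le_sum fun j _ => hC j η hη

/-- **(C2)** for `e₀`-canonical forms `w_j` -/
theorem c2 (H₁ : Rel MT ML) (H₂ : Rel ML MK) {e e₀ : ℕ} (w : Fin (e + 1) → ML.B) (he : 0 < e₀)
    (b : Module.Basis (Fin (ρ + a)) L (Ω[L⁄ℂ]))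
    (hb : ∀ j, b j = KaehlerDifferential.D ℂ L (ML.z j))
    (hw : ∀ j, PluriS ℂ b e₀ (w j : L)) : C2 H₁ H₂ w e₀ (b2 ML w he) :=
  c2_of_bd H₁ H₂ w he fun _ hR => bdw H₁ H₂ w he b hb fun j => regAt_comap hR.alg (hw j)

end Crest.Agent.R276.W2_748
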