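import Mathlib
import Crest.Agent.R276.EndC3_723
import Crest.Agent.R276.ExtC_723
import Crest.Agent.R276.EndS_870
import Crest.Agent.R276.GoalU_845
import Crest.Agent.R276.TChB_858
import Crest.Agent.R276.Skel_220
import Crest.Agent.R276.TChC_858
import Crest.Agent.R276.W2c_748
import Crest.Agent.R276.C1fin_986_Mg
import Crest.Agent.R276.LCY_464
import Crest.Agent.R276.LEv_220
import Crest.Agent.R276.SkoQ_425
import Crest.Agent.R276.LNf_333
import Crest.Agent.R276.LNj_333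
import Crest.Agent.R276.PrpM_739
import Crest.Agent.R276.FlatTop_793
import Crest.Agent.R276.IpcRz_840
import Crest.Agent.R276.LocH_454
import Crest.Agent.R276.Mono_574
import Crest.Agent.R276.PVm_159
import Crest.Agent.R276.NBcore_696
import Crest.Agent.R276.Pvx_999
import Crest.Agent.R276.OTB_189
import Crest.Agent.R276.Restr_29
import Crest.Agent.R276.NbB_185
import Crest.Agent.R276.LNd_333
import Crest.Agent.R276.NbE_185
import Crest.Agent.R276.Ann_696
import Crest.Agent.R276.LNe_333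
import Crest.Agent.R276.Rs_185
import Crest.Agent.R276.StU_748

-- ▼ part R276/LGlue_870
section

/-!
# Row 276 (helper870): glue for `Skel_220`: `LTCh`, `LC2` (from `LEv`)
-/

set_option autoImplicit false

noncomputable section

namespace Crest.Agent.R276.LGlue_870

open Crest.Agent.R271.Defs710 hiding glue
open Crest.Agent.R276.Mod1_987 Crest.Agent.R276.FKDefs_779 Crest.Agent.R276.BetaDefs_231
open Crest.Agent.R276.SkelDefs_220 Crest.Agent.R276.TowA_849 Crest.Agent.R276.SkelGeo_220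
open Crest.Agent.R276.Skel_220 Crest.Agent.R276.FKB0_143

section stm

variable {T L K : Type} [Field T] [Field L] [Field K] [Algebra ℂ T] [Algebra ℂ L] [Algebra ℂ K]
  [Algebra T L] [Algebra L K] [IsScalarTower ℂ T L] [IsScalarTower ℂ L K] {ρ a r : ℕ}
  {W : Tow T L K ρ a r} {N d e₀ s e : ℕ} {σ : Fin s → K} {w : Fin (e + 1) → L}

/-- the sections are in the ring -/
theorem mem (h : TowOK W N d e₀ σ w) : ∀ i, σ i ∈ W.MK.B := by
  obtain ⟨X, -⟩ := h.geo
  exact X.mem

/-- statements which hold for all relative models of the tower -/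
theorem stm_of (h : TowOK W N d e₀ σ w)
    {Φ : ∀ {MT : Mdl T ρ} {ML : Mdl L (ρ + a)} {MK : Mdl K (ρ + a + r)} (_ : Rel MT ML)
      (_ : Rel ML MK) (_ : Fin s → MK.B) (_ : Fin (e + 1) → ML.B) (_ : ML.Pts → ℝ), Prop}
    (hΦ : ∀ (H₁ : Rel W.MT W.ML) (H₂ : Rel W.ML W.MK),
      Φ H₁ H₂ (fr W.LK σ (mem h)) (fun j => ⟨w j, h.wmem j⟩) (DR W.LK N (fr W.LK σ (mem h)))) :
    Stm W N σ w Φ :=
  ⟨h.H₁, h.H₂, mem h, h.wmem, hΦ h.H₁ h.H₂⟩

end stm

/-- **LTCh** -/
theorem ltch (hEv : LEv) : LTCh := by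
  intro T L K _ _ _ _ _ _ _ _ _ _ ρ a r W N d e e₀ s σ w hOK
  exact (hEv T L K ρ a r W N d e e₀ s σ w hOK).mono fun W' h =>
    stm_of h (Φ := fun H₁ H₂ _ _ _ => TCh H₁ H₂) fun H₁ H₂ => TCh_858.tch H₁ H₂

/-- **LC2** -/
theorem lc2 (hEv : LEv) : LC2 := by
  intro T L K _ _ _ _ _ _ _ _ _ _ ρ a r W N d e e₀ s σ w hOK
  exact (hEv T L K ρ a r W N d e e₀ s σ w hOK).mono fun W' h =>
    stm_of h (Φ := fun H₁ H₂ _ w _ => ∃ b₂, C2 H₁ H₂ w e₀ b₂) fun H₁ H₂ =>
      ⟨_, W2_748.c2 H₁ H₂ _ h.e₀_pos (kbasis (Cmp_595.isTranscendenceBasis W'.ML))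
        (fun j => kbasis_apply _ j)
        (h.wreg (kbasis (Cmp_595.isTranscendenceBasis W'.ML)) fun j => kbasis_apply _ j)⟩

end Crest.Agent.R276.LGlue_870
end
end

-- ▼ part R276/LC1_986
section

/-!
# Row 276 (helper986): `Skel_220.LC1`

Data (B), (Cl), family `v` (464, 845, 425, 886) + `c1_data` (986, 185, 201, 505, 748).
-/

set_option autoImplicit false

noncomputable section

namespace Crest.Agent.R276.LC1_986

open Crest.Agent.R271.Defs710 hiding glue
open Crest.Agent.R276.Mod1_987 Crest.Agent.R276.FKDefs_779 Crest.Agent.R276.BetaDefs_231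
open Crest.Agent.R276.SkelDefs_220 Crest.Agent.R276.TowA_849 Crest.Agent.R276.SkelGeo_220
open Crest.Agent.R276.Skel_220 Crest.Agent.R276.LGlue_870 Crest.Agent.R276.LC1a_464

/-- (PE) -/
theorem peAll : PEAll := by
  intro L K _ _ _ _ _ _ r bas N s Y u hS hr hN hY hu hP
  have hac : ∀ x : K, IsAlgebraic L x → x ∈ Set.range (algebraMap L K) := fun x hx => by
    obtain ⟨y, hy⟩ := hS.ac x hx
    exact ⟨y, hy⟩
  exact SkoQ_425.exists_pe_all hac bas N Y (fun y hy => hY.jac_ne y hy) hu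

/-- **LC1** -/
theorem lc1 : Skel_220.LC1 := by
  intro T L K _ _ _ _ _ _ _ _ _ _ ρ a r W N d e e₀ s σ w hOK
  obtain ⟨ε₀, bK, hε₀, hEvd⟩ := data peAll hOK
  refine ⟨ε₀, hε₀, ((LEv_220.lev T L K ρ a r W N d e e₀ s σ w hOK).and hEvd).mono ?_⟩
  rintro W' ⟨h, hd⟩ q hq hqε
  refine stm_of h (Φ := fun H₁ H₂ u _ D =>
    (∀ k : ℕ, 0 < k → ∃ b₁, C1 H₁ H₂ N k u D (1 / (q : ℝ)) b₁) ∧ SkoP H₂ N u (1 / (q : ℝ)))
    fun H₁ H₂ => ?_
  have hD := hd H₂ (fr W'.LK σ (mem h)) fun i => rfl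
  have hq0 : (0 : ℝ) < q := by exact_mod_cast hq
  have hN : 0 < N := by have := h.N_ge; omega
  refine ⟨fun k hk => ?_, 1, one_ne_zero, fun z _ k P hk hP =>
    hD.sko (1 / (q : ℝ)) (by positivity) hqε z k P hk hP⟩
  obtain ⟨n, v, hv, hmon, -, hBB, hCL⟩ := hD.fam q hq hqε k hk
  obtain ⟨X, -, -⟩ := h.geo
  have hsat : FlatDefs_236.SatFam (CInd_870.rm H₂) N (fr W'.LK σ (mem h)) :=
    LCY_464.satFam_rm X.sat H₂
  refine ⟨_, C1fin_986.c1_data H₁ H₂ bK hD.basis (N' := q * k * N) (N₁ := N * (k * (q + N)))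
    (l := q + N) h.s_pos hN (by positivity) hk (by positivity) ?_ rfl
    (fr W'.LK σ (mem h)) hD.pluri v hv hmon (IsCY_464.isCY hsat)
    (IsCY_464.continuous_Dr hsat) hBB hCL⟩
  push_cast
  field_simp

end Crest.Agent.R276.LC1_986
end
end

-- ▼ part R276/LNz_333
section

/-!
# Row 276, LEMMA N (helper333), part z: LEMMA N for flat families, from (PV)

* `PVH`, `PVG` : the two plurisubharmonicity inputs, for a saturated family;
* `lineT` : `FlatFam R N u f M → PVH → PVG → LineT (Phi N u)`.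
-/

set_option autoImplicit false
set_option linter.unusedSectionVars false

open Set Filter Topology MeasureTheory Metric
open scoped ENNReal

noncomputable section

namespace Crest.Agent.R276.LNz_333

open Crest.Agent.R271 Crest.Agent.R271.Ho51 Crest.Agent.R271.Rd692
open Crest.Agent.R276.Mod1_987 Crest.Agent.R276.FlatM_464
open Crest.Agent.R276.FlatDefs_236
open Crest.Agent.R276.LN_999 Crest.Agent.R276.LNb_333 Crest.Agent.R276.LNf_333
open Crest.Agent.R276.Fdc_999 (PV)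
open Crest.Agent.R276.LNg_999 (Dsc Span unit_of_frame)
open Crest.Agent.R276.Liou_739 (ln Prp)

variable {L K : Type} [Field L] [Field K] [Algebra ℂ L] [Algebra ℂ K] [Algebra L K]
  [IsScalarTower ℂ L K] {m r : ℕ} {R : RMdl L K m r} {N s : ℕ} {u : Fin s → R.MK.B}
  {f : R.ML.Pts → ℂ} {M : ℕ}

/-- (PV) for the Narasimhan-Simha metric -/
def PVH (S : SatFam R N u) : Prop :=
  ∀ (x : R.ML.Pts) (v : Fin m → ℂ) (ρ : ℝ), 1 < ρ → Dsc x v ρ →
    PV (fun t => (lnF S).H (ln x v t))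

/-- (PV) for the auxiliary metrics -/
def PVG (S : SatFam R N u) : Prop :=
  ∀ (x : R.ML.Pts) (v : Fin m → ℂ) (ρ : ℝ), 1 < ρ → Dsc x v ρ → ∀ {k : ℕ}
    (w : ℂ → Fin k → Fin s → ℂ), (∀ l i, DifferentiableOn ℂ (fun t => w t l i) (ball 0 ρ)) →
    (∀ t ∈ ball (0 : ℂ) ρ, Span (w t)) → PV (fun t => (lnF S).G (ln x v t) (w t))

/-- **LEMMA N**, for flat families, from (PV) -/
theorem lineT (F : FlatFam R N u f M) (hH : PVH F.toSatFam) (hG : PVG F.toSatFam) :
    GlobR_739.LineT (Phi N u) := by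
  have hN := two_le F.toSatFam
  have P := PrpM_739.prp R.ML
  have I : LNg_999.InpH (n := m) (lnF F.toSatFam) M f :=
    LNj_333.inpH (lnF F.toSatFam) P hN F.s_pos F.hol F.ne F.M_pos
      (fun x => by rw [F.eq x, lnF_DD]) hH
  have J : LNh_999.InpG (n := m) (lnF F.toSatFam) :=
    LNi_999.inpG hN F.s_pos (fun e z v ρ h1 h2 {k} w h3 h4 =>
      LNj_999.pvg_of_ch (fun x v ρ h1 h2 {k} w h3 h4 => hG x v ρ h1 h2 w h3 h4) e z v ρ h1 h2 w h3 h4)
      (fun a x T hT => LNj_333.lim (lnF F.toSatFam) hN a x T (unit_of_frame hT))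
  have key := LNj_999.lineT P hN I J
  intro e he z v hz
  obtain ⟨T, h1, h2, h3⟩ := key e he z v hz
  refine ⟨T, h1, h2, fun t ht a => ?_⟩
  have h4 := h3 t ht a
  rw [← ofReal_lnF_Phi F.toSatFam, ← ofReal_lnF_Phi F.toSatFam, h4]

end Crest.Agent.R276.LNz_333
end
end

-- ▼ part R276/LFlat_793
section

/-!
# Row 276 (S0419), helper793: `Skel_220.LFlat`

* `monoAll`, `lemN_of` : the inputs of `FlatTop_793`;
* `lflat_of` : `LemN → Skel_220.LFlat`;
* `lflat` : `Skel_220.LFlat` from (PV) (`PVAll` : 159's `PVH`, `PVG` for every saturated family).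
-/

set_option autoImplicit false
set_option linter.unusedSectionVars false

open Topology Filter MeasureTheory Matrix
open scoped ENNReal

noncomputable section

namespace Crest.Agent.R276.LFlat_793

open Crest.Agent.R271 Crest.Agent.R271.Ho51
open Crest.Agent.R271.Rd692 hiding evs
open Crest.Agent.R271.Defs710 hiding glue
open Crest.Agent.R276.Mod1_987 Crest.Agent.R276.FlatDefs_236 Crest.Agent.R276.FlatM_464
open Crest.Agent.R276.Ipc735 Crest.Agent.R276.Iter_840 Crest.Agent.R276.TowA_849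
open Crest.Agent.R276.SkelDefs_220 Crest.Agent.R276.CInd_870 Crest.Agent.R276.SkelGeo_220
open Crest.Agent.R276.FlatTop_793

/-! ### the inputs -/

theorem monoAll : MonoAll := fun M _ _ _ x => Mono_574.mono (PrpM_739.prp M) x

/-- (PV) for the metrics of LEMMA N (159), for every saturated family -/
def PVAll : Prop :=
  ∀ {L K : Type} [Field L] [Field K] [Algebra ℂ L] [Algebra ℂ K] [Algebra L K]
    [IsScalarTower ℂ L K] {m r : ℕ} (R : RMdl L K m r) (N s : ℕ) (u : Fin s → R.MK.B)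
    (S : SatFam R N u), LNz_333.PVH S ∧ LNz_333.PVG S

theorem lemN_of (h : PVAll) : LemN := fun R N s u _ _ F =>
  LNz_333.lineT F (h R N s u F.toSatFam).1 (h R N s u F.toSatFam).2

/-! ### the two forms of the CY line -/

section cyl

variable {L K : Type} [Field L] [Field K] [Algebra ℂ L] [Algebra ℂ K] [Algebra L K]
  [IsScalarTower ℂ L K] {m r : ℕ} {R : RMdl L K m r} {N s : ℕ}

lemma lV_smul {X : Type*} {n : ℕ} (P : X → X → GL (Fin n) ℤ) (φ : X → Fin n → ℂ) (c : ℂ)
    (z y : X) : lV P (fun z => c • φ z) z y = c • lV P φ z y := by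
  unfold lV
  rw [Matrix.mulVec_smul]

/-- 236's `CYL` from 327's, after rescaling -/
theorem cyl_of {u : Fin s → R.MK.B} (HS : SatFam R N u) {n wt : ℕ} {V : VHS m R.ML.Pts n wt}
    {om : R.ML.Pts → Fin n → ℂ} (h : VLevi_327.CYL V om) {c : ℝ} (hc : 0 < c)
    (hnrm : ∀ z, VLevi_327.hn V z (om z) = c * DR R N u z) :
    Restr_236.CYL R N u V (fun z => ((Real.sqrt (N / c) : ℝ) : ℂ) • om z) := by
  have hN : (0 : ℝ) < N := by
    have := HS.N_ge
    exact_mod_cast (by omega : 0 < N)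
  set κ : ℝ := Real.sqrt (N / c) with hκ
  have hκ0 : 0 < κ := Real.sqrt_pos.2 (by positivity)
  have hlv : ∀ z, lV V.P (fun z => (κ : ℂ) • om z) z = fun y => (κ : ℂ) • lV V.P om z y :=
    fun z => funext fun y => lV_smul _ _ _ _ _
  have hol' : ∀ z, HolAt (lV V.P (fun z => (κ : ℂ) • om z) z) z := by
    intro z
    rw [hlv]
    have h2 : AnalyticAt ℂ (lV V.P om z ∘ (ch z).symm) (cp z) := h.hol z
    exact (analyticAt_const (v := (κ : ℂ))).smul h2
  refine { top := fun z => ?_, hol := fun z => ?_, nrm := fun z => ?_, par := fun z j => ?_ }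
  · show V.E z *ᵥ ((κ : ℂ) • om z) = (wt : ℂ) • ((κ : ℂ) • om z)
    rw [Matrix.mulVec_smul, h.eig z, smul_comm]
  · exact hol' z
  · have h1 : Top8_815.hnsq V z ((κ : ℂ) • om z) = κ ^ 2 * VLevi_327.hn V z (om z) := by
      have h2 : Top8_815.hnsq V z ((κ : ℂ) • om z) = VLevi_327.hn V z ((κ : ℂ) • om z) := rfl
      rw [h2]
      unfold VLevi_327.hn
      rw [Desc_327.qf_smul, Complex.norm_real, Real.norm_of_nonneg hκ0.le]
    show ENNReal.ofReal (Top8_815.hnsq V z ((κ : ℂ) • om z)) = _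
    rw [h1, hnrm, hκ, Real.sq_sqrt (by positivity)]
    have h3 : (N : ℝ) / c * (c * DR R N u z) = N * DR R N u z := by field_simp
    rw [h3, ENNReal.ofReal_mul hN.le, ENNReal.ofReal_natCast]
    unfold DR
    rw [ENNReal.ofReal_toReal (HS.D_fin z)]
  · obtain ⟨b, hb⟩ := h.par z j
    refine ⟨b, ?_⟩
    have h1 : Par_425.Dv V.P (fun z => (κ : ℂ) • om z) j z = (κ : ℂ) • Par_425.Dv V.P om j z := by
      rw [Par_425.Dv_eq (hol' z), Par_425.Dv_eq (h.hol z), hlv]
      have h2 : AnalyticAt ℂ (lV V.P om z ∘ (ch z).symm) (cp z) := h.hol z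
      have h3 : (fun y => (κ : ℂ) • lV V.P om z y) ∘ (ch z).symm =
          (κ : ℂ) • (lV V.P om z ∘ (ch z).symm) := rfl
      rw [h3, fderiv_const_smul h2.differentiableAt]
      rfl
    rw [h1]
    have h2 : Par_425.Dv V.P om j z = dM V.P V.E j z *ᵥ om z + b • om z := hb
    rw [h2, smul_add, Matrix.mulVec_smul, smul_comm b]

end cyl

/-! ### `LFlat` -/

/-- **`LFlat`** from LEMMA N -/
theorem lflat_of (hN : LemN) : Skel_220.LFlat := by
  intro T L K _ _ _ _ _ _ _ _ _ _ ρ a r W N d e e₀ s σ w hOK ε hε hsko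
  obtain ⟨-, H₂, hσ, hw, hsko⟩ := hsko
  obtain ⟨X, -, hX⟩ := hOK.geo
  have HS : SatFam (rm H₂) N (fr W.LK σ hσ) := X.sat
  refine ⟨hOK.H₁, H₂, hσ, hw, ?_⟩
  have HC : Restr_236.CYL (rm H₂) N (fr W.LK σ hσ) X.V
      (fun z => ((Real.sqrt (N / X.c) : ℝ) : ℂ) • X.om z) := cyl_of X.sat X.cyl X.c_pos X.nrm
  have hθ : ∀ (z : W.ML.Pts) (k : Fin a), dM X.V.P X.V.E (Fin.natAdd ρ k) z *ᵥ
      (((Real.sqrt (N / X.c) : ℝ) : ℂ) • X.om z) = 0 := by
    intro z k
    have h1 := (hX z (Pi.single (Fin.natAdd ρ k) 1)).1 (fun i => by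
      rw [Pi.single_eq_of_ne]
      intro h
      have := congrArg Fin.val h
      simp only [Fin.val_castAdd, Fin.val_natAdd] at this
      have := i.2
      omega)
    have h2 : dM X.V.P X.V.E (Fin.natAdd ρ k) z = 0 := by
      unfold VLevi_327.thV at h1
      rw [Finset.sum_eq_single (Fin.natAdd ρ k)] at h1
      · simpa using h1
      · intro b _ hb
        rw [Pi.single_eq_of_ne hb, zero_smul]
      · simp
    rw [h2, Matrix.zero_mulVec]
  obtain ⟨f, hf0, hf, hfi⟩ := hOK.ind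
  obtain ⟨i0, ι, -, hι⟩ := FlatC_464.exists_ratio σ f hf0 hf hfi
  have hCY : IsCY H₂ N (fr W.LK σ hσ) (DR W.LK N (fr W.LK σ hσ)) := by
    intro z
    have hD := HS.D_pos z
    have hD' := HS.D_fin z
    exact ⟨ENNReal.toReal_pos hD.ne' hD',
      (FlatC_464.fintS_dl H₂ (fr W.LK σ hσ) z (by positivity)).trans
        (ENNReal.ofReal_toReal hD').symm⟩
  exact flat_top hOK.conn₁ hOK.conn₂ monoAll hN Step_454.oneStep stepRz_holds stepRzAct_holds HS HC
    hθ hε.le hCY ⟨i0, ι, hι⟩ hsko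


end Crest.Agent.R276.LFlat_793
end
end

-- ▼ part R276/PVn_159
section

/-!
# Row 276, part D1 (helper159): covectors of a holomorphic frame as families of functionals, II
-/

set_option autoImplicit false
set_option linter.unusedSectionVars false

noncomputable section

open Set Filter Topology Complex MeasureTheory Metric
open scoped ENNReal ComplexConjugate Matrix

namespace Crest.Agent.R276.PV_159

open Crest.Agent.R271 Crest.Agent.R271.Ho51 Crest.Agent.R271.W792

variable {R : ℝ} {D : Dom R} {s : ℕ}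

/-- combinations of the frame -/
def Frame.cmb (B : Frame D s) (c : Fin s → ℂ) (x : D.P) : ℂ := ∑ i, c i * B.u i x

lemma Frame.cmb_hol (B : Frame D s) (c : Fin s → ℂ) : Ho51.Hol (B.cmb c) := by
  intro e he
  have h1 : (B.cmb c ∘ e.symm) = fun z => ∑ i, c i * (B.u i ∘ e.symm) z := rfl
  rw [h1]
  exact DifferentiableOn.fun_sum fun i _ => (differentiableOn_const _).mul (B.hol i e he)

/-- covectors are bounded for the norm -/
lemma Frame.bd2 (B : Frame D s) (ξ : ℂ → Fin s → ℂ) (t : ℂ) : ∃ C : ℝ≥0∞, C ≠ ∞ ∧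
    (‖t‖ < R → ∀ g, FHol t g → ENNReal.ofReal (‖B.fn ξ t g‖ ^ 2) ≤ C * D.nrm g t) := by
  by_cases ht : ‖t‖ < R
  · obtain ⟨q, hq⟩ := exists_points (X := {x : D.P // tc x = t}) (fun i x => B.u i x.1) (by
      intro c hc
      exact B.ind t ht c fun x hx => hc ⟨x, hx⟩)
    set A : Matrix (Fin s) (Fin s) ℂ := Matrix.of fun k i => B.u i (q k).1 with hA
    have hAu : IsUnit A.det := isUnit_iff_ne_zero.2 hq
    set L : Fin s → ℂ := ξ t ᵥ* A⁻¹ with hL
    have hC : ∀ k, ∃ C : ℝ≥0∞, C ≠ ∞ ∧ ∀ g, FHol t g →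
        ENNReal.ofReal (‖g (q k).1‖ ^ 2) ≤ C * D.nrm g t := by
      intro k
      obtain ⟨C, hC1, hC2⟩ := D.ev_bd (q k).1
      refine ⟨C, hC1, fun g hg => ?_⟩
      have h1 := hC2 g (by rw [(q k).2]; exact hg)
      rwa [(q k).2] at h1
    choose C hC1 hC2 using hC
    refine ⟨ENNReal.ofReal (∑ k, ‖L k‖ ^ 2) * ∑ k, C k,
      ENNReal.mul_ne_top ENNReal.ofReal_ne_top (ENNReal.sum_ne_top.2 fun k _ => hC1 k), ?_⟩
    intro _ g hg
    by_cases hin : B.In t g
    · obtain ⟨c, hc⟩ := hin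
      rw [B.fn_eq ξ ht hc]
      have h1 : A *ᵥ c = fun k => g (q k).1 := by
        funext k
        simp only [hA, Matrix.mulVec, dotProduct, Matrix.of_apply]
        rw [hc (q k).1 (q k).2]
        exact Finset.sum_congr rfl fun i _ => mul_comm _ _
      have h2 : ∑ i, ξ t i * c i = ∑ k, L k * g (q k).1 := by
        have h3 : L ⬝ᵥ (fun k => g (q k).1) = ξ t ⬝ᵥ c := by
          rw [← h1, hL, Matrix.dotProduct_mulVec, Matrix.vecMul_vecMul,
            Matrix.nonsing_inv_mul _ hAu, Matrix.vecMul_one]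
        exact h3.symm
      rw [h2]
      have h3 : ‖∑ k, L k * g (q k).1‖ ^ 2 ≤ (∑ k, ‖L k‖ ^ 2) * ∑ k, ‖g (q k).1‖ ^ 2 := by
        have h4 : ‖∑ k, L k * g (q k).1‖ ≤ ∑ k, ‖L k‖ * ‖g (q k).1‖ :=
          (norm_sum_le _ _).trans (le_of_eq (Finset.sum_congr rfl fun k _ => norm_mul _ _))
        calc ‖∑ k, L k * g (q k).1‖ ^ 2 ≤ (∑ k, ‖L k‖ * ‖g (q k).1‖) ^ 2 := by gcongr
          _ ≤ _ := Finset.sum_mul_sq_le_sq_mul_sq _ _ _
      calc ENNReal.ofReal (‖∑ k, L k * g (q k).1‖ ^ 2)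
          ≤ ENNReal.ofReal ((∑ k, ‖L k‖ ^ 2) * ∑ k, ‖g (q k).1‖ ^ 2) := ENNReal.ofReal_le_ofReal h3
        _ = ENNReal.ofReal (∑ k, ‖L k‖ ^ 2) * ∑ k, ENNReal.ofReal (‖g (q k).1‖ ^ 2) := by
            rw [ENNReal.ofReal_mul (Finset.sum_nonneg fun _ _ => by positivity),
              ENNReal.ofReal_sum_of_nonneg (s := Finset.univ) (f := fun k => ‖g (q k).1‖ ^ 2)
                (fun _ _ => by positivity)]
        _ ≤ ENNReal.ofReal (∑ k, ‖L k‖ ^ 2) * ∑ k, (C k * D.nrm g t) := by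
            gcongr with k _
            exact hC2 k g hg
        _ = _ := by rw [← Finset.sum_mul, mul_assoc]
    · rw [B.fn_zero ξ (fun h => hin h.2)]
      simp
  · exact ⟨0, by simp, fun h => absurd h ht⟩

/-- a.e. points of a ball are dense in it -/
lemma dense_of_ae {p : ℂ → Prop} (h : ∀ᵐ t, p t) (S : Set ℂ) : S ⊆ closure {t | t ∈ S ∧ p t} ∨
    ¬ IsOpen S := by
  by_cases hS : IsOpen S
  · left
    intro t ht
    rw [mem_closure_iff_nhds]
    intro V hV
    obtain ⟨O, hOV, hO, htO⟩ := _root_.mem_nhds_iff.1 (inter_mem hV (hS.mem_nhds ht))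
    have h1 : 0 < volume O := hO.measure_pos volume ⟨t, htO⟩
    have h2 : ∃ x ∈ O, p x := by
      by_contra hcon
      push Not at hcon
      have h3 : O ⊆ {x | ¬ p x} := fun x hx => hcon x hx
      have h4 : volume O ≤ volume {x | ¬ p x} := measure_mono h3
      rw [ae_iff] at h
      rw [h] at h4
      exact absurd (le_antisymm h4 bot_le) h1.ne'
    obtain ⟨x, hxO, hx⟩ := h2
    exact ⟨x, (hOV hxO).1, (hOV hxO).2, hx⟩
  · exact Or.inr hS

/-- holomorphy of the value of a covector on a holomorphic function -/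
lemma Frame.hol0 (B : Frame D s) {ξ : ℂ → Fin s → ℂ}
    (hξ : ∀ i, DifferentiableOn ℂ (fun t => ξ t i) (ball 0 R)) (G : D.P → ℂ) (hG : Ho51.Hol G)
    (hfin : ∀ᵐ t, D.nrm G t < ∞) : DifferentiableOn ℂ (fun t => B.fn ξ t G) (ball 0 R) := by
  have h := B.hol_fn hξ (W := ball (0 : ℂ) R) isOpen_ball (τ := fun t => t) differentiableOn_id
    (fun z hz => by rwa [mem_ball_zero_iff] at hz) (fun _ => G)
    (fun x => (hol_lsec hG x).mono inter_subset_right) (by
      have h1 : ∀ᵐ t, ‖t‖ < R → B.In t G := by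
        filter_upwards [hfin, B.sat] with t h1 h2 ht
        exact h2 ht G (Hol.fhol hG t) h1
      have h2 := (dense_of_ae h1 (ball (0 : ℂ) R)).resolve_right (fun h => h isOpen_ball)
      refine h2.trans (closure_mono ?_)
      rintro t ⟨ht, ht2⟩
      exact ⟨ht, ht2 (by rwa [mem_ball_zero_iff] at ht)⟩)
  exact h

/-- holomorphy in the other variables -/
lemma Frame.hol1 (B : Frame D s) {ξ : ℂ → Fin s → ℂ}
    (hξ : ∀ i, DifferentiableOn ℂ (fun t => ξ t i) (ball 0 R)) (Q : Dom R) (F : (Q.mul D).P → ℂ)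
    (hF : Ho51.Hol F) (hfin : ∀ᵐ t, (Q.mul D).nrm F t < ∞) :
    Ho51.Hol (fun q : Q.P => B.fn ξ (tc q) (fun x : D.P => ext2 (M := Q.P) (N := D.P) F q x)) := by
  intro e he
  have htc : ∀ z ∈ e.target, tc (e.symm z) = z 0 := by
    intro z hz
    unfold tc
    rw [he.cp_symm hz]
  have h0 : DifferentiableOn ℂ (fun z : Fin (Q.a + 1) → ℂ => z 0) e.target :=
    (differentiable_apply (𝕜 := ℂ) (0 : Fin (Q.a + 1))).differentiableOn
  have h := B.hol_fn hξ (W := e.target) e.open_target (τ := fun z => z 0) h0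
    (fun z hz => by rw [← htc z hz]; exact Q.tR _)
    (fun z x => ext2 (M := Q.P) (N := D.P) F (e.symm z) x) (by
      intro x
      have hVo : IsOpen (e.target ∩ (fun z : Fin (Q.a + 1) → ℂ => z 0) ⁻¹' ldom x) :=
        e.open_target.inter ((isOpen_ldom x).preimage (continuous_apply 0))
      refine ext2_hol (M := Q.P) (N := D.P) hF hVo (e.continuousOn_symm.mono inter_subset_left)
        ((cont_lsec x).comp (continuous_apply 0).continuousOn fun z hz => hz.2) ?_ ?_ ?_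
      · exact (differentiableOn_id.congr fun z hz => he.cp_symm hz).mono inter_subset_left
      · exact (diff_lsec x).comp (h0.mono inter_subset_left) fun z hz => hz.2
      · intro z hz
        have h5 := tc_lsec hz.2
        have h6 := htc z hz.1
        unfold tc at h5 h6
        rw [h5, h6]) (by
      -- density
      intro z hz
      rw [mem_closure_iff_nhds]
      intro V hV
      obtain ⟨r, hr, hrV⟩ := Metric.mem_nhds_iff.1 (inter_mem hV (e.open_target.mem_nhds hz))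
      have h1 : ∀ᵐ t : ℂ, (Q.mul D).nrm F t < ∞ ∧ (‖t‖ < R → ∀ g, FHol t g → D.nrm g t < ∞ →
          ∃ c : Fin s → ℂ, ∀ x, tc x = t → g x = ∑ i, c i * B.u i x) := by
        filter_upwards [hfin, B.sat] with t h1 h2
        exact ⟨h1, h2⟩
      have h2 := (dense_of_ae h1 (ball (z 0) r)).resolve_right (fun h => h isOpen_ball)
      obtain ⟨t, ht, ht1, ht2, ht3⟩ := mem_closure_iff_nhds.1 (h2 (mem_ball_self hr)) (ball (z 0) r)
        (isOpen_ball.mem_nhds (mem_ball_self hr))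
      have h3 := Q.ae_slice_fin D (T7a297.Hol.continuous hF) ht2
      set y0 : Fin Q.a → ℂ := fun i => z i.succ with hy0
      have h4 : 0 < volume (ball y0 r) := isOpen_ball.measure_pos volume ⟨y0, mem_ball_self hr⟩
      have h5 : ∃ y ∈ ball y0 r, ∀ q : Q.P, cp q = (Fin.cons t y : Fin (Q.a + 1) → ℂ) →
          D.nrm (fun x : D.P => ext2 (M := Q.P) (N := D.P) F q x) t < ∞ := by
        by_contra hcon
        push Not at hcon
        have h6 : ball y0 r ⊆ {y | ¬ ∀ q : Q.P, cp q = (Fin.cons t y : Fin (Q.a + 1) → ℂ) →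
          D.nrm (fun x : D.P => ext2 (M := Q.P) (N := D.P) F q x) t < ∞} := by
          intro y hy
          obtain ⟨q, hq1, hq2⟩ := hcon y hy
          intro hall
          exact absurd (hall q hq1) (not_lt.2 hq2)
        have h7 := measure_mono (μ := volume) h6
        rw [ae_iff] at h3
        rw [h3] at h7
        exact absurd (le_antisymm h7 bot_le) h4.ne'
      obtain ⟨y, hy, hyq⟩ := h5
      set z' : Fin (Q.a + 1) → ℂ := Fin.cons t y with hz'
      have hz'b : z' ∈ ball z r := by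
        rw [mem_ball, dist_pi_lt_iff hr]
        intro i
        refine Fin.cases ?_ (fun j => ?_) i
        · exact mem_ball.1 ht
        · exact (dist_pi_lt_iff hr).1 (mem_ball.1 hy) j
      have hz't : z' ∈ e.target := (hrV hz'b).2
      refine ⟨z', (hrV hz'b).1, hz't, ?_⟩
      have htc' : tc (e.symm z') = t := htc z' hz't
      have htR : ‖t‖ < R := by rw [← htc']; exact Q.tR _
      have hsl := FHol.slice (M := Q.P) (N := D.P) hF (e.symm z')
      rw [htc'] at hsl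
      exact ht3 htR _ hsl (hyq (e.symm z') (he.cp_symm hz't)))
  refine h.congr fun z hz => ?_
  show B.fn ξ (tc (e.symm z)) (fun x => ext2 (M := Q.P) (N := D.P) F (e.symm z) x) = _
  rw [htc z hz]

/-- covectors of a frame, as a family of functionals -/
def Frame.ff2 (B : Frame D s) (ξ : ℂ → Fin s → ℂ)
    (hξ : ∀ i, DifferentiableOn ℂ (fun t => ξ t i) (ball 0 R)) (w : D.P → ℝ≥0∞) (p : ℝ)
    (κ : ℂ → ℝ) (hκ : ∀ t, 0 < κ t)
    (hbd : ∀ᵐ t, ‖t‖ < R → ∀ c : Fin s → ℂ, D.nrm (B.cmb c) t < ∞ →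
      ENNReal.ofReal (‖∑ i, ξ t i * c i‖ ^ p) ≤ ENNReal.ofReal (κ t) * pn p w (B.cmb c) t) :
    FF2 D w p where
  ξ := B.fn ξ
  κ := κ
  κ2 t := (B.bd2 ξ t).choose
  κ_pos := hκ
  κ2_fin t := (B.bd2 ξ t).choose_spec.1
  loc t g g' h := by
    by_cases hin : ‖t‖ < R ∧ B.In t g
    · obtain ⟨ht, c, hc⟩ := hin
      rw [B.fn_eq ξ ht hc, B.fn_eq ξ ht (c := c) fun x hx => by rw [← h x hx]; exact hc x hx]
    · rw [B.fn_zero ξ hin, B.fn_zero ξ fun h' => hin ⟨h'.1, h'.2.congr fun x hx => (h x hx).symm⟩]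
  hom t a g := by
    by_cases hin : ‖t‖ < R ∧ B.In t g
    · obtain ⟨ht, c, hc⟩ := hin
      rw [B.fn_eq ξ ht hc, B.fn_eq ξ ht (c := fun i => a * c i) fun x hx => by
        rw [hc x hx, Finset.mul_sum]
        exact Finset.sum_congr rfl fun i _ => by ring]
      rw [Finset.mul_sum]
      exact Finset.sum_congr rfl fun i _ => by ring
    · rw [B.fn_zero ξ hin, mul_zero]
      by_cases ha : a = 0
      · rw [ha]
        by_cases ht : ‖t‖ < R
        · rw [B.fn_eq ξ ht (c := 0) fun x hx => by simp]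
          simp
        · rw [B.fn_zero ξ fun h => ht h.1]
      · refine B.fn_zero ξ fun h' => hin ⟨h'.1, ?_⟩
        refine (h'.2.smul a⁻¹).congr fun x _ => ?_
        rw [← mul_assoc, inv_mul_cancel₀ ha, one_mul]
  bd2 t ht g hg := (B.bd2 ξ t).choose_spec.2 ht g hg
  bdp := by
    filter_upwards [B.sat, hbd] with t hs hb ht g hg hfin
    obtain ⟨c, hc⟩ := hs ht g hg hfin
    have h1 : ∀ x, tc x = t → g x = B.cmb c x := hc
    rw [B.fn_eq ξ ht hc]
    have h2 : D.nrm (B.cmb c) t < ∞ := by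
      rw [← D.nrm_congr h1]; exact hfin
    refine (hb ht c h2).trans (mul_le_mul_right ?_ _)
    unfold pn
    refine fi_mono fun y hy => ?_
    rw [h1 y hy]
  hol0 G hG hfin := B.hol0 hξ G hG hfin
  hol1 Q F hF hfin := B.hol1 hξ Q F hF hfin

end Crest.Agent.R276.PV_159
end
end

-- ▼ part R276/PVo_159
section

/-!
# Row 276, part D1 (helper159): plurisubharmonic variation for continuous families of Hermitian metrics
(matrix form, circles around the centre)
-/

set_option autoImplicit false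
set_option linter.unusedSectionVars false

noncomputable section

open Set Filter Topology Complex MeasureTheory Metric Polynomial
open scoped ENNReal ComplexConjugate Matrix Real ComplexOrder

namespace Crest.Agent.R276.PV_159

open Crest.Agent.R271 Crest.Agent.R271.Ho51 Crest.Agent.R271.W792
open Crest.Agent.R276.Circ_696 (vN dN)
open Crest.Agent.R276

/-! ### from annuli to circles -/

/-- integrals over annuli are integrals of circle averages -/
lemma int_Ann_circ {F : ℂ → ℝ} {r1 r2 : ℝ}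
    (hF : ContinuousOn F (closedBall 0 r2)) :
    ∫ t in Ann r1 r2, F t = ∫ t in Ann r1 r2, Real.circleAverage F 0 ‖t‖ := by
  set A := Ann r1 r2 with hA
  have hAm : MeasurableSet A := measurableSet_Ann r1 r2
  have hrot : ∀ θ : ℝ, ∫ t in A, F (exp (θ * I) * t) = ∫ t in A, F t := by
    intro θ
    have hmp := (rotation (Circle.exp θ)).measurePreserving
    have hemb : MeasurableEmbedding (rotation (Circle.exp θ)) :=
      (rotation (Circle.exp θ)).toHomeomorph.measurableEmbedding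
    have h2 := hmp.setIntegral_preimage_emb hemb F A
    rw [← h2]
    have h3 : (rotation (Circle.exp θ)) ⁻¹' A = A := by
      ext t
      simp only [mem_preimage, hA, Ann, mem_ofPred_eq, LinearIsometryEquiv.norm_map]
    rw [h3]
    refine setIntegral_congr_fun hAm fun t _ => ?_
    simp [rotation_apply]
  have hcK : ContinuousOn (fun p : ℂ × ℝ => F (exp (p.2 * I) * p.1))
      (closedBall (0 : ℂ) r2 ×ˢ Icc 0 (2 * π)) := by
    refine hF.comp (by fun_prop) ?_
    rintro ⟨t, θ⟩ ⟨ht, _⟩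
    rw [mem_closedBall_zero_iff] at ht ⊢
    simp only [norm_mul, Complex.norm_exp_ofReal_mul_I, one_mul]
    exact ht
  have hint : Integrable (Function.uncurry fun (t : ℂ) (θ : ℝ) => F (exp (θ * I) * t))
      ((volume.restrict A).prod (volume.restrict (Ioc 0 (2 * π)))) := by
    rw [Measure.prod_restrict]
    have h2 : IntegrableOn (fun p : ℂ × ℝ => F (exp (p.2 * I) * p.1))
        (closedBall (0 : ℂ) r2 ×ˢ Icc 0 (2 * π)) (volume.prod volume) :=
      hcK.integrableOn_compact ((isCompact_closedBall (0 : ℂ) r2).prod isCompact_Icc)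
    exact h2.mono_set (prod_mono (Ann_sub r1 r2) Ioc_subset_Icc_self)
  have hswap := integral_integral_swap hint
  have hin : ∀ t ∈ A, ∫ θ in Ioc 0 (2 * π), F (exp (θ * I) * t) =
      2 * π * Real.circleAverage F 0 ‖t‖ := by
    intro t ht
    rw [Real.circleAverage_eq_integral_add (arg t)]
    have h3 : (fun θ : ℝ => F (circleMap 0 ‖t‖ (θ + arg t))) = fun θ : ℝ => F (exp (θ * I) * t) := by
      funext θ
      congr 1
      rw [circleMap_zero]
      push_cast
      rw [add_mul, Complex.exp_add]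
      conv_rhs => rw [← Complex.norm_mul_exp_arg_mul_I t]
      ring
    rw [h3, intervalIntegral.integral_of_le Real.two_pi_pos.le, smul_eq_mul, ← mul_assoc,
      mul_inv_cancel₀ Real.two_pi_pos.ne', one_mul]
  have hL : ∫ t in A, ∫ θ in Ioc 0 (2 * π), F (exp (θ * I) * t) =
      ∫ t in A, 2 * π * Real.circleAverage F 0 ‖t‖ := setIntegral_congr_fun hAm hin
  have hR : ∫ θ in Ioc 0 (2 * π), ∫ t in A, F (exp (θ * I) * t) = 2 * π * ∫ t in A, F t := by
    have h2 : (fun θ : ℝ => ∫ t in A, F (exp (θ * I) * t)) = fun _ => ∫ t in A, F t := by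
      funext θ; exact hrot θ
    rw [h2, setIntegral_const]
    simp [Real.two_pi_pos.le]
  rw [hL, hR, integral_const_mul] at hswap
  exact (mul_left_cancel₀ Real.two_pi_pos.ne' hswap).symm

/-- thin annuli approximate the circle average -/
lemma exists_Ann {F : ℂ → ℝ} {r R : ℝ} (hr : 0 < r) (hrR : r < R)
    (hF : ContinuousOn F (ball 0 R)) {ε : ℝ} (hε : 0 < ε) :
    ∃ r1 r2 : ℝ, 0 ≤ r1 ∧ r1 < r2 ∧ r2 < R ∧
      ⨍ t in Ann r1 r2, F t ≤ Real.circleAverage F 0 r + ε := by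
  have hm : ContinuousOn (Real.circleAverage F 0) (Ico 0 R) := by
    refine Real.ContinuousOn.circleAverage ?_ (fun x hx => hx.1)
    refine hF.mono fun z hz => ?_
    have hz' : ‖z - 0‖ ∈ Ico 0 R := hz
    rw [mem_ball_zero_iff]
    simpa using hz'.2
  have hIco : Ico 0 R ∈ 𝓝 r := Ico_mem_nhds hr hrR
  have hmr : ContinuousAt (Real.circleAverage F 0) r := hm.continuousAt hIco
  have hev : ∀ᶠ x in 𝓝 r, Real.circleAverage F 0 x < Real.circleAverage F 0 r + ε :=
    hmr.eventually_lt continuousAt_const (by linarith)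
  obtain ⟨η, hη, hball⟩ := Metric.eventually_nhds_iff_ball.1 (hev.and hIco)
  set r1 := r - η / 2 with hr1
  set r2 := r + η / 2 with hr2
  have h1m : r1 ∈ ball r η := by
    rw [mem_ball, Real.dist_eq, hr1]
    rw [abs_lt]; constructor <;> linarith
  have h2m : r2 ∈ ball r η := by
    rw [mem_ball, Real.dist_eq, hr2]
    rw [abs_lt]; constructor <;> linarith
  have hr10 : 0 ≤ r1 := (hball r1 h1m).2.1
  have hr2R : r2 < R := (hball r2 h2m).2.2
  have hlt : r1 < r2 := by rw [hr1, hr2]; linarith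
  refine ⟨r1, r2, hr10, hlt, hr2R, ?_⟩
  have hFc : ContinuousOn F (closedBall 0 r2) := hF.mono (closedBall_subset_ball hr2R)
  rw [setAverage_eq, int_Ann_circ hFc, ← setAverage_eq]
  set A := Ann r1 r2 with hA
  have hAm : MeasurableSet A := measurableSet_Ann r1 r2
  have hV : 0 < volume.real A :=
    ENNReal.toReal_pos (vol_Ann_pos hr10 hlt).ne' (vol_Ann_lt r1 r2).ne
  have hle : ∀ t ∈ A, Real.circleAverage F 0 ‖t‖ ≤ Real.circleAverage F 0 r + ε := by
    intro t ht
    refine (hball ‖t‖ ?_).1.le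
    rw [mem_ball, Real.dist_eq, abs_lt]
    have h1 := ht.1
    have h2 := ht.2
    rw [hr1] at h1
    rw [hr2] at h2
    constructor <;> linarith
  have hcont : ContinuousOn (fun t : ℂ => Real.circleAverage F 0 ‖t‖) (closedBall 0 r2) :=
    hm.comp continuous_norm.continuousOn fun t ht => by
      rw [mem_closedBall_zero_iff] at ht
      exact ⟨norm_nonneg _, lt_of_le_of_lt ht hr2R⟩
  have hint : IntegrableOn (fun t : ℂ => Real.circleAverage F 0 ‖t‖) A :=
    (hcont.integrableOn_compact (isCompact_closedBall (0 : ℂ) r2)).mono_set (Ann_sub r1 r2)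
  have h5 : ∫ t in A, Real.circleAverage F 0 ‖t‖ ≤ ∫ _ in A, (Real.circleAverage F 0 r + ε) :=
    setIntegral_mono_on hint (integrableOn_const (vol_Ann_lt r1 r2).ne) hAm hle
  rw [setIntegral_const, smul_eq_mul] at h5
  rw [setAverage_eq, smul_eq_mul, ← div_eq_inv_mul, div_le_iff₀ hV]
  linarith

/-! ### superadditivity of geometric means on circles -/

lemma geom_add {ρ : ℝ} (hρ : 0 < ρ) {a : ℂ → ℝ} (ha : ContinuousOn a (sphere 0 ρ))
    (ha0 : ∀ t ∈ sphere (0 : ℂ) ρ, 0 < a t) {δ : ℝ} (hδ : 0 < δ) :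
    Real.exp (Real.circleAverage (fun t => Real.log (a t)) 0 ρ) + δ ≤
      Real.exp (Real.circleAverage (fun t => Real.log (a t + δ)) 0 ρ) := by
  set S := Real.circleAverage (fun t => Real.log (a t + δ)) 0 ρ with hS
  have hpos : ∀ t ∈ sphere (0 : ℂ) ρ, 0 < a t + δ := fun t ht => by have := ha0 t ht; linarith
  have haδ : ContinuousOn (fun t => a t + δ) (sphere 0 ρ) := ha.add continuousOn_const
  have hlogS : ContinuousOn (fun t => Real.log (a t + δ)) (sphere 0 ρ) :=
    haδ.log fun t ht => (hpos t ht).ne'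
  have hloga : ContinuousOn (fun t => Real.log (a t)) (sphere 0 ρ) :=
    ha.log fun t ht => (ha0 t ht).ne'
  -- the two ratios
  have hr1 : ContinuousOn (fun t => a t / (a t + δ)) (sphere 0 ρ) :=
    ha.div haδ fun t ht => (hpos t ht).ne'
  have hr2 : ContinuousOn (fun t => δ / (a t + δ)) (sphere 0 ρ) :=
    continuousOn_const.div haδ fun t ht => (hpos t ht).ne'
  have hr1p : ∀ t ∈ sphere (0 : ℂ) ρ, 0 < a t / (a t + δ) := fun t ht =>
    div_pos (ha0 t ht) (hpos t ht)
  have hr2p : ∀ t ∈ sphere (0 : ℂ) ρ, 0 < δ / (a t + δ) := fun t ht => div_pos hδ (hpos t ht)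
  have hci := fun {f : ℂ → ℝ} (hf : ContinuousOn f (sphere 0 ρ)) => NBcore_696.ci hρ hf
  have hsum : Real.circleAverage (fun t => a t / (a t + δ)) 0 ρ +
      Real.circleAverage (fun t => δ / (a t + δ)) 0 ρ = 1 := by
    rw [← Real.circleAverage_fun_add (hci hr1) (hci hr2)]
    have h1 : Real.circleAverage (fun t => a t / (a t + δ) + δ / (a t + δ)) 0 ρ =
        Real.circleAverage (fun _ : ℂ => (1 : ℝ)) 0 ρ := by
      apply Real.circleAverage_congr_sphere
      intro t ht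
      rw [abs_of_pos hρ] at ht
      simp only
      rw [← add_div, div_self (hpos t ht).ne']
    rw [h1, Real.circleAverage_const]
  have hmin : ∀ {f : ℂ → ℝ}, ContinuousOn f (sphere 0 ρ) → (∀ t ∈ sphere (0 : ℂ) ρ, 0 < f t) →
      Real.exp (Real.circleAverage (fun t => Real.log (f t)) 0 ρ) ≤ Real.circleAverage f 0 ρ := by
    intro f hf hf0
    have hpos : 0 < Real.circleAverage f 0 ρ := by
      obtain ⟨t0, ht0, hmin⟩ := (isCompact_sphere (0 : ℂ) ρ).exists_isMinOn
        (NormedSpace.sphere_nonempty.2 hρ.le) hf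
      have h1 : Real.circleAverage (fun _ : ℂ => f t0) 0 ρ ≤ Real.circleAverage f 0 ρ :=
        NBcore_696.mono hρ continuousOn_const hf fun t ht => hmin ht
      rw [Real.circleAverage_const] at h1
      exact lt_of_lt_of_le (hf0 t0 ht0) h1
    have h2 := NBcore_696.avg_log_le hρ hf hf0 hpos le_rfl
    calc _ ≤ Real.exp (Real.log (Real.circleAverage f 0 ρ)) := Real.exp_le_exp.2 h2
      _ = _ := Real.exp_log hpos
  have h1 := hmin hr1 hr1p
  have h2 := hmin hr2 hr2p
  have e1 : Real.circleAverage (fun t => Real.log (a t / (a t + δ))) 0 ρ =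
      Real.circleAverage (fun t => Real.log (a t)) 0 ρ - S := by
    rw [hS, ← Real.circleAverage_fun_sub (hci hloga) (hci hlogS)]
    apply Real.circleAverage_congr_sphere
    intro t ht
    rw [abs_of_pos hρ] at ht
    simp only
    rw [Real.log_div (ha0 t ht).ne' (hpos t ht).ne']
  have e2 : Real.circleAverage (fun t => Real.log (δ / (a t + δ))) 0 ρ = Real.log δ - S := by
    have h3 : Real.log δ = Real.circleAverage (fun _ : ℂ => Real.log δ) 0 ρ := by
      rw [Real.circleAverage_const]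
    rw [h3, hS, ← Real.circleAverage_fun_sub (hci continuousOn_const) (hci hlogS)]
    apply Real.circleAverage_congr_sphere
    intro t ht
    rw [abs_of_pos hρ] at ht
    simp only
    rw [Real.log_div hδ.ne' (hpos t ht).ne']
  rw [e1, Real.exp_sub] at h1
  rw [e2, Real.exp_sub, Real.exp_log hδ] at h2
  have h4 : Real.exp (Real.circleAverage (fun t => Real.log (a t)) 0 ρ) / Real.exp S +
      δ / Real.exp S ≤ 1 := by linarith
  rwa [← add_div, div_le_one (Real.exp_pos S)] at h4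

/-! ### the crude form for two norms with `p = 2` -/

variable {R : ℝ} {D : Dom R} {s : ℕ}

lemma wpw_wt : ∀ j, wpw D.wt j = (D.pw j).wt
  | 0 => rfl
  | j + 1 => by
    funext q
    show wpw D.wt j _ * D.wt _ = _
    rw [wpw_wt j]
    exact (Dom.wt_mul (D.pw j) D q).symm

lemma pn_two (Q : Dom R) (F : Q.P → ℂ) (t : ℂ) : pn 2 Q.wt F t = Q.nrm F t := by
  unfold pn Dom.nrm Dom.dens
  refine fi_congr fun y _ => ?_
  rw [Real.rpow_two]

/-- **plurisubharmonic variation, crude form** (`p = 2`) -/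
theorem FF2.pv_crude (X : FF2 D D.wt 2) {U : D.P → ℂ} (hU : W792.Hol U) {S : ℝ≥0∞} (hS : S ≠ ∞)
    (hnrm : ∀ᶠ t in 𝓝 (0 : ℂ), D.nrm U t ≤ S)
    {r1 r2 : ℝ} (hr1 : 0 ≤ r1) (hr : r1 < r2) (hrR : r2 < R)
    (hκ : IntegrableOn (fun t => Real.log (X.κ t)) (Ann r1 r2))
    {c0 : ℝ} (hc0 : ∀ t ∈ Ann r1 r2, c0 ≤ Real.log (X.κ t)) :
    ‖X.ξ 0 U‖ ^ 2 ≤ Real.exp (⨍ t in Ann r1 r2, Real.log (X.κ t)) * S.toReal := by
  obtain ⟨ε, hε, hball⟩ := Metric.eventually_nhds_iff_ball.1 hnrm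
  have hR : 0 < R := lt_of_le_of_lt hr1 (hr.trans hrR)
  obtain ⟨C, hC, _, hcr⟩ := crude (ε := ε / 2) (R := R) (by positivity) hR
  have hmain := X.pv (by norm_num) le_rfl D.wt_meas (U := U) hC hS (fun j => ?_) hr1 hr hrR hκ hc0
  · rwa [Real.rpow_two] at hmain
  have hUj := Dom.upw_hol (D := D) hU j
  obtain ⟨F, hF, hF0, hFb⟩ := hcr ((D.pw j).dat (D.upw U j) hUj) (S ^ (j + 1)) (fun t ht => by
    have h1 := Dom.nrm_upw (D := D) hU t j
    have h2 : D.nrm U t ≤ S := hball t (by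
      rw [mem_ball_zero_iff]; linarith)
    show (D.pw j).nrm (D.upw U j) t ≤ _
    rw [h1]
    exact pow_le_pow_left' h2 _)
  have hBfin : C * S ^ (j + 1) ≠ ∞ := ENNReal.mul_ne_top hC (ENNReal.pow_ne_top hS)
  have hmeas : Measurable ((D.pw j).nrm F) :=
    measurable_fi ((D.pw j).dens_meas (T7a297.Hol.continuous hF))
  refine ⟨F, hF, hF0, ae_lt_top hmeas (lt_of_le_of_lt hFb hBfin.lt_top).ne, ?_⟩
  have h3 : ∀ t, pn 2 (wpw D.wt j) F t = (D.pw j).nrm F t := by
    intro t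
    rw [wpw_wt j]
    exact pn_two (D.pw j) F t
  simp_rw [h3]
  exact hFb

/-! ### continuous metrics -/

/-- the data: a frame whose norms are given by a continuous positive definite matrix -/
structure Met (D : Dom R) (s : ℕ) extends Frame D s where
  /-- the Gram matrix -/
  G : ℂ → Matrix (Fin s) (Fin s) ℂ
  pd : ∀ t, ‖t‖ < R → (G t).PosDef
  cont : ContinuousOn G (ball 0 R)
  eq : ∀ t, ‖t‖ < R → ∀ v, D.nrm (toFrame.cmb v) t = ENNReal.ofReal (vN (G t) v)

lemma vN_contOn {G : ℂ → Matrix (Fin s) (Fin s) ℂ} {K : Set ℂ} (hG : ContinuousOn G K)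
    {v : ℂ → Fin s → ℂ} (hv : ContinuousOn v K) : ContinuousOn (fun t => vN (G t) (v t)) K := by
  unfold vN
  refine Complex.continuous_re.comp_continuousOn ?_
  simp only [dotProduct, Matrix.mulVec]
  have hGij : ∀ i j, ContinuousOn (fun t => G t i j) K := fun i j =>
    (continuous_apply_apply i j).comp_continuousOn hG
  have hvi : ∀ i, ContinuousOn (fun t => v t i) K := fun i => (continuous_apply i).comp_continuousOn hv
  refine continuousOn_finsetSum _ fun i _ => ContinuousOn.mul ?_ ?_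
  · exact (hvi i).star
  · exact continuousOn_finsetSum _ fun j _ => (hGij i j).mul (hvi j)

lemma dN_contOn {G : ℂ → Matrix (Fin s) (Fin s) ℂ} {K : Set ℂ} (hG : ContinuousOn G K)
    (hpd : ∀ t ∈ K, (G t).PosDef)
    {v : ℂ → Fin s → ℂ} (hv : ContinuousOn v K) : ContinuousOn (fun t => dN (G t) (v t)) K := by
  have hinv : ContinuousOn (fun t => (G t)⁻¹) K := by
    have h1 : ∀ t, (G t)⁻¹ = (G t).det⁻¹ • (G t).adjugate := by
      intro t; rw [Matrix.inv_def, Ring.inverse_eq_inv']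
    simp only [h1]
    have hdet : ContinuousOn (fun t => (G t).det⁻¹) K := by
      refine ContinuousOn.inv₀ ?_ fun t ht => ?_
      · exact (continuous_id.matrix_det).comp_continuousOn hG
      · exact ((Matrix.isUnit_iff_isUnit_det _).1 (hpd t ht).isUnit).ne_zero
    exact hdet.smul ((continuous_id.matrix_adjugate).comp_continuousOn hG)
  have h2 : (fun t => dN (G t) (v t)) = fun t => vN ((G t)⁻¹) (star (v t)) := by
    funext t; exact Circ_696.dN_eq _ _
  rw [h2]
  exact vN_contOn hinv hv.star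

/-- **dual metrics are log-plurisubharmonic**, annuli -/
theorem Met.le_exp_Ann (B : Met D s) {ξ : ℂ → Fin s → ℂ}
    (hξ : ∀ i, DifferentiableOn ℂ (fun t => ξ t i) (ball 0 R)) {δ : ℝ} (hδ : 0 < δ)
    {r1 r2 : ℝ} (hr1 : 0 ≤ r1) (hr : r1 < r2) (hrR : r2 < R) :
    dN (B.G 0) (ξ 0) ≤ Real.exp (⨍ t in Ann r1 r2, Real.log (dN (B.G t) (ξ t) + δ)) := by
  classical
  have hR : 0 < R := lt_of_le_of_lt hr1 (hr.trans hrR)
  have h0R : ‖(0 : ℂ)‖ < R := by rwa [norm_zero]
  set κ : ℂ → ℝ := fun t => if ‖t‖ < R then dN (B.G t) (ξ t) + δ else δ with hκd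
  have hκ : ∀ t, 0 < κ t := by
    intro t
    simp only [hκd]
    by_cases ht : ‖t‖ < R
    · rw [if_pos ht]
      have := Circ_696.dN_nonneg (B.pd t ht) (ξ t)
      linarith
    · rw [if_neg ht]; exact hδ
  have hbd : ∀ᵐ t, ‖t‖ < R → ∀ c : Fin s → ℂ, D.nrm (B.toFrame.cmb c) t < ∞ →
      ENNReal.ofReal (‖∑ i, ξ t i * c i‖ ^ (2 : ℝ)) ≤ ENNReal.ofReal (κ t) *
        pn 2 D.wt (B.toFrame.cmb c) t := by
    refine Eventually.of_forall fun t ht c _ => ?_
    rw [pn_two, B.eq t ht, ← ENNReal.ofReal_mul (hκ t).le]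
    apply ENNReal.ofReal_le_ofReal
    have h1 := Circ_696.cs (B.pd t ht) (ξ t) c
    have h2 : κ t = dN (B.G t) (ξ t) + δ := by simp only [hκd]; rw [if_pos ht]
    have h3 := Circ_696.vN_nonneg (B.pd t ht).posSemidef c
    rw [Real.rpow_two, h2]
    refine h1.trans ?_
    nlinarith
  set X := B.toFrame.ff2 ξ hξ D.wt 2 κ hκ hbd with hX
  -- the averages
  have hcontξ : ContinuousOn ξ (ball 0 R) :=
    continuousOn_pi.2 fun i => (hξ i).continuousOn
  have hdN : ContinuousOn (fun t => dN (B.G t) (ξ t)) (ball 0 R) :=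
    dN_contOn B.cont (fun t ht => B.pd t (by rwa [mem_ball_zero_iff] at ht)) hcontξ
  have hAnnR : Ann r1 r2 ⊆ ball 0 R := (Ann_sub r1 r2).trans (closedBall_subset_ball hrR)
  have hAm : MeasurableSet (Ann r1 r2) := measurableSet_Ann r1 r2
  have hlogc : ContinuousOn (fun t => Real.log (dN (B.G t) (ξ t) + δ)) (closedBall 0 r2) := by
    refine ContinuousOn.log ((hdN.mono (closedBall_subset_ball hrR)).add continuousOn_const) ?_
    intro t ht
    have ht' : ‖t‖ < R := by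
      have := closedBall_subset_ball hrR ht
      rwa [mem_ball_zero_iff] at this
    have := Circ_696.dN_nonneg (B.pd t ht') (ξ t)
    linarith
  have heq : ∀ t ∈ Ann r1 r2, Real.log (X.κ t) = Real.log (dN (B.G t) (ξ t) + δ) := by
    intro t ht
    have ht' : ‖t‖ < R := ht.2.trans hrR
    show Real.log (κ t) = _
    simp only [hκd]
    rw [if_pos ht']
  have hint : IntegrableOn (fun t => Real.log (X.κ t)) (Ann r1 r2) := by
    refine IntegrableOn.congr_fun ?_ (fun t ht => (heq t ht).symm) hAm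
    exact (hlogc.integrableOn_compact (isCompact_closedBall (0 : ℂ) r2)).mono_set (Ann_sub r1 r2)
  have hlow : ∀ t ∈ Ann r1 r2, Real.log δ ≤ Real.log (X.κ t) := by
    intro t ht
    rw [heq t ht]
    have := Circ_696.dN_nonneg (B.pd t (ht.2.trans hrR)) (ξ t)
    exact Real.log_le_log hδ (by linarith)
  have havg : ⨍ t in Ann r1 r2, Real.log (X.κ t) =
      ⨍ t in Ann r1 r2, Real.log (dN (B.G t) (ξ t) + δ) := by
    rw [setAverage_eq, setAverage_eq, setIntegral_congr_fun hAm heq]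
  refine NBcore_696.dN_le (B.pd 0 h0R) (Real.exp_pos _).le fun v => ?_
  -- apply the crude form with `S = vN (G 0) v + ε`
  refine le_of_forall_pos_le_add fun ε hε => ?_
  set m := Real.exp (⨍ t in Ann r1 r2, Real.log (dN (B.G t) (ξ t) + δ)) with hm
  have hm0 : 0 < m := Real.exp_pos _
  have hvc : ContinuousAt (fun t => vN (B.G t) v) 0 :=
    (vN_contOn B.cont continuousOn_const).continuousAt (ball_mem_nhds 0 hR)
  have hv0 := Circ_696.vN_nonneg (B.pd 0 h0R).posSemidef v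
  have hev : ∀ᶠ t in 𝓝 (0 : ℂ), D.nrm (B.toFrame.cmb v) t ≤
      ENNReal.ofReal (vN (B.G 0) v + ε / m) := by
    have h1 : ∀ᶠ t in 𝓝 (0 : ℂ), vN (B.G t) v < vN (B.G 0) v + ε / m :=
      hvc.eventually_lt continuousAt_const (by
        have : 0 < ε / m := by positivity
        linarith)
    filter_upwards [h1, ball_mem_nhds (0 : ℂ) hR] with t ht htR
    rw [B.eq t (by rwa [mem_ball_zero_iff] at htR)]
    exact ENNReal.ofReal_le_ofReal ht.le
  have hpv := X.pv_crude (hol_of _ (B.toFrame.cmb_hol v)) ENNReal.ofReal_ne_top hev hr1 hr hrR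
    hint hlow
  rw [ENNReal.toReal_ofReal (by positivity), havg] at hpv
  have hval : X.ξ 0 (B.toFrame.cmb v) = ξ 0 ⬝ᵥ v := B.toFrame.fn_eq ξ h0R fun x _ => rfl
  rw [hval] at hpv
  refine hpv.trans (le_of_eq ?_)
  rw [← hm]
  field_simp

/-- **dual metrics are log-plurisubharmonic**, circles -/
theorem Met.log_le (B : Met D s) {ξ : ℂ → Fin s → ℂ}
    (hξ : ∀ i, DifferentiableOn ℂ (fun t => ξ t i) (ball 0 R)) {δ : ℝ} (hδ : 0 < δ)
    {r : ℝ} (hr : 0 < r) (hrR : r < R) :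
    Real.log (dN (B.G 0) (ξ 0) + δ) ≤
      Real.circleAverage (fun t => Real.log (dN (B.G t) (ξ t) + δ)) 0 r := by
  have hR : 0 < R := hr.trans hrR
  have h0R : ‖(0 : ℂ)‖ < R := by rwa [norm_zero]
  have hcontξ : ContinuousOn ξ (ball 0 R) := continuousOn_pi.2 fun i => (hξ i).continuousOn
  have hdN : ContinuousOn (fun t => dN (B.G t) (ξ t)) (ball 0 R) :=
    dN_contOn B.cont (fun t ht => B.pd t (by rwa [mem_ball_zero_iff] at ht)) hcontξ
  have hsub : sphere (0 : ℂ) r ⊆ ball 0 R := fun t ht => by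
    rw [mem_sphere_zero_iff_norm] at ht
    rw [mem_ball_zero_iff, ht]
    exact hrR
  have hnn : ∀ t ∈ ball (0 : ℂ) R, 0 ≤ dN (B.G t) (ξ t) := fun t ht =>
    Circ_696.dN_nonneg (B.pd t (by rwa [mem_ball_zero_iff] at ht)) (ξ t)
  have hlogc : ∀ η : ℝ, 0 < η → ContinuousOn (fun t => Real.log (dN (B.G t) (ξ t) + η)) (ball 0 R) :=
    fun η hη => (hdN.add continuousOn_const).log fun t ht => by
      have := hnn t ht
      have h2 : 0 < dN (B.G t) (ξ t) + η := by linarith
      exact h2.ne'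
  -- circle form with exponentials
  have h1 : ∀ η : ℝ, 0 < η → dN (B.G 0) (ξ 0) ≤
      Real.exp (Real.circleAverage (fun t => Real.log (dN (B.G t) (ξ t) + η)) 0 r) := by
    intro η hη
    have h2 : ∀ ε : ℝ, 0 < ε → dN (B.G 0) (ξ 0) ≤
        Real.exp (Real.circleAverage (fun t => Real.log (dN (B.G t) (ξ t) + η)) 0 r + ε) := by
      intro ε hε
      obtain ⟨r1, r2, hr1, hr12, hr2R, hle⟩ := exists_Ann hr hrR (hlogc η hη) hε
      exact (B.le_exp_Ann hξ hη hr1 hr12 hr2R).trans (Real.exp_le_exp.2 hle)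
    have h3 : Tendsto (fun ε : ℝ => Real.exp (Real.circleAverage
        (fun t => Real.log (dN (B.G t) (ξ t) + η)) 0 r + ε)) (𝓝[>] 0)
        (𝓝 (Real.exp (Real.circleAverage (fun t => Real.log (dN (B.G t) (ξ t) + η)) 0 r + 0))) := by
      apply tendsto_nhdsWithin_of_tendsto_nhds
      exact (Real.continuous_exp.comp (continuous_const.add continuous_id)).tendsto 0
    rw [add_zero] at h3
    refine ge_of_tendsto h3 ?_
    filter_upwards [self_mem_nhdsWithin] with ε hε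
    exact h2 ε hε
  -- add `δ`
  have h2 : ∀ η : ℝ, 0 < η → Real.log (dN (B.G 0) (ξ 0) + δ) ≤
      Real.circleAverage (fun t => Real.log (dN (B.G t) (ξ t) + δ)) 0 r + η / δ := by
    intro η hη
    have h3 := geom_add hr (a := fun t => dN (B.G t) (ξ t) + η)
      ((hdN.mono hsub).add continuousOn_const) (fun t ht => by
        have := hnn t (hsub ht)
        linarith) hδ
    have h4 : dN (B.G 0) (ξ 0) + δ ≤
        Real.exp (Real.circleAverage (fun t => Real.log (dN (B.G t) (ξ t) + η + δ)) 0 r) := by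
      have := h1 η hη
      linarith
    have hp : 0 < dN (B.G 0) (ξ 0) + δ := by
      have := hnn 0 (mem_ball_self hR)
      linarith
    have h5 := Real.log_le_log hp h4
    rw [Real.log_exp] at h5
    refine h5.trans ?_
    have h6 : Real.circleAverage (fun t => Real.log (dN (B.G t) (ξ t) + η + δ)) 0 r ≤
        Real.circleAverage (fun t => Real.log (dN (B.G t) (ξ t) + δ) + η / δ) 0 r := by
      have hc1 : ContinuousOn (fun t => Real.log (dN (B.G t) (ξ t) + η + δ)) (sphere 0 r) := by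
        have h7 : (fun t => Real.log (dN (B.G t) (ξ t) + η + δ)) =
            fun t => Real.log (dN (B.G t) (ξ t) + (η + δ)) := by
          funext t; rw [add_assoc]
        rw [h7]
        exact (hlogc (η + δ) (by linarith)).mono hsub
      refine NBcore_696.mono hr hc1 (((hlogc δ hδ).mono hsub).add continuousOn_const) ?_
      intro t ht
      have h8 := hnn t (hsub ht)
      have h9 : 0 < dN (B.G t) (ξ t) + δ := by linarith
      have h10 : dN (B.G t) (ξ t) + η + δ = (dN (B.G t) (ξ t) + δ) * (1 + η / (dN (B.G t) (ξ t) + δ)) := by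
        field_simp
        ring
      have h11 : 0 < 1 + η / (dN (B.G t) (ξ t) + δ) := by positivity
      rw [h10, Real.log_mul h9.ne' h11.ne']
      have h12 : Real.log (1 + η / (dN (B.G t) (ξ t) + δ)) ≤ η / (dN (B.G t) (ξ t) + δ) := by
        have := Real.log_le_sub_one_of_pos h11
        linarith
      have h13 : η / (dN (B.G t) (ξ t) + δ) ≤ η / δ :=
        div_le_div_of_nonneg_left hη.le hδ (by linarith)
      linarith
    refine h6.trans (le_of_eq ?_)
    rw [Real.circleAverage_fun_add (NBcore_696.ci hr ((hlogc δ hδ).mono hsub))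
      (NBcore_696.ci hr continuousOn_const), Real.circleAverage_const]
  have h3 : Tendsto (fun η : ℝ => Real.circleAverage
      (fun t => Real.log (dN (B.G t) (ξ t) + δ)) 0 r + η / δ) (𝓝[>] 0)
      (𝓝 (Real.circleAverage (fun t => Real.log (dN (B.G t) (ξ t) + δ)) 0 r + 0 / δ)) := by
    apply tendsto_nhdsWithin_of_tendsto_nhds
    exact (continuous_const.add (continuous_id.div_const δ)).tendsto 0
  rw [zero_div, add_zero] at h3
  refine ge_of_tendsto h3 ?_
  filter_upwards [self_mem_nhdsWithin] with η hη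
  exact h2 η hη

/-- hypothesis of `Circ_696.circle` -/
theorem Met.dN_le (B : Met D s) (ξ : Fin s → ℂ[X]) {r : ℝ} (hr : 0 < r) (hrR : r < R) :
    dN (B.G 0) (fun i => (ξ i).eval 0) ≤
      Real.circleAverage (fun t => dN (B.G t) (fun i => (ξ i).eval t)) 0 r := by
  have hξ : ∀ i, DifferentiableOn ℂ (fun t => (ξ i).eval t) (ball 0 R) := fun i =>
    (ξ i).differentiable.differentiableOn
  have hR : 0 < R := hr.trans hrR
  have hsub : sphere (0 : ℂ) r ⊆ ball 0 R := fun t ht => by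
    rw [mem_sphere_zero_iff_norm] at ht
    rw [mem_ball_zero_iff, ht]
    exact hrR
  have hdN : ContinuousOn (fun t => dN (B.G t) (fun i => (ξ i).eval t)) (ball 0 R) :=
    dN_contOn B.cont (fun t ht => B.pd t (by rwa [mem_ball_zero_iff] at ht))
      (continuousOn_pi.2 fun i => (hξ i).continuousOn)
  refine NBcore_696.le_avg_of_log hr (hdN.mono hsub) (fun t ht => ?_) ?_ one_pos
    (B.log_le hξ one_pos hr hrR)
  · exact Circ_696.dN_nonneg (B.pd t (by
      have := hsub ht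
      rwa [mem_ball_zero_iff] at this)) _
  · exact Circ_696.dN_nonneg (B.pd 0 (by rwa [norm_zero])) _

end Crest.Agent.R276.PV_159
end
end

-- ▼ part R276/PVp_159
section

/-!
# Row 276, part D1 (helper159): re-centring of families over a disc
-/

set_option autoImplicit false
set_option linter.unusedSectionVars false

noncomputable section

open Set Filter Topology Complex MeasureTheory Metric Polynomial
open scoped ENNReal ComplexConjugate Matrix Real ComplexOrder

namespace Crest.Agent.R276.PV_159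

open Crest.Agent.R271 Crest.Agent.R271.Ho51 Crest.Agent.R271.W792
open Crest.Agent.R276.Circ_696 (vN dN)
open Crest.Agent.R276

/-! ### barrier functions -/

section barrier

variable {n : ℕ} {M : Type*} [TopologicalSpace M] [RDom n M]

/-- `1 / (r² - |f|²)` -/
def bar (f : M → ℂ) (r : ℝ) (x : M) : ℝ := (r ^ 2 - ‖f x‖ ^ 2)⁻¹

lemma sm_bar {f : M → ℂ} (hf : W792.Hol f) {r : ℝ} (h : ∀ x, ‖f x‖ < r) : Sm (bar f r) := by
  have h1 : Sm (fun x => ‖f x‖ ^ 2) := Hol.sm_normSq hf.sm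
  refine Sm.comp_at (g := fun v : ℝ => (r ^ 2 - v)⁻¹) h1 ?_
  intro x
  have h2 : r ^ 2 - ‖f x‖ ^ 2 ≠ 0 := by
    have h3 := h x
    have h4 := norm_nonneg (f x)
    have : ‖f x‖ ^ 2 < r ^ 2 := by gcongr
    linarith
  exact (contDiffAt_const.sub contDiffAt_id).inv h2

lemma lev_bar {f : M → ℂ} (hf : W792.Hol f) {r : ℝ} (h : ∀ x, ‖f x‖ < r) (x : M)
    (w : Fin n → ℂ) : 0 ≤ lev (bar f r) x w := by
  have h1 : Sm (fun x => ‖f x‖ ^ 2) := Hol.sm_normSq hf.sm
  have hpos : ∀ y, 0 < r ^ 2 - ‖f y‖ ^ 2 := by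
    intro y
    have h3 := h y
    have h4 := norm_nonneg (f y)
    have : ‖f y‖ ^ 2 < r ^ 2 := by gcongr
    linarith
  have hd1 : ∀ v : ℝ, r ^ 2 - v ≠ 0 → HasDerivAt (fun v : ℝ => (r ^ 2 - v)⁻¹) ((r ^ 2 - v)⁻¹ ^ 2) v := by
    intro v hv
    have h5 : HasDerivAt (fun v : ℝ => r ^ 2 - v) (-1) v := by
      simpa using (hasDerivAt_id v).const_sub (r ^ 2)
    have h6 := h5.inv hv
    refine h6.congr_deriv ?_
    rw [inv_pow, neg_neg, one_div]
  have hd2 : HasDerivAt (fun v : ℝ => (r ^ 2 - v)⁻¹ ^ 2)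
      (2 * (r ^ 2 - ‖f x‖ ^ 2)⁻¹ * ((r ^ 2 - ‖f x‖ ^ 2)⁻¹ ^ 2)) (‖f x‖ ^ 2) := by
    have h5 := (hd1 _ (hpos x).ne').fun_pow 2
    refine h5.congr_deriv ?_
    norm_num
  have hsm' : Sm (fun y => (fun v : ℝ => (r ^ 2 - v)⁻¹ ^ 2) ((fun x => ‖f x‖ ^ 2) y)) := by
    refine Sm.comp_at (g := fun v : ℝ => (r ^ 2 - v)⁻¹ ^ 2) h1 ?_
    intro y
    exact ((contDiffAt_const.sub contDiffAt_id).inv (hpos y).ne').pow 2
  have hev : ∀ᶠ v : ℝ in 𝓝 (‖f x‖ ^ 2), r ^ 2 - v ≠ 0 := by
    have : Continuous fun v : ℝ => r ^ 2 - v := by fun_prop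
    filter_upwards [this.continuousAt.eventually_ne (hpos x).ne'] with v hv using hv
  have hmain := lev_comp (φ := fun x => ‖f x‖ ^ 2) h1 (g := fun v : ℝ => (r ^ 2 - v)⁻¹)
    (g' := fun v : ℝ => (r ^ 2 - v)⁻¹ ^ 2) x (hev.mono fun v hv => hd1 v hv) hd2 w hsm'
  have heq : lev (bar f r) x w = lev (fun y => (fun v : ℝ => (r ^ 2 - v)⁻¹) (‖f y‖ ^ 2)) x w := rfl
  rw [heq, hmain, lev_normSq hf]
  have h7 : 0 < (r ^ 2 - ‖f x‖ ^ 2)⁻¹ := inv_pos.2 (hpos x)
  have h8 := dsq_nonneg (fun x => ‖f x‖ ^ 2) x w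
  positivity

lemma bar_pos {f : M → ℂ} {r : ℝ} (h : ∀ x, ‖f x‖ < r) (x : M) : 0 < bar f r x := by
  unfold bar
  have h3 := h x
  have h4 := norm_nonneg (f x)
  have : ‖f x‖ ^ 2 < r ^ 2 := by gcongr
  exact inv_pos.2 (by linarith)

end barrier

variable {R : ℝ}

/-- the part of a family over the disc of radius `r` around `c` -/
def Rc (D : Dom R) (c : ℂ) (r : ℝ) : Type := {x : D.P // ‖tc x - c‖ < r}

section rc

variable {D : Dom R} {c : ℂ} {r : ℝ}

instance : TopologicalSpace (Rc D c r) :=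
  inferInstanceAs (TopologicalSpace {x : D.P // ‖tc x - c‖ < r})
instance : T2Space (Rc D c r) := inferInstanceAs (T2Space {x : D.P // ‖tc x - c‖ < r})
instance : SecondCountableTopology (Rc D c r) :=
  TopologicalSpace.Subtype.secondCountableTopology {x : D.P | ‖tc x - c‖ < r}

/-- inclusion -/
def Rc.val (x : Rc D c r) : D.P := x.1

lemma Rc.prop (x : Rc D c r) : ‖tc x.val - c‖ < r := x.2

lemma Rc.isOpen (D : Dom R) (c : ℂ) (r : ℝ) : IsOpen {x : D.P | ‖tc x - c‖ < r} :=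
  isOpen_lt (cont_tc.sub continuous_const).norm continuous_const

lemma Rc.openEmb : IsOpenEmbedding (Rc.val : Rc D c r → D.P) :=
  (Rc.isOpen D c r).isOpenEmbedding_subtypeVal

/-- the shift -/
def sh (a : ℕ) (c : ℂ) : Fin (a + 1) → ℂ := Fin.cons c 0

instance : RDom (D.a + 1) (Rc D c r) where
  p x := cp x.val - sh D.a c
  hp := ((Homeomorph.subRight (sh D.a c)).isLocalHomeomorph).comp
    (cp_lh.comp Rc.openEmb.isLocalHomeomorph)

lemma Rc.cp_eq (x : Rc D c r) : (cp x : Fin (D.a + 1) → ℂ) = cp x.val - sh D.a c := rfl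


lemma Rc.mor : Mor (sh D.a c) (ContinuousLinearMap.id ℂ _) (Rc.val : Rc D c r → D.P) where
  cont := Rc.openEmb.continuous
  eq x := by rw [Rc.cp_eq]; simp

end rc

/-- re-centring -/
@[reducible] def Dom.rc (D : Dom R) (c : ℂ) (r : ℝ) : Dom r where
  P := Rc D c r
  a := D.a
  ρ x := D.ρ x.val + bar (fun y : Rc D c r => tc y) r x
  ρ_sm := (Rc.mor.sm D.ρ_sm).add (sm_bar hol_tc fun x => x.prop)
  ρ_cpt := by
    intro m
    obtain ⟨b, hb⟩ := exists_lower D.ρ_sm.continuous D.ρ_cpt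
    -- the set is contained in a compact set of `D.P` on which `|tc - c| ≤ r' < r`
    set K : Set D.P := {x | D.ρ x ≤ m} ∩ {x | ‖tc x - c‖ ^ 2 ≤ r ^ 2 - (max (m - b) 1)⁻¹} with hK
    have hKc : IsCompact K := (D.ρ_cpt m).inter_right
      (isClosed_le ((cont_tc.sub continuous_const).norm.pow 2) continuous_const)
    have hmax : 0 < max (m - b) 1 := lt_of_lt_of_le one_pos (le_max_right _ _)
    have hpre : IsCompact (Rc.val ⁻¹' K : Set (Rc D c r)) := by
      by_cases hr : 0 < r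
      · refine Rc.openEmb.toIsInducing.isCompact_preimage' hKc ?_
        intro x hx
        refine ⟨⟨x, ?_⟩, rfl⟩
        have h1 : ‖tc x - c‖ ^ 2 ≤ r ^ 2 - (max (m - b) 1)⁻¹ := hx.2
        have h2 : 0 < (max (m - b) 1)⁻¹ := inv_pos.2 hmax
        have h3 : ‖tc x - c‖ ^ 2 < r ^ 2 := by linarith
        exact lt_of_pow_lt_pow_left₀ 2 hr.le h3
      · have : (Rc.val ⁻¹' K : Set (Rc D c r)) = ∅ := by
          rw [eq_empty_iff_forall_notMem]
          intro x _
          have h1 := x.prop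
          have h2 := norm_nonneg (tc x.val - c)
          linarith
        rw [this]
        exact isCompact_empty
    refine hpre.of_isClosed_subset ?_ ?_
    · refine isClosed_le ?_ continuous_const
      exact ((Rc.mor.sm D.ρ_sm).add (sm_bar hol_tc fun x => x.prop)).continuous
    · intro x hx
      have hx' : D.ρ x.val + bar (fun y : Rc D c r => tc y) r x ≤ m := hx
      have h1 := bar_pos (f := fun y : Rc D c r => tc y) (r := r) (fun x => x.prop) x
      refine ⟨?_, ?_⟩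
      · show D.ρ x.val ≤ m
        linarith
      · show ‖tc x.val - c‖ ^ 2 ≤ r ^ 2 - (max (m - b) 1)⁻¹
        have h2 : bar (fun y : Rc D c r => tc y) r x ≤ max (m - b) 1 := by
          have := hb x.val
          exact le_trans (by linarith) (le_max_left _ _)
        unfold bar at h1 h2
        have h3 : 0 < r ^ 2 - ‖tc x‖ ^ 2 := inv_pos.1 h1
        have h4 : (max (m - b) 1)⁻¹ ≤ r ^ 2 - ‖tc x‖ ^ 2 := by
          rw [inv_le_comm₀ hmax h3]; exact h2
        have h5 : ‖tc x.val - c‖ ^ 2 = ‖tc x‖ ^ 2 := rfl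
        rw [h5]
        linarith
  ρ_lev x w := by
    rw [lev_add (Rc.mor.sm D.ρ_sm) (sm_bar hol_tc fun x => x.prop), Rc.mor.lev_eq D.ρ_sm]
    have h1 := D.ρ_lev x.val w
    have h2 := lev_bar (f := fun y : Rc D c r => tc y) hol_tc (r := r) (fun x => x.prop) x w
    have h3 : (ContinuousLinearMap.id ℂ (Fin (D.a + 1) → ℂ)) w = w := rfl
    rw [h3]
    linarith
  φ k x := D.φ k x.val
  φ_sm k := Rc.mor.sm (D.φ_sm k)
  φ_anti x _ _ h := D.φ_anti x.val h
  φ_lev k x w := by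
    rw [Rc.mor.lev_eq (D.φ_sm k)]
    exact D.φ_lev k _ _
  tR x := x.prop

section rcl

variable {D : Dom R} {c : ℂ} {r : ℝ}

lemma Rc.cons_sub {a : ℕ} (t c : ℂ) (u : Fin a → ℂ) :
    (Fin.cons t u : Fin (a + 1) → ℂ) + sh a c = Fin.cons (t + c) u := by
  funext i
  refine Fin.cases ?_ (fun j => ?_) i
  · rfl
  · simp [sh]

/-- fibre integrals -/
lemma fi_rc (g : D.P → ℝ≥0∞) {t : ℂ} (ht : ‖t‖ < r) :
    fi (fun x : Rc D c r => g x.val) t = fi g (t + c) := by
  unfold fi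
  refine lintegral_congr fun u => ?_
  unfold fsum
  let e : {y : Rc D c r // cp y = (Fin.cons t u : Fin (D.a + 1) → ℂ)} ≃
      {y : D.P // cp y = (Fin.cons (t + c) u : Fin (D.a + 1) → ℂ)} :=
    { toFun := fun y => ⟨y.1.val, by
        have h1 := y.2
        rw [Rc.cp_eq, sub_eq_iff_eq_add, Rc.cons_sub] at h1
        exact h1⟩
      invFun := fun y => ⟨⟨y.1, by
        have h1 : tc y.1 = t + c := by unfold tc; rw [y.2]; rfl
        rw [h1, add_sub_cancel_right]; exact ht⟩, by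
        show (cp y.1 : Fin (D.a + 1) → ℂ) - sh D.a c = _
        rw [sub_eq_iff_eq_add, Rc.cons_sub]
        exact y.2⟩
      left_inv := fun y => rfl
      right_inv := fun y => rfl }
  exact e.tsum_eq (fun y => g y.1)

lemma nrm_rc (F : D.P → ℂ) {t : ℂ} (ht : ‖t‖ < r) :
    (D.rc c r).nrm (fun x => F x.val) t = D.nrm F (t + c) := fi_rc (D.dens F) ht

open Classical in
/-- extension by zero -/
def rcx (g : Rc D c r → ℂ) (x : D.P) : ℂ := if h : ‖tc x - c‖ < r then g ⟨x, h⟩ else 0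

lemma rcx_val (g : Rc D c r → ℂ) (x : Rc D c r) : rcx g x.val = g x := dif_pos x.prop

lemma fhol_rcx {g : Rc D c r → ℂ} {t : ℂ} (ht : ‖t‖ < r) (hg : FHol t g) : FHol (t + c) (rcx g) := by
  intro e he u hu
  -- the point
  set x1 : D.P := e.symm (Fin.cons (t + c) u) with hx1
  have htx : ∀ v : Fin D.a → ℂ, (Fin.cons (t + c) v : Fin (D.a + 1) → ℂ) ∈ e.target →
      ‖tc (e.symm (Fin.cons (t + c) v)) - c‖ < r := by
    intro v hv
    have h1 : tc (e.symm (Fin.cons (t + c) v)) = t + c := by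
      unfold tc; rw [he.cp_symm hv]; rfl
    rw [h1, add_sub_cancel_right]; exact ht
  set x0 : Rc D c r := ⟨x1, htx u hu⟩ with hx0
  set e' := ch x0 with he'
  have he'ch : IsCh e' := isCh_ch x0
  have hcp : cp x0 = (Fin.cons t u : Fin (D.a + 1) → ℂ) := by
    rw [Rc.cp_eq, sub_eq_iff_eq_add, Rc.cons_sub]
    exact he.cp_symm hu
  have hmem : (Fin.cons t u : Fin (D.a + 1) → ℂ) ∈ e'.target := by
    rw [← hcp]
    exact he'ch.cp_mem (mem_ch x0)
  have h1 := hg e' he'ch
  have hVo : IsOpen {v : Fin D.a → ℂ | (Fin.cons t v : Fin (D.a + 1) → ℂ) ∈ e'.target} :=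
    e'.open_target.preimage (differentiable_cons t).continuous
  have h2 : DifferentiableAt ℂ (fun v : Fin D.a → ℂ => g (e'.symm (Fin.cons t v))) u :=
    h1.differentiableAt (hVo.mem_nhds hmem)
  refine DifferentiableAt.differentiableWithinAt (h2.congr_of_eventuallyEq ?_)
  -- near `u` the two sections agree
  have hVo2 : IsOpen {v : Fin D.a → ℂ | (Fin.cons (t + c) v : Fin (D.a + 1) → ℂ) ∈ e.target} :=
    e.open_target.preimage (differentiable_cons (t + c)).continuous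
  have hcont : ContinuousAt (fun v : Fin D.a → ℂ => e.symm (Fin.cons (t + c) v)) u := by
    refine ContinuousAt.comp (g := e.symm) ?_ (differentiable_cons (t + c)).continuous.continuousAt
    exact e.symm.continuousAt hu
  have hsrc : IsOpen (Rc.val '' e'.source) := Rc.openEmb.isOpenMap _ e'.open_source
  have hx1mem : e.symm (Fin.cons (t + c) u) ∈ Rc.val '' e'.source := ⟨x0, mem_ch x0, rfl⟩
  filter_upwards [hcont.eventually_mem (hsrc.mem_nhds hx1mem), hVo2.mem_nhds hu,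
    hVo.mem_nhds hmem] with v hv1 hv2 hv3
  obtain ⟨y, hy, hyv⟩ := hv1
  have hyv' : y.val = e.symm (Fin.cons (t + c) v) := hyv
  rw [← hyv', rcx_val]
  congr 1
  have hcy : cp y = (Fin.cons t v : Fin (D.a + 1) → ℂ) := by
    rw [Rc.cp_eq, sub_eq_iff_eq_add, Rc.cons_sub, hyv']
    exact he.cp_symm hv2
  rw [← hcy]
  exact (he'ch.symm_cp hy).symm

/-- re-centred frames -/
def Frame.rc {s : ℕ} (B : Frame D s) (c : ℂ) {r : ℝ} (hr : ‖c‖ + r ≤ R) : Frame (D.rc c r) s where
  u i x := B.u i x.val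
  hol i := hol_to _ (Rc.mor.hol (hol_of _ (B.hol i)))
  ind t ht a ha := by
    have htc : ‖t + c‖ < R := lt_of_le_of_lt (norm_add_le _ _) (by linarith)
    refine B.ind (t + c) htc a fun x hx => ?_
    have hx' : ‖tc x - c‖ < r := by rw [hx, add_sub_cancel_right]; exact ht
    refine ha ⟨x, hx'⟩ ?_
    show tc x - c = t
    rw [hx, add_sub_cancel_right]
  sat := by
    have h1 := B.sat
    have h2 : ∀ᵐ t : ℂ, ‖t + c‖ < R → ∀ g, FHol (t + c) g → D.nrm g (t + c) < ∞ →
        ∃ a : Fin s → ℂ, ∀ x, tc x = t + c → g x = ∑ i, a i * B.u i x :=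
      (measurePreserving_add_right volume c).quasiMeasurePreserving.ae h1
    filter_upwards [h2] with t h2 ht g hg hfin
    have htc : ‖t + c‖ < R := lt_of_le_of_lt (norm_add_le _ _) (by linarith)
    have h3 : D.nrm (rcx g) (t + c) < ∞ := by
      rw [← nrm_rc (rcx g) ht]
      have h4 : (fun x : Rc D c r => rcx g x.val) = g := by
        funext x; exact rcx_val g x
      rw [h4]
      exact hfin
    obtain ⟨a, ha⟩ := h2 htc _ (fhol_rcx ht hg) h3
    refine ⟨a, fun x hx => ?_⟩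
    have hx' : tc x.val = t + c := by
      have : tc x.val - c = t := hx
      rw [← this]; ring
    rw [← ha x.val hx', rcx_val]

/-- re-centred metrics -/
def Met.rc {s : ℕ} (B : Met D s) (c : ℂ) {r : ℝ} (hr : ‖c‖ + r ≤ R) : Met (D.rc c r) s where
  toFrame := B.toFrame.rc c hr
  G t := B.G (t + c)
  pd t ht := B.pd (t + c) (lt_of_le_of_lt (norm_add_le _ _) (by linarith))
  cont := B.cont.comp (by fun_prop) fun t ht => by
    rw [mem_ball_zero_iff] at ht ⊢
    exact lt_of_le_of_lt (norm_add_le _ _) (by linarith)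
  eq t ht v := by
    have h1 := nrm_rc (c := c) (B.toFrame.cmb v) ht
    have htc : ‖t + c‖ < R := lt_of_le_of_lt (norm_add_le _ _) (by linarith)
    rw [B.eq _ htc] at h1
    exact h1

end rcl

/-- **dual metrics are log-plurisubharmonic**, circles around any centre -/
theorem Met.log_le_center {D : Dom R} {s : ℕ} (B : Met D s) {ξ : ℂ → Fin s → ℂ}
    (hξ : ∀ i, DifferentiableOn ℂ (fun t => ξ t i) (ball 0 R)) {δ : ℝ} (hδ : 0 < δ)
    {c : ℂ} {r : ℝ} (hr : 0 < r) (hrR : ‖c‖ + r < R) :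
    Real.log (dN (B.G c) (ξ c) + δ) ≤
      Real.circleAverage (fun t => Real.log (dN (B.G t) (ξ t) + δ)) c r := by
  set r' := R - ‖c‖ with hr'
  have hle : ‖c‖ + r' ≤ R := by rw [hr']; linarith
  have h1 : Real.log (dN (B.G (0 + c)) (ξ (0 + c)) + δ) ≤
      Real.circleAverage (fun t => Real.log (dN (B.G (t + c)) (ξ (t + c)) + δ)) 0 r :=
    (B.rc c (r := r') hle).log_le (ξ := fun t => ξ (t + c)) (fun i => by
      refine (hξ i).comp (by fun_prop) fun t ht => ?_
      rw [mem_ball_zero_iff] at ht ⊢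
      refine lt_of_le_of_lt (norm_add_le _ _) ?_
      rw [hr'] at ht; linarith) hδ hr (by rw [hr']; linarith)
  have h2 : Real.circleAverage (fun t => Real.log (dN (B.G t) (ξ t) + δ)) c r =
      Real.circleAverage (fun t => Real.log (dN (B.G (t + c)) (ξ (t + c)) + δ)) 0 r := by
    rw [← Real.circleAverage_map_add_const]
  rw [h2]
  rwa [zero_add] at h1

end Crest.Agent.R276.PV_159
end
end

-- ▼ part R276/PVq_159
section

/-!
# Row 276, part D1 (helper159): (PV) and (OT) for the matrix of a family, in 999's form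
-/

set_option autoImplicit false

noncomputable section

open Set Filter Topology Complex MeasureTheory Metric Polynomial
open scoped ENNReal ComplexConjugate Matrix Real ComplexOrder

namespace Crest.Agent.R276.PV_159

open Crest.Agent.R271 Crest.Agent.R271.Ho51 Crest.Agent.R271.W792
open Crest.Agent.R276

variable {R : ℝ}

/-- **(PV)** for a frame of a family over a disc of radius `≥ 1` -/
theorem Met.pv {D : Dom R} {s : ℕ} (B : Met D s) (hR : 1 ≤ R) : Fdc_999.PV B.G := by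
  intro ξ δ hδ c hc
  have hcn : ‖c‖ < 1 := by simpa using hc
  refine ⟨R - ‖c‖, by linarith, fun r hr1 hr2 => ?_⟩
  have h := B.log_le_center (ξ := fun t i => (ξ i).eval t)
    (fun i => (ξ i).differentiable.differentiableOn) hδ hr1 (c := c) (by linarith)
  have h2 : ∀ t, Circ_696.dN (B.G t) (fun i => (ξ i).eval t) = Fdc_999.dN (B.G t) (Fda_999.ev ξ t) :=
    fun t => Pvx_999.dN_eq _ _
  simp only [h2] at h
  exact h





end Crest.Agent.R276.PV_159
end
end

-- ▼ part R276/PVr_159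
section

/-!
# Row 276, part D1 (helper159): (PV) for weights `1 / b`, `b` log-psh (`LPsh`)

The extension property comes from 189's `otb_dom`.
-/

set_option autoImplicit false
set_option linter.unusedSectionVars false

noncomputable section

open Set Filter Topology Complex MeasureTheory Metric Polynomial
open scoped ENNReal ComplexConjugate Matrix Real ComplexOrder

namespace Crest.Agent.R276.PV_159

open Crest.Agent.R271 Crest.Agent.R271.Ho51 Crest.Agent.R271.W792
open Crest.Agent.R276.Circ_696 (vN dN)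
open Crest.Agent.R276
open Crest.Agent.R276.EngU_29 (LPsh)
open Crest.Agent.R276.NbB_185 (tp)

variable {R : ℝ}

/-- the weight `1 / b` -/
def iw {X : Type*} (b : X → ℝ) (x : X) : ℝ≥0∞ := (ENNReal.ofReal (b x))⁻¹

lemma lpsh_tp (D : Dom R) {b : D.P → ℝ} (hb : LPsh b) : ∀ j, LPsh (tp D b j)
  | 0 => hb
  | j + 1 => LPsh.mul
      (LPsh.comp_hol (Restr_29.HolMap.of_mor
        (FP.mor_fst (M := (D.pw j).P) (N := D.P))) (lpsh_tp D hb j))
      (LPsh.comp_hol (Restr_29.HolMap.of_mor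
        (FP.mor_snd (M := (D.pw j).P) (N := D.P))) hb)

lemma tp_nonneg (D : Dom R) {b : D.P → ℝ} (hb : ∀ x, 0 ≤ b x) : ∀ j x, 0 ≤ tp D b j x
  | 0, _ => hb _
  | j + 1, _ => mul_nonneg (tp_nonneg D hb j _) (hb _)

lemma wpw_iw (D : Dom R) {b : D.P → ℝ} (hb : ∀ x, 0 ≤ b x) : ∀ j, wpw (iw b) j = iw (tp D b j)
  | 0 => rfl
  | j + 1 => by
    funext q
    show wpw (iw b) j _ * iw b _ = (ENNReal.ofReal (tp D b j _ * b _))⁻¹
    rw [wpw_iw D hb j, ENNReal.ofReal_mul (tp_nonneg D hb j _),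
      ENNReal.mul_inv (Or.inr ENNReal.ofReal_ne_top) (Or.inl ENNReal.ofReal_ne_top)]
    rfl

local instance instMFPr {a b : ℕ} {M N : Type} [TopologicalSpace M] [TopologicalSpace N]
    [RDom (a + 1) M] [RDom (b + 1) N] : MeasurableSpace (FP M N) := borel _
local instance instBFPr {a b : ℕ} {M N : Type} [TopologicalSpace M] [TopologicalSpace N]
    [RDom (a + 1) M] [RDom (b + 1) N] : BorelSpace (FP M N) := ⟨rfl⟩

/-- `p`-norms of tensor products -/
lemma pn_tensor (Q E : Dom R) {p : ℝ} (hp : 0 ≤ p) {wQ : Q.P → ℝ≥0∞} {w : E.P → ℝ≥0∞}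
    (hwQ : Measurable wQ) (hw : Measurable w) (V : Q.P → ℂ) (U : E.P → ℂ) (hV : Continuous V)
    (hU : Continuous U) (t : ℂ) :
    pn p (wmul (D := Q) (E := E) wQ w)
      (fun q : (Q.mul E).P => V (FP.fst (M := Q.P) (N := E.P) q) *
        U (FP.snd (M := Q.P) (N := E.P) q)) t
      = pn p wQ V t * pn p w U t := by
  set F : (Q.mul E).P → ℂ := fun p => V (FP.fst (M := Q.P) (N := E.P) p) *
    U (FP.snd (M := Q.P) (N := E.P) p) with hF
  have hFc : Continuous F := (hV.comp FP.cont_fst).mul (hU.comp FP.cont_snd)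
  have hm : Measurable (fun x : (Q.mul E).P => ENNReal.ofReal (‖F x‖ ^ p) *
      wmul (D := Q) (E := E) wQ w x) := measurable_pden hp (measurable_wmul hwQ hw) hFc
  have hfub : pn p (wmul (D := Q) (E := E) wQ w) F t = fi (fun m : Q.P => fi (fun n : E.P =>
      ext2 (M := Q.P) (N := E.P) (fun x : (Q.mul E).P => ENNReal.ofReal (‖F x‖ ^ p) *
      wmul (D := Q) (E := E) wQ w x) m n) t) t :=
    fi_FP (M := Q.P) (N := E.P) hm t
  have h1 : ∀ m : Q.P, tc m = t → fi (fun n : E.P =>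
      ext2 (M := Q.P) (N := E.P) (fun x : (Q.mul E).P => ENNReal.ofReal (‖F x‖ ^ p) *
      wmul (D := Q) (E := E) wQ w x) m n) t =
      (ENNReal.ofReal (‖V m‖ ^ p) * wQ m) * pn p w U t := by
    intro m hm'
    unfold pn
    rw [← fi_const_mul_meas (measurable_pden hp hw hU)]
    refine fi_congr fun n hn => ?_
    have h : (cp m : Fin (Q.a + 1) → ℂ) 0 = (cp n : Fin (E.a + 1) → ℂ) 0 := by
      rw [hn]; exact hm'
    rw [ext2_of (M := Q.P) (N := E.P) _ h]
    show ENNReal.ofReal (‖V m * U n‖ ^ p) * (wQ m * w n) = _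
    rw [norm_mul, Real.mul_rpow (norm_nonneg _) (norm_nonneg _),
      ENNReal.ofReal_mul (Real.rpow_nonneg (norm_nonneg _) _)]
    ring
  rw [hfub]
  calc fi (fun m : Q.P => fi (fun n : E.P =>
      ext2 (M := Q.P) (N := E.P) (fun x : (Q.mul E).P => ENNReal.ofReal (‖F x‖ ^ p) *
      wmul (D := Q) (E := E) wQ w x) m n) t) t
      = fi (fun m => pn p w U t * (ENNReal.ofReal (‖V m‖ ^ p) * wQ m)) t :=
        fi_congr fun m hm' => by rw [h1 m hm', mul_comm]
    _ = pn p w U t * pn p wQ V t := fi_const_mul_meas (measurable_pden hp hwQ hV) t _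
    _ = _ := mul_comm _ _

lemma pn_upw {D : Dom R} {p : ℝ} (hp : 0 ≤ p) {w : D.P → ℝ≥0∞} (hw : Measurable w) {U : D.P → ℂ}
    (hU : W792.Hol U) (t : ℂ) : ∀ j, pn p (wpw w j) (D.upw U j) t = pn p w U t ^ (j + 1)
  | 0 => by rw [zero_add, pow_one]; rfl
  | j + 1 => by
    have h1 := pn_tensor (D.pw j) D hp (measurable_wpw hw j) hw (D.upw U j) U
      (Dom.upw_cont hU j) hU.sm.continuous t
    rw [pn_upw hp hw hU t j] at h1
    rw [pow_succ (pn p w U t) (j + 1)]
    exact h1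

/-- comparison of the class with the weight `1 / b` -/
def Cmp (D : Dom R) (b : D.P → ℝ) : Prop :=
  ∀ t : ℂ, ‖t‖ < R → ∃ c : ℝ≥0∞, c ≠ ∞ ∧ ∀ x : D.P, tc x = t → D.wt x ≤ c * iw b x

lemma Cmp.pw {D : Dom R} {b : D.P → ℝ} (h : Cmp D b) (hb : ∀ x, 0 ≤ b x) {t : ℂ} (ht : ‖t‖ < R) :
    ∀ j, ∃ c : ℝ≥0∞, c ≠ ∞ ∧ ∀ x : (D.pw j).P, tc x = t → (D.pw j).wt x ≤ c * iw (tp D b j) x
  | 0 => h t ht
  | j + 1 => by
    obtain ⟨c1, hc1, h1⟩ := Cmp.pw h hb ht j
    obtain ⟨c2, hc2, h2⟩ := h t ht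
    refine ⟨c1 * c2, ENNReal.mul_ne_top hc1 hc2, fun x hx => ?_⟩
    have hx1 : tc (FP.fst (M := (D.pw j).P) (N := D.P) x) = t := hx
    have hx2 : tc (FP.snd (M := (D.pw j).P) (N := D.P) x) = t := by
      rw [← hx]; exact (FP.cond x).symm
    have e1 : ((D.pw j).mul D).wt x = (D.pw j).wt (FP.fst (M := (D.pw j).P) (N := D.P) x) *
        D.wt (FP.snd (M := (D.pw j).P) (N := D.P) x) := Dom.wt_mul (D.pw j) D x
    show ((D.pw j).mul D).wt x ≤ _
    rw [e1, ← wpw_iw D hb (j + 1)]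
    show _ ≤ c1 * c2 * (wpw (iw b) j (FP.fst (M := (D.pw j).P) (N := D.P) x) *
      iw b (FP.snd (M := (D.pw j).P) (N := D.P) x))
    rw [wpw_iw D hb j]
    calc _ ≤ (c1 * iw (tp D b j) (FP.fst (M := (D.pw j).P) (N := D.P) x)) *
          (c2 * iw b (FP.snd (M := (D.pw j).P) (N := D.P) x)) :=
          mul_le_mul' (h1 _ hx1) (h2 _ hx2)
      _ = _ := by ring

/-- **the extension property of all tensor powers**, for weights `1 / b` -/
theorem ext_lpsh (hR : 0 < R) : ∃ C : ℝ≥0∞, C ≠ ∞ ∧ ∀ (D : Dom R) (b : D.P → ℝ), LPsh b →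
    Cmp D b → ∀ U : D.P → ℂ, W792.Hol U → ∀ S : ℝ≥0∞, S ≠ ∞ → pn 2 (iw b) U 0 ≤ S →
    ∀ j, ∃ F : (D.pw j).P → ℂ, Ho51.Hol F ∧ (∀ x, tc x = 0 → F x = D.upw U j x) ∧
      (∀ᵐ t, (D.pw j).nrm F t < ∞) ∧ ∫⁻ t, pn 2 (wpw (iw b) j) F t ≤ C * S ^ (j + 1) := by
  obtain ⟨C, hC, h⟩ := OTB_189.otb_dom hR
  refine ⟨C, hC, fun D b hb hcmp U hU S hS hUS j => ?_⟩
  have hb0 := hb.nonneg
  have hbm : Measurable (iw b) := (EngU_29.LPsh.measurable hb).ennreal_ofReal.inv
  obtain ⟨F, hF, hF0, hFb⟩ := h (D.pw j) (tp D b j) (lpsh_tp D hb j) (D.upw U j)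
    (Hol.fhol (hol_to _ (Dom.upw_hol hU j)) 0)
  have e1 : ∀ (g : (D.pw j).P → ℂ) (t : ℂ),
      fi (fun x => ENNReal.ofReal (‖g x‖ ^ 2) / ENNReal.ofReal (tp D b j x)) t =
      pn 2 (wpw (iw b) j) g t := by
    intro g t
    unfold pn
    rw [wpw_iw D hb0 j]
    refine fi_congr fun x _ => ?_
    rw [Real.rpow_two]
    rfl
  simp_rw [e1] at hFb
  rw [pn_upw (by norm_num) hbm hU] at hFb
  have hBfin : C * S ^ (j + 1) ≠ ∞ := ENNReal.mul_ne_top hC (ENNReal.pow_ne_top hS)
  have hle : ∫⁻ t, pn 2 (wpw (iw b) j) F t ≤ C * S ^ (j + 1) :=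
    hFb.trans (mul_le_mul_right (pow_le_pow_left' hUS _) _)
  refine ⟨F, hF, hF0, ?_, hle⟩
  have hmeas : Measurable (pn 2 (wpw (iw b) j) F) :=
    measurable_fi (measurable_pden (by norm_num) (measurable_wpw hbm j)
      (T7a297.Hol.continuous hF))
  filter_upwards [ae_lt_top hmeas (lt_of_le_of_lt hle hBfin.lt_top).ne] with t ht
  by_cases htR : ‖t‖ < R
  · obtain ⟨c, hc, hcx⟩ := hcmp.pw hb0 htR j
    refine lt_of_le_of_lt ?_ (ENNReal.mul_lt_top hc.lt_top ht)
    unfold Dom.nrm pn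
    refine le_trans (fi_mono fun x hx => ?_) (fi_const_mul_meas (measurable_pden (p := 2)
      (by norm_num) (measurable_wpw hbm j) (T7a297.Hol.continuous hF)) t c).le
    unfold Dom.dens
    rw [Real.rpow_two, wpw_iw D hb0 j]
    calc ENNReal.ofReal (‖F x‖ ^ 2) * (D.pw j).wt x
        ≤ ENNReal.ofReal (‖F x‖ ^ 2) * (c * iw (tp D b j) x) := by
          gcongr
          exact hcx x hx
      _ = _ := by ring
  · rw [Dom.nrm_out _ _ (not_lt.1 htR)]
    exact ENNReal.zero_lt_top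

/-! ### frames with log-psh weights -/

/-- a frame whose norms for the weight `1 / b` are given by a continuous positive definite
matrix -/
structure MetB (D : Dom R) (s : ℕ) extends Frame D s where
  /-- the weight is `1 / b` -/
  b : D.P → ℝ
  lpsh : LPsh b
  cmp : Cmp D b
  /-- the Gram matrix -/
  G : ℂ → Matrix (Fin s) (Fin s) ℂ
  pd : ∀ t, ‖t‖ < R → (G t).PosDef
  cont : ContinuousOn G (ball 0 R)
  eq : ∀ t, ‖t‖ < R → ∀ v, pn 2 (iw b) (toFrame.cmb v) t = ENNReal.ofReal (vN (G t) v)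

variable {D : Dom R} {s : ℕ}

/-- **dual metrics are log-plurisubharmonic**, annuli -/
theorem MetB.le_exp_Ann (B : MetB D s) {ξ : ℂ → Fin s → ℂ}
    (hξ : ∀ i, DifferentiableOn ℂ (fun t => ξ t i) (ball 0 R)) {δ : ℝ} (hδ : 0 < δ)
    {r1 r2 : ℝ} (hr1 : 0 ≤ r1) (hr : r1 < r2) (hrR : r2 < R) :
    dN (B.G 0) (ξ 0) ≤ Real.exp (⨍ t in Ann r1 r2, Real.log (dN (B.G t) (ξ t) + δ)) := by
  classical
  have hR : 0 < R := lt_of_le_of_lt hr1 (hr.trans hrR)
  have h0R : ‖(0 : ℂ)‖ < R := by rwa [norm_zero]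
  set κ : ℂ → ℝ := fun t => if ‖t‖ < R then dN (B.G t) (ξ t) + δ else δ with hκd
  have hκ : ∀ t, 0 < κ t := by
    intro t
    simp only [hκd]
    by_cases ht : ‖t‖ < R
    · rw [if_pos ht]
      have := Circ_696.dN_nonneg (B.pd t ht) (ξ t)
      linarith
    · rw [if_neg ht]; exact hδ
  have hbd : ∀ᵐ t, ‖t‖ < R → ∀ c : Fin s → ℂ, D.nrm (B.toFrame.cmb c) t < ∞ →
      ENNReal.ofReal (‖∑ i, ξ t i * c i‖ ^ (2 : ℝ)) ≤ ENNReal.ofReal (κ t) *
        pn 2 (iw B.b) (B.toFrame.cmb c) t := by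
    refine Eventually.of_forall fun t ht c _ => ?_
    rw [B.eq t ht, ← ENNReal.ofReal_mul (hκ t).le]
    apply ENNReal.ofReal_le_ofReal
    have h1 := Circ_696.cs (B.pd t ht) (ξ t) c
    have h2 : κ t = dN (B.G t) (ξ t) + δ := by simp only [hκd]; rw [if_pos ht]
    have h3 := Circ_696.vN_nonneg (B.pd t ht).posSemidef c
    rw [Real.rpow_two, h2]
    refine h1.trans ?_
    nlinarith
  set X := B.toFrame.ff2 ξ hξ (iw B.b) 2 κ hκ hbd with hX
  have hbm : Measurable (iw B.b) := (EngU_29.LPsh.measurable B.lpsh).ennreal_ofReal.inv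
  -- the averages
  have hcontξ : ContinuousOn ξ (ball 0 R) :=
    continuousOn_pi.2 fun i => (hξ i).continuousOn
  have hdN : ContinuousOn (fun t => dN (B.G t) (ξ t)) (ball 0 R) :=
    dN_contOn B.cont (fun t ht => B.pd t (by rwa [mem_ball_zero_iff] at ht)) hcontξ
  have hAm : MeasurableSet (Ann r1 r2) := measurableSet_Ann r1 r2
  have hlogc : ContinuousOn (fun t => Real.log (dN (B.G t) (ξ t) + δ)) (closedBall 0 r2) := by
    refine ContinuousOn.log ((hdN.mono (closedBall_subset_ball hrR)).add continuousOn_const) ?_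
    intro t ht
    have ht' : ‖t‖ < R := by
      have := closedBall_subset_ball hrR ht
      rwa [mem_ball_zero_iff] at this
    have := Circ_696.dN_nonneg (B.pd t ht') (ξ t)
    linarith
  have heq : ∀ t ∈ Ann r1 r2, Real.log (X.κ t) = Real.log (dN (B.G t) (ξ t) + δ) := by
    intro t ht
    have ht' : ‖t‖ < R := ht.2.trans hrR
    show Real.log (κ t) = _
    simp only [hκd]
    rw [if_pos ht']
  have hint : IntegrableOn (fun t => Real.log (X.κ t)) (Ann r1 r2) := by
    refine IntegrableOn.congr_fun ?_ (fun t ht => (heq t ht).symm) hAm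
    exact (hlogc.integrableOn_compact (isCompact_closedBall (0 : ℂ) r2)).mono_set (Ann_sub r1 r2)
  have hlow : ∀ t ∈ Ann r1 r2, Real.log δ ≤ Real.log (X.κ t) := by
    intro t ht
    rw [heq t ht]
    have := Circ_696.dN_nonneg (B.pd t (ht.2.trans hrR)) (ξ t)
    exact Real.log_le_log hδ (by linarith)
  have havg : ⨍ t in Ann r1 r2, Real.log (X.κ t) =
      ⨍ t in Ann r1 r2, Real.log (dN (B.G t) (ξ t) + δ) := by
    rw [setAverage_eq, setAverage_eq, setIntegral_congr_fun hAm heq]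
  obtain ⟨C, hC, hCext⟩ := ext_lpsh hR
  refine NBcore_696.dN_le (B.pd 0 h0R) (Real.exp_pos _).le fun v => ?_
  have hUv := hol_of _ (B.toFrame.cmb_hol v)
  have hpv := X.pv (by norm_num) le_rfl hbm (U := B.toFrame.cmb v) hC ENNReal.ofReal_ne_top
    (fun j => hCext D B.b B.lpsh B.cmp (B.toFrame.cmb v) hUv _ ENNReal.ofReal_ne_top
      (B.eq 0 h0R v).le j) hr1 hr hrR hint hlow
  have hv0 := Circ_696.vN_nonneg (B.pd 0 h0R).posSemidef v
  rw [ENNReal.toReal_ofReal hv0, havg, Real.rpow_two] at hpv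
  have hval : X.ξ 0 (B.toFrame.cmb v) = ξ 0 ⬝ᵥ v := B.toFrame.fn_eq ξ h0R fun x _ => rfl
  rw [hval] at hpv
  exact hpv

/-- from annuli to circles -/
theorem log_le_of_Ann {G : ℂ → Matrix (Fin s) (Fin s) ℂ} (pd : ∀ t, ‖t‖ < R → (G t).PosDef)
    (cont : ContinuousOn G (ball 0 R)) {ξ : ℂ → Fin s → ℂ}
    (hξ : ∀ i, DifferentiableOn ℂ (fun t => ξ t i) (ball 0 R))
    (hAnn : ∀ δ : ℝ, 0 < δ → ∀ r1 r2 : ℝ, 0 ≤ r1 → r1 < r2 → r2 < R →
      dN (G 0) (ξ 0) ≤ Real.exp (⨍ t in Ann r1 r2, Real.log (dN (G t) (ξ t) + δ)))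
    {δ : ℝ} (hδ : 0 < δ) {r : ℝ} (hr : 0 < r) (hrR : r < R) :
    Real.log (dN (G 0) (ξ 0) + δ) ≤
      Real.circleAverage (fun t => Real.log (dN (G t) (ξ t) + δ)) 0 r := by
  have hR : 0 < R := hr.trans hrR
  have h0R : ‖(0 : ℂ)‖ < R := by rwa [norm_zero]
  have hcontξ : ContinuousOn ξ (ball 0 R) := continuousOn_pi.2 fun i => (hξ i).continuousOn
  have hdN : ContinuousOn (fun t => dN (G t) (ξ t)) (ball 0 R) :=
    dN_contOn cont (fun t ht => pd t (by rwa [mem_ball_zero_iff] at ht)) hcontξ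
  have hsub : sphere (0 : ℂ) r ⊆ ball 0 R := fun t ht => by
    rw [mem_sphere_zero_iff_norm] at ht
    rw [mem_ball_zero_iff, ht]
    exact hrR
  have hnn : ∀ t ∈ ball (0 : ℂ) R, 0 ≤ dN (G t) (ξ t) := fun t ht =>
    Circ_696.dN_nonneg (pd t (by rwa [mem_ball_zero_iff] at ht)) (ξ t)
  have hlogc : ∀ η : ℝ, 0 < η → ContinuousOn (fun t => Real.log (dN (G t) (ξ t) + η)) (ball 0 R) :=
    fun η hη => (hdN.add continuousOn_const).log fun t ht => by
      have := hnn t ht
      have h2 : 0 < dN (G t) (ξ t) + η := by linarith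
      exact h2.ne'
  -- circle form with exponentials
  have h1 : ∀ η : ℝ, 0 < η → dN (G 0) (ξ 0) ≤
      Real.exp (Real.circleAverage (fun t => Real.log (dN (G t) (ξ t) + η)) 0 r) := by
    intro η hη
    have h2 : ∀ ε : ℝ, 0 < ε → dN (G 0) (ξ 0) ≤
        Real.exp (Real.circleAverage (fun t => Real.log (dN (G t) (ξ t) + η)) 0 r + ε) := by
      intro ε hε
      obtain ⟨r1, r2, hr1, hr12, hr2R, hle⟩ := exists_Ann hr hrR (hlogc η hη) hε
      exact (hAnn η hη r1 r2 hr1 hr12 hr2R).trans (Real.exp_le_exp.2 hle)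
    have h3 : Tendsto (fun ε : ℝ => Real.exp (Real.circleAverage
        (fun t => Real.log (dN (G t) (ξ t) + η)) 0 r + ε)) (𝓝[>] 0)
        (𝓝 (Real.exp (Real.circleAverage (fun t => Real.log (dN (G t) (ξ t) + η)) 0 r + 0))) := by
      apply tendsto_nhdsWithin_of_tendsto_nhds
      exact (Real.continuous_exp.comp (continuous_const.add continuous_id)).tendsto 0
    rw [add_zero] at h3
    refine ge_of_tendsto h3 ?_
    filter_upwards [self_mem_nhdsWithin] with ε hε
    exact h2 ε hε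
  -- add `δ`
  have h2 : ∀ η : ℝ, 0 < η → Real.log (dN (G 0) (ξ 0) + δ) ≤
      Real.circleAverage (fun t => Real.log (dN (G t) (ξ t) + δ)) 0 r + η / δ := by
    intro η hη
    have h3 := geom_add hr (a := fun t => dN (G t) (ξ t) + η)
      ((hdN.mono hsub).add continuousOn_const) (fun t ht => by
        have := hnn t (hsub ht)
        linarith) hδ
    have h4 : dN (G 0) (ξ 0) + δ ≤
        Real.exp (Real.circleAverage (fun t => Real.log (dN (G t) (ξ t) + η + δ)) 0 r) := by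
      have := h1 η hη
      linarith
    have hp : 0 < dN (G 0) (ξ 0) + δ := by
      have := hnn 0 (mem_ball_self hR)
      linarith
    have h5 := Real.log_le_log hp h4
    rw [Real.log_exp] at h5
    refine h5.trans ?_
    have h6 : Real.circleAverage (fun t => Real.log (dN (G t) (ξ t) + η + δ)) 0 r ≤
        Real.circleAverage (fun t => Real.log (dN (G t) (ξ t) + δ) + η / δ) 0 r := by
      have hc1 : ContinuousOn (fun t => Real.log (dN (G t) (ξ t) + η + δ)) (sphere 0 r) := by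
        have h7 : (fun t => Real.log (dN (G t) (ξ t) + η + δ)) =
            fun t => Real.log (dN (G t) (ξ t) + (η + δ)) := by
          funext t; rw [add_assoc]
        rw [h7]
        exact (hlogc (η + δ) (by linarith)).mono hsub
      refine NBcore_696.mono hr hc1 (((hlogc δ hδ).mono hsub).add continuousOn_const) ?_
      intro t ht
      have h8 := hnn t (hsub ht)
      have h9 : 0 < dN (G t) (ξ t) + δ := by linarith
      have h10 : dN (G t) (ξ t) + η + δ = (dN (G t) (ξ t) + δ) * (1 + η / (dN (G t) (ξ t) + δ)) := by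
        field_simp
        ring
      have h11 : 0 < 1 + η / (dN (G t) (ξ t) + δ) := by positivity
      rw [h10, Real.log_mul h9.ne' h11.ne']
      have h12 : Real.log (1 + η / (dN (G t) (ξ t) + δ)) ≤ η / (dN (G t) (ξ t) + δ) := by
        have := Real.log_le_sub_one_of_pos h11
        linarith
      have h13 : η / (dN (G t) (ξ t) + δ) ≤ η / δ :=
        div_le_div_of_nonneg_left hη.le hδ (by linarith)
      linarith
    refine h6.trans (le_of_eq ?_)
    rw [Real.circleAverage_fun_add (NBcore_696.ci hr ((hlogc δ hδ).mono hsub))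
      (NBcore_696.ci hr continuousOn_const), Real.circleAverage_const]
  have h3 : Tendsto (fun η : ℝ => Real.circleAverage
      (fun t => Real.log (dN (G t) (ξ t) + δ)) 0 r + η / δ) (𝓝[>] 0)
      (𝓝 (Real.circleAverage (fun t => Real.log (dN (G t) (ξ t) + δ)) 0 r + 0 / δ)) := by
    apply tendsto_nhdsWithin_of_tendsto_nhds
    exact (continuous_const.add (continuous_id.div_const δ)).tendsto 0
  rw [zero_div, add_zero] at h3
  refine ge_of_tendsto h3 ?_
  filter_upwards [self_mem_nhdsWithin] with η hη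
  exact h2 η hη


/-- **dual metrics are log-plurisubharmonic**, circles -/
theorem MetB.log_le (B : MetB D s) {ξ : ℂ → Fin s → ℂ}
    (hξ : ∀ i, DifferentiableOn ℂ (fun t => ξ t i) (ball 0 R)) {δ : ℝ} (hδ : 0 < δ)
    {r : ℝ} (hr : 0 < r) (hrR : r < R) :
    Real.log (dN (B.G 0) (ξ 0) + δ) ≤
      Real.circleAverage (fun t => Real.log (dN (B.G t) (ξ t) + δ)) 0 r :=
  log_le_of_Ann B.pd B.cont hξ (fun _ h _ _ h1 h2 h3 => B.le_exp_Ann hξ h h1 h2 h3) hδ hr hrR

/-- re-centring -/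
def MetB.rc (B : MetB D s) (c : ℂ) {r : ℝ} (hr : ‖c‖ + r ≤ R) : MetB (D.rc c r) s where
  toFrame := B.toFrame.rc c hr
  b x := B.b x.val
  lpsh := LPsh.comp_hol (Restr_29.HolMap.of_mor (Rc.mor (D := D) (c := c) (r := r))) B.lpsh
  cmp t ht := by
    obtain ⟨k, hk, h⟩ := B.cmp (t + c) (lt_of_le_of_lt (norm_add_le _ _) (by linarith))
    refine ⟨k, hk, fun x hx => ?_⟩
    refine h x.val ?_
    have h1 : tc x.val - c = t := hx
    rw [← h1]; ring
  G t := B.G (t + c)
  pd t ht := B.pd (t + c) (lt_of_le_of_lt (norm_add_le _ _) (by linarith))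
  cont := B.cont.comp (by fun_prop) fun t ht => by
    rw [mem_ball_zero_iff] at ht ⊢
    exact lt_of_le_of_lt (norm_add_le _ _) (by linarith)
  eq t ht v := by
    have htc : ‖t + c‖ < R := lt_of_le_of_lt (norm_add_le _ _) (by linarith)
    have h1 := fi_rc (D := D) (c := c)
      (fun x => ENNReal.ofReal (‖B.toFrame.cmb v x‖ ^ (2 : ℝ)) * iw B.b x) ht
    have h2 := B.eq _ htc v
    unfold pn at h2 ⊢
    rw [h2] at h1
    exact h1

/-- **dual metrics are log-plurisubharmonic**, circles around any centre -/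
theorem MetB.log_le_center (B : MetB D s) {ξ : ℂ → Fin s → ℂ}
    (hξ : ∀ i, DifferentiableOn ℂ (fun t => ξ t i) (ball 0 R)) {δ : ℝ} (hδ : 0 < δ)
    {c : ℂ} {r : ℝ} (hr : 0 < r) (hrR : ‖c‖ + r < R) :
    Real.log (dN (B.G c) (ξ c) + δ) ≤
      Real.circleAverage (fun t => Real.log (dN (B.G t) (ξ t) + δ)) c r := by
  set r' := R - ‖c‖ with hr'
  have hle : ‖c‖ + r' ≤ R := by rw [hr']; linarith
  have h1 : Real.log (dN (B.G (0 + c)) (ξ (0 + c)) + δ) ≤
      Real.circleAverage (fun t => Real.log (dN (B.G (t + c)) (ξ (t + c)) + δ)) 0 r :=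
    (B.rc c (r := r') hle).log_le (ξ := fun t => ξ (t + c)) (fun i => by
      refine (hξ i).comp (by fun_prop) fun t ht => ?_
      rw [mem_ball_zero_iff] at ht ⊢
      refine lt_of_le_of_lt (norm_add_le _ _) ?_
      rw [hr'] at ht; linarith) hδ hr (by rw [hr']; linarith)
  have h2 : Real.circleAverage (fun t => Real.log (dN (B.G t) (ξ t) + δ)) c r =
      Real.circleAverage (fun t => Real.log (dN (B.G (t + c)) (ξ (t + c)) + δ)) 0 r := by
    rw [← Real.circleAverage_map_add_const]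
  rw [h2]
  rwa [zero_add] at h1

/-- **(PV)** -/
theorem MetB.pv (B : MetB D s) (hR : 1 ≤ R) : Fdc_999.PV B.G := by
  intro ξ δ hδ c hc
  have hcn : ‖c‖ < 1 := by simpa using hc
  refine ⟨R - ‖c‖, by linarith, fun r hr1 hr2 => ?_⟩
  have h := B.log_le_center (ξ := fun t i => (ξ i).eval t)
    (fun i => (ξ i).differentiable.differentiableOn) hδ hr1 (c := c) (by linarith)
  have h2 : ∀ t, Circ_696.dN (B.G t) (fun i => (ξ i).eval t) = Fdc_999.dN (B.G t) (Fda_999.ev ξ t) :=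
    fun t => Pvx_999.dN_eq _ _
  simp only [h2] at h
  exact h





end Crest.Agent.R276.PV_159
end
end

-- ▼ part R276/PVs_159
section

/-!
# Row 276, part D1 (helper159): (PV) and (OT) for the metrics of LEMMA N over a disc

`Dsc L R` : a family over the disc `|t| < R` whose fibre over `t` is the fibre over `x t` of the
data `L : LN M Y s N` of helper999.  For a family `ω t` of weights of degree `2/N - 2` (helper333)
with `p ↦ 1 / ω (tc p) (u p)` log-psh, the Gram matrix `Qm (L.μ (x t)) L.σ (ω t)` is a `MetB`.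
-/

set_option autoImplicit false
set_option linter.unusedSectionVars false

noncomputable section

open Set Filter Topology Complex MeasureTheory Metric Polynomial
open scoped ENNReal ComplexConjugate Matrix Real ComplexOrder

namespace Crest.Agent.R276.PV_159

open Crest.Agent.R271 Crest.Agent.R271.Ho51 Crest.Agent.R271.W792
open Crest.Agent.R276.Circ_696 (vN dN)
open Crest.Agent.R276
open Crest.Agent.R276.EngU_29 (LPsh)
open Crest.Agent.R276.LN_999 (LN)
open Crest.Agent.R276.LNb_333 (dt dt_sg)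
open Crest.Agent.R276.LNc_333 (Wt Qm)
open Crest.Agent.R276.LNd_333 (wH wG Spn)

variable {R : ℝ} {M Y : Type*} [TopologicalSpace M] [MeasurableSpace Y] {s N : ℕ}

/-- `∑ |u_i|²` -/
def Ku {X : Type*} (u : Fin s → X → ℂ) (p : X) : ℝ := ∑ i, ‖u i p‖ ^ 2

/-- a family over a disc which represents the fibres over the points `x t` -/
structure Dsc (L : LN M Y s N) (R : ℝ) where
  D : Dom R
  /-- the base disc -/
  x : ℂ → M
  xc : ContinuousOn x (ball 0 R)
  /-- the frame -/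
  u : Fin s → D.P → ℂ
  hol : ∀ i, Ho51.Hol (u i)
  wt : ∀ p, D.wt p = (ENNReal.ofReal (Ku u p ^ (1 - 1 / N : ℝ)))⁻¹
  ind : ∀ t, ‖t‖ < R → ∀ a : Fin s → ℂ, (∀ p, tc p = t → ∑ i, a i * u i p = 0) → a = 0
  clos : ∀ t, ‖t‖ < R → ∀ g, FHol t g → D.nrm g t < ∞ →
    ∃ a : Fin s → ℂ, ∀ p, tc p = t → g p = ∑ i, a i * u i p
  /-- the fibre integrals -/
  lk : ∀ t, ‖t‖ < R → ∀ h : (Fin s → ℂ) → ℝ≥0∞, Measurable h →
    ∫⁻ y, h (L.sg y) ∂(L.μ (x t)) = fi (fun p : D.P => h (fun i => u i p)) t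

variable {L : LN M Y s N}

/-- the frame -/
def Dsc.fr (X : Dsc L R) : Frame X.D s where
  u := X.u
  hol := X.hol
  ind := X.ind
  sat := Eventually.of_forall X.clos

/-- inverse weights -/
lemma inv_le_of {b c k : ℝ≥0∞} (hc0 : c ≠ 0) (hc : c ≠ ∞) (h : b ≤ c * k) : k⁻¹ ≤ c * b⁻¹ := by
  have h1 : (c * k)⁻¹ ≤ b⁻¹ := ENNReal.inv_le_inv.2 h
  have h2 : c * (c * k)⁻¹ = k⁻¹ := by
    rw [ENNReal.mul_inv (Or.inl hc0) (Or.inl hc), ← mul_assoc, ENNReal.mul_inv_cancel hc0 hc,
      one_mul]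
  rw [← h2]
  exact mul_le_mul_right h1 _

/-- the general metric -/
def Dsc.met (X : Dsc L R) (hN : 2 ≤ N) (ω : ℂ → (Fin s → ℂ) → ℝ)
    (hω : ∀ t, ‖t‖ < R → Wt (2 / N : ℝ) (ω t)) (hω0 : ∀ t, ‖t‖ < R → ω t 0 = 0)
    (hb : LPsh (fun p : X.D.P => (ω (tc p) (fun i => X.u i p))⁻¹))
    (hG : ContinuousOn (fun t => Qm (L.μ (X.x t)) L.σ (ω t)) (ball 0 R)) : MetB X.D s where
  toFrame := X.fr
  b := fun p => (ω (tc p) (fun i => X.u i p))⁻¹
  lpsh := hb
  cmp := by
    intro t ht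
    have hNp := LNd_333.N_pos hN
    have hq : (0 : ℝ) < 2 - 2 / N := by
      have := LNb_333.p_le hN
      linarith
    have hw := hω t ht
    obtain ⟨C, hC0, hC⟩ := HomC_201.hom_bd (p := (2 - 2 / N : ℝ)) hq
      (g := fun σ => (ω t σ)⁻¹) (hw.cont.inv₀ fun σ hσ => (hw.pos σ hσ).ne') (by
        intro c σ
        by_cases hc : c = 0
        · rw [hc, zero_smul, hω0 t ht, norm_zero, Real.zero_rpow hq.ne', inv_zero, zero_mul]
        · rw [hw.hom c hc, mul_inv, ← Real.rpow_neg (norm_nonneg _)]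
          congr 2
          ring)
    refine ⟨ENNReal.ofReal (C + 1), ENNReal.ofReal_ne_top, fun p hp => ?_⟩
    rw [X.wt p]
    refine inv_le_of (ENNReal.ofReal_pos.2 (by linarith)).ne' ENNReal.ofReal_ne_top ?_
    rw [← ENNReal.ofReal_mul (by linarith)]
    apply ENNReal.ofReal_le_ofReal
    show (ω (tc p) (fun i => X.u i p))⁻¹ ≤ _
    rw [hp]
    have h1 := (le_abs_self _).trans (hC (fun i => X.u i p))
    refine h1.trans ?_
    have h2 : ‖fun i => X.u i p‖ ^ 2 ≤ Ku X.u p := by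
      unfold Ku
      by_cases hs : ‖fun i => X.u i p‖ = 0
      · rw [hs]
        have : 0 ≤ ∑ i, ‖X.u i p‖ ^ 2 := Finset.sum_nonneg fun _ _ => by positivity
        simpa using this
      · obtain ⟨i, hi⟩ : ∃ i, ‖fun i => X.u i p‖ = ‖X.u i p‖ := by
          have hne : Nonempty (Fin s) := by
            by_contra hcon
            rw [not_nonempty_iff] at hcon
            exact hs (by rw [norm_eq_zero]; exact Subsingleton.elim _ _)
          obtain ⟨i, -, hi⟩ := Finset.exists_max_image (Finset.univ : Finset (Fin s))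
            (fun i => ‖X.u i p‖) Finset.univ_nonempty
          refine ⟨i, le_antisymm ?_ (norm_le_pi_norm (fun i => X.u i p) i)⟩
          exact (pi_norm_le_iff_of_nonneg (norm_nonneg _)).2 fun j => hi j (Finset.mem_univ j)
        rw [hi]
        exact Finset.single_le_sum (f := fun i => ‖X.u i p‖ ^ 2) (fun _ _ => by positivity)
          (Finset.mem_univ i)
    have h3 : ‖fun i => X.u i p‖ ^ (2 - 2 / N : ℝ) = (‖fun i => X.u i p‖ ^ 2) ^ (1 - 1 / N : ℝ) := by
      rw [← Real.rpow_natCast, ← Real.rpow_mul (norm_nonneg _)]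
      congr 1
      push_cast
      ring
    rw [h3]
    have h4 : (0 : ℝ) ≤ 1 - 1 / N := (LNd_333.one_sub_pos hN).le
    have h5 : (‖fun i => X.u i p‖ ^ 2) ^ (1 - 1 / N : ℝ) ≤ Ku X.u p ^ (1 - 1 / N : ℝ) :=
      Real.rpow_le_rpow (by positivity) h2 h4
    have h6 : 0 ≤ (‖fun i => X.u i p‖ ^ 2) ^ (1 - 1 / N : ℝ) := by positivity
    calc C * (‖fun i => X.u i p‖ ^ 2) ^ (1 - 1 / N : ℝ)
        ≤ (C + 1) * (‖fun i => X.u i p‖ ^ 2) ^ (1 - 1 / N : ℝ) := by gcongr; linarith
      _ ≤ _ := by gcongr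
  G := fun t => Qm (L.μ (X.x t)) L.σ (ω t)
  pd := fun t ht => LNc_333.Qm_posDef (LNb_333.p_pos hN) (LNd_333.fam L hN (X.x t))
    (fun v hv => L.pos (X.x t) v hv) (hω t ht)
  cont := hG
  eq := by
    intro t ht v
    have hw := hω t ht
    have h1 : pn 2 (iw fun p : X.D.P => (ω (tc p) (fun i => X.u i p))⁻¹) (X.fr.cmb v) t =
        fi (fun p : X.D.P => (fun σ : Fin s → ℂ => ENNReal.ofReal (‖dt v σ‖ ^ 2) *
          (ENNReal.ofReal ((ω t σ)⁻¹))⁻¹) (fun i => X.u i p)) t := by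
      unfold pn
      refine fi_congr fun p hp => ?_
      have hp' : tc p = t := hp
      show ENNReal.ofReal (‖X.fr.cmb v p‖ ^ (2 : ℝ)) *
        (ENNReal.ofReal (ω (tc p) (fun i => X.u i p))⁻¹)⁻¹ = _
      rw [Real.rpow_two, hp']
      rfl
    have hmeas : Measurable (fun σ : Fin s → ℂ => ENNReal.ofReal (‖dt v σ‖ ^ 2) *
          (ENNReal.ofReal ((ω t σ)⁻¹))⁻¹) := by
      have h3 : Continuous fun σ : Fin s → ℂ => dt v σ := LNb_333.dt_cont.comp (Continuous.prodMk_right v)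
      exact ((h3.norm.pow 2).measurable.ennreal_ofReal).mul
        ((LNc_333.meas_wt hw.cont).inv.ennreal_ofReal.inv)
    rw [h1, ← X.lk t ht _ hmeas]
    have h2 : vN (Qm (L.μ (X.x t)) L.σ (ω t)) v = Nc_999.qf (Qm (L.μ (X.x t)) L.σ (ω t)) v := rfl
    rw [h2, LNc_333.qf_Qm (LNb_333.p_pos hN) (LNd_333.fam L hN (X.x t)) hw]
    have hI := LNc_333.integrable_sq (LNb_333.p_pos hN) (LNd_333.fam L hN (X.x t)) hw v
    rw [ofReal_integral_eq_lintegral_ofReal hI
      (Eventually.of_forall fun y => LNc_333.sq_nonneg' hw v _)]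
    refine lintegral_congr fun y => ?_
    show ENNReal.ofReal (‖dt v (L.sg y)‖ ^ 2) * (ENNReal.ofReal ((ω t (L.sg y))⁻¹))⁻¹ =
      ENNReal.ofReal (‖dt v (L.sg y)‖ ^ 2 * ω t (L.sg y))
    by_cases h0 : L.sg y = 0
    · rw [h0]
      simp [dt]
    · have h3 := hw.pos _ h0
      rw [ENNReal.ofReal_inv_of_pos h3, inv_inv, ENNReal.ofReal_mul (by positivity)]

/-- **the Narasimhan–Simha metric `L.H`** over a disc; input: log-psh-ness of `B` -/
def Dsc.metH (X : Dsc L R) (hN : 2 ≤ N) (hs : 0 < s)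
    (hB : LPsh (fun p : X.D.P => L.B (X.x (tc p)) (fun i => X.u i p))) : MetB X.D s :=
  X.met hN (fun t => wH L (X.x t)) (fun t _ => LNd_333.wt_H L hN hs (X.x t))
    (fun t _ => by
      unfold wH
      rw [LNb_333.B_zero L hN, zero_pow (by omega), inv_zero])
    (by
      have h1 : (fun p : X.D.P => (wH L (X.x (tc p)) (fun i => X.u i p))⁻¹) =
          fun p => L.B (X.x (tc p)) (fun i => X.u i p) ^ (N - 1) := by
        funext p
        unfold wH
        rw [inv_inv]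
      rw [h1]
      exact hB.pow (N - 1))
    ((LNd_333.H_cont L hN hs).comp_continuousOn X.xc)

lemma Dsc.metH_G (X : Dsc L R) (hN : 2 ≤ N) (hs : 0 < s)
    (hB : LPsh (fun p : X.D.P => L.B (X.x (tc p)) (fun i => X.u i p))) :
    (X.metH hN hs hB).G = fun t => L.H (X.x t) := rfl

/-- holomorphic functions of the base variable -/
lemma hol_comp_tc {D : Dom R} {g : ℂ → ℂ} (hg : DifferentiableOn ℂ g (ball 0 R)) :
    Ho51.Hol (fun p : D.P => g (tc p)) := by
  intro e he
  have h1 : DifferentiableOn ℂ (fun z : Fin (D.a + 1) → ℂ => g (z 0)) e.target := by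
    refine hg.comp (differentiable_apply (𝕜 := ℂ) (0 : Fin (D.a + 1))).differentiableOn ?_
    intro z hz
    rw [mem_ball_zero_iff]
    have h2 : ‖(cp (e.symm z) : Fin (D.a + 1) → ℂ) 0‖ < R := D.tR (e.symm z)
    rw [he.cp_symm hz] at h2
    exact h2
  refine h1.congr fun z hz => ?_
  show g ((cp (e.symm z) : Fin (D.a + 1) → ℂ) 0) = g (z 0)
  rw [he.cp_symm hz]

/-- **the metrics `L.G`** over a disc -/
def Dsc.metG (X : Dsc L R) (hN : 2 ≤ N) {m : ℕ} (w : ℂ → Fin m → Fin s → ℂ)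
    (hw : ∀ l i, DifferentiableOn ℂ (fun t => w t l i) (ball 0 R))
    (hsp : ∀ t, ‖t‖ < R → Spn (w t)) : MetB X.D s :=
  X.met hN (fun t => wG N (w t)) (fun t ht => LNd_333.wt_G hN (hsp t ht))
    (fun t _ => by
      unfold wG
      have h1 : ∑ l, ‖dt (w t l) (0 : Fin s → ℂ)‖ ^ 2 = 0 := by simp [dt]
      rw [h1]
      exact Real.zero_rpow (by linarith [LNd_333.one_sub_pos hN]))
    (by
      have h1 : (fun p : X.D.P => (wG N (w (tc p)) (fun i => X.u i p))⁻¹) =
          fun p => (∑ l, ‖∑ i, w (tc p) l i * X.u i p‖ ^ 2) ^ (1 - 1 / N : ℝ) := by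
        funext p
        unfold wG
        rw [Real.rpow_neg (Finset.sum_nonneg fun _ _ => by positivity), inv_inv]
        rfl
      rw [h1]
      refine EngU_29.LPsh.rpow ?_ (LNd_333.one_sub_pos hN).le
      refine EngU_29.LPsh.sum_hol Finset.univ (f := fun l p => ∑ i, w (tc p) l i * X.u i p)
        fun l _ => ?_
      intro e he
      have h2 : ((fun p : X.D.P => ∑ i, w (tc p) l i * X.u i p) ∘ e.symm) = fun z =>
          ∑ i, ((fun p : X.D.P => w (tc p) l i * X.u i p) ∘ e.symm) z := rfl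
      rw [h2]
      exact DifferentiableOn.fun_sum fun i _ =>
        hol_mul (hol_comp_tc (D := X.D) (hw l i)) (X.hol i) e he)
    (by
      refine (LNd_333.G_cont L hN).comp (X.xc.prodMk (f := X.x) (g := w) ?_) ?_
      · exact continuousOn_pi.2 fun l => continuousOn_pi.2 fun i => (hw l i).continuousOn
      · intro t ht
        exact hsp t (by rwa [mem_ball_zero_iff] at ht))


end Crest.Agent.R276.PV_159
end
end

-- ▼ part R276/PVt_159
section

/-!
# Row 276, part D1 (helper159): log-subharmonicity of `B` along sections, from 185's `nb`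
-/

set_option autoImplicit false
set_option linter.unusedSectionVars false

noncomputable section

open Set Filter Topology Complex MeasureTheory Metric
open scoped ENNReal ComplexConjugate Matrix Real ComplexOrder

namespace Crest.Agent.R276.PV_159

open Crest.Agent.R271 Crest.Agent.R271.Ho51 Crest.Agent.R271.W792
open Crest.Agent.R276.Circ_696 (vN dN)
open Crest.Agent.R276
open Crest.Agent.R276.EngU_29 (LPsh)
open Crest.Agent.R276.LN_999 (LN)
open Crest.Agent.R276.LNb_333 (dt dt_sg)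
open Crest.Agent.R276.LNc_333 (Wt Qm)
open Crest.Agent.R276.LNd_333 (wH wG Spn)
open Crest.Agent.R276.NbD_185 (NB wi SS)

variable {R : ℝ} {M Y : Type*} [TopologicalSpace M] [MeasurableSpace Y] {s N : ℕ} {L : LN M Y s N}

/-- the standard frame of functionals -/
def e0 (s : ℕ) : Fin s → Fin s → ℂ := fun l => Pi.single l 1

lemma dt_e0 (l : Fin s) (σ : Fin s → ℂ) : dt (e0 s l) σ = σ l := by
  unfold dt e0
  rw [Finset.sum_eq_single l]
  · simp
  · intro j _ hj
    rw [Pi.single_eq_of_ne hj, zero_mul]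
  · intro h; exact absurd (Finset.mem_univ l) h

lemma spn_e0 : Spn (e0 s) := by
  intro v hv
  funext l
  have := hv l
  rwa [dt_e0] at this

/-- the norm of the class in the frame -/
lemma Dsc.nrm_cmb (X : Dsc L R) (hN : 2 ≤ N) {t : ℂ} (ht : ‖t‖ < R) (a : Fin s → ℂ) :
    X.D.nrm (X.fr.cmb a) t = ENNReal.ofReal (vN (L.G (X.x t) (e0 s)) a) := by
  have h1 := (X.metG hN (fun _ => e0 s) (fun _ _ => differentiableOn_const _)
    (fun _ _ => spn_e0)).eq t ht a
  have h2 : vN ((X.metG hN (fun _ => e0 s) (fun _ _ => differentiableOn_const _)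
    (fun _ _ => spn_e0)).G t) a = vN (L.G (X.x t) (e0 s)) a := rfl
  rw [h2] at h1
  rw [← h1]
  unfold Dom.nrm pn
  refine fi_congr fun p _ => ?_
  unfold Dom.dens
  rw [X.wt p, Real.rpow_two]
  congr 1
  show _ = (ENNReal.ofReal (wG N (e0 s) (fun i => X.u i p))⁻¹)⁻¹
  congr 2
  unfold wG
  rw [Real.rpow_neg (Finset.sum_nonneg fun _ _ => by positivity), inv_inv]
  unfold Ku
  simp only [dt_e0]

lemma dN_le_Ku (W : Matrix (Fin s) (Fin s) ℂ) (ξ : Fin s → ℂ) :
    dN W ξ ≤ (∑ i, ∑ j, ‖W⁻¹ i j‖) * ∑ i, ‖ξ i‖ ^ 2 := by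
  have hexp : ξ ⬝ᵥ W⁻¹.mulVec (star ξ) = ∑ i, ∑ j, ξ i * (W⁻¹ i j * star (ξ j)) := by
    simp only [dotProduct, Matrix.mulVec, Finset.mul_sum, Pi.star_apply]
  unfold Circ_696.dN
  rw [hexp]
  refine (Complex.re_le_norm _).trans ?_
  refine (norm_sum_le _ _).trans ?_
  rw [Finset.sum_mul]
  refine Finset.sum_le_sum fun i _ => ?_
  refine (norm_sum_le _ _).trans ?_
  rw [Finset.sum_mul]
  refine Finset.sum_le_sum fun j _ => ?_
  rw [norm_mul, norm_mul, norm_star]
  have h1 : ‖ξ i‖ * ‖ξ j‖ ≤ ∑ i, ‖ξ i‖ ^ 2 := by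
    have hi : ‖ξ i‖ ^ 2 ≤ ∑ i, ‖ξ i‖ ^ 2 :=
      Finset.single_le_sum (f := fun i => ‖ξ i‖ ^ 2) (fun _ _ => by positivity) (Finset.mem_univ i)
    have hj : ‖ξ j‖ ^ 2 ≤ ∑ i, ‖ξ i‖ ^ 2 :=
      Finset.single_le_sum (f := fun i => ‖ξ i‖ ^ 2) (fun _ _ => by positivity) (Finset.mem_univ j)
    nlinarith [sq_nonneg (‖ξ i‖ - ‖ξ j‖)]
  calc ‖ξ i‖ * (‖W⁻¹ i j‖ * ‖ξ j‖) = ‖W⁻¹ i j‖ * (‖ξ i‖ * ‖ξ j‖) := by ring
    _ ≤ ‖W⁻¹ i j‖ * ∑ i, ‖ξ i‖ ^ 2 := by gcongr

/-- (Cl) for functions of finite norm -/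
lemma Dsc.cl (X : Dsc L R) (hN : 2 ≤ N) {t : ℂ} (ht : ‖t‖ < R) :
    ∃ C : ℝ≥0∞, C ≠ ∞ ∧ ∀ f, FHol t f → X.D.nrm f t < ∞ → ∀ x, tc x = t →
      ENNReal.ofReal (‖f x‖ ^ 2) ≤ C * ENNReal.ofReal (Ku X.u x) * X.D.nrm f t := by
  set W := L.G (X.x t) (e0 s) with hW
  have hWp : W.PosDef := LNd_333.G_posDef L hN (X.x t) spn_e0
  refine ⟨ENNReal.ofReal (∑ i, ∑ j, ‖W⁻¹ i j‖), ENNReal.ofReal_ne_top, fun f hf hfin x hx => ?_⟩
  obtain ⟨a, ha⟩ := X.clos t ht f hf hfin
  have h1 : X.D.nrm f t = X.D.nrm (X.fr.cmb a) t := X.D.nrm_congr ha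
  rw [h1, X.nrm_cmb hN ht, ha x hx]
  have hK : 0 ≤ Ku X.u x := Finset.sum_nonneg fun _ _ => by positivity
  have hS : 0 ≤ ∑ i, ∑ j, ‖W⁻¹ i j‖ :=
    Finset.sum_nonneg fun _ _ => Finset.sum_nonneg fun _ _ => norm_nonneg _
  rw [← ENNReal.ofReal_mul hS, ← ENNReal.ofReal_mul (mul_nonneg hS hK)]
  apply ENNReal.ofReal_le_ofReal
  have h2 := Circ_696.cs hWp (fun i => X.u i x) a
  have h3 : ∑ i, a i * X.u i x = (fun i => X.u i x) ⬝ᵥ a := by
    unfold dotProduct
    exact Finset.sum_congr rfl fun i _ => mul_comm _ _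
  rw [h3]
  refine h2.trans ?_
  have h4 := dN_le_Ku W (fun i => X.u i x)
  have h5 := Circ_696.vN_nonneg hWp.posSemidef a
  exact mul_le_mul_of_nonneg_right h4 h5

/-- the `2/N`-norm in the frame -/
lemma Dsc.pn_cmb (X : Dsc L R) (hN : 2 ≤ N) {t : ℂ} (ht : ‖t‖ < R) {g : X.D.P → ℂ}
    {a : Fin s → ℂ} (ha : ∀ p, tc p = t → g p = ∑ i, a i * X.u i p) :
    pn (2 * (1 / N : ℝ)) (wi fun _ => (1 : ℝ)) g t = ENNReal.ofReal (L.Phi (X.x t) a) := by
  have h1 : pn (2 * (1 / N : ℝ)) (wi fun _ => (1 : ℝ)) g t =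
      fi (fun p : X.D.P => (fun σ : Fin s → ℂ => ENNReal.ofReal (‖dt a σ‖ ^ (2 / N : ℝ)))
        (fun i => X.u i p)) t := by
    unfold pn
    refine fi_congr fun p hp => ?_
    have hw : wi (fun _ : X.D.P => (1 : ℝ)) p = 1 := by
      unfold NbD_185.wi
      simp
    rw [hw, mul_one, ha p hp, mul_one_div]
    rfl
  have hm : Measurable fun σ : Fin s → ℂ => ENNReal.ofReal (‖dt a σ‖ ^ (2 / N : ℝ)) := by
    have h3 : Continuous fun σ : Fin s → ℂ => dt a σ :=
      LNb_333.dt_cont.comp (Continuous.prodMk_right a)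
    exact (h3.norm.measurable.pow_const _).ennreal_ofReal
  rw [h1, ← X.lk t ht _ hm, LNb_333.ofReal_Phi L hN]
  rfl

lemma rpow_sum_le {ι : Type*} (S : Finset ι) (f : ι → ℝ≥0∞) {θ : ℝ} (h0 : 0 < θ) (h1 : θ ≤ 1) :
    (∑ i ∈ S, f i) ^ θ ≤ ∑ i ∈ S, f i ^ θ := by
  classical
  induction S using Finset.induction_on with
  | empty => simp [ENNReal.zero_rpow_of_pos h0]
  | insert a S ha ih =>
    rw [Finset.sum_insert ha, Finset.sum_insert ha]
    exact (ENNReal.rpow_add_le_add_rpow _ _ h0.le h1).trans (by gcongr)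

/-- `K^{1/N} ≤ ∑ |u_i|^{2/N}` -/
lemma Ku_rpow_le {X : Type*} (u : Fin s → X → ℂ) (hN : 2 ≤ N) (p : X) :
    ENNReal.ofReal (Ku u p) ^ (1 / N : ℝ) ≤ ∑ i, ENNReal.ofReal (‖u i p‖ ^ (2 / N : ℝ)) := by
  have hNp := LNd_333.N_pos hN
  have h00 : (0 : ℝ) < 1 / N := by positivity
  have h0 := h00.le
  have h1 : (1 / N : ℝ) ≤ 1 := by
    rw [div_le_one hNp]
    have : (2 : ℝ) ≤ N := by exact_mod_cast hN
    linarith
  unfold Ku
  rw [ENNReal.ofReal_sum_of_nonneg fun _ _ => by positivity]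
  refine (rpow_sum_le _ _ h00 h1).trans (le_of_eq ?_)
  refine Finset.sum_congr rfl fun i _ => ?_
  rw [ENNReal.ofReal_rpow_of_nonneg (by positivity) h0, ← Real.rpow_natCast,
    ← Real.rpow_mul (norm_nonneg _)]
  congr 2
  push_cast
  ring

/-- the data of `nb` -/
lemma Dsc.nbData (X : Dsc L R) (hN : 2 ≤ N) {C : ℝ}
    (hC : ∀ t, ‖t‖ < R → ∀ i, L.Phi (X.x t) (Pi.single i 1) ≤ C) :
    NB X.D (1 / N : ℝ) (Ku X.u) (fun _ => 1) where
  h0 := by have := LNd_333.N_pos hN; positivity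
  h1 := by
    rw [div_le_one (LNd_333.N_pos hN)]
    have : (2 : ℝ) ≤ N := by exact_mod_cast hN
    linarith
  K_lpsh := EngU_29.LPsh.sum_hol Finset.univ fun i _ => X.hol i
  b_lpsh := EngU_29.LPsh.const zero_le_one
  wt x := by rw [X.wt x, mul_one]
  bd := by
    refine ⟨∑ _i : Fin s, ENNReal.ofReal C,
      ENNReal.sum_ne_top.2 fun _ _ => ENNReal.ofReal_ne_top, fun t ht => ?_⟩
    set h : (Fin s → ℂ) → ℝ≥0∞ := fun σ => ∑ i, ENNReal.ofReal (‖σ i‖ ^ (2 / N : ℝ)) with hh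
    have hm1 : ∀ i : Fin s, Measurable fun σ : Fin s → ℂ => ENNReal.ofReal (‖σ i‖ ^ (2 / N : ℝ)) :=
      fun i => ((measurable_pi_apply i).norm.pow_const _).ennreal_ofReal
    have hm : Measurable h := Finset.measurable_fun_sum _ fun i _ => hm1 i
    have h1 : fi (fun x : X.D.P => ENNReal.ofReal (Ku X.u x) ^ (1 / N : ℝ) / ENNReal.ofReal 1) t ≤
        fi (fun p : X.D.P => h (fun i => X.u i p)) t := by
      refine fi_mono fun p _ => ?_
      rw [ENNReal.ofReal_one, div_one]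
      exact Ku_rpow_le X.u hN p
    refine h1.trans ?_
    rw [← X.lk t ht h hm]
    have hsum : ∫⁻ y, h (L.sg y) ∂(L.μ (X.x t)) =
        ∑ i, ∫⁻ y, ENNReal.ofReal (‖L.sg y i‖ ^ (2 / N : ℝ)) ∂(L.μ (X.x t)) :=
      lintegral_finsetSum (f := fun i y => ENNReal.ofReal (‖L.sg y i‖ ^ (2 / N : ℝ))) Finset.univ
        fun i _ => (hm1 i).comp (LNb_333.meas_sg L)
    rw [hsum]
    refine Finset.sum_le_sum fun i _ => ?_
    refine le_trans (le_of_eq ?_) (ENNReal.ofReal_le_ofReal (hC t ht i))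
    rw [LNb_333.ofReal_Phi L hN]
    refine lintegral_congr fun y => ?_
    have h2 := dt_e0 i (L.sg y)
    have h3 : ∑ j, (Pi.single i (1 : ℂ) : Fin s → ℂ) j * L.σ j y = L.sg y i := h2
    rw [h3]
  cl := Eventually.of_forall fun t ht => X.cl hN ht

/-- **`B` is log-subharmonic along sections** (annuli, any majorant `κ`) -/
theorem Dsc.subB (X : Dsc L R) (hN : 2 ≤ N) {C : ℝ}
    (hC : ∀ t, ‖t‖ < R → ∀ i, L.Phi (X.x t) (Pi.single i 1) ≤ C) (σ : Sec X.D) (κ : ℂ → ℝ)
    (hκ : ∀ t, 0 < κ t)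
    (hle : ∀ t, ‖t‖ < R → L.B (X.x t) (fun i => X.u i (σ.x t)) ≤ κ t)
    {r1 r2 : ℝ} (hr1 : 0 ≤ r1) (hr : r1 < r2) (hrR : r2 < R)
    (hκi : IntegrableOn (fun t => Real.log (κ t)) (Ann r1 r2))
    {c0 : ℝ} (hc0 : ∀ t ∈ Ann r1 r2, c0 ≤ Real.log (κ t)) :
    L.B (X.x 0) (fun i => X.u i (σ.x 0)) ≤ Real.exp (⨍ t in Ann r1 r2, Real.log (κ t)) := by
  have hR : 0 < R := lt_of_le_of_lt hr1 (hr.trans hrR)
  have h0R : ‖(0 : ℂ)‖ < R := by rwa [norm_zero]
  refine LNb_333.B_le_of L _ _ hN fun v hv => ?_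
  have hexp : (2 * (1 / N : ℝ)) = 2 / N := by ring
  have hbd : ∀ᵐ t, ‖t‖ < R → ∀ g, FHol t g → X.D.nrm g t < ∞ →
      ENNReal.ofReal (‖g (σ.x t)‖ ^ (2 * (1 / N : ℝ))) ≤ ENNReal.ofReal (κ t) *
        pn (2 * (1 / N : ℝ)) (wi fun _ => (1 : ℝ)) g t := by
    refine Eventually.of_forall fun t ht g hg hfin => ?_
    obtain ⟨a, ha⟩ := X.clos t ht g hg hfin
    rw [X.pn_cmb hN ht ha, ← ENNReal.ofReal_mul (hκ t).le]
    apply ENNReal.ofReal_le_ofReal
    have h1 := LNb_333.le_B L hN (X.x t) (fun i => X.u i (σ.x t)) a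
    have h2 := LNb_333.Phi_nonneg L (X.x t) a
    have h3 : g (σ.x t) = dt a (fun i => X.u i (σ.x t)) :=
      ha _ (σ.sec t (by rwa [mem_ball_zero_iff]))
    rw [h3, hexp]
    refine h1.trans ?_
    rw [mul_comm (κ t)]
    exact mul_le_mul_of_nonneg_left (hle t ht) h2
  have hcs : ∀ x, tc x = 0 → ‖X.fr.cmb v x‖ₑ ^ (2 : ℝ) ≤
      ENNReal.ofReal (∑ i, ‖v i‖ ^ 2) * ENNReal.ofReal (Ku X.u x) := by
    intro x _
    rw [← NbD_185.ofReal_sq_norm, ← ENNReal.ofReal_mul (Finset.sum_nonneg fun _ _ => by positivity)]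
    apply ENNReal.ofReal_le_ofReal
    have h4 : ‖X.fr.cmb v x‖ ≤ ∑ k, ‖v k‖ * ‖X.u k x‖ :=
      (norm_sum_le _ _).trans (le_of_eq (Finset.sum_congr rfl fun k _ => norm_mul _ _))
    calc ‖X.fr.cmb v x‖ ^ 2 ≤ (∑ k, ‖v k‖ * ‖X.u k x‖) ^ 2 := by gcongr
      _ ≤ _ := Finset.sum_mul_sq_le_sq_mul_sq _ _ _
  have hmain := NbD_185.nb (OTB_189.otb_dom hR) (X.nbData hN hC) σ κ hκ hbd
    (U := X.fr.cmb v) (Hol.fhol (X.fr.cmb_hol v) 0) ENNReal.ofReal_ne_top hcs hr1 hr hrR hκi hc0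
  have hSS : SS X.D (1 / N : ℝ) (fun _ => (1 : ℝ)) (X.fr.cmb v) =
      ENNReal.ofReal (L.Phi (X.x 0) v) := by
    rw [← X.pn_cmb hN h0R (g := X.fr.cmb v) (a := v) fun p _ => rfl]
    unfold NbD_185.SS pn
    refine fi_congr fun p _ => ?_
    rw [NbD_185.ofReal_rpow_norm (by positivity)]
    rfl
  rw [hSS, ENNReal.toReal_ofReal (LNb_333.Phi_nonneg L _ _), hexp] at hmain
  refine hmain.trans ?_
  calc _ ≤ Real.exp (⨍ t in Ann r1 r2, Real.log (κ t)) * 1 := by gcongr
    _ = _ := mul_one _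

end Crest.Agent.R276.PV_159
end
end

-- ▼ part R276/PVu_159
section

/-!
# Row 276, part D1 (helper159): `B` is log-psh on the total space, given slices

`lpsh_B`: `T` a Riemann domain, `f : T → M` continuous, `u i : T → ℂ` continuous; if every disc of
`T` in a chart is, on every smaller disc, a section of a family `Dsc L r` lying over `f`, then
`y ↦ L.B (f y) (u · y)` is log-psh.
-/

set_option autoImplicit false
set_option linter.unusedSectionVars false

noncomputable section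

open Set Filter Topology Complex MeasureTheory Metric
open scoped ENNReal ComplexConjugate Matrix Real ComplexOrder

namespace Crest.Agent.R276.PV_159

open Crest.Agent.R271 Crest.Agent.R271.Ho51
open Crest.Agent.R276
open Crest.Agent.R276.EngU_29 (LPsh)
open Crest.Agent.R276.LN_999 (LN)
open Crest.Agent.R273.Reg_844 (ush LocB)

variable {M Y : Type*} [TopologicalSpace M] [MeasurableSpace Y] {s N : ℕ} {L : LN M Y s N}

/-- integrability of usc locally bounded functions along curves -/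
lemma int_usc {T : Type*} [TopologicalSpace T] {u : T → ℝ} (hu : UpperSemicontinuous u)
    (hL : LocB u) {g : ℂ → T} {r1 r2 : ℝ} (hg : ContinuousOn g (closedBall 0 r2)) :
    IntegrableOn (fun t => u (g t)) (Ann r1 r2) ∧ ∃ K : ℝ, ∀ t ∈ Ann r1 r2, |u (g t)| ≤ K := by
  let _ : MeasurableSpace T := borel T
  have _ : BorelSpace T := ⟨rfl⟩
  obtain ⟨K, hK⟩ := hL.exists_bound ((isCompact_closedBall (0 : ℂ) r2).image_of_continuousOn hg)
  have hK' : ∀ t ∈ Ann r1 r2, |u (g t)| ≤ K := fun t ht =>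
    hK _ (mem_image_of_mem _ (Ann_sub r1 r2 ht))
  refine ⟨?_, K, hK'⟩
  have hAm : MeasurableSet (Ann r1 r2) := measurableSet_Ann r1 r2
  have h1 : AEMeasurable g (volume.restrict (Ann r1 r2)) :=
    (hg.mono (Ann_sub r1 r2)).aemeasurable hAm
  have h2 : AEStronglyMeasurable (fun t => u (g t)) (volume.restrict (Ann r1 r2)) :=
    (hu.measurable.comp_aemeasurable h1).aestronglyMeasurable
  refine IntegrableOn.of_bound (vol_Ann_lt r1 r2) h2 K ?_
  filter_upwards [ae_restrict_mem hAm] with t ht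
  rw [Real.norm_eq_abs]
  exact hK' t ht

/-- **`B` is log-psh on the total space** -/
theorem lpsh_B {n : ℕ} {T : Type} [TopologicalSpace T] [RDom n T] (hN : 2 ≤ N) (hs : 0 < s)
    {f : T → M} (hf : Continuous f) {u : Fin s → T → ℂ} (hu : ∀ i, Continuous (u i))
    (hsl : ∀ e : OpenPartialHomeomorph T (Fin n → ℂ), IsCh e → ∀ (z v : Fin n → ℂ) (R : ℝ), 1 < R →
      (∀ t : ℂ, ‖t‖ < R → z + t • v ∈ e.target) → ∀ r, 0 < r → r < R →
      ∃ (X : Dsc L r) (σ : Sec X.D) (C : ℝ),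
        (∀ t, ‖t‖ < r → ∀ i, L.Phi (X.x t) (Pi.single i 1) ≤ C) ∧
        (∀ t, ‖t‖ < r → X.x t = f (e.symm (z + t • v))) ∧
        (∀ t, ‖t‖ < r → ∀ i, X.u i (σ.x t) = u i (e.symm (z + t • v)))) :
    LPsh (fun y => L.B (f y) (fun i => u i y)) := by
  set b : T → ℝ := fun y => L.B (f y) (fun i => u i y) with hb
  have hbc : Continuous b := (LNb_333.B_cont L hN hs).comp (hf.prodMk (continuous_pi hu))
  have hb0 : ∀ y, 0 ≤ b y := fun y => LNb_333.B_nonneg L _ _
  have hush : ush b = b := by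
    funext x
    refine le_antisymm (Crest.Agent.R273.Reg_844.ush_le_of_le hbc.upperSemicontinuous
      (fun _ => le_rfl) x) ?_
    have hLb : LocB b := fun y => ⟨|b y| + 1, by
      have := hbc.abs.continuousAt.eventually (gt_mem_nhds (show |b y| < |b y| + 1 by linarith))
      exact this.mono fun _ h => h.le⟩
    exact hLb.le_ush x
  rw [← hush]
  refine Ann_696.lpsh_ush hb0 (fun x => ⟨b x + 1, ?_⟩) ?_
  · have := hbc.continuousAt.eventually (gt_mem_nhds (show b x < b x + 1 by linarith))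
    exact this.mono fun _ h => h.le
  intro e he z v R hR hdisc w husc hL hle r1 r2 hr1 hr hrR
  set r : ℝ := (r2 + R) / 2 with hrd
  have hr2r : r2 < r := by rw [hrd]; linarith
  have hrR' : r < R := by rw [hrd]; linarith
  have hr0 : 0 < r := by linarith
  obtain ⟨X, σ, C, hC, hx, hxu⟩ := hsl e he z v R hR hdisc r hr0 hrR'
  set g : ℂ → T := fun t => e.symm (z + t • v) with hg
  have hgc : ContinuousOn g (closedBall 0 r2) := by
    refine e.continuousOn_symm.comp (by fun_prop) fun t ht => hdisc t ?_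
    have : ‖t‖ ≤ r2 := by simpa using ht
    linarith
  set κ : ℂ → ℝ := fun t => if ‖t‖ < r then Real.exp (w (g t)) else 1 with hκd
  have hκ : ∀ t, 0 < κ t := by
    intro t
    simp only [hκd]
    split_ifs
    · exact Real.exp_pos _
    · exact one_pos
  have hlog : ∀ t ∈ Ann r1 r2, Real.log (κ t) = w (g t) := by
    intro t ht
    simp only [hκd]
    rw [if_pos (ht.2.trans hr2r), Real.log_exp]
  obtain ⟨hint, K, hK⟩ := int_usc husc hL (r1 := r1) hgc
  have hAm : MeasurableSet (Ann r1 r2) := measurableSet_Ann r1 r2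
  have h1 := X.subB hN hC σ κ hκ (fun t ht => by
    have h2 : (fun i => X.u i (σ.x t)) = fun i => u i (g t) := funext (hxu t ht)
    rw [h2, hx t ht]
    simp only [hκd]
    rw [if_pos ht]
    exact hle (g t)) hr1 hr hr2r (hint.congr_fun (fun t ht => (hlog t ht).symm) hAm)
    (c0 := -K) (fun t ht => by
      rw [hlog t ht]
      exact (abs_le.1 (hK t ht)).1)
  have h0 : ‖(0 : ℂ)‖ < r := by rwa [norm_zero]
  have h2 : (fun i => X.u i (σ.x 0)) = fun i => u i (g 0) := funext (hxu 0 h0)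
  have h3 : ⨍ t in Ann r1 r2, Real.log (κ t) = ⨍ t in Ann r1 r2, w (g t) := by
    rw [setAverage_eq, setAverage_eq, setIntegral_congr_fun hAm hlog]
  rw [h2, hx 0 h0, h3] at h1
  have h4 : e.symm (z + (0 : ℂ) • v) = e.symm z := by rw [zero_smul, add_zero]
  rw [h4] at h1
  have h5 : g 0 = e.symm z := h4
  rw [h5] at h1
  exact h1

end Crest.Agent.R276.PV_159
end
end

-- ▼ part R276/LNx_333
section

/-!
# Row 276, LEMMA N (helper333), part x: the fibre data of a saturated family, as functions on the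
total space

`lkF`, `closF`, `indF`, `bdF` : inputs of 159's `PV_159.Dsc` for `lnF S`.
-/

set_option autoImplicit false
set_option linter.unusedSectionVars false

open Set Filter Topology MeasureTheory Metric
open scoped ENNReal

noncomputable section

namespace Crest.Agent.R276.LNx_333

open Crest.Agent.R271 Crest.Agent.R271.Ho51 Crest.Agent.R271.Rd692
open Crest.Agent.R276.Mod1_987 Crest.Agent.R276.FlatM_464
open Crest.Agent.R276.FlatDefs_236
open Crest.Agent.R276.LN_999 Crest.Agent.R276.LNb_333 Crest.Agent.R276.LNf_333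
open Crest.Agent.R276.Sat_210 (IK)

variable {L K : Type} [Field L] [Field K] [Algebra ℂ L] [Algebra ℂ K] [Algebra L K]
  [IsScalarTower ℂ L K] {m r : ℕ} {R : RMdl L K m r} {N s : ℕ} {u : Fin s → R.MK.B}

variable (S : SatFam R N u)

/-- the fibre integrals of functions of the frame -/
theorem lkF (w : R.ML.Pts) (h : (Fin s → ℂ) → ℝ≥0∞) (hh : Measurable h) :
    ∫⁻ y, h ((lnF S).sg y) ∂((lnF S).μ w) =
      R.fint w (fun y => h (fun i => (y : R.MK.B →ₐ[ℂ] ℂ) (u i))) := by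
  rw [lnF_mu]
  exact lintegral_fmu' R w (hh.comp (measurable_pi_lambda _ fun i => measurable_ev (u i)))

/-- the fibre integral only needs measurability on the fibre -/
theorem fint_fib {w : R.ML.Pts} {g : R.MK.Pts → ℝ≥0∞}
    (hg : Measurable fun y : R.Fib w => g y.val) : R.fint w g = ∫⁻ y, g y.val ∂(nu R w) := by
  have h1 := lintegral_eq_fibre (nu_leb R w) (g := fun y : R.Fib w => g y.val) hg
  rw [h1]
  unfold RMdl.fint
  exact lintegral_congr fun ξ => R.fsumR_eq g w ξ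

include S in
/-- independence on the fibre -/
theorem indF (w : R.ML.Pts) (a : Fin s → ℂ)
    (h : ∀ y : R.MK.Pts, R.q y = w → ∑ i, a i * (y : R.MK.B →ₐ[ℂ] ℂ) (u i) = 0) : a = 0 :=
  S.indep w a fun y => h y.val (RMdl.Fib.q_eq y)

include S in
/-- closedness on the fibre -/
theorem closF (w : R.ML.Pts) (g : R.MK.Pts → ℂ) (hg : Hol (fun y : R.Fib w => g y.val))
    (hfin : R.fint w (fun y => ENNReal.ofReal (‖g y‖ ^ 2) *
      (ENNReal.ofReal ((∑ i, ‖(y : R.MK.B →ₐ[ℂ] ℂ) (u i)‖ ^ 2) ^ (1 - 1 / (N : ℝ))))⁻¹) < ∞) :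
    ∃ a : Fin s → ℂ, ∀ y : R.MK.Pts, R.q y = w → g y = ∑ i, a i * (y : R.MK.B →ₐ[ℂ] ℂ) (u i) := by
  have hN := two_le S
  have hgc : Continuous fun y : R.Fib w => g y.val := LNe_333.hol_cont hg
  have hsc : ∀ i, Continuous fun y : R.Fib w => sg u w y i := fun i =>
    (continuous_ev (u i)).comp (RMdl.Fib.continuous_val w)
  have hN0 : (0 : ℝ) < N := by
    have : 0 < N := by omega
    exact_mod_cast this
  have hα : (0 : ℝ) ≤ 1 - 1 / (N : ℝ) := by
    rw [sub_nonneg, div_le_one hN0]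
    have : 1 ≤ N := by omega
    exact_mod_cast this
  have heq : IK (nu R w) (((N : ℝ) - 1) / N) (fun y : R.Fib w => g y.val)
      (fun i y => sg u w y i) = R.fint w (fun y => ENNReal.ofReal (‖g y‖ ^ 2) *
      (ENNReal.ofReal ((∑ i, ‖(y : R.MK.B →ₐ[ℂ] ℂ) (u i)‖ ^ 2) ^ (1 - 1 / (N : ℝ))))⁻¹) := by
    rw [fint_fib]
    · unfold IK Sat_210.KK
      refine lintegral_congr fun y => ?_
      have h1 : ((N : ℝ) - 1) / N = 1 - 1 / (N : ℝ) := by field_simp
      rw [h1, ENNReal.rpow_neg]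
      have h2 : ∑ i, ‖sg u w y i‖ₑ ^ (2 : ℝ) =
          ENNReal.ofReal (∑ i, ‖(y.val : R.MK.B →ₐ[ℂ] ℂ) (u i)‖ ^ 2) := by
        rw [ENNReal.ofReal_sum_of_nonneg fun i _ => by positivity]
        refine Finset.sum_congr rfl fun i _ => ?_
        rw [← ofReal_norm, ENNReal.ofReal_rpow_of_nonneg (norm_nonneg _) (by norm_num),
          Real.rpow_two]
        rfl
      rw [h2, ENNReal.ofReal_rpow_of_nonneg (Finset.sum_nonneg fun i _ => by positivity) hα]
      congr 1
      rw [← ofReal_norm, ENNReal.ofReal_rpow_of_nonneg (norm_nonneg _) (by norm_num),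
        Real.rpow_two]
    · have h1 : Measurable fun y : R.Fib w =>
          (∑ i, ‖(y.val : R.MK.B →ₐ[ℂ] ℂ) (u i)‖ ^ 2) := by
        refine Continuous.measurable ?_
        exact continuous_finsetSum _ fun i _ => (hsc i).norm.pow 2
      exact ((hgc.norm.pow 2).measurable.ennreal_ofReal).mul
        ((h1.pow_const _).ennreal_ofReal.inv)
  obtain ⟨b, hb⟩ := S.clos w _ hg (by rw [heq]; exact hfin.ne)
  refine ⟨b, fun y hy => ?_⟩
  have := hb ⟨y, hy⟩
  exact this

/-- `Φ` is bounded along discs -/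
theorem bdF {c : ℂ → R.ML.Pts} {R₁ ρ : ℝ} (hc : ContinuousOn c (ball 0 R₁)) (hρ : ρ < R₁) :
    ∃ C : ℝ, ∀ t : ℂ, ‖t‖ < ρ → ∀ i, (lnF S).Phi (c t) (Pi.single i 1) ≤ C := by
  have hK : IsCompact (closedBall (0 : ℂ) ρ) := isCompact_closedBall _ _
  have hsub : closedBall (0 : ℂ) ρ ⊆ ball 0 R₁ := closedBall_subset_ball hρ
  have h1 : ∀ i : Fin s, ∃ C : ℝ, ∀ t ∈ closedBall (0 : ℂ) ρ,
      (lnF S).Phi (c t) (Pi.single i 1) ≤ C := by
    intro i
    have hcont : ContinuousOn (fun t => (lnF S).Phi (c t) (Pi.single i 1)) (closedBall 0 ρ) :=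
      (Phi_cont_left (lnF S) (Pi.single i 1)).comp_continuousOn (hc.mono hsub)
    obtain ⟨C, hC⟩ := hK.bddAbove_image hcont
    exact ⟨C, fun t ht => hC (mem_image_of_mem _ ht)⟩
  choose C hC using h1
  refine ⟨∑ i, |C i|, fun t ht i => ?_⟩
  have h2 := hC i t (by rw [mem_closedBall_zero_iff]; exact ht.le)
  exact h2.trans ((le_abs_self _).trans
    (Finset.single_le_sum (f := fun i => |C i|) (fun _ _ => abs_nonneg _) (Finset.mem_univ i)))

end Crest.Agent.R276.LNx_333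
end
end

-- ▼ part R276/PVv_159
section

/-!
# Row 276, part D1 (helper159): PVH and PVG of LEMMA N from slices

`Slc S` : over every lifted disc of the base there is a family `Dsc (lnF S) ρ`.
-/

set_option autoImplicit false
set_option linter.unusedSectionVars false

noncomputable section

open Set Filter Topology Complex MeasureTheory Metric
open scoped ENNReal ComplexConjugate Matrix ComplexOrder

namespace Crest.Agent.R276.PV_159

open Crest.Agent.R271 Crest.Agent.R271.Ho51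
open Crest.Agent.R276
open Crest.Agent.R276.EngU_29 (LPsh)
open Crest.Agent.R276.LN_999 (LN)
open Crest.Agent.R276.PshB_29 (HolMap)
open Crest.Agent.R276.FlatDefs_236 (SatFam)
open Crest.Agent.R276.LNf_333 (lnF)
open Crest.Agent.R276.Mod1_987

variable {L K : Type} [Field L] [Field K] [Algebra ℂ L] [Algebra ℂ K] [Algebra L K]
  [IsScalarTower ℂ L K] {m r : ℕ} {R : RMdl L K m r} {N s : ℕ} {u : Fin s → R.MK.B}

/-- slices over lifted discs -/
def Slc (S : SatFam R N u) : Prop :=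
  ∀ (c : ℂ → R.ML.Pts) (z0 v : Fin m → ℂ) (ρ : ℝ), 0 < ρ → ContinuousOn c (ball 0 ρ) →
    (∀ l : ℂ, ‖l‖ < ρ → cp (c l) = z0 + l • v) →
    ∃ X : Dsc (lnF S) ρ, X.x = c ∧ ∃ pj : X.D.P → R.MK.Pts, HolMap pj ∧
      (∀ p, R.q (pj p) = c (tc p)) ∧
      (∀ i p, X.u i p = (pj p : R.MK.B →ₐ[ℂ] ℂ) (u i)) ∧
      ∀ g : ℂ → R.MK.Pts, ContinuousOn g (ball 0 ρ) → (∀ l : ℂ, ‖l‖ < ρ → R.q (g l) = c l) →
        DifferentiableOn ℂ (fun l => (cp (g l) : Fin (m + r) → ℂ)) (ball 0 ρ) →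
        ∃ σ : Sec X.D, ∀ l : ℂ, ‖l‖ < ρ → pj (σ.x l) = g l

variable {S : SatFam R N u}

/-- `B` is log-psh on `MK` -/
theorem lpsh_BK (h : Slc S) :
    LPsh (fun y : R.MK.Pts => (lnF S).B (R.q y) (fun i => (y : R.MK.B →ₐ[ℂ] ℂ) (u i))) := by
  have hN := LNf_333.two_le S
  have hcont : ∀ b : R.MK.B, Continuous fun y : R.MK.Pts => (y : R.MK.B →ₐ[ℂ] ℂ) b := fun b =>
    T7a297.Hol.continuous (Mod1_987.Mdl.hol51_ev R.MK b)
  refine lpsh_B hN S.s_pos (f := R.q) (u := fun i y => (y : R.MK.B →ₐ[ℂ] ℂ) (u i))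
    R.continuous_q (fun i => hcont (u i)) ?_
  intro e he z v ρ hρ hdisc ρ' hρ' hρρ
  set g : ℂ → R.MK.Pts := fun l => e.symm (z + l • v) with hg
  have hgc : ContinuousOn g (ball 0 ρ) := by
    refine e.continuousOn_symm.comp (by fun_prop) fun t ht => hdisc t ?_
    rwa [mem_ball_zero_iff] at ht
  have hgcp : ∀ l : ℂ, ‖l‖ < ρ → (cp (g l) : Fin (m + r) → ℂ) = z + l • v := fun l hl =>
    he.cp_symm (hdisc l hl)
  have hcc : ContinuousOn (fun l => R.q (g l)) (ball 0 ρ) := R.continuous_q.comp_continuousOn hgc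
  have hsub : ball (0 : ℂ) ρ' ⊆ ball 0 ρ := ball_subset_ball hρρ.le
  obtain ⟨X, hX, pj, hpj, hq, hu, hsec⟩ := h (fun l => R.q (g l))
    (fun i => z (Fin.castAdd r i)) (fun i => v (Fin.castAdd r i)) ρ' hρ' (hcc.mono hsub)
    (fun l hl => by
      funext i
      have h1 := R.pz_q (g l) i
      have h2 := congrFun (hgcp l (hl.trans hρρ)) (Fin.castAdd r i)
      exact h1.trans h2)
  obtain ⟨σ, hσ⟩ := hsec g (hgc.mono hsub) (fun l _ => rfl) (by
    have h1 : DifferentiableOn ℂ (fun l : ℂ => z + l • v) (ball 0 ρ') := by fun_prop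
    refine h1.congr fun l hl => hgcp l ?_
    rw [mem_ball_zero_iff] at hl
    exact hl.trans hρρ)
  obtain ⟨C, hC⟩ := LNx_333.bdF S hcc hρρ
  refine ⟨X, σ, C, ?_, ?_, ?_⟩
  · intro t ht i
    rw [hX]
    exact hC t ht i
  · intro t _
    rw [hX]
  · intro t ht i
    rw [hu, hσ t ht]

theorem pvh (h : Slc S) : LNz_333.PVH S := by
  intro x v ρ hρ hD
  have hN := LNf_333.two_le S
  obtain ⟨X, hX, pj, hpj, hq, hu, -⟩ := h (Liou_739.ln x v) (cp x) v ρ (by linarith)
    (LNg_999.dk_cont hD.dk) (fun l hl => (isCh_ch x).cp_symm (hD l (by rwa [mem_ball_zero_iff])))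
  have hB : LPsh (fun p : X.D.P => (lnF S).B (X.x (tc p)) (fun i => X.u i p)) := by
    have h1 := EngU_29.LPsh.comp_hol hpj (lpsh_BK h)
    have h2 : (fun p : X.D.P => (lnF S).B (X.x (tc p)) (fun i => X.u i p)) =
        fun p => (lnF S).B (R.q (pj p)) (fun i => (pj p : R.MK.B →ₐ[ℂ] ℂ) (u i)) := by
      funext p
      rw [hq p, hX]
      congr 1
      funext i
      exact hu i p
    rw [h2]
    exact h1
  have h3 := (X.metH hN S.s_pos hB).pv hρ.le
  rw [X.metH_G, hX] at h3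
  exact h3

theorem pvg (h : Slc S) : LNz_333.PVG S := by
  intro x v ρ hρ hD k w hw hsp
  have hN := LNf_333.two_le S
  obtain ⟨X, hX, -⟩ := h (Liou_739.ln x v) (cp x) v ρ (by linarith)
    (LNg_999.dk_cont hD.dk) (fun l hl => (isCh_ch x).cp_symm (hD l (by rwa [mem_ball_zero_iff])))
  have h3 : Fdc_999.PV (fun t => (lnF S).G (X.x t) (w t)) :=
    (X.metG hN w hw (fun t ht => hsp t (by rwa [mem_ball_zero_iff]))).pv hρ.le
  rw [hX] at h3
  exact h3

end Crest.Agent.R276.PV_159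
end
end

-- ▼ part R276/PVw_159
section

/-!
# Row 276, part D1 (helper159): slices of relative models; PVH and PVG
-/

set_option autoImplicit false
set_option linter.unusedSectionVars false

noncomputable section

open Set Filter Topology Complex MeasureTheory Metric
open scoped ENNReal ComplexConjugate Matrix ComplexOrder

namespace Crest.Agent.R276.PV_159

open Crest.Agent.R271 Crest.Agent.R271.Ho51
open Crest.Agent.R276
open Crest.Agent.R276.EngU_29 (LPsh)
open Crest.Agent.R276.LN_999 (LN)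
open Crest.Agent.R276.PshB_29 (HolMap)
open Crest.Agent.R276.FlatDefs_236 (SatFam)
open Crest.Agent.R276.LNf_333 (lnF)
open Crest.Agent.R276.Mod1_987
open Crest.Agent.R276.Sl_748 (bt fx gl)
open Crest.Agent.R276.Rs_185 (Prj Lft HF rsl)

variable {L K : Type} [Field L] [Field K] [Algebra ℂ L] [Algebra ℂ K] [Algebra L K]
  [IsScalarTower ℂ L K] {m r : ℕ} {R : RMdl L K m r} {N s : ℕ} {u : Fin s → R.MK.B}

/-- the splitting of the coordinates -/
def spR (m r : ℕ) : Fin m ⊕ Fin r ≃ Fin (m + r) := finSumFinEquiv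

variable (R) in
lemma fx_R (y : R.MK.Pts) : fx (spR m r) (cp y) = R.x y := by
  funext j
  show (cp y : Fin (m + r) → ℂ) (finSumFinEquiv (Sum.inr j)) = _
  rw [finSumFinEquiv_apply_right]
  rfl

variable (R) in
/-- `MK → ML` is a projection of Riemann domains -/
lemma prj : Prj (spR m r) R.q where
  cont := R.continuous_q
  cp_eq y := by
    funext i
    show R.ML.pz (R.q y) i = (cp y : Fin (m + r) → ℂ) (finSumFinEquiv (Sum.inl i))
    rw [finSumFinEquiv_apply_left, R.pz_q]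
    rfl

/-- holomorphic functions on the fibres of relative models -/
lemma hol_fib {w : R.ML.Pts} {G : R.MK.Pts → ℂ} (h : HF (spR m r) R.q w G) :
    Ho51.Hol (fun y : R.Fib w => G (RMdl.Fib.val R y)) := by
  refine Crest.Agent.R273.Dir73.hol_of_local fun y => ⟨ch y, isCh_ch y, mem_ch y, ?_⟩
  have h1 := h (RMdl.Fib.val R y) (RMdl.Fib.q_eq y)
  rw [fx_R] at h1
  refine h1.differentiableAt.congr_of_eventuallyEq ?_
  have hcp : (cp y : Fin r → ℂ) = R.x (RMdl.Fib.val R y) := rfl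
  have h2 : ContinuousAt (fun x : Fin r → ℂ => (RMdl.Fib.val R ((ch y).symm x : R.Fib w))) (cp y) := by
    refine (RMdl.Fib.continuous_val w).continuousAt.comp ?_
    exact (ch y).continuousAt_symm ((isCh_ch y).cp_mem (mem_ch y))
  have h3 : ∀ᶠ x in 𝓝 (cp y : Fin r → ℂ), (RMdl.Fib.val R ((ch y).symm x : R.Fib w)) ∈ (ch (RMdl.Fib.val R y)).source := by
    refine h2 ((ch (RMdl.Fib.val R y)).open_source.mem_nhds ?_)
    show (RMdl.Fib.val R ((ch y).symm (cp y) : R.Fib w)) ∈ _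
    rw [(isCh_ch y).symm_cp (mem_ch y)]
    exact mem_ch _
  have h4 : ∀ᶠ x in 𝓝 (cp y : Fin r → ℂ), x ∈ (ch y).target :=
    (ch y).open_target.mem_nhds ((isCh_ch y).cp_mem (mem_ch y))
  filter_upwards [h3, h4] with x h5 h6
  show G (RMdl.Fib.val R ((ch y).symm x : R.Fib w)) = _
  congr 1
  have h7 := (isCh_ch (RMdl.Fib.val R y)).symm_cp h5
  rw [← h7]
  congr 1
  have h8 : (cp ((ch y).symm x) : Fin r → ℂ) = x := (isCh_ch y).cp_symm h6
  have h9 := (Sl_748.gl_bt_fx (spR m r) (cp (RMdl.Fib.val R ((ch y).symm x : R.Fib w)))).symm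
  rw [h9, fx_R, ← (prj R).cp_eq, RMdl.Fib.q_eq]
  congr 1

/-- fibre integrals of the slice -/
lemma fi_fint {ρ : ℝ} {S : Sl_748.SD (m + r) R.MK.Pts} {X : Lft R.ML.Pts ρ} {l : ℂ} (hl : ‖l‖ < ρ)
    {g : (rsl S (prj R) X).P → ℝ≥0∞} {G : R.MK.Pts → ℝ≥0∞}
    (h : ∀ q, tc q = l → g q = G (Rs_185.pr q)) : fi g l = R.fint (X.c l) G := by
  rw [Rs_185.fi_rsl hl h]
  unfold RMdl.fint RMdl.fsumR
  refine lintegral_congr fun x => ?_
  let e : {y : R.MK.Pts // R.q y = X.c l ∧ fx (spR m r) (cp y) = x} ≃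
      {y : R.MK.Pts // R.q y = X.c l ∧ R.x y = x} :=
    Equiv.subtypeEquivRight fun y => by rw [fx_R]
  exact e.tsum_eq (fun y : {y : R.MK.Pts // R.q y = X.c l ∧ R.x y = x} => G y.1)

/-- **slices over lifted discs exist** -/
theorem slc (S : SatFam R N u) : Slc S := by
  intro c z0 v ρ hρ hc hcc
  have hN := LNf_333.two_le S
  have hN0 : 0 < N := by omega
  have h0ρ : ‖(0 : ℂ)‖ < ρ := by rwa [norm_zero]
  set X : Lft R.ML.Pts ρ := ⟨c, z0, v, hc, hcc⟩ with hX
  set SD := StU_748.stU R.MK u N hN0 with hSD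
  have hev : ∀ i, Ho51.Hol (M := R.MK.Pts) (fun y => (y : R.MK.B →ₐ[ℂ] ℂ) (u i)) := fun i =>
    Mdl.hol51_ev R.MK (u i)
  let Y : Dsc (lnF S) ρ :=
    { D := rsl SD (prj R) X
      x := c
      xc := hc
      u := fun i q => (Rs_185.pr q : R.MK.B →ₐ[ℂ] ℂ) (u i)
      hol := fun i => Rs_185.hol_pr (hev i)
      wt := fun q => by
        rw [Rs_185.rsl_wt]
        exact StU_748.stU_wt R.MK u N hN0 (Rs_185.pr q)
      ind := fun t ht a ha => by
        refine LNx_333.indF S (c t) a fun y hy => ?_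
        have h1 := ha (Rs_185.mk y t ht hy) rfl
        exact h1
      clos := fun t ht g hg hfin => by
        have h1 : HF (spR m r) R.q (c t) (Rs_185.low g t) := Rs_185.FHol.low ht hg
        have h2 := hol_fib h1
        have h3 : (rsl SD (prj R) X).nrm g t = R.fint (c t) (fun y =>
            ENNReal.ofReal (‖Rs_185.low g t y‖ ^ 2) *
            (ENNReal.ofReal ((∑ i, ‖(y : R.MK.B →ₐ[ℂ] ℂ) (u i)‖ ^ 2) ^ (1 - 1 / (N : ℝ))))⁻¹) := by
          unfold Dom.nrm
          refine fi_fint ht fun q hq => ?_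
          unfold Dom.dens
          rw [Rs_185.low_pr g hq, Rs_185.rsl_wt]
          congr 1
          exact StU_748.stU_wt R.MK u N hN0 (Rs_185.pr q)
        rw [h3] at hfin
        obtain ⟨a, ha⟩ := LNx_333.closF S (c t) (Rs_185.low g t) h2 hfin
        refine ⟨a, fun q hq => ?_⟩
        rw [← Rs_185.low_pr g hq]
        refine ha (Rs_185.pr q) ?_
        rw [Rs_185.f_pr q, hq]
      lk := fun t ht h hh => by
        rw [LNx_333.lkF S (c t) h hh]
        exact (fi_fint (R := R) (S := SD) (X := X) ht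
          (g := fun q => h (fun i => (Rs_185.pr q : R.MK.B →ₐ[ℂ] ℂ) (u i)))
          (G := fun y => h (fun i => (y : R.MK.B →ₐ[ℂ] ℂ) (u i))) fun q _ => rfl).symm }
  refine ⟨Y, rfl, Rs_185.pr, Rs_185.holMap_pr, fun p => Rs_185.f_pr p, fun i p => rfl, ?_⟩
  intro g hgc hgq hgd
  classical
  set σ : ℂ → (rsl SD (prj R) X).P := fun l =>
    if hl : ‖l‖ < ρ then Rs_185.mk (g l) l hl (hgq l hl) else Rs_185.mk (g 0) 0 h0ρ (hgq 0 h0ρ)
    with hσ
  have hpr : ∀ l, ‖l‖ < ρ → Rs_185.pr (σ l) = g l := by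
    intro l hl
    simp only [hσ, dif_pos hl]
    rfl
  have htc : ∀ l, ‖l‖ < ρ → tc (σ l) = l := by
    intro l hl
    simp only [hσ, dif_pos hl]
    rfl
  refine ⟨{ x := σ, cont := ?_, hol := ?_, sec := ?_ }, fun l hl => hpr l hl⟩
  · rw [Rs_185.continuousOn_iff]
    exact ⟨hgc.congr fun l hl => hpr l (by rwa [mem_ball_zero_iff] at hl),
      continuousOn_id.congr fun l hl => htc l (by rwa [mem_ball_zero_iff] at hl)⟩
  · have h1 : DifferentiableOn ℂ (fun l : ℂ => (Fin.cons l (fx (spR m r) (cp (g l))) :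
        Fin (r + 1) → ℂ)) (ball 0 ρ) := by
      rw [differentiableOn_pi]
      intro i
      refine Fin.cases ?_ (fun j => ?_) i
      · exact differentiableOn_id
      · exact (differentiableOn_pi.1 hgd) _
    refine h1.congr fun l hl => ?_
    rw [mem_ball_zero_iff] at hl
    show (cp (σ l) : Fin (r + 1) → ℂ) = _
    rw [Rs_185.cp_eq, htc l hl, hpr l hl]
  · intro l hl
    rw [mem_ball_zero_iff] at hl
    exact htc l hl

/-- **PVH** -/
theorem pvH (S : SatFam R N u) : LNz_333.PVH S := pvh (slc S)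

/-- **PVG** -/
theorem pvG (S : SatFam R N u) : LNz_333.PVG S := pvg (slc S)

end Crest.Agent.R276.PV_159
end
end

-- ▼ part R276/LFlatZ_793

/-!
# Row 276 (S0419), helper793: `Skel_220.LFlat`, unconditionally
-/

set_option autoImplicit false

namespace Crest.Agent.R276.LFlat_793

open Crest.Agent.R276.FlatTop_793

/-- (PV), by helper159 -/
theorem pvAll : PVAll := fun _ _ _ _ S => ⟨PV_159.pvH S, PV_159.pvG S⟩

/-- **LEMMA N** -/
theorem lemN : LemN := lemN_of pvAll

/-- **`Skel_220.LFlat`** -/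
theorem lflat : Skel_220.LFlat := lflat_of lemN

end Crest.Agent.R276.LFlat_793
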