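import Crest.Agent.R271.H1_51
import Crest.Agent.R276.AB2_590
import Crest.Agent.R271.RExt2_747
import Crest.Agent.R271.Null_821

-- ▼ part R271/H3b_868
section

/-!
Row 271, sub-team H: Lebesgue measure on a Riemann domain, smooth partition of unity (helper868).
-/

set_option autoImplicit false
set_option linter.unusedSectionVars false

noncomputable section

open Set Filter Topology MeasureTheory

namespace Crest.Agent.R271.H868

open Crest.Agent.R271.Ho51

variable {n : ℕ} {M : Type*} [TopologicalSpace M] [RDom n M]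

section measure

variable [MeasurableSpace M] [BorelSpace M]

/-- the measure on `M` given by one chart -/
def nu (e : OpenPartialHomeomorph M (Fin n → ℂ)) : Measure M :=
  (volume.restrict e.target).map e.symm

/-- `μ` is the pull back of Lebesgue measure -/
def IsLeb (μ : Measure M) : Prop :=
  ∀ e : OpenPartialHomeomorph M (Fin n → ℂ), IsCh e →
    μ.restrict e.source = (volume.restrict e.target).map e.symm

lemma aem_symm (e : OpenPartialHomeomorph M (Fin n → ℂ)) :
    AEMeasurable e.symm (volume.restrict e.target) :=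
  e.continuousOn_symm.aemeasurable e.open_target.measurableSet

lemma nu_apply (e : OpenPartialHomeomorph M (Fin n → ℂ)) {S : Set M} (hS : MeasurableSet S) :
    nu e S = volume (e.target ∩ e.symm ⁻¹' S) := by
  have hm : NullMeasurableSet (e.symm ⁻¹' S) (volume.restrict e.target) :=
    (aem_symm e).nullMeasurable hS
  rw [nu, Measure.map_apply_of_aemeasurable (aem_symm e) hS,
    Measure.restrict_apply₀ hm, inter_comm]

lemma nu_apply' {e : OpenPartialHomeomorph M (Fin n → ℂ)} (he : IsCh e) {S : Set M}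
    (hS : MeasurableSet S) (hSe : S ⊆ e.source) : nu e S = volume (cp '' S) := by
  rw [nu_apply e hS]
  congr 1
  ext z
  constructor
  · rintro ⟨hz, hz'⟩
    exact ⟨e.symm z, hz', he.cp_symm hz⟩
  · rintro ⟨y, hy, rfl⟩
    refine ⟨he.cp_mem (hSe hy), ?_⟩
    simpa [he.symm_cp (hSe hy)] using hy

lemma nu_inter_source (e : OpenPartialHomeomorph M (Fin n → ℂ)) {S : Set M}
    (hS : MeasurableSet S) : nu e (S ∩ e.source) = nu e S := by
  rw [nu_apply e hS, nu_apply e (hS.inter e.open_source.measurableSet)]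
  congr 1
  ext z
  constructor
  · rintro ⟨hz, hz'⟩
    exact ⟨hz, hz'.1⟩
  · rintro ⟨hz, hz'⟩
    exact ⟨hz, hz', e.map_target hz⟩

theorem exists_leb [SecondCountableTopology M] : ∃ μ : Measure M, IsLeb μ := by
  classical
  rcases isEmpty_or_nonempty M with hM | hM
  · exact ⟨0, fun e _ => Measure.ext fun s _ => by
      have : s = ∅ := Subsingleton.elim _ _
      simp [this]⟩
  obtain ⟨s, hsc, hs⟩ := TopologicalSpace.countable_cover_nhds
    (f := fun x : M => (ch x).source) (fun x => (ch x).open_source.mem_nhds (mem_ch x))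
  have hne : s.Nonempty := by
    rcases s.eq_empty_or_nonempty with h | h
    · exfalso
      have : (Set.univ : Set M) = ∅ := by rw [← hs, h]; simp
      exact (Set.univ_nonempty (α := M)).ne_empty this
    · exact h
  obtain ⟨c, hc⟩ := hsc.exists_eq_range hne
  set U : ℕ → Set M := fun k => (ch (c k)).source with hU
  have hUm : ∀ k, MeasurableSet (U k) := fun k => (ch (c k)).open_source.measurableSet
  have hUu : ⋃ k, U k = univ := by
    rw [← hs, hc]
    simp [hU]
  set A := disjointed U with hA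
  have hAm : ∀ k, MeasurableSet (A k) := MeasurableSet.disjointed hUm
  have hAd : Pairwise (Function.onFun Disjoint A) := disjoint_disjointed U
  have hAu : ⋃ k, A k = univ := by rw [hA, iUnion_disjointed, hUu]
  refine ⟨Measure.sum fun k => (nu (ch (c k))).restrict (A k), fun e he => ?_⟩
  refine Measure.ext fun S hS => ?_
  have hSe := hS.inter e.open_source.measurableSet
  rw [Measure.restrict_apply hS, Measure.sum_apply _ hSe]
  have h1 : ∀ k, (nu (ch (c k))).restrict (A k) (S ∩ e.source) = nu e ((S ∩ e.source) ∩ A k) := by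
    intro k
    rw [Measure.restrict_apply hSe,
      nu_apply' (isCh_ch (c k)) (hSe.inter (hAm k))
        (fun y hy => disjointed_subset U k hy.2),
      nu_apply' he (hSe.inter (hAm k)) (fun y hy => hy.1.2)]
  simp_rw [h1]
  rw [← measure_iUnion]
  · rw [← inter_iUnion, hAu, inter_univ, nu_inter_source e hS]
    rfl
  · intro i j hij
    exact (hAd hij).mono inter_subset_right inter_subset_right
  · exact fun k => hSe.inter (hAm k)

variable {μ : Measure M}

lemma IsLeb.apply (hμ : IsLeb μ) {e : OpenPartialHomeomorph M (Fin n → ℂ)} (he : IsCh e)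
    {S : Set M} (hS : MeasurableSet S) (hSe : S ⊆ e.source) : μ S = volume (cp '' S) := by
  have h1 := congrArg (fun ν : Measure M => ν S) (hμ e he)
  simp only [Measure.restrict_apply hS, inter_eq_self_of_subset_left hSe] at h1
  rw [h1]
  exact nu_apply' he hS hSe

theorem IsLeb.unique [SecondCountableTopology M] {μ' : Measure M} (hμ : IsLeb μ)
    (hμ' : IsLeb μ') : μ = μ' := by
  obtain ⟨s, hsc, hs⟩ := TopologicalSpace.countable_cover_nhds
    (f := fun x : M => (ch x).source) (fun x => (ch x).open_source.mem_nhds (mem_ch x))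
  refine Measure.ext_of_biUnion_eq_univ hsc hs (fun x _ => ?_)
  rw [hμ _ (isCh_ch x), hμ' _ (isCh_ch x)]

/-- Lebesgue measure on `M` is locally finite -/
theorem IsLeb.locallyFinite (hμ : IsLeb μ) : IsLocallyFiniteMeasure μ := by
  constructor
  intro x
  have hxt : cp x ∈ (ch x).target := (isCh_ch x).cp_mem (mem_ch x)
  obtain ⟨r, hr, hrt⟩ := Metric.isOpen_iff.1 (ch x).open_target _ hxt
  set W : Set M := (ch x).source ∩ cp ⁻¹' (Metric.ball (cp x) r) with hW
  have hWo : IsOpen W := (ch x).open_source.inter (Metric.isOpen_ball.preimage cp_cont)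
  refine ⟨W, hWo.mem_nhds ⟨mem_ch x, Metric.mem_ball_self hr⟩, ?_⟩
  rw [hμ.apply (isCh_ch x) hWo.measurableSet inter_subset_left]
  refine (measure_mono (t := Metric.ball (cp x) r) ?_).trans_lt measure_ball_lt_top
  rintro _ ⟨y, hy, rfl⟩
  exact hy.2

end measure

section pou


variable [T2Space M]



end pou

end Crest.Agent.R271.H868
end
namespace Crest.Agent.R271.H868.Sm
end Crest.Agent.R271.H868.Sm
end

-- ▼ part R276/RestrA_236

/-!
# Row 276 (S0419), leaf RESTR (helper236), part A: Riemann domains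

* `not_ev_zero` : identity theorem; `ae_ne` : zero sets of holomorphic functions are null;
* `lint_emb` : integrals under embeddings which keep the coordinates;
* `ext_sq` : holomorphic functions off `{D = 0}` which are locally `L²` extend;
* `RMap` : open embeddings `j : F' → F` of Riemann domains with complement in a zero set:
  `RMap.lint`, `RMap.mp` (measure preserving), `RMap.ext` (extension of `L²_loc` functions).
-/

set_option autoImplicit false
set_option linter.unusedSectionVars false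

open Set Filter Topology MeasureTheory
open scoped ENNReal

noncomputable section

namespace Crest.Agent.R276.Restr_236

open Crest.Agent.R271 Crest.Agent.R271.Ho51 Crest.Agent.R276.AB2_590

section one

variable {n : ℕ} {M : Type*} [TopologicalSpace M] [RDom n M]

lemma HolA.cont {D : M → ℂ} (hD : HolA D) : Continuous D := by
  rw [continuous_iff_continuousAt]
  intro x
  have h1 : ContinuousAt (D ∘ (ch x).symm) (cp x) := (hD x).continuousAt
  have h2 : ContinuousAt (fun y => (D ∘ (ch x).symm) (cp y)) x :=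
    ContinuousAt.comp (f := (cp : M → (Fin n → ℂ))) h1 cp_cont.continuousAt
  refine h2.congr ?_
  filter_upwards [(ch x).open_source.mem_nhds (mem_ch x)] with y hy
  simp [(isCh_ch x).symm_cp hy]

/-- identity theorem -/
theorem freq_ne [PreconnectedSpace M] {D : M → ℂ} (hD : HolA D) (hne : ∃ y, D y ≠ 0) (x : M) :
    ∃ᶠ y in 𝓝 x, D y ≠ 0 := by
  by_contra hcon
  have hx : ∀ᶠ y in 𝓝 x, D y = 0 := by
    rw [Filter.not_frequently] at hcon
    simpa using hcon
  clear hcon
  obtain ⟨y₀, hy₀⟩ := hne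
  set S : Set M := {y | ∀ᶠ x in 𝓝 y, D x = 0} with hS
  have hSo : IsOpen S := isOpen_setOfPred_eventually_nhds
  have hSc : IsClosed S := by
    rw [← closure_subset_iff_isClosed]
    intro y hy
    set e := ch y with he_def
    have he : IsCh e := isCh_ch y
    have hye : y ∈ e.source := mem_ch y
    obtain ⟨ρ, hρ, hball⟩ := Metric.isOpen_iff.1 e.open_target _ (he.cp_mem hye)
    have hW : IsOpen (e.source ∩ cp ⁻¹' (Metric.ball (cp y) ρ)) :=
      e.open_source.inter (Metric.isOpen_ball.preimage cp_cont)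
    obtain ⟨y1, ⟨hy1e, hy1b⟩, hy1S⟩ := mem_closure_iff.1 hy _ hW ⟨hye, Metric.mem_ball_self hρ⟩
    have hA : AnalyticOnNhd ℂ (D ∘ e.symm) (Metric.ball (cp y) ρ) :=
      fun w hw => comp_symm_analyticAt hD he (hball hw)
    have h1 : ∀ᶠ z in 𝓝 (cp y1 : Fin n → ℂ), (D ∘ e.symm) z = 0 := by
      have h2 : ContinuousAt e.symm (cp y1) := e.symm.continuousAt (by simpa using he.cp_mem hy1e)
      have h3 := h2.tendsto
      rw [he.symm_cp hy1e] at h3
      exact h3.eventually hy1S
    have h4 := hA.eqOn_zero_of_preconnected_of_eventuallyEq_zero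
      (convex_ball _ _).isPreconnected hy1b h1
    have h5 : ∀ᶠ x in 𝓝 y, x ∈ e.source ∩ cp ⁻¹' (Metric.ball (cp y) ρ) :=
      hW.mem_nhds ⟨hye, Metric.mem_ball_self hρ⟩
    filter_upwards [h5] with x hx
    have h6 := h4 hx.2
    simpa [he.symm_cp hx.1] using h6
  have hu : S = univ := IsClopen.eq_univ ⟨hSc, hSo⟩ ⟨x, hx⟩
  have : y₀ ∈ S := by rw [hu]; exact mem_univ _
  have h8 : ∀ᶠ x in 𝓝 y₀, D x = 0 := this
  exact hy₀ h8.self_of_nhds

/-- germs in a chart -/
lemma freq_chart {D : M → ℂ} {x : M} (h : ∃ᶠ y in 𝓝 x, D y ≠ 0)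
    {e : OpenPartialHomeomorph M (Fin n → ℂ)} (he : IsCh e) (hx : x ∈ e.source) :
    ∃ᶠ z in 𝓝 (cp x : Fin n → ℂ), (D ∘ e.symm) z ≠ 0 := by
  have h2 : Tendsto (cp : M → (Fin n → ℂ)) (𝓝 x) (𝓝 (cp x)) := cp_cont.continuousAt
  refine h2.frequently ?_
  refine (h.and_eventually (e.open_source.mem_nhds hx)).mono fun y hy => ?_
  simpa [he.symm_cp hy.2] using hy.1

variable [MeasurableSpace M] [BorelSpace M]

/-- zero sets of holomorphic functions are null -/
theorem ae_ne [SecondCountableTopology M] {μ : Measure M} (hμ : IsLeb μ) {D : M → ℂ} (hD : HolA D)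
    (hne : ∀ x, ∃ᶠ y in 𝓝 x, D y ≠ 0) : ∀ᵐ y ∂μ, D y ≠ 0 := by
  rw [ae_iff]
  have hDc : Continuous D := HolA.cont hD
  have hZc : MeasurableSet {y : M | ¬ D y ≠ 0} := by
    have : {y : M | ¬ D y ≠ 0} = D ⁻¹' {0} := by ext y; simp
    rw [this]
    exact (isClosed_singleton.preimage hDc).measurableSet
  refine measure_null_of_locally_null _ fun x _ => ?_
  have he := isCh_ch x
  have hx := mem_ch x
  have hA : AnalyticAt ℂ (D ∘ (ch x).symm) (cp x) := hD x
  have hfr := freq_chart (hne x) he hx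
  obtain ⟨ρ, hρ, hae⟩ := Local821.eventually_null_zero (volume : Measure (Fin n → ℂ)) hA hfr
  set W : Set M := (ch x).source ∩ cp ⁻¹' (Metric.ball (cp x) ρ) with hW
  have hWo : IsOpen W := (ch x).open_source.inter (Metric.isOpen_ball.preimage cp_cont)
  refine ⟨{y : M | ¬ D y ≠ 0} ∩ W, inter_mem self_mem_nhdsWithin
    (mem_nhdsWithin_of_mem_nhds (hWo.mem_nhds ⟨hx, Metric.mem_ball_self hρ⟩)), ?_⟩
  rw [H868.IsLeb.apply (μ := μ) hμ he (hZc.inter hWo.measurableSet)
    (inter_subset_right.trans inter_subset_left)]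
  rw [ae_restrict_iff' Metric.isOpen_ball.measurableSet, ae_iff] at hae
  refine measure_mono_null ?_ hae
  rintro _ ⟨y, ⟨hy0, hyW⟩, rfl⟩
  simp only [mem_ofPred_eq, Classical.not_imp, not_not]
  refine ⟨hyW.2, ?_⟩
  simp only [Function.comp_apply, he.symm_cp hyW.1]
  simpa using hy0

/-- locally square integrable in the chart -/
lemma sq_chart {μ : Measure M} (hμ : IsLeb μ) {f : M → ℂ} (hfm : Measurable f)
    {e : OpenPartialHomeomorph M (Fin n → ℂ)} (he : IsCh e) {x : M} (hx : x ∈ e.source)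
    (hL : ∃ W ∈ 𝓝 x, ∫⁻ y in W, ‖f y‖ₑ ^ 2 ∂μ < ⊤) :
    ∃ W ∈ 𝓝 (cp x : Fin n → ℂ), ∫⁻ z in W, ‖(f ∘ e.symm) z‖ₑ ^ 2 < ⊤ := by
  obtain ⟨W, hW, hWL⟩ := hL
  obtain ⟨W', hW'W, hW'o, hxW'⟩ := _root_.mem_nhds_iff.1 hW
  have hO : IsOpen (e.target ∩ e.symm ⁻¹' W') := e.symm.isOpen_inter_preimage hW'o
  refine ⟨e.target ∩ e.symm ⁻¹' W', hO.mem_nhds ⟨he.cp_mem hx, ?_⟩, ?_⟩
  · rw [mem_preimage, he.symm_cp hx]
    exact hxW'
  · have hm : Measurable (W'.indicator fun y => ‖f y‖ₑ ^ 2) :=
      (hfm.enorm.pow_const 2).indicator hW'o.measurableSet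
    have h1 := lintegral_chart hμ he (f := W'.indicator fun y => ‖f y‖ₑ ^ 2) hm.aemeasurable
    calc ∫⁻ z in e.target ∩ e.symm ⁻¹' W', ‖(f ∘ e.symm) z‖ₑ ^ 2
        = ∫⁻ z in e.target ∩ e.symm ⁻¹' W', (W'.indicator fun y => ‖f y‖ₑ ^ 2) (e.symm z) := by
          refine setLIntegral_congr_fun hO.measurableSet fun z hz => ?_
          have hz2 : e.symm z ∈ W' := hz.2
          simp only [indicator_of_mem hz2, Function.comp_apply]
      _ ≤ ∫⁻ z in e.target, (W'.indicator fun y => ‖f y‖ₑ ^ 2) (e.symm z) :=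
          lintegral_mono_set inter_subset_left
      _ = ∫⁻ y in e.source, (W'.indicator fun y => ‖f y‖ₑ ^ 2) y ∂μ := h1.symm
      _ ≤ ∫⁻ y, (W'.indicator fun y => ‖f y‖ₑ ^ 2) y ∂μ := setLIntegral_le_lintegral _ _
      _ = ∫⁻ y in W', ‖f y‖ₑ ^ 2 ∂μ := lintegral_indicator hW'o.measurableSet _
      _ ≤ ∫⁻ y in W, ‖f y‖ₑ ^ 2 ∂μ := lintegral_mono_set hW'W
      _ < ⊤ := hWL

/-- **`L²` Riemann extension on Riemann domains** -/
theorem ext_sq {μ : Measure M} (hμ : IsLeb μ) {D : M → ℂ} (hD : HolA D)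
    (hne : ∀ x, ∃ᶠ y in 𝓝 x, D y ≠ 0) {f : M → ℂ} (hfm : Measurable f)
    (hf : ∀ x, D x ≠ 0 → AnalyticAt ℂ (f ∘ (ch x).symm) (cp x))
    (hL : ∀ x, ∃ W ∈ 𝓝 x, ∫⁻ y in W, ‖f y‖ₑ ^ 2 ∂μ < ⊤) :
    ∃ g : M → ℂ, HolA g ∧ ∀ y, D y ≠ 0 → g y = f y := by
  have hDc : Continuous D := HolA.cont hD
  set N : Set M := {y | D y ≠ 0} with hN
  have hNB : ∀ x : M, (𝓝[N] x).NeBot := by
    intro x
    rw [← mem_closure_iff_nhdsWithin_neBot, mem_closure_iff_frequently]
    exact hne x
  -- extension in the chart `ch x`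
  have hloc : ∀ x : M, ∃ g : (Fin n → ℂ) → ℂ, DifferentiableOn ℂ g (ch x).target ∧
      ∀ z ∈ (ch x).target, (D ∘ (ch x).symm) z ≠ 0 → g z = (f ∘ (ch x).symm) z := by
    intro x
    have he := isCh_ch x
    refine RExt747.riemann_ext (ch x).open_target (D := D ∘ (ch x).symm)
      (f := f ∘ (ch x).symm) ?_ ?_ ?_ ?_
    · exact fun z hz => comp_symm_analyticAt hD he hz
    · intro a ha
      have h1 := freq_chart (hne ((ch x).symm a)) he ((ch x).map_target ha)
      rw [he.cp_symm ha] at h1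
      rw [Filter.not_eventually]
      exact h1
    · intro z hz
      have hz1 : z ∈ (ch x).target := hz.1
      have hx' : (ch x).symm z ∈ (ch x).source := (ch x).map_target hz1
      have h1 := hf ((ch x).symm z) hz.2
      rw [he.cp_symm hz1] at h1
      have h2 := comp_germ he (isCh_ch ((ch x).symm z)) hx' (mem_ch _) f
      rw [he.cp_symm hz1] at h2
      exact (h1.congr h2.symm).differentiableAt.differentiableWithinAt
    · intro a ha
      have hx' : (ch x).symm a ∈ (ch x).source := (ch x).map_target ha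
      obtain ⟨W, hW, hWL⟩ := sq_chart hμ hfm he hx' (hL _)
      rw [he.cp_symm ha] at hW
      exact ⟨W, hW, (lintegral_mono_set inter_subset_left).trans_lt hWL⟩
  -- the limit
  have hlim : ∀ x : M, ∀ y ∈ (ch x).source, ∀ g : (Fin n → ℂ) → ℂ,
      DifferentiableOn ℂ g (ch x).target →
      (∀ z ∈ (ch x).target, (D ∘ (ch x).symm) z ≠ 0 → g z = (f ∘ (ch x).symm) z) →
      limUnder (𝓝[N] y) f = g (cp y) := by
    intro x y hy g hg hgf
    have := hNB y
    have he := isCh_ch x
    have h1 : ContinuousAt g (cp y) :=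
      (hg.differentiableAt ((ch x).open_target.mem_nhds (he.cp_mem hy))).continuousAt
    have h2 : Tendsto (fun y => g (cp y)) (𝓝[N] y) (𝓝 (g (cp y))) :=
      (ContinuousAt.comp (f := (cp : M → (Fin n → ℂ))) h1 cp_cont.continuousAt).tendsto.mono_left
        nhdsWithin_le_nhds
    refine (h2.congr' ?_).limUnder_eq
    filter_upwards [nhdsWithin_le_nhds ((ch x).open_source.mem_nhds hy), self_mem_nhdsWithin]
      with w hw hw'
    have hw2 : D w ≠ 0 := hw'
    have h3 := hgf (cp w) (he.cp_mem hw) (by simpa [he.symm_cp hw] using hw2)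
    rw [h3]
    simp [he.symm_cp hw]
  refine ⟨fun y => limUnder (𝓝[N] y) f, ?_, ?_⟩
  · intro x
    have he := isCh_ch x
    obtain ⟨g, hg, hgf⟩ := hloc x
    have h1 : AnalyticOnNhd ℂ g (ch x).target :=
      R266.SCV.analyticOnNhd_of_differentiableOn (ch x).open_target hg
    refine (h1 _ (he.cp_mem (mem_ch x))).congr ?_
    filter_upwards [(ch x).open_target.mem_nhds (he.cp_mem (mem_ch x))] with z hz
    simp only [Function.comp_apply]
    rw [hlim x _ ((ch x).map_target hz) g hg hgf, he.cp_symm hz]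
  · intro y hy
    obtain ⟨g, hg, hgf⟩ := hloc y
    have he := isCh_ch y
    show limUnder (𝓝[N] y) f = f y
    rw [hlim y y (mem_ch y) g hg hgf]
    have h3 := hgf (cp y) (he.cp_mem (mem_ch y)) (by simpa [he.symm_cp (mem_ch y)] using hy)
    rw [h3]
    simp [he.symm_cp (mem_ch y)]

end one

/-! ### embeddings -/

section emb

variable {n : ℕ} {M F : Type*} [TopologicalSpace M] [RDom n M] [TopologicalSpace F] [RDom n F]

/-- open embeddings of Riemann domains which keep the coordinates, with complement in the zero set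
of a holomorphic function which is nowhere locally zero -/
structure REmb (j : F → M) : Prop where
  cont : Continuous j
  inj : Function.Injective j
  cpj : ∀ y, cp (j y) = cp y
  dns : ∃ D : M → ℂ, HolA D ∧ (∀ x, ∃ᶠ y in 𝓝 x, D y ≠ 0) ∧ ∀ x, D x ≠ 0 → x ∈ range j

variable {j : F → M}

/-- homeomorphisms -/
lemma REmb.of_homeo (e : F ≃ₜ M) (h : ∀ y, cp (e y) = cp y) : REmb (e : F → M) where
  cont := e.continuous
  inj := e.injective
  cpj := h
  dns := ⟨fun _ => 1, fun _ => analyticAt_const, fun x => by simp [Filter.frequently_true_iff_neBot],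
    fun x _ => e.surjective x⟩

lemma REmb.lh (h : REmb j) : IsLocalHomeomorph j := by
  refine IsLocalHomeomorph.of_comp (g := (cp : M → (Fin n → ℂ))) ?_ cp_lh h.cont
  have h1 : (cp : M → (Fin n → ℂ)) ∘ j = cp := funext h.cpj
  rw [h1]
  exact cp_lh

lemma REmb.oe (h : REmb j) : IsOpenEmbedding j := h.lh.isOpenEmbedding_of_injective h.inj

/-- germs -/
lemma REmb.germ (h : REmb j) {e : OpenPartialHomeomorph M (Fin n → ℂ)} (he : IsCh e)
    {d : OpenPartialHomeomorph F (Fin n → ℂ)} (hd : IsCh d) {y : F} (hy : y ∈ d.source)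
    (hj : j y ∈ e.source) : ∀ᶠ z in 𝓝 (cp y : Fin n → ℂ), j (d.symm z) = e.symm z := by
  have h1 : ContinuousAt (j ∘ d.symm) (cp y) := by
    refine ContinuousAt.comp h.cont.continuousAt ?_
    exact d.symm.continuousAt (by simpa using hd.cp_mem hy)
  have h2 : ∀ᶠ z in 𝓝 (cp y), (j ∘ d.symm) z ∈ e.source := by
    apply h1.eventually_mem
    simp only [Function.comp_apply]
    rw [hd.symm_cp hy]
    exact e.open_source.mem_nhds hj
  filter_upwards [h2, d.open_target.mem_nhds (hd.cp_mem hy)] with z hz1 hz2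
  simp only [Function.comp_apply] at hz1
  have h4 := he.symm_cp hz1
  rw [h.cpj, hd.cp_symm hz2] at h4
  exact h4.symm

lemma REmb.comp_iff (h : REmb j) {G : Type*} (f : M → G) (y : F) :
    (fun z => f (j ((ch y).symm z))) =ᶠ[𝓝 (cp y)] (f ∘ (ch (j y)).symm) := by
  filter_upwards [h.germ (isCh_ch (j y)) (isCh_ch y) (mem_ch y) (mem_ch (j y))] with z hz
  simp only [Function.comp_apply, hz]

/-- pull back of holomorphic functions -/
lemma REmb.holA (h : REmb j) {f : M → ℂ} (hf : HolA f) : HolA (fun y => f (j y)) := by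
  intro y
  have h1 := hf (j y)
  rw [h.cpj] at h1
  exact h1.congr (h.comp_iff f y).symm

/-- `f` on `M` with `f ∘ j = g` holomorphic is holomorphic at the points of the range -/
lemma REmb.anal (h : REmb j) {f : M → ℂ} {g : F → ℂ} (hg : HolA g) (hfg : ∀ y, f (j y) = g y)
    (y : F) : AnalyticAt ℂ (f ∘ (ch (j y)).symm) (cp (j y)) := by
  have h1 := hg y
  rw [h.cpj]
  refine h1.congr ?_
  have h2 := h.comp_iff f y
  filter_upwards [h2] with z hz
  rw [← hz, hfg]
  rfl

variable [MeasurableSpace M] [BorelSpace M] [MeasurableSpace F] [BorelSpace F]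
  [SecondCountableTopology M] [SecondCountableTopology F]

lemma REmb.me (h : REmb j) : MeasurableEmbedding j := h.oe.measurableEmbedding

/-- `j` preserves the Lebesgue measures -/
theorem REmb.mp (h : REmb j) {μ : Measure M} {ν : Measure F} (hμ : IsLeb μ) (hν : IsLeb ν) :
    MeasurePreserving j ν μ := by
  refine ⟨h.cont.measurable, ?_⟩
  ext S hS
  rw [Measure.map_apply h.cont.measurable hS]
  -- the complement of the range is null
  have h0 : μ (range j)ᶜ = 0 := by
    obtain ⟨D, hD, hne, hr⟩ := h.dns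
    have h1 := ae_ne hμ hD hne
    rw [ae_iff] at h1
    refine measure_mono_null (fun x hx => ?_) h1
    intro hx2
    exact hx (hr x hx2)
  have hR : MeasurableSet (range j) := h.oe.isOpen_range.measurableSet
  have h1 : μ S = μ (S ∩ range j) := by
    rw [← measure_inter_add_sdiff S hR]
    have h2 : μ (S \ range j) = 0 := measure_mono_null (fun x hx => hx.2) h0
    rw [h2, add_zero]
  rw [h1, ← lintegral_indicator_one (μ := μ) (hS.inter hR),
    ← lintegral_indicator_one (μ := ν) (h.cont.measurable hS)]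
  rw [Rd692.lintegral_eq_fibre hμ (g := (S ∩ range j).indicator (1 : M → ℝ≥0∞))
      (measurable_one.indicator (hS.inter hR)),
    Rd692.lintegral_eq_fibre hν (g := (j ⁻¹' S).indicator (1 : F → ℝ≥0∞))
      (measurable_one.indicator (h.cont.measurable hS))]
  refine lintegral_congr fun ζ => ?_
  let i : {x : F // cp x = ζ} → {y : M // cp y = ζ} := fun x => ⟨j x.1, by rw [h.cpj, x.2]⟩
  have hi : Function.Injective i := fun x x' hx =>
    Subtype.ext (h.inj (congrArg Subtype.val hx))
  have h2 := hi.tsum_eq (f := fun y : {y : M // cp y = ζ} =>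
    (S ∩ range j).indicator (1 : M → ℝ≥0∞) y.1) (by
    intro y hy
    rw [Function.mem_support] at hy
    by_contra hcon
    apply hy
    refine indicator_of_notMem (s := S ∩ range j) (fun hy2 => hcon ?_) (1 : M → ℝ≥0∞)
    obtain ⟨x, hx⟩ := hy2.2
    exact ⟨⟨x, by rw [← h.cpj, hx, y.2]⟩, Subtype.ext hx⟩)
  rw [← h2]
  refine tsum_congr fun x => ?_
  by_cases hx : j x.1 ∈ S
  · rw [indicator_of_mem (s := j ⁻¹' S) (a := x.1) hx]
    exact (indicator_of_mem (s := S ∩ range j) (a := j x.1) ⟨hx, mem_range_self _⟩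
      (1 : M → ℝ≥0∞)).symm
  · rw [indicator_of_notMem (s := j ⁻¹' S) (a := x.1) hx]
    exact (indicator_of_notMem (s := S ∩ range j) (a := j x.1) (fun h3 => hx h3.1)
      (1 : M → ℝ≥0∞)).symm

/-- integrals are equal -/
theorem REmb.lint (h : REmb j) {μ : Measure M} {ν : Measure F} (hμ : IsLeb μ) (hν : IsLeb ν)
    (g : M → ℝ≥0∞) : ∫⁻ y, g (j y) ∂ν = ∫⁻ x, g x ∂μ :=
  (h.mp hμ hν).lintegral_comp_emb h.me g

/-- **extension of `L²_loc` holomorphic functions** -/
theorem REmb.ext (h : REmb j) {μ : Measure M} {ν : Measure F} (hμ : IsLeb μ) (hν : IsLeb ν)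
    {f : F → ℂ} (hf : HolA f) (hL : ∀ x : M, ∃ W ∈ 𝓝 x, ∫⁻ y in j ⁻¹' W, ‖f y‖ₑ ^ 2 ∂ν < ⊤) :
    ∃ g : M → ℂ, HolA g ∧ ∀ y, g (j y) = f y := by
  obtain ⟨D, hD, hne, hr⟩ := h.dns
  set f0 : M → ℂ := Function.extend j f 0 with hf0
  have hfj : ∀ y, f0 (j y) = f y := fun y => h.inj.extend_apply f 0 y
  have hfc : Continuous f := HolA.cont hf
  have hfm : Measurable f0 := h.me.measurable_extend hfc.measurable measurable_const
  obtain ⟨g, hg, hgf⟩ := ext_sq (f := f0) hμ hD hne hfm (fun x hx => by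
    obtain ⟨y, rfl⟩ := hr x hx
    exact h.anal hf hfj y) (fun x => by
    obtain ⟨W, hW, hWL⟩ := hL x
    obtain ⟨W', hW'W, hW'o, hxW'⟩ := _root_.mem_nhds_iff.1 hW
    refine ⟨W', hW'o.mem_nhds hxW', ?_⟩
    rw [← lintegral_indicator hW'o.measurableSet, ← h.lint hμ hν]
    refine lt_of_le_of_lt ?_ hWL
    have h1 : (fun y => W'.indicator (fun y => ‖f0 y‖ₑ ^ 2) (j y)) =
        (j ⁻¹' W').indicator (fun y => ‖f y‖ₑ ^ 2) := by
      funext y
      by_cases hy : j y ∈ W'
      · rw [indicator_of_mem hy, indicator_of_mem (show y ∈ j ⁻¹' W' from hy), hfj]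
      · rw [indicator_of_notMem hy, indicator_of_notMem (show y ∉ j ⁻¹' W' from hy)]
    rw [h1, lintegral_indicator (hW'o.preimage h.cont).measurableSet]
    exact lintegral_mono_set (preimage_mono hW'W))
  refine ⟨g, hg, fun y => ?_⟩
  -- both sides are continuous and agree on a dense set
  have hfr : ∃ᶠ y' in 𝓝 y, g (j y') = f y' := by
    have h1 : ∃ᶠ x in 𝓝 (j y), D x ≠ 0 := hne (j y)
    have h4 : ∃ᶠ x in map j (𝓝 y), D x ≠ 0 := by
      rw [h.oe.map_nhds_eq]
      exact h1
    rw [Filter.frequently_map] at h4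
    exact h4.mono fun y' hy' => by rw [hgf _ hy', hfj]
  have hc : IsClosed {y' | g (j y') = f y'} :=
    isClosed_eq ((HolA.cont hg).comp h.cont) hfc
  have h5 : y ∈ closure {y' | g (j y') = f y'} := hfr.mem_closure
  rw [hc.closure_eq] at h5
  exact h5

end emb

end Crest.Agent.R276.Restr_236
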