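import Crest.Agent.R276.GeoN2_348
import Crest.Agent.R276.Geo4_519
import Crest.Agent.R276.AB2_590
import Crest.Agent.R276.Mod4_987
import Crest.Agent.R276.Iso_425
import Crest.Agent.R276.GeoN_348
import Crest.Agent.R276.RestrA_236
import Crest.Agent.R276.Cov1_425
import Crest.Agent.R276.TrB_617
import Crest.Agent.R276.VPull2_327
import Crest.Agent.R276.Par_425
import Crest.Agent.R276.Mono_574
import Crest.Agent.R276.VLevi2_327
import Crest.Agent.R276.SkelGeo_220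
import Crest.Agent.R276.PrpM_739

-- ▼ part R276/GeoN3_348
section

/-!
# R276, leaf GEO-NRM (helper348), part 3: the norm of the root on 425's spaces (`Cov1_425`)

* `fnorm_root` : `(root F hδ hN).fnorm u η = N * F.fint u |δ|^(2/N)`;
* `fint_pow` : the fibre integral of `pow (pbF F hρ) s`;
* `fint_sub` : integrals over the open part `{g ≠ 0}`;
* `fnorm_FR` : the norm of the root on 519's `FR R σ hρ hN` is `N * De R N σ (ρ u) = N * DN N σ (ρ u)`.
-/

set_option autoImplicit false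

noncomputable section

open Set Filter Topology MeasureTheory
open Crest.Agent.R271.Ho51 Crest.Agent.R271.Rd692
open Crest.Agent.R276.Top8_815 Crest.Agent.R276.Rc_348 Crest.Agent.R276.Mod1_987
open Crest.Agent.R276.IpcRMdl_244 (fF)
open Crest.Agent.R276.Cov_425 Crest.Agent.R276.Geo4_519
open scoped ENNReal

namespace Crest.Agent.R276.GeoN3_348

section gen

variable {m d r : ℕ} {S X Z P : Type*} [TopologicalSpace S] [RDom m S] [TopologicalSpace X]
  [RDom m X] [TopologicalSpace Z] [TopologicalSpace P]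

/-- **The norm of the root** of a root cover. -/
theorem fnorm_root (F : FSp m d S Z) {δ : Z → ℂ} (hδ : Continuous δ) {N : ℕ} (hN : N ≠ 0) (u : S) :
    (root F hδ hN).fnorm u (fun p => p.1.2) = N * F.fint u (fun z => ‖δ z‖ₑ ^ (2 / (N : ℝ))) := by
  classical
  unfold FSp.fnorm FSp.fint
  rw [← lintegral_const_mul' _ _ (ENNReal.natCast_ne_top N)]
  refine lintegral_congr fun τ => ?_
  let e : {p : Root δ N // (root F hδ hN).q p = u ∧ (root F hδ hN).t p = τ} ≃
      Σ z : {z : {z : Z // F.q z = u ∧ F.t z = τ} // δ z.1 ≠ 0}, {η : ℂ // η ^ N = δ z.1.1} :=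
    { toFun := fun p => ⟨⟨⟨p.1.1.1, p.2⟩, p.1.2.2⟩, ⟨p.1.1.2, p.1.2.1⟩⟩
      invFun := fun z => ⟨⟨(z.1.1.1, z.2.1), z.2.2, z.1.2⟩, z.1.1.2⟩
      left_inv := fun p => rfl
      right_inv := fun z => rfl }
  rw [← e.symm.tsum_eq]
  have h1 : ∀ z : Σ z : {z : {z : Z // F.q z = u ∧ F.t z = τ} // δ z.1 ≠ 0},
      {η : ℂ // η ^ N = δ z.1.1}, ‖((e.symm z).1 : Root δ N).1.2‖ₑ ^ 2 = ‖z.2.1‖ₑ ^ 2 :=
    fun z => rfl
  simp only [h1]
  rw [ENNReal.tsum_sigma']
  have h2 : ∀ z : {z : {z : Z // F.q z = u ∧ F.t z = τ} // δ z.1 ≠ 0},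
      ∑' b : {η : ℂ // η ^ N = δ z.1.1}, ‖b.1‖ₑ ^ 2 = N * ‖δ z.1.1‖ₑ ^ (2 / (N : ℝ)) :=
    fun z => rc_tsum hN z.2
  simp only [h2]
  rw [ENNReal.tsum_mul_left]
  congr 1
  have hsupp : Function.support (fun z : {z : Z // F.q z = u ∧ F.t z = τ} =>
      ‖δ z.1‖ₑ ^ (2 / (N : ℝ))) ⊆ {z | δ z.1 ≠ 0} := by
    intro z hz h0
    apply hz
    have : (0 : ℝ) < 2 / (N : ℝ) := by positivity
    simp only [h0, enorm_zero]
    exact ENNReal.zero_rpow_of_pos this
  exact tsum_subtype_eq_of_support_subset hsupp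

/-- The fibre integral of the fibre power of a pull back. -/
theorem fint_pow (F : FSp m r X P) {ρ : S → X} (hρ : Continuous ρ) (s : ℕ)
    (g : (Fin s → P) → ℝ≥0∞) (u : S) :
    (pow (pbF F hρ) s).fint u (fun p => g fun j => (p.1.2 j).1.2) =
      GeoN2_348.fintS F s (ρ u) g := by
  unfold FSp.fint GeoN2_348.fintS
  refine lintegral_congr fun τ => ?_
  let e : {p : FPow (pbF F hρ) s // (pow (pbF F hρ) s).q p = u ∧ (pow (pbF F hρ) s).t p = τ} ≃
      {y : Fin s → P // (∀ j, F.q (y j) = ρ u) ∧ GeoY_519.tt F y = τ} :=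
    { toFun := fun p => ⟨fun j => (p.1.1.2 j).1.2, fun j => by
          have h1 : F.q (p.1.1.2 j).1.2 = ρ (p.1.1.2 j).1.1 := (p.1.1.2 j).2
          have h2 : (p.1.1.2 j).1.1 = p.1.1.1 := p.1.2 j
          have h3 : p.1.1.1 = u := p.2.1
          rw [h1, h2, h3], p.2.2⟩
      invFun := fun y => ⟨⟨(u, fun j => ⟨(u, y.1 j), y.2.1 j⟩), fun j => rfl⟩, rfl, y.2.2⟩
      left_inv := by
        rintro ⟨⟨⟨a, z⟩, h⟩, h1, h2⟩
        apply Subtype.ext
        apply Subtype.ext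
        have h1' : a = u := h1
        refine Prod.ext h1'.symm (funext fun j => ?_)
        apply Subtype.ext
        refine Prod.ext ?_ rfl
        have h3 : (z j).1.1 = a := h j
        exact (h3.trans h1').symm
      right_inv := fun z => rfl }
  rw [← e.symm.tsum_eq]
  rfl




end gen

section rel

variable {L K : Type} [Field L] [Field K] [Algebra ℂ L] [Algebra ℂ K] [Algebra L K]
  [IsScalarTower ℂ L K] {m r : ℕ} (R : RMdl L K m r) {s : ℕ} (σ : Fin s → R.MK.B) {S : Type}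
  [TopologicalSpace S] [RDom m S] {ρ : S → R.ML.Pts}


/-- the fibre integrals of 519's root cover, on the fibre power -/
theorem fint_pow_rel (hρ : Continuous ρ) (g : (Fin s → R.MK.Pts) → ℝ≥0∞) (u : S) :
    (pow (pbF (fF R) hρ) s).fint u (fun p => g fun j => (p.1.2 j).1.2) =
      FlatFam_793.fintS R s (ρ u) g := by
  rw [fint_pow, GeoN2_348.fintS_793]

/-- **The norm of the root of `det σ_i(y_j)` is `N * De`.** -/
theorem fnorm_FR (hρ : Continuous ρ) {N : ℕ} (hN : N ≠ 0) (u : S) :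
    (FR R σ hρ hN).fnorm u (fun p => p.1.2) = N * FlatFam_793.De R N σ (ρ u) := by
  unfold FR
  rw [fnorm_root]
  congr 1
  exact fint_pow_rel R hρ (fun y => ‖FlatFam_793.dl σ y‖ₑ ^ (2 / (N : ℝ))) u

/-- the same with 236's `DN` -/
theorem fnorm_FR' (hρ : Continuous ρ) {N : ℕ} (hN : N ≠ 0) (u : S) :
    (FR R σ hρ hN).fnorm u (fun p => p.1.2) = N * FlatDefs_236.DN N σ (ρ u) := by
  rw [fnorm_FR, GeoN2_348.De_eq_DN]


end rel

end Crest.Agent.R276.GeoN3_348
end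
end

-- ▼ part R276/GeoN4_348
section

/-!
# R276, leaf GEO-NRM (helper348), part 4: the fibres of `pbF (fF R) hρ` are the fibres of `R`

* `hol_iff_loc` : local description of `Ho51.Hol`; `hol_homeo` : transport along a homeomorphism
  which keeps the coordinates;
* `FH_iff_fib` : `F.FH u f ↔ Ho51.Hol (f on Cov_425.Fib F u)` for every `FSp`;
* `fint_pb`, `fint_pbR` : fibre integrals of `pbF`;
* `eF : Cov_425.Fib (pbF (fF R) hρ) u ≃ₜ R.Fib (ρ u)`, `FH_iff`, `fint_nu`, `fnorm_nu`;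
* `pb_ev`, `pb_sg` : elements of `R.MK.B` are holomorphic (`Top8_815.PB`) on the pull back.
-/

set_option autoImplicit false

noncomputable section

open Set Filter Topology MeasureTheory
open Crest.Agent.R271.Ho51 Crest.Agent.R271.Rd692
open Crest.Agent.R276.Top8_815 Crest.Agent.R276.Rc_348 Crest.Agent.R276.Mod1_987
open Crest.Agent.R276.IpcRMdl_244 (fF)
open Crest.Agent.R276.Cov_425 Crest.Agent.R276.Geo4_519
open scoped ENNReal

namespace Crest.Agent.R276.GeoN4_348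

section loc

variable {n : ℕ} {M M' : Type*} [TopologicalSpace M] [RDom n M] [TopologicalSpace M'] [RDom n M']

/-- Local description of holomorphic functions. -/
theorem hol_iff_loc {f : M → ℂ} : Hol f ↔ ∀ x, ∃ g : (Fin n → ℂ) → ℂ,
    AnalyticAt ℂ g (cp x) ∧ ∀ᶠ y in 𝓝 x, f y = g (cp y) := by
  rw [AB2_590.hol51_iff]
  constructor
  · intro h x
    exact ⟨f ∘ (ch x).symm, h x, eventually_eq_comp (isCh_ch x) (mem_ch x) f⟩
  · intro h x
    obtain ⟨g, hg, hfg⟩ := h x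
    have h1 : ContinuousAt (ch x).symm (cp x) :=
      (ch x).symm.continuousAt (by simpa using (isCh_ch x).cp_mem (mem_ch x))
    have h2 : (ch x).symm (cp x) = x := (isCh_ch x).symm_cp (mem_ch x)
    rw [ContinuousAt, h2] at h1
    refine hg.congr ?_
    filter_upwards [h1.eventually hfg,
      (ch x).open_target.mem_nhds ((isCh_ch x).cp_mem (mem_ch x))] with z hz hzt
    rw [(isCh_ch x).cp_symm hzt] at hz
    exact hz.symm


end loc

section gen

variable {m d r : ℕ} {S X Z P : Type*} [TopologicalSpace S] [RDom m S] [TopologicalSpace X]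
  [RDom m X] [TopologicalSpace Z] [TopologicalSpace P]



end gen

section rel

variable {L K : Type} [Field L] [Field K] [Algebra ℂ L] [Algebra ℂ K] [Algebra L K]
  [IsScalarTower ℂ L K] {m r : ℕ} (R : RMdl L K m r) {s : ℕ} (σ : Fin s → R.MK.B)
  {S : Type} [TopologicalSpace S] [RDom m S] {ρ : S → R.ML.Pts}


/-- the map of fibres -/
def toF (hρ : Continuous ρ) (u : S) (y : Fib (pbF (fF R) hρ) u) : R.Fib (ρ u) :=
  ⟨y.1.1.2, by
    have h1 : R.q y.1.1.2 = ρ y.1.1.1 := y.1.2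
    have h2 : y.1.1.1 = u := y.2
    rw [h1, h2]⟩

/-- the inverse map of fibres -/
def ofF (hρ : Continuous ρ) (u : S) (z : R.Fib (ρ u)) : Fib (pbF (fF R) hρ) u :=
  ⟨⟨(u, RMdl.Fib.val R z), RMdl.Fib.q_eq z⟩, rfl⟩

lemma continuous_toF (hρ : Continuous ρ) (u : S) : Continuous (toF R hρ u) := by
  have h1 : Continuous fun y : Fib (pbF (fF R) hρ) u => y.1.1.2 :=
    continuous_snd.comp (continuous_subtype_val.comp continuous_subtype_val)
  exact h1.subtype_mk _

lemma continuous_ofF (hρ : Continuous ρ) (u : S) : Continuous (ofF R hρ u) := by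
  have h1 : Continuous fun z : R.Fib (ρ u) => ((u, RMdl.Fib.val R z) : S × R.MK.Pts) :=
    continuous_const.prodMk (RMdl.Fib.continuous_val (ρ u))
  exact (h1.subtype_mk _).subtype_mk _

/-- The fibre of the pull back is the fibre of `R`. -/
def eF (hρ : Continuous ρ) (u : S) : Fib (pbF (fF R) hρ) u ≃ₜ R.Fib (ρ u) where
  toFun := toF R hρ u
  invFun := ofF R hρ u
  left_inv := by
    rintro ⟨⟨⟨a, z⟩, h⟩, h1⟩
    apply Subtype.ext
    apply Subtype.ext
    exact Prod.ext (Eq.symm h1) rfl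
  right_inv := fun z => rfl
  continuous_toFun := continuous_toF R hρ u
  continuous_invFun := continuous_ofF R hρ u

@[simp] lemma eF_val (hρ : Continuous ρ) (u : S) (y : Fib (pbF (fF R) hρ) u) :
    RMdl.Fib.val R (eF R hρ u y) = y.1.1.2 := rfl









/-! ### elements of `R.MK.B` are holomorphic on the pull back -/

lemma analyticAt_append {a b : ℕ} (p : (Fin a → ℂ) × (Fin b → ℂ)) :
    AnalyticAt ℂ (fun q : (Fin a → ℂ) × (Fin b → ℂ) => Fin.append q.1 q.2) p := by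
  rw [analyticAt_pi_iff]
  intro i
  refine Fin.addCases (fun i => ?_) (fun i => ?_) i
  · simp only [Fin.append_left]
    exact ((ContinuousLinearMap.proj (R := ℂ) (φ := fun _ : Fin a => ℂ) i).comp
        (ContinuousLinearMap.fst ℂ (Fin a → ℂ) (Fin b → ℂ))).analyticAt _
  · simp only [Fin.append_right]
    exact ((ContinuousLinearMap.proj (R := ℂ) (φ := fun _ : Fin b => ℂ) i).comp
        (ContinuousLinearMap.snd ℂ (Fin a → ℂ) (Fin b → ℂ))).analyticAt _

/-- elements of `R.MK.B` on the pull back -/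
theorem pb_ev (hρ : Continuous ρ) (hcp : ∀ u, R.ML.pz (ρ u) = cp u) (b : R.MK.B)
    (y : PB (fF R) ρ) :
    Top8_815.PB (pbF (fF R) hρ).pc (fun y => y.1.2 b) y := by
  obtain ⟨g, hg, hfg⟩ := hol_iff_loc.1 (R.MK.hol51_ev b) y.1.2
  have hpc : ∀ y : PB (fF R) ρ, (cp y.1.2 : Fin (m + r) → ℂ) =
      Fin.append ((pbF (fF R) hρ).pc y).1 ((pbF (fF R) hρ).pc y).2 := by
    intro y
    have h1 := R.append_eq y.1.2
    have h2 : R.q y.1.2 = ρ y.1.1 := y.2
    rw [h2, hcp] at h1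
    exact h1.symm
  rw [hpc] at hg
  refine ⟨fun q => g (Fin.append q.1 q.2),
    AnalyticAt.comp (g := g) (f := fun q : (Fin m → ℂ) × (Fin r → ℂ) => Fin.append q.1 q.2) hg
      (analyticAt_append _), ?_⟩
  have h3 : Continuous fun y : PB (fF R) ρ => y.1.2 := continuous_snd.comp continuous_subtype_val
  filter_upwards [h3.continuousAt.eventually hfg] with y' hy'
  rw [hy', hpc]

theorem pb_sg (hρ : Continuous ρ) (hcp : ∀ u, R.ML.pz (ρ u) = cp u) (i : Fin s)
    (y : PB (fF R) ρ) : Top8_815.PB (pbF (fF R) hρ).pc (sg R σ i) y :=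
  pb_ev R hρ hcp (σ i) y


end rel

end Crest.Agent.R276.GeoN4_348
end
end

-- ▼ part R276/Hone1_425
section

/-!
# Row 276 (S0419), `hone`, part 1 (helper425): the alternating line on a power of a Riemann domain

`line_abs`: `M` a connected Riemann domain, `σ_1, …, σ_s` a basis of a space `V` of holomorphic
functions which is closed in the sense of (Cl).  A symmetric function `b` on `M^s`, holomorphic off
`{δ = 0}`, `δ = det σ_i(x_j)`, with `∫ |b|² |δ|^{2/N} < ∞`, is constant off `{δ = 0}`.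
-/

set_option autoImplicit false
set_option linter.unusedSectionVars false

noncomputable section

open Set Filter Topology MeasureTheory
open Crest.Agent.R271 Crest.Agent.R271.Ho51 Crest.Agent.R276.AB2_590 Crest.Agent.R276.Restr_236
open Crest.Agent.R276.GeoN_348 Crest.Agent.R276.GeoY_519 Crest.Agent.R276.Iso_425
open scoped ENNReal

namespace Crest.Agent.R276.Hone_425

section gen

variable {n : ℕ} {M : Type*} [TopologicalSpace M] [RDom n M]

lemma tendsto_symm (z : M) : Tendsto (ch z).symm (𝓝 (cp z)) (𝓝 z) := by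
  have := (ch z).symm.continuousAt (x := cp z) (by simpa using (isCh_ch z).cp_mem (mem_ch z))
  rwa [ContinuousAt, (isCh_ch z).symm_cp (mem_ch z)] at this

lemma eventually_cp_symm (z : M) : ∀ᶠ x in 𝓝 (cp z : Fin n → ℂ), cp ((ch z).symm x) = x := by
  filter_upwards [(ch z).open_target.mem_nhds ((isCh_ch z).cp_mem (mem_ch z))] with x hx
  exact (isCh_ch z).cp_symm hx

/-- a function which near `x` is an analytic function of the coordinates -/
lemma anal_iff {f : M → ℂ} {x : M} : AnalyticAt ℂ (f ∘ (ch x).symm) (cp x) ↔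
    ∃ g : (Fin n → ℂ) → ℂ, AnalyticAt ℂ g (cp x) ∧ ∀ᶠ y in 𝓝 x, f y = g (cp y) := by
  constructor
  · intro h
    refine ⟨f ∘ (ch x).symm, h, ?_⟩
    filter_upwards [(ch x).open_source.mem_nhds (mem_ch x)] with y hy
    simp [(isCh_ch x).symm_cp hy]
  · rintro ⟨g, hg, h⟩
    refine hg.congr ?_
    filter_upwards [(tendsto_symm x).eventually h, eventually_cp_symm x] with z hz hz2
    simp only [Function.comp_apply]
    rw [hz, hz2]

lemma anal_continuousAt {f : M → ℂ} {x : M} (h : AnalyticAt ℂ (f ∘ (ch x).symm) (cp x)) :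
    ContinuousAt f x := by
  obtain ⟨g, hg, hfg⟩ := anal_iff.1 h
  have h1 : ContinuousAt (fun y : M => g (cp y)) x :=
    ContinuousAt.comp (f := (cp : M → (Fin n → ℂ))) hg.continuousAt cp_cont.continuousAt
  exact h1.congr (hfg.mono fun y hy => hy.symm)

/-- `IsLeb` measures charge open sets -/
lemma leb_open_pos [MeasurableSpace M] [BorelSpace M] {μ : Measure M} (hμ : IsLeb μ) :
    μ.IsOpenPosMeasure := by
  refine ⟨fun U hU hne h0 => ?_⟩
  obtain ⟨x, hx⟩ := hne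
  have he := isCh_ch x
  have hW : IsOpen (U ∩ (ch x).source) := hU.inter (ch x).open_source
  have h1 : μ (U ∩ (ch x).source) = 0 := measure_mono_null inter_subset_left h0
  have h2 : μ.restrict (ch x).source U = 0 := by
    rw [Measure.restrict_apply hU.measurableSet]; exact h1
  rw [hμ (ch x) he, Measure.map_apply_of_aemeasurable (aem_symm (ch x)) hU.measurableSet,
    Measure.restrict_apply' (ch x).open_target.measurableSet] at h2
  have hO : IsOpen ((ch x).symm ⁻¹' U ∩ (ch x).target) := by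
    rw [inter_comm]
    exact (ch x).symm.isOpen_inter_preimage hU
  have hne2 : ((ch x).symm ⁻¹' U ∩ (ch x).target).Nonempty :=
    ⟨cp x, by simpa [he.symm_cp (mem_ch x)] using hx, he.cp_mem (mem_ch x)⟩
  exact hO.measure_ne_zero volume hne2 h2

end gen

section pw

variable {r : ℕ} {M : Type*} [TopologicalSpace M] [RDom r M]

/-- functions of one of the points -/
lemma holA_coord {s : ℕ} {f : M → ℂ} (hf : HolA f) (j : Fin s) :
    @HolA (s * r) (Fin s → M) _ (rdPi r M s) (fun x => f (x j)) := by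
  let _ := rdPi r M s
  intro x
  rw [anal_iff]
  obtain ⟨g, hg, hfg⟩ := anal_iff.1 (hf (x j))
  have hb : ∀ y : Fin s → M, blk (cp y : Fin (s * r) → ℂ) j = cp (y j) := fun y =>
    blk_flat (fun j => (cp (y j) : Fin r → ℂ)) j
  refine ⟨fun τ => g (blk τ j), ?_, ?_⟩
  · have h1 : AnalyticAt ℂ (fun τ : Fin (s * r) → ℂ => blk τ j) (cp x) := by
      refine analyticAt_pi_iff.2 fun i => ?_
      exact (ContinuousLinearMap.proj (R := ℂ) (φ := fun _ : Fin (s * r) => ℂ)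
        (finProdFinEquiv (j, i))).analyticAt _
    refine AnalyticAt.comp (g := g) (f := fun τ : Fin (s * r) → ℂ => blk τ j) ?_ h1
    rw [hb x]
    exact hg
  · filter_upwards [(continuous_apply j).continuousAt.eventually hfg] with y hy
    rw [hb y]
    exact hy

variable {n : ℕ} {M' : Type*} [TopologicalSpace M'] [RDom n M']


lemma holA_mul {f g : M' → ℂ} (hf : HolA f) (hg : HolA g) : HolA (fun x => f x * g x) :=
  fun x => (hf x).mul (hg x)

lemma holA_const (c : ℂ) : HolA (fun _ : M' => c) := fun _ => analyticAt_const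

lemma holA_sum {κ : Type*} (t : Finset κ) {f : κ → M' → ℂ} (hf : ∀ i ∈ t, HolA (f i)) :
    HolA (fun x => ∑ i ∈ t, f i x) := fun x => by
  have h := Finset.analyticAt_fun_sum t (f := fun i => f i ∘ (ch x).symm) (c := cp x)
    fun i hi => hf i hi x
  exact h

lemma holA_prod {κ : Type*} (t : Finset κ) {f : κ → M' → ℂ} (hf : ∀ i ∈ t, HolA (f i)) :
    HolA (fun x => ∏ i ∈ t, f i x) := fun x => by
  have h := Finset.analyticAt_fun_prod t (f := fun i => f i ∘ (ch x).symm) (c := cp x)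
    fun i hi => hf i hi x
  exact h

lemma holA_alt {s : ℕ} {σ : Fin s → M → ℂ} (hσ : ∀ i, HolA (σ i)) :
    @HolA (s * r) (Fin s → M) _ (rdPi r M s) (alt σ) := by
  let _ := rdPi r M s
  have h1 : (alt σ) = fun x : Fin s → M => ∑ π : Equiv.Perm (Fin s),
      ((Equiv.Perm.sign π : ℤ) : ℂ) * ∏ j, σ (π j) (x j) := by
    funext x
    unfold alt
    rw [Matrix.det_apply']
    rfl
  rw [h1]
  refine holA_sum _ fun π _ => ?_
  refine holA_mul (holA_const _) ?_
  exact holA_prod _ fun j _ => holA_coord (hσ (π j)) j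

/-- slices of holomorphic functions on a power -/
lemma holA_slice {k : ℕ} {u : (Fin (k + 1) → M) → ℂ}
    (hu : @HolA ((k + 1) * r) (Fin (k + 1) → M) _ (rdPi r M (k + 1)) u) (j : Fin (k + 1))
    (y : Fin k → M) : HolA (fun t => u (j.insertNth t y)) := by
  let _ := rdPi r M (k + 1)
  intro t
  rw [anal_iff]
  obtain ⟨g, hg, hfg⟩ := anal_iff.1 (hu (j.insertNth t y))
  set A : (Fin r → ℂ) → Fin ((k + 1) * r) → ℂ := fun z =>
    flat (j.insertNth (α := fun _ => Fin r → ℂ) z fun i => cp (y i)) with hA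
  have hcp : ∀ t : M, (cp (j.insertNth (α := fun _ => M) t y) : Fin ((k + 1) * r) → ℂ) = A (cp t) := by
    intro t
    show flat (fun i => (cp (j.insertNth (α := fun _ => M) t y i) : Fin r → ℂ)) = _
    rw [hA]
    congr 1
    funext i
    refine Fin.succAboveCases j ?_ (fun i => ?_) i
    · simp
    · simp
  refine ⟨fun z => g (A z), ?_, ?_⟩
  · refine AnalyticAt.comp (g := g) (f := A) ?_ ?_
    · rw [← hcp]; exact hg
    · refine analyticAt_pi_iff.2 fun K => ?_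
      show AnalyticAt ℂ (fun z => (j.insertNth (α := fun _ => Fin r → ℂ) z fun i => cp (y i))
        (finProdFinEquiv.symm K).1 (finProdFinEquiv.symm K).2) _
      generalize (finProdFinEquiv.symm K).1 = a
      generalize (finProdFinEquiv.symm K).2 = b
      refine Fin.succAboveCases j ?_ (fun i => ?_) a
      · simp only [Fin.insertNth_apply_same]
        exact (ContinuousLinearMap.proj (R := ℂ) (φ := fun _ : Fin r => ℂ) b).analyticAt _
      · simp only [Fin.insertNth_apply_succAbove]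
        exact analyticAt_const
  · have hc : Continuous fun t : M => (j.insertNth (α := fun _ => M) t y) := by
      refine continuous_pi fun i => ?_
      refine Fin.succAboveCases j ?_ (fun i => ?_) i
      · simp only [Fin.insertNth_apply_same]
        exact continuous_id
      · simp only [Fin.insertNth_apply_succAbove]
        exact continuous_const
    filter_upwards [hc.continuousAt.eventually hfg] with t' ht'
    rw [ht', hcp]

variable [T2Space M] [SecondCountableTopology M] [PreconnectedSpace M] [MeasurableSpace M]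
  [BorelSpace M]

lemma enorm_rpow_le {x y c : ℝ≥0∞} (h : x ≤ c * y) (hc0 : c ≠ 0) (hct : c ≠ ∞) :
    y⁻¹ ≤ c * x⁻¹ := by
  have h1 : (c * y)⁻¹ ≤ x⁻¹ := ENNReal.inv_le_inv.2 h
  rw [ENNReal.mul_inv (Or.inl hc0) (Or.inl hct)] at h1
  calc y⁻¹ = c * (c⁻¹ * y⁻¹) := by rw [← mul_assoc, ENNReal.mul_inv_cancel hc0 hct, one_mul]
    _ ≤ c * x⁻¹ := by gcongr

/-- comparison of the weights -/
lemma weight_le {s : ℕ} {α : ℝ} (hα : 0 < α) (a v : Fin s → ℂ) (ha : a ≠ 0) :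
    (∑ i, ‖v i‖ₑ ^ 2) ^ (-α) ≤
      (∑ i, ‖a i‖ₑ ^ 2) ^ α * ‖∑ i, a i * v i‖ₑ ^ (-(2 * α)) := by
  have hA0 : (∑ i, ‖a i‖ₑ ^ 2) ≠ 0 := by
    obtain ⟨i, hi⟩ := Function.ne_iff.1 ha
    rw [Ne, Finset.sum_eq_zero_iff]
    intro h
    have := h i (Finset.mem_univ i)
    simp only [pow_eq_zero_iff, ne_eq, OfNat.ofNat_ne_zero, not_false_eq_true, enorm_eq_zero] at this
    exact hi (by simpa using this)
  have hAt : (∑ i, ‖a i‖ₑ ^ 2) ≠ ∞ := by
    refine ENNReal.sum_ne_top.2 fun i _ => ?_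
    exact ENNReal.pow_ne_top enorm_ne_top
  have hcs : ‖∑ i, a i * v i‖ₑ ^ 2 ≤ (∑ i, ‖a i‖ₑ ^ 2) * ∑ i, ‖v i‖ₑ ^ 2 := by
    have h1 : ‖∑ i, a i * v i‖ ^ 2 ≤ (∑ i, ‖a i‖ ^ 2) * ∑ i, ‖v i‖ ^ 2 := by
      have h2 : ‖∑ i, a i * v i‖ ≤ ∑ i, ‖a i‖ * ‖v i‖ := by
        refine (norm_sum_le _ _).trans (Finset.sum_le_sum fun i _ => ?_)
        rw [norm_mul]
      calc ‖∑ i, a i * v i‖ ^ 2 ≤ (∑ i, ‖a i‖ * ‖v i‖) ^ 2 := by gcongr
        _ ≤ _ := Finset.sum_mul_sq_le_sq_mul_sq _ _ _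
    have h3 : ∀ z : ℂ, ‖z‖ₑ ^ 2 = ENNReal.ofReal (‖z‖ ^ 2) := fun z => by
      rw [← ofReal_norm, ENNReal.ofReal_pow (norm_nonneg _)]
    simp only [h3]
    rw [← ENNReal.ofReal_sum_of_nonneg (fun i _ => by positivity),
      ← ENNReal.ofReal_sum_of_nonneg (fun i _ => by positivity),
      ← ENNReal.ofReal_mul (Finset.sum_nonneg fun i _ => by positivity)]
    exact ENNReal.ofReal_le_ofReal h1
  have h4 : ‖∑ i, a i * v i‖ₑ ^ (2 * α) ≤
      (∑ i, ‖a i‖ₑ ^ 2) ^ α * (∑ i, ‖v i‖ₑ ^ 2) ^ α := by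
    rw [← ENNReal.mul_rpow_of_nonneg _ _ hα.le, ENNReal.rpow_mul]
    refine ENNReal.rpow_le_rpow ?_ hα.le
    rw [ENNReal.rpow_two]
    exact hcs
  rw [ENNReal.rpow_neg, ENNReal.rpow_neg]
  refine enorm_rpow_le h4 ?_ ?_
  · rw [Ne, ENNReal.rpow_eq_zero_iff]
    rintro (⟨h, _⟩ | ⟨_, h⟩)
    · exact hA0 h
    · linarith
  · exact ENNReal.rpow_ne_top_of_nonneg hα.le hAt

/-- **the alternating line**: a symmetric function on `M^s`, `s = dim V`, with finite
`∫ |b|² |δ|^{2/N}`, is constant off `{δ = 0}` -/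
theorem line_abs {μ : Measure M} (hμ : IsLeb μ) {N : ℕ} (hN : 2 ≤ N) {k : ℕ}
    {σ : Fin (k + 1) → M → ℂ} (hσ : ∀ i, HolA (σ i))
    (hli : ∀ a : Fin (k + 1) → ℂ, (∀ y, ∑ i, a i * σ i y = 0) → a = 0)
    (hcl : ∀ f : M → ℂ, HolA f →
      ∫⁻ y, ‖f y‖ₑ ^ 2 * (∑ i, ‖σ i y‖ₑ ^ 2) ^ (-((N - 1 : ℝ) / N)) ∂μ ≠ ∞ →
      ∃ a : Fin (k + 1) → ℂ, ∀ y, f y = ∑ i, a i * σ i y)
    {b : (Fin (k + 1) → M) → ℂ}
    (hb : ∀ x, alt σ x ≠ 0 → AnalyticAt ℂ (b ∘ (@ch ((k + 1) * r) (Fin (k + 1) → M) _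
      (rdPi r M (k + 1)) x).symm) (@RDom.p ((k + 1) * r) (Fin (k + 1) → M) _ (rdPi r M (k + 1)) x))
    (hsym : ∀ (π : Equiv.Perm (Fin (k + 1))) x, alt σ x ≠ 0 → b (x ∘ π) = b x)
    (hint : ∫⁻ x, ‖b x‖ₑ ^ 2 * ‖alt σ x‖ₑ ^ (2 / (N : ℝ))
      ∂(Measure.pi fun _ : Fin (k + 1) => μ) ≠ ∞) :
    ∃ C : ℂ, ∀ x, alt σ x ≠ 0 → b x = C := by
  classical
  let _ := rdPi r M (k + 1)
  have hloc : IsLocallyFiniteMeasure μ := hμ.locallyFinite
  have hop : μ.IsOpenPosMeasure := leb_open_pos hμ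
  have hπ : IsLeb (Measure.pi fun _ : Fin (k + 1) => μ) := leb_pi hμ (k + 1)
  have hσc : ∀ i, Continuous (σ i) := fun i => HolA.cont (hσ i)
  have hN0 : (0 : ℝ) < N := by exact_mod_cast (by omega : 0 < N)
  have hN2 : (2 : ℝ) ≤ N := by exact_mod_cast hN
  set α : ℝ := (N - 1 : ℝ) / N with hα
  have hα0 : 0 < α := by rw [hα]; apply div_pos <;> linarith
  have h2α : 2 * α = 2 - 2 / (N : ℝ) := by rw [hα]; field_simp
  -- the space `V`
  set V : Submodule ℂ (M → ℂ) := Submodule.span ℂ (Set.range σ) with hV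
  have hVmem : ∀ g ∈ V, ∃ a : Fin (k + 1) → ℂ, g = fun y => ∑ i, a i * σ i y := by
    intro g hg
    obtain ⟨a, ha⟩ := (Submodule.mem_span_range_iff_exists_fun ℂ).1 hg
    refine ⟨a, ?_⟩
    rw [← ha]
    funext y
    simp
  have hVhol : ∀ g ∈ V, HolA g := by
    intro g hg
    obtain ⟨a, rfl⟩ := hVmem g hg
    exact holA_sum _ fun i _ => holA_mul (holA_const _) (hσ i)
  have hVc : ∀ g ∈ V, Continuous g := fun g hg => HolA.cont (hVhol g hg)
  have hNZ : ∀ g ∈ V, g ≠ 0 → ∀ᵐ x ∂μ, g x ≠ 0 := by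
    intro g hg hg0
    obtain ⟨y, hy⟩ := Function.ne_iff.1 hg0
    exact ae_ne hμ (hVhol g hg) (freq_ne (hVhol g hg) ⟨y, hy⟩)
  have hLI : LinearIndependent ℂ σ := by
    rw [Fintype.linearIndependent_iff]
    intro a ha i
    have h1 := hli a fun y => by
      have := congrFun ha y
      simpa using this
    rw [h1]; rfl
  have hCl : ∀ g ∈ V, g ≠ 0 → ∀ f ∈ {f : M → ℂ | HolA f},
      ∫⁻ x, ‖f x‖ₑ ^ 2 * ‖g x‖ₑ ^ (-(2 * α)) ∂μ < ∞ → f ∈ V := by
    intro g hg hg0 f hf hfi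
    obtain ⟨a, rfl⟩ := hVmem g hg
    have ha : a ≠ 0 := by
      rintro rfl
      apply hg0
      funext y
      simp
    obtain ⟨a', ha'⟩ := hcl f hf (by
      refine ne_of_lt (lt_of_le_of_lt (lintegral_mono (g := fun x =>
        (∑ i, ‖a i‖ₑ ^ 2) ^ α * (‖f x‖ₑ ^ 2 * ‖∑ i, a i * σ i x‖ₑ ^ (-(2 * α)))) ?_) ?_)
      · intro x
        calc ‖f x‖ₑ ^ 2 * (∑ i, ‖σ i x‖ₑ ^ 2) ^ (-α)
            ≤ ‖f x‖ₑ ^ 2 * ((∑ i, ‖a i‖ₑ ^ 2) ^ α * ‖∑ i, a i * σ i x‖ₑ ^ (-(2 * α))) := by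
              gcongr
              exact weight_le hα0 a (fun i => σ i x) ha
          _ = _ := by ring
      · rw [lintegral_const_mul' _ _ (ENNReal.rpow_ne_top_of_nonneg hα0.le
          (ENNReal.sum_ne_top.2 fun i _ => ENNReal.pow_ne_top enorm_ne_top))]
        exact ENNReal.mul_lt_top (ENNReal.rpow_lt_top_of_nonneg hα0.le
          (ENNReal.sum_ne_top.2 fun i _ => ENNReal.pow_ne_top enorm_ne_top)) hfi)
    rw [show f = fun y => ∑ i, a' i * σ i y from funext ha']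
    have h3 : (fun y => ∑ i, a' i * σ i y) = ∑ i, a' i • σ i := by
      funext y; simp
    rw [h3]
    exact Submodule.sum_mem _ fun i _ => Submodule.smul_mem _ _ (Submodule.subset_span ⟨i, rfl⟩)
  -- the function `δ`
  set Dl : (Fin (k + 1) → M) → ℂ := alt σ with hDl
  have hDh : HolA Dl := holA_alt hσ
  have hDc : Continuous Dl := HolA.cont hDh
  have hDae : ∀ᵐ x ∂(Measure.pi fun _ : Fin (k + 1) => μ), Dl x ≠ 0 := by
    exact alt_ne_zero_ae hVc hNZ σ hLI (by rw [hV]; exact fun i => Submodule.subset_span ⟨i, rfl⟩)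
  have hop2 : (Measure.pi fun _ : Fin (k + 1) => μ).IsOpenPosMeasure := leb_open_pos hπ
  have hDfr : ∀ x, ∃ᶠ y in 𝓝 x, Dl y ≠ 0 := by
    intro x hcon
    have h1 : {y | ¬ Dl y ≠ 0} ∈ 𝓝 x := hcon
    have h2 : (Measure.pi fun _ : Fin (k + 1) => μ) {y | ¬ Dl y ≠ 0} ≠ 0 :=
      (Measure.measure_pos_of_mem_nhds _ h1).ne'
    exact h2 (ae_iff.1 hDae)
  have hUo : IsOpen {x | Dl x ≠ 0} := isOpen_ne_fun hDc continuous_const
  set f : (Fin (k + 1) → M) → ℂ := fun x => if Dl x ≠ 0 then b x * Dl x else 0 with hf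
  have hfm : Measurable f := by
    have h1 : ContinuousOn (fun x => b x * Dl x) {x | Dl x ≠ 0} := fun x hx =>
      ((anal_continuousAt (hb x hx)).mul hDc.continuousAt).continuousWithinAt
    exact h1.measurable_piecewise (continuous_const (y := (0 : ℂ))).continuousOn
      hUo.measurableSet
  have hfa : ∀ x, Dl x ≠ 0 → AnalyticAt ℂ (f ∘ (ch x).symm) (cp x) := by
    intro x hx
    have h0 : AnalyticAt ℂ ((fun y => b y * Dl y) ∘ (ch x).symm) (cp x) := (hb x hx).mul (hDh x)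
    obtain ⟨g, hg, hgf⟩ := anal_iff.1 h0
    refine anal_iff.2 ⟨g, hg, ?_⟩
    filter_upwards [hgf, hUo.mem_nhds hx] with y hy hy2
    rw [← hy]
    exact if_pos hy2
  have hfL : ∀ x, ∃ W ∈ 𝓝 x, ∫⁻ y in W, ‖f y‖ₑ ^ 2 ∂(Measure.pi fun _ : Fin (k + 1) => μ) < ⊤ := by
    intro x
    refine ⟨{y | ‖Dl y‖ₑ < ‖Dl x‖ₑ + 1}, ?_, ?_⟩
    · have hc : Continuous fun y => ‖Dl y‖ₑ := continuous_enorm.comp hDc
      refine (isOpen_lt hc continuous_const).mem_nhds ?_
      exact ENNReal.lt_add_right enorm_ne_top one_ne_zero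
    · have hC : (‖Dl x‖ₑ + 1) ^ (2 * α) ≠ ∞ :=
        ENNReal.rpow_ne_top_of_nonneg (by positivity) (ENNReal.add_ne_top.2 ⟨enorm_ne_top, by simp⟩)
      calc ∫⁻ y in {y | ‖Dl y‖ₑ < ‖Dl x‖ₑ + 1}, ‖f y‖ₑ ^ 2 ∂(Measure.pi fun _ : Fin (k + 1) => μ)
          ≤ ∫⁻ y in {y | ‖Dl y‖ₑ < ‖Dl x‖ₑ + 1}, (‖Dl x‖ₑ + 1) ^ (2 * α) *
              (‖b y‖ₑ ^ 2 * ‖Dl y‖ₑ ^ (2 / (N : ℝ))) ∂(Measure.pi fun _ : Fin (k + 1) => μ) := by
            refine setLIntegral_mono' (isOpen_lt (continuous_enorm.comp hDc)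
              continuous_const).measurableSet fun y hy => ?_
            by_cases hy0 : Dl y ≠ 0
            · have h1 : f y = b y * Dl y := if_pos hy0
              have h2 : ‖Dl y‖ₑ ^ 2 = ‖Dl y‖ₑ ^ (2 * α) * ‖Dl y‖ₑ ^ (2 / (N : ℝ)) := by
                rw [← ENNReal.rpow_add _ _ (enorm_ne_zero.2 hy0) enorm_ne_top, h2α,
                  sub_add_cancel, ENNReal.rpow_two]
              rw [h1, enorm_mul, mul_pow, h2]
              calc ‖b y‖ₑ ^ 2 * (‖Dl y‖ₑ ^ (2 * α) * ‖Dl y‖ₑ ^ (2 / (N : ℝ)))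
                  = ‖Dl y‖ₑ ^ (2 * α) * (‖b y‖ₑ ^ 2 * ‖Dl y‖ₑ ^ (2 / (N : ℝ))) := by ring
                _ ≤ _ := by
                  gcongr
                  exact le_of_lt hy
            · have h1 : f y = 0 := if_neg hy0
              rw [h1]; simp
        _ ≤ ∫⁻ y, (‖Dl x‖ₑ + 1) ^ (2 * α) *
              (‖b y‖ₑ ^ 2 * ‖Dl y‖ₑ ^ (2 / (N : ℝ))) ∂(Measure.pi fun _ : Fin (k + 1) => μ) :=
            setLIntegral_le_lintegral _ _
        _ = (‖Dl x‖ₑ + 1) ^ (2 * α) * ∫⁻ y,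
              (‖b y‖ₑ ^ 2 * ‖Dl y‖ₑ ^ (2 / (N : ℝ))) ∂(Measure.pi fun _ : Fin (k + 1) => μ) :=
            lintegral_const_mul' _ _ hC
        _ < ⊤ := ENNReal.mul_lt_top (lt_top_iff_ne_top.2 hC) (lt_top_iff_ne_top.2 hint)
  obtain ⟨u, hu, huf⟩ := ext_sq hπ hDh hDfr hfm hfa hfL
  have huc : Continuous u := HolA.cont hu
  have hub : ∀ x, Dl x ≠ 0 → u x = b x * Dl x := fun x hx => (huf x hx).trans (if_pos hx)
  have hdense : Dense {x | Dl x ≠ 0} := fun x => mem_closure_iff_frequently.2 (hDfr x)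
  have halt : ∀ (π : Equiv.Perm (Fin (k + 1))) (x : Fin (k + 1) → M),
      u (x ∘ π) = ((Equiv.Perm.sign π : ℤ) : ℂ) * u x := by
    intro π
    have hc1 : Continuous fun x : Fin (k + 1) → M => u (x ∘ π) :=
      huc.comp (continuous_pi fun i => continuous_apply (π i))
    have hc2 : Continuous fun x : Fin (k + 1) → M => ((Equiv.Perm.sign π : ℤ) : ℂ) * u x :=
      continuous_const.mul huc
    have h1 := hc1.ext_on hdense hc2 fun x hx => by
      have h2 : Dl (x ∘ π) = ((Equiv.Perm.sign π : ℤ) : ℂ) * Dl x := alt_perm σ π x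
      have h3 : ((Equiv.Perm.sign π : ℤ) : ℂ) ≠ 0 := by
        rcases Int.units_eq_one_or (Equiv.Perm.sign π) with h | h <;> simp [h]
      have h4 : Dl (x ∘ π) ≠ 0 := by rw [h2]; exact mul_ne_zero h3 hx
      show u (x ∘ π) = ((Equiv.Perm.sign π : ℤ) : ℂ) * u x
      rw [hub _ h4, hub _ hx, hsym π x hx, h2]
      ring
    exact fun x => congrFun h1 x
  have hint2 : ∫⁻ x, ‖u x‖ₑ ^ 2 * ‖alt σ x‖ₑ ^ (-(2 * α))
      ∂(Measure.pi fun _ : Fin (k + 1) => μ) ≠ ∞ := by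
    have h1 : ∫⁻ x, ‖u x‖ₑ ^ 2 * ‖alt σ x‖ₑ ^ (-(2 * α)) ∂(Measure.pi fun _ : Fin (k + 1) => μ)
        = ∫⁻ x, ‖b x‖ₑ ^ 2 * ‖alt σ x‖ₑ ^ (2 / (N : ℝ))
          ∂(Measure.pi fun _ : Fin (k + 1) => μ) := by
      refine lintegral_congr_ae ?_
      filter_upwards [hDae] with x hx
      have hx' : ‖alt σ x‖ₑ ≠ 0 := enorm_ne_zero.2 hx
      rw [hub x hx, enorm_mul, mul_pow, mul_assoc]
      congr 1
      show ‖alt σ x‖ₑ ^ 2 * ‖alt σ x‖ₑ ^ (-(2 * α)) = _
      rw [← ENNReal.rpow_two, ← ENNReal.rpow_add _ _ hx' enorm_ne_top, h2α]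
      congr 1
      ring
    rw [h1]
    exact hint
  obtain ⟨C, hC⟩ := alternating_line (μ := μ) hVc hNZ (HH := {f : M → ℂ | HolA f}) (a := 2 * α) hCl σ
    hLI hV.symm huc (fun j y => holA_slice hu j y) hint2 halt
  refine ⟨C, fun x hx => ?_⟩
  have h1 := hub x hx
  rw [hC x] at h1
  exact (mul_right_cancel₀ hx h1).symm

end pw

end Crest.Agent.R276.Hone_425
end
end

-- ▼ part R276/Hone2_425
section

/-!
# Row 276 (S0419), `hone`, part 2 (helper425): the isotypic part of the top piece of the root cover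

`F : FSp m r S Y`, `σ_i : Y → ℂ`, `δ = det σ_i(y_j)` on the `s`-fold fibre power, `Root δ N` the root
cover `η ^ N = δ ≠ 0`.  `hone`: a function on the fibre of the root cover over `u`, holomorphic, square
integrable and equivariant under `(y, η) ↦ (y ∘ π, ζ η)`, `ζ ^ N = sign π`, is a multiple of `η`.
-/

set_option autoImplicit false
set_option linter.unusedSectionVars false

noncomputable section

open Set Filter Topology MeasureTheory
open Crest.Agent.R271 Crest.Agent.R271.Ho51 Crest.Agent.R276.AB2_590 Crest.Agent.R276.Restr_236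
open Crest.Agent.R276.GeoN_348 Crest.Agent.R276.Iso_425 Crest.Agent.R276.Top8_815
open Crest.Agent.R276.Cov_425 Crest.Agent.R276.Rc_348
open scoped ENNReal

namespace Crest.Agent.R276.Hone_425

variable {m r : ℕ} {S Y : Type*} [TopologicalSpace S] [RDom m S] [TopologicalSpace Y]

instance sct_fib [SecondCountableTopology Y] (F : FSp m r S Y) (u : S) :
    SecondCountableTopology (Fib F u) :=
  (Topology.IsInducing.mk rfl : Topology.IsInducing
    (Subtype.val : Fib F u → Y)).secondCountableTopology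

section pts

variable (F : FSp m r S Y) {s : ℕ} {u : S}

/-- the point of the fibre power given by a tuple of points of the fibre -/
def pt (x : Fin s → Fib F u) : FPow F s := ⟨(u, fun i => (x i).1), fun i => (x i).2⟩

lemma continuous_pt : Continuous (pt F : (Fin s → Fib F u) → FPow F s) := by
  refine Continuous.subtype_mk ?_ _
  exact continuous_const.prodMk (continuous_pi fun i =>
    continuous_subtype_val.comp (continuous_apply i))

end pts

variable {F : FSp m r S Y} {s : ℕ} {σ : Fin s → Y → ℂ} {δ : FPow F s → ℂ} {N : ℕ}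

/-- the sections on the fibre -/
def sgf (F : FSp m r S Y) (σ : Fin s → Y → ℂ) (u : S) (i : Fin s) (y : Fib F u) : ℂ := σ i y.1

lemma dl_pt (hδσ : ∀ p : FPow F s, δ p = (Matrix.of fun i j => σ i (p.1.2 j)).det) {u : S}
    (x : Fin s → Fib F u) : δ (pt F x) = alt (sgf F σ u) x := by
  rw [hδσ]
  rfl

section bfun

variable (hδσ : ∀ p : FPow F s, δ p = (Matrix.of fun i j => σ i (p.1.2 j)).det) (u : S)

/-- point of the root cover -/
def mkR {u : S} (x : Fin s → Fib F u) (η : ℂ) (h : η ^ N = alt (sgf F σ u) x)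
    (h0 : alt (sgf F σ u) x ≠ 0) : Root δ N :=
  ⟨(pt F x, η), by rw [dl_pt hδσ]; exact h, by rw [dl_pt hδσ]; exact h0⟩

/-- a root -/
def rt0 (N : ℕ) (a : ℂ) : ℂ := a ^ ((N : ℂ)⁻¹)

lemma rt0_pow (hN : N ≠ 0) (a : ℂ) : rt0 N a ^ N = a := Complex.cpow_nat_inv_pow a hN

open Classical in
/-- the quotient `f / η` -/
def bq (hN : N ≠ 0) (f : Root δ N → ℂ) (x : Fin s → Fib F u) : ℂ :=
  if h : alt (sgf F σ u) x ≠ 0 then
    f (mkR hδσ x (rt0 N (alt (sgf F σ u) x)) (rt0_pow hN _) h) / rt0 N (alt (sgf F σ u) x) else 0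

end bfun

variable (hδσ : ∀ p : FPow F s, δ p = (Matrix.of fun i j => σ i (p.1.2 j)).det) {u : S}
  (hN : N ≠ 0) {f : Root δ N → ℂ}

/-- equivariance under `(y, η) ↦ (y ∘ π, ζ η)`, `ζ ^ N = sign π` -/
def Eqv (u : S) (f : Root δ N → ℂ) : Prop :=
  ∀ (π : Equiv.Perm (Fin s)) (ζ : ℂ), ζ ^ N = ((Equiv.Perm.sign π : ℤ) : ℂ) → ∀ y y' : Root δ N,
    y.1.1.1.1 = u → y'.1.1.1.1 = u → y'.1.1.1.2 = y.1.1.1.2 ∘ π → y'.1.2 = ζ * y.1.2 →
    f y' = ζ * f y

lemma root_ne {a η : ℂ} (hN : N ≠ 0) (h : η ^ N = a) (h0 : a ≠ 0) : η ≠ 0 := by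
  rintro rfl
  rw [zero_pow hN] at h
  exact h0 h.symm

lemma bq_eq (hf : Eqv u f) {x : Fin s → Fib F u} (h0 : alt (sgf F σ u) x ≠ 0) {η : ℂ}
    (h : η ^ N = alt (sgf F σ u) x) : bq hδσ u hN f x = f (mkR hδσ x η h h0) / η := by
  unfold bq
  rw [dif_pos h0]
  set η₀ := rt0 N (alt (sgf F σ u) x) with hη₀
  have h1 : η₀ ^ N = alt (sgf F σ u) x := rt0_pow hN _
  have hn0 : η₀ ≠ 0 := root_ne hN h1 h0
  have hn : η ≠ 0 := root_ne hN h h0
  have h2 := hf 1 (η / η₀) (by rw [div_pow, h, h1, div_self h0]; simp)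
    (mkR hδσ x η₀ h1 h0) (mkR hδσ x η h h0) rfl rfl rfl (by
      show η = η / η₀ * η₀
      rw [div_mul_cancel₀ _ hn0])
  show f (mkR hδσ x η₀ h1 h0) / η₀ = _
  rw [h2]
  field_simp

lemma bq_symm (hf : Eqv u f) {x : Fin s → Fib F u} (h0 : alt (sgf F σ u) x ≠ 0)
    (π : Equiv.Perm (Fin s)) : bq hδσ u hN f (x ∘ π) = bq hδσ u hN f x := by
  set η := rt0 N (alt (sgf F σ u) x) with hη
  have h1 : η ^ N = alt (sgf F σ u) x := rt0_pow hN _
  have hn : η ≠ 0 := root_ne hN h1 h0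
  set ζ := rt0 N ((Equiv.Perm.sign π : ℤ) : ℂ) with hζ
  have h2 : ζ ^ N = ((Equiv.Perm.sign π : ℤ) : ℂ) := rt0_pow hN _
  have hs : ((Equiv.Perm.sign π : ℤ) : ℂ) ≠ 0 := by
    rcases Int.units_eq_one_or (Equiv.Perm.sign π) with h | h <;> simp [h]
  have hζ0 : ζ ≠ 0 := root_ne hN h2 hs
  have h3 : alt (sgf F σ u) (x ∘ π) = ((Equiv.Perm.sign π : ℤ) : ℂ) * alt (sgf F σ u) x :=
    alt_perm _ π x
  have h4 : alt (sgf F σ u) (x ∘ π) ≠ 0 := by rw [h3]; exact mul_ne_zero hs h0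
  have h5 : (ζ * η) ^ N = alt (sgf F σ u) (x ∘ π) := by rw [mul_pow, h1, h2, h3]
  rw [bq_eq hδσ hN hf h4 h5, bq_eq hδσ hN hf h0 h1]
  have h6 := hf π ζ h2 (mkR hδσ x η h1 h0) (mkR hδσ (x ∘ π) (ζ * η) h5 h4) rfl rfl rfl rfl
  rw [h6]
  field_simp

lemma bq_anal (hδ : Continuous δ) (hσ : ∀ i, HolA (sgf F σ u i)) (hf : Eqv u f)
    (hFH : (root (pow F s) hδ hN).FH u f) {x₀ : Fin s → Fib F u}
    (h0 : alt (sgf F σ u) x₀ ≠ 0) :
    AnalyticAt ℂ (bq hδσ u hN f ∘ (@ch (s * r) (Fin s → Fib F u) _ (rdPi r (Fib F u) s) x₀).symm)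
      (@RDom.p (s * r) (Fin s → Fib F u) _ (rdPi r (Fib F u) s) x₀) := by
  classical
  let _ := rdPi r (Fib F u) s
  have hD : HolA (alt (sgf F σ u)) := holA_alt hσ
  have hDc : Continuous (alt (sgf F σ u)) := HolA.cont hD
  obtain ⟨Dg, hDg, hDgf⟩ := anal_iff.1 (hD x₀)
  set η₀ := rt0 N (alt (sgf F σ u) x₀) with hη₀
  have h1 : η₀ ^ N = alt (sgf F σ u) x₀ := rt0_pow hN _
  have hn : η₀ ≠ 0 := root_ne hN h1 h0
  set δ₀ := alt (sgf F σ u) x₀ with hδ₀
  set y₀ : Root δ N := mkR hδσ x₀ η₀ h1 h0 with hy₀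
  obtain ⟨g, hg, hgf⟩ := hFH y₀ rfl
  have hslit : δ₀ / δ₀ ∈ Complex.slitPlane := by
    rw [div_self h0]; exact Complex.one_mem_slitPlane
  -- the section
  set sec : (Fin s → Fib F u) → Root δ N := fun x =>
    if h : alt (sgf F σ u) x ≠ 0 then
      mkR hδσ x (lroot N η₀ δ₀ (alt (sgf F σ u) x)) (lroot_pow hN h1 h0 h) h else y₀ with hsec
  have hne : ∀ᶠ x in 𝓝 x₀, alt (sgf F σ u) x ≠ 0 := hDc.continuousAt.eventually_ne h0
  have hsecv : ∀ᶠ x in 𝓝 x₀, (sec x).1 = (pt F x, lroot N η₀ δ₀ (alt (sgf F σ u) x)) := by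
    filter_upwards [hne] with x hx
    rw [hsec]
    simp only
    rw [dif_pos hx]
    rfl
  have htend : Tendsto sec (𝓝 x₀) (𝓝 y₀) := by
    rw [tendsto_subtype_rng]
    have h2 : Tendsto (fun x => (pt F x, lroot N η₀ δ₀ (alt (sgf F σ u) x))) (𝓝 x₀)
        (𝓝 (pt F x₀, η₀)) := by
      refine Tendsto.prodMk_nhds (continuous_pt F).continuousAt ?_
      have h3 : ContinuousAt (lroot N η₀ δ₀) (alt (sgf F σ u) x₀) :=
        (lroot_analyticAt h0 hslit).continuousAt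
      have h4 : ContinuousAt (fun x => lroot N η₀ δ₀ (alt (sgf F σ u) x)) x₀ :=
        ContinuousAt.comp (g := lroot N η₀ δ₀) h3 hDc.continuousAt
      have h5 : lroot N η₀ δ₀ (alt (sgf F σ u) x₀) = η₀ := lroot_self h0
      rw [ContinuousAt, h5] at h4
      exact h4
    exact h2.congr' (hsecv.mono fun x hx => hx.symm)
  have hDg0 : Dg (cp x₀) = δ₀ := (hDgf.self_of_nhds).symm
  rw [anal_iff]
  refine ⟨fun τ => g τ / lroot N η₀ δ₀ (Dg τ), ?_, ?_⟩
  · refine AnalyticAt.div hg ?_ ?_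
    · refine AnalyticAt.comp (g := lroot N η₀ δ₀) (f := Dg) ?_ hDg
      rw [hDg0]
      exact lroot_analyticAt h0 hslit
    · rw [hDg0, lroot_self h0]
      exact hn
  · filter_upwards [hne, htend.eventually hgf, hDgf] with x hx hx2 hx3
    have h6 : sec x = mkR hδσ x (lroot N η₀ δ₀ (alt (sgf F σ u) x)) (lroot_pow hN h1 h0 hx) hx :=
      dif_pos hx
    rw [bq_eq hδσ hN hf hx (lroot_pow hN h1 h0 hx), ← h6, ← hx3, hx2 (by rw [h6]; rfl), h6]
    rfl

/-- the measure of the fibre -/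
lemma lint_le [T2Space Y] [SecondCountableTopology Y] [MeasurableSpace (Fib F u)]
    [BorelSpace (Fib F u)] (hδ : Continuous δ) {μ : Measure (Fib F u)}
    (hμ : IsLeb μ) (hσ : ∀ i, HolA (sgf F σ u i)) (hf : Eqv u f)
    (hFH : (root (pow F s) hδ hN).FH u f) :
    ∫⁻ x, ‖bq hδσ u hN f x‖ₑ ^ 2 * ‖alt (sgf F σ u) x‖ₑ ^ (2 / (N : ℝ))
      ∂(Measure.pi fun _ : Fin s => μ) ≤ (root (pow F s) hδ hN).fnorm u f := by
  classical
  let _ := rdPi r (Fib F u) s
  have hD : HolA (alt (sgf F σ u)) := holA_alt hσ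
  have hDc : Continuous (alt (sgf F σ u)) := HolA.cont hD
  have hUo : IsOpen {x | alt (sgf F σ u) x ≠ 0} := isOpen_ne_fun hDc continuous_const
  have hbm : Measurable (bq hδσ u hN f) := by
    have h1 : ContinuousOn (bq hδσ u hN f) {x | alt (sgf F σ u) x ≠ 0} := fun x hx =>
      (anal_continuousAt (bq_anal hδσ hN hδ hσ hf hFH hx)).continuousWithinAt
    have h2 : bq hδσ u hN f = {x | alt (sgf F σ u) x ≠ 0}.piecewise (bq hδσ u hN f) 0 := by
      funext x
      by_cases hx : x ∈ {x | alt (sgf F σ u) x ≠ 0}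
      · rw [Set.piecewise_eq_of_mem _ _ _ hx]
      · rw [Set.piecewise_eq_of_notMem _ _ _ hx]
        exact dif_neg hx
    rw [h2]
    exact h1.measurable_piecewise (continuous_const (y := (0 : ℂ))).continuousOn hUo.measurableSet
  have hm : Measurable fun x : Fin s → Fib F u =>
      ‖bq hδσ u hN f x‖ₑ ^ 2 * ‖alt (sgf F σ u) x‖ₑ ^ (2 / (N : ℝ)) :=
    (hbm.enorm.pow_const 2).mul (hDc.measurable.enorm.pow_const _)
  rw [lintegral_pi_fibre hμ hm]
  unfold FSp.fnorm FSp.fint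
  refine lintegral_mono fun τ => ?_
  set A := {y : Fin s → Fib F u // ∀ j, (cp (y j) : Fin r → ℂ) = GeoY_519.blk τ j}
  have h1 : ∑' y : A, ‖bq hδσ u hN f y.1‖ₑ ^ 2 * ‖alt (sgf F σ u) y.1‖ₑ ^ (2 / (N : ℝ))
      = ∑' y : {y : A // alt (sgf F σ u) y.1 ≠ 0}, ‖bq hδσ u hN f y.1.1‖ₑ ^ 2 *
        ‖alt (sgf F σ u) y.1.1‖ₑ ^ (2 / (N : ℝ)) := by
    symm
    refine tsum_subtype_eq_of_support_subset (s := {y : A | alt (sgf F σ u) y.1 ≠ 0})
      (f := fun y : A => ‖bq hδσ u hN f y.1‖ₑ ^ 2 * ‖alt (sgf F σ u) y.1‖ₑ ^ (2 / (N : ℝ))) ?_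
    intro y hy
    by_contra h
    apply hy
    have : bq hδσ u hN f y.1 = 0 := dif_neg h
    simp [this]
  refine (le_of_eq h1).trans ?_
  set B := {y : Root δ N // (root (pow F s) hδ hN).q y = u ∧ (root (pow F s) hδ hN).t y = τ}
  let e : {y : A // alt (sgf F σ u) y.1 ≠ 0} → B := fun y =>
    ⟨mkR hδσ y.1.1 (rt0 N (alt (sgf F σ u) y.1.1)) (rt0_pow hN _) y.2, rfl, by
      show unblk (fun i => F.t (y.1.1 i).1) = τ
      apply GeoY_519.blk_ext
      intro j
      rw [← y.1.2 j]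
      exact blk_unblk (fun i => F.t (y.1.1 i).1) j⟩
  have hinj : Function.Injective e := by
    intro y y' h
    have h2 : (e y).1.1.1.1.2 = (e y').1.1.1.1.2 := by rw [h]
    apply Subtype.ext
    apply Subtype.ext
    funext i
    apply Subtype.ext
    exact congrFun h2 i
  refine le_trans (le_of_eq ?_) (ENNReal.tsum_comp_le_tsum_of_injective hinj
    (fun y : B => ‖f y.1‖ₑ ^ 2))
  refine tsum_congr fun y => ?_
  show _ = ‖f (mkR hδσ y.1.1 (rt0 N (alt (sgf F σ u) y.1.1)) (rt0_pow hN _) y.2)‖ₑ ^ 2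
  have h3 := rt0_pow hN (alt (sgf F σ u) y.1.1)
  rw [bq_eq hδσ hN hf y.2 h3]
  set η := rt0 N (alt (sgf F σ u) y.1.1) with hη
  have hn : η ≠ 0 := root_ne hN h3 y.2
  have h4 : ‖alt (sgf F σ u) y.1.1‖ₑ ^ (2 / (N : ℝ)) = ‖η‖ₑ ^ 2 := by
    rw [← h3, enorm_pow, ← ENNReal.rpow_natCast, ← ENNReal.rpow_mul, mul_div_cancel₀,
      ENNReal.rpow_two]
    exact_mod_cast hN
  rw [h4, ← mul_pow, ← enorm_mul, div_mul_cancel₀ _ hn]

include hδσ in
/-- **(ONE)** -/
theorem hone [T2Space Y] [SecondCountableTopology Y] [MeasurableSpace (Fib F u)]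
    [BorelSpace (Fib F u)] [PreconnectedSpace (Fib F u)] (hδ : Continuous δ) (hN2 : 2 ≤ N)
    (hs : s ≠ 0) {μ : Measure (Fib F u)} (hμ : IsLeb μ) (hσ : ∀ i, HolA (sgf F σ u i))
    (hli : ∀ a : Fin s → ℂ, (∀ y : Fib F u, ∑ i, a i * σ i y.1 = 0) → a = 0)
    (hcl : ∀ g : Fib F u → ℂ, HolA g →
      ∫⁻ y, ‖g y‖ₑ ^ 2 * (∑ i, ‖σ i y.1‖ₑ ^ 2) ^ (-((N - 1 : ℝ) / N)) ∂μ ≠ ∞ →
      ∃ a : Fin s → ℂ, ∀ y, g y = ∑ i, a i * σ i y.1)
    (hf : Eqv u f) (hFH : (root (pow F s) hδ hN).FH u f)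
    (hfin : (root (pow F s) hδ hN).fnorm u f < ∞) :
    ∃ c : ℂ, ∀ y : Root δ N, y.1.1.1.1 = u → f y = c * y.1.2 := by
  obtain ⟨k, rfl⟩ := Nat.exists_eq_succ_of_ne_zero hs
  obtain ⟨C, hC⟩ := line_abs hμ hN2 (σ := sgf F σ u) hσ hli hcl (b := bq hδσ u hN f)
    (fun x hx => bq_anal hδσ hN hδ hσ hf hFH hx) (fun π x hx => bq_symm hδσ hN hf hx π)
    (ne_of_lt ((lint_le hδσ hN hδ hμ hσ hf hFH).trans_lt hfin))
  refine ⟨C, fun y hy => ?_⟩
  set x : Fin (k + 1) → Fib F u := fun i => ⟨y.1.1.1.2 i, (y.1.1.2 i).trans hy⟩ with hx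
  have hpt : pt F x = y.1.1 := Subtype.ext (Prod.ext hy.symm rfl)
  have h1 : δ y.1.1 = alt (sgf F σ u) x := by rw [← dl_pt hδσ, hpt]
  have h2 : y.1.2 ^ N = alt (sgf F σ u) x := y.2.1.trans h1
  have h3 : alt (sgf F σ u) x ≠ 0 := by rw [← h1]; exact y.2.2
  have h4 : mkR hδσ x y.1.2 h2 h3 = y := Subtype.ext (Prod.ext hpt rfl)
  have h5 := bq_eq hδσ hN hf h3 h2
  rw [hC x h3, h4] at h5
  have h6 : y.1.2 ≠ 0 := root_ne hN h2 h3
  rw [h5, div_mul_cancel₀ _ h6]

end Crest.Agent.R276.Hone_425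
end
end

-- ▼ part R276/SubA_605
section

/-!
# R276, GVHS-SUB (helper605): sub-variation with lattice

* `ic B` : an integral matrix as complex matrix.
* `isHS_sub`, `hpr_sub`, `weil_sub`, `hodge_sub` : linear algebra of a sub Hodge structure.
* `IsSub V B C V'` : `V'` is the sub-variation of `V` with (saturated) lattice basis `B`.
* `exists_isSub` : existence from a flat, `E`-stable `B`.
* `IsSub.*` : Hodge norm, sections, derivatives, chain transports.
-/

set_option autoImplicit false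

noncomputable section

open Set Filter Topology Matrix

namespace Crest.Agent.R276.Sub_605

open Crest.Agent.R271.Ho51 Crest.Agent.R276.Ipc735 Crest.Agent.R276.Hull_574
  Crest.Agent.R276.Tr_617 Crest.Agent.R276.Top8_815 Crest.Agent.R276.VPull_327

/-! ### integral matrices -/

/-- an integral matrix as complex matrix -/
def ic {a b : Type*} (B : Matrix a b ℤ) : Matrix a b ℂ := B.map (fun n : ℤ => (n : ℂ))

section ic

variable {a b c : Type*}

theorem ic_apply (B : Matrix a b ℤ) (i : a) (j : b) : ic B i j = (B i j : ℂ) := rfl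

theorem ic_mul [Fintype b] (A : Matrix a b ℤ) (B : Matrix b c ℤ) : ic (A * B) = ic A * ic B :=
  Matrix.map_mul (f := Int.castRingHom ℂ)

theorem ic_one [DecidableEq a] : ic (1 : Matrix a a ℤ) = 1 := by
  ext i j
  by_cases h : i = j
  · subst h; simp [ic]
  · simp [ic, Matrix.one_apply_ne h]

theorem ic_injective : Function.Injective (ic : Matrix a b ℤ → Matrix a b ℂ) := by
  intro A B h
  ext i j
  have h1 : ic A i j = ic B i j := by rw [h]
  rw [ic_apply, ic_apply] at h1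
  exact_mod_cast h1

theorem ic_gl {N : ℕ} (g : GL (Fin N) ℤ) : ic (g : Matrix (Fin N) (Fin N) ℤ) = cm g := rfl

theorem ic_mulVec_zv {N r : ℕ} (B : Matrix (Fin N) (Fin r) ℤ) (v : Fin r → ℤ) :
    ic B *ᵥ zv v = zv (B *ᵥ v) := by
  ext i
  simp [zv, ic, Matrix.mulVec, dotProduct]

end ic

/-! ### linear algebra of a sub Hodge structure -/

section lin

variable {N r w : ℕ} {S E : Matrix (Fin N) (Fin N) ℂ} {B : Matrix (Fin N) (Fin r) ℂ}
  {C : Matrix (Fin r) (Fin N) ℂ} {E' : Matrix (Fin r) (Fin r) ℂ}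

theorem pow_sub (h : E * B = B * E') (n : ℕ) : E ^ n * B = B * E' ^ n := by
  induction n with
  | zero => rw [pow_zero, pow_zero, Matrix.one_mul, Matrix.mul_one]
  | succ n ih =>
    rw [pow_succ, pow_succ, Matrix.mul_assoc, h, ← Matrix.mul_assoc, ih, Matrix.mul_assoc]

theorem aeval_sub (h : E * B = B * E') (q : Polynomial ℂ) :
    Polynomial.aeval E q * B = B * Polynomial.aeval E' q := by
  rw [Polynomial.aeval_eq_sum_range, Polynomial.aeval_eq_sum_range, Matrix.sum_mul,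
    Matrix.mul_sum]
  refine Finset.sum_congr rfl fun i _ => ?_
  rw [Matrix.smul_mul, Matrix.mul_smul, pow_sub h]

theorem hpr_sub (h : E * B = B * E') (p : ℕ) : hpr w p E * B = B * hpr w p E' := aeval_sub h _

theorem weil_sub (h : E * B = B * E') : weil w E * B = B * weil w E' := by
  rw [weil, weil, Matrix.sum_mul, Matrix.mul_sum]
  refine Finset.sum_congr rfl fun p _ => ?_
  rw [Matrix.smul_mul, Matrix.mul_smul, hpr_sub h]

theorem hodge_sub (h : E * B = B * E') :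
    hodge w (Bᴴ * S * B) E' = Bᴴ * hodge w S E * B := by
  have h1 := weil_sub (w := w) h
  calc Bᴴ * S * B * weil w E' = Bᴴ * S * (B * weil w E') := by rw [Matrix.mul_assoc]
    _ = Bᴴ * (S * weil w E) * B := by rw [← h1]; simp only [Matrix.mul_assoc]

theorem dot_sub (A : Matrix (Fin N) (Fin N) ℂ) (u v : Fin r → ℂ) :
    star u ⬝ᵥ (Bᴴ * A * B) *ᵥ v = star (B *ᵥ u) ⬝ᵥ A *ᵥ (B *ᵥ v) := by
  rw [star_mulVec, ← mulVec_mulVec, ← mulVec_mulVec, ← dotProduct_mulVec]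

theorem mulVec_inj (hCB : C * B = 1) {u v : Fin r → ℂ} (h : B *ᵥ u = B *ᵥ v) : u = v := by
  have h1 := congrArg (fun t => C *ᵥ t) h
  simpa only [mulVec_mulVec, hCB, one_mulVec] using h1

theorem mul_inj (hCB : C * B = 1) {k : ℕ} {A A' : Matrix (Fin r) (Fin k) ℂ} (h : B * A = B * A') :
    A = A' := by
  have h1 := congrArg (fun t => C * t) h
  simpa only [← Matrix.mul_assoc, hCB, Matrix.one_mul] using h1

theorem isHS_sub (hs : IsHS w S E) (hCB : C * B = 1) (hE : E * B = B * E') :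
    IsHS w (Bᴴ * S * B) E' := by
  constructor
  · have h1 := hs.herm
    unfold Matrix.IsHermitian at h1 ⊢
    rw [conjTranspose_mul, conjTranspose_mul, conjTranspose_conjTranspose, h1, Matrix.mul_assoc]
  · have e1 : Bᴴ * S * B * E' = Bᴴ * (S * E) * B := by
      rw [Matrix.mul_assoc (Bᴴ * S), ← hE]
      simp only [Matrix.mul_assoc]
    have e2 : E'ᴴ * (Bᴴ * S * B) = Bᴴ * (Eᴴ * S) * B := by
      have h2 : E'ᴴ * Bᴴ = Bᴴ * Eᴴ := by
        rw [← conjTranspose_mul, ← hE, conjTranspose_mul]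
      calc E'ᴴ * (Bᴴ * S * B) = (E'ᴴ * Bᴴ) * S * B := by simp only [Matrix.mul_assoc]
        _ = Bᴴ * (Eᴴ * S) * B := by rw [h2]; simp only [Matrix.mul_assoc]
    rw [e1, e2, hs.adj]
  · apply mul_inj hCB
    rw [← aeval_sub hE, hs.eig, Matrix.zero_mul, Matrix.mul_zero]
  · intro p v hp hv he
    have h1 : B *ᵥ v ≠ 0 := by
      intro h0
      exact hv (mulVec_inj hCB (by rw [h0, mulVec_zero]))
    have h2 : E *ᵥ (B *ᵥ v) = (p : ℂ) • (B *ᵥ v) := by
      rw [mulVec_mulVec, hE, ← mulVec_mulVec, he, mulVec_smul]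
    have h3 := hs.pos p _ hp h1 h2
    rw [dot_sub]
    exact h3


end lin

/-! ### rules for `SmAt`, `HolAt`, `dz` -/

section rules

variable {m : ℕ} {X : Type*} [TopologicalSpace X] [RDom m X]

theorem tendsto_ch (z : X) : Tendsto (ch z).symm (𝓝 (cp z)) (𝓝 z) := by
  have := (ch z).symm.continuousAt (x := cp z) (by simpa using (isCh_ch z).cp_mem (mem_ch z))
  rwa [ContinuousAt, (isCh_ch z).symm_cp (mem_ch z)] at this

theorem smAt_congr {G : Type*} [NormedAddCommGroup G] [NormedSpace ℝ G] {f g : X → G} {z : X}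
    (h : SmAt f z) (hfg : f =ᶠ[𝓝 z] g) : SmAt g z := by
  refine ContDiffAt.congr_of_eventuallyEq h ?_
  filter_upwards [(tendsto_ch z).eventually hfg] with c hc
  simpa using hc.symm

theorem holAt_congr {G : Type*} [NormedAddCommGroup G] [NormedSpace ℂ G] {f g : X → G} {z : X}
    (h : HolAt f z) (hfg : f =ᶠ[𝓝 z] g) : HolAt g z := by
  refine AnalyticAt.congr h ?_
  filter_upwards [(tendsto_ch z).eventually hfg] with c hc
  simpa using hc

theorem smAt_sum {κ : Type*} (s : Finset κ) {f : κ → X → ℂ} {z : X}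
    (h : ∀ i ∈ s, SmAt (f i) z) : SmAt (fun y => ∑ i ∈ s, f i y) z := by
  have h2 : (fun y => ∑ i ∈ s, f i y) ∘ (ch z).symm =
      fun c => ∑ i ∈ s, (f i ∘ (ch z).symm) c := rfl
  unfold SmAt
  rw [h2]
  exact ContDiffAt.sum fun i hi => h i hi

theorem smAt_const_mul (c : ℂ) {f : X → ℂ} {z : X} (h : SmAt f z) :
    SmAt (fun y => c * f y) z := SmAt.mul (SmAt.const c) h

theorem smAt_mul_const (c : ℂ) {f : X → ℂ} {z : X} (h : SmAt f z) :
    SmAt (fun y => f y * c) z := SmAt.mul h (SmAt.const c)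

theorem dz_const_mul_at (c : ℂ) {f : X → ℂ} {z : X} (h : SmAt f z) (j : Fin m) :
    dz j (fun y => c * f y) z = c * dz j f z := by
  rw [dz_mul_at (SmAt.const c) h, dz_const, zero_mul, zero_add]

theorem dz_mul_const_at (c : ℂ) {f : X → ℂ} {z : X} (h : SmAt f z) (j : Fin m) :
    dz j (fun y => f y * c) z = dz j f z * c := by
  rw [dz_mul_at h (SmAt.const c), dz_const, mul_zero, add_zero]

/-- entrywise smooth matrix functions -/
theorem smAt_mul_left {a b c : Type*} [Fintype b] (A : Matrix a b ℂ) {F : X → Matrix b c ℂ} {z : X}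
    (h : ∀ i k, SmAt (fun y => F y i k) z) (i : a) (k : c) : SmAt (fun y => (A * F y) i k) z := by
  simp only [Matrix.mul_apply]
  exact smAt_sum _ fun l _ => smAt_const_mul _ (h l k)

theorem smAt_mul_right {a b c : Type*} [Fintype b] {F : X → Matrix a b ℂ} (A : Matrix b c ℂ) {z : X}
    (h : ∀ i k, SmAt (fun y => F y i k) z) (i : a) (k : c) : SmAt (fun y => (F y * A) i k) z := by
  simp only [Matrix.mul_apply]
  exact smAt_sum _ fun l _ => smAt_mul_const _ (h i l)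

/-- entrywise `dz` of a matrix function -/
def dzM {a b : Type*} (j : Fin m) (F : X → Matrix a b ℂ) (z : X) : Matrix a b ℂ :=
  Matrix.of fun i k => dz j (fun y => F y i k) z

theorem dzM_congr {a b : Type*} {F G : X → Matrix a b ℂ} {z : X} (h : F =ᶠ[𝓝 z] G) (j : Fin m) :
    dzM j F z = dzM j G z := by
  ext i k
  exact dz_congr (h.mono fun y hy => by simp only [hy]) j

theorem dzM_mul_left {a b c : Type*} [Fintype b] (A : Matrix a b ℂ) {F : X → Matrix b c ℂ} {z : X}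
    (h : ∀ i k, SmAt (fun y => F y i k) z) (j : Fin m) :
    dzM j (fun y => A * F y) z = A * dzM j F z := by
  ext i k
  simp only [dzM, Matrix.of_apply, Matrix.mul_apply]
  rw [dz_sum_at _ (fun l _ => smAt_const_mul _ (h l k))]
  exact Finset.sum_congr rfl fun l _ => dz_const_mul_at _ (h l k) j

theorem dzM_mul_right {a b c : Type*} [Fintype b] {F : X → Matrix a b ℂ} (A : Matrix b c ℂ) {z : X}
    (h : ∀ i k, SmAt (fun y => F y i k) z) (j : Fin m) :
    dzM j (fun y => F y * A) z = dzM j F z * A := by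
  ext i k
  simp only [dzM, Matrix.of_apply, Matrix.mul_apply]
  rw [dz_sum_at _ (fun l _ => smAt_mul_const _ (h i l))]
  exact Finset.sum_congr rfl fun l _ => dz_mul_const_at _ (h i l) j


end rules

end Crest.Agent.R276.Sub_605
end
end

-- ▼ part R276/SubB_605
section

/-!
# R276, GVHS-SUB (helper605): construction of the sub-variation, transfer lemmas
-/

set_option autoImplicit false

noncomputable section

open Set Filter Topology Matrix

namespace Crest.Agent.R276.Sub_605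

open Crest.Agent.R271.Ho51 Crest.Agent.R276.Ipc735 Crest.Agent.R276.Hull_574
  Crest.Agent.R276.Tr_617 Crest.Agent.R276.Top8_815 Crest.Agent.R276.VPull_327

section cocycle

variable {X : Type*} {N r : ℕ} {P : X → X → GL (Fin N) ℤ}
  {B : X → Matrix (Fin N) (Fin r) ℤ} {C : X → Matrix (Fin r) (Fin N) ℤ}

theorem zmul_inj {C : Matrix (Fin r) (Fin N) ℤ} {B : Matrix (Fin N) (Fin r) ℤ} (hCB : C * B = 1)
    {k : ℕ} {A A' : Matrix (Fin r) (Fin k) ℤ} (h : B * A = B * A') : A = A' := by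
  have h1 := congrArg (fun t => C * t) h
  simpa only [← Matrix.mul_assoc, hCB, Matrix.one_mul] using h1

open Classical in
/-- the transports of the sub-variation -/
def subP (P : X → X → GL (Fin N) ℤ) (B : X → Matrix (Fin N) (Fin r) ℤ) (x y : X) :
    GL (Fin r) ℤ :=
  if h : ∃ g : GL (Fin r) ℤ, (P x y : Matrix (Fin N) (Fin N) ℤ) * B y
      = B x * (g : Matrix (Fin r) (Fin r) ℤ) then h.choose else 1

theorem subP_spec {x y : X} (h : ∃ g : GL (Fin r) ℤ, (P x y : Matrix (Fin N) (Fin N) ℤ) * B y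
      = B x * (g : Matrix (Fin r) (Fin r) ℤ)) :
    (P x y : Matrix (Fin N) (Fin N) ℤ) * B y
      = B x * (subP P B x y : Matrix (Fin r) (Fin r) ℤ) := by
  rw [subP, dif_pos h]
  exact h.choose_spec

/-- near every point `P x y B y = B x P' x y` -/
theorem subP_near [TopologicalSpace X] (h : NDC P)
    (hflat : ∀ z, ∀ᶠ y in 𝓝 z, ∃ k : Matrix (Fin r) (Fin r) ℤ, IsUnit k.det ∧
      (P z y : Matrix (Fin N) (Fin N) ℤ) * B y = B z * k) (z : X) :
    ∃ U ∈ 𝓝 z, (∀ x ∈ U, ∀ y ∈ U, ∀ w ∈ U, P x y * P y w = P x w) ∧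
      ∀ x ∈ U, ∀ y ∈ U, (P x y : Matrix (Fin N) (Fin N) ℤ) * B y
        = B x * (subP P B x y : Matrix (Fin r) (Fin r) ℤ) := by
  obtain ⟨U, hU, hc⟩ := h z
  refine ⟨U ∩ {y | ∃ k : Matrix (Fin r) (Fin r) ℤ, IsUnit k.det ∧
      (P z y : Matrix (Fin N) (Fin N) ℤ) * B y = B z * k}, inter_mem hU (hflat z),
    fun x hx y hy w hw => hc x hx.1 y hy.1 w hw.1, ?_⟩
  rintro x ⟨hx, k, hk, hkx⟩ y ⟨hy, l, hl, hly⟩
  have hz : z ∈ U := mem_of_mem_nhds hU
  apply subP_spec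
  obtain ⟨k', rfl⟩ : ∃ k' : GL (Fin r) ℤ, (k' : Matrix (Fin r) (Fin r) ℤ) = k :=
    (Matrix.isUnit_iff_isUnit_det k).2 hk
  obtain ⟨l', rfl⟩ : ∃ l' : GL (Fin r) ℤ, (l' : Matrix (Fin r) (Fin r) ℤ) = l :=
    (Matrix.isUnit_iff_isUnit_det l).2 hl
  refine ⟨k'⁻¹ * l', ?_⟩
  have hxx : P x x = 1 := mul_eq_left.1 (hc x hx x hx x hx)
  have h1 : P x y = P x z * P z y := (hc x hx z hz y hy).symm
  have h2 : P x z * P z x = 1 := by rw [hc x hx z hz x hx, hxx]
  -- P x z B z = B x k'⁻¹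
  have h3 : (P x z : Matrix (Fin N) (Fin N) ℤ) * B z
      = B x * ((k'⁻¹ : GL (Fin r) ℤ) : Matrix (Fin r) (Fin r) ℤ) := by
    have h4 : (P x z : Matrix (Fin N) (Fin N) ℤ) * (B z * (k' : Matrix (Fin r) (Fin r) ℤ)) = B x := by
      rw [← hkx, ← Matrix.mul_assoc, ← Units.val_mul, h2, Units.val_one, Matrix.one_mul]
    calc (P x z : Matrix (Fin N) (Fin N) ℤ) * B z
        = (P x z : Matrix (Fin N) (Fin N) ℤ) * (B z * ((k' : Matrix (Fin r) (Fin r) ℤ)
          * ((k'⁻¹ : GL (Fin r) ℤ) : Matrix (Fin r) (Fin r) ℤ))) := by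
          rw [← Units.val_mul, mul_inv_cancel, Units.val_one, Matrix.mul_one]
      _ = (P x z : Matrix (Fin N) (Fin N) ℤ) * (B z * (k' : Matrix (Fin r) (Fin r) ℤ))
          * ((k'⁻¹ : GL (Fin r) ℤ) : Matrix (Fin r) (Fin r) ℤ) := by
          simp only [Matrix.mul_assoc]
      _ = _ := by rw [h4]
  rw [h1, Units.val_mul, Matrix.mul_assoc, hly, ← Matrix.mul_assoc, h3, Units.val_mul,
    Matrix.mul_assoc]

end cocycle

variable {m N r w : ℕ} {X : Type*} [TopologicalSpace X] [RDom m X]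

/-- `V'` is the sub-variation of `V` with lattice basis `B` (and retraction `C`) -/
structure IsSub (V : VHS m X N w) (B : X → Matrix (Fin N) (Fin r) ℤ)
    (C : X → Matrix (Fin r) (Fin N) ℤ) (V' : VHS m X r w) : Prop where
  CB : ∀ x, C x * B x = 1
  E : ∀ x, V.E x * ic (B x) = ic (B x) * V'.E x
  S : ∀ x, V'.S x = (ic (B x))ᴴ * V.S x * ic (B x)
  P : ∀ z, ∀ᶠ y in 𝓝 z, (V.P z y : Matrix (Fin N) (Fin N) ℤ) * B y
    = B z * (V'.P z y : Matrix (Fin r) (Fin r) ℤ)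

theorem ic_CB {B : Matrix (Fin N) (Fin r) ℤ} {C : Matrix (Fin r) (Fin N) ℤ} (h : C * B = 1) :
    ic C * ic B = 1 := by rw [← ic_mul, h, ic_one]

omit [TopologicalSpace X] in
/-- seen from `z` -/
theorem lM_sub {P : X → X → GL (Fin N) ℤ} {P' : X → X → GL (Fin r) ℤ}
    {B : X → Matrix (Fin N) (Fin r) ℤ} {A : X → Matrix (Fin N) (Fin N) ℂ}
    {A' : X → Matrix (Fin r) (Fin r) ℂ} {z y : X}
    (hA : A y * ic (B y) = ic (B y) * A' y)
    (h : (P z y : Matrix (Fin N) (Fin N) ℤ) * B y = B z * (P' z y : Matrix (Fin r) (Fin r) ℤ)) :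
    lM P A z y * ic (B z) = ic (B z) * lM P' A' z y := by
  have h1 : cm (P z y) * ic (B y) = ic (B z) * cm (P' z y) := by
    rw [← ic_gl, ← ic_gl, ← ic_mul, ← ic_mul, h]
  have h2 : cm (P z y)⁻¹ * ic (B z) = ic (B y) * cm (P' z y)⁻¹ := by
    calc cm (P z y)⁻¹ * ic (B z) = cm (P z y)⁻¹ * (ic (B z) * cm (P' z y)) * cm (P' z y)⁻¹ := by
          rw [Matrix.mul_assoc, Matrix.mul_assoc (ic (B z)), cm_mul_inv, Matrix.mul_one]
      _ = (cm (P z y)⁻¹ * cm (P z y)) * ic (B y) * cm (P' z y)⁻¹ := by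
          rw [← h1]; simp only [Matrix.mul_assoc]
      _ = _ := by rw [cm_inv_mul, Matrix.one_mul]
  calc lM P A z y * ic (B z) = cm (P z y) * A y * (cm (P z y)⁻¹ * ic (B z)) := by
        rw [lM, Matrix.mul_assoc]
    _ = cm (P z y) * (A y * ic (B y)) * cm (P' z y)⁻¹ := by rw [h2]; simp only [Matrix.mul_assoc]
    _ = (cm (P z y) * ic (B y)) * A' y * cm (P' z y)⁻¹ := by rw [hA]; simp only [Matrix.mul_assoc]
    _ = ic (B z) * lM P' A' z y := by rw [h1, lM]; simp only [Matrix.mul_assoc]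

/-- **the sub-variation** -/
def sub (V : VHS m X N w) (B : X → Matrix (Fin N) (Fin r) ℤ) (C : X → Matrix (Fin r) (Fin N) ℤ)
    (hCB : ∀ x, C x * B x = 1)
    (hflat : ∀ z, ∀ᶠ y in 𝓝 z, ∃ k : Matrix (Fin r) (Fin r) ℤ, IsUnit k.det ∧
      (V.P z y : Matrix (Fin N) (Fin N) ℤ) * B y = B z * k)
    (hE : ∀ x, ∃ e : Matrix (Fin r) (Fin r) ℂ, V.E x * ic (B x) = ic (B x) * e) :
    VHS m X r w :=
  have hE' : ∀ x, V.E x * ic (B x) = ic (B x) * (ic (C x) * V.E x * ic (B x)) := by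
    intro x
    obtain ⟨e, he⟩ := hE x
    rw [Matrix.mul_assoc (ic (C x)), he, ← Matrix.mul_assoc (ic (C x)), ic_CB (hCB x),
      Matrix.one_mul]
  have hP : ∀ z, ∀ᶠ y in 𝓝 z, (V.P z y : Matrix (Fin N) (Fin N) ℤ) * B y
      = B z * (subP V.P B z y : Matrix (Fin r) (Fin r) ℤ) := by
    intro z
    obtain ⟨U, hU, -, h2⟩ := subP_near V.ndc hflat z
    filter_upwards [hU] with y hy
    exact h2 z (mem_of_mem_nhds hU) y hy
  have hlM : ∀ z, ∀ᶠ y in 𝓝 z, lM V.P V.E z y * ic (B z)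
      = ic (B z) * lM (subP V.P B) (fun x => ic (C x) * V.E x * ic (B x)) z y := by
    intro z
    filter_upwards [hP z] with y hy
    exact lM_sub (hE' y) hy
  have hlM2 : ∀ z, (fun y => lM (subP V.P B) (fun x => ic (C x) * V.E x * ic (B x)) z y)
      =ᶠ[𝓝 z] fun y => ic (C z) * lM V.P V.E z y * ic (B z) := by
    intro z
    filter_upwards [hlM z] with y hy
    rw [Matrix.mul_assoc, hy, ← Matrix.mul_assoc, ic_CB (hCB z), Matrix.one_mul]
  have hsm1 : ∀ z i k, SmAt (fun y => (lM V.P V.E z y * ic (B z)) i k) z := fun z i k =>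
    smAt_mul_right _ (V.smE z) i k
  have hsm : ∀ z i k, SmAt (fun y => lM (subP V.P B)
      (fun x => ic (C x) * V.E x * ic (B x)) z y i k) z := by
    intro z i k
    have h1 := smAt_mul_right (ic (B z)) (smAt_mul_left (ic (C z)) (V.smE z)) i k
    exact smAt_congr h1 ((hlM2 z).symm.mono fun y hy => congrFun (congrFun hy i) k)
  { P := subP V.P B
    S := fun x => (ic (B x))ᴴ * V.S x * ic (B x)
    E := fun x => ic (C x) * V.E x * ic (B x)
    ndc := by
      intro z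
      obtain ⟨U, hU, h1, h2⟩ := subP_near V.ndc hflat z
      refine ⟨U, hU, fun x hx y hy u hu => ?_⟩
      apply Units.ext
      apply zmul_inj (hCB x)
      rw [Units.val_mul, ← Matrix.mul_assoc, ← h2 x hx y hy, Matrix.mul_assoc, ← h2 y hy u hu,
        ← Matrix.mul_assoc, ← Units.val_mul, h1 x hx y hy u hu, h2 x hx u hu]
    hs := fun x => isHS_sub (V.hs x) (ic_CB (hCB x)) (hE' x)
    flatS := by
      intro z
      filter_upwards [V.flatS z, hP z] with y h1 h2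
      have h3 : cm (V.P z y) * ic (B y) = ic (B z) * cm (subP V.P B z y) := by
        rw [← ic_gl, ← ic_gl, ← ic_mul, ← ic_mul, h2]
      have h4 : (ic (B y))ᴴ * (cm (V.P z y))ᴴ = (cm (subP V.P B z y))ᴴ * (ic (B z))ᴴ := by
        rw [← conjTranspose_mul, h3, conjTranspose_mul]
      calc (ic (B y))ᴴ * V.S y * ic (B y)
          = ((ic (B y))ᴴ * (cm (V.P z y))ᴴ) * V.S z * (cm (V.P z y) * ic (B y)) := by
            rw [h1]; simp only [Matrix.mul_assoc]
        _ = _ := by rw [h4, h3]; simp only [Matrix.mul_assoc]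
    smE := hsm
    tr := by
      intro z j
      set E' : X → Matrix (Fin r) (Fin r) ℂ := fun x => ic (C x) * V.E x * ic (B x) with hE'def
      set D := dM V.P V.E j z with hD
      set D' := dM (subP V.P B) E' j z with hD'
      have h1 : D * ic (B z) = ic (B z) * D' := by
        have h2 := dzM_congr (hlM z) j
        rw [dzM_mul_right _ (V.smE z) j, dzM_mul_left _ (hsm z) j] at h2
        exact h2
      have h3 := V.tr z j
      apply mul_inj (ic_CB (hCB z))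
      have e1 : ic (B z) * (E' z * D' - D' * E' z)
          = (V.E z * D - D * V.E z) * ic (B z) := by
        rw [Matrix.mul_sub, Matrix.sub_mul, ← Matrix.mul_assoc, ← hE' z, Matrix.mul_assoc (V.E z),
          ← h1, ← Matrix.mul_assoc (ic (B z)) D', ← h1, Matrix.mul_assoc D, Matrix.mul_assoc D,
          ← hE' z, Matrix.mul_assoc]
      rw [e1, h3, Matrix.neg_mul, Matrix.mul_neg, h1] }

theorem isSub_sub (V : VHS m X N w) (B : X → Matrix (Fin N) (Fin r) ℤ)
    (C : X → Matrix (Fin r) (Fin N) ℤ) (hCB : ∀ x, C x * B x = 1)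
    (hflat : ∀ z, ∀ᶠ y in 𝓝 z, ∃ k : Matrix (Fin r) (Fin r) ℤ, IsUnit k.det ∧
      (V.P z y : Matrix (Fin N) (Fin N) ℤ) * B y = B z * k)
    (hE : ∀ x, ∃ e : Matrix (Fin r) (Fin r) ℂ, V.E x * ic (B x) = ic (B x) * e) :
    IsSub V B C (sub V B C hCB hflat hE) where
  CB := hCB
  E := by
    intro x
    obtain ⟨e, he⟩ := hE x
    show V.E x * ic (B x) = ic (B x) * (ic (C x) * V.E x * ic (B x))
    rw [Matrix.mul_assoc (ic (C x)), he, ← Matrix.mul_assoc (ic (C x)), ic_CB (hCB x),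
      Matrix.one_mul]
  S := fun x => rfl
  P := by
    intro z
    obtain ⟨U, hU, -, h2⟩ := subP_near V.ndc hflat z
    filter_upwards [hU] with y hy
    exact h2 z (mem_of_mem_nhds hU) y hy


/-! ### transfer -/

namespace IsSub

variable {V : VHS m X N w} {B : X → Matrix (Fin N) (Fin r) ℤ} {C : X → Matrix (Fin r) (Fin N) ℤ}
  {V' : VHS m X r w}

theorem icCB (h : IsSub V B C V') (x : X) : ic (C x) * ic (B x) = 1 := ic_CB (h.CB x)

theorem mulVec_CB (h : IsSub V B C V') (x : X) (v : Fin r → ℂ) :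
    ic (C x) *ᵥ (ic (B x) *ᵥ v) = v := by
  rw [mulVec_mulVec, h.icCB, one_mulVec]

theorem inj (h : IsSub V B C V') (x : X) {u v : Fin r → ℂ} (he : ic (B x) *ᵥ u = ic (B x) *ᵥ v) :
    u = v := mulVec_inj (h.icCB x) he




theorem hodge (h : IsSub V B C V') (x : X) :
    Ipc735.hodge w (V'.S x) (V'.E x)
      = (ic (B x))ᴴ * Ipc735.hodge w (V.S x) (V.E x) * ic (B x) := by
  rw [h.S]
  exact hodge_sub (h.E x)

/-- the Hodge forms -/
theorem hodge_dot (h : IsSub V B C V') (x : X) (u v : Fin r → ℂ) :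
    star u ⬝ᵥ Ipc735.hodge w (V'.S x) (V'.E x) *ᵥ v
      = star (ic (B x) *ᵥ u) ⬝ᵥ Ipc735.hodge w (V.S x) (V.E x) *ᵥ (ic (B x) *ᵥ v) := by
  rw [h.hodge, dot_sub]




theorem S_herm_eq (h : IsSub V B C V') (x : X) (v : Fin r → ℂ) (p : ℕ) :
    V'.E x *ᵥ v = (p : ℂ) • v ↔ V.E x *ᵥ (ic (B x) *ᵥ v) = (p : ℂ) • (ic (B x) *ᵥ v) := by
  rw [mulVec_mulVec, h.E, ← mulVec_mulVec, ← mulVec_smul]
  exact ⟨fun h1 => by rw [h1], fun h1 => h.inj x h1⟩


theorem P_cm (h : IsSub V B C V') (z : X) : ∀ᶠ y in 𝓝 z,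
    cm (V.P z y) * ic (B y) = ic (B z) * cm (V'.P z y) := by
  filter_upwards [h.P z] with y hy
  rw [← ic_gl, ← ic_gl, ← ic_mul, ← ic_mul, hy]

/-- sections: near `z`, seen from `z` -/
theorem lV (h : IsSub V B C V') (φ : X → Fin r → ℂ) (z : X) : ∀ᶠ y in 𝓝 z,
    Ipc735.lV V.P (fun x => ic (B x) *ᵥ φ x) z y = ic (B z) *ᵥ Ipc735.lV V'.P φ z y := by
  filter_upwards [h.P_cm z] with y hy
  rw [Ipc735.lV, Ipc735.lV, mulVec_mulVec, mulVec_mulVec, hy]

/-- endomorphism fields which preserve the subbundle -/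
theorem lM (h : IsSub V B C V') {A : X → Matrix (Fin N) (Fin N) ℂ}
    {A' : X → Matrix (Fin r) (Fin r) ℂ} (hA : ∀ x, A x * ic (B x) = ic (B x) * A' x) (z : X) :
    ∀ᶠ y in 𝓝 z, Ipc735.lM V.P A z y * ic (B z) = ic (B z) * Ipc735.lM V'.P A' z y := by
  filter_upwards [h.P z] with y hy
  exact lM_sub (hA y) hy

theorem dM (h : IsSub V B C V') (z : X) (j : Fin m) :
    Ipc735.dM V.P V.E j z * ic (B z) = ic (B z) * Ipc735.dM V'.P V'.E j z := by
  have h2 := dzM_congr (h.lM h.E z) j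
  rw [dzM_mul_right _ (V.smE z) j, dzM_mul_left _ (V'.smE z) j] at h2
  exact h2


/-- holomorphic sections -/
theorem holAt (h : IsSub V B C V') (φ : X → Fin r → ℂ) (z : X) :
    HolAt (Ipc735.lV V'.P φ z) z ↔
      HolAt (Ipc735.lV V.P (fun x => ic (B x) *ᵥ φ x) z) z := by
  constructor
  · intro h1
    have h2 : HolAt (fun y => ic (B z) *ᵥ Ipc735.lV V'.P φ z y) z :=
      ((LinearMap.toContinuousLinearMap (Matrix.mulVecLin (ic (B z)))).analyticAt _).comp
        (f := Ipc735.lV V'.P φ z ∘ (ch z).symm) h1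
    refine holAt_congr h2 ?_
    filter_upwards [h.lV φ z] with y hy
    exact hy.symm
  · intro h1
    have h2 : HolAt (fun y => ic (C z) *ᵥ Ipc735.lV V.P (fun x => ic (B x) *ᵥ φ x) z y) z :=
      ((LinearMap.toContinuousLinearMap (Matrix.mulVecLin (ic (C z)))).analyticAt _).comp
        (f := Ipc735.lV V.P (fun x => ic (B x) *ᵥ φ x) z ∘ (ch z).symm) h1
    refine holAt_congr h2 ?_
    filter_upwards [h.lV φ z] with y hy
    show ic (C z) *ᵥ Ipc735.lV V.P (fun x => ic (B x) *ᵥ φ x) z y = _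
    rw [hy, h.mulVec_CB]

/-- a holomorphic section of `V` with values in the subbundle -/
theorem holAt_of (h : IsSub V B C V') {φ : X → Fin N → ℂ}
    (hφ : ∀ x, φ x ∈ LinearMap.range (ic (B x)).mulVecLin) (z : X)
    (h1 : HolAt (Ipc735.lV V.P φ z) z) :
    HolAt (Ipc735.lV V'.P (fun x => ic (C x) *ᵥ φ x) z) z := by
  have h2 : φ = fun x => ic (B x) *ᵥ (ic (C x) *ᵥ φ x) := by
    funext x
    obtain ⟨u, hu⟩ := hφ x
    rw [← hu, mulVecLin_apply, h.mulVec_CB]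
  rw [h.holAt]
  rw [h2] at h1
  exact h1

theorem eq_of_range (h : IsSub V B C V') {x : X} {v : Fin N → ℂ}
    (hv : v ∈ LinearMap.range (ic (B x)).mulVecLin) : ic (B x) *ᵥ (ic (C x) *ᵥ v) = v := by
  obtain ⟨u, hu⟩ := hv
  rw [← hu, mulVecLin_apply, h.mulVec_CB]

/-- flat derivatives of sections -/
theorem Dv (h : IsSub V B C V') (φ : X → Fin r → ℂ) (z : X)
    (hφ : ∀ i, SmAt (fun y => Ipc735.lV V'.P φ z y i) z) (j : Fin m) :
    Par_425.Dv V.P (fun x => ic (B x) *ᵥ φ x) j z = ic (B z) *ᵥ Par_425.Dv V'.P φ j z := by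
  funext i
  have h1 : (fun y => Ipc735.lV V.P (fun x => ic (B x) *ᵥ φ x) z y i)
      =ᶠ[𝓝 z] fun y => ∑ k, ic (B z) i k * Ipc735.lV V'.P φ z y k := by
    filter_upwards [h.lV φ z] with y hy
    rw [hy]
    rfl
  rw [Par_425.Dv, dz_congr h1 j, dz_sum_at _ (fun l _ => smAt_const_mul _ (hφ l))]
  exact Finset.sum_congr rfl fun l _ => dz_const_mul_at _ (hφ l) j

theorem Dv_hol (h : IsSub V B C V') (φ : X → Fin r → ℂ) (z : X)
    (hφ : HolAt (Ipc735.lV V'.P φ z) z) (j : Fin m) :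
    Par_425.Dv V.P (fun x => ic (B x) *ᵥ φ x) j z = ic (B z) *ᵥ Par_425.Dv V'.P φ j z := by
  refine h.Dv φ z (fun i => ?_) j
  have h1 : SmAt (Ipc735.lV V'.P φ z) z := HolAt.smAt hφ
  exact (contDiff_apply ℝ ℂ i).contDiffAt.comp _ h1

/-! #### chain transports -/

theorem tr (h : IsSub V B C V') {x y : X} {g : GL (Fin N) ℤ} (hg : Tr V.P x y g) :
    ∃ g' : GL (Fin r) ℤ, Tr V'.P x y g' ∧
      (g : Matrix (Fin N) (Fin N) ℤ) * B y = B x * (g' : Matrix (Fin r) (Fin r) ℤ) := by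
  have := rdom_lc (X := X)
  refine Tr.rel V'.ndc (fun x y (g : GL (Fin N) ℤ) (g' : GL (Fin r) ℤ) => (g : Matrix (Fin N) (Fin N) ℤ) * B y
    = B x * (g' : Matrix (Fin r) (Fin r) ℤ)) (fun x => ?_) ?_ ?_ h.P hg
  · rw [Units.val_one, Units.val_one, Matrix.one_mul, Matrix.mul_one]
  · intro x y z g k g' k' h1 h2
    rw [Units.val_mul, Units.val_mul, Matrix.mul_assoc, h2, ← Matrix.mul_assoc, h1,
      Matrix.mul_assoc]
  · intro x y g g' h1
    calc ((g⁻¹ : GL (Fin N) ℤ) : Matrix (Fin N) (Fin N) ℤ) * B x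
        = ((g⁻¹ : GL (Fin N) ℤ) : Matrix (Fin N) (Fin N) ℤ) * (B x
          * ((g' : Matrix (Fin r) (Fin r) ℤ) * ((g'⁻¹ : GL (Fin r) ℤ) : Matrix (Fin r) (Fin r) ℤ))) := by
          rw [← Units.val_mul, mul_inv_cancel, Units.val_one, Matrix.mul_one]
      _ = ((g⁻¹ : GL (Fin N) ℤ) : Matrix (Fin N) (Fin N) ℤ) * (B x * (g' : Matrix (Fin r) (Fin r) ℤ))
          * ((g'⁻¹ : GL (Fin r) ℤ) : Matrix (Fin r) (Fin r) ℤ) := by simp only [Matrix.mul_assoc]
      _ = _ := by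
          rw [← h1, ← Matrix.mul_assoc ((g⁻¹ : GL (Fin N) ℤ) : Matrix (Fin N) (Fin N) ℤ),
            ← Units.val_mul, inv_mul_cancel, Units.val_one, Matrix.one_mul]

theorem tr' (h : IsSub V B C V') {x y : X} {g' : GL (Fin r) ℤ} (hg : Tr V'.P x y g') :
    ∃ g : GL (Fin N) ℤ, Tr V.P x y g ∧
      (g : Matrix (Fin N) (Fin N) ℤ) * B y = B x * (g' : Matrix (Fin r) (Fin r) ℤ) := by
  have := rdom_lc (X := X)
  refine Tr.rel V.ndc (fun x y (g' : GL (Fin r) ℤ) (g : GL (Fin N) ℤ) => (g : Matrix (Fin N) (Fin N) ℤ) * B y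
    = B x * (g' : Matrix (Fin r) (Fin r) ℤ)) (fun x => ?_) ?_ ?_ h.P hg
  · rw [Units.val_one, Units.val_one, Matrix.one_mul, Matrix.mul_one]
  · intro x y z g' k' g k h1 h2
    rw [Units.val_mul, Units.val_mul, Matrix.mul_assoc, h2, ← Matrix.mul_assoc, h1,
      Matrix.mul_assoc]
  · intro x y g' g h1
    calc ((g⁻¹ : GL (Fin N) ℤ) : Matrix (Fin N) (Fin N) ℤ) * B x
        = ((g⁻¹ : GL (Fin N) ℤ) : Matrix (Fin N) (Fin N) ℤ) * (B x
          * ((g' : Matrix (Fin r) (Fin r) ℤ) * ((g'⁻¹ : GL (Fin r) ℤ) : Matrix (Fin r) (Fin r) ℤ))) := by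
          rw [← Units.val_mul, mul_inv_cancel, Units.val_one, Matrix.mul_one]
      _ = ((g⁻¹ : GL (Fin N) ℤ) : Matrix (Fin N) (Fin N) ℤ) * (B x * (g' : Matrix (Fin r) (Fin r) ℤ))
          * ((g'⁻¹ : GL (Fin r) ℤ) : Matrix (Fin r) (Fin r) ℤ) := by simp only [Matrix.mul_assoc]
      _ = _ := by
          rw [← h1, ← Matrix.mul_assoc ((g⁻¹ : GL (Fin N) ℤ) : Matrix (Fin N) (Fin N) ℤ),
            ← Units.val_mul, inv_mul_cancel, Units.val_one, Matrix.one_mul]

end IsSub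

end Crest.Agent.R276.Sub_605
end
end

-- ▼ part R276/SubC_605
section

/-!
# R276, GVHS-SUB (helper605): lattice bases, flat subspaces, hulls

* `IsInt K` : `K` is spanned by its integral vectors.
* `exists_latBasis` : saturated lattice basis `B` of `K ∩ ℤ^N` with retraction `C`.
* `exists_sub_flat` : flat integral `E`-stable subbundle of constant rank gives `IsSub`.
* `exists_sub_mon` : the same from one subspace stable under the monodromy group at one point.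
* `Hul_tr` : the hull of 574 commutes with transports; `exists_sub_Hul`.
-/

set_option autoImplicit false

noncomputable section

open Set Filter Topology Matrix

namespace Crest.Agent.R276.Sub_605

open Crest.Agent.R271.Ho51 Crest.Agent.R276.Ipc735 Crest.Agent.R276.Hull_574
  Crest.Agent.R276.Tr_617 Crest.Agent.R276.Top8_815 Crest.Agent.R276.VPull_327

theorem ext_mulVec' {a b : ℕ} {A B : Matrix (Fin a) (Fin b) ℂ} (h : ∀ v, A *ᵥ v = B *ᵥ v) :
    A = B := by
  ext i j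
  have h2 := congrFun (h (Pi.single j 1)) i
  rw [mulVec_single_one, mulVec_single_one] at h2
  exact h2

/-! ### lattice bases -/

section lattice

variable {N : ℕ}

theorem zv_add (u v : Fin N → ℤ) : zv (u + v) = zv u + zv v := by
  ext i; simp [zv]

theorem zv_smul (c : ℤ) (u : Fin N → ℤ) : zv (c • u) = (c : ℂ) • zv u := by
  ext i; simp [zv]

theorem zv_zero : zv (0 : Fin N → ℤ) = 0 := by
  ext i; simp [zv]

/-- the integral vectors in `K` -/
def lat (K : Submodule ℂ (Fin N → ℂ)) : Submodule ℤ (Fin N → ℤ) where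
  carrier := {v | zv v ∈ K}
  add_mem' := fun {a b} ha hb => by
    show zv (a + b) ∈ K
    rw [zv_add]
    exact K.add_mem ha hb
  zero_mem' := by
    show zv 0 ∈ K
    rw [zv_zero]
    exact K.zero_mem
  smul_mem' := fun c a ha => by
    show zv (c • a) ∈ K
    rw [zv_smul]
    exact K.smul_mem _ ha

theorem mem_lat {K : Submodule ℂ (Fin N → ℂ)} {v : Fin N → ℤ} : v ∈ lat K ↔ zv v ∈ K := Iff.rfl

/-- `K` is spanned by its integral vectors -/
def IsInt (K : Submodule ℂ (Fin N → ℂ)) : Prop :=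
  K ≤ Submodule.span ℂ {v | ∃ u : Fin N → ℤ, zv u = v ∧ v ∈ K}

theorem isInt_zer (R : Submodule ℚ (Fin N → ℚ)) : IsInt (zer R) := (zer_eq_span R).le

theorem isInt_Hul (Γ : Subgroup (GL (Fin N) ℤ)) (W : Submodule ℂ (Fin N → ℂ)) :
    IsInt (Hul Γ W) := isInt_zer _

theorem torsionFree_quot (K : Submodule ℂ (Fin N → ℂ)) :
    Module.IsTorsionFree ℤ ((Fin N → ℤ) ⧸ lat K) := by
  rw [Module.isTorsionFree_iff_smul_eq_zero]
  intro c q hq
  obtain ⟨v, rfl⟩ := (lat K).mkQ_surjective q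
  by_cases hc : c = 0
  · exact Or.inl hc
  · right
    rw [← map_smul, Submodule.mkQ_apply, Submodule.Quotient.mk_eq_zero, mem_lat, zv_smul] at hq
    rw [Submodule.mkQ_apply, Submodule.Quotient.mk_eq_zero, mem_lat]
    have h1 := K.smul_mem ((c : ℂ)⁻¹) hq
    rwa [smul_smul, inv_mul_cancel₀ (by exact_mod_cast hc), one_smul] at h1

/-- retraction of `ℤ^N` to the saturated lattice -/
theorem exists_retraction (K : Submodule ℂ (Fin N → ℂ)) :
    ∃ ρ : (Fin N → ℤ) →ₗ[ℤ] lat K, ∀ v : lat K, ρ v = v := by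
  have := torsionFree_quot K
  obtain ⟨h, hh⟩ := Module.projective_lifting_property (lat K).mkQ
    (LinearMap.id : ((Fin N → ℤ) ⧸ lat K) →ₗ[ℤ] _) (lat K).mkQ_surjective
  have h1 : ∀ v, v - h ((lat K).mkQ v) ∈ lat K := by
    intro v
    rw [← (Submodule.Quotient.mk_eq_zero (lat K)), ← Submodule.mkQ_apply, map_sub]
    have h2 : (lat K).mkQ (h ((lat K).mkQ v)) = (lat K).mkQ v := by
      have h3 := congrArg (fun f => f ((lat K).mkQ v)) hh
      exact h3
    rw [h2, sub_self]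
  refine ⟨LinearMap.codRestrict (lat K) (LinearMap.id - h ∘ₗ (lat K).mkQ) h1, fun v => ?_⟩
  apply Subtype.ext
  show (v : Fin N → ℤ) - h ((lat K).mkQ v) = v
  have h2 : (lat K).mkQ (v : Fin N → ℤ) = 0 := by
    rw [Submodule.mkQ_apply, Submodule.Quotient.mk_eq_zero]
    exact v.2
  rw [h2, map_zero, sub_zero]

/-- **saturated lattice basis** -/
theorem exists_latBasis (K : Submodule ℂ (Fin N → ℂ)) (hK : IsInt K) {r : ℕ}
    (hr : Module.finrank ℂ K = r) :
    ∃ (B : Matrix (Fin N) (Fin r) ℤ) (C : Matrix (Fin r) (Fin N) ℤ), C * B = 1 ∧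
      (∀ v : Fin N → ℤ, zv v ∈ K → B *ᵥ (C *ᵥ v) = v) ∧
      LinearMap.range (ic B).mulVecLin = K := by
  obtain ⟨ρ, hρ⟩ := exists_retraction K
  obtain ⟨n, ⟨b⟩⟩ : ∃ n, Nonempty (Module.Basis (Fin n) ℤ (lat K)) :=
    ⟨_, ⟨Module.finBasis ℤ (lat K)⟩⟩
  let B : Matrix (Fin N) (Fin n) ℤ := Matrix.of fun i j => (b j : Fin N → ℤ) i
  let C : Matrix (Fin n) (Fin N) ℤ := Matrix.of fun j i => b.repr (ρ (Pi.single i 1)) j
  have hB : ∀ u : Fin n → ℤ, B *ᵥ u = ((∑ j, u j • b j : lat K) : Fin N → ℤ) := by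
    intro u
    ext i
    simp only [B, Matrix.mulVec, dotProduct, Matrix.of_apply, Submodule.coe_sum,
      Submodule.coe_smul, Finset.sum_apply, Pi.smul_apply, smul_eq_mul]
    exact Finset.sum_congr rfl fun j _ => mul_comm _ _
  have hC : ∀ v : Fin N → ℤ, C *ᵥ v = b.repr (ρ v) := by
    intro v
    ext j
    have h1 : v = ∑ i, v i • Pi.single i (1 : ℤ) := by
      ext k
      simp [Finset.sum_apply, Pi.single_apply]
    conv_rhs => rw [h1]
    rw [map_sum, map_sum, Finsupp.coe_finsetSum, Finset.sum_apply]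
    simp only [C, Matrix.mulVec, dotProduct, Matrix.of_apply, map_smul, Finsupp.coe_smul,
      Pi.smul_apply, smul_eq_mul]
    exact Finset.sum_congr rfl fun i _ => mul_comm _ _
  have hCB : C * B = 1 := by
    have h1 : ∀ u : Fin n → ℤ, (C * B) *ᵥ u = u := by
      intro u
      rw [← mulVec_mulVec, hB, hC, hρ]
      ext j
      rw [map_sum, Finsupp.coe_finsetSum, Finset.sum_apply]
      simp only [map_smul, Finsupp.coe_smul, Pi.smul_apply, smul_eq_mul, Module.Basis.repr_self]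
      rw [Finset.sum_eq_single j]
      · simp
      · intro k _ hk
        simp [hk]
      · intro h; exact absurd (Finset.mem_univ _) h
    ext i j
    have h2 := congrFun (h1 (Pi.single j 1)) i
    rw [mulVec_single_one] at h2
    rw [Matrix.one_apply]
    simpa [Matrix.col_apply, Pi.single_apply] using h2
  have hBC : ∀ v : Fin N → ℤ, zv v ∈ K → B *ᵥ (C *ᵥ v) = v := by
    intro v hv
    have h1 : ρ v = ⟨v, hv⟩ := hρ ⟨v, hv⟩
    rw [hC, h1, hB, b.sum_repr]
  have hrange : LinearMap.range (ic B).mulVecLin = K := by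
    apply le_antisymm
    · rintro _ ⟨u, rfl⟩
      rw [mulVecLin_apply]
      have h1 : ic B *ᵥ u = ∑ j, u j • zv (b j : Fin N → ℤ) := by
        ext i
        simp only [Matrix.mulVec, dotProduct, ic_apply, B, Matrix.of_apply, Finset.sum_apply,
          Pi.smul_apply, smul_eq_mul, zv]
        exact Finset.sum_congr rfl fun j _ => mul_comm _ _
      rw [h1]
      exact Submodule.sum_mem _ fun j _ => Submodule.smul_mem _ _ (b j).2
    · refine hK.trans (Submodule.span_le.2 ?_)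
      rintro _ ⟨u, rfl, hu⟩
      refine ⟨zv (C *ᵥ u), ?_⟩
      rw [mulVecLin_apply, ic_mulVec_zv, hBC u hu]
  have hinj : Function.Injective (ic B).mulVecLin := by
    intro u v huv
    exact mulVec_inj (ic_CB hCB) huv
  have hfin : n = r := by
    rw [← hr, ← hrange, LinearMap.finrank_range_of_inj hinj, Module.finrank_fin_fun]
  subst hfin
  exact ⟨B, C, hCB, hBC, hrange⟩

/-- an integral matrix with columns in `K` -/
theorem mul_of_mem {K : Submodule ℂ (Fin N → ℂ)} {r k : ℕ} {B : Matrix (Fin N) (Fin r) ℤ}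
    {C : Matrix (Fin r) (Fin N) ℤ} (hBC : ∀ v : Fin N → ℤ, zv v ∈ K → B *ᵥ (C *ᵥ v) = v)
    (A : Matrix (Fin N) (Fin k) ℤ) (hA : ∀ u : Fin k → ℤ, zv (A *ᵥ u) ∈ K) :
    B * (C * A) = A := by
  have h1 : ∀ u, (B * (C * A)) *ᵥ u = A *ᵥ u := fun u => by
    rw [← mulVec_mulVec, ← mulVec_mulVec, hBC _ (hA u)]
  ext i j
  have h2 := congrFun (h1 (Pi.single j 1)) i
  rw [mulVec_single_one, mulVec_single_one] at h2
  exact h2

theorem isInt_mapS {K : Submodule ℂ (Fin N → ℂ)} (hK : IsInt K) (g : GL (Fin N) ℤ) :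
    IsInt (mapS g K) := by
  intro v hv
  obtain ⟨u, hu, rfl⟩ := hv
  rw [mulVecLin_apply]
  refine Submodule.span_induction (p := fun u _ => cm g *ᵥ u ∈ Submodule.span ℂ
    {v | ∃ u : Fin N → ℤ, zv u = v ∧ v ∈ mapS g K}) ?_ ?_ ?_ ?_ (hK hu)
  · rintro _ ⟨u, rfl, hu⟩
    exact Submodule.subset_span ⟨_, (cm_mulVec_zv g u).symm, mulVec_mem_mapS.2 hu⟩
  · rw [mulVec_zero]; exact Submodule.zero_mem _
  · intro x y _ _ hx hy
    rw [mulVec_add]; exact Submodule.add_mem _ hx hy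
  · intro c x _ hx
    rw [mulVec_smul]; exact Submodule.smul_mem _ _ hx

end lattice

/-! ### flat subbundles -/

section flat

variable {m N r w : ℕ} {X : Type*} [TopologicalSpace X] [RDom m X]

theorem mem_range_ic {B : Matrix (Fin N) (Fin r) ℤ} (u : Fin r → ℤ) :
    zv (B *ᵥ u) ∈ LinearMap.range (ic B).mulVecLin := by
  refine ⟨zv u, ?_⟩
  rw [mulVecLin_apply, ic_mulVec_zv]

/-- lattice bases of a flat subbundle -/
theorem hflat_of {P : X → X → GL (Fin N) ℤ} {K : X → Submodule ℂ (Fin N → ℂ)} (hfl : FlS P K)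
    {B : X → Matrix (Fin N) (Fin r) ℤ} {C : X → Matrix (Fin r) (Fin N) ℤ}
    (hCB : ∀ x, C x * B x = 1)
    (hBC : ∀ x (v : Fin N → ℤ), zv v ∈ K x → B x *ᵥ (C x *ᵥ v) = v)
    (hr : ∀ x, LinearMap.range (ic (B x)).mulVecLin = K x) (z : X) :
    ∀ᶠ y in 𝓝 z, ∃ k : Matrix (Fin r) (Fin r) ℤ, IsUnit k.det ∧
      (P z y : Matrix (Fin N) (Fin N) ℤ) * B y = B z * k := by
  filter_upwards [hfl z] with y hy
  have h0 : ∀ x (u : Fin r → ℤ), zv (B x *ᵥ u) ∈ K x := fun x u => hr x ▸ mem_range_ic u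
  have h1 : B z * (C z * ((P z y : Matrix (Fin N) (Fin N) ℤ) * B y))
      = (P z y : Matrix (Fin N) (Fin N) ℤ) * B y := by
    refine mul_of_mem (hBC z) _ fun u => ?_
    rw [← mulVec_mulVec, ← cm_mulVec_zv, ← hy]
    exact mulVec_mem_mapS.2 (h0 y u)
  have h2 : B y * (C y * ((((P z y)⁻¹ : GL (Fin N) ℤ) : Matrix (Fin N) (Fin N) ℤ) * B z))
      = (((P z y)⁻¹ : GL (Fin N) ℤ) : Matrix (Fin N) (Fin N) ℤ) * B z := by
    refine mul_of_mem (hBC y) _ fun u => ?_
    rw [← mulVec_mulVec, ← cm_mulVec_zv]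
    have h3 := h0 z u
    rw [← hy] at h3
    exact mem_mapS.1 h3
  refine ⟨C z * ((P z y : Matrix (Fin N) (Fin N) ℤ) * B y), ?_, h1.symm⟩
  refine Matrix.isUnit_det_of_right_inverse
    (B := C y * ((((P z y)⁻¹ : GL (Fin N) ℤ) : Matrix (Fin N) (Fin N) ℤ) * B z)) ?_
  apply zmul_inj (hCB z)
  calc B z * (C z * ((P z y : Matrix (Fin N) (Fin N) ℤ) * B y)
        * (C y * ((((P z y)⁻¹ : GL (Fin N) ℤ) : Matrix (Fin N) (Fin N) ℤ) * B z)))
      = (B z * (C z * ((P z y : Matrix (Fin N) (Fin N) ℤ) * B y)))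
        * (C y * ((((P z y)⁻¹ : GL (Fin N) ℤ) : Matrix (Fin N) (Fin N) ℤ) * B z)) := by
        simp only [Matrix.mul_assoc]
    _ = (P z y : Matrix (Fin N) (Fin N) ℤ) * (B y
        * (C y * ((((P z y)⁻¹ : GL (Fin N) ℤ) : Matrix (Fin N) (Fin N) ℤ) * B z))) := by
        rw [h1]; simp only [Matrix.mul_assoc]
    _ = B z * (1 : Matrix (Fin r) (Fin r) ℤ) := by
        rw [h2, ← Matrix.mul_assoc, ← Units.val_mul, mul_inv_cancel, Units.val_one,
          Matrix.one_mul, Matrix.mul_one]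

theorem hE_of {E : Matrix (Fin N) (Fin N) ℂ} {K : Submodule ℂ (Fin N → ℂ)}
    {B : Matrix (Fin N) (Fin r) ℤ} {C : Matrix (Fin r) (Fin N) ℤ} (hCB : C * B = 1)
    (hr : LinearMap.range (ic B).mulVecLin = K) (hE : ∀ v ∈ K, E *ᵥ v ∈ K) :
    ∃ e : Matrix (Fin r) (Fin r) ℂ, E * ic B = ic B * e := by
  refine ⟨ic C * (E * ic B), ?_⟩
  apply ext_mulVec'
  intro u
  have h1 : E *ᵥ (ic B *ᵥ u) ∈ LinearMap.range (ic B).mulVecLin := by
    rw [hr]
    refine hE _ ?_
    rw [← hr]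
    exact ⟨u, rfl⟩
  obtain ⟨a, ha⟩ := h1
  rw [mulVecLin_apply] at ha
  rw [← mulVec_mulVec, ← mulVec_mulVec, ← mulVec_mulVec, ← mulVec_mulVec, ← ha,
    mulVec_mulVec _ (ic C), ic_CB hCB, one_mulVec]

/-- **sub-variation of a flat integral `E`-stable subbundle of constant rank** -/
theorem exists_sub_flat (V : VHS m X N w) {K : X → Submodule ℂ (Fin N → ℂ)}
    (hr : ∀ x, Module.finrank ℂ (K x) = r) (hint : ∀ x, IsInt (K x)) (hfl : FlS V.P K)
    (hE : ∀ x, ∀ v ∈ K x, V.E x *ᵥ v ∈ K x) :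
    ∃ (B : X → Matrix (Fin N) (Fin r) ℤ) (C : X → Matrix (Fin r) (Fin N) ℤ) (V' : VHS m X r w),
      IsSub V B C V' ∧ (∀ x, LinearMap.range (ic (B x)).mulVecLin = K x) ∧
      ∀ x (v : Fin N → ℤ), zv v ∈ K x → B x *ᵥ (C x *ᵥ v) = v := by
  choose B C hCB hBC hrg using fun x => exists_latBasis (K x) (hint x) (hr x)
  exact ⟨B, C, sub V B C hCB (hflat_of hfl hCB hBC hrg) fun x => hE_of (hCB x) (hrg x) (hE x),
    isSub_sub V B C hCB _ _, hrg, hBC⟩

omit [RDom m X] in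
theorem finrank_const [PreconnectedSpace X] [LocallyConnectedSpace X] {P : X → X → GL (Fin N) ℤ} (h : NDC P)
    {K : X → Submodule ℂ (Fin N → ℂ)} (hfl : FlS P K) (x y : X) :
    Module.finrank ℂ (K x) = Module.finrank ℂ (K y) := by
  obtain ⟨g, hg⟩ := exists_tr h x y
  rw [sub_tr hfl hg, finrank_mapS]

/-- **the same over a connected base, rank and integrality at one point** -/
theorem exists_sub_conn [PreconnectedSpace X] (V : VHS m X N w) (x₀ : X)
    {K : X → Submodule ℂ (Fin N → ℂ)} (hint : IsInt (K x₀)) (hfl : FlS V.P K)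
    (hE : ∀ x, ∀ v ∈ K x, V.E x *ᵥ v ∈ K x) :
    ∃ (r : ℕ) (B : X → Matrix (Fin N) (Fin r) ℤ) (C : X → Matrix (Fin r) (Fin N) ℤ)
      (V' : VHS m X r w), r = Module.finrank ℂ (K x₀) ∧
      IsSub V B C V' ∧ (∀ x, LinearMap.range (ic (B x)).mulVecLin = K x) ∧
      ∀ x (v : Fin N → ℤ), zv v ∈ K x → B x *ᵥ (C x *ᵥ v) = v := by
  have := rdom_lc (X := X)
  have hint' : ∀ x, IsInt (K x) := by
    intro x
    obtain ⟨g, hg⟩ := exists_tr V.ndc x x₀
    rw [sub_tr hfl hg]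
    exact isInt_mapS hint g
  obtain ⟨B, C, V', h⟩ := exists_sub_flat V (r := Module.finrank ℂ (K x₀))
    (fun x => finrank_const V.ndc hfl x x₀) hint' hfl hE
  exact ⟨_, B, C, V', rfl, h⟩


end flat

/-! ### hulls -/

section hull

variable {X : Type*} [TopologicalSpace X] {N : ℕ} {P : X → X → GL (Fin N) ℤ} {x y : X}
  {g : GL (Fin N) ℤ}

theorem mapS_le {K L : Submodule ℂ (Fin N → ℂ)} {g : GL (Fin N) ℤ}
    (h : ∀ v ∈ K, cm g *ᵥ v ∈ L) : mapS g K ≤ L := by
  rintro _ ⟨v, hv, rfl⟩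
  exact h v hv

theorem mapS_mono {K L : Submodule ℂ (Fin N → ℂ)} (g : GL (Fin N) ℤ) (h : K ≤ L) :
    mapS g K ≤ mapS g L := Submodule.map_mono h

theorem mapS_fspan_le (h : Tr P x y g) (W : Submodule ℂ (Fin N → ℂ)) :
    mapS g (fspan (mon P y) W) ≤ fspan (mon P x) (mapS g W) := by
  refine mapS_le fun v hv => ?_
  refine Submodule.span_induction (p := fun v _ => cm g *ᵥ v ∈ fspan (mon P x) (mapS g W))
    ?_ ?_ ?_ ?_ hv
  · rintro _ ⟨A, hA, u, hu, rfl⟩
    refine Submodule.subset_span ⟨_, (fl_conj h).1 hA, cm g *ᵥ u, mulVec_mem_mapS.2 hu, ?_⟩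
    rw [mulVec_mulVec, mulVec_mulVec, Matrix.mul_assoc _ (cm g⁻¹), cm_inv_mul, Matrix.mul_one]
  · rw [mulVec_zero]; exact Submodule.zero_mem _
  · intro x y _ _ hx hy
    rw [mulVec_add]; exact Submodule.add_mem _ hx hy
  · intro c x _ hx
    rw [mulVec_smul]; exact Submodule.smul_mem _ _ hx

theorem mapS_hull_le (g : GL (Fin N) ℤ) (W : Submodule ℂ (Fin N → ℂ)) :
    mapS g (hull W) ≤ hull (mapS g W) := by
  refine mapS_le fun v hv => ?_
  intro x hx
  rw [← qm_gq, ← row_mul]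
  refine hv _ fun u hu => ?_
  rw [row_mul, qm_gq]
  exact hx _ (mulVec_mem_mapS.2 hu)

theorem hull_mono {W W' : Submodule ℂ (Fin N → ℂ)} (h : W ≤ W') : hull W ≤ hull W' :=
  fun _ hv x hx => hv x fun u hu => hx u (h hu)

theorem mapS_inv_cancel (g : GL (Fin N) ℤ) (K : Submodule ℂ (Fin N → ℂ)) :
    mapS g (mapS g⁻¹ K) = K := by rw [← mapS_mul, mul_inv_cancel, mapS_one]

theorem mapS_inv_cancel' (g : GL (Fin N) ℤ) (K : Submodule ℂ (Fin N → ℂ)) :
    mapS g⁻¹ (mapS g K) = K := by rw [← mapS_mul, inv_mul_cancel, mapS_one]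

theorem Hul_tr_le (h : Tr P x y g) (W : Submodule ℂ (Fin N → ℂ)) :
    mapS g (Hul (mon P y) W) ≤ Hul (mon P x) (mapS g W) :=
  (mapS_hull_le g _).trans (hull_mono (mapS_fspan_le h W))

/-- **the hull commutes with transports** -/
theorem Hul_tr (h : Tr P x y g) (W : Submodule ℂ (Fin N → ℂ)) :
    Hul (mon P x) (mapS g W) = mapS g (Hul (mon P y) W) := by
  refine le_antisymm ?_ (Hul_tr_le h W)
  have h1 := mapS_mono g (Hul_tr_le h.symm (mapS g W))
  rwa [mapS_inv_cancel, mapS_inv_cancel'] at h1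

/-- the hull of a flat subbundle is flat -/
theorem flS_Hul [LocallyConnectedSpace X] (h : NDC P) {W : X → Submodule ℂ (Fin N → ℂ)}
    (hW : FlS P W) : FlS P (fun x => Hul (mon P x) (W x)) :=
  sub_of_tr h fun x y g hg => by
    show Hul (mon P x) (W x) = mapS g (Hul (mon P y) (W y))
    rw [sub_tr hW hg, Hul_tr hg]

variable {m w : ℕ} [RDom m X]

/-- **the sub-variation of the hull** of a flat subbundle `W` -/
theorem exists_sub_Hul [PreconnectedSpace X] (V : VHS m X N w)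
    (hM : ∀ x, Mono w (V.S x) (V.E x) (mon V.P x)) (x₀ : X)
    {W : X → Submodule ℂ (Fin N → ℂ)} (hW : FlS V.P W) :
    ∃ (r : ℕ) (B : X → Matrix (Fin N) (Fin r) ℤ) (C : X → Matrix (Fin r) (Fin N) ℤ)
      (V' : VHS m X r w), r = Module.finrank ℂ (Hul (mon V.P x₀) (W x₀)) ∧
      IsSub V B C V' ∧
      (∀ x, LinearMap.range (ic (B x)).mulVecLin = Hul (mon V.P x) (W x)) ∧
      ∀ x (v : Fin N → ℤ), zv v ∈ Hul (mon V.P x) (W x) → B x *ᵥ (C x *ᵥ v) = v := by
  have := rdom_lc (X := X)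
  exact exists_sub_conn V x₀ (K := fun x => Hul (mon V.P x) (W x)) (isInt_Hul _ _)
    (flS_Hul V.ndc hW) fun x => Hul_E (hM x) (sub_st hW)

/-- consequences for the transports which are scalars on `W` -/
theorem hul_scalar [PreconnectedSpace X] {r : ℕ} (V : VHS m X N w)
    (hM : ∀ x, Mono w (V.S x) (V.E x) (mon V.P x))
    {W : X → Submodule ℂ (Fin N → ℂ)} (hW : FlS V.P W)
    {B : X → Matrix (Fin N) (Fin r) ℤ} {C : X → Matrix (Fin r) (Fin N) ℤ}
    {V' : VHS m X r w} (hs : IsSub V B C V')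
    (hrg : ∀ x, LinearMap.range (ic (B x)).mulVecLin = Hul (mon V.P x) (W x)) (x₀ : X) :
    ∃ M : ℕ, 0 < M ∧ ∀ (x : X) (g : GL (Fin N) ℤ) (ζ : ℂ), Tr V.P x x g →
      (∀ u ∈ W x, cm g *ᵥ u = ζ • u) →
      ∀ g' : GL (Fin r) ℤ, (g : Matrix (Fin N) (Fin N) ℤ) * B x
          = B x * (g' : Matrix (Fin r) (Fin r) ℤ) →
        g' ^ M = 1 ∧ cm g' * V'.E x = V'.E x * cm g' := by
  have := rdom_lc (X := X)
  obtain ⟨M, hM0, hM1⟩ := Hul_order (hM x₀) (W := W x₀) (sub_st hW)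
  refine ⟨M, hM0, fun x g ζ hg hζ g' hg' => ?_⟩
  have hB : ∀ u, ic (B x) *ᵥ u ∈ Hul (mon V.P x) (W x) := fun u => by
    rw [← hrg]; exact ⟨u, rfl⟩
  have hg'' : cm g * ic (B x) = ic (B x) * cm g' := by
    rw [← ic_gl, ← ic_gl, ← ic_mul, ← ic_mul, hg']
  constructor
  · -- transport to `x₀`
    obtain ⟨k, hk⟩ := exists_tr V.ndc x₀ x
    have h1 : k * g * k⁻¹ ∈ mon V.P x₀ := (mon_conj hk).1 hg
    have h2 : ∀ u ∈ W x₀, cm (k * g * k⁻¹) *ᵥ u = ζ • u := by
      intro u hu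
      have h3 : cm k⁻¹ *ᵥ u ∈ W x := by
        rw [sub_tr hW hk] at hu
        exact mem_mapS.1 hu
      rw [cm_mulVec_mul, cm_mulVec_mul, hζ _ h3, mulVec_smul, ← cm_mulVec_mul, mul_inv_cancel,
        cm_mulVec_one]
    have h4 := hM1 _ h1 ζ h2
    have hpow : ∀ n : ℕ, cm (g ^ n) * ic (B x) = ic (B x) * cm (g' ^ n) := by
      intro n
      induction n with
      | zero => rw [pow_zero, pow_zero, Hull_574.cm_one, Hull_574.cm_one, Matrix.one_mul, Matrix.mul_one]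
      | succ n ih =>
        rw [pow_succ, pow_succ, Hull_574.cm_mul, Hull_574.cm_mul, Matrix.mul_assoc, hg'',
          ← Matrix.mul_assoc, ih, Matrix.mul_assoc]
    have h5 : ∀ u, cm (g' ^ M) *ᵥ u = u := by
      intro u
      apply hs.inj x
      rw [mulVec_mulVec, ← hpow, ← mulVec_mulVec]
      have h6 : cm k *ᵥ (ic (B x) *ᵥ u) ∈ Hul (mon V.P x₀) (W x₀) := by
        rw [sub_tr hW hk, Hul_tr hk]
        exact mulVec_mem_mapS.2 (hB u)
      have h7 := h4 _ h6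
      have h8 : (k * g * k⁻¹) ^ M = k * g ^ M * k⁻¹ := by rw [conj_pow]
      rw [h8, cm_mulVec_mul, cm_mulVec_mul, ← cm_mulVec_mul k⁻¹ k, inv_mul_cancel,
        cm_mulVec_one] at h7
      have h9 := congrArg (fun t => cm k⁻¹ *ᵥ t) h7
      simpa only [← cm_mulVec_mul, inv_mul_cancel_left, inv_mul_cancel, cm_mulVec_one] using h9
    apply Units.ext
    apply ic_injective
    rw [Units.val_one, ic_one, ic_gl]
    apply ext_mulVec'
    intro u
    rw [h5, one_mulVec]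
  · apply ext_mulVec'
    intro u
    apply hs.inj x
    have h1 := Hul_commE (hM x) (sub_st hW) hg hζ _ (hB u)
    calc ic (B x) *ᵥ ((cm g' * V'.E x) *ᵥ u)
        = (ic (B x) * cm g') *ᵥ (V'.E x *ᵥ u) := by
          rw [mulVec_mulVec, mulVec_mulVec, Matrix.mul_assoc]
      _ = cm g *ᵥ (V.E x *ᵥ (ic (B x) *ᵥ u)) := by
          rw [← hg'', ← mulVec_mulVec, mulVec_mulVec _ (V.E x), hs.E, ← mulVec_mulVec]
      _ = V.E x *ᵥ ((cm g * ic (B x)) *ᵥ u) := by rw [h1, mulVec_mulVec _ (cm g)]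
      _ = ic (B x) *ᵥ ((V'.E x * cm g') *ᵥ u) := by
          rw [hg'', ← mulVec_mulVec _ (ic (B x)), mulVec_mulVec _ (V.E x), hs.E,
            ← mulVec_mulVec, mulVec_mulVec _ (V'.E x)]

end hull

end Crest.Agent.R276.Sub_605
end
end

-- ▼ part R276/HullV_720
section

/-!
# R276, GVHS (helper720): the hull package

`P` near-diagonal cocycle over a Riemann domain, `om` a section, holomorphic when seen from each point.

* `ident`, `id_tr` : identity theorem, along a set and along chain transports.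
* `Wf P om x` : span of the transports of `om` to `x`; flat (`wf_flat`).
* `HulS V om M` : every monodromy which is a scalar on `Wf` commutes with `E` and has exponent `M`.
* `HullP V om M` : the same with the scalar condition on the germ of `om` only; `HulS.hullP`.
* `exists_hull` : sub-variation `V'` of the rational hull with `HulS V' om' M`.
* `cyl_sub`, `hn_sub` : transfer of `VLevi_327.CYL` and of the norm to a sub-variation.
-/

set_option autoImplicit false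

noncomputable section

open Set Filter Topology Matrix

namespace Crest.Agent.R276.HullV_720

open Crest.Agent.R271.Ho51 Crest.Agent.R276.Ipc735 Crest.Agent.R276.Hull_574
  Crest.Agent.R276.Tr_617 Crest.Agent.R276.Sub_605 Crest.Agent.R276.Liou_739
open Crest.Agent.R276.Par_425 (Dv holAt_congr holAt_near ndc_self)
open Crest.Agent.R276.VLevi_327 (CYL hn)

/-! ### identity theorem -/

section ident

variable {m k : ℕ} {X : Type*} [TopologicalSpace X] [RDom m X]

/-- local identity theorem -/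
theorem ev_zero_of_closure {F : X → Fin k → ℂ} {z : X} (hF : HolAt F z)
    (hz : z ∈ closure {y | ∀ᶠ x in 𝓝 y, F x = 0}) : ∀ᶠ x in 𝓝 z, F x = 0 := by
  have hF' : AnalyticAt ℂ (F ∘ (ch z).symm) (cp z) := hF
  have h1 := hF'.eventually_analyticAt
  have h2 : ∀ᶠ p in 𝓝 (cp z : Fin m → ℂ), p ∈ (ch z).target :=
    (ch z).open_target.mem_nhds ((isCh_ch z).cp_mem (mem_ch z))
  obtain ⟨ρ, hρ, hball⟩ := Metric.eventually_nhds_iff_ball.1 (h1.and h2)
  have hW : IsOpen ((ch z).source ∩ cp ⁻¹' (Metric.ball (cp z : Fin m → ℂ) ρ)) :=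
    (ch z).open_source.inter (Metric.isOpen_ball.preimage cp_cont)
  have hzW : z ∈ (ch z).source ∩ cp ⁻¹' (Metric.ball (cp z : Fin m → ℂ) ρ) :=
    ⟨mem_ch z, Metric.mem_ball_self hρ⟩
  obtain ⟨y, ⟨hye, hyb⟩, hyS⟩ := mem_closure_iff.1 hz _ hW hzW
  have hA : AnalyticOnNhd ℂ (F ∘ (ch z).symm) (Metric.ball (cp z : Fin m → ℂ) ρ) :=
    fun w hw => (hball w hw).1
  have h3 : ∀ᶠ w in 𝓝 (cp y : Fin m → ℂ), (F ∘ (ch z).symm) w = 0 := by
    have h4 : ContinuousAt (ch z).symm (cp y) :=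
      (ch z).symm.continuousAt (by simpa using (isCh_ch z).cp_mem hye)
    have h5 := h4.tendsto
    rw [(isCh_ch z).symm_cp hye] at h5
    exact h5.eventually hyS
  have h6 := hA.eqOn_zero_of_preconnected_of_eventuallyEq_zero
    (convex_ball _ _).isPreconnected hyb h3
  filter_upwards [hW.mem_nhds hzW] with x hx
  have h7 := h6 hx.2
  have h8 : F ((ch z).symm (cp x)) = 0 := h7
  rwa [(isCh_ch z).symm_cp hx.1] at h8

/-- **identity theorem** on a preconnected set -/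
theorem ident {U : Set X} (hc : IsPreconnected U) {F : X → Fin k → ℂ}
    (hF : ∀ z ∈ U, HolAt F z) {x : X} (hx : x ∈ U) (h0 : ∀ᶠ y in 𝓝 x, F y = 0) :
    ∀ z ∈ U, ∀ᶠ y in 𝓝 z, F y = 0 := by
  have hSo : IsOpen {y | ∀ᶠ x in 𝓝 y, F x = 0} := isOpen_setOfPred_eventually_nhds
  have h1 : U ⊆ {y | ∀ᶠ x in 𝓝 y, F x = 0} :=
    hc.subset_of_closure_inter_subset hSo ⟨x, hx, h0⟩
      fun z hz => ev_zero_of_closure (hF z hz.2) hz.1
  exact fun z hz => h1 hz

end ident

/-! ### (ID) along transports -/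

section idtr

variable {m N k : ℕ} {X : Type*} [TopologicalSpace X] [RDom m X] {P : X → X → GL (Fin N) ℤ}
  {om : X → Fin N → ℂ}




end idtr

/-! ### the flat span -/

section span

variable {N : ℕ} {X : Type*} [TopologicalSpace X] {P : X → X → GL (Fin N) ℤ}
  {om : X → Fin N → ℂ} {x y : X} {g : GL (Fin N) ℤ}

/-- span of the transports of `om` -/
def Wf (P : X → X → GL (Fin N) ℤ) (om : X → Fin N → ℂ) (x : X) : Submodule ℂ (Fin N → ℂ) :=
  Submodule.span ℂ {v | ∃ y h, Tr P x y h ∧ cm h *ᵥ om y = v}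

theorem mem_wf {h : GL (Fin N) ℤ} (hh : Tr P x y h) : cm h *ᵥ om y ∈ Wf P om x :=
  Submodule.subset_span ⟨y, h, hh, rfl⟩

theorem om_mem_wf : om x ∈ Wf P om x := by
  have h1 := mem_wf (om := om) (Tr.refl (P := P) x)
  rwa [cm_mulVec_one] at h1

theorem wf_tr_le (hg : Tr P x y g) : mapS g (Wf P om y) ≤ Wf P om x := by
  refine mapS_le fun v hv => ?_
  refine Submodule.span_induction (p := fun v _ => cm g *ᵥ v ∈ Wf P om x) ?_ ?_ ?_ ?_ hv
  · rintro _ ⟨z, h, hh, rfl⟩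
    rw [← cm_mulVec_mul]
    exact mem_wf (hg.trans hh)
  · rw [mulVec_zero]; exact Submodule.zero_mem _
  · intro a b _ _ ha hb
    rw [mulVec_add]; exact Submodule.add_mem _ ha hb
  · intro c a _ ha
    rw [mulVec_smul]; exact Submodule.smul_mem _ _ ha

theorem wf_tr (hg : Tr P x y g) : Wf P om x = mapS g (Wf P om y) := by
  refine le_antisymm ?_ (wf_tr_le hg)
  have h1 := mapS_mono g (wf_tr_le (om := om) hg.symm)
  rwa [mapS_inv_cancel] at h1

/-- **(W)** `Wf` is flat -/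
theorem wf_flat [LocallyConnectedSpace X] (h : NDC P) : FlS P (Wf P om) :=
  sub_of_tr h fun _ _ _ hg => wf_tr hg

/-- a linear property of the transports of `om` holds on `Wf` -/
theorem wf_scalar {ζ : ℂ} {T : Matrix (Fin N) (Fin N) ℂ}
    (hT : ∀ (y : X) (h : GL (Fin N) ℤ), Tr P x y h →
      T *ᵥ (cm h *ᵥ om y) = ζ • (cm h *ᵥ om y)) : ∀ u ∈ Wf P om x, T *ᵥ u = ζ • u := by
  intro u hu
  refine Submodule.span_induction (p := fun u _ => T *ᵥ u = ζ • u) ?_ ?_ ?_ ?_ hu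
  · rintro _ ⟨z, h, hh, rfl⟩
    exact hT z h hh
  · rw [mulVec_zero, smul_zero]
  · intro a b _ _ ha hb
    rw [mulVec_add, ha, hb, smul_add]
  · intro c a _ ha
    rw [mulVec_smul, ha, smul_comm]

end span

/-! ### the two forms of the output -/

section outp

variable {m N w : ℕ} {X : Type*} [TopologicalSpace X] [RDom m X]

/-- every monodromy which is a scalar on the transports of `om` commutes with `E` and has exponent
`M` -/
def HulS (V : VHS m X N w) (om : X → Fin N → ℂ) (M : ℕ) : Prop :=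
  ∀ (x : X) (g : GL (Fin N) ℤ), g ∈ mon V.P x → ∀ ζ : ℂ,
    (∀ (y : X) (h : GL (Fin N) ℤ), Tr V.P x y h →
      cm g *ᵥ (cm h *ᵥ om y) = ζ • (cm h *ᵥ om y)) →
    cm g * V.E x = V.E x * cm g ∧ g ^ M = 1







end outp

/-! ### the hull -/

section hull

variable {m N w : ℕ} {X : Type*} [TopologicalSpace X] [RDom m X]

/-- transfer of `HulS` from the hull inside `V` to the sub-variation -/
theorem hulS_of {r : ℕ} {V : VHS m X N w} {om : X → Fin N → ℂ}
    {B : X → Matrix (Fin N) (Fin r) ℤ} {C : X → Matrix (Fin r) (Fin N) ℤ}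
    {V' : VHS m X r w} (hs : IsSub V B C V') {om' : X → Fin r → ℂ}
    (hom : ∀ x, om x = ic (B x) *ᵥ om' x) {M : ℕ}
    (hM : ∀ (x : X) (g : GL (Fin N) ℤ) (ζ : ℂ), Tr V.P x x g →
      (∀ u ∈ Wf V.P om x, cm g *ᵥ u = ζ • u) →
      ∀ g' : GL (Fin r) ℤ, (g : Matrix (Fin N) (Fin N) ℤ) * B x
          = B x * (g' : Matrix (Fin r) (Fin r) ℤ) →
        g' ^ M = 1 ∧ cm g' * V'.E x = V'.E x * cm g') : HulS V' om' M := by
  intro x g' hg' ζ hζ
  obtain ⟨g, hg, hgg⟩ := hs.tr' hg'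
  refine (hM x g ζ hg (wf_scalar fun y h hh => ?_) g' hgg).symm
  obtain ⟨h', hh', hhh⟩ := hs.tr hh
  have e1 : cm h *ᵥ om y = ic (B x) *ᵥ (cm h' *ᵥ om' y) := by
    rw [hom, mulVec_mulVec, mulVec_mulVec, ← ic_gl, ← ic_gl, ← ic_mul, ← ic_mul, hhh]
  have e2 : ∀ v, cm g *ᵥ (ic (B x) *ᵥ v) = ic (B x) *ᵥ (cm g' *ᵥ v) := fun v => by
    rw [mulVec_mulVec, mulVec_mulVec, ← ic_gl, ← ic_gl, ← ic_mul, ← ic_mul, hgg]
  rw [e1, e2, hζ y h' hh', mulVec_smul]

/-- **(H)** the sub-variation of the hull of the flat span of `om` -/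
theorem exists_hull [T2Space X] [PreconnectedSpace X] {h : MvPolynomial (Fin m) ℂ}
    (hP : Prp h X) (V : VHS m X N w) {om : X → Fin N → ℂ} (hol : ∀ z, HolAt (lV V.P om z) z) :
    ∃ (r : ℕ) (B : X → Matrix (Fin N) (Fin r) ℤ) (C : X → Matrix (Fin r) (Fin N) ℤ)
      (V' : VHS m X r w) (om' : X → Fin r → ℂ), IsSub V B C V' ∧
      (∀ x, om x = ic (B x) *ᵥ om' x) ∧ (∀ z, HolAt (lV V'.P om' z) z) ∧
      ∃ M : ℕ, 0 < M ∧ HulS V' om' M := by
  have := rdom_lc (X := X)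
  rcases isEmpty_or_nonempty X with hX | ⟨⟨x₀⟩⟩
  · refine ⟨N, fun _ => 1, fun _ => 1, V, om, ⟨fun x => hX.elim x, fun x => hX.elim x,
      fun x => hX.elim x, fun x => hX.elim x⟩, fun x => hX.elim x, fun x => hX.elim x, 1, one_pos,
      fun x => hX.elim x⟩
  have hM : ∀ x, Mono w (V.S x) (V.E x) (mon V.P x) := fun x => Mono_574.mono hP x
  have hW : FlS V.P (Wf V.P om) := wf_flat V.ndc
  obtain ⟨r, B, C, V', -, hs, hrg, -⟩ := exists_sub_Hul V hM x₀ hW
  obtain ⟨M, hM0, hM1⟩ := hul_scalar V hM hW hs hrg x₀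
  have hmem : ∀ x, om x ∈ LinearMap.range (ic (B x)).mulVecLin := fun x => by
    rw [hrg]
    exact le_Hul _ om_mem_wf
  have hom : ∀ x, om x = ic (B x) *ᵥ (ic (C x) *ᵥ om x) := fun x => (hs.eq_of_range (hmem x)).symm
  refine ⟨r, B, C, V', fun x => ic (C x) *ᵥ om x, hs, hom,
    fun z => hs.holAt_of hmem z (hol z), M, hM0, hulS_of hs hom hM1⟩

end hull

/-! ### transfer of the CY line -/

section cyl

variable {m N w r : ℕ} {X : Type*} [TopologicalSpace X] [RDom m X] {V : VHS m X N w}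
  {B : X → Matrix (Fin N) (Fin r) ℤ} {C : X → Matrix (Fin r) (Fin N) ℤ} {V' : VHS m X r w}
  {om : X → Fin N → ℂ} {om' : X → Fin r → ℂ}

theorem cyl_sub (hs : IsSub V B C V') (hom : ∀ x, om x = ic (B x) *ᵥ om' x)
    (hc : CYL V om) : CYL V' om' where
  hol := fun z => by
    rw [hs.holAt om' z]
    have h1 := hc.hol z
    have h2 : om = fun x => ic (B x) *ᵥ om' x := funext hom
    rwa [h2] at h1
  eig := fun z => by
    rw [hs.S_herm_eq z (om' z) w, ← hom]
    exact hc.eig z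
  ne := fun z h0 => hc.ne z (by rw [hom, h0, mulVec_zero])
  par := fun z j => by
    obtain ⟨c, hcc⟩ := hc.par z j
    refine ⟨c, ?_⟩
    have h2 : om = fun x => ic (B x) *ᵥ om' x := funext hom
    have h1 : HolAt (lV V'.P om' z) z := by
      rw [hs.holAt om' z]
      have h1 := hc.hol z
      rwa [h2] at h1
    have h3 := hs.Dv_hol om' z h1 j
    rw [← h2] at h3
    apply hs.inj z
    have h4 : Dv V.P om j z = dM V.P V.E j z *ᵥ om z + c • om z := hcc
    show ic (B z) *ᵥ Dv V'.P om' j z = _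
    rw [← h3, h4, hom z, mulVec_add, mulVec_smul, mulVec_mulVec, mulVec_mulVec, hs.dM]

theorem hn_sub (hs : IsSub V B C V') (hom : ∀ x, om x = ic (B x) *ᵥ om' x) (z : X) :
    hn V' z (om' z) = hn V z (om z) := by
  have h1 := hs.hodge_dot z (om' z) (om' z)
  rw [← hom] at h1
  show (star (om' z) ⬝ᵥ hodge w (V'.S z) (V'.E z) *ᵥ om' z).re
    = (star (om z) ⬝ᵥ hodge w (V.S z) (V.E z) *ᵥ om z).re
  rw [h1]

end cyl

end Crest.Agent.R276.HullV_720
end
end

-- ▼ part R276/LHull_720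

/-!
# R276 (helper720): `LHull` of SKEL level 3
-/

set_option autoImplicit false

noncomputable section

open Set Filter Topology

namespace Crest.Agent.R276.LHull_720

open Crest.Agent.R276.SkelGeo_220 Crest.Agent.R276.HullV_720

/-- the hull of a `GeoD` -/
theorem lhull : LHull := by
  intro L K _ _ _ _ _ _ m r R N s σ _ ⟨X⟩
  obtain ⟨n', B, C, V', om', hs, hom, -, M, hM0, hM⟩ :=
    exists_hull (PrpM_739.prp R.ML) X.V X.cyl.hol
  refine ⟨⟨X.mem, X.sat, n', X.wt, V', om', cyl_sub hs hom X.cyl, X.c, X.c_pos, fun z => ?_⟩,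
    M, hM0, fun x g hg ζ hζ => hM x g hg ζ hζ⟩
  rw [hn_sub hs hom]
  exact X.nrm z

end Crest.Agent.R276.LHull_720
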