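import Crest.Agent.R276.VCalcC_442
import Crest.Agent.R266.SCV
import Crest.Agent.R276.Top8b_815

-- ▼ part R276/Top8c_815
section

/-!
# Row 276, IPC step (8): holomorphic frames of the top piece, local form (helper815)

`A : X → Mat_N(ℂ)` smooth on an open set `U`, `[A, ∂_v A] = -∂_v A`, `S A = Aᴴ S`, `S` invertible,
`∏_{p ≤ w} (A - p) = 0`.  Then near every `x₀ ∈ U` there is a holomorphic matrix function `M` with
`A M = w M`, `Π₀ M = Π₀` (`Π₀` = projector on `ker (A x₀ - w)`), and every `v` with `A x v = w v` is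
`M x (Π₀ v)`.
-/

set_option autoImplicit false
set_option linter.unusedSectionVars false

open Set Filter Topology Matrix Finset Polynomial
open scoped ContDiff ComplexConjugate

namespace Crest.Agent.R276.Top8_815

open Crest.Agent.R276.VCalc_442

/-! ### algebra of the projector -/

section alg

variable {R : Type*} [Ring R] [Algebra ℂ R]

/-- the polynomial `∏_{p ≤ w} (X - p)` -/
noncomputable def eigP (w : ℕ) : ℂ[X] := ∏ p ∈ Finset.range (w + 1), (X - C (p : ℂ))

/-- the Lagrange polynomial which is `1` at `w` and `0` at `0, …, w - 1` -/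
noncomputable def topP (w : ℕ) : ℂ[X] :=
  Lagrange.basis (Finset.range (w + 1)) (fun q : ℕ => (q : ℂ)) w

theorem injOn_cast (w : ℕ) :
    Set.InjOn (fun q : ℕ => (q : ℂ)) (Finset.range (w + 1) : Set ℕ) := fun _ _ _ _ h =>
  Nat.cast_injective h

theorem eval_topP (w : ℕ) : (topP w).eval (w : ℂ) = 1 := by
  have := Lagrange.eval_basis_self (s := Finset.range (w + 1)) (v := fun q : ℕ => (q : ℂ))
    (i := w) (injOn_cast w) (by simp)
  exact this

/-- `(X - w) * topP w` is a multiple of `eigP w` -/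
theorem mul_topP (w : ℕ) : ∃ c : ℂ, (X - C (w : ℂ)) * topP w = C c * eigP w := by
  classical
  refine ⟨∏ q ∈ (Finset.range (w + 1)).erase w, ((w : ℂ) - q)⁻¹, ?_⟩
  rw [topP, Lagrange.basis, eigP, ← Finset.mul_prod_erase (Finset.range (w + 1))
    (fun p : ℕ => (X - C (p : ℂ) : ℂ[X])) (show w ∈ Finset.range (w + 1) by simp)]
  simp only [Lagrange.basisDivisor]
  rw [Finset.prod_mul_distrib, ← map_prod]
  ring

/-- the Lagrange polynomial which is `1` at `p` and `0` at the other `q ≤ w` -/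
noncomputable def lagP (w p : ℕ) : ℂ[X] :=
  Lagrange.basis (Finset.range (w + 1)) (fun q : ℕ => (q : ℂ)) p

theorem mul_lagP {w p : ℕ} (hp : p ≤ w) : ∃ c : ℂ, (X - C (p : ℂ)) * lagP w p = C c * eigP w := by
  classical
  refine ⟨∏ q ∈ (Finset.range (w + 1)).erase p, ((p : ℂ) - q)⁻¹, ?_⟩
  rw [lagP, Lagrange.basis, eigP, ← Finset.mul_prod_erase (Finset.range (w + 1))
    (fun p : ℕ => (X - C (p : ℂ) : ℂ[X])) (show p ∈ Finset.range (w + 1) by simp; omega)]
  simp only [Lagrange.basisDivisor]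
  rw [Finset.prod_mul_distrib, ← map_prod]
  ring

theorem sum_lagP (w : ℕ) : ∑ p ∈ Finset.range (w + 1), lagP w p = 1 :=
  Lagrange.sum_basis (injOn_cast w) (by simp)

theorem A_mul_lag {w p : ℕ} (hp : p ≤ w) {A : R} (h : aeval A (eigP w) = 0) :
    A * aeval A (lagP w p) = (p : ℂ) • aeval A (lagP w p) := by
  obtain ⟨c, hc⟩ := mul_lagP hp
  have h1 : aeval A ((X - C (p : ℂ)) * lagP w p) = 0 := by
    rw [hc, map_mul, h, mul_zero]
  rw [map_mul, map_sub, aeval_X, aeval_C, sub_mul, sub_eq_zero] at h1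
  rw [h1, Algebra.smul_def]

theorem sum_lag_aeval (w : ℕ) (A : R) :
    ∑ p ∈ Finset.range (w + 1), aeval A (lagP w p) = 1 := by
  rw [← map_sum, sum_lagP, map_one]

theorem A_mul_top {w : ℕ} {A : R} (h : aeval A (eigP w) = 0) :
    A * aeval A (topP w) = (w : ℂ) • aeval A (topP w) := by
  obtain ⟨c, hc⟩ := mul_topP w
  have h1 : aeval A ((X - C (w : ℂ)) * topP w) = 0 := by
    rw [hc, map_mul, h, mul_zero]
  rw [map_mul, map_sub, aeval_X, aeval_C, sub_mul, sub_eq_zero] at h1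
  rw [h1, Algebra.smul_def]


/-- polynomials act by their value on the left ideal of eigenelements -/
theorem aeval_mul_of_eig {A B : R} {l : ℂ} (h : A * B = l • B) (p : ℂ[X]) :
    aeval A p * B = (p.eval l) • B := by
  induction p using Polynomial.induction_on' with
  | add p q hp hq => rw [map_add, add_mul, hp, hq, eval_add, add_smul]
  | monomial k c =>
      have h1 : A ^ k * B = (l ^ k) • B := by
        induction k with
        | zero => simp
        | succ k ih => rw [pow_succ, mul_assoc, h, mul_smul_comm, ih, smul_smul, pow_succ, mul_comm l]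
      rw [aeval_monomial, eval_monomial, mul_assoc, h1, ← Algebra.smul_def, smul_smul]

theorem top_mul_of_eig {w : ℕ} {A B : R} (h : A * B = (w : ℂ) • B) :
    aeval A (topP w) * B = B := by
  rw [aeval_mul_of_eig h, eval_topP, one_smul]

theorem top_idem {w : ℕ} {A : R} (h : aeval A (eigP w) = 0) :
    aeval A (topP w) * aeval A (topP w) = aeval A (topP w) :=
  top_mul_of_eig (A_mul_top h)

/-- there is no eigenvalue `w + 1` -/
theorem eq_zero_of_eig_succ {w : ℕ} {A B : R} (h : aeval A (eigP w) = 0)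
    (hB : A * B = ((w : ℂ) + 1) • B) : B = 0 := by
  have h1 := aeval_mul_of_eig hB (eigP w)
  rw [h, zero_mul] at h1
  have h2 : (eigP w).eval ((w : ℂ) + 1) ≠ 0 := by
    rw [eigP, eval_prod, Finset.prod_ne_zero_iff]
    intro p hp
    rw [eval_sub, eval_X, eval_C]
    have hp' : p ≤ w := by simpa [Nat.lt_succ_iff] using hp
    have : ((w : ℂ) + 1 - p) = ((w + 1 - p : ℕ) : ℂ) := by
      push_cast [Nat.cast_sub (show p ≤ w + 1 by omega)]
      ring
    rw [this]
    exact_mod_cast (show w + 1 - p ≠ 0 by omega)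
  exact (smul_eq_zero.1 h1.symm).resolve_left h2

end alg

section loc

attribute [local instance] Matrix.linftyOpNormedRing Matrix.linftyOpNormedAlgebra

variable {X : Type*} [NormedAddCommGroup X] [NormedSpace ℂ X] {N : ℕ}

local notation "Mat" => Matrix (Fin N) (Fin N) ℂ

/-- `(∂_v A)ᴴ S = S ∂̄_v A` -/
theorem adj_dW' {U : Set X} (hU : IsOpen U) {A : X → Mat} (hA : ContDiffOn ℝ ∞ A U) {S : Mat}
    (had : ∀ y ∈ U, S * A y = (A y)ᴴ * S) {x : X} (hx : x ∈ U) (v : X) :
    (dW A v x)ᴴ * S = S * dB A v x := by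
  have d1 : DifferentiableAt ℝ A x := diffAt hU hA hx
  have h1 : (fun y => (A y)ᴴ * S) =ᶠ[𝓝 x] fun y => S * A y :=
    Filter.eventually_of_mem (hU.mem_nhds hx) fun y hy => (had y hy).symm
  have h2 := dB_congr h1 v
  rw [dB_mul (diff_ct d1) (differentiableAt_const S), dB_mul (differentiableAt_const S) d1,
    dB_const, mul_zero, add_zero, zero_mul, zero_add, dB_ct d1] at h2
  exact h2

theorem hB_of {U : Set X} (hU : IsOpen U) {A : X → Mat} (hA : ContDiffOn ℝ ∞ A U) {S : Mat}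
    (hS : IsUnit S) (had : ∀ y ∈ U, S * A y = (A y)ᴴ * S)
    (hW : ∀ x ∈ U, ∀ v, A x * dW A v x - dW A v x * A x = - dW A v x) {x : X} (hx : x ∈ U) (v : X) :
    A x * dB A v x - dB A v x * A x = dB A v x := by
  have h1 := adj_dW' hU hA had hx v
  have h2 := congrArg (fun a : Mat => aᴴ * S) (hW x hx v)
  simp only [Matrix.conjTranspose_sub, Matrix.conjTranspose_mul, Matrix.conjTranspose_neg,
    sub_mul, neg_mul] at h2
  have e1 : (dW A v x)ᴴ * (A x)ᴴ * S = S * (dB A v x * A x) := by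
    rw [Matrix.mul_assoc, ← had x hx, ← Matrix.mul_assoc, h1, Matrix.mul_assoc]
  have e2 : (A x)ᴴ * (dW A v x)ᴴ * S = S * (A x * dB A v x) := by
    rw [Matrix.mul_assoc, h1, ← Matrix.mul_assoc, ← had x hx, Matrix.mul_assoc]
  rw [e1, e2, h1, ← Matrix.mul_sub, ← Matrix.mul_neg] at h2
  have h3 := hS.mul_left_cancel h2
  rw [← neg_inj, neg_sub]
  exact h3

/-- polynomials in a smooth matrix function are smooth -/
theorem contDiffOn_aeval {U : Set X} {A : X → Mat} (hA : ContDiffOn ℝ ∞ A U) (p : ℂ[X]) :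
    ContDiffOn ℝ ∞ (fun x => aeval (A x) p) U := by
  simp only [aeval_eq_sum_range]
  exact ContDiffOn.sum fun i _ => (hA.pow i).const_smul (p.coeff i)

/-- **Holomorphic frames of the top piece** (matrix form). -/
theorem exists_topM [FiniteDimensional ℂ X] {U : Set X} (hU : IsOpen U) {A : X → Mat}
    (hA : ContDiffOn ℝ ∞ A U) {S : Mat} (hS : IsUnit S) (had : ∀ y ∈ U, S * A y = (A y)ᴴ * S)
    (hW : ∀ x ∈ U, ∀ v, A x * dW A v x - dW A v x * A x = - dW A v x) {w : ℕ}
    (heig : ∀ x ∈ U, aeval (A x) (eigP w) = 0) {x₀ : X} (hx₀ : x₀ ∈ U) :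
    ∃ (M : X → Mat) (U' : Set X), IsOpen U' ∧ x₀ ∈ U' ∧ U' ⊆ U ∧ AnalyticOnNhd ℂ M U' ∧
      (∀ x ∈ U', A x * M x = (w : ℂ) • M x) ∧
      (∀ x ∈ U', aeval (A x₀) (topP w) * M x = aeval (A x₀) (topP w)) ∧
      (∀ x ∈ U', ∀ B : Mat, A x * B = (w : ℂ) • B → B = M x * (aeval (A x₀) (topP w) * B)) ∧
      (∀ x ∈ U', M x * aeval (A x₀) (topP w) = M x) := by
  classical
  set P : X → Mat := fun x => aeval (A x) (topP w) with hP
  set P0 : Mat := aeval (A x₀) (topP w) with hP0
  have hPsm : ContDiffOn ℝ ∞ P U := contDiffOn_aeval hA _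
  have hP0P0 : P0 * P0 = P0 := top_idem (heig x₀ hx₀)
  -- the two invertible matrix functions
  set G : X → Mat := fun x => P0 * P x * P0 + (1 - P0) with hG
  set G' : X → Mat := fun x => P x * P0 * P x + (1 - P x) with hG'
  have hGsm : ContDiffOn ℝ ∞ G U :=
    ((contDiffOn_const.mul hPsm).mul contDiffOn_const).add contDiffOn_const
  have hG'sm : ContDiffOn ℝ ∞ G' U :=
    ((hPsm.mul contDiffOn_const).mul hPsm).add (contDiffOn_const.sub hPsm)
  have hG0 : G x₀ = 1 := by
    simp only [hG]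
    change P0 * P0 * P0 + (1 - P0) = 1
    rw [hP0P0, hP0P0, add_sub_cancel]
  have hG'0 : G' x₀ = 1 := by
    simp only [hG']
    change P0 * P0 * P0 + (1 - P0) = 1
    rw [hP0P0, hP0P0, add_sub_cancel]
  have hunit : ∀ᶠ a : Mat in 𝓝 1, IsUnit a := Units.isOpen.mem_nhds (by exact isUnit_one)
  have hc1 : ContinuousAt G x₀ := hGsm.continuousOn.continuousAt (hU.mem_nhds hx₀)
  have hc2 : ContinuousAt G' x₀ := hG'sm.continuousOn.continuousAt (hU.mem_nhds hx₀)
  have hev : ∀ᶠ x in 𝓝 x₀, x ∈ U ∧ IsUnit (G x) ∧ IsUnit (G' x) := by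
    refine Filter.Eventually.and (hU.mem_nhds hx₀) (Filter.Eventually.and ?_ ?_)
    · have := hc1.tendsto
      rw [hG0] at this
      exact this.eventually hunit
    · have := hc2.tendsto
      rw [hG'0] at this
      exact this.eventually hunit
  obtain ⟨U', hU'sub, hU'op, hU'mem⟩ := mem_nhds_iff.1 hev
  set M : X → Mat := fun x => P x * P0 * Ring.inverse (G x) * P0 with hM
  -- `G` commutes with `P0`
  have hGc : ∀ x, G x * P0 = P0 * G x := by
    intro x
    simp only [hG, add_mul, mul_add, sub_mul, mul_sub, one_mul, mul_one]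
    rw [mul_assoc (P0 * P x) P0 P0, hP0P0, sub_self, add_zero, add_zero,
      ← mul_assoc, ← mul_assoc, hP0P0]
  have hGic : ∀ x, IsUnit (G x) → Ring.inverse (G x) * P0 = P0 * Ring.inverse (G x) := by
    intro x hx
    have h1 : Ring.inverse (G x) * (G x * P0) * Ring.inverse (G x) =
        Ring.inverse (G x) * (P0 * G x) * Ring.inverse (G x) := by rw [hGc]
    have e1 : Ring.inverse (G x) * (G x * P0) * Ring.inverse (G x) =
        P0 * Ring.inverse (G x) := by
      rw [← mul_assoc, Ring.inverse_mul_cancel _ hx, one_mul]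
    have e2 : Ring.inverse (G x) * (P0 * G x) * Ring.inverse (G x) =
        Ring.inverse (G x) * P0 := by
      rw [← mul_assoc, mul_assoc (Ring.inverse (G x) * P0), Ring.mul_inverse_cancel _ hx, mul_one]
    rw [e1, e2] at h1
    exact h1.symm
  have hMsm : ∀ x ∈ U', DifferentiableAt ℝ M x := by
    intro x hx
    have hxU := (hU'sub hx).1
    have d1 : DifferentiableAt ℝ P x := diffAt hU hPsm hxU
    have d2 : DifferentiableAt ℝ G x := diffAt hU hGsm hxU
    obtain ⟨u, hu⟩ := (hU'sub hx).2.1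
    have d3 : DifferentiableAt ℝ (fun x => Ring.inverse (G x)) x := by
      have h1 : DifferentiableAt ℝ (Ring.inverse : Mat → Mat) (G x) := by
        rw [← hu]
        exact differentiableAt_inverse (𝕜 := ℝ) u.isUnit
      exact h1.comp x d2
    exact ((d1.mul (differentiableAt_const P0)).mul d3).mul (differentiableAt_const P0)
  have hAM : ∀ x ∈ U', A x * M x = (w : ℂ) • M x := by
    intro x hx
    simp only [hM]
    rw [mul_assoc (P x), mul_assoc (P x), ← mul_assoc (A x)]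
    simp only [hP]
    rw [A_mul_top (heig x (hU'sub hx).1), smul_mul_assoc]
  have hPM : ∀ x ∈ U', P0 * M x = P0 := by
    intro x hx
    have hu := (hU'sub hx).2.1
    have e1 : P0 * M x = (P0 * P x * P0) * (Ring.inverse (G x) * P0) := by
      simp only [hM]; noncomm_ring
    have e2 : P0 * P x * P0 = G x - (1 - P0) := by simp only [hG]; noncomm_ring
    rw [e1, e2, sub_mul, ← mul_assoc, Ring.mul_inverse_cancel _ hu, one_mul, hGic x hu,
      ← mul_assoc, sub_mul, one_mul, hP0P0, sub_self, zero_mul, sub_zero]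
  have hinj : ∀ x ∈ U', ∀ B : Mat, A x * B = (w : ℂ) • B → P0 * B = 0 → B = 0 := by
    intro x hx B hB h0
    have h1 : P x * B = B := top_mul_of_eig hB
    have h2 : G' x * B = 0 := by
      simp only [hG', add_mul, sub_mul, one_mul]
      rw [mul_assoc (P x * P0), h1, mul_assoc, h0, mul_zero, sub_self, add_zero]
    exact (hU'sub hx).2.2.mul_left_cancel (by rw [h2, mul_zero])
  have hdB : ∀ x ∈ U', ∀ v, dB M v x = 0 := by
    intro x hx v
    have hxU := (hU'sub hx).1
    have dA : DifferentiableAt ℝ A x := diffAt hU hA hxU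
    have dM := hMsm x hx
    have h1 : (fun y => A y * M y) =ᶠ[𝓝 x] fun y => (w : ℂ) • M y :=
      Filter.eventually_of_mem (hU'op.mem_nhds hx) hAM
    have h2 := dB_congr h1 v
    rw [dB_mul dA dM, dB_const_smul _ dM] at h2
    have h3 : dB A v x * M x = 0 := by
      apply eq_zero_of_eig_succ (heig x hxU)
      have h4 := hB_of hU hA hS had hW hxU v
      have h5 : A x * dB A v x = dB A v x * A x + dB A v x := by
        rw [← sub_eq_iff_eq_add']; exact h4
      rw [← mul_assoc, h5, add_mul, mul_assoc, hAM x hx, mul_smul_comm, add_smul, one_smul]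
    rw [h3, zero_add] at h2
    refine hinj x hx _ h2 ?_
    have h6 : (fun y => P0 * M y) =ᶠ[𝓝 x] fun _ => P0 :=
      Filter.eventually_of_mem (hU'op.mem_nhds hx) hPM
    have h7 := dB_congr h6 v
    rw [dB_mul (differentiableAt_const P0) dM, dB_const, zero_mul, zero_add] at h7
    exact h7
  have hMM : ∀ x, M x * P0 = M x := by
    intro x
    simp only [hM]
    rw [mul_assoc, hP0P0]
  refine ⟨M, U', hU'op, hU'mem, fun x hx => (hU'sub hx).1, ?_, hAM, hPM, ?_, fun x _ => hMM x⟩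
  · refine Crest.Agent.R266.SCV.analyticOnNhd_of_real hU'op
      (fun x hx => (hMsm x hx).differentiableWithinAt) ?_
    intro x hx v
    have h1 := fderiv_I_smul M v x
    have h2 := dW_add_dB M v x
    rw [hdB x hx v, smul_zero, sub_zero] at h1
    rw [hdB x hx v, add_zero] at h2
    rw [h1, h2]
  · intro x hx B hB
    have h1 : A x * (B - M x * (P0 * B)) = (w : ℂ) • (B - M x * (P0 * B)) := by
      rw [mul_sub, hB, ← mul_assoc (A x), hAM x hx, smul_mul_assoc, smul_sub]
    have h2 : P0 * (B - M x * (P0 * B)) = 0 := by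
      rw [mul_sub, ← mul_assoc P0 (M x), hPM x hx, ← mul_assoc, hP0P0, sub_self]
    have h3 := hinj x hx _ h1 h2
    exact sub_eq_zero.1 h3

theorem mul_repCol (A : Mat) (v : Fin N → ℂ) :
    A * Matrix.of (fun i (_ : Fin N) => v i) = Matrix.of (fun i _ => (A *ᵥ v) i) := by
  ext i j
  simp [Matrix.mul_apply, Matrix.mulVec, dotProduct]

end loc

section vec

variable {N : ℕ}

/-- vector version of the last property of `exists_topM` -/
theorem vec_of_mat {A M P0 : Matrix (Fin N) (Fin N) ℂ} {l : ℂ}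
    (h : ∀ B : Matrix (Fin N) (Fin N) ℂ, A * B = l • B → B = M * (P0 * B)) {v : Fin N → ℂ}
    (hv : A *ᵥ v = l • v) : v = M *ᵥ (P0 *ᵥ v) := by
  have h1 := h (Matrix.of fun i _ => v i) (by
    rw [mul_repCol, hv]
    rfl)
  rw [mul_repCol, mul_repCol] at h1
  funext i
  have := congrFun (congrFun h1 i) i
  simpa using this

end vec

end Crest.Agent.R276.Top8_815
end

-- ▼ part R276/Top8d_815

/-!
# Row 276, IPC step (8): holomorphic frames of the top piece of a `VHS` (helper815)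

* `hnsq_top`, `hnsq_pos`: the Hodge norm on the top piece.
* `holAt_iff`, `HolAt.eventually`: holomorphy on a Riemann domain.
* `exists_frame`: near every `u₀` the top piece has a holomorphic frame `e_k` with holomorphic coordinates.
-/

set_option autoImplicit false
set_option linter.unusedSectionVars false

noncomputable section

open Set Filter Topology MeasureTheory Matrix Polynomial
open Crest.Agent.R271.Ho51 Crest.Agent.R276.Ipc735
open scoped ContDiff

namespace Crest.Agent.R276.Top8_815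

section cmf

variable {N : ℕ}

theorem cm_mul (g h : GL (Fin N) ℤ) : cm (g * h) = cm g * cm h := by
  unfold cm
  rw [Units.val_mul]
  ext i j
  simp [Matrix.mul_apply]

theorem cm_one : cm (1 : GL (Fin N) ℤ) = 1 := by
  unfold cm
  ext i j
  by_cases h : i = j
  · subst h; simp
  · simp [h]

theorem cm_mul_inv (g : GL (Fin N) ℤ) : cm g * cm g⁻¹ = 1 := by
  rw [← cm_mul, mul_inv_cancel, cm_one]

theorem cm_inv_mul (g : GL (Fin N) ℤ) : cm g⁻¹ * cm g = 1 := by
  rw [← cm_mul, inv_mul_cancel, cm_one]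


theorem cm_mulVec_inv (g : GL (Fin N) ℤ) (v : Fin N → ℂ) : cm g *ᵥ (cm g⁻¹ *ᵥ v) = v := by
  rw [Matrix.mulVec_mulVec, cm_mul_inv, Matrix.one_mulVec]

theorem cm_inv_mulVec (g : GL (Fin N) ℤ) (v : Fin N → ℂ) : cm g⁻¹ *ᵥ (cm g *ᵥ v) = v := by
  rw [Matrix.mulVec_mulVec, cm_inv_mul, Matrix.one_mulVec]

/-- conjugation of a polynomial in a matrix -/
theorem aeval_conj (g : GL (Fin N) ℤ) (A : Matrix (Fin N) (Fin N) ℂ) (p : ℂ[X]) :
    aeval (cm g * A * cm g⁻¹) p = cm g * aeval A p * cm g⁻¹ := by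
  induction p using Polynomial.induction_on' with
  | add p q hp hq => rw [map_add, map_add, hp, hq, mul_add, add_mul]
  | monomial k c =>
      have h1 : (cm g * A * cm g⁻¹) ^ k = cm g * A ^ k * cm g⁻¹ := by
        induction k with
        | zero => simp [cm_mul_inv]
        | succ k ih =>
          rw [pow_succ, ih, pow_succ]
          calc cm g * A ^ k * cm g⁻¹ * (cm g * A * cm g⁻¹)
              = cm g * A ^ k * (cm g⁻¹ * cm g) * A * cm g⁻¹ := by simp only [mul_assoc]
            _ = cm g * (A ^ k * A) * cm g⁻¹ := by rw [cm_inv_mul, mul_one]; simp only [mul_assoc]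
      rw [aeval_monomial, aeval_monomial, h1, ← Algebra.smul_def, ← Algebra.smul_def,
        mul_smul_comm, smul_mul_assoc]

end cmf

section hs

variable {N w : ℕ} {S E : Matrix (Fin N) (Fin N) ℂ}

theorem hpr_eq (w p : ℕ) (E : Matrix (Fin N) (Fin N) ℂ) : hpr w p E = aeval E (lagP w p) := rfl

theorem aeval_mulVec_of_eig {A : Matrix (Fin N) (Fin N) ℂ} {v : Fin N → ℂ} {l : ℂ}
    (h : A *ᵥ v = l • v) (p : ℂ[X]) : aeval A p *ᵥ v = (p.eval l) • v := by
  induction p using Polynomial.induction_on' with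
  | add p q hp hq => rw [map_add, add_mulVec, hp, hq, eval_add, add_smul]
  | monomial k c =>
      have h1 : A ^ k *ᵥ v = (l ^ k) • v := by
        induction k with
        | zero => simp
        | succ k ih =>
          rw [pow_succ, ← mulVec_mulVec, h, mulVec_smul, ih, smul_smul, pow_succ, mul_comm l]
      rw [aeval_monomial, eval_monomial, ← Algebra.smul_def, smul_mulVec, h1, smul_smul]

theorem hpr_top {v : Fin N → ℂ} (hv : IsTop w E v) {p : ℕ} (hp : p ∈ Finset.range (w + 1)) :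
    hpr w p E *ᵥ v = if p = w then v else 0 := by
  rw [hpr_eq, aeval_mulVec_of_eig hv]
  split_ifs with h
  · subst h
    rw [lagP, Lagrange.eval_basis_self (injOn_cast p) (by simp), one_smul]
  · have h1 : (lagP w p).eval ((w : ℕ) : ℂ) = 0 :=
      Lagrange.eval_basis_of_ne (v := fun q : ℕ => (q : ℂ)) h (by simp)
    rw [h1, zero_smul]

theorem weil_top {v : Fin N → ℂ} (hv : IsTop w E v) : weil w E *ᵥ v = (-1 : ℂ) ^ w • v := by
  rw [weil, Matrix.sum_mulVec, Finset.sum_eq_single_of_mem w (by simp)]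
  · rw [smul_mulVec, hpr_top hv (by simp), if_pos rfl]
  · intro p hp hne
    rw [smul_mulVec, hpr_top hv hp, if_neg hne, smul_zero]

theorem hodge_top {v : Fin N → ℂ} (hv : IsTop w E v) :
    hodge w S E *ᵥ v = (-1 : ℂ) ^ w • (S *ᵥ v) := by
  rw [hodge, ← mulVec_mulVec, weil_top hv, mulVec_smul]

theorem re_hodge_top {v : Fin N → ℂ} (hv : IsTop w E v) :
    (star v ⬝ᵥ hodge w S E *ᵥ v).re = (-1 : ℝ) ^ w * (star v ⬝ᵥ S *ᵥ v).re := by
  rw [hodge_top hv, dotProduct_smul, smul_eq_mul]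
  have : ((-1 : ℂ) ^ w) = (((-1 : ℝ) ^ w : ℝ) : ℂ) := by push_cast; ring
  rw [this, Complex.re_ofReal_mul]

theorem re_hodge_pos (h : IsHS w S E) {v : Fin N → ℂ} (hv : IsTop w E v) (h0 : v ≠ 0) :
    0 < (star v ⬝ᵥ hodge w S E *ᵥ v).re := by
  rw [re_hodge_top hv]
  exact h.pos w v le_rfl h0 hv

theorem S_mul_aeval (h : IsHS w S E) (p : ℂ[X]) : S * aeval E p = aeval Eᴴ p * S := by
  induction p using Polynomial.induction_on' with
  | add p q hp hq => rw [map_add, map_add, mul_add, add_mul, hp, hq]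
  | monomial k c =>
      have h1 : S * E ^ k = (Eᴴ) ^ k * S := by
        induction k with
        | zero => simp
        | succ k ih =>
          rw [pow_succ, ← mul_assoc, ih, mul_assoc, h.adj, ← mul_assoc, ← pow_succ]
      rw [aeval_monomial, aeval_monomial, ← Algebra.smul_def, ← Algebra.smul_def,
        mul_smul_comm, h1, smul_mul_assoc]

theorem isUnit_S (h : IsHS w S E) : IsUnit S := by
  rw [← Matrix.mulVec_injective_iff_isUnit]
  intro a b hab
  rw [← sub_eq_zero]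
  set v := a - b with hv
  have hSv : S *ᵥ v = 0 := by rw [hv, mulVec_sub]; exact sub_eq_zero.2 hab
  have key : ∀ p ∈ Finset.range (w + 1), hpr w p E *ᵥ v = 0 := by
    intro p hp
    have hp' : p ≤ w := by simpa [Nat.lt_succ_iff] using hp
    by_contra hne
    have h1 : E *ᵥ (hpr w p E *ᵥ v) = (p : ℂ) • (hpr w p E *ᵥ v) := by
      rw [mulVec_mulVec, hpr_eq, A_mul_lag hp' h.eig, smul_mulVec]
    have h2 := h.pos p _ hp' hne h1
    rw [mulVec_mulVec, hpr_eq, S_mul_aeval h, ← mulVec_mulVec, hSv, mulVec_zero,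
      dotProduct_zero, Complex.zero_re, mul_zero] at h2
    exact lt_irrefl _ h2
  have h3 : (∑ p ∈ Finset.range (w + 1), hpr w p E) *ᵥ v = v := by
    have := sum_lag_aeval w E
    simp only [← hpr_eq] at this
    rw [this, one_mulVec]
  rw [← h3, Matrix.sum_mulVec]
  exact Finset.sum_eq_zero key

theorem isTop_add {v v' : Fin N → ℂ} (h : IsTop w E v) (h' : IsTop w E v') :
    IsTop w E (v + v') := by
  unfold IsTop at *
  rw [mulVec_add, h, h', smul_add]

theorem isTop_smul {v : Fin N → ℂ} (c : ℂ) (h : IsTop w E v) : IsTop w E (c • v) := by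
  unfold IsTop at *
  rw [mulVec_smul, h, smul_comm]

theorem isTop_zero : IsTop w E (0 : Fin N → ℂ) := by
  unfold IsTop
  simp

theorem isTop_sum {ι : Type*} (s : Finset ι) {v : ι → Fin N → ℂ} (h : ∀ i ∈ s, IsTop w E (v i)) :
    IsTop w E (∑ i ∈ s, v i) := by
  classical
  induction s using Finset.induction_on with
  | empty => simpa using isTop_zero
  | insert a s ha ih =>
      rw [Finset.sum_insert ha]
      exact isTop_add (h a (Finset.mem_insert_self a s))
        (ih fun i hi => h i (Finset.mem_insert_of_mem hi))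

end hs

section hol

variable {m : ℕ} {X : Type*} [TopologicalSpace X] [RDom m X] {G : Type*} [NormedAddCommGroup G]
  [NormedSpace ℂ G]

theorem tendsto_symm (z : X) : Tendsto (ch z).symm (𝓝 (cp z)) (𝓝 z) := by
  have := (ch z).symm.continuousAt (x := cp z) (by simpa using (isCh_ch z).cp_mem (mem_ch z))
  rwa [ContinuousAt, (isCh_ch z).symm_cp (mem_ch z)] at this

theorem eventually_cp_symm (z : X) : ∀ᶠ x in 𝓝 (cp z), cp ((ch z).symm x) = x := by
  filter_upwards [(ch z).open_target.mem_nhds ((isCh_ch z).cp_mem (mem_ch z))] with x hx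
  exact (isCh_ch z).cp_symm hx

theorem holAt_iff {f : X → G} {z : X} :
    HolAt f z ↔ ∃ g : (Fin m → ℂ) → G, AnalyticAt ℂ g (cp z) ∧ ∀ᶠ y in 𝓝 z, f y = g (cp y) := by
  constructor
  · intro h
    exact ⟨f ∘ (ch z).symm, h, eventually_eq_comp (isCh_ch z) (mem_ch z) f⟩
  · rintro ⟨g, hg, h⟩
    refine AnalyticAt.congr hg ?_
    filter_upwards [(tendsto_symm z).eventually h, eventually_cp_symm z] with x hx hx2
    rw [Function.comp_apply, hx, hx2]

theorem hol_congr {f g : X → G} {z : X} (h : HolAt f z) (hfg : f =ᶠ[𝓝 z] g) : HolAt g z := by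
  rw [holAt_iff] at h ⊢
  obtain ⟨F, hF, h1⟩ := h
  exact ⟨F, hF, by filter_upwards [h1, hfg] with y hy hy2; rw [← hy2, hy]⟩

theorem hol_eventually [CompleteSpace G] {f : X → G} {z : X} (h : HolAt f z) : ∀ᶠ y in 𝓝 z, HolAt f y := by
  rw [holAt_iff] at h
  obtain ⟨g, hg, h1⟩ := h
  have h2 : ∀ᶠ y in 𝓝 z, AnalyticAt ℂ g (cp y) :=
    cp_cont.continuousAt.eventually hg.eventually_analyticAt
  filter_upwards [h2, h1.eventually_nhds] with y hy hy2
  rw [holAt_iff]
  exact ⟨g, hy, hy2⟩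

theorem hol_clm {G' : Type*} [NormedAddCommGroup G'] [NormedSpace ℂ G'] {f : X → G} {z : X}
    (L : G →L[ℂ] G') (h : HolAt f z) : HolAt (fun y => L (f y)) z := by
  rw [holAt_iff] at h ⊢
  obtain ⟨g, hg, h1⟩ := h
  refine ⟨fun x => L (g x), (L.analyticAt _).comp hg, ?_⟩
  filter_upwards [h1] with y hy
  rw [hy]

theorem hol_mulVec {N : ℕ} {f : X → Fin N → ℂ} {z : X} (B : Matrix (Fin N) (Fin N) ℂ)
    (h : HolAt f z) : HolAt (fun y => B *ᵥ f y) z :=
  hol_clm (LinearMap.toContinuousLinearMap (Matrix.mulVecLin B)) h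







end hol

section frame

variable {n N w : ℕ} {X : Type*} [TopologicalSpace X] [RDom n X]

theorem ndc_nhd {P : X → X → GL (Fin N) ℤ} (h : NDC P) (u₀ : X) :
    ∃ O : Set X, IsOpen O ∧ u₀ ∈ O ∧ O ⊆ (ch u₀).source ∧
      ∀ x ∈ O, ∀ y ∈ O, ∀ z ∈ O, P x y * P y z = P x z := by
  obtain ⟨U, hU, h1⟩ := h u₀
  obtain ⟨V, hV, hVo, hV0⟩ :=
    mem_nhds_iff.1 (Filter.inter_mem hU ((ch u₀).open_source.mem_nhds (mem_ch u₀)))
  exact ⟨V, hVo, hV0, fun x hx => (hV hx).2,
    fun x hx y hy z hz => h1 x (hV hx).1 y (hV hy).1 z (hV hz).1⟩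




/-- change of the centre -/
theorem lV_change {P : X → X → GL (Fin N) ℤ} {O : Set X}
    (hO : ∀ x ∈ O, ∀ y ∈ O, ∀ z ∈ O, P x y * P y z = P x z) {u₀ u y : X} (h0 : u₀ ∈ O) (hu : u ∈ O)
    (hy : y ∈ O) (v : X → Fin N → ℂ) : lV P v u₀ y = cm (P u₀ u) *ᵥ lV P v u y := by
  unfold lV
  rw [mulVec_mulVec, ← cm_mul, hO u₀ h0 u hu y hy]

/-- a section which is holomorphic at `u₀` is holomorphic at the points near `u₀` -/
theorem holAt_lV_eventually {P : X → X → GL (Fin N) ℤ} (h : NDC P) {u₀ : X} {v : X → Fin N → ℂ}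
    (hv : HolAt (lV P v u₀) u₀) : ∀ᶠ u in 𝓝 u₀, HolAt (lV P v u) u := by
  obtain ⟨O, hOo, h0, _, hO⟩ := ndc_nhd h u₀
  filter_upwards [hol_eventually hv, hOo.mem_nhds h0] with u hu huO
  refine hol_congr (hol_mulVec (cm (P u u₀)) hu) ?_
  filter_upwards [hOo.mem_nhds huO] with y hy
  rw [lV_change hO huO h0 hy]

attribute [local instance] Matrix.linftyOpNormedRing Matrix.linftyOpNormedAlgebra

open Crest.Agent.R276.VCalc_442

theorem contDiffAt_matrix {E : Type*} [NormedAddCommGroup E] [NormedSpace ℂ E]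
    {F : E → Matrix (Fin N) (Fin N) ℂ} {x : E}
    (h : ∀ i j, ContDiffAt ℝ ∞ (fun x => F x i j) x) : ContDiffAt ℝ ∞ F x := by
  have e : F = fun x => ∑ i, ∑ j, (F x i j) • Matrix.single i j (1 : ℂ) := by
    funext x
    conv_lhs => rw [Matrix.matrix_eq_sum_single (F x)]
    simp only [Matrix.smul_single, smul_eq_mul, mul_one]
  rw [e]
  exact ContDiffAt.sum fun i _ => ContDiffAt.sum fun j _ => (h i j).smul contDiffAt_const

/-- transversality in all directions -/
theorem tr_all (V : VHS n X N w) (u : X) (v : Fin n → ℂ) :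
    V.E u * dW (fun x => lM V.P V.E u ((ch u).symm x)) v (cp u) -
      dW (fun x => lM V.P V.E u ((ch u).symm x)) v (cp u) * V.E u =
      - dW (fun x => lM V.P V.E u ((ch u).symm x)) v (cp u) := by
  set B : (Fin n → ℂ) → Matrix (Fin N) (Fin N) ℂ := fun x => lM V.P V.E u ((ch u).symm x) with hB
  have hsm : ContDiffAt ℝ ∞ B (cp u) := contDiffAt_matrix fun i j => V.smE u i j
  have hd : DifferentiableAt ℝ B (cp u) := hsm.differentiableAt (by simp)
  have h1 : ∀ j : Fin n, dW B (Pi.single j 1) (cp u) = dM V.P V.E j u := by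
    intro j
    ext i k
    have h2 := dW_clm (ent i k) hd (Pi.single j 1)
    have h3 : dW (fun x => B x i k) (Pi.single j 1) (cp u) = dM V.P V.E j u i k := by
      have h4 : Complex.I • (Pi.single j 1 : Fin n → ℂ) = Pi.single j Complex.I := by
        rw [← Pi.single_smul, smul_eq_mul, mul_one]
      rw [dW, h4]
      rfl
    rw [← h3]
    exact h2.symm
  have hv : v = ∑ j, v j • (Pi.single j 1 : Fin n → ℂ) := by
    funext i
    simp [Finset.sum_apply, Pi.single_apply]
  have hs : ∀ s : Finset (Fin n), V.E u * dW B (∑ j ∈ s, v j • (Pi.single j 1 : Fin n → ℂ)) (cp u) -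
      dW B (∑ j ∈ s, v j • (Pi.single j 1 : Fin n → ℂ)) (cp u) * V.E u =
      - dW B (∑ j ∈ s, v j • (Pi.single j 1 : Fin n → ℂ)) (cp u) := by
    intro s
    classical
    induction s using Finset.induction_on with
    | empty =>
      have h0 : dW B 0 (cp u) = 0 := by
        have := dW_smul_dir B (cp u) 0 0
        simpa using this
      simp [h0]
    | insert a s ha ih =>
      rw [Finset.sum_insert ha, dW_add_dir, dW_smul_dir, h1, mul_add, add_mul, neg_add, ← ih,
        mul_smul_comm, smul_mul_assoc, ← smul_neg, ← V.tr u a, smul_sub]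
      abel
  rw [hv]
  exact hs _

/-- **Holomorphic frames of the top piece.** -/
theorem exists_frame (V : VHS n X N w) (u₀ : X) :
    ∃ (ρ : ℕ) (e : Fin ρ → X → Fin N → ℂ) (β : Fin ρ → (Fin N → ℂ) →ₗ[ℂ] ℂ),
      (∀ k, HolAt (lV V.P (e k) u₀) u₀) ∧
      ∀ᶠ u in 𝓝 u₀, (∀ k, IsTop w (V.E u) (e k u)) ∧
        (∀ k l, β k (cm (V.P u₀ u) *ᵥ e l u) = if l = k then 1 else 0) ∧
        ∀ v, IsTop w (V.E u) v → v = ∑ k, β k (cm (V.P u₀ u) *ᵥ v) • e k u := by
  classical
  obtain ⟨O', hO'o, h0', hO'ch, hO'⟩ := ndc_nhd V.ndc u₀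
  obtain ⟨O, hOsub, hOo, h0⟩ := mem_nhds_iff.1 (Filter.inter_mem (hO'o.mem_nhds h0') (V.flatS u₀))
  have hO : ∀ x ∈ O, ∀ y ∈ O, ∀ z ∈ O, V.P x y * V.P y z = V.P x z := fun x hx y hy z hz =>
    hO' x (hOsub hx).1 y (hOsub hy).1 z (hOsub hz).1
  have hOch : O ⊆ (ch u₀).source := fun x hx => hO'ch (hOsub hx).1
  have hflat : ∀ y ∈ O, V.S y = (cm (V.P u₀ y))ᴴ * V.S u₀ * cm (V.P u₀ y) := fun y hy =>
    (hOsub hy).2
  set Ω : Set (Fin n → ℂ) := (ch u₀).target ∩ (ch u₀).symm ⁻¹' O with hΩ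
  have hΩo : IsOpen Ω := (ch u₀).isOpen_inter_preimage_symm hOo
  have hΩcp : ∀ u ∈ O, cp u ∈ Ω := fun u hu =>
    ⟨(isCh_ch u₀).cp_mem (hOch hu), by
      show (ch u₀).symm (cp u) ∈ O
      rw [(isCh_ch u₀).symm_cp (hOch hu)]; exact hu⟩
  set A : (Fin n → ℂ) → Matrix (Fin N) (Fin N) ℂ := fun x => lM V.P V.E u₀ ((ch u₀).symm x) with hA
  -- comparison with the local matrix at `u`
  have hcomp : ∀ u ∈ O, A =ᶠ[𝓝 (cp u)] fun x =>
      cm (V.P u₀ u) * lM V.P V.E u ((ch u).symm x) * cm (V.P u₀ u)⁻¹ := by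
    intro u hu
    have h1 := (isCh_ch u₀).germ (isCh_ch u) (hOch hu) (mem_ch u)
    filter_upwards [h1, (tendsto_symm u).eventually (hOo.mem_nhds hu)] with x hx hx2
    rw [hA]
    simp only [lM]
    rw [hx, ← hO u₀ h0 u hu _ hx2, cm_mul, _root_.mul_inv_rev, cm_mul]
    simp only [mul_assoc]
  have hAcp : ∀ u ∈ O, A (cp u) = cm (V.P u₀ u) * V.E u * cm (V.P u₀ u)⁻¹ := by
    intro u hu
    simp only [hA, lM]
    rw [(isCh_ch u₀).symm_cp (hOch hu)]
  have hinv : ∀ z ∈ Ω, ∃ u ∈ O, cp u = z := fun z hz =>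
    ⟨_, hz.2, (isCh_ch u₀).cp_symm hz.1⟩
  have hBsm : ∀ u, ContDiffAt ℝ ∞ (fun x => lM V.P V.E u ((ch u).symm x)) (cp u) := fun u =>
    contDiffAt_matrix fun i j => V.smE u i j
  have hAsm : ContDiffOn ℝ ∞ A Ω := by
    intro z hz
    obtain ⟨u, hu, rfl⟩ := hinv z hz
    refine ContDiffAt.contDiffWithinAt ?_
    refine ContDiffAt.congr_of_eventuallyEq ?_ (hcomp u hu)
    exact (contDiffAt_const.mul (hBsm u)).mul contDiffAt_const
  have hW : ∀ z ∈ Ω, ∀ v, A z * dW A v z - dW A v z * A z = - dW A v z := by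
    intro z hz v
    obtain ⟨u, hu, rfl⟩ := hinv z hz
    have hd : DifferentiableAt ℝ (fun x => lM V.P V.E u ((ch u).symm x)) (cp u) :=
      (hBsm u).differentiableAt (by simp)
    have h1 : dW A v (cp u) = cm (V.P u₀ u) *
        dW (fun x => lM V.P V.E u ((ch u).symm x)) v (cp u) * cm (V.P u₀ u)⁻¹ := by
      have hd2 : DifferentiableAt ℝ (fun x => cm (V.P u₀ u) * lM V.P V.E u ((ch u).symm x))
        (cp u) := (differentiableAt_const _).mul hd
      rw [dW_congr (hcomp u hu), dW_mul hd2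
        (differentiableAt_const _), dW_mul (differentiableAt_const _) hd, dW_const, dW_const,
        mul_zero, zero_mul, zero_add, add_zero]
    have h2 := tr_all V u v
    rw [h1, hAcp u hu]
    set T := dW (fun x => lM V.P V.E u ((ch u).symm x)) v (cp u) with hT
    have h3 := cm_inv_mul (V.P u₀ u)
    calc cm (V.P u₀ u) * V.E u * cm (V.P u₀ u)⁻¹ * (cm (V.P u₀ u) * T * cm (V.P u₀ u)⁻¹) -
          cm (V.P u₀ u) * T * cm (V.P u₀ u)⁻¹ * (cm (V.P u₀ u) * V.E u * cm (V.P u₀ u)⁻¹)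
        = cm (V.P u₀ u) * (V.E u * (cm (V.P u₀ u)⁻¹ * cm (V.P u₀ u)) * T -
          T * (cm (V.P u₀ u)⁻¹ * cm (V.P u₀ u)) * V.E u) * cm (V.P u₀ u)⁻¹ := by noncomm_ring
      _ = cm (V.P u₀ u) * (V.E u * T - T * V.E u) * cm (V.P u₀ u)⁻¹ := by
          rw [h3, mul_one, mul_one]
      _ = _ := by rw [h2]; noncomm_ring
  have had : ∀ z ∈ Ω, V.S u₀ * A z = (A z)ᴴ * V.S u₀ := by
    intro z hz
    obtain ⟨u, hu, rfl⟩ := hinv z hz
    rw [hAcp u hu]
    have h1 := (V.hs u).adj
    rw [hflat u hu] at h1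
    set C := cm (V.P u₀ u) with hC
    set C' := cm (V.P u₀ u)⁻¹ with hC'
    have hCC : C * C' = 1 := cm_mul_inv _
    have hCC' : C' * C = 1 := cm_inv_mul _
    have hCCh : C'ᴴ * Cᴴ = 1 := by rw [← conjTranspose_mul, hCC, conjTranspose_one]
    have h2 := congrArg (fun M => C'ᴴ * M * C') h1
    have e1 : C'ᴴ * (Cᴴ * V.S u₀ * C * V.E u) * C' = V.S u₀ * (C * V.E u * C') := by
      calc _ = (C'ᴴ * Cᴴ) * V.S u₀ * (C * V.E u * C') := by noncomm_ring
        _ = _ := by rw [hCCh, one_mul]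
    have e2 : C'ᴴ * ((V.E u)ᴴ * (Cᴴ * V.S u₀ * C)) * C' = (C * V.E u * C')ᴴ * V.S u₀ := by
      rw [conjTranspose_mul, conjTranspose_mul]
      calc _ = C'ᴴ * ((V.E u)ᴴ * Cᴴ) * V.S u₀ * (C * C') := by noncomm_ring
        _ = _ := by rw [hCC, mul_one]
    rw [← e1, ← e2]
    exact h2
  have heig : ∀ z ∈ Ω, aeval (A z) (eigP w) = 0 := by
    intro z hz
    obtain ⟨u, hu, rfl⟩ := hinv z hz
    rw [hAcp u hu, aeval_conj, (show aeval (V.E u) (eigP w) = 0 from (V.hs u).eig), mul_zero,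
      zero_mul]
  obtain ⟨M, U', hU'o, hU'0, hU'sub, hMan, hAM, hPM, hvec, hMP⟩ :=
    exists_topM hΩo hAsm (isUnit_S (V.hs u₀)) had hW heig (hΩcp u₀ h0)
  set P0 : Matrix (Fin N) (Fin N) ℂ := aeval (A (cp u₀)) (topP w) with hP0
  have hP0P0 : P0 * P0 = P0 := top_idem (heig _ (hΩcp u₀ h0))
  -- basis of the range
  let K : Submodule ℂ (Fin N → ℂ) := LinearMap.range (Matrix.mulVecLin P0)
  let b : Module.Basis (Fin (Module.finrank ℂ K)) ℂ K := Module.finBasis ℂ K
  let pr : (Fin N → ℂ) →ₗ[ℂ] K := (Matrix.mulVecLin P0).rangeRestrict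
  have hpr : ∀ x, ((pr x : K) : Fin N → ℂ) = P0 *ᵥ x := fun x => rfl
  have hfix : ∀ x : K, P0 *ᵥ (x : Fin N → ℂ) = x := by
    rintro ⟨_, y, rfl⟩
    show P0 *ᵥ (P0 *ᵥ y) = P0 *ᵥ y
    rw [mulVec_mulVec, hP0P0]
  refine ⟨Module.finrank ℂ K, fun k u => cm (V.P u₀ u)⁻¹ *ᵥ (M (cp u) *ᵥ (b k : Fin N → ℂ)),
    fun k => (b.coord k).comp pr, ?_, ?_⟩
  · intro k
    rw [holAt_iff]
    refine ⟨fun x => M x *ᵥ (b k : Fin N → ℂ), ?_, ?_⟩
    · let L : Matrix (Fin N) (Fin N) ℂ →L[ℂ] (Fin N → ℂ) :=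
        LinearMap.toContinuousLinearMap
          ((LinearMap.applyₗ (b k : Fin N → ℂ)).comp
            (Matrix.toLin' : Matrix (Fin N) (Fin N) ℂ ≃ₗ[ℂ] _).toLinearMap)
      have h1 : AnalyticAt ℂ (fun x => L (M x)) (cp u₀) :=
        (L.analyticAt _).comp (hMan (cp u₀) hU'0)
      exact h1
    · filter_upwards with u
      simp only [lV]
      rw [cm_mulVec_inv]
  · have hev : ∀ᶠ u in 𝓝 u₀, u ∈ O ∧ cp u ∈ U' :=
      Filter.Eventually.and (hOo.mem_nhds h0)
        (cp_cont.continuousAt.eventually (hU'o.mem_nhds hU'0))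
    filter_upwards [hev] with u hu
    obtain ⟨huO, hu'⟩ := hu
    have hE : V.E u * cm (V.P u₀ u)⁻¹ = cm (V.P u₀ u)⁻¹ * A (cp u) := by
      rw [hAcp u huO, ← mul_assoc, ← mul_assoc, cm_inv_mul, one_mul]
    have hE' : A (cp u) * cm (V.P u₀ u) = cm (V.P u₀ u) * V.E u := by
      rw [hAcp u huO, mul_assoc, cm_inv_mul, mul_one]
    refine ⟨?_, ?_, ?_⟩
    · intro k
      show V.E u *ᵥ (cm (V.P u₀ u)⁻¹ *ᵥ (M (cp u) *ᵥ (b k : Fin N → ℂ))) = _
      rw [mulVec_mulVec, hE, ← mulVec_mulVec, mulVec_mulVec _ (A (cp u)), hAM _ hu', smul_mulVec,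
        mulVec_smul]
    · intro k l
      have h1 : P0 *ᵥ (cm (V.P u₀ u) *ᵥ (cm (V.P u₀ u)⁻¹ *ᵥ (M (cp u) *ᵥ (b l : Fin N → ℂ)))) =
          (b l : Fin N → ℂ) := by
        rw [cm_mulVec_inv, mulVec_mulVec, hPM _ hu', hfix]
      have h2 : pr (cm (V.P u₀ u) *ᵥ (cm (V.P u₀ u)⁻¹ *ᵥ (M (cp u) *ᵥ (b l : Fin N → ℂ)))) =
          b l := Subtype.ext h1
      show b.coord k (pr _) = _
      rw [h2, Module.Basis.coord_apply, Module.Basis.repr_self, Finsupp.single_apply]
    · intro v hv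
      have h1 : A (cp u) *ᵥ (cm (V.P u₀ u) *ᵥ v) = (w : ℂ) • (cm (V.P u₀ u) *ᵥ v) := by
        rw [mulVec_mulVec, hE', ← mulVec_mulVec, (show V.E u *ᵥ v = (w : ℂ) • v from hv),
          mulVec_smul]
      have h2 := vec_of_mat (hvec _ hu') h1
      set v' := cm (V.P u₀ u) *ᵥ v with hv'
      have h3 : P0 *ᵥ v' = ∑ k, b.coord k (pr v') • (b k : Fin N → ℂ) := by
        have h4 := b.sum_repr (pr v')
        have h5 := congrArg (fun x : K => (x : Fin N → ℂ)) h4
        simp only [Submodule.coe_sum, Submodule.coe_smul] at h5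
        rw [hpr] at h5
        exact h5.symm
      have h6 : v = cm (V.P u₀ u)⁻¹ *ᵥ v' := by rw [hv', cm_inv_mulVec]
      conv_lhs => rw [h6, h2, h3]
      simp only [mulVec_sum, mulVec_smul]
      rfl

end frame

end Crest.Agent.R276.Top8_815
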