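import Mathlib

/-!
# R276, leaf LM (helper976): local Morse inequalities, part 1

`sq_mul_measure_le` : sub-mean value inequality of `‖g‖²` on balanced open sets, `g` holomorphic.
`lm1`               : the weighted version.
-/

set_option autoImplicit false

open MeasureTheory Set Metric Topology Filter
open scoped ENNReal Real

namespace Crest.Agent.R276.LM1_976

noncomputable section

variable {E : Type*} [NormedAddCommGroup E] [NormedSpace ℂ E]

theorem enorm_sq_eq (z : ℂ) : ENNReal.ofReal (‖z‖ ^ 2) = ‖z‖ₑ ^ 2 := by
  rw [ENNReal.ofReal_pow (norm_nonneg z), ofReal_norm]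


variable [FiniteDimensional ℂ E] [MeasurableSpace E] [BorelSpace E]

/-- multiplication by a unit complex number preserves Haar measure -/
theorem measurePreserving_smul_of_norm_one (μ : Measure E) [μ.IsAddHaarMeasure] {c : ℂ}
    (hc : ‖c‖ = 1) : MeasurePreserving (fun w : E => c • w) μ μ := by
  have : FiniteDimensional ℝ E := FiniteDimensional.complexToReal E
  refine ⟨(continuous_const_smul c).measurable, ?_⟩
  set L : E →ₗ[ℝ] E := ((LinearMap.lsmul ℂ E c).restrictScalars ℝ) with hL
  have hdet : LinearMap.det L = 1 := by
    rw [hL, LinearMap.det_restrictScalars]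
    have : LinearMap.det (LinearMap.lsmul ℂ E c) = c ^ Module.finrank ℂ E := by
      have h0 : LinearMap.lsmul ℂ E c = c • (LinearMap.id : E →ₗ[ℂ] E) := by
        ext w; simp
      rw [h0, LinearMap.det_smul, LinearMap.det_id, mul_one]
    rw [this, Algebra.norm_complex_apply, map_pow, Complex.normSq_eq_norm_sq, hc]
    simp
  have h := Measure.map_linearMap_addHaar_eq_smul_addHaar μ (f := L) (by rw [hdet]; norm_num)
  rw [hdet] at h
  simp only [inv_one, abs_one, ENNReal.ofReal_one, one_smul] at h
  exact h



end

end Crest.Agent.R276.LM1_976
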