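import Mathlib
import Crest.Agent.R276.Liou_739
import Crest.Agent.R276.EngU_29
import Crest.Agent.R276.Avg_999

-- ▼ part R276/Liou2_739
section

/-!
# R276, leaf LIOU, part 2 (helper739): instances of `MaxPr`, curves, line-by-line Liouville

* `maxPr_exp` : `u` usc with circle sub-mean value property (`SMean`) ⟹ `MaxPr (exp u)`.
* `maxPr_exp_of_lap`, `maxPr_exp_of_lev`, `maxPr_exp_of_levi` : `C²` functions / smooth psh functions.
* `maxPr_of_area` : `b ≥ 0` usc, `log (b + δ)` has the area sub-mean value property for all `δ > 0`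
  ⟹ `MaxPr b` (`LPsh` of helper29, values `b = 0` allowed).
* `const_on`, `const_of_max` : Liouville on a clopen preconnected set (connected component).
* `liouville`, `liouville_growth` : for `SMean u`; `pluriharmonic_of_add_le` : `u1 + u2 ≤ C` ⟹ mean value
  equalities for both.
* `Lin M z0 v i`, `linDom`, `prp_lin`, `ln_lin`, `smean_lin`, `maxPr_lin` : the preimage of a complex
  line is a Riemann domain of dimension one which again satisfies `Prp`.
* `exists_fibre_ge_line`, `const_of_lines`, `liouville_lines` : growth conditions line by line.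
-/

set_option autoImplicit false

open Set Filter Topology Metric MeasureTheory
open Real (circleAverage)

namespace Crest.Agent.R276.Liou2_739

open Crest.Agent.R271.Ho51 Crest.Agent.R276.Liou_739

/-! ### flat lemmas -/

theorem exists_ball_ana {F : ℂ → ℂ} (hF : AnalyticAt ℂ F 0) (hF0 : F 0 ≠ 0) :
    ∃ ρ > 0, ∀ t ∈ ball (0 : ℂ) ρ, AnalyticAt ℂ F t ∧ F t ≠ 0 := by
  have h1 := hF.eventually_analyticAt.and (hF.continuousAt.eventually_ne hF0)
  exact Metric.eventually_nhds_iff_ball.1 h1

theorem mean_log {F : ℂ → ℂ} {ρ : ℝ} (hF : ∀ t ∈ ball (0 : ℂ) ρ, AnalyticAt ℂ F t ∧ F t ≠ 0)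
    {r : ℝ} (hr : 0 ≤ r) (hrρ : r < ρ) :
    circleAverage (fun t => Real.log ‖F t‖) 0 r = Real.log ‖F 0‖ ∧
      CircleIntegrable (fun t => Real.log ‖F t‖) 0 r := by
  have h1 : InnerProductSpace.HarmonicOnNhd (fun t => Real.log ‖F t‖) (closedBall 0 |r|) := by
    intro t ht
    have ht' : t ∈ ball (0 : ℂ) ρ := by
      rw [mem_closedBall_zero_iff, abs_of_nonneg hr] at ht
      rw [mem_ball_zero_iff]
      linarith
    exact (hF t ht').1.harmonicAt_log_norm (hF t ht').2
  refine ⟨h1.circleAverage_eq, ?_⟩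
  exact (h1.continuousOn.mono sphere_subset_closedBall).circleIntegrable'

/-- a nonnegative lower semicontinuous function with mean `≤ 0` vanishes -/
theorem eq_zero_of_mean {g : ℂ → ℝ} {r : ℝ} (hr : 0 < r) (hg0 : ∀ t ∈ sphere (0 : ℂ) r, 0 ≤ g t)
    (hlsc : ∀ t ∈ sphere (0 : ℂ) r, ∀ c < g t, ∀ᶠ s in 𝓝 t, c < g s)
    (hint : CircleIntegrable g 0 r) (havg : circleAverage g 0 r ≤ 0) :
    ∀ t ∈ sphere (0 : ℂ) r, g t = 0 := by
  intro t ht
  by_contra hne
  have hpos : 0 < g t := lt_of_le_of_ne (hg0 t ht) (Ne.symm hne)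
  have hmem : ∀ θ : ℝ, circleMap 0 r θ ∈ sphere (0 : ℂ) r := fun θ =>
    circleMap_mem_sphere 0 hr.le θ
  obtain ⟨θ0, hθ0, hθt⟩ : ∃ θ0 ∈ Ioc (0:ℝ) (2 * Real.pi), circleMap 0 r θ0 = t := by
    have h1 : t ∈ circleMap 0 r '' Ioc 0 (2 * Real.pi) := by
      rw [image_circleMap_Ioc, abs_of_pos hr]; exact ht
    exact h1
  have hcirc : IntegrableOn (fun θ => g (circleMap 0 r θ)) (Ioc 0 (2 * Real.pi)) := by
    have h0 : IntervalIntegrable (fun θ => g (circleMap 0 r θ)) volume 0 (2 * Real.pi) := hint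
    rwa [intervalIntegrable_iff, uIoc_of_le (by positivity)] at h0
  have h2 : ∫ θ in Ioc 0 (2 * Real.pi), g (circleMap 0 r θ) = 0 := by
    apply le_antisymm
    · rw [Real.circleAverage_def, smul_eq_mul, intervalIntegral.integral_of_le (by positivity)]
        at havg
      by_contra hcon
      push Not at hcon
      have : 0 < (2 * Real.pi)⁻¹ * ∫ θ in Ioc 0 (2 * Real.pi), g (circleMap 0 r θ) := by positivity
      linarith
    · exact setIntegral_nonneg measurableSet_Ioc fun θ _ => hg0 _ (hmem θ)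
  have h3 := (setIntegral_eq_zero_iff_of_nonneg_ae
    (Eventually.of_forall fun θ => hg0 _ (hmem θ)) hcirc).1 h2
  -- an open set of bad parameters
  have h4 : ∀ᶠ θ in 𝓝 θ0, 0 < g (circleMap 0 r θ) := by
    have h5 := hlsc t ht 0 hpos
    rw [← hθt] at h5
    exact (continuous_circleMap 0 r).continuousAt.eventually h5
  obtain ⟨ε, hε, hball⟩ := Metric.eventually_nhds_iff_ball.1 h4
  have h6 : Ioo (max 0 (θ0 - ε)) θ0 ⊆ {θ | ¬ g (circleMap 0 r θ) = 0} := by
    intro θ hθ
    have : θ ∈ ball θ0 ε := by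
      rw [Real.ball_eq_Ioo]
      exact ⟨lt_of_le_of_lt (le_max_right _ _) hθ.1, by linarith [hθ.2]⟩
    exact (hball θ this).ne'
  have h7 : Ioo (max 0 (θ0 - ε)) θ0 ⊆ Ioc 0 (2 * Real.pi) := fun θ hθ =>
    ⟨lt_of_le_of_lt (le_max_left _ _) hθ.1, hθ.2.le.trans hθ0.2⟩
  have h8 : volume (Ioo (max 0 (θ0 - ε)) θ0) ≠ 0 := by
    rw [Real.volume_Ioo]
    have : 0 < θ0 - max 0 (θ0 - ε) := by
      rw [sub_pos]; exact max_lt hθ0.1 (by linarith)
    simpa using this
  apply h8
  have h9 : (volume.restrict (Ioc 0 (2 * Real.pi))) {θ | ¬ g (circleMap 0 r θ) = 0} = 0 := by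
    have := h3
    rw [Filter.EventuallyEq, ae_iff] at this
    simpa using this
  rw [Measure.restrict_apply' measurableSet_Ioc] at h9
  exact measure_mono_null (subset_inter h6 h7) h9

variable {n : ℕ} {M : Type*} [TopologicalSpace M] [RDom n M]

theorem exists_ball_ln (x : M) (v : Fin n → ℂ) :
    ∃ ρ > 0, ∀ t ∈ ball (0 : ℂ) ρ, cp x + t • v ∈ (ch x).target := by
  have h := tendsto_line x v
  have h2 : ∀ᶠ z in 𝓝 (cp x), z ∈ (ch x).target :=
    (ch x).open_target.mem_nhds ((isCh_ch x).cp_mem (mem_ch x))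
  exact Metric.eventually_nhds_iff_ball.1 (h.eventually h2)

theorem continuousAt_ln {x : M} {v : Fin n → ℂ} {t : ℂ} (ht : cp x + t • v ∈ (ch x).target) :
    ContinuousAt (ln x v) t := by
  have h1 : ContinuousAt (ch x).symm (cp x + t • v) := (ch x).symm.continuousAt (by simpa using ht)
  have h2 : ContinuousAt (fun t : ℂ => cp x + t • v) t := by fun_prop
  exact ContinuousAt.comp (g := (ch x).symm) (f := fun t : ℂ => cp x + t • v) h1 h2

/-- circle sub-mean value property along complex discs -/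
def SMean (u : M → ℝ) : Prop :=
  ∀ (x : M) (v : Fin n → ℂ), ∀ᶠ r in 𝓝[>] (0 : ℝ), CircleIntegrable (fun t => u (ln x v t)) 0 r ∧
    u x ≤ circleAverage (fun t => u (ln x v t)) 0 r

/-- **strong maximum principle** from the circle sub-mean value property -/
theorem maxPr_exp {u : M → ℝ} (husc : UpperSemicontinuous u) (hm : SMean u) :
    MaxPr (fun x => Real.exp (u x)) := by
  intro x v F k hk hF hF0 hloc
  obtain ⟨ρ1, hρ1, hana⟩ := exists_ball_ana hF hF0
  obtain ⟨ρ2, hρ2, hln⟩ := exists_ball_ln x v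
  obtain ⟨ρ3, hρ3, hmax⟩ := Metric.eventually_nhds_iff_ball.1 hloc
  have h1 := hm x v
  rw [eventually_nhdsWithin_iff, Metric.eventually_nhds_iff_ball] at h1
  obtain ⟨ρ4, hρ4, hmean⟩ := h1
  set ρ := min (min ρ1 ρ2) (min ρ3 ρ4) with hρ
  have hρp : 0 < ρ := lt_min (lt_min hρ1 hρ2) (lt_min hρ3 hρ4)
  have hl1 : ρ ≤ ρ1 := (min_le_left _ _).trans (min_le_left _ _)
  have hl2 : ρ ≤ ρ2 := (min_le_left _ _).trans (min_le_right _ _)
  have hl3 : ρ ≤ ρ3 := (min_le_right _ _).trans (min_le_left _ _)
  have hl4 : ρ ≤ ρ4 := (min_le_right _ _).trans (min_le_right _ _)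
  have hkR : (0:ℝ) < k := Nat.cast_pos.2 hk
  have hF0p : 0 < ‖F 0‖ := norm_pos_iff.2 hF0
  filter_upwards [ball_mem_nhds (0 : ℂ) hρp] with t ht
  rcases eq_or_ne t 0 with rfl | ht0
  · rw [ln_zero]
  set r := ‖t‖ with hr
  have hrp : 0 < r := norm_pos_iff.2 ht0
  have hrρ : r < ρ := by rwa [mem_ball_zero_iff] at ht
  obtain ⟨hci, hav⟩ := hmean r (by
    rw [Real.ball_eq_Ioo]; exact ⟨by linarith, by linarith⟩) hrp
  obtain ⟨hml, hmi⟩ := mean_log hana hrp.le (hrρ.trans_le hl1)
  have hsph : ∀ s ∈ sphere (0:ℂ) r, ‖s‖ < ρ := by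
    intro s hs
    rw [mem_sphere_zero_iff_norm] at hs
    rw [hs]; exact hrρ
  -- logarithmic form
  have hlog : ∀ s : ℂ, ‖s‖ < ρ →
      (k : ℝ) * u (ln x v s) + 2 * Real.log ‖F s‖ ≤ k * u x + 2 * Real.log ‖F 0‖ := by
    intro s hs
    have h2 := hmax s (by rw [mem_ball_zero_iff]; linarith)
    have h3 : 0 < ‖F s‖ := norm_pos_iff.2 (hana s (by rw [mem_ball_zero_iff]; linarith)).2
    have h4 := Real.log_le_log (by positivity) h2
    rw [Real.log_mul (by positivity) (by positivity), Real.log_mul (by positivity) (by positivity),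
      Real.log_pow, Real.log_pow, Real.log_exp, Real.log_pow, Real.log_pow, Real.log_exp] at h4
    exact_mod_cast h4
  set g : ℂ → ℝ := fun s => (k * u x + 2 * Real.log ‖F 0‖) -
    (k * u (ln x v s) + 2 * Real.log ‖F s‖) with hg
  have hgi : CircleIntegrable g 0 r := by
    refine CircleIntegrable.sub (circleIntegrable_const _ _ _) ?_
    refine CircleIntegrable.add ?_ ?_
    · exact hci.const_fun_smul (a := (k:ℝ))
    · exact hmi.const_fun_smul (a := (2:ℝ))
  have hga : circleAverage g 0 r ≤ 0 := by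
    have h5 : circleAverage g 0 r = (k * u x + 2 * Real.log ‖F 0‖) -
        (k * circleAverage (fun t => u (ln x v t)) 0 r + 2 * Real.log ‖F 0‖) := by
      have h6 : g = (fun _ => (k * u x + 2 * Real.log ‖F 0‖)) -
        ((fun s => (k:ℝ) • u (ln x v s)) + (fun s => (2:ℝ) • Real.log ‖F s‖)) := by
        funext s
        simp only [hg, Pi.sub_apply, Pi.add_apply, smul_eq_mul]
      have h7 : CircleIntegrable (fun s => (k:ℝ) • u (ln x v s)) 0 r := hci.const_fun_smul
      have h8 : CircleIntegrable (fun s => (2:ℝ) • Real.log ‖F s‖) 0 r := hmi.const_fun_smul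
      rw [h6, Real.circleAverage_sub (circleIntegrable_const _ _ _) (h7.add h8),
        Real.circleAverage_add h7 h8, Real.circleAverage_const]
      rw [Real.circleAverage_fun_smul, Real.circleAverage_fun_smul, hml]
      simp only [smul_eq_mul]
    rw [h5]
    have : (k:ℝ) * u x ≤ k * circleAverage (fun t => u (ln x v t)) 0 r :=
      mul_le_mul_of_nonneg_left hav hkR.le
    linarith
  have h9 := eq_zero_of_mean hrp (g := g) (fun s hs => sub_nonneg.2 (hlog s (hsph s hs))) (by
    intro s hs c hc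
    have hsρ := hsph s hs
    have hc1 : ContinuousAt (ln x v) s := continuousAt_ln (hln s (by
      rw [mem_ball_zero_iff]; linarith))
    have hc2 : ContinuousAt (fun s => Real.log ‖F s‖) s := by
      have h10 := hana s (by rw [mem_ball_zero_iff]; linarith)
      exact (h10.1.continuousAt.norm).log (norm_ne_zero_iff.2 h10.2)
    set η := (g s - c) / (2 * (k + 2)) with hη
    have hηp : 0 < η := div_pos (sub_pos.2 hc) (by positivity)
    have h11 : ∀ᶠ s' in 𝓝 s, u (ln x v s') < u (ln x v s) + η :=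
      hc1.eventually (husc (ln x v s) (u (ln x v s) + η) (by linarith))
    have h12 : ∀ᶠ s' in 𝓝 s, Real.log ‖F s'‖ < Real.log ‖F s‖ + η :=
      hc2.eventually (gt_mem_nhds (by linarith))
    filter_upwards [h11, h12] with s' h13 h14
    have h15 : (k:ℝ) * u (ln x v s') ≤ k * (u (ln x v s) + η) :=
      mul_le_mul_of_nonneg_left h13.le hkR.le
    have h16 : (k + 2) * η = (g s - c) / 2 := by
      rw [hη]; field_simp
    have h17 : g s - g s' ≤ (k + 2) * η := by
      simp only [hg]
      nlinarith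
    linarith) hgi hga t (by rw [mem_sphere_zero_iff_norm])
  have h10 : (k : ℝ) * u (ln x v t) + 2 * Real.log ‖F t‖ = k * u x + 2 * Real.log ‖F 0‖ := by
    have := h9
    simp only [hg] at this
    linarith
  have h3 : 0 < ‖F t‖ := norm_pos_iff.2 (hana t (by rw [mem_ball_zero_iff]; linarith)).2
  have h18 : ∀ (a c : ℝ), 0 < c → Real.exp a ^ k * c ^ 2 = Real.exp (k * a + 2 * Real.log c) := by
    intro a c hc
    rw [Real.exp_add, ← Real.exp_nat_mul, two_mul, Real.exp_add, Real.exp_log hc, sq]
  rw [h18 _ _ h3, h18 _ _ hF0p, h10]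


/-! ### area means -/






/-! ### corollaries -/

theorem circleIntegrable_ln {u : M → ℝ} (hu : Continuous u) (x : M) (v : Fin n → ℂ) :
    ∀ᶠ r in 𝓝[>] (0 : ℝ), CircleIntegrable (fun t => u (ln x v t)) 0 r := by
  obtain ⟨ρ, hρ, hln⟩ := exists_ball_ln x v
  rw [eventually_nhdsWithin_iff, Metric.eventually_nhds_iff_ball]
  refine ⟨ρ, hρ, fun r hr hr0 => ?_⟩
  rw [Real.ball_eq_Ioo] at hr
  have hr0' : (0:ℝ) < r := hr0
  apply ContinuousOn.circleIntegrable hr0'.le
  intro t ht
  have ht' : t ∈ ball (0:ℂ) ρ := by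
    rw [mem_sphere_zero_iff_norm] at ht
    rw [mem_ball_zero_iff, ht]
    linarith [hr.2]
  exact (hu.continuousAt.comp (continuousAt_ln (hln t ht'))).continuousWithinAt

theorem SMean.of_continuous {u : M → ℝ} (hu : Continuous u)
    (hm : ∀ (x : M) (v : Fin n → ℂ), ∀ᶠ r in 𝓝[>] (0 : ℝ),
      u x ≤ circleAverage (fun t => u (ln x v t)) 0 r) : SMean u := by
  intro x v
  filter_upwards [circleIntegrable_ln hu x v, hm x v] with r h1 h2 using ⟨h1, h2⟩

/-- restriction of `b` to a clopen set, by `0` outside -/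
theorem maxPr_indicator {b : M → ℝ} {Z : Set M} (hZ : IsClopen Z) (hm : MaxPr b) :
    MaxPr (Z.indicator b) := by
  intro x v F k hk hF hF0 hloc
  have ht := tendsto_ln x v
  by_cases hx : x ∈ Z
  · have h1 : ∀ᶠ t in 𝓝 (0:ℂ), ln x v t ∈ Z := ht.eventually (hZ.isOpen.mem_nhds hx)
    have h2 := hm x v F k hk hF hF0 (by
      filter_upwards [hloc, h1] with t h3 h4
      rwa [indicator_of_mem h4, indicator_of_mem hx] at h3)
    filter_upwards [h2, h1] with t h3 h4
    rwa [indicator_of_mem h4, indicator_of_mem hx]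
  · have h1 : ∀ᶠ t in 𝓝 (0:ℂ), ln x v t ∈ Zᶜ :=
      ht.eventually (hZ.compl.isOpen.mem_nhds hx)
    filter_upwards [h1] with t h4
    rw [indicator_of_notMem hx, indicator_of_notMem h4, zero_pow hk.ne', zero_mul, zero_mul]

theorem usc_indicator {b : M → ℝ} {Z : Set M} (hZ : IsClopen Z) (hb : UpperSemicontinuous b) :
    UpperSemicontinuous (Z.indicator b) := by
  intro x c hc
  by_cases hx : x ∈ Z
  · rw [indicator_of_mem hx] at hc
    filter_upwards [hb x c hc, hZ.isOpen.mem_nhds hx] with y h1 h2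
    rwa [indicator_of_mem h2]
  · rw [indicator_of_notMem hx] at hc
    filter_upwards [hZ.compl.isOpen.mem_nhds hx] with y h2
    rwa [indicator_of_notMem h2]

/-- `b` attains its maximum on a clopen set -/
theorem exists_max_on {h : MvPolynomial (Fin n) ℂ} (P : Prp h M) {b : M → ℝ}
    (hb0 : ∀ x, 0 ≤ b x) (husc : UpperSemicontinuous b) (hmp : MaxPr b) {A B : ℕ} {Z : Set M}
    (hZ : IsClopen Z) (hne : Z.Nonempty)
    (hG : ∀ k : ℕ, 0 < k → ∃ C : ℝ, ∀ x ∈ Z,
      b x ^ k * ‖MvPolynomial.eval (cp x) h‖ ^ B ≤ C * (1 + ‖cp x‖) ^ A) :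
    ∃ y ∈ Z, ∀ x ∈ Z, b x ≤ b y := by
  have : Nonempty M := ⟨hne.some⟩
  have hb0' : ∀ x, 0 ≤ Z.indicator b x := fun x => indicator_nonneg (fun y _ => hb0 y) x
  obtain ⟨y, hy⟩ := exists_max P (b := Z.indicator b) hb0' (usc_indicator hZ husc)
    (maxPr_indicator hZ hmp) (A := A) (B := B) (fun k hk => by
      obtain ⟨C, hC⟩ := hG k hk
      refine ⟨max C 0, fun x => ?_⟩
      by_cases hx : x ∈ Z
      · rw [indicator_of_mem hx]
        exact (hC x hx).trans (mul_le_mul_of_nonneg_right (le_max_left _ _) (by positivity))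
      · rw [indicator_of_notMem hx, zero_pow hk.ne', zero_mul]
        positivity)
  by_cases hyZ : y ∈ Z
  · refine ⟨y, hyZ, fun x hx => ?_⟩
    have := hy x
    rwa [indicator_of_mem hx, indicator_of_mem hyZ] at this
  · refine ⟨hne.some, hne.some_mem, fun x hx => ?_⟩
    have := hy x
    rw [indicator_of_mem hx, indicator_of_notMem hyZ] at this
    exact this.trans (hb0 _)

/-- a function with `MaxPr` which attains its maximum on a clopen preconnected set is constant -/
theorem const_of_max {b : M → ℝ} (husc : UpperSemicontinuous b) (hmp : MaxPr b) {Z : Set M}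
    (hZ : IsClopen Z) (hZc : IsPreconnected Z) {y : M} (hyZ : y ∈ Z) (hy : ∀ x ∈ Z, b x ≤ b y)
    {x x' : M} (hx : x ∈ Z) (hx' : x' ∈ Z) : b x = b x' := by
  set m := b y with hm
  set T : Set M := {x | x ∈ Z ∧ m ≤ b x} with hT
  have hTcl : IsClosed T := hZ.isClosed.inter (husc.isClosed_preimage m)
  have hTo : IsOpen T := by
    rw [isOpen_iff_mem_nhds]
    intro p hp
    have hpZ : p ∈ Z := hp.1
    have hpm : b p = m := le_antisymm (hy p hpZ) hp.2
    have hnh : (ch p).target ∩ {w | (ch p).symm w ∈ Z} ∈ 𝓝 (cp p) := by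
      have h1 : ContinuousAt (ch p).symm (cp p) :=
        (ch p).symm.continuousAt (by simpa using (isCh_ch p).cp_mem (mem_ch p))
      have h2 : (ch p).symm (cp p) = p := symm_cp p
      refine inter_mem ((ch p).open_target.mem_nhds ((isCh_ch p).cp_mem (mem_ch p))) ?_
      exact h1 (by rw [h2]; exact hZ.isOpen.mem_nhds hpZ)
    obtain ⟨ρ, hρ, hball'⟩ := Metric.mem_nhds_iff.1 hnh
    have hball : ball (cp p) ρ ⊆ (ch p).target := fun w hw => (hball' hw).1
    -- all points over the ball belong to `T`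
    have hall : ∀ w : Fin n → ℂ, ‖w‖ < ρ → m ≤ b ((ch p).symm (cp p + w)) := by
      intro w hw
      set c : ℝ → M := fun t => (ch p).symm (cp p + t • w) with hc
      have hmemb : ∀ t ∈ Icc (0:ℝ) 1, cp p + t • w ∈ ball (cp p) ρ := by
        intro t ht
        rw [mem_ball_iff_norm, add_sub_cancel_left, norm_smul, Real.norm_eq_abs,
          abs_of_nonneg ht.1]
        have := norm_nonneg w
        nlinarith [ht.2]
      have hmem : ∀ t ∈ Icc (0:ℝ) 1, cp p + t • w ∈ (ch p).target := fun t ht =>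
        hball (hmemb t ht)
      have hccont : ContinuousOn c (Icc 0 1) := by
        have h1 : ContinuousOn (ch p).symm (ch p).target := (ch p).continuousOn_symm
        exact h1.comp (by fun_prop) hmem
      have hcl : IsClosed ((c ⁻¹' T) ∩ Icc (0:ℝ) 1) := by
        rw [inter_comm]
        exact hccont.preimage_isClosed_of_isClosed isClosed_Icc hTcl
      have h01 := hcl.Icc_subset_of_forall_mem_nhdsWithin (a := 0) (b := 1)
        (by
          rw [mem_preimage, hc]
          simp only [zero_smul, add_zero]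
          rw [symm_cp]
          exact hp)
        (by
          intro t ht
          have htI : t ∈ Icc (0:ℝ) 1 := ⟨ht.2.1, ht.2.2.le⟩
          set p' := c t with hp'
          have hp's : p' ∈ (ch p).source := (ch p).map_target (hmem t htI)
          have hcp' : cp p' = cp p + t • w := (isCh_ch p).cp_symm (hmem t htI)
          have hp'Z : p' ∈ Z := ht.1.1
          have hp'm : b p' = m := le_antisymm (hy _ hp'Z) ht.1.2
          have hZnh : ∀ᶠ s in 𝓝 (0:ℂ), ln p' w s ∈ Z :=
            (tendsto_ln p' w).eventually (hZ.isOpen.mem_nhds hp'Z)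
          have h2 := hmp p' w (fun _ => 1) 1 one_pos analyticAt_const one_ne_zero (by
            filter_upwards [hZnh] with s hs
            simp only [pow_one, norm_one, one_pow, mul_one]
            rw [hp'm]; exact hy _ hs)
          -- the two local inverses agree
          have h3 := (isCh_ch p').germ (isCh_ch p) (mem_ch p') hp's
          have h4 : Tendsto (fun s : ℝ => cp p' + ((s - t : ℝ) : ℂ) • w) (𝓝 t) (𝓝 (cp p')) := by
            have : Continuous (fun s : ℝ => cp p' + ((s - t : ℝ) : ℂ) • w) := by fun_prop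
            have h5 := this.tendsto t
            simpa using h5
          have h6 : Tendsto (fun s : ℝ => ((s - t : ℝ) : ℂ)) (𝓝 t) (𝓝 0) := by
            have : Continuous (fun s : ℝ => ((s - t : ℝ) : ℂ)) := by fun_prop
            have h5 := this.tendsto t
            simpa using h5
          have h7 : ∀ᶠ s in 𝓝 t, c s ∈ T := by
            filter_upwards [h4.eventually h3, h6.eventually (h2.and hZnh)] with s hs1 hs2
            simp only [pow_one, norm_one, one_pow, mul_one] at hs2
            have h8 : cp p' + ((s - t : ℝ) : ℂ) • w = cp p + s • w := by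
              rw [hcp', Complex.coe_smul, sub_smul]; abel
            have h9 : ln p' w ((s - t : ℝ) : ℂ) = c s := by
              unfold ln
              rw [hs1, h8]
            rw [h9, hp'm] at hs2
            exact ⟨hs2.2, hs2.1.ge⟩
          exact mem_nhdsWithin_of_mem_nhds h7)
      have := h01 (show (1:ℝ) ∈ Icc (0:ℝ) 1 from ⟨zero_le_one, le_rfl⟩)
      have h02 : c 1 ∈ T := this
      simpa [hc] using h02.2
    have h10 : ∀ᶠ z in 𝓝 p, z ∈ (ch p).source ∧ cp z ∈ ball (cp p) ρ := by
      have h11 : ∀ᶠ z in 𝓝 p, z ∈ (ch p).source := (ch p).open_source.mem_nhds (mem_ch p)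
      have h12 : ∀ᶠ z in 𝓝 p, cp z ∈ ball (cp p) ρ :=
        (cp_cont (M := M)).continuousAt.eventually (ball_mem_nhds _ hρ)
      exact h11.and h12
    filter_upwards [h10, hZ.isOpen.mem_nhds hpZ] with z hz hzZ
    have h11 := hall (cp z - cp p) (by rw [← mem_ball_iff_norm]; exact hz.2)
    rw [add_sub_cancel, (isCh_ch p).symm_cp hz.1] at h11
    exact ⟨hzZ, h11⟩
  have hsub := hZc.subset_isClopen ⟨hTcl, hTo⟩ ⟨y, hyZ, hyZ, le_rfl⟩
  have h1 : ∀ z ∈ Z, b z = m := fun z hz => le_antisymm (hy z hz) (hsub hz).2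
  rw [h1 x hx, h1 x' hx']

/-- **Liouville on a clopen preconnected set** (e.g. a connected component) -/
theorem const_on {h : MvPolynomial (Fin n) ℂ} (P : Prp h M) {b : M → ℝ}
    (hb0 : ∀ x, 0 ≤ b x) (husc : UpperSemicontinuous b) (hmp : MaxPr b) {A B : ℕ} {Z : Set M}
    (hZ : IsClopen Z) (hZc : IsPreconnected Z)
    (hG : ∀ k : ℕ, 0 < k → ∃ C : ℝ, ∀ x ∈ Z,
      b x ^ k * ‖MvPolynomial.eval (cp x) h‖ ^ B ≤ C * (1 + ‖cp x‖) ^ A)
    {x x' : M} (hx : x ∈ Z) (hx' : x' ∈ Z) : b x = b x' := by
  obtain ⟨y, hyZ, hy⟩ := exists_max_on P hb0 husc hmp hZ ⟨x, hx⟩ hG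
  exact const_of_max husc hmp hZ hZc hyZ hy hx hx'


/-- **Liouville**, bounded version -/
theorem liouville {h : MvPolynomial (Fin n) ℂ} (P : Prp h M) {u : M → ℝ}
    (husc : UpperSemicontinuous u) (hm : SMean u) {Z : Set M}
    (hZ : IsClopen Z) (hZc : IsPreconnected Z) {C : ℝ} (hC : ∀ x ∈ Z, u x ≤ C)
    {x x' : M} (hx : x ∈ Z) (hx' : x' ∈ Z) : u x = u x' := by
  have husc' : UpperSemicontinuous (fun x => Real.exp (u x)) :=
    Real.continuous_exp.comp_upperSemicontinuous husc Real.exp_monotone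
  have h1 := const_on P (b := fun x => Real.exp (u x)) (fun x => (Real.exp_pos _).le) husc'
    (maxPr_exp husc hm) (A := 0) (B := 0) hZ hZc (fun k _ => by
      refine ⟨Real.exp C ^ k, fun y hy => ?_⟩
      simp only [pow_zero, mul_one]
      exact pow_le_pow_left₀ (Real.exp_pos _).le (Real.exp_le_exp.2 (hC y hy)) k) hx hx'
  exact Real.exp_injective h1



/-! ### complex lines -/

/-- the preimage of the complex line `z0 + ℂ v` (`v i ≠ 0`) -/
abbrev Lin (M : Type*) [TopologicalSpace M] [RDom n M] (z0 v : Fin n → ℂ) (i : Fin n) : Type _ :=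
  {x : M // cp x = z0 + tau z0 v i x • v}

theorem Lin.isClosedEmbedding (z0 v : Fin n → ℂ) (i : Fin n) :
    IsClosedEmbedding (Subtype.val : Lin M z0 v i → M) := by
  apply IsClosed.isClosedEmbedding_subtypeVal
  have h1 := cp_cont (M := M)
  have h2 := continuous_tau (M := M) z0 v i
  exact isClosed_eq h1 (by fun_prop)

open Classical in
/-- the chart of `Lin` given by a chart of `M` -/
noncomputable def linCh {z0 v : Fin n → ℂ} {i : Fin n} (hi : v i ≠ 0)
    {e : OpenPartialHomeomorph M (Fin n → ℂ)} (he : IsCh e) (y : Lin M z0 v i) :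
    OpenPartialHomeomorph (Lin M z0 v i) (Fin 1 → ℂ) where
  toFun x := fun _ => tau z0 v i x.1
  invFun t := if h : z0 + t 0 • v ∈ e.target then
    ⟨e.symm (z0 + t 0 • v), by
      have h1 : cp (e.symm (z0 + t 0 • v)) = z0 + t 0 • v := he.cp_symm h
      rw [tau_eq hi h1]; exact h1⟩ else y
  source := {x | x.1 ∈ e.source}
  target := {t | z0 + t 0 • v ∈ e.target}
  map_source' x hx := by
    show z0 + tau z0 v i x.1 • v ∈ e.target
    rw [← x.2]
    exact he.cp_mem hx
  map_target' t ht := by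
    have ht' : z0 + t 0 • v ∈ e.target := ht
    simp only [dif_pos ht']
    exact e.map_target ht'
  left_inv' x hx := by
    have h1 : z0 + tau z0 v i x.1 • v ∈ e.target := by
      rw [← x.2]
      exact he.cp_mem hx
    simp only [dif_pos h1]
    apply Subtype.ext
    show e.symm (z0 + tau z0 v i x.1 • v) = x.1
    rw [← x.2]
    exact he.symm_cp hx
  right_inv' t ht := by
    have ht' : z0 + t 0 • v ∈ e.target := ht
    simp only [dif_pos ht']
    funext j
    have h1 : cp (e.symm (z0 + t 0 • v)) = z0 + t 0 • v := he.cp_symm ht'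
    rw [tau_eq hi h1, Subsingleton.elim j 0]
  open_source := e.open_source.preimage (Lin.isClosedEmbedding z0 v i).continuous
  open_target := e.open_target.preimage (by fun_prop)
  continuousOn_toFun := by
    apply Continuous.continuousOn
    exact continuous_pi fun _ =>
      (continuous_tau z0 v i).comp (Lin.isClosedEmbedding z0 v i).continuous
  continuousOn_invFun := by
    rw [(Lin.isClosedEmbedding (M := M) z0 v i).isInducing.continuousOn_iff]
    have h1 : ContinuousOn (fun t : Fin 1 → ℂ => e.symm (z0 + t 0 • v))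
        {t | z0 + t 0 • v ∈ e.target} :=
      e.continuousOn_symm.comp (by fun_prop) (fun t ht => ht)
    refine h1.congr fun t ht => ?_
    have ht' : z0 + t 0 • v ∈ e.target := ht
    simp only [Function.comp_apply, dif_pos ht']

/-- **the preimage of a line is a Riemann domain over `ℂ`** -/
@[reducible] noncomputable def linDom (M : Type*) [TopologicalSpace M] [RDom n M]
    {z0 v : Fin n → ℂ} {i : Fin n} (hi : v i ≠ 0) : RDom 1 (Lin M z0 v i) where
  p x := fun _ => tau z0 v i x.1
  hp := by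
    intro x
    exact ⟨linCh hi (isCh_ch x.1) x, mem_ch x.1, rfl⟩










/-! ### smooth functions -/

open Laplacian





end Crest.Agent.R276.Liou2_739
end

-- ▼ part R276/Liou3_739

/-!
# R276, leaf LIOU, part 3 (helper739): `LPsh` (29) and `PSH` (844) functions, the hypothesis `hL` of
`Avg_999.avg_eq`

* `maxPr_of_circ` : circle means of `log (b + δ)`, `b = 0` allowed.
* `smean_of_psh : PSH u → SMean u`, `maxPr_of_lpsh : LPsh b → MaxPr b`.
* `psh_const`, `lpsh_const`, `lpsh_const_of_growth`, `lpsh_const_of_lines` : Liouville for `PSH`, `LPsh`.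
* `hL` : the Liouville hypothesis of `Avg_999.avg_eq`, `Nc_999.norm_const`.
-/

set_option autoImplicit false

open Set Filter Topology Metric MeasureTheory
open Real (circleAverage)

namespace Crest.Agent.R276.Liou3_739

open Crest.Agent.R271.Ho51 Crest.Agent.R276.Liou2_739
open Crest.Agent.R276.Liou_739 hiding circ
open Crest.Agent.R275.FL606 Crest.Agent.R273.Reg_844
open Crest.Agent.R276.EngU_29 (LPsh)

/-- the measure theoretic core of the strong maximum principle for `log (β + δ)` -/
theorem core {Y : Type*} [MeasurableSpace Y] (ν : Measure Y) [IsProbabilityMeasure ν]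
    {β G : Y → ℝ} {b0 gm gM : ℝ} (hb0 : 0 < b0) (hβ : AEMeasurable β ν) (hG : AEMeasurable G ν)
    (hβ0 : ∀ y, 0 ≤ β y) (hβG : ∀ y, β y ≤ G y) (hgm : 0 < gm) (hG1 : ∀ y, gm ≤ G y)
    (hG2 : ∀ y, G y ≤ gM) (hlog : ∫ y, Real.log (G y) ∂ν = Real.log b0) {N : Set Y}
    (hN : MeasurableSet N) (hNp : 0 < ν.real N) {m1 m2 : ℝ} (hm1 : 0 < m1) (hm : m1 < m2)
    (h1 : ∀ y ∈ N, β y ≤ m1) (h2 : ∀ y ∈ N, m2 ≤ G y)
    (hmean : ∀ δ : ℝ, 0 < δ → Real.log (b0 + δ) ≤ ∫ y, Real.log (β y + δ) ∂ν) : False := by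
  have hm2 : 0 < m2 := hm1.trans hm
  have hYne : Nonempty Y := by
    by_contra hcon
    rw [not_nonempty_iff] at hcon
    have : N = ∅ := Set.eq_empty_of_isEmpty N
    rw [this] at hNp
    simp at hNp
  have hgM : 0 < gM := by
    obtain ⟨y⟩ := hYne
    exact hgm.trans_le ((hG1 y).trans (hG2 y))
  have key : ∀ δ : ℝ, 0 < δ → Real.log (b0 + δ) ≤ Real.log b0 + δ / gm -
      ν.real N * (Real.log (m2 + δ) - Real.log (m1 + δ)) := by
    intro δ hδ
    refine (hmean δ hδ).trans ?_
    set cδ := Real.log (m2 + δ) - Real.log (m1 + δ) with hcδ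
    have hptw : ∀ y, Real.log (β y + δ) ≤
        (Real.log (G y) + δ / gm) - N.indicator (fun _ => cδ) y := by
      intro y
      have hGy : 0 < G y := hgm.trans_le (hG1 y)
      have h3 : Real.log (G y + δ) ≤ Real.log (G y) + δ / gm := by
        have h3 : G y + δ = G y * (1 + δ / G y) := by field_simp
        rw [h3, Real.log_mul hGy.ne' (by positivity)]
        have h4 : Real.log (1 + δ / G y) ≤ δ / G y := by
          have := Real.log_le_sub_one_of_pos (x := 1 + δ / G y) (by positivity)
          linarith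
        have h5 : δ / G y ≤ δ / gm := div_le_div_of_nonneg_left hδ.le hgm (hG1 y)
        linarith
      by_cases hy : y ∈ N
      · rw [indicator_of_mem hy]
        have h7 : Real.log (β y + δ) ≤ Real.log (m1 + δ) :=
          Real.log_le_log (by have := hβ0 y; positivity) (by linarith [h1 y hy])
        have h8 : Real.log (m2 + δ) ≤ Real.log (G y + δ) :=
          Real.log_le_log (by positivity) (by linarith [h2 y hy])
        rw [hcδ]
        linarith
      · rw [indicator_of_notMem hy, sub_zero]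
        exact (Real.log_le_log (by have := hβ0 y; positivity) (by linarith [hβG y])).trans h3
    have hbd : ∀ {u : Y → ℝ}, AEMeasurable u ν → ∀ {a c : ℝ}, (∀ y, a ≤ u y) → (∀ y, u y ≤ c) →
        Integrable u ν := by
      intro u hu a c ha hc
      refine Integrable.of_bound hu.aestronglyMeasurable (|a| + |c|) (Eventually.of_forall fun y => ?_)
      rw [Real.norm_eq_abs, abs_le]
      constructor
      · have := neg_abs_le a; have := abs_nonneg c; linarith [ha y]
      · have := le_abs_self c; have := abs_nonneg a; linarith [hc y]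
    have hi3 : Integrable (fun y => Real.log (β y + δ)) ν :=
      hbd ((hβ.add_const δ).log) (a := Real.log δ) (c := Real.log (gM + δ))
        (fun y => Real.log_le_log hδ (by linarith [hβ0 y]))
        (fun y => Real.log_le_log (by have := hβ0 y; positivity) (by linarith [hβG y, hG2 y]))
    have hi4 : Integrable (fun y => Real.log (G y)) ν :=
      hbd hG.log (a := Real.log gm) (c := Real.log gM)
        (fun y => Real.log_le_log hgm (hG1 y))
        (fun y => Real.log_le_log (hgm.trans_le (hG1 y)) (hG2 y))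
    have hi5 : Integrable (fun _ : Y => δ / gm) ν := integrable_const _
    have hi2 : Integrable (N.indicator (fun _ => cδ)) ν := (integrable_const cδ).indicator hN
    have h9 : ∫ y, Real.log (β y + δ) ∂ν ≤
        ∫ y, ((Real.log (G y) + δ / gm) - N.indicator (fun _ => cδ) y) ∂ν :=
      integral_mono hi3 ((hi4.add hi5).sub hi2) hptw
    have h10 : ∫ y, ((Real.log (G y) + δ / gm) - N.indicator (fun _ => cδ) y) ∂ν =
        Real.log b0 + δ / gm - ν.real N * cδ := by
      have e1 : ∫ y, ((Real.log (G y) + δ / gm) - N.indicator (fun _ => cδ) y) ∂ν =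
          ∫ y, (Real.log (G y) + δ / gm) ∂ν - ∫ y, N.indicator (fun _ => cδ) y ∂ν :=
        integral_sub (hi4.add hi5) hi2
      have e2 : ∫ y, (Real.log (G y) + δ / gm) ∂ν =
          ∫ y, Real.log (G y) ∂ν + ∫ _y, δ / gm ∂ν := integral_add hi4 hi5
      rw [e1, e2, hlog, integral_const, integral_indicator_const _ hN]
      simp
    rw [h10] at h9
    exact h9
  have hlim1 : Tendsto (fun δ : ℝ => Real.log (b0 + δ)) (𝓝[>] 0) (𝓝 (Real.log b0)) := by
    have : ContinuousAt (fun δ : ℝ => Real.log (b0 + δ)) 0 := by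
      apply ContinuousAt.log (by fun_prop)
      simpa using hb0.ne'
    have h := this.tendsto
    simp only [add_zero] at h
    exact h.mono_left nhdsWithin_le_nhds
  have hlim2 : Tendsto (fun δ : ℝ => Real.log b0 + δ / gm -
      ν.real N * (Real.log (m2 + δ) - Real.log (m1 + δ))) (𝓝[>] 0)
      (𝓝 (Real.log b0 - ν.real N * (Real.log m2 - Real.log m1))) := by
    have h2 : ContinuousAt (fun δ : ℝ => Real.log (m2 + δ)) 0 := by
      apply ContinuousAt.log (by fun_prop)
      simpa using hm2.ne'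
    have h1 : ContinuousAt (fun δ : ℝ => Real.log (m1 + δ)) 0 := by
      apply ContinuousAt.log (by fun_prop)
      simpa using hm1.ne'
    have : ContinuousAt (fun δ : ℝ => Real.log b0 + δ / gm -
      ν.real N * (Real.log (m2 + δ) - Real.log (m1 + δ))) 0 := by fun_prop
    have h := this.tendsto
    simp only [add_zero, zero_div] at h
    exact h.mono_left nhdsWithin_le_nhds
  have h := le_of_tendsto_of_tendsto hlim1 hlim2 (by
    filter_upwards [self_mem_nhdsWithin] with δ hδ using key δ hδ)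
  have h12 : 0 < Real.log m2 - Real.log m1 := sub_pos.2 (Real.log_lt_log hm1 hm)
  have h13 : 0 < ν.real N * (Real.log m2 - Real.log m1) := by positivity
  linarith


variable {n : ℕ} {M : Type*} [TopologicalSpace M] [RDom n M]











/-- the Liouville hypothesis `hL` of `Avg_999.avg_eq` and `Nc_999.norm_const` -/
theorem hL {h : MvPolynomial (Fin n) ℂ} (P : Prp h M) [PreconnectedSpace M] {E : Type*}
    {D : Set ((ℂ → M) × (ℂ → E))}
    (hD : ∀ (x : M) (v : Fin n → ℂ), ∀ᶠ r : ℝ in 𝓝[>] 0, ∃ T : ℂ → E,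
      ((fun t : ℂ => ln x v ((r : ℂ) * t)), T) ∈ D) :
    ∀ A : M → ℝ, Continuous A → (∃ C, ∀ x, A x ≤ C) →
      (∀ p ∈ D, A (p.1 0) ≤ circleAverage (fun t => A (p.1 t)) 0 1) → ∀ x y, A x = A y := by
  rintro A hA ⟨C, hC⟩ hmean x y
  refine liouville P hA.upperSemicontinuous (SMean.of_continuous hA fun x v => ?_) isClopen_univ
    isPreconnected_univ (fun x _ => hC x) (mem_univ x) (mem_univ y)
  filter_upwards [hD x v] with r hr
  obtain ⟨T, hT⟩ := hr
  have h1 := hmean _ hT
  simp only [mul_zero, ln_zero] at h1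
  refine h1.trans (le_of_eq ?_)
  rw [Real.circleAverage_eq_circleAverage_zero_one (f := fun t => A (ln x v t)) (c := 0) (R := r)]
  congr 1
  funext w
  rw [add_zero]

end Crest.Agent.R276.Liou3_739
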