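import Mathlib
import Crest.Agent.R276.Fda_999
import Crest.Agent.R276.Pvx_999
import Crest.Agent.R276.LNDefs_999
import Crest.Agent.R276.Liou3_739
import Crest.Agent.R275.Cz1_632
import Crest.Agent.R276.LNd_333
import Crest.Agent.R273.RegC_844
import Crest.Agent.R276.GlobR_739
import Crest.Agent.R276.LNe_333

-- ▼ part R276/LNt_999
section

/-!
# The torsor of orthonormal coframes (helper999, row 276)

`UG s` = unitary group, compact; `Pset H = {(x, A) | Aᴴ A = H x}` is a torsor under `UG s`.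
-/

set_option autoImplicit false
set_option linter.unusedSectionVars false

namespace Crest.Agent.R276.LNt_999

open MeasureTheory Metric Filter Topology Matrix
open scoped ComplexOrder
open Crest.Agent.R276.Avg_999 Crest.Agent.R276.Nc_999

variable {s : ℕ}

/-- the unitary group -/
abbrev UG (s : ℕ) := Matrix.unitaryGroup (Fin s) ℂ

/-- square matrices -/
abbrev MM (s : ℕ) := Matrix (Fin s) (Fin s) ℂ

open scoped Matrix.Norms.L2Operator MatrixOrder in
theorem root_cont : ∃ S : MM s → MM s, ContinuousOn S {W | W.PosDef} ∧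
    ∀ W : MM s, W.PosDef → (S W)ᴴ * S W = W := by
  refine ⟨CFC.sqrt, ?_, ?_⟩
  · exact (CFC.continuousOn_sqrt (A := MM s)).mono (fun W hW => hW.posSemidef.nonneg)
  · intro W hW
    have h1 : 0 ≤ W := hW.posSemidef.nonneg
    have h2 : IsSelfAdjoint (CFC.sqrt W) := (CFC.sqrt_nonneg W).isSelfAdjoint
    have h3 : (CFC.sqrt W)ᴴ = CFC.sqrt W := h2
    rw [h3]
    exact CFC.sqrt_mul_sqrt_self W h1

instance sc_MM : SecondCountableTopology (MM s) :=
  inferInstanceAs (SecondCountableTopology (Fin s → Fin s → ℂ))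

instance sc_UG : SecondCountableTopology (UG s) :=
  TopologicalSpace.Subtype.secondCountableTopology _

theorem isCompact_UG : IsCompact ((UG s : Submonoid (MM s)) : Set (MM s)) := by
  have h1 : IsClosed ((UG s : Submonoid (MM s)) : Set (MM s)) := by
    have : ((UG s : Submonoid (MM s)) : Set (MM s)) = {A | star A * A = 1} := by
      ext A
      rw [SetLike.mem_coe, Matrix.mem_unitaryGroup_iff']
      rfl
    rw [this]
    exact isClosed_eq (continuous_star.mul continuous_id) continuous_const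
  have h2 : IsCompact (Set.univ.pi fun _ : Fin s => Set.univ.pi fun _ : Fin s =>
      closedBall (0 : ℂ) 1) :=
    isCompact_univ_pi fun _ => isCompact_univ_pi fun _ => isCompact_closedBall _ _
  refine h2.of_isClosed_subset h1 ?_
  intro A hA i _ j _
  rw [mem_closedBall_zero_iff]
  exact entry_norm_bound_of_unitary hA i j

instance cs_UG : CompactSpace (UG s) := isCompact_iff_compactSpace.mp isCompact_UG

/-- Haar probability measure on the unitary group -/
theorem exists_haar (s : ℕ) : ∃ μ : @Measure (UG s) (borel (UG s)),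
    @IsProbabilityMeasure _ (borel (UG s)) μ ∧
    @Measure.IsMulLeftInvariant _ (borel (UG s)) _ μ ∧
    @Measure.IsOpenPosMeasure _ _ (borel (UG s)) μ := by
  letI : MeasurableSpace (UG s) := borel (UG s)
  haveI : BorelSpace (UG s) := ⟨rfl⟩
  refine ⟨Measure.haarMeasure ⊤, ⟨?_⟩, inferInstance, inferInstance⟩
  have := Measure.haarMeasure_self (K₀ := (⊤ : TopologicalSpace.PositiveCompacts (UG s)))
  simpa using this

variable {X : Type*} [TopologicalSpace X]

/-- the torsor of coframes -/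
def Pset (H : X → MM s) : Set (X × MM s) := {p | p.2ᴴ * p.2 = H p.1}


theorem star_mul_self' (g : UG s) : (g : MM s)ᴴ * (g : MM s) = 1 :=
  Matrix.mem_unitaryGroup_iff'.mp g.2

theorem mul_star_self' (g : UG s) : (g : MM s) * (g : MM s)ᴴ = 1 :=
  Matrix.mem_unitaryGroup_iff.mp g.2

theorem isUnit_of_pos {W A : MM s} (hW : W.PosDef) (h : Aᴴ * A = W) : IsUnit A.det := by
  have h1 : IsUnit W.det := (isUnit_iff_isUnit_det W).mp hW.isUnit
  rw [← h, det_mul] at h1
  exact isUnit_of_mul_isUnit_right h1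

theorem tor {H : X → MM s} (hH : ∀ x, (H x).PosDef) : Tor (UG s) (Pset H) where
  act := by
    intro z R g hR
    change ((g : MM s) * R)ᴴ * ((g : MM s) * R) = H z
    have h : Rᴴ * R = H z := hR
    rw [conjTranspose_mul, Matrix.mul_assoc, ← Matrix.mul_assoc _ (g : MM s) R, star_mul_self',
      Matrix.one_mul, h]
  trans := by
    intro z R R' hR hR'
    have h : Rᴴ * R = H z := hR
    have h' : R'ᴴ * R' = H z := hR'
    have hu := isUnit_of_pos (hH z) h
    have h1 : R * R⁻¹ = 1 := mul_nonsing_inv R hu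
    have h2 : R⁻¹ * R = 1 := nonsing_inv_mul R hu
    have hg : (R' * R⁻¹) ∈ UG s := by
      rw [Matrix.mem_unitaryGroup_iff']
      change (R' * R⁻¹)ᴴ * (R' * R⁻¹) = 1
      calc (R' * R⁻¹)ᴴ * (R' * R⁻¹) = (R⁻¹)ᴴ * (R'ᴴ * R') * R⁻¹ := by
            rw [conjTranspose_mul]; simp only [Matrix.mul_assoc]
        _ = (R * R⁻¹)ᴴ * (R * R⁻¹) := by
            rw [h', ← h, conjTranspose_mul]; simp only [Matrix.mul_assoc]
        _ = 1 := by rw [h1]; simp
    refine ⟨⟨R' * R⁻¹, hg⟩, ?_⟩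
    change R' = R' * R⁻¹ * R
    rw [Matrix.mul_assoc, h2, Matrix.mul_one]

theorem loc {H : X → MM s} (hH : ∀ x, (H x).PosDef) (hHc : Continuous H) (x : X) :
    ∃ U ∈ 𝓝 x, ∃ S : X → MM s, ContinuousOn S U ∧ ∀ z ∈ U, (z, S z) ∈ Pset H := by
  obtain ⟨S, hS, hS2⟩ := root_cont (s := s)
  refine ⟨Set.univ, univ_mem, fun z => S (H z), ?_, fun z _ => hS2 _ (hH z)⟩
  exact hS.comp hHc.continuousOn (fun z _ => hH z)

end Crest.Agent.R276.LNt_999
end

-- ▼ part R276/Hol_999
section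

/-!
# (PV) for holomorphic covectors (helper999, row 276)
-/

set_option autoImplicit false
set_option linter.unusedSectionVars false

namespace Crest.Agent.R276.Hol_999

open MeasureTheory Metric Filter Topology Matrix Polynomial
open scoped ComplexOrder
open Real (circleAverage circleAverage_const)
open Crest.Agent.R276.Nc_999 Crest.Agent.R276.Poi_999 Crest.Agent.R276.Fda_999
open Crest.Agent.R276.Fdb_999 Crest.Agent.R276.Fdc_999 Crest.Agent.R276.Fdd_999
open Crest.Agent.R276.Pvx_999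

variable {s : ℕ} {H : ℂ → Matrix (Fin s) (Fin s) ℂ}

/-- Taylor approximation on the closed unit disc -/
theorem exists_poly_approx {f : ℂ → ℂ} {R : ℝ} (hR : 1 < R) (hf : DifferentiableOn ℂ f (ball 0 R)) :
    ∃ P : ℕ → ℂ[X], TendstoUniformlyOn (fun n z => (P n).eval z) f atTop (closedBall 0 1) := by
  obtain ⟨r, hr1, hr2⟩ := exists_between hR
  have hr0 : 0 < r := by linarith
  obtain ⟨r', hr'1, hr'2⟩ := exists_between hr1
  lift r to NNReal using hr0.le
  lift r' to NNReal using (by linarith)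
  have h1 : HasFPowerSeriesOnBall f (cauchyPowerSeries f 0 r) 0 r :=
    (hf.mono (closedBall_subset_ball hr2)).hasFPowerSeriesOnBall (by exact_mod_cast hr0)
  have h2 := h1.tendstoUniformlyOn (r' := r') (by exact_mod_cast hr'2)
  refine ⟨fun n => ∑ k ∈ Finset.range n, C ((cauchyPowerSeries f 0 r).coeff k) * X ^ k, ?_⟩
  have h3 : ∀ n z, (∑ k ∈ Finset.range n, C ((cauchyPowerSeries f 0 r).coeff k) * X ^ k).eval z =
      (cauchyPowerSeries f 0 r).partialSum n z := by
    intro n z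
    rw [eval_finsetSum, FormalMultilinearSeries.partialSum]
    apply Finset.sum_congr rfl
    intro k _
    simp only [eval_mul, eval_C, eval_pow, eval_X]
    rw [FormalMultilinearSeries.apply_eq_pow_smul_coeff, smul_eq_mul, mul_comm]
  simp only [h3]
  have h4 : TendstoUniformlyOn (fun n z => (cauchyPowerSeries f 0 r).partialSum n z) f atTop
      (ball 0 r') := by
    simpa using h2
  exact h4.mono (closedBall_subset_ball hr'1)

/-- **(PV) for holomorphic covectors**, `δ`-form. -/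
theorem hol_le_add (hHc : ContinuousOn H (closedBall 0 1))
    (hH : ∀ z ∈ closedBall (0 : ℂ) 1, (H z).PosDef) (hPV : PV H) {R : ℝ} (hR : 1 < R)
    {ξ : ℂ → Fin s → ℂ} (hξ : ∀ i, DifferentiableOn ℂ (fun t => ξ t i) (ball 0 R))
    {δ : ℝ} (hδ : 0 < δ) :
    Real.log (dN (H 0) (ξ 0) + δ) ≤ circleAverage (fun t => Real.log (dN (H t) (ξ t) + δ)) 0 1 := by
  choose P hP using fun i => exists_poly_approx hR (hξ i)
  -- pointwise convergence
  have hconv : ∀ t ∈ closedBall (0 : ℂ) 1,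
      Tendsto (fun n => ev (fun i => P i n) t) atTop (𝓝 (ξ t)) := by
    intro t ht
    rw [tendsto_pi_nhds]
    intro i
    exact (hP i).tendsto_at ht
  -- uniform bound
  have hbd : ∃ C : ℝ, ∀ᶠ n in atTop, ∀ t ∈ closedBall (0 : ℂ) 1, ‖ev (fun i => P i n) t‖ ≤ C := by
    have hξc : ∀ i, ContinuousOn (fun t => ξ t i) (closedBall 0 1) := fun i =>
      (hξ i).continuousOn.mono (closedBall_subset_ball hR)
    have hξb : ∀ i, ∃ C : ℝ, ∀ t ∈ closedBall (0 : ℂ) 1, ‖ξ t i‖ ≤ C := by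
      intro i
      obtain ⟨C, hC⟩ := (isCompact_closedBall (0 : ℂ) 1).exists_bound_of_continuousOn (hξc i)
      exact ⟨C, hC⟩
    choose C hC using hξb
    refine ⟨∑ i, |C i| + 1, ?_⟩
    have h1 : ∀ᶠ n in atTop, ∀ i, ∀ t ∈ closedBall (0 : ℂ) 1, ‖(P i n).eval t - ξ t i‖ < 1 := by
      rw [eventually_all]
      intro i
      have := Metric.tendstoUniformlyOn_iff.mp (hP i) 1 one_pos
      filter_upwards [this] with n hn t ht
      have := hn t ht
      rwa [dist_comm, dist_eq_norm] at this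
    filter_upwards [h1] with n hn t ht
    rw [pi_norm_le_iff_of_nonneg (by positivity)]
    intro i
    have h2 := hn i t ht
    have h3 := hC i t ht
    have h4 : |C i| ≤ ∑ i, |C i| := Finset.single_le_sum (f := fun i => |C i|)
      (fun _ _ => abs_nonneg _) (Finset.mem_univ i)
    have h5 := le_abs_self (C i)
    calc ‖ev (fun i => P i n) t i‖ = ‖((P i n).eval t - ξ t i) + ξ t i‖ := by
          simp [ev]
      _ ≤ ‖(P i n).eval t - ξ t i‖ + ‖ξ t i‖ := norm_add_le _ _
      _ ≤ _ := by linarith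
  obtain ⟨C, hC⟩ := hbd
  -- bound for the dual norm on a ball of vectors
  have hdNc : ContinuousOn (fun q : ℂ × (Fin s → ℂ) => dN (H q.1) q.2)
      (closedBall (0 : ℂ) 1 ×ˢ closedBall (0 : Fin s → ℂ) C) := by
    have h1 : ContinuousOn (fun q : ℂ × (Fin s → ℂ) => (H q.1)⁻¹)
        (closedBall (0 : ℂ) 1 ×ˢ closedBall (0 : Fin s → ℂ) C) :=
      (inv_contOn hHc hH).comp continuousOn_fst (fun q hq => hq.1)
    exact qf_contOn h1 (continuousOn_snd.star)
  obtain ⟨C2, hC2⟩ := ((isCompact_closedBall (0 : ℂ) 1).prod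
    (isCompact_closedBall (0 : Fin s → ℂ) C)).exists_bound_of_continuousOn hdNc
  have hsph : ∀ θ : ℝ, circleMap 0 1 θ ∈ closedBall (0 : ℂ) 1 := fun θ =>
    circleMap_mem_closedBall 0 zero_le_one θ
  have hdN0 : ∀ t ∈ closedBall (0 : ℂ) 1, ∀ y, 0 ≤ dN (H t) y := fun t ht y => dN_nonneg (hH t ht) y
  have hcd : ∀ t ∈ closedBall (0 : ℂ) 1, Continuous fun y => dN (H t) y := by
    intro t _
    have : Continuous fun v : Fin s → ℂ => qf (H t)⁻¹ v :=
      qf_cont.comp (Continuous.prodMk (continuous_const (y := (H t)⁻¹)) continuous_id)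
    exact this.comp continuous_star
  -- dominated convergence
  have hlim : Tendsto (fun n => circleAverage
      (fun t => Real.log (dN (H t) (ev (fun i => P i n) t) + δ)) 0 1) atTop
      (𝓝 (circleAverage (fun t => Real.log (dN (H t) (ξ t) + δ)) 0 1)) := by
    simp only [circleAverage]
    apply Tendsto.const_smul
    apply intervalIntegral.tendsto_integral_filter_of_dominated_convergence
      (fun _ => |Real.log δ| + |Real.log (C2 + δ)|)
    · filter_upwards with n
      have h1 : Continuous fun θ : ℝ =>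
          Real.log (dN (H (circleMap 0 1 θ)) (ev (fun i => P i n) (circleMap 0 1 θ)) + δ) := by
        rw [← continuousOn_univ]
        exact (dN_log_contOn hHc hH (fun i => P i n) hδ).comp
          (continuous_circleMap 0 1).continuousOn (fun θ _ => hsph θ)
      exact h1.aestronglyMeasurable
    · filter_upwards [hC] with n hn
      filter_upwards with θ _
      have h1 := hdN0 _ (hsph θ) (ev (fun i => P i n) (circleMap 0 1 θ))
      have h2 : dN (H (circleMap 0 1 θ)) (ev (fun i => P i n) (circleMap 0 1 θ)) ≤ C2 := by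
        have := hC2 (circleMap 0 1 θ, ev (fun i => P i n) (circleMap 0 1 θ))
          ⟨hsph θ, by rw [mem_closedBall_zero_iff]; exact hn _ (hsph θ)⟩
        exact (le_abs_self _).trans (by simpa using this)
      rw [Real.norm_eq_abs, abs_le]
      constructor
      · have h3 := Real.log_le_log hδ (by linarith :
          δ ≤ dN (H (circleMap 0 1 θ)) (ev (fun i => P i n) (circleMap 0 1 θ)) + δ)
        have := neg_abs_le (Real.log δ)
        have := abs_nonneg (Real.log (C2 + δ))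
        linarith
      · have h3 := Real.log_le_log (by linarith : 0 <
          dN (H (circleMap 0 1 θ)) (ev (fun i => P i n) (circleMap 0 1 θ)) + δ)
          (by linarith : _ ≤ C2 + δ)
        have := le_abs_self (Real.log (C2 + δ))
        have := abs_nonneg (Real.log δ)
        linarith
    · exact intervalIntegrable_const
    · filter_upwards with θ _
      have h1 := ((hcd _ (hsph θ)).tendsto (ξ (circleMap 0 1 θ))).comp (hconv _ (hsph θ))
      refine (h1.add_const δ).log ?_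
      have := hdN0 _ (hsph θ) (ξ (circleMap 0 1 θ))
      linarith
  have h00 : (0 : ℂ) ∈ closedBall (0 : ℂ) 1 := by simp
  have hlim0 : Tendsto (fun n => Real.log (dN (H 0) (ev (fun i => P i n) 0) + δ)) atTop
      (𝓝 (Real.log (dN (H 0) (ξ 0) + δ))) := by
    have h1 := ((hcd 0 h00).tendsto (ξ 0)).comp (hconv 0 h00)
    refine (h1.add_const δ).log ?_
    have := hdN0 0 h00 (ξ 0)
    linarith
  refine le_of_tendsto_of_tendsto' hlim0 hlim fun n => ?_
  exact subM_circle (dN_log_contOn hHc hH _ hδ) (hPV _ δ hδ)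

/-- **(PV) for holomorphic covectors without zeros.** -/
theorem hol_le (hHc : ContinuousOn H (closedBall 0 1))
    (hH : ∀ z ∈ closedBall (0 : ℂ) 1, (H z).PosDef) (hPV : PV H) {R : ℝ} (hR : 1 < R)
    {ξ : ℂ → Fin s → ℂ} (hξ : ∀ i, DifferentiableOn ℂ (fun t => ξ t i) (ball 0 R))
    (hξ0 : ∀ t ∈ closedBall (0 : ℂ) 1, ξ t ≠ 0) :
    Real.log (dN (H 0) (ξ 0)) ≤ circleAverage (fun t => Real.log (dN (H t) (ξ t))) 0 1 := by
  have hξc : ContinuousOn ξ (closedBall 0 1) :=
    continuousOn_pi.mpr fun i => (hξ i).continuousOn.mono (closedBall_subset_ball hR)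
  have hdc : ContinuousOn (fun t => dN (H t) (ξ t)) (closedBall 0 1) := dN_contOn hHc hH hξc
  have hdp : ∀ t ∈ closedBall (0 : ℂ) 1, 0 < dN (H t) (ξ t) := by
    intro t ht
    apply qf_pos (hH t ht).inv
    intro h0
    exact hξ0 t ht (by rw [← star_star (ξ t), h0, star_zero])
  have h00 : (0 : ℂ) ∈ closedBall (0 : ℂ) 1 := by simp
  obtain ⟨z0, hz0, hmin⟩ := (isCompact_closedBall (0 : ℂ) 1).exists_isMinOn ⟨0, h00⟩ hdc
  set m := dN (H z0) (ξ z0) with hm
  have hmp : 0 < m := hdp z0 hz0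
  have hmle : ∀ t ∈ closedBall (0 : ℂ) 1, m ≤ dN (H t) (ξ t) := fun t ht => hmin ht
  have hci : ∀ a : ℝ, 0 ≤ a → CircleIntegrable (fun t => Real.log (dN (H t) (ξ t) + a)) 0 1 := by
    intro a ha
    apply ContinuousOn.circleIntegrable'
    rw [abs_one]
    have hc' : ContinuousOn (fun t => dN (H t) (ξ t) + a) (sphere 0 1) :=
      (hdc.mono sphere_subset_closedBall).add continuousOn_const
    exact hc'.log (fun t ht => by
      have := hdp t (sphere_subset_closedBall ht); linarith)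
  have hci0 : CircleIntegrable (fun t => Real.log (dN (H t) (ξ t))) 0 1 := by
    simpa using hci 0 le_rfl
  refine le_of_forall_pos_le_add fun ε hε => ?_
  have hδ : 0 < ε * m := by positivity
  have h1 := hol_le_add hHc hH hPV hR hξ hδ
  have h2 : Real.log (dN (H 0) (ξ 0)) ≤ Real.log (dN (H 0) (ξ 0) + ε * m) :=
    Real.log_le_log (hdp 0 h00) (by linarith)
  have hc1 : CircleIntegrable (fun _ : ℂ => ε) 0 1 :=
    ContinuousOn.circleIntegrable' continuousOn_const
  have h3 : circleAverage (fun t => Real.log (dN (H t) (ξ t) + ε * m)) 0 1 ≤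
      circleAverage ((fun t => Real.log (dN (H t) (ξ t))) + fun _ => ε) 0 1 := by
    apply Real.circleAverage_mono (hci _ hδ.le) (hci0.add hc1)
    intro t ht
    rw [abs_one] at ht
    have htb : t ∈ closedBall (0 : ℂ) 1 := sphere_subset_closedBall ht
    have hp := hdp t htb
    have hl := hmle t htb
    simp only [Pi.add_apply]
    have h6 : dN (H t) (ξ t) + ε * m ≤ dN (H t) (ξ t) * Real.exp ε := by
      have h7 := Real.add_one_le_exp ε
      have h8 := mul_le_mul_of_nonneg_left h7 hp.le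
      have h9 := mul_le_mul_of_nonneg_left hl hε.le
      nlinarith
    calc Real.log (dN (H t) (ξ t) + ε * m) ≤ Real.log (dN (H t) (ξ t) * Real.exp ε) :=
          Real.log_le_log (by linarith) h6
      _ = Real.log (dN (H t) (ξ t)) + ε := by
          rw [Real.log_mul hp.ne' (Real.exp_pos _).ne', Real.log_exp]
  rw [Real.circleAverage_add hci0 hc1, circleAverage_const] at h3
  linarith

end Crest.Agent.R276.Hol_999
end

-- ▼ part R276/LNg_999
section

/-!
# LEMMA N, main argument, part (a): frames along discs (helper999, row 276)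
-/

set_option autoImplicit false
set_option linter.unusedSectionVars false

namespace Crest.Agent.R276.LNg_999

open MeasureTheory Metric Filter Topology Matrix
open scoped ComplexOrder
open Real (circleAverage)
open Crest.Agent.R271.Ho51
open Crest.Agent.R276.Avg_999 Crest.Agent.R276.Nc_999 Crest.Agent.R276.LNt_999
open Crest.Agent.R276.Fda_999 Crest.Agent.R276.Fdc_999 Crest.Agent.R276.Fdd_999
open Crest.Agent.R276.Pvx_999 Crest.Agent.R276.Hol_999 Crest.Agent.R276.LN_999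
open Crest.Agent.R276.Liou_739 (ln Prp ln_zero)

variable {n : ℕ} {M : Type*} [TopologicalSpace M] [RDom n M]
variable {Y : Type*} [MeasurableSpace Y] {s N : ℕ}

/-- open disc in a chart -/
def Dsc (x : M) (v : Fin n → ℂ) (R : ℝ) : Prop :=
  ∀ t ∈ ball (0 : ℂ) R, cp x + t • v ∈ (ch x).target

theorem ln_scale (x : M) (v : Fin n → ℂ) (r : ℝ) (t : ℂ) :
    ln x v ((r : ℂ) * t) = ln x ((r : ℂ) • v) t := by
  unfold ln
  rw [smul_smul, mul_comm]

/-- an open disc in a chart `e` -/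
structure Dk (e : OpenPartialHomeomorph M (Fin n → ℂ)) (z v : Fin n → ℂ) (R : ℝ) : Prop where
  isCh : IsCh e
  mem : ∀ t ∈ ball (0 : ℂ) R, z + t • v ∈ e.target

/-- the parametrisation of the disc -/
noncomputable def dk (e : OpenPartialHomeomorph M (Fin n → ℂ)) (z v : Fin n → ℂ) (t : ℂ) : M :=
  e.symm (z + t • v)

variable {e : OpenPartialHomeomorph M (Fin n → ℂ)} {z v : Fin n → ℂ} {R : ℝ}

theorem Dsc.dk {x : M} {v : Fin n → ℂ} {R : ℝ} (h : Dsc x v R) : Dk (ch x) (cp x) v R :=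
  ⟨isCh_ch x, h⟩


theorem Dk.mono {R' : ℝ} (h : Dk e z v R) (hR : R' ≤ R) : Dk e z v R' :=
  ⟨h.isCh, fun t ht => h.mem t (ball_subset_ball hR ht)⟩

theorem dk_scale (e : OpenPartialHomeomorph M (Fin n → ℂ)) (z v : Fin n → ℂ) (r : ℝ) (t : ℂ) :
    dk e z v ((r : ℂ) * t) = dk e z ((r : ℂ) • v) t := by
  unfold dk
  rw [smul_smul, mul_comm]

theorem Dk.scale (h : Dk e z v R) {r : ℝ} (hr : 0 < r) : Dk e z ((r : ℂ) • v) (R / r) := by
  refine ⟨h.isCh, fun t ht => ?_⟩
  have h1 : (t * (r : ℂ)) ∈ ball (0 : ℂ) R := by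
    rw [mem_ball_zero_iff] at ht ⊢
    rw [norm_mul, Complex.norm_real, Real.norm_of_nonneg hr.le]
    rwa [lt_div_iff₀ hr] at ht
  have := h.mem _ h1
  rwa [smul_smul]

theorem dk_cont (h : Dk e z v R) : ContinuousOn (dk e z v) (ball 0 R) := by
  have h1 : ContinuousOn e.symm e.target := e.continuousOn_symm
  exact h1.comp (by fun_prop) h.mem

theorem dk_hol {f : M → ℂ} (hf : Hol f) (h : Dk e z v R) :
    DifferentiableOn ℂ (fun t => f (dk e z v t)) (ball 0 R) := by
  have h1 := hf e h.isCh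
  have h2 : DifferentiableOn ℂ (fun t : ℂ => z + t • v) (ball 0 R) := by fun_prop
  exact h1.comp h2 h.mem

theorem exists_Dsc (x : M) (v : Fin n → ℂ) : ∃ R > 0, Dsc x v R := by
  have h : ∀ᶠ t in 𝓝 (0 : ℂ), cp x + t • v ∈ (ch x).target := by
    have h1 := Liou_739.tendsto_line x v
    exact h1.eventually ((ch x).open_target.mem_nhds ((isCh_ch x).cp_mem (mem_ch x)))
  obtain ⟨R, hR, h2⟩ := Metric.eventually_nhds_iff_ball.mp h
  exact ⟨R, hR, h2⟩

/-- spanning families of vectors (as functionals on `ℂ^s`) -/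
def Span {m : ℕ} (w : Fin m → Fin s → ℂ) : Prop :=
  ∀ v : Fin s → ℂ, (∀ l, ∑ i, w l i * v i = 0) → v = 0

/-- the inputs for the NS metric -/
structure InpH (L : LN M Y s N) (k : ℕ) (f : M → ℂ) : Prop where
  Hpos : ∀ x, (L.H x).PosDef
  Hcont : Continuous L.H
  PVH : ∀ (e : OpenPartialHomeomorph M (Fin n → ℂ)) (z v : Fin n → ℂ) (R : ℝ), 1 < R →
    Dk e z v R → PV (fun t => L.H (dk e z v t))
  k0 : 0 < k
  hol : Hol f
  f0 : ∀ x, f x ≠ 0
  det : ∃ c > 0, ∀ x, (L.H x).det.re ^ k = c * ‖f x‖ ^ (2 * N)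

variable {L : LN M Y s N} {k : ℕ} {f : M → ℂ}

theorem one_ball {R : ℝ} (hR : 1 < R) : closedBall (0 : ℂ) 1 ⊆ ball 0 R :=
  closedBall_subset_ball hR

/-- the determinant on a disc -/
theorem InpH.exists_q (I : InpH L k f) (h : Dk e z v R) :
    ∃ q : ℂ → ℂ, DifferentiableOn ℂ q (ball 0 R) ∧ (∀ t ∈ ball (0 : ℂ) R, q t ≠ 0) ∧
      ∀ t ∈ ball (0 : ℂ) R, (L.H (dk e z v t)).det = ((‖q t‖ ^ 2 : ℝ) : ℂ) := by
  obtain ⟨c, hc, hdet⟩ := I.det
  obtain ⟨g, hg, hg2⟩ := R275.Cz1632.exists_log (convex_ball (0 : ℂ) R) isOpen_ball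
    (dk_hol I.hol h) (fun t _ => I.f0 _)
  have hk : (k : ℝ) ≠ 0 := by exact_mod_cast I.k0.ne'
  have hkc : (k : ℂ) ≠ 0 := by exact_mod_cast I.k0.ne'
  refine ⟨fun t => Complex.exp (((Real.log c / 2 : ℝ) : ℂ) / k + (N : ℂ) * g t / k), ?_,
    fun t _ => Complex.exp_ne_zero _, ?_⟩
  · apply DifferentiableOn.cexp
    exact (differentiableOn_const _).add (((differentiableOn_const _).mul hg).div_const _)
  · intro t ht
    have h1 : (L.H (dk e z v t)).det = (((L.H (dk e z v t)).det.re : ℝ) : ℂ) := by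
      have := (Complex.pos_iff.mp (I.Hpos (dk e z v t)).det_pos).2
      apply Complex.ext <;> simp [← this]
    rw [h1]
    congr 1
    have hpos : 0 < (L.H (dk e z v t)).det.re := (Complex.pos_iff.mp (I.Hpos _).det_pos).1
    rw [← pow_left_inj₀ hpos.le (by positivity) I.k0.ne', hdet, Complex.norm_exp, ← Real.exp_nat_mul,
      ← Real.exp_nat_mul]
    have h2 : ‖f (dk e z v t)‖ = Real.exp (g t).re := by
      rw [← hg2 t ht, Complex.norm_exp]
    rw [h2, ← Real.exp_nat_mul]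
    have h3 : c = Real.exp (Real.log c) := (Real.exp_log hc).symm
    conv_lhs => rw [h3]
    rw [← Real.exp_add]
    congr 1
    have h4 : (((Real.log c / 2 : ℝ) : ℂ) / k + (N : ℂ) * g t / k).re =
        (Real.log c / 2) / k + N * (g t).re / k := by
      rw [Complex.add_re]
      have e1 : (((Real.log c / 2 : ℝ) : ℂ) / (k : ℂ)) = (((Real.log c / 2) / k : ℝ) : ℂ) := by
        push_cast; rfl
      have e2 : (N : ℂ) * g t / (k : ℂ) = ((N / k : ℝ) : ℂ) * g t := by
        push_cast; field_simp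
      rw [e1, e2, Complex.ofReal_re, Complex.re_ofReal_mul]
      ring
    rw [h4]
    push_cast
    field_simp

/-- orthonormal frames on closed discs -/
theorem InpH.exists_frame (I : InpH L k f) (hR : 1 < R)
    (h : Dk e z v R) : ∃ T : ℂ → MM s, (∀ i j, DifferentiableOn ℂ (fun t => T t i j) (ball 0 1)) ∧
      ∀ t ∈ ball (0 : ℂ) 1, (T t)ᴴ * L.H (dk e z v t) * T t = 1 := by
  obtain ⟨q, hq, hq0, hdet⟩ := I.exists_q h
  have hHc : ContinuousOn (fun t => L.H (dk e z v t)) (closedBall 0 1) :=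
    I.Hcont.comp_continuousOn ((dk_cont h).mono (one_ball hR))
  have hHp : ∀ t ∈ closedBall (0 : ℂ) 1, (L.H (dk e z v t)).PosDef := fun t _ => I.Hpos _
  have hPV := I.PVH e z v R hR h
  have hqa : AnalyticOnNhd ℂ q (closedBall 0 1) :=
    (hq.analyticOnNhd isOpen_ball).mono (one_ball hR)
  exact flat_disc hHc hHp (ot_of_pv hHc hHp hPV) hPV hqa (fun t ht => hq0 t (one_ball hR ht))
    (fun t ht => hdet t (one_ball hR ht))

/-- orthonormal frames on slightly smaller discs -/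
theorem InpH.exists_frame' (I : InpH L k f) {R' : ℝ} (hR' : 0 < R')
    (hR : R' < R) (h : Dk e z v R) :
    ∃ T : ℂ → MM s, (∀ i j, DifferentiableOn ℂ (fun t => T t i j) (ball 0 R')) ∧
      ∀ t ∈ ball (0 : ℂ) R', (T t)ᴴ * L.H (dk e z v t) * T t = 1 := by
  have h1 : 1 < R / R' := by rwa [lt_div_iff₀ hR', one_mul]
  obtain ⟨T, hT, hT2⟩ := I.exists_frame h1 (h.scale hR')
  have hmaps : Set.MapsTo (fun t : ℂ => t / (R' : ℂ)) (ball 0 R') (ball 0 1) := by
    intro t ht
    rw [mem_ball_zero_iff] at ht ⊢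
    rw [norm_div, Complex.norm_real, Real.norm_of_nonneg hR'.le, div_lt_one hR']
    exact ht
  have hR'c : (R' : ℂ) ≠ 0 := by exact_mod_cast hR'.ne'
  refine ⟨fun t => T (t / (R' : ℂ)), fun i j => ?_, fun t ht => ?_⟩
  · exact (hT i j).comp (by fun_prop) hmaps
  · have h2 := hT2 _ (hmaps ht)
    rw [← dk_scale, mul_div_cancel₀ _ hR'c] at h2
    exact h2

/-- the set of lifted discs -/
def LD (H : M → MM s) : Set ((ℂ → M) × (ℂ → MM s)) :=
  {p | ∃ (e : OpenPartialHomeomorph M (Fin n → ℂ)) (z v : Fin n → ℂ) (R : ℝ) (T : ℂ → MM s),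
    1 < R ∧ Dk e z v R ∧
    (∀ i j, DifferentiableOn ℂ (fun t => T t i j) (ball 0 R)) ∧
    (∀ t ∈ ball (0 : ℂ) R, (T t)ᴴ * H (dk e z v t) * T t = 1) ∧
    p = (dk e z v, fun t => (T t)⁻¹)}

theorem unit_of_frame {W T : MM s} (h : Tᴴ * W * T = 1) : IsUnit T.det := by
  have h1 : (Tᴴ * W * T).det = 1 := by rw [h, det_one]
  rw [det_mul] at h1
  exact IsUnit.of_mul_eq_one_right _ h1

theorem inv_frame {W T : MM s} (h : Tᴴ * W * T = 1) : (T⁻¹)ᴴ * T⁻¹ = W := by
  have hu := unit_of_frame h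
  have h1 : T * T⁻¹ = 1 := mul_nonsing_inv T hu
  have h2 : (T⁻¹)ᴴ * Tᴴ = 1 := by rw [← conjTranspose_mul, h1, conjTranspose_one]
  calc (T⁻¹)ᴴ * T⁻¹ = (T⁻¹)ᴴ * (Tᴴ * W * T) * T⁻¹ := by rw [h, Matrix.mul_one]
    _ = ((T⁻¹)ᴴ * Tᴴ) * W * (T * T⁻¹) := by simp only [Matrix.mul_assoc]
    _ = W := by rw [h1, h2, Matrix.one_mul, Matrix.mul_one]

theorem cont_T {T : ℂ → MM s} {S : Set ℂ}
    (hT : ∀ i j, ContinuousOn (fun t => T t i j) S) : ContinuousOn T S :=
  continuousOn_pi.mpr fun i => continuousOn_pi.mpr fun j => hT i j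

theorem inv_cont {X : Type*} [TopologicalSpace X] {T : X → MM s} {S : Set X} (hT : ContinuousOn T S)
    (hu : ∀ t ∈ S, IsUnit (T t).det) : ContinuousOn (fun t => (T t)⁻¹) S := by
  have : ∀ t, (T t)⁻¹ = (T t).det⁻¹ • (T t).adjugate := by
    intro t; rw [Matrix.inv_def, Ring.inverse_eq_inv']
  simp only [this]
  have hdet : ContinuousOn (fun t => (T t).det⁻¹) S := by
    apply ContinuousOn.inv₀
    · exact (Continuous.matrix_det continuous_id).comp_continuousOn hT
    · intro t ht; exact (hu t ht).ne_zero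
  have hadj : ContinuousOn (fun t => (T t).adjugate) S :=
    (Continuous.matrix_adjugate continuous_id).comp_continuousOn hT
  exact hdet.smul hadj

theorem isLift {H : M → MM s} : ∀ p ∈ LD H, IsLift (Pset H) p.1 p.2 := by
  rintro _ ⟨e, z, v, R, T, hR, hD, hT, hTH, rfl⟩
  refine ⟨(dk_cont hD).mono (one_ball hR), ?_, ?_⟩
  · exact (inv_cont (cont_T fun i j => (hT i j).continuousOn)
      (fun t ht => unit_of_frame (hTH t ht))).mono (one_ball hR)
  · intro t ht
    exact inv_frame (hTH t (one_ball hR ht))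

theorem InpH.exists_lift (I : InpH L k f) (x : M) (v : Fin n → ℂ) :
    ∀ᶠ r : ℝ in 𝓝[>] 0, ∃ T : ℂ → MM s, ((fun t : ℂ => ln x v ((r : ℂ) * t)), T) ∈ LD L.H := by
  obtain ⟨R, hR, hD⟩ := exists_Dsc x v
  have h1 : ∀ᶠ r : ℝ in 𝓝[>] 0, r < R / 2 := by
    apply mem_nhdsWithin_of_mem_nhds
    exact gt_mem_nhds (by positivity)
  filter_upwards [h1, self_mem_nhdsWithin] with r hr1 hr0
  have hr0' : (0 : ℝ) < r := hr0
  have hq : 2 < R / r := by rw [lt_div_iff₀ hr0']; linarith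
  obtain ⟨T, hT, hT2⟩ := I.exists_frame' (R' := 2) (by norm_num) hq (hD.dk.scale hr0')
  refine ⟨fun t => (T t)⁻¹, ch x, cp x, (r : ℂ) • v, 2, T, by norm_num,
    (hD.dk.scale hr0').mono hq.le, hT, hT2, ?_⟩
  congr 1
  funext t
  exact ln_scale x v r t

end Crest.Agent.R276.LNg_999
end

-- ▼ part R276/LNh_999
section

/-!
# LEMMA N, main argument, part (b): constancy of `Φ` along discs (helper999, row 276)
-/

set_option autoImplicit false
set_option linter.unusedSectionVars false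

namespace Crest.Agent.R276.LNh_999

open MeasureTheory Metric Filter Topology Matrix
open scoped ComplexOrder
open Real (circleAverage)
open Crest.Agent.R271.Ho51
open Crest.Agent.R276.Avg_999 Crest.Agent.R276.Nc_999 Crest.Agent.R276.LNt_999
open Crest.Agent.R276.Fda_999 Crest.Agent.R276.Fdc_999 Crest.Agent.R276.Fdd_999
open Crest.Agent.R276.Pvx_999 Crest.Agent.R276.Hol_999 Crest.Agent.R276.LN_999
open Crest.Agent.R276.LNg_999
open Crest.Agent.R276.Liou_739 (ln Prp ln_zero)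

variable {n : ℕ} {M : Type*} [TopologicalSpace M] [RDom n M]
variable {Y : Type*} [MeasurableSpace Y] {s N : ℕ}

/-- the weight vectors -/
noncomputable def wv (ε : ℝ) (a : Fin s → ℂ) (T : MM s) : Fin (s + 1) → Fin s → ℂ :=
  Fin.cons (T *ᵥ a) (fun k i => (Real.sqrt ε : ℂ) * T i k)

/-- the inputs for the `L²` metrics -/
structure InpG (L : LN M Y s N) : Prop where
  Gpos : ∀ {m : ℕ} (x : M) (w : Fin m → Fin s → ℂ), Span w → (L.G x w).PosDef
  Gcont : ∀ m : ℕ, ContinuousOn (fun p : M × (Fin m → Fin s → ℂ) => L.G p.1 p.2) {p | Span p.2}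
  PVG : ∀ (e : OpenPartialHomeomorph M (Fin n → ℂ)) (z v : Fin n → ℂ) (R : ℝ), 1 < R →
    Dk e z v R → ∀ {m : ℕ} (w : ℂ → Fin m → Fin s → ℂ),
    (∀ l i, DifferentiableOn ℂ (fun t => w t l i) (ball 0 R)) →
    (∀ t ∈ ball (0 : ℂ) R, Span (w t)) → PV (fun t => L.G (dk e z v t) (w t))
  low : ∀ ε > 0, ∀ a : Fin s → ℂ, ∃ c > 0, ∀ (x : M) (T : MM s), Tᴴ * L.H x * T = 1 →
    ∀ b, c * ‖b‖ ^ 2 ≤ qf (Tᴴ * L.G x (wv ε a T) * T) b
  up : ∀ ε > 0, ∀ a : Fin s → ℂ, ∃ C, ∀ (x : M) (T : MM s), Tᴴ * L.H x * T = 1 →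
    qf (Tᴴ * L.G x (wv ε a T) * T) a ≤ C
  lim : ∀ (a : Fin s → ℂ) (x : M) (T : MM s), Tᴴ * L.H x * T = 1 →
    Tendsto (fun ε => qf (L.G x (wv ε a T)) (T *ᵥ a)) (𝓝[>] 0) (𝓝 (L.Phi x (T *ᵥ a)))

variable {L : LN M Y s N} {k : ℕ} {f : M → ℂ}
variable {e : OpenPartialHomeomorph M (Fin n → ℂ)} {z v : Fin n → ℂ} {R : ℝ}

theorem qf_congr (W A : MM s) (b : Fin s → ℂ) : qf (Aᴴ * W * A) b = qf W (A *ᵥ b) := by
  unfold qf
  congr 1
  rw [star_mulVec, ← dotProduct_mulVec, mulVec_mulVec, mulVec_mulVec, Matrix.mul_assoc]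

theorem span_wv {ε : ℝ} (hε : 0 < ε) (a : Fin s → ℂ) {T : MM s} (hT : IsUnit T.det) :
    Span (wv ε a T) := by
  intro v hv
  have h1 : v ᵥ* T = 0 := by
    funext k
    have := hv k.succ
    simp only [wv, Fin.cons_succ] at this
    have h2 : (Real.sqrt ε : ℂ) * ∑ i, v i * T i k = 0 := by
      rw [Finset.mul_sum, ← this]
      apply Finset.sum_congr rfl
      intro i _; ring
    have h3 : (Real.sqrt ε : ℂ) ≠ 0 := by
      exact_mod_cast (Real.sqrt_pos.mpr hε).ne'
    have h4 := (mul_eq_zero.mp h2).resolve_left h3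
    simpa [vecMul, dotProduct] using h4
  have h2 : v ᵥ* (T * T⁻¹) = 0 := by rw [← vecMul_vecMul, h1, zero_vecMul]
  rwa [mul_nonsing_inv T hT, vecMul_one] at h2

theorem wv_cont {X : Type*} [TopologicalSpace X] (ε : ℝ) (a : Fin s → ℂ) {T : X → MM s} {S : Set X}
    (hT : ContinuousOn T S) : ContinuousOn (fun x => wv ε a (T x)) S := by
  refine continuousOn_pi.mpr fun l => ?_
  refine Fin.cases ?_ (fun k => ?_) l
  · simp only [wv, Fin.cons_zero]
    exact Continuous.comp_continuousOn (g := fun A : MM s => A *ᵥ a)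
      (continuous_id.matrix_mulVec continuous_const) hT
  · simp only [wv, Fin.cons_succ]
    refine continuousOn_pi.mpr fun i => ?_
    apply ContinuousOn.mul continuousOn_const
    exact Continuous.comp_continuousOn (g := fun A : MM s => A i k)
      ((continuous_apply k).comp (continuous_apply i)) hT

theorem wv_diff {S : Set ℂ} (ε : ℝ) (a : Fin s → ℂ) {T : ℂ → MM s}
    (hT : ∀ i j, DifferentiableOn ℂ (fun t => T t i j) S) (l : Fin (s + 1)) (i : Fin s) :
    DifferentiableOn ℂ (fun t => wv ε a (T t) l i) S := by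
  refine Fin.cases ?_ (fun k => ?_) l
  · simp only [wv, Fin.cons_zero, mulVec, dotProduct]
    apply DifferentiableOn.fun_sum
    intro j _
    exact (hT i j).mul_const _
  · simp only [wv, Fin.cons_succ]
    exact (hT i k).const_mul _

theorem inv_entries_diff {S : Set ℂ} {T : ℂ → MM s}
    (hT : ∀ i j, DifferentiableOn ℂ (fun t => T t i j) S) (hu : ∀ t ∈ S, IsUnit (T t).det)
    (i j : Fin s) : DifferentiableOn ℂ (fun t => (T t)⁻¹ i j) S := by
  have hdet : ∀ (T : ℂ → MM s), (∀ i j, DifferentiableOn ℂ (fun t => T t i j) S) →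
      DifferentiableOn ℂ (fun t => (T t).det) S := by
    intro T hT
    simp only [Matrix.det_apply]
    apply DifferentiableOn.fun_sum
    intro σ _
    apply DifferentiableOn.const_smul
    apply DifferentiableOn.fun_finsetProd
    intro i _
    exact hT _ _
  have h1 : ∀ t, (T t)⁻¹ i j = (T t).det⁻¹ * (T t).adjugate i j := by
    intro t; rw [Matrix.inv_def, Ring.inverse_eq_inv']; rfl
  simp only [h1]
  apply DifferentiableOn.mul
  · exact (hdet T hT).inv (fun t ht => (hu t ht).ne_zero)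
  · simp only [Matrix.adjugate_apply]
    apply hdet
    intro a b
    simp only [Matrix.updateRow_apply]
    split_ifs
    · exact differentiableOn_const _
    · exact hT _ _

/-- the matrix of the `L²` metric in the frame `A⁻¹` -/
noncomputable def Mep (L : LN M Y s N) (ε : ℝ) (a : Fin s → ℂ) (p : M × MM s) : MM s :=
  (p.2⁻¹)ᴴ * L.G p.1 (wv ε a p.2⁻¹) * p.2⁻¹

theorem frame_of_mem (I : InpH (n := n) L k f) {p : M × MM s} (hp : p ∈ Pset L.H) :
    IsUnit p.2.det ∧ (p.2⁻¹)ᴴ * L.H p.1 * p.2⁻¹ = 1 := by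
  have h : p.2ᴴ * p.2 = L.H p.1 := hp
  have hu := isUnit_of_pos (I.Hpos _) h
  refine ⟨hu, ?_⟩
  have h1 : p.2 * p.2⁻¹ = 1 := mul_nonsing_inv _ hu
  rw [← h]
  calc (p.2⁻¹)ᴴ * (p.2ᴴ * p.2) * p.2⁻¹ = (p.2 * p.2⁻¹)ᴴ * (p.2 * p.2⁻¹) := by
        rw [conjTranspose_mul]; simp only [Matrix.mul_assoc]
    _ = 1 := by rw [h1]; simp

theorem unit_inv {A : MM s} (h : IsUnit A.det) : IsUnit (A⁻¹).det :=
  (isUnit_nonsing_inv_det_iff).mpr h

theorem posDef_congr {W A : MM s} (hW : W.PosDef) (hA : IsUnit A.det) : (Aᴴ * W * A).PosDef := by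
  apply hW.conjTranspose_mul_mul_same
  have : IsUnit A := (isUnit_iff_isUnit_det A).mpr hA
  exact Matrix.mulVec_injective_of_isUnit this

theorem Mep_pos (I : InpH (n := n) L k f) (J : InpG (n := n) L) {ε : ℝ} (hε : 0 < ε)
    (a : Fin s → ℂ) {p : M × MM s} (hp : p ∈ Pset L.H) : (Mep L ε a p).PosDef := by
  obtain ⟨hu, _⟩ := frame_of_mem I hp
  exact posDef_congr (J.Gpos _ _ (span_wv hε a (unit_inv hu))) (unit_inv hu)

theorem Mep_cont (I : InpH (n := n) L k f) (J : InpG (n := n) L) {ε : ℝ} (hε : 0 < ε)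
    (a : Fin s → ℂ) : ContinuousOn (Mep L ε a) (Pset L.H) := by
  have h1 : ContinuousOn (fun p : M × MM s => p.2⁻¹) (Pset L.H) :=
    inv_cont continuousOn_snd (fun p hp => (frame_of_mem I hp).1)
  have h2 : ContinuousOn (fun p : M × MM s => L.G p.1 (wv ε a p.2⁻¹)) (Pset L.H) := by
    refine (J.Gcont (s + 1)).comp (continuousOn_fst.prodMk (wv_cont ε a h1)) ?_
    intro p hp
    exact span_wv hε a (unit_inv (frame_of_mem I hp).1)
  unfold Mep
  exact (h1.star.mul h2).mul h1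

/-- the inverse is bounded above -/
theorem inv_le {W : MM s} (hW : W.PosDef) {c : ℝ} (hc : 0 < c)
    (h : ∀ b, c * ‖b‖ ^ 2 ≤ qf W b) (b : Fin s → ℂ) : qf W⁻¹ b ≤ (s ^ 2 / c) * ‖b‖ ^ 2 := by
  obtain ⟨e1, e2⟩ := cs_eq hW b
  set y := W⁻¹ *ᵥ b with hy
  set Q := qf W⁻¹ b with hQ
  have hQ0 : 0 ≤ Q := qf_nonneg hW.inv b
  have h1 : c * ‖y‖ ^ 2 ≤ Q := by rw [← e2]; exact h y
  have h2 : Q ≤ s * (‖y‖ * ‖b‖) := by
    have h3 : ‖star y ⬝ᵥ b‖ = Q := by
      rw [e1, Complex.norm_real, Real.norm_of_nonneg hQ0]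
    rw [← h3]
    unfold dotProduct
    refine (norm_sum_le _ _).trans ?_
    calc ∑ i, ‖star y i * b i‖ ≤ ∑ _i : Fin s, ‖y‖ * ‖b‖ := by
          apply Finset.sum_le_sum
          intro i _
          rw [norm_mul, Pi.star_apply, norm_star]
          exact mul_le_mul (norm_le_pi_norm y i) (norm_le_pi_norm b i) (norm_nonneg _)
            (norm_nonneg _)
      _ = _ := by simp
  rcases hQ0.eq_or_lt with h0 | h0
  · rw [← h0]; positivity
  · have h4 : Q ^ 2 ≤ s ^ 2 * (‖y‖ ^ 2 * ‖b‖ ^ 2) := by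
      calc Q ^ 2 ≤ (s * (‖y‖ * ‖b‖)) ^ 2 := pow_le_pow_left₀ hQ0 h2 2
        _ = _ := by ring
    have h5 : c * Q ^ 2 ≤ s ^ 2 * ‖b‖ ^ 2 * Q := by
      calc c * Q ^ 2 ≤ c * (s ^ 2 * (‖y‖ ^ 2 * ‖b‖ ^ 2)) := mul_le_mul_of_nonneg_left h4 hc.le
        _ = s ^ 2 * ‖b‖ ^ 2 * (c * ‖y‖ ^ 2) := by ring
        _ ≤ _ := mul_le_mul_of_nonneg_left h1 (by positivity)
    have h6 : c * Q ≤ s ^ 2 * ‖b‖ ^ 2 := by
      have : c * Q * Q ≤ s ^ 2 * ‖b‖ ^ 2 * Q := by rw [mul_assoc, ← sq]; exact h5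
      exact le_of_mul_le_mul_right this h0
    rw [div_mul_eq_mul_div, le_div_iff₀ hc, mul_comm]
    exact h6

/-- sub-mean value inequality along lifted discs -/
theorem sub_lift (J : InpG (n := n) L) {ε : ℝ} (hε : 0 < ε)
    (a : Fin s → ℂ) {T : ℂ → MM s} (hR : 1 < R) (hD : Dk e z v R)
    (hT : ∀ i j, DifferentiableOn ℂ (fun t => T t i j) (ball 0 R))
    (hTH : ∀ t ∈ ball (0 : ℂ) R, (T t)ᴴ * L.H (dk e z v t) * T t = 1) (b : Fin s → ℂ) (hb : b ≠ 0) :
    Real.log (qf (Mep L ε a (dk e z v 0, (T 0)⁻¹))⁻¹ b) ≤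
      circleAverage (fun t => Real.log (qf (Mep L ε a (dk e z v t, (T t)⁻¹))⁻¹ b)) 0 1 := by
  have hu : ∀ t ∈ ball (0 : ℂ) R, IsUnit (T t).det := fun t ht => unit_of_frame (hTH t ht)
  have hin := one_ball hR
  set G : ℂ → MM s := fun t => L.G (dk e z v t) (wv ε a (T t)) with hG
  have hGc : ContinuousOn G (closedBall 0 1) := by
    refine (J.Gcont (s + 1)).comp (((dk_cont hD).mono hin).prodMk
      (wv_cont ε a ((cont_T fun i j => (hT i j).continuousOn).mono hin))) ?_
    intro t ht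
    exact span_wv hε a (hu t (hin ht))
  have hGp : ∀ t ∈ closedBall (0 : ℂ) 1, (G t).PosDef := fun t ht =>
    J.Gpos _ _ (span_wv hε a (hu t (hin ht)))
  have hPV : PV G := J.PVG e z v R hR hD (fun t => wv ε a (T t)) (wv_diff ε a hT)
    (fun t ht => span_wv hε a (hu t ht))
  set ξ : ℂ → Fin s → ℂ := fun t => star b ᵥ* (T t)⁻¹ with hξ
  have hξd : ∀ i, DifferentiableOn ℂ (fun t => ξ t i) (ball 0 R) := by
    intro i
    simp only [hξ, vecMul, dotProduct]
    apply DifferentiableOn.fun_sum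
    intro j _
    exact (inv_entries_diff hT hu j i).const_mul _
  have hξ0 : ∀ t ∈ closedBall (0 : ℂ) 1, ξ t ≠ 0 := by
    intro t ht h0
    have h1 : star b ᵥ* ((T t)⁻¹ * T t) = 0 := by
      rw [← vecMul_vecMul]
      change ξ t ᵥ* T t = 0
      rw [h0, zero_vecMul]
    rw [nonsing_inv_mul _ (hu t (hin ht)), vecMul_one] at h1
    exact hb (by rw [← star_star b, h1, star_zero])
  have key := hol_le hGc hGp hPV hR hξd hξ0
  have hval : ∀ t ∈ closedBall (0 : ℂ) 1, qf (Mep L ε a (dk e z v t, (T t)⁻¹))⁻¹ b =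
      dN (G t) (ξ t) := by
    intro t ht
    have hut := hu t (hin ht)
    have hi : ((T t)⁻¹)⁻¹ = T t := nonsing_inv_nonsing_inv _ hut
    have h1 : (Mep L ε a (dk e z v t, (T t)⁻¹))⁻¹ = ((T t)⁻¹) * (G t)⁻¹ * ((T t)⁻¹)ᴴ := by
      unfold Mep
      simp only [hi]
      rw [Matrix.mul_inv_rev, Matrix.mul_inv_rev, ← Matrix.mul_assoc, conjTranspose_nonsing_inv]
    have h2 : qf (((T t)⁻¹) * (G t)⁻¹ * ((T t)⁻¹)ᴴ) b = qf (G t)⁻¹ (((T t)⁻¹)ᴴ *ᵥ b) := by
      have := qf_congr (G t)⁻¹ ((T t)⁻¹)ᴴ b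
      rwa [conjTranspose_conjTranspose] at this
    rw [h1, h2]
    unfold dN
    congr 1
    rw [hξ, star_vecMul, star_star]
  rw [hval 0 (by simp)]
  refine key.trans (le_of_eq ?_)
  apply Real.circleAverage_congr_sphere
  intro t ht
  rw [abs_one] at ht
  have := hval t (sphere_subset_closedBall ht)
  simp only [this]

/-- **Constancy of `Φ` on circles.** -/
theorem circle_const {h : MvPolynomial (Fin n) ℂ} (P : Prp h M) [PreconnectedSpace M]
    [FirstCountableTopology M] [LocallyCompactSpace M] (hN : 2 ≤ N)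
    (I : InpH (n := n) L k f) (J : InpG (n := n) L)
    {T : ℂ → MM s} (hR : 1 < R) (hD : Dk e z v R)
    (hT : ∀ i j, DifferentiableOn ℂ (fun t => T t i j) (ball 0 R))
    (hTH : ∀ t ∈ ball (0 : ℂ) R, (T t)ᴴ * L.H (dk e z v t) * T t = 1) (a : Fin s → ℂ) (θ : ℝ) :
    L.Phi (dk e z v (circleMap 0 1 θ)) (T (circleMap 0 1 θ) *ᵥ a) = L.Phi (dk e z v 0) (T 0 *ᵥ a) := by
  classical
  by_cases ha : a = 0
  · have hp : (2 / N : ℝ) ≠ 0 := by
      have : (N : ℝ) ≠ 0 := by
        have : N ≠ 0 := by omega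
        exact_mod_cast this
      positivity
    subst ha
    simp [LN.Phi, Real.zero_rpow hp]
  obtain ⟨μ, hμ1, hμ2, hμ3⟩ := exists_haar s
  let _ : MeasurableSpace (UG s) := borel (UG s)
  have _ : BorelSpace (UG s) := ⟨rfl⟩
  have hmain : ∀ ε > 0, qf (Mep L ε a (dk e z v (circleMap 0 1 θ), (T (circleMap 0 1 θ))⁻¹)) a =
      qf (Mep L ε a (dk e z v 0, (T 0)⁻¹)) a := by
    intro ε hε
    obtain ⟨c, hc, hlow⟩ := J.low ε hε a
    obtain ⟨C, hup⟩ := J.up ε hε a
    have hinv : ∀ p ∈ Pset L.H, ((Mep L ε a p)⁻¹)⁻¹ = Mep L ε a p := fun p hp =>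
      nonsing_inv_nonsing_inv _ ((isUnit_iff_isUnit_det _).mp (Mep_pos I J hε a hp).isUnit)
    have key := norm_const μ (tor (H := L.H) I.Hpos) (fun p => (Mep L ε a p)⁻¹)
      (fun p hp => (Mep_pos I J hε a hp).inv)
      (inv_cont (Mep_cont I J hε a) (fun p hp =>
        (isUnit_iff_isUnit_det _).mp (Mep_pos I J hε a hp).isUnit)) a ha
      (s ^ 2 / c) (fun p hp b => by
        refine inv_le (Mep_pos I J hε a hp) hc (fun b => ?_) b
        exact hlow p.1 p.2⁻¹ (frame_of_mem I hp).2 b)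
      C (fun p hp => by
        rw [hinv p hp]
        exact hup p.1 p.2⁻¹ (frame_of_mem I hp).2)
      (LD L.H) isLift ?_ (Liou3_739.hL P (fun x v => I.exists_lift x v))
      (fun x => loc I.Hpos I.Hcont x)
      (dk e z v, fun t => (T t)⁻¹) ⟨e, z, v, R, T, hR, hD, hT, hTH, rfl⟩ 1 θ
    · simp only [one_smul] at key
      have hmem : ∀ t ∈ closedBall (0 : ℂ) 1, ((dk e z v t, (T t)⁻¹) : M × MM s) ∈ Pset L.H :=
        fun t ht => inv_frame (hTH t (one_ball hR ht))
      rw [hinv _ (hmem _ (circleMap_mem θ)), hinv _ (hmem 0 (by simp))] at key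
      exact key
    · rintro _ ⟨e', z', v', R', T', hR', hD', hT', hTH', rfl⟩ g b hb
      have hg1 : (g : MM s)ᴴ * (g : MM s) = 1 := star_mul_self' g
      have hg2 : (g : MM s) * (g : MM s)ᴴ = 1 := mul_star_self' g
      have h1 : ∀ t ∈ ball (0 : ℂ) R', g • (T' t)⁻¹ = (T' t * (g : MM s)ᴴ)⁻¹ := by
        intro t _
        rw [Matrix.mul_inv_rev, inv_eq_right_inv hg1]
        rfl
      have h2 := sub_lift J hε a (T := fun t => T' t * (g : MM s)ᴴ) hR' hD' (fun i j => by
        simp only [Matrix.mul_apply]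
        apply DifferentiableOn.fun_sum
        intro l _
        exact (hT' i l).mul_const _) (fun t ht => by
        rw [conjTranspose_mul, conjTranspose_conjTranspose]
        calc (g : MM s) * (T' t)ᴴ * L.H (dk e' z' v' t) * (T' t * (g : MM s)ᴴ) =
              (g : MM s) * ((T' t)ᴴ * L.H (dk e' z' v' t) * T' t) * (g : MM s)ᴴ := by
                simp only [Matrix.mul_assoc]
          _ = 1 := by rw [hTH' t ht, Matrix.mul_one, hg2]) b hb
      simp only
      rw [h1 0 (mem_ball_self (by linarith))]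
      refine h2.trans (le_of_eq ?_)
      apply Real.circleAverage_congr_sphere
      intro t ht
      rw [abs_one] at ht
      have := h1 t (one_ball hR' (sphere_subset_closedBall ht))
      simp only [this]
  -- the limit ε → 0
  have hval : ∀ t ∈ closedBall (0 : ℂ) 1, ∀ ε, qf (Mep L ε a (dk e z v t, (T t)⁻¹)) a =
      qf (L.G (dk e z v t) (wv ε a (T t))) (T t *ᵥ a) := by
    intro t ht ε
    have hi : ((T t)⁻¹)⁻¹ = T t := nonsing_inv_nonsing_inv _ (unit_of_frame (hTH t (one_ball hR ht)))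
    unfold Mep
    simp only [hi]
    exact qf_congr _ _ _
  have hc := circleMap_mem θ
  have l1 := J.lim a (dk e z v (circleMap 0 1 θ)) (T (circleMap 0 1 θ)) (hTH _ (one_ball hR hc))
  have l2 := J.lim a (dk e z v 0) (T 0) (hTH 0 (mem_ball_self (by linarith)))
  refine tendsto_nhds_unique l1 (l2.congr' ?_)
  filter_upwards [self_mem_nhdsWithin] with ε hε
  rw [← hval 0 (by simp) ε, ← hval _ hc ε]
  exact (hmain ε hε).symm

end Crest.Agent.R276.LNh_999
end

-- ▼ part R276/LNi_999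
section

/-!
# LEMMA N: transports along discs (helper999, row 276)

`InpG` from 333's comparison; output `exists_transport` : holomorphic `T` along every disc with
`Φ (x_t) (T t a)` constant.
-/

set_option autoImplicit false
set_option linter.unusedSectionVars false

namespace Crest.Agent.R276.LNi_999

open MeasureTheory Metric Filter Topology Matrix
open scoped ComplexOrder
open Crest.Agent.R271.Ho51
open Crest.Agent.R276.Nc_999 Crest.Agent.R276.LNt_999
open Crest.Agent.R276.Fdc_999 Crest.Agent.R276.LN_999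
open Crest.Agent.R276.LNg_999 Crest.Agent.R276.LNh_999 Crest.Agent.R276.LNd_333
open Crest.Agent.R276.LNb_333
open Crest.Agent.R276.Liou_739 (ln Prp ln_zero)

variable {n : ℕ} {M : Type*} [TopologicalSpace M] [RDom n M]
variable {Y : Type*} [MeasurableSpace Y] {s N : ℕ}
variable {L : LN M Y s N} {k : ℕ} {f : M → ℂ}

/-- the squared euclidean norm -/
noncomputable def nsq (b : Fin s → ℂ) : ℝ := ∑ i, ‖b i‖ ^ 2

theorem nsq_nonneg (b : Fin s → ℂ) : 0 ≤ nsq b := Finset.sum_nonneg fun _ _ => by positivity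

theorem le_nsq (b : Fin s → ℂ) : ‖b‖ ^ 2 ≤ nsq b := by
  rcases isEmpty_or_nonempty (Fin s) with h | h
  · have : b = 0 := Subsingleton.elim _ _
    subst this
    simp [nsq]
  · obtain ⟨i, hi⟩ : ∃ i, ‖b‖ = ‖b i‖ := by
      obtain ⟨i, _, hi⟩ := Finset.exists_max_image Finset.univ (fun i => ‖b i‖) Finset.univ_nonempty
      refine ⟨i, le_antisymm ?_ (norm_le_pi_norm b i)⟩
      rw [pi_norm_le_iff_of_nonneg (norm_nonneg _)]
      intro j
      exact hi j (Finset.mem_univ j)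
    rw [hi]
    exact Finset.single_le_sum (f := fun i => ‖b i‖ ^ 2) (fun _ _ => by positivity)
      (Finset.mem_univ i)

theorem qf_one (b : Fin s → ℂ) : qf (1 : MM s) b = nsq b := by
  unfold qf nsq
  rw [one_mulVec, dotProduct, Complex.re_sum]
  apply Finset.sum_congr rfl
  intro i _
  rw [Pi.star_apply, Complex.star_def, mul_comm, Complex.mul_conj, Complex.ofReal_re,
    Complex.normSq_eq_norm_sq]

theorem qf_frame {W T : MM s} (h : Tᴴ * W * T = 1) (b : Fin s → ℂ) : qf W (T *ᵥ b) = nsq b := by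
  rw [← qf_congr, h, qf_one]

theorem qf_smul' (W : MM s) (c : ℂ) (v : Fin s → ℂ) :
    qf W (fun i => c * v i) = ‖c‖ ^ 2 * qf W v := by
  have := Fda_999.qf_smul W c v
  exact this

theorem sum_wv {W T : MM s} (h : Tᴴ * W * T = 1) {ε : ℝ} (hε : 0 < ε) (a : Fin s → ℂ) :
    ∑ l, qf W (wv ε a T l) = nsq a + ε * s := by
  rw [Fin.sum_univ_succ]
  simp only [wv, Fin.cons_zero, Fin.cons_succ]
  rw [qf_frame h]
  congr 1
  have h1 : ∀ k : Fin s, qf W (fun i => (Real.sqrt ε : ℂ) * T i k) = ε := by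
    intro k
    rw [qf_smul', Complex.norm_real, Real.norm_of_nonneg (Real.sqrt_nonneg _),
      Real.sq_sqrt hε.le]
    have h2 : (fun i => T i k) = T *ᵥ (Pi.single k 1) := by
      ext i; simp
    rw [h2, qf_frame h]
    unfold nsq
    rw [Finset.sum_eq_single k]
    · simp
    · intro j _ hj; simp [hj]
    · simp
  simp only [h1]
  simp [mul_comm]

theorem inpG (hN : 2 ≤ N) (hs : 0 < s)
    (PVG : ∀ (e : OpenPartialHomeomorph M (Fin n → ℂ)) (z v : Fin n → ℂ) (R : ℝ), 1 < R →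
      Dk e z v R → ∀ {m : ℕ} (w : ℂ → Fin m → Fin s → ℂ),
      (∀ l i, DifferentiableOn ℂ (fun t => w t l i) (ball 0 R)) →
      (∀ t ∈ ball (0 : ℂ) R, Span (w t)) → PV (fun t => L.G (dk e z v t) (w t)))
    (lim : ∀ (a : Fin s → ℂ) (x : M) (T : MM s), Tᴴ * L.H x * T = 1 →
      Tendsto (fun ε => qf (L.G x (wv ε a T)) (T *ᵥ a)) (𝓝[>] 0) (𝓝 (L.Phi x (T *ᵥ a)))) :
    InpG (n := n) L where
  Gpos x w hw := G_posDef L hN x hw
  Gcont m := G_cont L hN
  PVG := PVG
  low ε hε a := by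
    have hs' : (0 : ℝ) < s := by exact_mod_cast hs
    have hR : 0 < nsq a + ε * s := by
      have := nsq_nonneg a
      positivity
    refine ⟨((s : ℝ) ^ (N - 1) * (nsq a + ε * s)) ^ (-(1 - 1 / N : ℝ)),
      Real.rpow_pos_of_pos (by positivity) _, fun x T hT b => ?_⟩
    have hu := unit_of_frame hT
    have h1 := qf_G_ge L hN hs x (w := wv ε a T) (span_wv hε a hu) hR (sum_wv hT hε a).le (T *ᵥ b)
    rw [qf_frame hT] at h1
    rw [qf_congr]
    refine le_trans ?_ h1
    apply mul_le_mul_of_nonneg_left (le_nsq b)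
    exact (Real.rpow_pos_of_pos (by positivity) _).le
  up ε hε a := by
    refine ⟨max 1 ((s : ℝ) ^ (N - 1) * nsq a), fun x T hT => ?_⟩
    have hu := unit_of_frame hT
    have h1 := qf_G_le L hN x (w := wv ε a T) (span_wv hε a hu) 0
    simp only [wv, Fin.cons_zero] at h1
    rw [qf_congr]
    refine h1.trans ?_
    have h2 := Phi_pow_le L hN hs x (T *ᵥ a)
    rw [qf_frame hT] at h2
    rcases le_or_gt (L.Phi x (T *ᵥ a)) 1 with h3 | h3
    · exact h3.trans (le_max_left _ _)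
    · refine le_trans ?_ (le_max_right _ _)
      refine le_trans ?_ h2
      calc L.Phi x (T *ᵥ a) = L.Phi x (T *ᵥ a) ^ 1 := (pow_one _).symm
        _ ≤ L.Phi x (T *ᵥ a) ^ N := pow_le_pow_right₀ h3.le (by omega)
  lim := lim

theorem firstCountable_rdom (n : ℕ) (M : Type*) [TopologicalSpace M] [RDom n M] :
    FirstCountableTopology M := by
  refine ⟨fun x => ?_⟩
  rw [(ch x).nhds_eq_comap_inf_principal (mem_ch x)]
  infer_instance

/-- **Transport along discs.** -/
theorem exists_transport {h : MvPolynomial (Fin n) ℂ} (P : Prp h M) [PreconnectedSpace M]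
    (hN : 2 ≤ N) (I : InpH (n := n) L k f) (J : InpG (n := n) L)
    {e : OpenPartialHomeomorph M (Fin n → ℂ)} {z v : Fin n → ℂ}
    {R R' : ℝ} (hR' : 0 < R') (hR : R' < R) (hD : Dk e z v R) :
    ∃ T : ℂ → MM s, (∀ i j, DifferentiableOn ℂ (fun t => T t i j) (ball 0 R')) ∧
      (∀ t ∈ ball (0 : ℂ) R', (T t)ᴴ * L.H (dk e z v t) * T t = 1) ∧
      ∀ t ∈ ball (0 : ℂ) R', ∀ a, L.Phi (dk e z v t) (T t *ᵥ a) = L.Phi (e.symm z) (T 0 *ᵥ a) := by
  have hfc := firstCountable_rdom n M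
  have hlc := R273.Reg_844.locallyCompact_rdom n M
  obtain ⟨T, hT, hTH⟩ := I.exists_frame' hR' hR hD
  refine ⟨T, hT, hTH, fun t ht a => ?_⟩
  by_cases ht0 : t = 0
  · subst ht0; simp [dk]
  have hr : 0 < ‖t‖ := norm_pos_iff.mpr ht0
  have htR : ‖t‖ < R' := by simpa using ht
  have hD' : Dk e z ((‖t‖ : ℂ) • v) (R' / ‖t‖) := (hD.mono hR.le).scale hr
  have h1 : 1 < R' / ‖t‖ := by rwa [lt_div_iff₀ hr, one_mul]
  have hmaps : Set.MapsTo (fun τ : ℂ => (‖t‖ : ℂ) * τ) (ball 0 (R' / ‖t‖)) (ball 0 R') := by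
    intro τ hτ
    rw [mem_ball_zero_iff] at hτ ⊢
    rw [norm_mul, Complex.norm_real, norm_norm, mul_comm]
    rwa [lt_div_iff₀ hr] at hτ
  have key := circle_const P hN I J (T := fun τ => T ((‖t‖ : ℂ) * τ)) h1 hD'
    (fun i j => (hT i j).comp (by fun_prop) hmaps) (fun τ hτ => by
      have := hTH _ (hmaps hτ)
      rwa [dk_scale] at this) a (Complex.arg t)
  have h2 : (‖t‖ : ℂ) * circleMap 0 1 (Complex.arg t) = t := by
    have : circleMap 0 1 (Complex.arg t) = Complex.exp (Complex.arg t * Complex.I) := by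
      simp [circleMap]
    rw [this, Complex.norm_mul_exp_arg_mul_I]
  rw [← dk_scale, h2, mul_zero] at key
  rw [key]
  simp [dk]

end Crest.Agent.R276.LNi_999
end

-- ▼ part R276/LNj_999
section

/-!
# LEMMA N: (PV) hypotheses are local; the output `LineT` (helper999, row 276)
-/

set_option autoImplicit false
set_option linter.unusedSectionVars false

namespace Crest.Agent.R276.LNj_999

open MeasureTheory Metric Filter Topology Matrix Polynomial
open scoped ComplexOrder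
open Real (circleAverage)
open Crest.Agent.R271.Ho51
open Crest.Agent.R276.Nc_999 Crest.Agent.R276.LNt_999 Crest.Agent.R276.Poi_999
open Crest.Agent.R276.Fda_999
open Crest.Agent.R276.Fdc_999 Crest.Agent.R276.LN_999
open Crest.Agent.R276.LNg_999 Crest.Agent.R276.LNh_999 Crest.Agent.R276.LNi_999
open Crest.Agent.R276.Liou_739 (ln Prp ln_zero)

variable {n : ℕ} {M : Type*} [TopologicalSpace M] [RDom n M]
variable {Y : Type*} [MeasurableSpace Y] {s N : ℕ}
variable {L : LN M Y s N} {k : ℕ} {f : M → ℂ}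

theorem circleAverage_scale (g : ℂ → ℝ) (c : ℂ) (ρ r : ℝ) :
    circleAverage (fun τ => g (c + (ρ : ℂ) * τ)) 0 r = circleAverage g c (ρ * r) := by
  simp only [circleAverage]
  congr 2
  ext θ
  congr 1
  simp only [circleMap]
  push_cast
  ring

/-- (PV) is a local property -/
theorem pv_local {A : ℂ → MM s} (h : ∀ c ∈ ball (0 : ℂ) 1, ∃ ρ : ℝ, 0 < ρ ∧ ∃ A' : ℂ → MM s,
    (∀ τ ∈ ball (0 : ℂ) 1, A (c + (ρ : ℂ) * τ) = A' τ) ∧ PV A') : PV A := by
  intro ξ δ hδ c hc
  obtain ⟨ρ, hρ, A', hA, hPV⟩ := h c hc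
  set ξ' : Fin s → ℂ[X] := fun i => (ξ i).comp (C c + C (ρ : ℂ) * X) with hξ'
  have hev : ∀ τ, ev ξ' τ = ev ξ (c + (ρ : ℂ) * τ) := by
    intro τ
    ext i
    simp [ev, hξ']
  obtain ⟨r0, hr0, hr⟩ := hPV ξ' δ hδ 0 (by simp)
  refine ⟨ρ * min r0 1, by positivity, fun r hr1 hr2 => ?_⟩
  have h1 : r / ρ < min r0 1 := by
    rw [div_lt_iff₀ hρ, mul_comm]; exact hr2
  have h2 := hr (r / ρ) (by positivity) (h1.trans_le (min_le_left _ _))
  have e1 : dN (A c) (ev ξ c) = dN (A' 0) (ev ξ' 0) := by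
    have := hA 0 (by simp)
    rw [mul_zero, add_zero] at this
    rw [this, hev, mul_zero, add_zero]
  have e2 : circleAverage (fun z => Real.log (dN (A z) (ev ξ z) + δ)) c r =
      circleAverage (fun z => Real.log (dN (A' z) (ev ξ' z) + δ)) 0 (r / ρ) := by
    have h3 : ρ * (r / ρ) = r := by field_simp
    rw [← h3, ← circleAverage_scale, h3]
    apply Real.circleAverage_congr_sphere
    intro τ hτ
    rw [abs_of_pos (by positivity)] at hτ
    have hτ1 : τ ∈ ball (0 : ℂ) 1 := by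
      rw [mem_ball_zero_iff]
      rw [mem_sphere_zero_iff_norm] at hτ
      rw [hτ]
      exact h1.trans_le (min_le_right _ _)
    simp only [hA τ hτ1, hev]
  change Real.log (dN (A c) (ev ξ c) + δ) ≤
    circleAverage (fun z => Real.log (dN (A z) (ev ξ z) + δ)) c r
  rw [e1, e2]
  exact h2

/-- recentring of discs -/
theorem recentre {e : OpenPartialHomeomorph M (Fin n → ℂ)} {z v : Fin n → ℂ} {R : ℝ}
    (hD : Dk e z v R) {c : ℂ} (hc : c ∈ ball (0 : ℂ) R) :
    ∃ ρ : ℝ, 0 < ρ ∧ ‖c‖ + 2 * ρ < R ∧ Dsc (dk e z v c) ((ρ : ℂ) • v) 2 ∧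
      ∀ τ ∈ ball (0 : ℂ) 2, dk e z v (c + (ρ : ℂ) * τ) = ln (dk e z v c) ((ρ : ℂ) • v) τ := by
  set x := dk e z v c with hx
  have hzc := hD.mem c hc
  have hxs : x ∈ e.source := e.map_target hzc
  have hcpx : cp x = z + c • v := hD.isCh.cp_symm hzc
  have hgerm := hD.isCh.germ (isCh_ch x) hxs (mem_ch x)
  have htar : ∀ᶠ w in 𝓝 (cp x), w ∈ (ch x).target :=
    (ch x).open_target.mem_nhds ((isCh_ch x).cp_mem (mem_ch x))
  have hlim : Tendsto (fun τ : ℂ => cp x + τ • v) (𝓝 0) (𝓝 (cp x)) := by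
    have : Continuous fun τ : ℂ => cp x + τ • v := by fun_prop
    have h := this.tendsto 0
    simpa using h
  obtain ⟨r, hr, hball⟩ := Metric.eventually_nhds_iff_ball.mp (hlim.eventually (hgerm.and htar))
  have hcR : ‖c‖ < R := by simpa using hc
  refine ⟨min (r / 2) ((R - ‖c‖) / 4), lt_min (by positivity) (by linarith), ?_, ?_, ?_⟩
  · have := min_le_right (r / 2) ((R - ‖c‖) / 4)
    linarith
  all_goals
    set ρ := min (r / 2) ((R - ‖c‖) / 4) with hρ
    have hρ0 : 0 < ρ := lt_min (by positivity) (by linarith)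
    have hρ1 : ρ ≤ r / 2 := min_le_left _ _
    have hin : ∀ τ ∈ ball (0 : ℂ) 2, τ * (ρ : ℂ) ∈ ball (0 : ℂ) r := by
      intro τ hτ
      rw [mem_ball_zero_iff] at hτ ⊢
      rw [norm_mul, Complex.norm_real, Real.norm_of_nonneg hρ0.le]
      calc ‖τ‖ * ρ < 2 * ρ := by nlinarith
        _ ≤ r := by linarith
  · intro τ hτ
    have := (hball _ (hin τ hτ)).2
    rwa [smul_smul]
  · intro τ hτ
    have := (hball _ (hin τ hτ)).1
    unfold dk ln
    rw [smul_smul, ← this, hcpx]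
    congr 1
    rw [add_smul, ← add_assoc, mul_comm (ρ : ℂ) τ]

/-- (PVH) in charts from (PVH) for the standard charts -/
theorem pvh_of_ch (h : ∀ (x : M) (v : Fin n → ℂ) (R : ℝ), 1 < R → Dsc x v R →
      PV (fun t => L.H (ln x v t)))
    (e : OpenPartialHomeomorph M (Fin n → ℂ)) (z v : Fin n → ℂ) (R : ℝ) (hR : 1 < R)
    (hD : Dk e z v R) : PV (fun t => L.H (dk e z v t)) := by
  apply pv_local
  intro c hc
  obtain ⟨ρ, hρ, _, h2, h3⟩ := recentre hD (ball_subset_ball hR.le hc)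
  refine ⟨ρ, hρ, fun τ => L.H (ln (dk e z v c) ((ρ : ℂ) • v) τ), fun τ hτ => ?_,
    h _ _ 2 (by norm_num) h2⟩
  simp only
  rw [h3 τ (ball_subset_ball (by norm_num) hτ)]

/-- (PVG) in charts from (PVG) for the standard charts -/
theorem pvg_of_ch (h : ∀ (x : M) (v : Fin n → ℂ) (R : ℝ), 1 < R → Dsc x v R → ∀ {m : ℕ}
      (w : ℂ → Fin m → Fin s → ℂ), (∀ l i, DifferentiableOn ℂ (fun t => w t l i) (ball 0 R)) →
      (∀ t ∈ ball (0 : ℂ) R, Span (w t)) → PV (fun t => L.G (ln x v t) (w t)))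
    (e : OpenPartialHomeomorph M (Fin n → ℂ)) (z v : Fin n → ℂ) (R : ℝ) (hR : 1 < R)
    (hD : Dk e z v R) {m : ℕ} (w : ℂ → Fin m → Fin s → ℂ)
    (hw : ∀ l i, DifferentiableOn ℂ (fun t => w t l i) (ball 0 R))
    (hs : ∀ t ∈ ball (0 : ℂ) R, Span (w t)) : PV (fun t => L.G (dk e z v t) (w t)) := by
  apply pv_local
  intro c hc
  obtain ⟨ρ, hρ, h1, h2, h3⟩ := recentre hD (ball_subset_ball hR.le hc)
  have hmaps : Set.MapsTo (fun τ : ℂ => c + (ρ : ℂ) * τ) (ball 0 2) (ball 0 R) := by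
    intro τ hτ
    rw [mem_ball_zero_iff] at hτ ⊢
    calc ‖c + (ρ : ℂ) * τ‖ ≤ ‖c‖ + ‖(ρ : ℂ) * τ‖ := norm_add_le _ _
      _ = ‖c‖ + ρ * ‖τ‖ := by rw [norm_mul, Complex.norm_real, Real.norm_of_nonneg hρ.le]
      _ < R := by nlinarith
  refine ⟨ρ, hρ, fun τ => L.G (ln (dk e z v c) ((ρ : ℂ) • v) τ) (w (c + (ρ : ℂ) * τ)),
    fun τ hτ => ?_, h _ _ 2 (by norm_num) h2 (fun τ => w (c + (ρ : ℂ) * τ)) (fun l i => ?_)
      (fun τ hτ => hs _ (hmaps hτ))⟩
  · simp only
    rw [h3 τ (ball_subset_ball (by norm_num) hτ)]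
  · exact (hw l i).comp (by fun_prop) hmaps

/-- closed discs in open sets are contained in larger open discs -/
theorem exists_larger {e : OpenPartialHomeomorph M (Fin n → ℂ)} (he : IsCh e) {z v : Fin n → ℂ}
    (h : ∀ t ∈ closedBall (0 : ℂ) 1, z + t • v ∈ e.target) : ∃ R > 1, Dk e z v R := by
  have hopen : IsOpen {t : ℂ | z + t • v ∈ e.target} :=
    e.open_target.preimage (by fun_prop)
  obtain ⟨δ, hδ, hsub⟩ := (isCompact_closedBall (0 : ℂ) 1).exists_thickening_subset_open hopen h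
  refine ⟨1 + δ, by linarith, he, fun t ht => ?_⟩
  apply hsub
  rw [thickening_closedBall hδ zero_le_one]
  rwa [add_comm]

/-- **LEMMA N**, output on discs in the form consumed by 739 (`GlobR_739.LineT`). -/
theorem lineT {h : MvPolynomial (Fin n) ℂ} (P : Prp h M) [PreconnectedSpace M]
    (hN : 2 ≤ N) (I : InpH (n := n) L k f) (J : InpG (n := n) L) : GlobR_739.LineT L.Phi := by
  intro e he z v hz
  obtain ⟨R, hR, hD⟩ := exists_larger he hz
  obtain ⟨T, h1, h2, h3⟩ := exists_transport P hN I J one_pos hR hD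
  refine ⟨T, h1, ?_, h3⟩
  exact (unit_of_frame (h2 0 (by simp))).ne_zero

end Crest.Agent.R276.LNj_999
end

-- ▼ part R276/LNj_333

/-!
# Row 276, LEMMA N (helper333), part j: the limit `ε → 0`, and `InpH`

* `lim` : field `lim` of `LNh_999.InpG`;
* `inpH` : `LNg_999.InpH` from `|f|² = DD^k` and (PVH).
-/

set_option autoImplicit false
set_option linter.unusedSectionVars false
set_option linter.unusedVariables false

open MeasureTheory Matrix Set Filter Topology Metric
open scoped ComplexConjugate ENNReal ComplexOrder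
open Real (circleAverage)

noncomputable section

namespace Crest.Agent.R276.LNj_333

open Crest.Agent.R276.LN_999 Crest.Agent.R276.LNb_333 Crest.Agent.R276.LNc_333
open Crest.Agent.R276.LNd_333 Crest.Agent.R276.LNe_333
open Crest.Agent.R276.Nc_999 (qf)
open Crest.Agent.R276.LNh_999 (wv span_wv)
open Crest.Agent.R276.LNg_999 (Span unit_of_frame)

section lim

variable {M Y : Type*} [TopologicalSpace M] [MeasurableSpace Y] {s N : ℕ}
variable (L : LN M Y s N)

lemma spn_of_span {m : ℕ} {w : Fin m → Fin s → ℂ} (h : Span w) : Spn w := h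

/-- the limit `ε → 0` -/
theorem lim (hN : 2 ≤ N) (a : Fin s → ℂ) (x : M) (T : Matrix (Fin s) (Fin s) ℂ)
    (hT : IsUnit T.det) :
    Tendsto (fun ε => qf (L.G x (wv ε a T)) (T *ᵥ a)) (𝓝[>] 0) (𝓝 (L.Phi x (T *ᵥ a))) := by
  set v : Fin s → ℂ := T *ᵥ a with hv
  have hPhi : L.Phi x v = ∫ y, ‖dt v (L.sg y)‖ ^ (2 / N : ℝ) ∂(L.μ x) := rfl
  rw [hPhi]
  have hev : ∀ᶠ ε : ℝ in 𝓝[>] 0, qf (L.G x (wv ε a T)) v =
      ∫ y, ‖dt v (L.sg y)‖ ^ 2 * wG N (wv ε a T) (L.sg y) ∂(L.μ x) := by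
    filter_upwards [self_mem_nhdsWithin] with ε hε
    exact qf_G L hN x (spn_of_span (span_wv (a := a) hε hT)) v
  refine Tendsto.congr' (EventuallyEq.symm hev) ?_
  refine tendsto_integral_filter_of_dominated_convergence
    (fun y => ‖dt v (L.sg y)‖ ^ (2 / N : ℝ)) ?_ ?_ (integrable_Phi L hN x v) ?_
  · filter_upwards [self_mem_nhdsWithin] with ε hε
    exact (integrable_sq (p_pos hN) (fam L hN x)
      (wt_G hN (spn_of_span (span_wv (a := a) hε hT))) v).aestronglyMeasurable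
  · filter_upwards [self_mem_nhdsWithin] with ε hε
    refine Eventually.of_forall fun y => ?_
    have h1 := sq_nonneg' (wt_G hN (spn_of_span (span_wv (a := a) hε hT))) v (L.sg y)
    rw [Real.norm_of_nonneg h1]
    exact pt_G_le hN (wv ε a T) 0 (L.sg y)
  · refine Eventually.of_forall fun y => ?_
    set t := L.sg y with ht
    by_cases h0 : dt v t = 0
    · simp only [h0, norm_zero]
      rw [Real.zero_rpow (p_pos hN).ne']
      simp
    have hn : 0 < ‖dt v t‖ := norm_pos_iff.mpr h0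
    set S : ℝ := ∑ k, ‖∑ i, T i k * t i‖ ^ 2 with hS
    have hw : ∀ ε : ℝ, 0 < ε → ∑ l, ‖dt (wv ε a T l) t‖ ^ 2 = ‖dt v t‖ ^ 2 + ε * S := by
      intro ε hε
      rw [Fin.sum_univ_succ]
      congr 1
      rw [hS, Finset.mul_sum]
      refine Finset.sum_congr rfl fun k _ => ?_
      have h1 : dt (wv ε a T k.succ) t = (Real.sqrt ε : ℂ) * ∑ i, T i k * t i := by
        unfold dt wv
        rw [Fin.cons_succ, Finset.mul_sum]
        exact Finset.sum_congr rfl fun i _ => by ring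
      rw [h1, norm_mul, mul_pow, Complex.norm_real, Real.norm_eq_abs, sq_abs, Real.sq_sqrt hε.le]
    have hlim : Tendsto (fun ε : ℝ => ‖dt v t‖ ^ 2 * (‖dt v t‖ ^ 2 + ε * S) ^ (-(1 - 1 / N : ℝ)))
        (𝓝[>] 0) (𝓝 (‖dt v t‖ ^ (2 / N : ℝ))) := by
      rw [← sq_mul_rpow hN hn]
      refine Tendsto.const_mul _ ?_
      have h1 : Tendsto (fun ε : ℝ => ‖dt v t‖ ^ 2 + ε * S) (𝓝[>] 0) (𝓝 (‖dt v t‖ ^ 2)) := by
        have h2 : Continuous fun ε : ℝ => ‖dt v t‖ ^ 2 + ε * S := by fun_prop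
        have h3 := (h2.tendsto 0).mono_left (nhdsWithin_le_nhds (s := Ioi (0 : ℝ)))
        simpa using h3
      exact h1.rpow_const (Or.inl (by positivity))
    refine Tendsto.congr' ?_ hlim
    filter_upwards [self_mem_nhdsWithin] with ε hε
    unfold wG
    rw [hw ε hε]

end lim

section inp

open Crest.Agent.R271.Ho51 Crest.Agent.R276.Liou_739 Crest.Agent.R276.Liou2_739
open Crest.Agent.R276.Fdc_999 (PV)
open Crest.Agent.R276.LNg_999 (Dsc Dk dk dk_cont dk_scale InpH exists_Dsc ln_scale one_ball)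

variable {n : ℕ} {M Y : Type*} [TopologicalSpace M] [RDom n M] [MeasurableSpace Y] {s N : ℕ}
variable (L : LN M Y s N)

/-- **`InpH`** -/
theorem inpH [PreconnectedSpace M] {h : MvPolynomial (Fin n) ℂ} (P : Prp h M) (hN : 2 ≤ N)
    (hs : 0 < s) {f : M → ℂ} (hf : Hol f) (hf0 : ∀ x, f x ≠ 0) {k : ℕ} (hk : 0 < k)
    (hfD : ∀ x, ‖f x‖ ^ 2 = L.DD x ^ k)
    (PVH : ∀ (x : M) (v : Fin n → ℂ) (R : ℝ), 1 < R → Dsc x v R → PV (fun t => L.H (ln x v t))) :
    InpH L k f where
  Hpos := H_posDef L hN hs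
  Hcont := H_cont L hN hs
  PVH := LNj_999.pvh_of_ch PVH
  k0 := hk
  hol := hf
  f0 := hf0
  det := by
    obtain ⟨c, hc, h1⟩ := det_const L P hN hs hf hf0 hk hfD fun x v => by
      obtain ⟨R, hR, hD⟩ := exists_Dsc x v
      filter_upwards [Ioo_mem_nhdsGT hR] with r hr
      have hD' : Dk (ch x) (cp x) ((r : ℂ) • v) (R / r) := hD.dk.scale hr.1
      have hR' : 1 < R / r := by
        rw [lt_div_iff₀ hr.1, one_mul]
        exact hr.2
      have hPV : PV (fun t => L.H (ln x ((r : ℂ) • v) t)) :=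
        PVH x ((r : ℂ) • v) (R / r) hR' hD'.mem
      have hHc : ContinuousOn (fun t => L.H (ln x ((r : ℂ) • v) t)) (closedBall 0 1) :=
        (H_cont L hN hs).comp_continuousOn ((dk_cont hD').mono (one_ball hR'))
      have hHp : ∀ t ∈ closedBall (0 : ℂ) 1, (L.H (ln x ((r : ℂ) • v) t)).PosDef :=
        fun t _ => H_posDef L hN hs _
      have h2 := Pvx_999.det_supermean hHc hHp (Pvx_999.ot_of_pv hHc hHp hPV)
      rw [ln_zero] at h2
      have h3 : circleAverage (fun t => Real.log (L.H (ln x v t)).det.re) 0 r =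
          circleAverage (fun z => Real.log (L.H (ln x ((r : ℂ) • v) z)).det.re) 0 1 := by
        rw [Real.circleAverage_eq_circleAverage_zero_one]
        congr 1
        funext z
        rw [← ln_scale]
        simp
      rw [h3]
      exact h2
    exact ⟨c, hc, h1⟩

end inp

end Crest.Agent.R276.LNj_333
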