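import Mathlib
import Crest.Agent.R276.Top8b_815
import Crest.Agent.R276.FinC_39
import Crest.Agent.R276.Top8f_815
import Crest.Agent.R276.IpcModel_244
import Crest.Agent.R276.SatC_210
import Crest.Agent.R276.GeoY_519
import Crest.Agent.R276.IpcRMdl_244
import Crest.Agent.R276.Fri2_348
import Crest.Agent.R276.RestrB_236
import Crest.Agent.R276.HomC_201
import Crest.Agent.R276.SatC2_886
import Crest.Agent.R276.RestrC_236
import Crest.Agent.R276.Geo3_519
import Crest.Agent.R276.Mod10_987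
import Crest.Agent.R276.IpcRz_840
import Crest.Agent.R276.SatI_152
import Crest.Agent.R276.IntH_448
import Crest.Agent.R276.ModPack_849
import Crest.Agent.R276.SkelGeo_220
import Crest.Agent.R276.LocH_454

-- ▼ part R276/FriA_39
section

/-!
# R276 leaf FRI, part A (helper39): finite rank of Hodge norms of holomorphic top sections

`V : VHS m X N w` (frozen interface `IpcDefs_735`), `v` a holomorphic section with values in the top
piece.  Then `u ↦ hnsq V u (v u)` is, in the coordinates of `X`, locally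
`∑ H i j * P i * conj (P j)` with analytic `P i` and constant `H` (`hnsq_local`).
For an open subset of `ℂ^s` this is `LocRank` (`locRank_of_section`).
-/

set_option autoImplicit false

noncomputable section

open Set Filter Topology MeasureTheory Matrix ComplexConjugate
open Crest.Agent.R271.Ho51 Crest.Agent.R276.Ipc735 Crest.Agent.R276.Top8_815
open Crest.Agent.R276.FinC_39
open scoped ENNReal

namespace Crest.Agent.R276.FriA_39

theorem aeval_mulVec_of_eig {N : ℕ} {E : Matrix (Fin N) (Fin N) ℂ} {c : ℂ} {v : Fin N → ℂ}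
    (h : E *ᵥ v = c • v) (q : Polynomial ℂ) :
    (Polynomial.aeval E q) *ᵥ v = (q.eval c) • v := by
  have hpow : ∀ n : ℕ, (E ^ n) *ᵥ v = c ^ n • v := by
    intro n
    induction n with
    | zero => simp
    | succ n ih =>
      rw [pow_succ', ← Matrix.mulVec_mulVec, ih, Matrix.mulVec_smul, h, smul_smul, pow_succ]
  induction q using Polynomial.induction_on' with
  | add p q hp hq =>
    rw [map_add, Matrix.add_mulVec, hp, hq, Polynomial.eval_add, add_smul]
  | monomial n a =>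
    rw [Polynomial.aeval_monomial, Polynomial.eval_monomial, ← Matrix.mulVec_mulVec, hpow,
      Matrix.mulVec_smul, Algebra.algebraMap_eq_smul_one, Matrix.smul_mulVec, Matrix.one_mulVec,
      smul_smul, mul_comm]

theorem hpr_mulVec_of_top {N w : ℕ} {E : Matrix (Fin N) (Fin N) ℂ} {v : Fin N → ℂ}
    (h : IsTop w E v) (p : ℕ) (hp : p ∈ Finset.range (w + 1)) :
    hpr w p E *ᵥ v = (if p = w then (1 : ℂ) else 0) • v := by
  unfold hpr
  rw [aeval_mulVec_of_eig h]
  congr 1
  have hinj : Set.InjOn (fun q : ℕ => (q : ℂ)) (Finset.range (w + 1) : Set ℕ) := by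
    intro a _ b _ hab
    exact Nat.cast_injective (R := ℂ) hab
  have hw : w ∈ Finset.range (w + 1) := by simp
  by_cases hpw : p = w
  · subst hpw
    rw [if_pos rfl]
    exact Lagrange.eval_basis_self hinj hp
  · rw [if_neg hpw]
    exact Lagrange.eval_basis_of_ne (v := fun q : ℕ => (q : ℂ)) hpw hw

theorem weil_mulVec_of_top {N w : ℕ} {E : Matrix (Fin N) (Fin N) ℂ} {v : Fin N → ℂ}
    (h : IsTop w E v) : weil w E *ᵥ v = (-1 : ℂ) ^ w • v := by
  unfold weil
  rw [Matrix.sum_mulVec]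
  rw [Finset.sum_eq_single w]
  · rw [Matrix.smul_mulVec, hpr_mulVec_of_top h w (by simp), if_pos rfl, one_smul]
  · intro p hp hpw
    rw [Matrix.smul_mulVec, hpr_mulVec_of_top h p hp, if_neg hpw, zero_smul, smul_zero]
  · intro hw
    simp at hw

variable {m : ℕ} {X : Type*} [TopologicalSpace X] [RDom m X] {N w : ℕ}

theorem hnsq_top (V : VHS m X N w) {u : X} {v : Fin N → ℂ} (h : IsTop w (V.E u) v) :
    (hnsq V u v : ℂ) = (-1 : ℂ) ^ w * (star v ⬝ᵥ V.S u *ᵥ v) := by
  have hreal : (star v ⬝ᵥ V.S u *ᵥ v).im = 0 := by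
    have hherm := (V.hs u).herm
    have h1 : star (star v ⬝ᵥ V.S u *ᵥ v) = star v ⬝ᵥ V.S u *ᵥ v := by
      conv_lhs => rw [Matrix.star_dotProduct, star_star, Matrix.star_mulVec, hherm.eq]
      rw [Matrix.dotProduct_mulVec]
    have h2 : conj (star v ⬝ᵥ V.S u *ᵥ v) = star v ⬝ᵥ V.S u *ᵥ v := h1
    exact Complex.conj_eq_iff_im.1 h2
  unfold hnsq hodge
  rw [← Matrix.mulVec_mulVec, weil_mulVec_of_top h, Matrix.mulVec_smul, dotProduct_smul,
    smul_eq_mul]
  set q := star v ⬝ᵥ V.S u *ᵥ v with hq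
  have hq' : q = (q.re : ℂ) := by
    apply Complex.ext <;> simp [hreal]
  have hs : ((-1 : ℂ) ^ w) = (((-1 : ℝ) ^ w : ℝ) : ℂ) := by push_cast; rfl
  rw [hs, hq', ← Complex.ofReal_mul, Complex.ofReal_re]

/-- The Hodge norm of a holomorphic top section in local flat coordinates. -/
theorem hnsq_local (V : VHS m X N w) (v : X → Fin N → ℂ) (u₀ : X)
    (htop : ∀ᶠ u in 𝓝 u₀, IsTop w (V.E u) (v u)) :
    ∀ᶠ u in 𝓝 u₀, (hnsq V u (v u) : ℂ) = ∑ i, ∑ j,
      ((-1 : ℂ) ^ w * V.S u₀ j i) * lV V.P v u₀ u i * conj (lV V.P v u₀ u j) := by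
  filter_upwards [htop, V.flatS u₀] with u hu hS
  rw [hnsq_top V hu]
  have h1 : star (v u) ⬝ᵥ V.S u *ᵥ v u =
      star (lV V.P v u₀ u) ⬝ᵥ V.S u₀ *ᵥ (lV V.P v u₀ u) := by
    rw [hS]
    unfold lV
    rw [Matrix.star_mulVec, ← Matrix.mulVec_mulVec, ← Matrix.mulVec_mulVec,
      Matrix.dotProduct_mulVec]
  rw [h1]
  set φ := lV V.P v u₀ u with hφ
  rw [dotProduct, Finset.sum_comm, Finset.mul_sum]
  refine Finset.sum_congr rfl fun j _ => ?_
  rw [Matrix.mulVec, dotProduct, Finset.mul_sum, Finset.mul_sum]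
  refine Finset.sum_congr rfl fun i _ => ?_
  have : star φ j = conj (φ j) := rfl
  rw [this]; ring

theorem hnsq_nonneg (V : VHS m X N w) {u : X} {v : Fin N → ℂ} (h : IsTop w (V.E u) v) :
    0 ≤ hnsq V u v := by
  have h1 := hnsq_top V h
  have h2 : hnsq V u v = (-1 : ℝ) ^ w * (star v ⬝ᵥ V.S u *ᵥ v).re := by
    have hs : ((-1 : ℂ) ^ w) = (((-1 : ℝ) ^ w : ℝ) : ℂ) := by push_cast; rfl
    have h3 := congrArg Complex.re h1
    rw [hs, Complex.re_ofReal_mul, Complex.ofReal_re] at h3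
    exact h3
  rw [h2]
  by_cases hv : v = 0
  · subst hv; simp
  · exact ((V.hs u).pos w v le_rfl hv h).le

section realisation

variable {d : ℕ} {Y : Type*} [TopologicalSpace Y]

/-- a function which is locally analytic in all coordinates is holomorphic on the fibres -/
theorem fH_of_PB (F : FSp m d X Y) {f : Y → ℂ} (hf : ∀ y, PB F.pc f y) (u : X) : F.FH u f := by
  intro y hy
  obtain ⟨g, hg, he⟩ := hf y
  refine ⟨fun t => g (cp u, t), ?_, ?_⟩
  · have h1 : F.pc y = (cp u, F.t y) := by rw [← hy]; rfl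
    rw [h1] at hg
    exact AnalyticAt.fun_comp (g := g) (f := fun t : Fin d → ℂ => ((cp u : Fin m → ℂ), t)) hg
      (analyticAt_const.prod analyticAt_id)
  · filter_upwards [he] with y' hy' hq
    rw [hy']
    change g (cp (F.q y'), F.t y') = _
    rw [hq]

/-- a holomorphic function with square integrable restrictions to the fibres is a holomorphic section
of the top piece -/
theorem exists_section {V : VHS m X N w} {F : FSp m d X Y} {ι : X → (Fin N → ℂ) → Y → ℂ}
    (hR : Rz V F ι) (f : Y → ℂ) (hf : ∀ y, PB F.pc f y) (hfin : ∀ u, F.fnorm u f < ∞) :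
    ∃ v : X → Fin N → ℂ, (∀ u, IsTop w (V.E u) (v u)) ∧ (∀ u, HolAt (lV V.P v u) u) ∧
      (∀ y, ι (F.q y) (v (F.q y)) y = f y) ∧
      ∀ u, hnsq V u (v u) = (F.fnorm u f).toReal := by
  choose v hv1 hv2 using fun u => hR.surj u f (fH_of_PB F hf u) (hfin u)
  have hι : ∀ y, ι (F.q y) (v (F.q y)) y = f y := fun y => hv2 _ y rfl
  refine ⟨v, hv1, fun u => ?_, hι, fun u => ?_⟩
  · refine hR.hol2 u v (Eventually.of_forall hv1) (Eventually.of_forall fun u' y _ => ?_)
    have : (fun y' => ι (F.q y') (v (F.q y')) y') = f := funext hι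
    rw [this]
    exact hf y
  · have h1 := hR.norm u (v u) (hv1 u)
    have h2 : F.fnorm u (ι u (v u)) = F.fnorm u f := by
      unfold FSp.fnorm FSp.fint
      refine lintegral_congr fun τ => tsum_congr fun y => ?_
      change ‖ι u (v u) y.1‖ₑ ^ 2 = ‖f y.1‖ₑ ^ 2
      rw [hv2 u y.1 y.2.1]
    rw [← h2, h1, ENNReal.toReal_ofReal (hnsq_nonneg V (hv1 u))]

end realisation

/-! ### open subsets of `ℂ^s` -/

section schlicht

variable {s : ℕ}




end schlicht

end Crest.Agent.R276.FriA_39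
end
end

-- ▼ part R276/AeAll_210
section

/-!
# Row 276 (S0419), leaf SAT (helper210), LEMMA AE-ALL

`V` a variation over `X` realised on `F : FSp n d X Y` (`Rz V F ι`), `f` a holomorphic function on `Y` whose
restriction to the fibre over `u` is square integrable for a dense set of `u`.  Then it is square integrable on
EVERY fibre and the norm is continuous.
-/

set_option autoImplicit false

noncomputable section

open Set Filter Topology MeasureTheory Matrix
open Crest.Agent.R271.Ho51 Crest.Agent.R276.Ipc735 Crest.Agent.R276.Top8_815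
open Crest.Agent.R276.FriA_39 (exists_section fH_of_PB hnsq_nonneg hnsq_local)
open scoped ENNReal ComplexConjugate

namespace Crest.Agent.R276.AeAll_210

/-- the evaluation point argument, dense version -/
theorem ep_dense {E Y : Type*} [TopologicalSpace E] [TopologicalSpace Y] {ρ : ℕ} {D : Set E}
    (hD : Dense D) {π : Y → E} (hπc : Continuous π) (hπ : IsOpenMap π) {f : Y → ℂ}
    (hf : Continuous f) {φ : Fin ρ → Y → ℂ} {σ : Fin ρ → E → Y} {U : Set E} (hU : IsOpen U)
    (hφ : ∀ k, ∀ y, π y ∈ U → ContinuousAt (φ k) y)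
    (hσ : ∀ j, ∀ x ∈ U, π (σ j x) = x) (hσc : ∀ j, ∀ x ∈ U, ContinuousAt (σ j) x)
    (hdet : ∀ x ∈ U, (evM φ σ x).det ≠ 0)
    (hde : ∀ x ∈ D, x ∈ U → ∃ c : Fin ρ → ℂ, ∀ y, π y = x → f y = ∑ k, c k * φ k y) :
    ∀ x ∈ U, ∀ y, π y = x → f y = ∑ k, evC f φ σ x k * φ k y := by
  have hcc : ∀ x ∈ U, ∀ k, ContinuousAt (fun x => evC f φ σ x k) x := fun x hx k =>
    (cl_continuousAt x).evC (hdet x hx)
      (fun j k => ContinuousAt.comp (g := φ k) (hφ k _ (by rw [hσ j x hx]; exact hx)) (hσc j x hx))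
      (fun j => ContinuousAt.comp (g := f) hf.continuousAt (hσc j x hx)) k
  let F : Y → ℂ := fun y => f y - ∑ k, evC f φ σ (π y) k * φ k y
  have hF : ContinuousOn F (π ⁻¹' U) := by
    intro y hy
    have h1 : ∀ k, ContinuousAt (fun y => evC f φ σ (π y) k) y := fun k =>
      ContinuousAt.comp (g := fun x => evC f φ σ x k) (hcc (π y) hy k) hπc.continuousAt
    have h2 : ContinuousAt F y := by
      refine hf.continuousAt.sub ?_
      refine tendsto_finsetSum _ fun k _ => ?_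
      exact (h1 k).mul (hφ k y hy)
    exact h2.continuousWithinAt
  let W : Set Y := π ⁻¹' U ∩ {y | F y ≠ 0}
  have hW : IsOpen W := hF.isOpen_inter_preimage (hU.preimage hπc) isOpen_ne
  have hpW : IsOpen (π '' W) := hπ _ hW
  have hempty : ¬ (π '' W).Nonempty := by
    intro hne
    obtain ⟨x, hx1, hx2⟩ := hD.inter_open_nonempty _ hpW hne
    obtain ⟨y, ⟨hyU, hyF⟩, rfl⟩ := hx1
    obtain ⟨c, hc⟩ := hde _ hx2 hyU
    apply hyF
    have h3 := evC_eq (hdet (π y) hyU) (fun j => hσ j (π y) hyU) hc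
    simp only [F]
    rw [h3, hc y rfl, sub_self]
  intro x hx y hy
  by_contra hne
  apply hempty
  refine ⟨π y, y, ⟨by simpa [hy] using hx, ?_⟩, rfl⟩
  intro h0
  apply hne
  simp only [F, hy] at h0
  exact sub_eq_zero.1 h0

variable {n d N w : ℕ} {X Y : Type*} [TopologicalSpace X] [RDom n X] [TopologicalSpace Y]
  {V : VHS n X N w} {F : FSp n d X Y} {ι : X → (Fin N → ℂ) → Y → ℂ}

lemma isOpenMap_q (F : FSp n d X Y) : IsOpenMap F.q :=
  isOpenMap_fst.comp F.lh.isOpenMap

/-- section over the base through a point -/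
lemma exists_bsec (F : FSp n d X Y) (y : Y) : ∃ σ : X → Y, σ (F.q y) = y ∧
    ∀ᶠ u in 𝓝 (F.q y), ContinuousAt σ u ∧ F.q (σ u) = u := by
  obtain ⟨σ, h1, h2⟩ := F.exists_sec y
  have hc : Continuous fun u : X => (u, F.t y) := Continuous.prodMk_left (F.t y)
  refine ⟨fun u => σ (u, F.t y), h1, ?_⟩
  filter_upwards [hc.continuousAt.eventually h2] with u hu
  exact ⟨ContinuousAt.comp (g := σ) hu.1 hc.continuousAt, hu.2.1⟩

lemma continuous_of_PB {f : Y → ℂ} (hf : ∀ y, PB F.pc f y) : Continuous f :=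
  continuous_iff_continuousAt.2 fun y => PB.continuousAt F.continuous_pc (hf y)

/-- **AE-ALL**, finiteness -/
theorem fnorm_lt_top (hR : Rz V F ι) {f : Y → ℂ} (hf : ∀ y, PB F.pc f y) {D : Set X}
    (hD : Dense D) (hfin : ∀ u ∈ D, F.fnorm u f < ∞) (u₀ : X) : F.fnorm u₀ f < ∞ := by
  classical
  obtain ⟨ρ, e, β, he, hev⟩ := exists_frame V u₀
  let φ : Fin ρ → Y → ℂ := fun k y' => ι (F.q y') (e k (F.q y')) y'
  have hpb : ∀ᶠ u in 𝓝 u₀, ∀ k, ∀ y, F.q y = u → PB F.pc (φ k) y :=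
    Filter.eventually_all.2 fun k => hR.frame_pb (he k) (hev.mono fun u h => h.1 k)
  -- linear independence on the fibre over `u₀`
  have hli : LinearIndependent ℂ (fun k => fun y : {y // F.q y = u₀} => φ k y.1) := by
    rw [Fintype.linearIndependent_iff]
    intro g hg k
    have ht := hev.self_of_nhds.1
    have h1 : ∀ y, F.q y = u₀ → ι u₀ (∑ k, g k • e k u₀) y = ι u₀ 0 y := by
      intro y hy
      rw [hR.sum _ _ (fun i _ => ht i) hy, hR.zero hy]
      have h2 := congrFun hg ⟨y, hy⟩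
      simp only [φ, Finset.sum_apply, Pi.smul_apply, smul_eq_mul, Pi.zero_apply, hy] at h2
      exact h2
    have h2 := hR.inj (isTop_sum _ fun i _ => isTop_smul _ (ht i)) isTop_zero h1
    have h3 := congrArg (fun v => β k (cm (V.P u₀ u₀) *ᵥ v)) h2
    simp only [mulVec_sum, mulVec_smul, map_sum, map_smul, hev.self_of_nhds.2.1, mulVec_zero,
      map_zero, smul_eq_mul, mul_ite, mul_one, mul_zero, Finset.sum_ite_eq', Finset.mem_univ,
      if_true] at h3
    exact h3
  obtain ⟨yj, hdet⟩ := exists_points _ hli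
  choose σ hσ0 hσe using fun j => exists_bsec F (yj j).1
  have hyj : ∀ j, F.q (yj j).1 = u₀ := fun j => (yj j).2
  have hσ0' : ∀ j, σ j u₀ = (yj j).1 := fun j =>
    (congrArg (σ j) (hyj j).symm).trans (hσ0 j)
  have hσe' : ∀ j, ∀ᶠ u in 𝓝 u₀, ContinuousAt (σ j) u ∧ F.q (σ j u) = u := by
    intro j
    have := hσe j
    rwa [hyj j] at this
  have hcφ : ∀ j k, ContinuousAt (fun x => φ k (σ j x)) u₀ := by
    intro j k
    have h1 : PB F.pc (φ k) (σ j u₀) :=
      hpb.self_of_nhds k _ (by rw [hσ0' j]; exact hyj j)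
    exact ContinuousAt.comp (g := φ k) (PB.continuousAt F.continuous_pc h1)
      (hσe' j).self_of_nhds.1
  have hdet0 : (evM φ σ u₀).det ≠ 0 := by
    have h1 : evM φ σ u₀ = Matrix.of fun j k => φ k (yj j).1 := by
      ext j k
      simp only [evM, Matrix.of_apply, hσ0']
    rw [h1]
    exact hdet
  have hdete : ∀ᶠ u in 𝓝 u₀, (evM φ σ u).det ≠ 0 :=
    ((cl_continuousAt u₀).det fun j k => hcφ j k).eventually_ne hdet0
  have hall : ∀ᶠ u in 𝓝 u₀, ((∀ k, IsTop w (V.E u) (e k u)) ∧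
      (∀ v, IsTop w (V.E u) v → v = ∑ k, β k (cm (V.P u₀ u) *ᵥ v) • e k u)) ∧
      (∀ k, ∀ y, F.q y = u → PB F.pc (φ k) y) ∧
      (∀ j, ContinuousAt (σ j) u ∧ F.q (σ j u) = u) ∧ (evM φ σ u).det ≠ 0 := by
    filter_upwards [hev, hpb, Filter.eventually_all.2 hσe', hdete] with u h1 h2 h3 h4
    exact ⟨⟨h1.1, h1.2.2⟩, h2, h3, h4⟩
  obtain ⟨U, hU, hUo, hU0⟩ := mem_nhds_iff.1 hall
  have key := ep_dense hD F.continuous_q (isOpenMap_q F) (continuous_of_PB hf) (φ := φ) (σ := σ)
    hUo ?_ ?_ ?_ ?_ ?_ u₀ hU0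
  · -- conclusion
    have ht := (hU hU0).1.1
    have h1 : ∀ y, F.q y = u₀ → f y = ι u₀ (∑ k, evC f φ σ u₀ k • e k u₀) y := by
      intro y hy
      rw [hR.sum _ _ (fun i _ => ht i) hy, key y hy]
      refine Finset.sum_congr rfl fun k _ => ?_
      simp only [φ, hy]
    rw [F.fnorm_congr h1, hR.norm _ _ (isTop_sum _ fun i _ => isTop_smul _ (ht i))]
    exact ENNReal.ofReal_lt_top
  · intro k y hy
    exact PB.continuousAt F.continuous_pc ((hU hy).2.1 k y rfl)
  · intro j x hx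
    exact ((hU hx).2.2.1 j).2
  · intro j x hx
    exact ((hU hx).2.2.1 j).1
  · intro x hx
    exact (hU hx).2.2.2
  · intro x hxD hxU
    obtain ⟨v, hv, hvy⟩ := hR.surj x f (fH_of_PB F hf x) (hfin x hxD)
    refine ⟨fun k => β k (cm (V.P u₀ x) *ᵥ v), fun y hy => ?_⟩
    rw [← hvy y hy]
    conv_lhs => rw [(hU hxU).1.2 v hv]
    rw [hR.sum _ _ (fun i _ => (hU hxU).1.1 i) hy]
    refine Finset.sum_congr rfl fun k _ => ?_
    simp only [φ, hy]

/-- the norm of a holomorphic function is continuous -/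
theorem continuous_fnorm (hR : Rz V F ι) {f : Y → ℂ} (hf : ∀ y, PB F.pc f y)
    (hfin : ∀ u, F.fnorm u f < ∞) : Continuous fun u => F.fnorm u f := by
  obtain ⟨v, hv1, hv2, -, hv4⟩ := exists_section hR f hf hfin
  have h1 : Continuous fun u => hnsq V u (v u) := by
    refine continuous_iff_continuousAt.2 fun u₀ => ?_
    have h2 := hnsq_local V v u₀ (Eventually.of_forall hv1)
    have h3 : ContinuousAt (lV V.P v u₀) u₀ := by
      obtain ⟨g, hg, h4⟩ := holAt_iff.1 (hv2 u₀)
      have h5 : ContinuousAt (fun u => g (cp u)) u₀ :=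
        ContinuousAt.comp (g := g) hg.continuousAt cp_cont.continuousAt
      exact h5.congr (h4.mono fun u hu => hu.symm)
    have h4 : ∀ i, ContinuousAt (fun u => lV V.P v u₀ u i) u₀ := fun i =>
      (continuous_apply i).continuousAt.comp h3
    have h5 : ContinuousAt (fun u => (hnsq V u (v u) : ℂ)) u₀ := by
      refine ContinuousAt.congr ?_ (h2.mono fun u hu => hu.symm)
      refine tendsto_finsetSum _ fun i _ => tendsto_finsetSum _ fun j _ => ?_
      exact (continuousAt_const.mul (h4 i)).mul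
        (Complex.continuous_conj.continuousAt.comp (h4 j))
    have h6 := Complex.continuous_re.continuousAt.comp h5
    exact h6
  have h2 : (fun u => F.fnorm u f) = fun u => ENNReal.ofReal (hnsq V u (v u)) := by
    funext u
    rw [hv4 u, ENNReal.ofReal_toReal (hfin u).ne]
  rw [h2]
  exact ENNReal.continuous_ofReal.comp h1

/-- **AE-ALL** -/
theorem ae_all (hR : Rz V F ι) {f : Y → ℂ} (hf : ∀ y, PB F.pc f y) {D : Set X}
    (hD : Dense D) (hfin : ∀ u ∈ D, F.fnorm u f < ∞) :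
    (∀ u, F.fnorm u f < ∞) ∧ Continuous fun u => F.fnorm u f :=
  ⟨fnorm_lt_top hR hf hD hfin, continuous_fnorm hR hf (fnorm_lt_top hR hf hD hfin)⟩

end Crest.Agent.R276.AeAll_210
end
end

-- ▼ part R276/SatE_210
section

/-!
# Row 276 (S0419), leaf SAT (helper210), part E: fibre integrals depending on parameters

`F : FSp n d X Y`, `A` a parameter space.
* `lsc_fint` : `(x, a) ↦ ∫_{F_x} G(y, a)` is lower semicontinuous for continuous `G ≥ 0`;
* `continuous_fint` : if `0 ≤ G ≤ D` and `(x, a) ↦ ∫_{F_x} D(y, a)` is finite and continuous, then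
  `(x, a) ↦ ∫_{F_x} G(y, a)` is finite and continuous.
-/

set_option autoImplicit false

noncomputable section

open Set Filter Topology MeasureTheory
open Crest.Agent.R271.Ho51 Crest.Agent.R276.Top8_815
open scoped ENNReal

namespace Crest.Agent.R276.SatE_210

/-- sums over the fibres of a local homeomorphism are lower semicontinuous -/
theorem lsc_tsum {Z Y : Type*} [TopologicalSpace Z] [TopologicalSpace Y] [T2Space Y] {π : Y → Z}
    (hπ : IsLocalHomeomorph π) {g : Y → ℝ≥0∞} (hg : Continuous g) :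
    LowerSemicontinuous fun z => ∑' y : {y : Y // π y = z}, g y.1 := by
  classical
  intro z₀ c hc
  change c < ∑' y : {y : Y // π y = z₀}, g y.1 at hc
  change ∀ᶠ z in 𝓝 z₀, c < ∑' y : {y : Y // π y = z}, g y.1
  rw [ENNReal.tsum_eq_iSup_sum, lt_iSup_iff] at hc
  obtain ⟨s, hs⟩ := hc
  choose e he hfe using fun y => hπ y
  have e1 : ∀ y : {y : Y // π y = z₀}, ∀ᶠ z in 𝓝 z₀, π ((e y.1).symm z) = z := by
    intro y
    have h1 : z₀ ∈ (e y.1).target := by
      have := (e y.1).map_source (he y.1)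
      rwa [← hfe, y.2] at this
    filter_upwards [(e y.1).open_target.mem_nhds h1] with z hz
    exact (congrFun (hfe y.1) _).trans ((e y.1).right_inv hz)
  have e0 : ∀ y : {y : Y // π y = z₀}, (e y.1).symm z₀ = y.1 := by
    intro y
    have h1 := (e y.1).left_inv (he y.1)
    rwa [← hfe, y.2] at h1
  have e2 : ∀ y : {y : Y // π y = z₀}, Tendsto (e y.1).symm (𝓝 z₀) (𝓝 y.1) := by
    intro y
    have h1 : z₀ ∈ (e y.1).target := by
      have := (e y.1).map_source (he y.1)
      rwa [← hfe, y.2] at this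
    have h2 := (e y.1).symm.continuousAt (x := z₀) h1
    rw [ContinuousAt, e0 y] at h2
    exact h2
  have e3 : ∀ᶠ z in 𝓝 z₀, ∀ y ∈ s, π ((e y.1).symm z) = z :=
    (Filter.eventually_all_finset s).2 fun y _ => e1 y
  have e4 : ∀ᶠ z in 𝓝 z₀, ∀ y ∈ s, ∀ y' ∈ s, y ≠ y' → (e y.1).symm z ≠ (e y'.1).symm z := by
    refine (Filter.eventually_all_finset s).2 fun y _ =>
      (Filter.eventually_all_finset s).2 fun y' _ => ?_
    by_cases hyy : y = y'
    · exact Filter.Eventually.of_forall fun τ h => absurd hyy h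
    · have hne : y.1 ≠ y'.1 := fun h => hyy (Subtype.ext h)
      obtain ⟨U, V, hU, hV, hyU, hyV, hUV⟩ := t2_separation hne
      filter_upwards [(e2 y).eventually (hU.mem_nhds hyU), (e2 y').eventually (hV.mem_nhds hyV)]
        with τ h1 h2 _ h3
      exact Set.disjoint_left.1 hUV h1 (h3 ▸ h2)
  have e5 : Tendsto (fun z => ∑ y ∈ s, g ((e y.1).symm z)) (𝓝 z₀) (𝓝 (∑ y ∈ s, g y.1)) :=
    tendsto_finsetSum _ fun y _ => hg.continuousAt.tendsto.comp (e2 y)
  filter_upwards [e3, e4, e5.eventually (lt_mem_nhds hs)] with z h3 h4 h5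
  refine lt_of_lt_of_le h5 ?_
  let j : {y // y ∈ s} → {y : Y // π y = z} := fun y => ⟨(e y.1.1).symm z, h3 y.1 y.2⟩
  have hj : Function.Injective j := by
    intro y y' h
    by_contra hne
    have hne' : y.1 ≠ y'.1 := fun h => hne (Subtype.ext h)
    exact h4 y.1 y.2 y'.1 y'.2 hne' (congrArg Subtype.val h)
  have h6 : ∑ y ∈ s, g ((e y.1).symm z) = ∑ w ∈ s.attach.map ⟨j, hj⟩, g w.1 := by
    rw [Finset.sum_map, ← Finset.sum_attach]
    rfl
  rw [h6]
  exact ENNReal.sum_le_tsum _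

/-- Fatou: integrals of lower semicontinuous functions are lower semicontinuous in the parameter -/
theorem lsc_lintegral {B : Type*} [TopologicalSpace B] [FirstCountableTopology B] {d : ℕ}
    {S : B × (Fin d → ℂ) → ℝ≥0∞} (hS : LowerSemicontinuous S) :
    LowerSemicontinuous fun b => ∫⁻ τ, S (b, τ) := by
  have hm : ∀ b, Measurable fun τ : Fin d → ℂ => S (b, τ) := fun b =>
    (LowerSemicontinuous.measurable (fun τ c hc => by
      have h1 := hS (b, τ) c hc
      have h2 : Tendsto (fun τ : Fin d → ℂ => (b, τ)) (𝓝 τ) (𝓝 (b, τ)) :=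
        (Continuous.prodMk_right b).continuousAt
      exact h2.eventually h1))
  intro b₀ c hc
  by_contra hcon
  have hcon' : ∃ᶠ b in 𝓝 b₀, ¬ c < ∫⁻ τ, S (b, τ) := Filter.not_eventually.mp hcon
  obtain ⟨b, hb, hbc⟩ := exists_seq_forall_of_frequently hcon'
  have h1 : ∫⁻ τ, liminf (fun n => S (b n, τ)) atTop ≤ c := by
    refine (lintegral_liminf_le fun n => hm (b n)).trans ?_
    refine Filter.liminf_le_of_frequently_le' (Filter.Frequently.of_forall fun n => ?_)
    exact not_lt.mp (hbc n)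
  have h2 : ∫⁻ τ, S (b₀, τ) ≤ ∫⁻ τ, liminf (fun n => S (b n, τ)) atTop := by
    refine lintegral_mono fun τ => ?_
    refine le_of_forall_lt fun c' hc' => ?_
    obtain ⟨c'', h3, h4⟩ := exists_between hc'
    have h5 := hS (b₀, τ) c'' h4
    have h6 : Tendsto (fun n => (b n, τ)) atTop (𝓝 (b₀, τ)) :=
      hb.prodMk_nhds tendsto_const_nhds
    refine lt_of_lt_of_le h3 ?_
    refine le_liminf_of_le (by isBoundedDefault) ?_
    exact (h6.eventually h5).mono fun n h => le_of_lt h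
  exact absurd hc (not_lt.mpr (h2.trans h1))

/-- `f + g` continuous and finite, `f`, `g` lower semicontinuous, then `f` is continuous -/
theorem continuous_of_add {B : Type*} [TopologicalSpace B] {f g G : B → ℝ≥0∞}
    (hf : LowerSemicontinuous f) (hg : LowerSemicontinuous g) (hG : Continuous G)
    (hfin : ∀ b, G b ≠ ∞) (h : ∀ b, f b + g b = G b) : Continuous f := by
  rw [continuous_iff_lower_upperSemicontinuous]
  refine ⟨hf, fun b c hc => ?_⟩
  have hgt : g b ≠ ∞ := by
    intro h0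
    apply hfin b
    rw [← h b, h0, add_top]
  have h1 : G b < c + g b := by
    rw [← h b]
    exact ENNReal.add_lt_add_right hgt hc
  obtain ⟨t, h2, h3⟩ := exists_between h1
  have h4 : LowerSemicontinuous fun b => c + g b := lowerSemicontinuous_const.add hg
  filter_upwards [h4 b t h3, hG.continuousAt.eventually (gt_mem_nhds h2)] with b' h5 h6
  have h7 : f b' + g b' < c + g b' := by
    rw [h b']
    exact h6.trans h5
  exact lt_of_add_lt_add_right h7

instance instFC {n : ℕ} {X : Type*} [TopologicalSpace X] [RDom n X] : FirstCountableTopology X := by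
  refine ⟨fun x => ?_⟩
  have h1 : 𝓝 x = Filter.map (ch x).symm (𝓝 (cp x)) := by
    have h2 := (ch x).symm.map_nhds_eq (x := cp x) (by simpa using (isCh_ch x).cp_mem (mem_ch x))
    rw [h2, (isCh_ch x).symm_cp (mem_ch x)]
  rw [h1]
  infer_instance

section fsp

variable {n d : ℕ} {X Y A : Type*} [TopologicalSpace X] [RDom n X] [TopologicalSpace Y]
  [T2Space Y] [TopologicalSpace A] [T2Space A] [FirstCountableTopology A] (F : FSp n d X Y)

/-- the fibration with parameters -/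
def pA (p : Y × A) : (X × A) × (Fin d → ℂ) := ((F.q p.1, p.2), F.t p.1)

omit [T2Space Y] [T2Space A] [FirstCountableTopology A] in
lemma lh_pA : IsLocalHomeomorph (pA (A := A) F) := by
  let c : (X × (Fin d → ℂ)) × A ≃ₜ (X × A) × (Fin d → ℂ) :=
    (Homeomorph.prodAssoc X (Fin d → ℂ) A).trans
      (((Homeomorph.refl X).prodCongr (Homeomorph.prodComm (Fin d → ℂ) A)).trans
        (Homeomorph.prodAssoc X A (Fin d → ℂ)).symm)
  exact c.isLocalHomeomorph.comp (IpcModel_244.lh_prod_id (Z := A) F.lh)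

/-- fibre sum with parameters -/
def fsA (G : Y × A → ℝ≥0∞) (p : (X × A) × (Fin d → ℂ)) : ℝ≥0∞ :=
  ∑' y : {y : Y // F.q y = p.1.1 ∧ F.t y = p.2}, G (y.1, p.1.2)

omit [FirstCountableTopology A] in
lemma lsc_fsA {G : Y × A → ℝ≥0∞} (hG : Continuous G) : LowerSemicontinuous (fsA F G) := by
  have h1 := lsc_tsum (lh_pA (A := A) F) hG
  have h2 : fsA F G = fun z => ∑' y : {y : Y × A // pA F y = z}, G y.1 := by
    funext z
    let e : {y : Y × A // pA F y = z} ≃ {y : Y // F.q y = z.1.1 ∧ F.t y = z.2} :=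
      { toFun := fun y => ⟨y.1.1, by
          have := y.2
          simp only [pA, Prod.ext_iff] at this
          exact ⟨this.1.1, this.2⟩⟩
        invFun := fun y => ⟨(y.1, z.1.2), by
          simp only [pA, y.2.1, y.2.2]⟩
        left_inv := fun y => by
          have := y.2
          simp only [pA, Prod.ext_iff] at this
          apply Subtype.ext
          exact Prod.ext rfl this.1.2.symm
        right_inv := fun y => rfl }
    rw [← e.symm.tsum_eq (fun y : {y : Y × A // pA F y = z} => G y.1)]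
    rfl
  rw [h2]
  exact h1

omit [T2Space Y] [TopologicalSpace A] [T2Space A] [FirstCountableTopology A] in
lemma fint_eq_fsA (G : Y × A → ℝ≥0∞) (p : X × A) :
    F.fint p.1 (fun y => G (y, p.2)) = ∫⁻ τ, fsA F G (p, τ) := rfl

/-- fibre integrals are lower semicontinuous -/
theorem lsc_fint {G : Y × A → ℝ≥0∞} (hG : Continuous G) :
    LowerSemicontinuous fun p : X × A => F.fint p.1 (fun y => G (y, p.2)) :=
  lsc_lintegral (lsc_fsA F hG)

/-- **dominated convergence** for fibre integrals -/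
theorem continuous_fint {G D : Y × A → ℝ} (hG : Continuous G) (hD : Continuous D)
    (h0 : ∀ p, 0 ≤ G p) (hGD : ∀ p, G p ≤ D p)
    (hfin : ∀ p : X × A, F.fint p.1 (fun y => ENNReal.ofReal (D (y, p.2))) ≠ ∞)
    (hcont : Continuous fun p : X × A => F.fint p.1 (fun y => ENNReal.ofReal (D (y, p.2)))) :
    (∀ p : X × A, F.fint p.1 (fun y => ENNReal.ofReal (G (y, p.2))) ≠ ∞) ∧
      Continuous fun p : X × A => F.fint p.1 (fun y => ENNReal.ofReal (G (y, p.2))) := by
  have hG' : Continuous fun p : Y × A => ENNReal.ofReal (G p) := ENNReal.continuous_ofReal.comp hG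
  have hE' : Continuous fun p : Y × A => ENNReal.ofReal (D p - G p) :=
    ENNReal.continuous_ofReal.comp (hD.sub hG)
  have hadd : ∀ p : X × A, F.fint p.1 (fun y => ENNReal.ofReal (G (y, p.2))) +
      F.fint p.1 (fun y => ENNReal.ofReal (D (y, p.2) - G (y, p.2))) =
      F.fint p.1 (fun y => ENNReal.ofReal (D (y, p.2))) := by
    intro p
    have hm : Measurable fun τ => fsA F (fun p => ENNReal.ofReal (G p)) (p, τ) :=
      (LowerSemicontinuous.measurable (fun τ c hc => by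
        have h1 := lsc_fsA F hG' (p, τ) c hc
        have h2 : Tendsto (fun τ : Fin d → ℂ => (p, τ)) (𝓝 τ) (𝓝 (p, τ)) :=
          (Continuous.prodMk_right p).continuousAt
        exact h2.eventually h1))
    rw [fint_eq_fsA F (fun p => ENNReal.ofReal (G p)) p,
      fint_eq_fsA F (fun p => ENNReal.ofReal (D p - G p)) p,
      fint_eq_fsA F (fun p => ENNReal.ofReal (D p)) p, ← lintegral_add_left hm]
    refine lintegral_congr fun τ => ?_
    unfold fsA
    rw [← ENNReal.tsum_add]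
    refine tsum_congr fun y => ?_
    rw [← ENNReal.ofReal_add (h0 _) (sub_nonneg.2 (hGD _))]
    congr 1
    ring
  refine ⟨fun p h => hfin p ?_, ?_⟩
  · rw [← hadd p, h, _root_.top_add]
  · exact continuous_of_add (lsc_fint F hG') (lsc_fint F hE') hcont hfin hadd

end fsp

end Crest.Agent.R276.SatE_210
end
end

-- ▼ part R276/SatF_210
section

/-!
# Row 276 (S0419), leaf SAT (helper210), part F: root covers of relative models

`R : RMdl L K m r`, `δ ∈ B_K` without zeros on `M_K`, `N ≠ 0`.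
* `FR` : the root cover `η^N = δ` as a space fibred over `M_L`;
* `fv v = v / η^(N-1)`, `pb_fv`, `fnorm_fv` : `‖v/η^(N-1)‖² = N ∫_{fibre} |v|² |δ|^(-2(N-1)/N)`;
* `fin_cont_w` : if a variation is realised on the root cover and the integral is finite for a dense set of
  base points, then it is finite and continuous everywhere;
* `fin_cont_phi` : then `Φ(w, a) = ∫_{fibre} |∑ aᵢ uᵢ|^(2/N)` is finite and continuous on `M_L × ℂ^s`.
-/

set_option autoImplicit false
set_option linter.unusedSectionVars false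

noncomputable section

open Set Filter Topology MeasureTheory
open Crest.Agent.R271.Ho51 Crest.Agent.R276.Ipc735 Crest.Agent.R276.Top8_815
open Crest.Agent.R276.Mod1_987 Crest.Agent.R271.Rd692 Crest.Agent.R276.IpcRMdl_244
open Crest.Agent.R276.Rc_348 Crest.Agent.R276.GeoY_519
open scoped ENNReal

namespace Crest.Agent.R276.SatF_210

variable {L K : Type} [Field L] [Field K] [Algebra ℂ L] [Algebra ℂ K] [Algebra L K]
  [IsScalarTower ℂ L K] {m r : ℕ} {R : RMdl L K m r}

/-- elements of `B_K` are analytic in the coordinates -/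
lemma pb_ev (b : R.MK.B) (y : R.MK.Pts) : PB (fF R).pc (fun y' => y' b) y := by
  obtain ⟨G, hG1, hG2⟩ := Fri2_348.analytic_local R.MK b y
  have happ : ∀ y' : R.MK.Pts, R.MK.pz y' =
      Fin.append ((fF R).pc y').1 ((fF R).pc y').2 := by
    intro y'
    exact (R.append_eq y').symm
  refine ⟨fun z => G (Fin.append z.1 z.2), ?_, ?_⟩
  · have h1 : AnalyticAt ℂ (fun z : (Fin m → ℂ) × (Fin r → ℂ) =>
        (Fin.append z.1 z.2 : Fin (m + r) → ℂ)) ((fF R).pc y) := by
      rw [analyticAt_pi_iff]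
      intro i
      refine Fin.addCases (fun i => ?_) (fun j => ?_) i
      · simp only [Fin.append_left]
        exact ((ContinuousLinearMap.proj (R := ℂ) (φ := fun _ : Fin m => ℂ) i).comp
          (ContinuousLinearMap.fst ℂ (Fin m → ℂ) (Fin r → ℂ))).analyticAt _
      · simp only [Fin.append_right]
        exact ((ContinuousLinearMap.proj (R := ℂ) (φ := fun _ : Fin r => ℂ) j).comp
          (ContinuousLinearMap.snd ℂ (Fin m → ℂ) (Fin r → ℂ))).analyticAt _
    rw [happ] at hG1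
    exact AnalyticAt.comp (g := G) (f := fun z : (Fin m → ℂ) × (Fin r → ℂ) =>
        (Fin.append z.1 z.2 : Fin (m + r) → ℂ)) hG1 h1
  · filter_upwards [hG2] with y' hy'
    rw [hy', happ]

section root

variable {δ : R.MK.B} {N : ℕ}

/-- evaluation -/
abbrev dl (δ : R.MK.B) : R.MK.Pts → ℂ := fun y => y δ

/-- the root cover `η^N = δ` -/
abbrev YR (δ : R.MK.B) (N : ℕ) : Type := RC (dl δ) N

/-- the root cover, fibred over `M_L` -/
def FR (hδ : ∀ y : R.MK.Pts, y δ ≠ 0) (hN : N ≠ 0) : FSp m r R.ML.Pts (YR δ N) :=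
  RF (fF R) hN (continuous_ev δ) hδ

/-- `v / η^(N-1)` -/
def fv (v : R.MK.B) (q : YR δ N) : ℂ := q.pr v * (q.rt ^ (N - 1))⁻¹

lemma pb_fv (hδ : ∀ y : R.MK.Pts, y δ ≠ 0) (hN : N ≠ 0) (v : R.MK.B) (q : YR δ N) :
    PB (FR hδ hN).pc (fv v) q := by
  obtain ⟨G, hG1, hG2⟩ := pb_ev v q.pr
  obtain ⟨A, hA1, hA2⟩ := pb_ev δ q.pr
  have hpc : ∀ q' : YR δ N, (FR hδ hN).pc q' = (fF R).pc q'.pr := fun q' => rfl
  have hc : Tendsto (fun q' : YR δ N => q'.pr) (𝓝 q) (𝓝 q.pr) :=
    RC.continuous_pr.tendsto q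
  have h1 := hc.eventually hG2
  have h2 := hc.eventually hA2
  have h3 := RC.eventually_eq hN (continuous_ev δ) q (hδ q.pr)
  have hA3 : A ((fF R).pc q.pr) = dl δ q.pr := (hA2.self_of_nhds).symm
  have hL : AnalyticAt ℂ (fun z => lroot N q.rt (dl δ q.pr) (A z)) ((FR hδ hN).pc q) := by
    have h4 : AnalyticAt ℂ (lroot N q.rt (dl δ q.pr)) (A ((fF R).pc q.pr)) := by
      refine lroot_analyticAt (hδ _) ?_
      rw [hA3, div_self (hδ _)]
      exact Complex.one_mem_slitPlane
    exact AnalyticAt.comp (g := lroot N q.rt (dl δ q.pr)) (f := A) h4 hA1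
  refine ⟨fun z => G z * (lroot N q.rt (dl δ q.pr) (A z) ^ (N - 1))⁻¹, ?_, ?_⟩
  · refine AnalyticAt.mul hG1 (AnalyticAt.inv (hL.pow _) ?_)
    rw [hpc, hA3, lroot_self (hδ _)]
    exact pow_ne_zero _ (q.rt_ne hN (hδ _))
  · filter_upwards [h1, h2, h3] with q' h1 h2 h3
    rw [hpc, ← h2, fv, h1, h3]

/-- the integrand on the base -/
def wt (N : ℕ) (δ v : R.MK.B) (y : R.MK.Pts) : ℝ :=
  ‖y v‖ ^ 2 * ‖y δ‖ ^ (-(2 * (((N : ℝ) - 1) / N)))

lemma wt_nonneg (N : ℕ) (δ v : R.MK.B) (y : R.MK.Pts) : 0 ≤ wt N δ v y := by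
  unfold wt
  positivity

lemma continuous_wt (hδ : ∀ y : R.MK.Pts, y δ ≠ 0) (v : R.MK.B) : Continuous (wt N δ v) := by
  unfold wt
  refine ((continuous_ev v).norm.pow 2).mul ?_
  exact (continuous_ev δ).norm.rpow_const fun y => Or.inl (norm_ne_zero_iff.2 (hδ y))

lemma norm_fv (hN : N ≠ 0) (v : R.MK.B) (q : YR δ N) : ‖fv v q‖ ^ 2 = wt N δ v q.pr := by
  have h1 : ‖q.pr δ‖ = ‖q.rt‖ ^ N := by
    rw [← norm_pow, q.rt_pow]
  have hN' : (N : ℝ) ≠ 0 := by exact_mod_cast hN
  unfold fv wt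
  rw [norm_mul, norm_inv, norm_pow, mul_pow, h1, ← Real.rpow_natCast ‖q.rt‖ N,
    ← Real.rpow_mul (norm_nonneg _)]
  congr 1
  rw [inv_pow, ← pow_mul, ← Real.rpow_natCast, ← Real.rpow_neg (norm_nonneg _)]
  congr 1
  have h2 : ((N - 1 : ℕ) : ℝ) = (N : ℝ) - 1 := by
    rw [Nat.cast_sub (Nat.one_le_iff_ne_zero.2 hN), Nat.cast_one]
  push_cast
  rw [h2]
  field_simp

/-- the norm of `v / η^(N-1)` -/
theorem fnorm_fv (hδ : ∀ y : R.MK.Pts, y δ ≠ 0) (hN : N ≠ 0) (v : R.MK.B) (w : R.ML.Pts) :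
    (FR hδ hN).fnorm w (fv v) = N * (fF R).fint w (fun y => ENNReal.ofReal (wt N δ v y)) := by
  classical
  unfold FSp.fnorm FSp.fint
  have h1 : ∀ τ : Fin r → ℂ, (∑' y : {y : YR δ N // (FR hδ hN).q y = w ∧ (FR hδ hN).t y = τ},
      ‖fv v y.1‖ₑ ^ 2) =
      N * ∑' y : {y : R.MK.Pts // (fF R).q y = w ∧ (fF R).t y = τ},
        ENNReal.ofReal (wt N δ v y.1) := by
    intro τ
    let e : {y : YR δ N // (FR hδ hN).q y = w ∧ (FR hδ hN).t y = τ} ≃
        Σ y : {y : R.MK.Pts // (fF R).q y = w ∧ (fF R).t y = τ}, {η : ℂ // η ^ N = y.1 δ} :=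
      { toFun := fun q => ⟨⟨q.1.pr, q.2⟩, ⟨q.1.rt, q.1.rt_pow⟩⟩
        invFun := fun p => ⟨RC.mk p.1.1 p.2.1 p.2.2, p.1.2⟩
        left_inv := fun q => rfl
        right_inv := fun p => rfl }
    have h2 : ∀ q : {y : YR δ N // (FR hδ hN).q y = w ∧ (FR hδ hN).t y = τ},
        ‖fv v q.1‖ₑ ^ 2 = ENNReal.ofReal (wt N δ v (e q).1.1) := by
      intro q
      change _ = ENNReal.ofReal (wt N δ v q.1.pr)
      rw [← norm_fv hN v q.1, ← ofReal_norm, ENNReal.ofReal_pow (norm_nonneg _)]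
    rw [tsum_congr h2, e.tsum_eq (fun p : Σ y : {y : R.MK.Pts // (fF R).q y = w ∧
      (fF R).t y = τ}, {η : ℂ // η ^ N = y.1 δ} => ENNReal.ofReal (wt N δ v p.1.1)),
      ENNReal.tsum_sigma', ← ENNReal.tsum_mul_left]
    refine tsum_congr fun y => ?_
    have hcard := card_roots hN (hδ y.1)
    have hfin : Finite {η : ℂ // η ^ N = y.1 δ} := by
      apply Nat.finite_of_card_ne_zero
      rw [hcard]; exact hN
    have := Fintype.ofFinite {η : ℂ // η ^ N = y.1 δ}
    change ∑' _ : {η : ℂ // η ^ N = y.1 δ}, ENNReal.ofReal (wt N δ v y.1) = _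
    rw [tsum_fintype, Finset.sum_const, Finset.card_univ, ← Nat.card_eq_fintype_card, hcard,
      nsmul_eq_mul]
  simp_rw [h1]
  exact lintegral_const_mul' _ _ (ENNReal.natCast_ne_top N)

/-- **finiteness and continuity from the realisation** -/
theorem fin_cont_w (hδ : ∀ y : R.MK.Pts, y δ ≠ 0) (hN : N ≠ 0) {N' w' : ℕ}
    {W : VHS m R.ML.Pts N' w'} {ι : R.ML.Pts → (Fin N' → ℂ) → YR δ N → ℂ}
    (hR : Rz W (FR hδ hN) ι) (v : R.MK.B) {D : Set R.ML.Pts} (hD : Dense D)
    (hfin : ∀ w ∈ D, (fF R).fint w (fun y => ENNReal.ofReal (wt N δ v y)) ≠ ∞) :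
    (∀ w, (fF R).fint w (fun y => ENNReal.ofReal (wt N δ v y)) ≠ ∞) ∧
      Continuous fun w => (fF R).fint w (fun y => ENNReal.ofReal (wt N δ v y)) := by
  have hN0 : (N : ℝ≥0∞) ≠ 0 := by exact_mod_cast hN
  obtain ⟨h1, h2⟩ := AeAll_210.ae_all hR (f := fv v) (pb_fv hδ hN v) hD (fun w hw => by
    rw [fnorm_fv]
    exact ENNReal.mul_lt_top (ENNReal.natCast_lt_top N) (lt_top_iff_ne_top.2 (hfin w hw)))
  simp only [fnorm_fv] at h1 h2
  refine ⟨fun w hw => ?_, ?_⟩
  · have h3 := h1 w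
    rw [hw, ENNReal.mul_top hN0] at h3
    exact lt_irrefl _ h3
  · have h3 : (fun w => (fF R).fint w (fun y => ENNReal.ofReal (wt N δ v y))) =
        fun w => (N : ℝ≥0∞)⁻¹ * (N * (fF R).fint w (fun y => ENNReal.ofReal (wt N δ v y))) := by
      funext w
      rw [← mul_assoc, ENNReal.inv_mul_cancel hN0 (ENNReal.natCast_ne_top N), one_mul]
    rw [h3]
    exact (ENNReal.continuous_const_mul (ENNReal.inv_ne_top.2 hN0)).comp h2

end root

/-! ### domination -/

section dom

variable {s : ℕ} (u : Fin s → R.MK.B) {N : ℕ}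

/-- `∑ |c_i|²` -/
def sqn {s : ℕ} (c : Fin s → ℂ) : ℝ := ∑ i, ‖c i‖ ^ 2

lemma sqn_nonneg {s : ℕ} (c : Fin s → ℂ) : 0 ≤ sqn c := Finset.sum_nonneg fun i _ => by positivity

lemma continuous_sqn {s : ℕ} : Continuous (sqn (s := s)) :=
  continuous_finsetSum _ fun i _ => (continuous_apply i).norm.pow 2

/-- the combination -/
def cmb (c : Fin s → ℂ) (y : R.MK.Pts) : ℂ := ∑ i, c i * y (u i)

lemma cmb_sq_le (c : Fin s → ℂ) (y : R.MK.Pts) :
    ‖cmb u c y‖ ^ 2 ≤ sqn c * ∑ i, ‖y (u i)‖ ^ 2 := by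
  have h1 : ‖cmb u c y‖ ≤ ∑ i, ‖c i‖ * ‖y (u i)‖ := by
    refine (norm_sum_le _ _).trans (le_of_eq ?_)
    exact Finset.sum_congr rfl fun i _ => norm_mul _ _
  calc ‖cmb u c y‖ ^ 2 ≤ (∑ i, ‖c i‖ * ‖y (u i)‖) ^ 2 := by gcongr
    _ ≤ _ := Finset.sum_mul_sq_le_sq_mul_sq _ _ _

lemma continuous_cmb : Continuous fun p : R.MK.Pts × (Fin s → ℂ) => cmb u p.2 p.1 := by
  unfold cmb
  refine continuous_finsetSum _ fun i _ => ?_
  exact ((continuous_apply i).comp continuous_snd).mul ((continuous_ev (u i)).comp continuous_fst)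

/-- pointwise domination -/
lemma pt_le {N : ℕ} (hN : N ≠ 0) {x d : ℝ} (hx : 0 ≤ x) (hd : 0 < d) :
    x ^ (2 / (N : ℝ)) ≤ (x ^ 2 + d ^ 2) * d ^ (-(2 * (((N : ℝ) - 1) / N))) := by
  have hN' : (N : ℝ) ≠ 0 := by exact_mod_cast hN
  have hN1 : (1 : ℝ) ≤ N := by exact_mod_cast Nat.one_le_iff_ne_zero.2 hN
  have hα : 0 ≤ 2 * (((N : ℝ) - 1) / N) := by
    have : 0 ≤ ((N : ℝ) - 1) / N := div_nonneg (by linarith) (by linarith)
    linarith
  have hdp : 0 < d ^ (-(2 * (((N : ℝ) - 1) / N))) := Real.rpow_pos_of_pos hd _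
  have key : ∀ t : ℝ, 0 < t → t ^ (2 / (N : ℝ)) = t ^ 2 * t ^ (-(2 * (((N : ℝ) - 1) / N))) := by
    intro t ht
    rw [← Real.rpow_natCast t 2, ← Real.rpow_add ht]
    congr 1
    push_cast
    field_simp
    ring
  rcases le_total x d with h | h
  · calc x ^ (2 / (N : ℝ)) ≤ d ^ (2 / (N : ℝ)) := Real.rpow_le_rpow hx h (by positivity)
      _ = d ^ 2 * d ^ (-(2 * (((N : ℝ) - 1) / N))) := key d hd
      _ ≤ _ := by
        refine mul_le_mul_of_nonneg_right ?_ hdp.le
        nlinarith [sq_nonneg x]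
  · have hx' : 0 < x := hd.trans_le h
    calc x ^ (2 / (N : ℝ)) = x ^ 2 * x ^ (-(2 * (((N : ℝ) - 1) / N))) := key x hx'
      _ ≤ x ^ 2 * d ^ (-(2 * (((N : ℝ) - 1) / N))) := by
        refine mul_le_mul_of_nonneg_left ?_ (by positivity)
        exact Real.rpow_le_rpow_of_nonpos hd h (by linarith)
      _ ≤ _ := by
        refine mul_le_mul_of_nonneg_right ?_ hdp.le
        nlinarith [sq_nonneg d]

/-- **finiteness and continuity of `Φ`** -/
theorem fin_cont_phi {δ : R.MK.B} (hδ : ∀ y : R.MK.Pts, y δ ≠ 0) (hN : N ≠ 0) (c : Fin s → ℂ)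
    (hc : ∀ y : R.MK.Pts, y δ = cmb u c y)
    (hfin : ∀ k w, (fF R).fint w (fun y => ENNReal.ofReal (wt N δ (u k) y)) ≠ ∞)
    (hcont : ∀ k, Continuous fun w => (fF R).fint w (fun y => ENNReal.ofReal (wt N δ (u k) y))) :
    (∀ w (a : Fin s → ℂ), (fF R).fint w
      (fun y => ENNReal.ofReal (‖cmb u a y‖ ^ (2 / (N : ℝ)))) ≠ ∞) ∧
    Continuous fun p : R.ML.Pts × (Fin s → ℂ) => (fF R).fint p.1
      (fun y => ENNReal.ofReal (‖cmb u p.2 y‖ ^ (2 / (N : ℝ)))) := by
  have hNr : 0 < 2 / (N : ℝ) := by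
    have : (0 : ℝ) < N := by exact_mod_cast Nat.pos_of_ne_zero hN
    positivity
  let G : R.MK.Pts × (Fin s → ℂ) → ℝ := fun p => ‖cmb u p.2 p.1‖ ^ (2 / (N : ℝ))
  let D : R.MK.Pts × (Fin s → ℂ) → ℝ := fun p => (sqn p.2 + sqn c) * ∑ k, wt N δ (u k) p.1
  have hG : Continuous G := (continuous_cmb u).norm.rpow_const fun _ => Or.inr hNr.le
  have hD : Continuous D := by
    refine ((continuous_sqn.comp continuous_snd).add continuous_const).mul ?_
    exact continuous_finsetSum _ fun k _ => (continuous_wt hδ (u k)).comp continuous_fst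
  have hGD : ∀ p, G p ≤ D p := by
    rintro ⟨y, a⟩
    have h1 := pt_le hN (norm_nonneg (cmb u a y)) (norm_pos_iff.2 (hδ y))
    refine h1.trans ?_
    have h2 : (∑ k, wt N δ (u k) y) =
        (∑ k, ‖y (u k)‖ ^ 2) * ‖y δ‖ ^ (-(2 * (((N : ℝ) - 1) / N))) := by
      rw [Finset.sum_mul]
      rfl
    change _ ≤ (sqn a + sqn c) * ∑ k, wt N δ (u k) y
    rw [h2, ← mul_assoc]
    refine mul_le_mul_of_nonneg_right ?_ (by positivity)
    rw [add_mul]
    refine add_le_add (cmb_sq_le u a y) ?_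
    rw [hc y]
    exact cmb_sq_le u c y
  -- the integral of the bound
  have hsum : ∀ w, (fF R).fint w (fun y => ∑ k, ENNReal.ofReal (wt N δ (u k) y)) =
      ∑ k, (fF R).fint w (fun y => ENNReal.ofReal (wt N δ (u k) y)) := by
    intro w
    obtain ⟨μ, hμ⟩ := exists_leb (M := R.Fib w)
    have hm : ∀ k, Measurable fun y : R.MK.Pts => ENNReal.ofReal (wt N δ (u k) y) := fun k =>
      (ENNReal.continuous_ofReal.comp (continuous_wt hδ (u k))).measurable
    change R.fint w (fun y => ∑ k, ENNReal.ofReal (wt N δ (u k) y)) =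
      ∑ k, R.fint w (fun y => ENNReal.ofReal (wt N δ (u k) y))
    have hm' : ∀ k ∈ (Finset.univ : Finset (Fin s)), Measurable fun y : R.Fib w =>
        ENNReal.ofReal (wt N δ (u k) (RMdl.Fib.val R y)) := fun k _ =>
      (hm k).comp (RMdl.Fib.continuous_val w).measurable
    rw [R.fint_eq hμ (Finset.measurable_fun_sum _ fun k _ => hm k),
      lintegral_finsetSum _ hm']
    exact Finset.sum_congr rfl fun k _ => (R.fint_eq hμ (hm k)).symm
  have hDi : ∀ p : R.ML.Pts × (Fin s → ℂ), (fF R).fint p.1 (fun y => ENNReal.ofReal (D (y, p.2))) =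
      ENNReal.ofReal (sqn p.2 + sqn c) *
        ∑ k, (fF R).fint p.1 (fun y => ENNReal.ofReal (wt N δ (u k) y)) := by
    intro p
    rw [← hsum]
    have h1 : (fun y => ENNReal.ofReal (D (y, p.2))) = fun y : R.MK.Pts =>
        ENNReal.ofReal (sqn p.2 + sqn c) * ∑ k, ENNReal.ofReal (wt N δ (u k) y) := by
      funext y
      rw [← ENNReal.ofReal_sum_of_nonneg fun k _ => wt_nonneg N δ (u k) y,
        ← ENNReal.ofReal_mul (add_nonneg (sqn_nonneg _) (sqn_nonneg _))]
    rw [h1]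
    unfold FSp.fint
    rw [← lintegral_const_mul' _ _ ENNReal.ofReal_ne_top]
    refine lintegral_congr fun τ => ?_
    rw [ENNReal.tsum_mul_left]
  have hS : Continuous fun w => ∑ k, (fF R).fint w (fun y => ENNReal.ofReal (wt N δ (u k) y)) :=
    continuous_finsetSum _ fun k _ => hcont k
  have hSf : ∀ w, (∑ k, (fF R).fint w (fun y => ENNReal.ofReal (wt N δ (u k) y))) ≠ ∞ := fun w =>
    ENNReal.sum_ne_top.2 fun k _ => hfin k w
  have key := SatE_210.continuous_fint (fF R) hG hD (fun p => by positivity) hGD (fun p => ?_) ?_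
  · exact ⟨fun w a => key.1 (w, a), key.2⟩
  · rw [hDi]
    exact ENNReal.mul_ne_top ENNReal.ofReal_ne_top (hSf _)
  · simp_rw [hDi]
    refine continuous_iff_continuousAt.2 fun p => ?_
    refine ENNReal.Tendsto.mul ?_ (Or.inr (hSf p.1)) ?_ (Or.inr ENNReal.ofReal_ne_top)
    · exact (ENNReal.continuous_ofReal.comp
        ((continuous_sqn.comp continuous_snd).add continuous_const)).continuousAt
    · exact (hS.comp continuous_fst).continuousAt

end dom

end Crest.Agent.R276.SatF_210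
end
end

-- ▼ part R276/RestrD_652
section

/-!
# Row 276 (S0419), leaf RESTR-D (helper652): derived facts for saturated families

`ν z` measures on `X z`, `σ z : X z → ℂˢ`, `0 < p < 2`, with `PHI ν σ p z a = ∫ |a·σ|^p` finite and
continuous in `z` for every `a`:

* `multi` : integrals over `(X z)^r` of continuous functions of `σ(x₁), …, σ(x_r)`, homogeneous of
  degree `p` in every variable, are finite and continuous in `z` (and parameters);
* `DD_cont`, `DD_ne_top` : `D(z) = ∫ |det|^p` is finite and continuous;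
* `DD_pos` : positive if the `σ_i` are continuous and linearly independent;
* `SatFam.mk'` : constructor of 236's `SatFam` without the `D_*` fields and with continuity of `Phi`
  only for every fixed `a`.
-/

set_option autoImplicit false
set_option linter.unusedSectionVars false

open Set Filter Topology MeasureTheory
open scoped ENNReal

noncomputable section

namespace Crest.Agent.R276.RestrD_652

open Crest.Agent.R271 Crest.Agent.R271.Ho51 Crest.Agent.R276.AB2_590
open Crest.Agent.R276.Mod1_987 Crest.Agent.R276.FlatM_464 Crest.Agent.R276.FlatDefs_236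
open Crest.Agent.R276.Restr_236
open Crest.Agent.R276.Sat_210 (IK IW)

/-! ### one variable -/

section abs

variable {G : Type} [TopologicalSpace G] {X : G → Type} [∀ z, MeasurableSpace (X z)]
  {ν : ∀ z, Measure (X z)} {s : ℕ} {σ : ∀ z, X z → Fin s → ℂ} {p : ℝ}

theorem one {W : Type} [TopologicalSpace W] [∀ z, SFinite (ν z)] (hp : 0 < p) (hp2 : p < 2)
    (hσ : ∀ z, Measurable (σ z)) (hfin : ∀ z a, PHI ν σ p z a ≠ ∞)
    (hc : ∀ a, Continuous fun z => PHI ν σ p z a)
    (g : W → (Fin s → ℂ) → ℝ) (hg : Continuous fun q : W × (Fin s → ℂ) => g q.1 q.2)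
    (h0 : ∀ w v, 0 ≤ g w v) (hh : ∀ w (c : ℂ) v, g w (c • v) = ‖c‖ ^ p * g w v) :
    (Continuous fun q : G × W => (∫⁻ x, ENNReal.ofReal (g q.2 (σ q.1 x)) ∂(ν q.1)).toReal) ∧
      ∀ (z : G) (w : W), ∫⁻ x, ENNReal.ofReal (g w (σ z x)) ∂(ν z) ≠ ∞ := by
  have hgw : ∀ w, Continuous (g w) := fun w => hg.comp (by fun_prop : Continuous fun v => (w, v))
  have hmap : ∀ z (F : (Fin s → ℂ) → ℝ≥0∞), Measurable F →
      ∫⁻ v, F v ∂((ν z).map (σ z)) = ∫⁻ x, F (σ z x) ∂(ν z) := fun z F hF =>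
    lintegral_map hF (hσ z)
  have hfin' : ∀ z (a : Fin s → ℂ),
      ∫⁻ v, ENNReal.ofReal (‖∑ i, a i * v i‖ ^ p) ∂((ν z).map (σ z)) ≠ ∞ := by
    intro z a
    rw [hmap z (fun v => ENNReal.ofReal (‖∑ i, a i * v i‖ ^ p))]
    · exact hfin z a
    · refine ENNReal.measurable_ofReal.comp (Measurable.pow_const ?_ _)
      exact (by fun_prop : Continuous fun v : Fin s → ℂ => ∑ i, a i * v i).measurable.norm
  have hm : ∀ i, Measurable fun v : Fin s → ℂ => v i := fun i => measurable_pi_apply i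
  have hPHI : ∀ z (a : Fin s → ℂ),
      ∫ v, ‖∑ i, a i * v i‖ ^ p ∂((ν z).map (σ z)) = (PHI ν σ p z a).toReal := by
    intro z a
    rw [integral_eq_lintegral_of_nonneg_ae
      (Eventually.of_forall fun v => Real.rpow_nonneg (norm_nonneg _) _)
      (HomC_201.integrable_lin hm (hfin' z) a).aestronglyMeasurable,
      hmap z (fun v => ENNReal.ofReal (‖∑ i, a i * v i‖ ^ p))]
    · rfl
    · refine ENNReal.measurable_ofReal.comp (Measurable.pow_const ?_ _)
      exact (by fun_prop : Continuous fun v : Fin s → ℂ => ∑ i, a i * v i).measurable.norm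
  have hc' : ∀ a : Fin s → ℂ,
      Continuous fun z => ∫ v, ‖∑ i, a i * v i‖ ^ p ∂((ν z).map (σ z)) := by
    intro a
    simp only [hPHI]
    rw [continuous_iff_continuousAt]
    intro z
    exact (ENNReal.tendsto_toReal (hfin z a)).comp (hc a).continuousAt.tendsto
  -- integrability
  have hint : ∀ z w, Integrable (fun v => g w v) ((ν z).map (σ z)) := by
    intro z w
    obtain ⟨C, hC0, hC⟩ := HomC_201.hom_bd hp (hgw w).continuousOn (hh w)
    refine ((HomC_201.integrable_norm hp hm (hfin' z)).const_mul C).mono'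
      (hgw w).aestronglyMeasurable (Eventually.of_forall fun v => ?_)
    rw [Real.norm_eq_abs]
    exact hC v
  have hlint : ∀ z w, ∫⁻ x, ENNReal.ofReal (g w (σ z x)) ∂(ν z) =
      ENNReal.ofReal (∫ v, g w v ∂((ν z).map (σ z))) := by
    intro z w
    rw [ofReal_integral_eq_lintegral_ofReal (hint z w) (Eventually.of_forall (h0 w)),
      hmap z (fun v => ENNReal.ofReal (g w v)) (ENNReal.measurable_ofReal.comp (hgw w).measurable)]
  refine ⟨?_, fun z w => by rw [hlint]; exact ENNReal.ofReal_ne_top⟩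
  have h1 := HomC_201.homcont2 (X := G) hp hp2 (fun z => (ν z).map (σ z))
    (fun i (v : Fin s → ℂ) => v i) hm hfin' hc' g isOpen_univ
    (hg.continuousOn) (fun w _ => hh w)
  have h2 : Continuous fun q : G × W => ∫ v, g q.2 v ∂((ν q.1).map (σ q.1)) := by
    rw [← continuousOn_univ]
    refine h1.mono fun q _ => mem_univ _
  refine h2.congr fun q => ?_
  show _ = (∫⁻ x, ENNReal.ofReal (g q.2 (σ q.1 x)) ∂(ν q.1)).toReal
  rw [hlint q.1 q.2, ENNReal.toReal_ofReal (integral_nonneg (h0 q.2))]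

/-! ### several variables -/

theorem multi [∀ z, SigmaFinite (ν z)] (hp : 0 < p) (hp2 : p < 2)
    (hσ : ∀ z, Measurable (σ z)) (hfin : ∀ z a, PHI ν σ p z a ≠ ∞)
    (hc : ∀ a, Continuous fun z => PHI ν σ p z a) (r : ℕ) :
    ∀ {W : Type} [TopologicalSpace W] (g : W → (Fin r → Fin s → ℂ) → ℝ),
      (Continuous fun q : W × (Fin r → Fin s → ℂ) => g q.1 q.2) → (∀ w v, 0 ≤ g w v) →
      (∀ w (j : Fin r) (c : ℂ) v, g w (Function.update v j (c • v j)) = ‖c‖ ^ p * g w v) →
      (Continuous fun q : G × W => ∫⁻ x, ENNReal.ofReal (g q.2 (fun j => σ q.1 (x j)))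
        ∂(Measure.pi fun _ : Fin r => ν q.1)) ∧
      ∀ (z : G) (w : W), ∫⁻ x, ENNReal.ofReal (g w (fun j => σ z (x j)))
        ∂(Measure.pi fun _ : Fin r => ν z) ≠ ∞ := by
  induction r with
  | zero =>
    intro W _ g hg h0 hh
    have e : ∀ (z : G) (w : W), ∫⁻ x, ENNReal.ofReal (g w (fun j => σ z (x j)))
        ∂(Measure.pi fun _ : Fin 0 => ν z) = ENNReal.ofReal (g w Fin.elim0) := by
      intro z w
      rw [Measure.pi_of_empty _ (Fin.elim0 : Fin 0 → X z), lintegral_dirac]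
      congr 2
      ext j
      exact Fin.elim0 j
    refine ⟨?_, fun z w => by rw [e]; exact ENNReal.ofReal_ne_top⟩
    simp only [e]
    have h5 : Continuous fun q : G × W => (q.2, (Fin.elim0 : Fin 0 → Fin s → ℂ)) := by fun_prop
    exact ENNReal.continuous_ofReal.comp (hg.comp h5)
  | succ r ih =>
    intro W _ g hg h0 hh
    -- the inner integral
    have hcons : Continuous fun q : (W × (Fin r → Fin s → ℂ)) × (Fin s → ℂ) =>
        g q.1.1 (Fin.cons q.2 q.1.2) := by
      have h6 : Continuous fun q : (W × (Fin r → Fin s → ℂ)) × (Fin s → ℂ) =>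
          (Fin.cons q.2 q.1.2 : Fin (r + 1) → Fin s → ℂ) := by
        refine continuous_pi fun j => ?_
        refine Fin.cases ?_ (fun j => ?_) j
        · simpa using continuous_snd
        · simp only [Fin.cons_succ]
          fun_prop
      exact hg.comp ((continuous_fst.comp continuous_fst).prodMk h6)
    have h1 := one (ν := ν) (σ := σ) (W := W × (Fin r → Fin s → ℂ)) hp hp2 hσ hfin hc
      (fun q v => g q.1 (Fin.cons v q.2)) hcons (fun q v => h0 _ _) (by
        intro q c v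
        have := hh q.1 0 c (Fin.cons v q.2)
        rw [Fin.cons_zero, Fin.update_cons_zero] at this
        exact this)
    set I : G × W → (Fin r → Fin s → ℂ) → ℝ := fun q v =>
      (∫⁻ x, ENNReal.ofReal (g q.2 (Fin.cons (σ q.1 x) v)) ∂(ν q.1)).toReal with hI
    have hIc : Continuous fun q : (G × W) × (Fin r → Fin s → ℂ) => I q.1 q.2 := by
      have := h1.1.comp (by fun_prop : Continuous fun q : (G × W) × (Fin r → Fin s → ℂ) =>
        (q.1.1, (q.1.2, q.2)))
      exact this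
    have hIh : ∀ (q : G × W) (j : Fin r) (c : ℂ) v,
        I q (Function.update v j (c • v j)) = ‖c‖ ^ p * I q v := by
      intro q j c v
      simp only [hI]
      have : ∀ x, ENNReal.ofReal (g q.2 (Fin.cons (σ q.1 x) (Function.update v j (c • v j)))) =
          ENNReal.ofReal (‖c‖ ^ p) * ENNReal.ofReal (g q.2 (Fin.cons (σ q.1 x) v)) := by
        intro x
        have h2 := hh q.2 j.succ c (Fin.cons (σ q.1 x) v)
        rw [Fin.cons_succ, ← Fin.cons_update] at h2
        rw [h2, ENNReal.ofReal_mul (Real.rpow_nonneg (norm_nonneg _) _)]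
      simp only [this]
      rw [lintegral_const_mul' _ _ ENNReal.ofReal_ne_top, ENNReal.toReal_mul,
        ENNReal.toReal_ofReal (Real.rpow_nonneg (norm_nonneg _) _)]
    obtain ⟨h3, h4⟩ := ih (W := G × W) I hIc (fun q v => ENNReal.toReal_nonneg) hIh
    have e : ∀ (z : G) (w : W), ∫⁻ x, ENNReal.ofReal (g w (fun j => σ z (x j)))
        ∂(Measure.pi fun _ : Fin (r + 1) => ν z) =
        ∫⁻ x, ENNReal.ofReal (I (z, w) (fun j => σ z (x j)))
        ∂(Measure.pi fun _ : Fin r => ν z) := by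
      intro z w
      have hgw : Continuous (g w) := hg.comp (by fun_prop : Continuous fun v => (w, v))
      rw [lintegral_succ (ν z) (H := fun x => ENNReal.ofReal (g w (fun j => σ z (x j))))]
      · refine lintegral_congr fun y => ?_
        simp only [hI]
        rw [ENNReal.ofReal_toReal (h1.2 z (w, fun j => σ z (y j)))]
        refine lintegral_congr fun a => ?_
        congr 2
        funext j
        refine Fin.cases ?_ (fun j => ?_) j <;> simp
      · refine ENNReal.measurable_ofReal.comp (hgw.measurable.comp ?_)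
        exact measurable_pi_lambda _ fun j => (hσ z).comp (measurable_pi_apply j)
    refine ⟨?_, fun z w => by rw [e]; exact h4 z (z, w)⟩
    simp only [e]
    exact h3.comp (by fun_prop : Continuous fun q : G × W => (q.1, q))

/-! ### the determinant -/

theorem hdet_cont (hp : 0 < p) :
    Continuous fun x : Fin s → Fin s → ℂ => ‖(Matrix.of x).det‖ ^ p := by
  refine Continuous.rpow_const ?_ fun _ => Or.inr hp.le
  exact (Continuous.matrix_det (by
    exact continuous_id : Continuous fun x : Fin s → Fin s → ℂ => Matrix.of x)).norm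

theorem hdet_hom (j : Fin s) (c : ℂ) (v : Fin s → Fin s → ℂ) :
    ‖(Matrix.of (Function.update v j (c • v j))).det‖ ^ p = ‖c‖ ^ p * ‖(Matrix.of v).det‖ ^ p := by
  have := det_update v j c
  have e : (fun i => c * v j i) = c • v j := by
    funext i
    rfl
  rw [e] at this
  rw [this, norm_mul, Real.mul_rpow (norm_nonneg _) (norm_nonneg _)]

theorem DD_cont [∀ z, SigmaFinite (ν z)] (hp : 0 < p) (hp2 : p < 2)
    (hσ : ∀ z, Measurable (σ z)) (hfin : ∀ z a, PHI ν σ p z a ≠ ∞)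
    (hc : ∀ a, Continuous fun z => PHI ν σ p z a) : Continuous fun z => DD ν σ p z := by
  have h := (multi hp hp2 hσ hfin hc s (W := Unit) (fun _ x => ‖(Matrix.of x).det‖ ^ p)
    ((hdet_cont hp).comp continuous_snd) (fun _ _ => Real.rpow_nonneg (norm_nonneg _) _)
    (fun _ j c v => hdet_hom j c v)).1
  exact h.comp (by fun_prop : Continuous fun z : G => (z, ()))

theorem DD_ne_top [∀ z, SigmaFinite (ν z)] (hp : 0 < p) (hp2 : p < 2)
    (hσ : ∀ z, Measurable (σ z)) (hfin : ∀ z a, PHI ν σ p z a ≠ ∞)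
    (hc : ∀ a, Continuous fun z => PHI ν σ p z a) (z : G) : DD ν σ p z ≠ ∞ :=
  (multi hp hp2 hσ hfin hc s (W := Unit) (fun _ x => ‖(Matrix.of x).det‖ ^ p)
    ((hdet_cont hp).comp continuous_snd) (fun _ _ => Real.rpow_nonneg (norm_nonneg _) _)
    (fun _ j c v => hdet_hom j c v)).2 z ()

/-- joint continuity -/
theorem PHI_cont [∀ z, SFinite (ν z)] (hp : 0 < p) (hp2 : p < 2)
    (hσ : ∀ z, Measurable (σ z)) (hfin : ∀ z a, PHI ν σ p z a ≠ ∞)
    (hc : ∀ a, Continuous fun z => PHI ν σ p z a) :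
    Continuous fun q : G × (Fin s → ℂ) => PHI ν σ p q.1 q.2 := by
  have h := one (ν := ν) (σ := σ) (W := Fin s → ℂ) hp hp2 hσ hfin hc
    (fun a v => ‖∑ i, a i * v i‖ ^ p)
    (Continuous.rpow_const (by fun_prop) fun _ => Or.inr hp.le)
    (fun _ _ => Real.rpow_nonneg (norm_nonneg _) _) (fun a c v => by
      have : ∑ i, a i * (c • v) i = c * ∑ i, a i * v i := by
        rw [Finset.mul_sum]
        exact Finset.sum_congr rfl fun i _ => by rw [Pi.smul_apply, smul_eq_mul]; ring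
      rw [this, norm_mul, Real.mul_rpow (norm_nonneg _) (norm_nonneg _)])
  refine (ENNReal.continuous_ofReal.comp h.1).congr fun q => ?_
  exact ENNReal.ofReal_toReal (h.2 q.1 q.2)

end abs

/-- independent functions: some determinant is nonzero -/
theorem exists_tuple {Y : Type*} {s : ℕ} (v : Y → Fin s → ℂ)
    (h : ∀ a : Fin s → ℂ, (∀ y, ∑ i, a i * v y i = 0) → a = 0) :
    ∃ y : Fin s → Y, (Matrix.of fun j => v (y j)).det ≠ 0 := by
  have hspan : Submodule.span ℂ (range v) = ⊤ := by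
    by_contra hne
    obtain ⟨f, hf0, hf⟩ := Submodule.exists_le_ker_of_lt_top _ (lt_top_iff_ne_top.2 hne)
    refine hf0 ?_
    have h1 : (fun i => f (Pi.single i 1)) = (0 : Fin s → ℂ) := by
      refine h _ fun y => ?_
      have h2 : f (v y) = 0 := hf (Submodule.subset_span ⟨y, rfl⟩)
      rw [← h2]
      conv_rhs => rw [← Finset.univ_sum_single (v y), map_sum]
      refine Finset.sum_congr rfl fun i _ => ?_
      have h3 : (Pi.single i (v y i) : Fin s → ℂ) = v y i • Pi.single i 1 := by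
        rw [← Pi.single_smul, smul_eq_mul, mul_one]
      rw [h3, map_smul, smul_eq_mul, mul_comm]
    refine LinearMap.pi_ext' fun i => LinearMap.ext_ring ?_
    exact congrFun h1 i
  obtain ⟨b, hb, hbs, hli⟩ := exists_linearIndependent ℂ (range v)
  rw [hspan] at hbs
  have hfin : b.Finite := hli.setFinite
  have := hfin.fintype
  have hcard : Fintype.card b = s := by
    have h1 := Module.finrank_eq_card_basis (Module.Basis.mk hli (by rw [Subtype.range_coe]; exact hbs.ge))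
    rw [Module.finrank_fin_fun] at h1
    exact h1.symm
  set e : Fin s ≃ b := (Fintype.equivFinOfCardEq hcard).symm
  choose y hy using fun j : Fin s => hb (e j).2
  refine ⟨y, ?_⟩
  have h4 : LinearIndependent ℂ (Matrix.of fun j => v (y j)).row := by
    have h5 : (Matrix.of fun j => v (y j)).row = (Subtype.val : b → Fin s → ℂ) ∘ e := by
      funext j
      exact hy j
    rw [h5]
    exact hli.comp e e.injective
  rw [Matrix.linearIndependent_rows_iff_isUnit, Matrix.isUnit_iff_isUnit_det] at h4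
  exact h4.ne_zero

/-! ### positivity -/

section pos

variable {n : ℕ} {M : Type*} [TopologicalSpace M] [RDom n M] [MeasurableSpace M] [BorelSpace M]

/-- the Lebesgue measure of a Riemann domain is positive on open sets -/
theorem isOpenPos {μ : Measure M} (hμ : IsLeb μ) : μ.IsOpenPosMeasure := by
  refine ⟨fun U hU hne hzero => ?_⟩
  obtain ⟨x, hx⟩ := hne
  have h1 := hμ (ch x) (isCh_ch x)
  have h2 : (μ.restrict (ch x).source) U = 0 := by
    rw [Measure.restrict_apply hU.measurableSet]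
    exact measure_mono_null inter_subset_left hzero
  have hae : AEMeasurable (ch x).symm ((volume : Measure (Fin n → ℂ)).restrict (ch x).target) :=
    (ch x).continuousOn_symm.aemeasurable (ch x).open_target.measurableSet
  rw [h1, Measure.map_apply_of_aemeasurable hae hU.measurableSet] at h2
  have h3 : volume ((ch x).target ∩ (ch x).symm ⁻¹' U) = 0 := by
    refine le_antisymm (le_trans ?_ h2.le) bot_le
    refine (Measure.le_restrict_apply _ _).trans' (le_of_eq ?_)
    rw [inter_comm]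
  have h4 : IsOpen ((ch x).target ∩ (ch x).symm ⁻¹' U) :=
    (ch x).continuousOn_symm.isOpen_inter_preimage (ch x).open_target hU
  have h5 : ((ch x).target ∩ (ch x).symm ⁻¹' U).Nonempty := by
    refine ⟨ch x x, (ch x).map_source (mem_ch x), ?_⟩
    show (ch x).symm (ch x x) ∈ U
    rwa [(ch x).left_inv (mem_ch x)]
  exact (h4.measure_pos volume h5).ne' h3

end pos

theorem DD_pos {G : Type} {X : G → Type} [∀ z, TopologicalSpace (X z)]
    [∀ z, SecondCountableTopology (X z)] [∀ z, MeasurableSpace (X z)] [∀ z, BorelSpace (X z)]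
    {ν : ∀ z, Measure (X z)} [∀ z, SigmaFinite (ν z)] [∀ z, (ν z).IsOpenPosMeasure] {s : ℕ}
    {σ : ∀ z, X z → Fin s → ℂ} {p : ℝ} (hp : 0 < p) (z : G) (hσ : Continuous (σ z))
    (hi : ∀ a : Fin s → ℂ, (∀ y, ∑ i, a i * σ z y i = 0) → a = 0) : 0 < DD ν σ p z := by
  obtain ⟨y, hy⟩ := exists_tuple (σ z) hi
  have hc : Continuous fun x : Fin s → X z => ‖(Matrix.of fun j : Fin s => σ z (x j)).det‖ ^ p :=
    (hdet_cont hp).comp (continuous_pi fun j => hσ.comp (continuous_apply j))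
  have hU : IsOpen {x : Fin s → X z | 0 < ‖(Matrix.of fun j : Fin s => σ z (x j)).det‖ ^ p} :=
    isOpen_lt continuous_const hc
  have hne : {x : Fin s → X z | 0 < ‖(Matrix.of fun j : Fin s => σ z (x j)).det‖ ^ p}.Nonempty :=
    ⟨y, Real.rpow_pos_of_pos (norm_pos_iff.2 hy) _⟩
  rw [pos_iff_ne_zero]
  intro hcon
  unfold DD at hcon
  have hcm : Measurable fun x : Fin s → X z =>
      ENNReal.ofReal (‖(Matrix.of fun j : Fin s => σ z (x j)).det‖ ^ p) :=
    ENNReal.measurable_ofReal.comp hc.measurable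
  rw [lintegral_eq_zero_iff hcm] at hcon
  have h1 := hU.measure_pos (Measure.pi fun _ : Fin s => ν z) hne
  refine h1.ne' (measure_mono_null ?_ hcon)
  intro x hx h2
  have h3 : ENNReal.ofReal (‖(Matrix.of fun j : Fin s => σ z (x j)).det‖ ^ p) = 0 := h2
  rw [ENNReal.ofReal_eq_zero] at h3
  exact absurd hx (not_lt.2 h3)

/-! ### saturated families -/

section sat

variable {L K : Type} [Field L] [Field K] [Algebra ℂ L] [Algebra ℂ K] [Algebra L K]
  [IsScalarTower ℂ L K] {m r : ℕ}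

instance (R : RMdl L K m r) (w : R.ML.Pts) : (nu R w).IsOpenPosMeasure := isOpenPos (nu_leb R w)

variable {R : RMdl L K m r} {N s : ℕ} {u : Fin s → R.MK.B}

theorem DN_cont (hN : 2 ≤ N) (hfin : ∀ w a, Phi N u w a ≠ ∞)
    (hc : ∀ a, Continuous fun w => Phi N u w a) : Continuous fun w => DN N u w := by
  have hN0 : (0 : ℝ) < N := by exact_mod_cast (by omega : 0 < N)
  have hN2 : (2 : ℝ) ≤ N := by exact_mod_cast hN
  refine DD_cont (div_pos two_pos hN0) ?_ (fun w => meas_sg u w) hfin hc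
  exact lt_of_le_of_lt ((div_le_one hN0).2 hN2) one_lt_two

theorem DN_fin (hN : 2 ≤ N) (hfin : ∀ w a, Phi N u w a ≠ ∞)
    (hc : ∀ a, Continuous fun w => Phi N u w a) (w : R.ML.Pts) : DN N u w ≠ ∞ := by
  have hN0 : (0 : ℝ) < N := by exact_mod_cast (by omega : 0 < N)
  have hN2 : (2 : ℝ) ≤ N := by exact_mod_cast hN
  refine DD_ne_top (div_pos two_pos hN0) ?_ (fun w => meas_sg u w) hfin hc w
  exact lt_of_le_of_lt ((div_le_one hN0).2 hN2) one_lt_two

theorem Phi_cont (hN : 2 ≤ N) (hfin : ∀ w a, Phi N u w a ≠ ∞)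
    (hc : ∀ a, Continuous fun w => Phi N u w a) :
    Continuous fun q : R.ML.Pts × (Fin s → ℂ) => Phi N u q.1 q.2 := by
  have hN0 : (0 : ℝ) < N := by exact_mod_cast (by omega : 0 < N)
  have hN2 : (2 : ℝ) ≤ N := by exact_mod_cast hN
  refine PHI_cont (div_pos two_pos hN0) ?_ (fun w => meas_sg u w) hfin hc
  exact lt_of_le_of_lt ((div_le_one hN0).2 hN2) one_lt_two

theorem DN_pos (hN : 0 < N) (w : R.ML.Pts)
    (hi : ∀ a : Fin s → ℂ, (∀ y : R.Fib w, ∑ i, a i * sg u w y i = 0) → a = 0) :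
    0 < DN N u w :=
  DD_pos (div_pos two_pos (by exact_mod_cast hN)) w (cont_sg u w) hi

/-- **constructor** of saturated families: no hypothesis on `DN`, continuity of `Phi` only for
fixed `a` -/
theorem satFam_mk (N_even : Even N) (N_ge : 4 ≤ N) (s_pos : 0 < s)
    (conn : ∀ w : R.ML.Pts, ConnectedSpace (R.Fib w))
    (indep : ∀ (w : R.ML.Pts) (a : Fin s → ℂ),
      (∀ y : R.Fib w, ∑ i, a i * sg u w y i = 0) → a = 0)
    (fin : ∀ (w : R.ML.Pts) (a : Fin s → ℂ), Phi N u w a ≠ ∞)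
    (cont : ∀ a, Continuous fun w : R.ML.Pts => Phi N u w a)
    (clos : ∀ (w : R.ML.Pts) (f : R.Fib w → ℂ), Hol f →
      IK (nu R w) (((N : ℝ) - 1) / N) f (fun i y => sg u w y i) ≠ ∞ →
      ∃ b : Fin s → ℂ, ∀ y : R.Fib w, f y = ∑ i, b i * sg u w y i) : SatFam R N u where
  N_even := N_even
  N_ge := N_ge
  s_pos := s_pos
  conn := conn
  indep := indep
  fin := fin
  cont := Phi_cont (by omega) fin cont
  clos := clos
  D_pos w := DN_pos (by omega) w (indep w)
  D_fin := DN_fin (by omega) fin cont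
  D_cont := DN_cont (by omega) fin cont

end sat

end Crest.Agent.R276.RestrD_652
end
end

-- ▼ part R276/SatG_210
section

/-!
# Row 276 (S0419), leaf SAT (helper210), part G: THE SATURATED FAMILY

`sat` : `R : RMdl L K m r` a relative model, `L` algebraically closed in `K`, `N ≥ 4` even,
`u_1, …, u_s ∈ B_K` linearly independent over `L` in the class `W_N`, with (B2) ("`b` regular on a shrinking,
`∫ |b|² (∑|u_i|²)^{-(N-1)/N} < ∞` (weighted) implies `b ∈ span_L u`").  Then after shrinking `SatFam` holds.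
-/

set_option autoImplicit false
set_option linter.unusedSectionVars false

noncomputable section

open Set Filter Topology MeasureTheory
open Crest.Agent.R271.Ho51 Crest.Agent.R276.Ipc735 Crest.Agent.R276.Top8_815
open Crest.Agent.R276.Mod1_987 Crest.Agent.R271.Rd692 Crest.Agent.R276.IpcRMdl_244
open Crest.Agent.R276.Rc_348 Crest.Agent.R276.GeoY_519 Crest.Agent.R276.SatF_210
open Crest.Agent.R276.SatB_210 Crest.Agent.R276.SatC_210 Crest.Agent.R276.Iter_840
open Crest.Agent.R276.IpcModel_244 Crest.Agent.R276.IpcRel_244 Crest.Agent.R276.FlatDefs_236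
open Crest.Agent.R271.Defs710 Crest.Agent.R276.AB2_590
open Crest.Agent.R276.Sat_210 (IK IW KK)
open scoped ENNReal

namespace Crest.Agent.R276.SatG_210

variable {L K : Type} [Field L] [Field K] [Algebra ℂ L] [Algebra ℂ K] [Algebra L K]
  [IsScalarTower ℂ L K] {m r : ℕ} {R : RMdl L K m r} {s : ℕ}

lemma KK_eq (u : Fin s → R.MK.B) (y : R.MK.Pts) :
    KK (fun i (y : R.MK.Pts) => y (u i)) y = ENNReal.ofReal (kk u y) := by
  unfold Sat_210.KK kk
  rw [ENNReal.ofReal_sum_of_nonneg fun i _ => by positivity]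
  refine Finset.sum_congr rfl fun i _ => ?_
  rw [enorm_rpow_eq _ (by norm_num)]
  norm_cast

/-- **averaging on the total space** -/
theorem exists_c {N : ℕ} (hN : 2 ≤ N) (hs : 0 < s) {u : Fin s → R.MK.B}
    (hu : ∀ i, InW R N fun y => y (u i)) :
    ∃ c : Fin s → ℂ, c ≠ 0 ∧ ∀ k, InE R fun y => ‖y (u k)‖ₑ ^ (2 : ℝ) *
      ‖∑ i, c i * y (u i)‖ₑ ^ (-2 * (((N : ℝ) - 1) / N)) := by
  have hN2 : (2 : ℝ) ≤ N := by exact_mod_cast hN
  have hN0 : (0 : ℝ) < N := by linarith
  have ha0 : 0 < ((N : ℝ) - 1) / N := div_pos (by linarith) hN0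
  have ha1 : ((N : ℝ) - 1) / N < 1 := by rw [div_lt_one hN0]; linarith
  have h1a : 1 - ((N : ℝ) - 1) / N = 1 / N := by field_simp; ring
  obtain ⟨p, a, hp, hi⟩ := inE_kk (by omega : 0 < N) hu
  obtain ⟨μ, hμ⟩ := R.MK.exists_leb
  have hlf : IsLocallyFiniteMeasure μ := hμ.locallyFinite
  have hwm : Measurable fun y : R.MK.Pts => ENNReal.ofReal (wL R p a (R.q y)) :=
    ((continuous_wL R p a).comp R.continuous_q).measurable.ennreal_ofReal
  have hum : ∀ i, Measurable fun y : R.MK.Pts => y (u i) := fun i => (continuous_ev (u i)).measurable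
  have hkm : Measurable fun y : R.MK.Pts => ENNReal.ofReal (kk u y) :=
    (continuous_kk u).measurable.ennreal_ofReal
  rw [R.MK.lintM_eq hμ (show Measurable fun y : R.MK.Pts => ENNReal.ofReal (kk u y) ^ (1 / N : ℝ) *
    ENNReal.ofReal (wL R p a (R.q y)) from (hkm.pow_const _).mul hwm)] at hi
  set μ' : Measure R.MK.Pts := μ.withDensity fun y => ENNReal.ofReal (wL R p a (R.q y)) with hμ'
  have hIK : ∀ k, IK μ' (((N : ℝ) - 1) / N) (fun y : R.MK.Pts => y (u k))
      (fun i (y : R.MK.Pts) => y (u i)) ≠ ∞ := by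
    intro k
    refine ne_of_lt (lt_of_le_of_lt (Sat_210.IK_self_le (α := ((N : ℝ) - 1) / N)
      (μ := μ') (u := fun i (y : R.MK.Pts) => y (u i)) k) ?_)
    rw [h1a]
    simp only [KK_eq]
    rw [hμ', lintegral_withDensity_eq_lintegral_mul _ hwm (hkm.pow_const _)]
    refine lt_of_eq_of_lt (lintegral_congr fun y => ?_) hi
    simp only [Pi.mul_apply]
    rw [mul_comm]
  have hU : volume ({c : Fin s → ℂ | c ≠ 0}ᶜ) = 0 := by
    have hne : Nonempty (Fin s) := ⟨⟨0, hs⟩⟩
    have h1 : ({c : Fin s → ℂ | c ≠ 0}ᶜ) = {0} := by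
      ext c
      simp
    rw [h1]
    exact measure_singleton 0
  obtain ⟨c, hc, hI⟩ := Sat_210.exists_good (μ := μ') ha0 ha1 hum hum hIK hU
  refine ⟨c, hc, fun k => ⟨p, a, hp, ?_⟩⟩
  have hm : Measurable fun y : R.MK.Pts => ‖y (u k)‖ₑ ^ (2 : ℝ) *
      ‖∑ i, c i * y (u i)‖ₑ ^ (-2 * (((N : ℝ) - 1) / N)) := by
    have h1 : Measurable fun y : R.MK.Pts => ∑ i, c i * y (u i) :=
      Finset.measurable_fun_sum _ fun i _ => (hum i).const_mul _
    exact ((hum k).enorm.pow_const _).mul (h1.enorm.pow_const _)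
  rw [R.MK.lintM_eq hμ (show Measurable fun y : R.MK.Pts => (‖y (u k)‖ₑ ^ (2 : ℝ) *
      ‖∑ i, c i * y (u i)‖ₑ ^ (-2 * (((N : ℝ) - 1) / N))) * ENNReal.ofReal (wL R p a (R.q y))
      from hm.mul hwm)]
  have h2 := hI k
  unfold Sat_210.IW at h2
  rw [hμ', lintegral_withDensity_eq_lintegral_mul _ hwm hm] at h2
  refine lt_of_eq_of_lt (lintegral_congr fun y => ?_) (lt_top_iff_ne_top.2 h2)
  simp only [Pi.mul_apply]
  rw [mul_comm]

/-! ### restriction to smaller models -/

section res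

variable {R' : RMdl L K m r} (hL : R.ML.B ≤ R'.ML.B) (hK : R.MK.B ≤ R'.MK.B)
  (hzL : R.ML.zK = R'.ML.zK) (hzK : R.MK.zK = R'.MK.zK)

include hzK in
lemma lintM_res_le (g : R.MK.Pts → ℝ≥0∞) :
    lintM R'.MK.z (fun y => g (Mdl.resB hK y)) ≤ lintM R.MK.z g := by
  unfold lintM
  refine lintegral_mono fun ζ => ?_
  have h1 : ∀ (y : R'.MK.Pts) i, (Mdl.resB hK y) (R.MK.z i) = y (R'.MK.z i) := by
    intro y i
    change y ⟨(R.MK.z i : K), _⟩ = _
    congr 1
    exact Subtype.ext (congrFun hzK i)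
  let j : {y : R'.MK.Pts // ∀ i, y (R'.MK.z i) = ζ i} → {y : R.MK.Pts // ∀ i, y (R.MK.z i) = ζ i} :=
    fun y => ⟨Mdl.resB hK y.1, fun i => (h1 y.1 i).trans (y.2 i)⟩
  have hj : Function.Injective j := by
    intro y y' h
    exact Subtype.ext (Mdl.resB_injective hzK hK (congrArg Subtype.val h))
  exact ENNReal.tsum_comp_le_tsum_of_injective hj (fun y => g y.1)

include hL hzL hzK in
lemma InE.res {F : R.MK.Pts → ℝ≥0∞} (h : InE R F) :
    InE R' fun y => F (Mdl.resB hK y) := by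
  obtain ⟨p, a, hp, hi⟩ := h
  have h0 : ∀ y : R'.MK.Pts, wL R p a (R.q (Mdl.resB hK y)) = wL R' p a (R'.q y) := by
    intro y
    have h1 : R.ML.pz (R.q (Mdl.resB hK y)) = R'.ML.pz (R'.q y) := by
      rw [RMdl.q_resB hL hK]
      exact Mdl.pz_resB hzL hL _
    unfold SatB_210.wL
    rw [h1]
  have h2 := lt_of_le_of_lt (lintM_res_le hK hzK
    (fun y => F y * ENNReal.ofReal (wL R p a (R.q y)))) hi
  refine ⟨p, a, hp, ?_⟩
  simp only [h0] at h2
  exact h2

end res

/-! ### shrinking the base only does not change the fibres -/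

section shr

variable (R) (p : MvPolynomial (Fin m) ℂ) (hp : p ≠ 0) (g : MvPolynomial (Fin (m + r)) ℂ)
  (hg : g ≠ 0)

/-- the comparison of `R.shrink p g` with `R.shK g` -/
def shrMap : Restr_236.FMap (R.shrink p hp g hg) (R.shK g hg) where
  ι := Mdl.resB (R.ML.le_loc p hp)
  cont := Mdl.continuous_resB (R.ML.le_loc p hp)
  j w := R.shrinkFib p hp g hg w
  emb w := Restr_236.REmb.of_homeo _ fun y =>
    RMdl.cp_resF (R := R.shK g hg) (R' := R.shrink p hp g hg) (R.ML.le_loc p hp)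
      (R.shK_le_shrink p hp g hg) rfl w y

/-- sections of `R` on the shrinkings -/
def resK {s : ℕ} (u : Fin s → R.MK.B) : Fin s → (R.shK g hg).MK.B :=
  fun i => ⟨u i, R.MK.le_loc g hg (u i).2⟩

/-- sections of `R` on the shrinkings -/
def resS {s : ℕ} (u : Fin s → R.MK.B) : Fin s → (R.shrink p hp g hg).MK.B :=
  fun i => ⟨u i, (R.shK_le_shrink p hp g hg) (R.MK.le_loc g hg (u i).2)⟩

lemma cp_shr {s : ℕ} (u : Fin s → R.MK.B) :
    (shrMap R p hp g hg).Cp (resS R p hp g hg u) (resK R g hg u) := fun _ _ _ => rfl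

variable {R}

lemma loc_ne (w : (R.ML.loc p hp).Pts) {p₀ : MvPolynomial (Fin m) ℂ} (hd : p₀ ∣ p) :
    MvPolynomial.eval ((R.ML.loc p hp).pz w) p₀ ≠ 0 := by
  have h1 : MvPolynomial.eval ((R.ML.loc p hp).pz w) p ≠ 0 := TowA_849.loc_unit _ _ _ _
  obtain ⟨c, hc⟩ := hd
  intro h0
  apply h1
  refine (congrArg (MvPolynomial.eval ((R.ML.loc p hp).pz w)) hc).trans ?_
  rw [map_mul, h0, zero_mul]

lemma res_ne (w : (R.ML.loc p hp).Pts) {p₀ : MvPolynomial (Fin m) ℂ} (hd : p₀ ∣ p) :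
    MvPolynomial.eval (R.ML.pz (Mdl.resB (R.ML.le_loc p hp) w)) p₀ ≠ 0 := by
  have h4 := Mdl.pz_resB (M := R.ML) (M' := R.ML.loc p hp) rfl (R.ML.le_loc p hp) w
  rw [h4]
  exact loc_ne p hp w hd

/-- transfer of `clos` at a point -/
theorem clos_shr {N s : ℕ} {u : Fin s → R.MK.B} (w : (R.shrink p hp g hg).ML.Pts)
    (H : ∀ f : (R.shK g hg).Fib (Mdl.resB (R.ML.le_loc p hp) w) → ℂ, Hol f →
      IK (nu (R.shK g hg) (Mdl.resB (R.ML.le_loc p hp) w)) (((N : ℝ) - 1) / N) f
        (fun i y => sg (resK R g hg u) _ y i) ≠ ∞ →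
      ∃ b : Fin s → ℂ, ∀ y, f y = ∑ i, b i * sg (resK R g hg u) _ y i)
    (f : (R.shrink p hp g hg).Fib w → ℂ) (hf : Hol f)
    (hI : IK (nu (R.shrink p hp g hg) w) (((N : ℝ) - 1) / N) f
        (fun i y => sg (resS R p hp g hg u) w y i) ≠ ∞) :
    ∃ b : Fin s → ℂ, ∀ y, f y = ∑ i, b i * sg (resS R p hp g hg u) w y i := by
  set e := R.shrinkFib p hp g hg w with he
  have hj := (shrMap R p hp g hg).emb w
  have hfe : ∀ y, (f ∘ e.symm) ((shrMap R p hp g hg).j w y) = f y := fun y =>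
    congrArg f (e.symm_apply_apply y)
  have hF : Hol (f ∘ e.symm) := by
    rw [AB2_590.hol51_iff]
    intro x
    obtain ⟨y, rfl⟩ := e.surjective x
    exact hj.anal (AB2_590.hol51_iff.1 hf) hfe y
  obtain ⟨b, hb⟩ := H (f ∘ e.symm) hF (by
    have h1 := (cp_shr R p hp g hg u).ik (((N : ℝ) - 1) / N) w f (f ∘ e.symm) hfe
    rw [h1] at hI
    exact hI)
  exact ⟨b, fun y => (hfe y).symm.trans (hb _)⟩

/-- transfer of `indep` at a point -/
theorem indep_shr {s : ℕ} {u : Fin s → R.MK.B} (w : (R.shrink p hp g hg).ML.Pts)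
    (H : ∀ a : Fin s → ℂ, (∀ y : (R.shK g hg).Fib (Mdl.resB (R.ML.le_loc p hp) w),
      ∑ i, a i * sg (resK R g hg u) _ y i = 0) → a = 0)
    (a : Fin s → ℂ) (ha : ∀ y : (R.shrink p hp g hg).Fib w,
      ∑ i, a i * sg (resS R p hp g hg u) w y i = 0) : a = 0 := by
  refine H a fun x => ?_
  obtain ⟨y, rfl⟩ := (R.shrinkFib p hp g hg w).surjective x
  exact ha y

end shr

/-- the fibre integral of `FlatDefs_236` -/
lemma phi_eq {N : ℕ} (u : Fin s → R.MK.B) (w : R.ML.Pts) (a : Fin s → ℂ) :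
    Phi N u w a = (fF R).fint w (fun y => ENNReal.ofReal (‖cmb u a y‖ ^ (2 / (N : ℝ)))) := by
  have hc : Continuous fun y : R.MK.Pts => cmb u a y :=
    (continuous_cmb u).comp (Continuous.prodMk_left a)
  have hm : Measurable fun y : R.MK.Pts => ENNReal.ofReal (‖cmb u a y‖ ^ (2 / (N : ℝ))) :=
    (hc.norm.measurable.pow_const _).ennreal_ofReal
  have h1 := R.fint_eq (nu_leb R w) hm
  exact h1.symm

/-- **THE SATURATED FAMILY.**  Only `OneStep` and (B2) are hypotheses. -/
theorem sat (hO : OneStep) (R : RMdl L K m r) (hac : BN1_143.AC L K) {N : ℕ} (hNe : Even N)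
    (hN4 : 4 ≤ N) {s : ℕ} (hs : 0 < s) (u : Fin s → R.MK.B)
    (hu : LinearIndependent L fun i => (u i : K)) (hW : ∀ i, InW R N fun y => y (u i))
    (hB : ∀ (g : MvPolynomial (Fin (m + r)) ℂ) (hg : g ≠ 0) (b : (R.shK g hg).MK.B),
      InE (R.shK g hg) (fun y => ‖(y : (R.shK g hg).MK.B →ₐ[ℂ] ℂ) b‖ₑ ^ 2 *
        kw N (resK R g hg u) y) → (b : K) ∈ Submodule.span L (range fun i => (u i : K))) :
    ∃ (p : MvPolynomial (Fin m) ℂ) (hp : p ≠ 0) (g : MvPolynomial (Fin (m + r)) ℂ) (hg : g ≠ 0),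
      SatFam (R.shrink p hp g hg) N (resS R p hp g hg u) := by
  classical
  have hN0 : N ≠ 0 := by omega
  obtain ⟨c, hc0, hcE⟩ := exists_c (by omega) hs hW
  -- the section of the root cover
  set δ : R.MK.B := ∑ i, c i • u i with hδ
  have hδy : ∀ y : R.MK.Pts, y δ = ∑ i, c i * y (u i) := by
    intro y
    rw [hδ, map_sum]
    exact Finset.sum_congr rfl fun i _ => by rw [map_smul, smul_eq_mul]
  have hδ0 : δ ≠ 0 := by
    intro h0
    apply hc0
    have h1 : (δ : K) = 0 := congrArg Subtype.val h0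
    rw [hδ] at h1
    push_cast at h1
    have h2 := (Fintype.linearIndependent_iff.1 hu) (fun i => algebraMap ℂ L (c i)) (by
      rw [← h1]
      refine Finset.sum_congr rfl fun i _ => ?_
      rw [algebraMap_smul])
    funext i
    exact (map_eq_zero_iff _ (algebraMap ℂ L).injective).1 (h2 i)
  obtain ⟨t, ht, htδ⟩ := RMdl.exists_dvd_poly R.MK hδ0
  obtain ⟨c₀, g, hc₀, hg, hhg, -, hgeo⟩ := geo_cov hO stepRz_holds stepRzAct_holds m r
    (R.MK.h * t) (mul_ne_zero R.MK.h_ne ht)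
  obtain ⟨P₁, hP₁, h1⟩ := SatC_886.sat_clos (R := R.shK g hg) (by omega) (u := resK R g hg u) hu
    (hB g hg)
  obtain ⟨P₂, hP₂, h2⟩ := (R.shK g hg).exists_conn hac
  set p : MvPolynomial (Fin m) ℂ := c₀ * (P₁ * P₂) with hpd
  have hp : p ≠ 0 := mul_ne_zero hc₀ (mul_ne_zero hP₁ hP₂)
  have hd0 : c₀ ∣ p := dvd_mul_right _ _
  have hd1 : P₁ ∣ p := (dvd_mul_right _ _).trans (dvd_mul_left _ _)
  have hd2 : P₂ ∣ p := (dvd_mul_left _ _).trans (dvd_mul_left _ _)
  clear_value p
  refine ⟨p, hp, g, hg, ?_⟩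
  set R' : RMdl L K m r := R.shrink p hp g hg with hR'
  set u' : Fin s → R'.MK.B := resS R p hp g hg u with hu'
  have hLB : R.ML.B ≤ R'.ML.B := R.ML.le_loc p hp
  have hKB : R.MK.B ≤ R'.MK.B :=
    (R.MK.le_loc g hg).trans (R.shK_le_shrink p hp g hg)
  -- `δ` has no zeros
  set δ' : R'.MK.B := ⟨δ, hKB δ.2⟩ with hδ'
  have hgt : t ∣ g := (dvd_mul_left t _).trans hhg
  have hhn : ∀ y : R'.MK.Pts, MvPolynomial.eval (R'.MK.pz y) g ≠ 0 := by
    intro y h0
    apply R'.MK.eval_h_ne y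
    change MvPolynomial.eval (R'.MK.pz y) (R.MK.h * (MvPolynomial.rename (Fin.castAdd r) p * g)) = 0
    rw [map_mul, map_mul, h0, mul_zero, mul_zero]
  have hδne : ∀ y : R'.MK.Pts, y δ' ≠ 0 := by
    intro y
    have h3 : y δ' = (Mdl.resB hKB y) δ := rfl
    rw [h3]
    apply htδ
    rw [Mdl.pz_resB (M := R.MK) (M' := R'.MK) rfl hKB y]
    intro h0
    obtain ⟨e, he⟩ := hgt
    apply hhn y
    rw [he, map_mul, h0, zero_mul]
  have hδc : ∀ y : R'.MK.Pts, y δ' = cmb u' c y := fun y => hδy (Mdl.resB hKB y)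
  -- the variation of the root cover
  have hbase : ∀ w : R'.ML.Pts, MvPolynomial.eval (cp w) c₀ ≠ 0 := fun w => loc_ne p hp w hd0
  have happ : ∀ y : R'.MK.Pts, (Fin.append (cp ((fF R').q y)) ((fF R').t y) :
      Fin (m + r) → ℂ) = R'.MK.pz y := fun y => R'.append_eq y
  have hk : R'.MK.h ∣ (g * MvPolynomial.rename (Fin.castAdd r) R'.ML.h) ^ 2 := by
    rw [hR', shrink_MK_h, shrink_ML_h]
    have h3 : R.MK.h ∣ g := (dvd_mul_right _ _).trans hhg
    obtain ⟨e, he⟩ := h3
    refine ⟨e * MvPolynomial.rename (Fin.castAdd r) R.ML.h ^ 2 *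
      MvPolynomial.rename (Fin.castAdd r) p, ?_⟩
    rw [map_mul]
    calc (g * (MvPolynomial.rename (Fin.castAdd r) R.ML.h *
          MvPolynomial.rename (Fin.castAdd r) p)) ^ 2
        = (g * g) * (MvPolynomial.rename (Fin.castAdd r) R.ML.h *
          MvPolynomial.rename (Fin.castAdd r) p) ^ 2 := by ring
      _ = ((R.MK.h * e) * g) * (MvPolynomial.rename (Fin.castAdd r) R.ML.h *
          MvPolynomial.rename (Fin.castAdd r) p) ^ 2 := by rw [← he]
      _ = _ := by ring
  obtain ⟨N', W, -, ι, hRz, -⟩ := hgeo R'.ML.Pts hbase (YR δ' N) (FR hδne hN0)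
    (fun y => by
      have h3 : (Fin.append (cp ((FR hδne hN0).q y)) ((FR hδne hN0).t y) :
          Fin (m + r) → ℂ) = R'.MK.pz y.pr := happ y.pr
      rw [h3]
      exact hhn y.pr)
    (fun C hC hCg => rf_compact (fF R') hN0 (continuous_ev δ') hC
      (rel_compact R'.ML R'.MK R'.continuous_q R'.pz_q hk C hC hCg))
    PUnit (1 : PUnit →* Equiv.Perm (YR δ' N)) (fun _ => continuous_id)
    (fun _ _ => rfl) (fun _ _ => rfl)
  -- finiteness almost everywhere
  have hwtE : ∀ k, InE R' fun y => ENNReal.ofReal (SatF_210.wt N δ' (u' k) y) := by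
    intro k
    have h3 := InE.res (R := R) (R' := R') hLB hKB rfl rfl (hcE k)
    have h4 : (fun y : R'.MK.Pts => ENNReal.ofReal (SatF_210.wt N δ' (u' k) y)) =
        fun y : R'.MK.Pts => ‖(Mdl.resB hKB y) (u k)‖ₑ ^ (2 : ℝ) *
          ‖∑ i, c i * (Mdl.resB hKB y) (u i)‖ₑ ^ (-2 * (((N : ℝ) - 1) / N)) := by
      funext y
      have h5 : ∑ i, c i * (Mdl.resB hKB y) (u i) = y δ' := (hδc y).symm
      have h6 : (Mdl.resB hKB y) (u k) = y (u' k) := rfl
      have h7 : 0 < ‖y δ'‖ := norm_pos_iff.2 (hδne y)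
      rw [h5, h6, SatF_210.wt, ENNReal.ofReal_mul (by positivity), enorm_rpow_eq _ (by norm_num),
        ← ofReal_norm (y δ'), ENNReal.ofReal_rpow_of_pos h7]
      congr 2
      · norm_cast
      · congr 1
        ring
    rw [h4]
    exact h3
  have hwtm : ∀ k, Measurable fun y : R'.MK.Pts => ENNReal.ofReal (SatF_210.wt N δ' (u' k) y) := fun k =>
    (continuous_wt hδne (u' k)).measurable.ennreal_ofReal
  have hae : ∀ᵐ ζ : Fin m → ℂ, ∀ k, ∀ w : R'.ML.Pts, R'.ML.pz w = ζ →
      R'.fint w (fun y => ENNReal.ofReal (SatF_210.wt N δ' (u' k) y)) < ∞ :=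
    ae_all_iff.2 fun k => SatC_886.ae_fint_of_inE (hwtm k) (hwtE k)
  have hdense : Dense {w : R'.ML.Pts | ∀ k,
      R'.fint w (fun y => ENNReal.ofReal (SatF_210.wt N δ' (u' k) y)) < ∞} := by
    have h3 := (Measure.dense_of_ae hae).preimage (cp_lh (M := R'.ML.Pts)).isOpenMap
    refine h3.mono fun w hw k => ?_
    exact hw k w rfl
  have hfc := fun k => fin_cont_w hδne hN0 hRz (u' k) hdense fun w hw => (hw k).ne
  obtain ⟨hfin, hcont⟩ := fin_cont_phi u' hδne hN0 c hδc (fun k => (hfc k).1)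
    (fun k => (hfc k).2)
  refine RestrD_652.satFam_mk hNe hN4 hs ?_ ?_ ?_ ?_ ?_
  · intro w
    have h3 := h2 (Mdl.resB (R.ML.le_loc p hp) w) (res_ne p hp w hd2)
    exact (R.shrinkFib p hp g hg w).symm.surjective.connectedSpace
      (R.shrinkFib p hp g hg w).symm.continuous
  · intro w a ha
    exact indep_shr p hp g hg w (h1 _ (res_ne p hp w hd1)).1 a ha
  · intro w a
    rw [phi_eq]
    exact hfin w a
  · intro a
    simp only [phi_eq]
    exact hcont.comp (Continuous.prodMk_left a)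
  · intro w f hf hI
    exact clos_shr p hp g hg w (h1 _ (res_ne p hp w hd1)).2 f hf hI

end Crest.Agent.R276.SatG_210
end
end

-- ▼ part R276/LSat_152

/-!
# Row 276 (S0419), SAT (helper152): `LSat`

`lsat : SkelGeo_220.LSat` : the saturated frame with prescribed coordinates, from
* 210's `SatG_210.sat` and 454's `Step_454.oneStep`;
* (B2) (`pluri_of_inE`), 337's finite dimensionality (`exists_fam'`);
* 448's `hon` (`inW_of_pluriS`), 849's `exists_R0`.
-/

set_option autoImplicit false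

noncomputable section

open Set Filter Topology Metric MeasureTheory
open scoped ENNReal

namespace Crest.Agent.R276.SatG_152

open Crest.Agent.R271 Crest.Agent.R271.Defs710 Crest.Agent.R271.Alg255 Crest.Agent.R271.Rd692
open Crest.Agent.R276.Mod1_987 Crest.Agent.R276.FKDefs_779 Crest.Agent.R276.FlatDefs_236
open Crest.Agent.R276.SatB_210 Crest.Agent.R276.SatC_210 Crest.Agent.R276.SkelGeo_220
open Crest.Agent.R276.FKB0_143 (kbasis)

variable {L K : Type} [Field L] [Field K] [Algebra ℂ L] [Algebra ℂ K] [Algebra L K]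
  [IsScalarTower ℂ L K] {m r : ℕ}

/-- honest forms are in `W_N` -/
theorem inW_of_pluriS (R : RMdl L K m r) {N : ℕ} (hN : 0 < N)
    (bK : Module.Basis (Fin r) K (Ω[K⁄L]))
    (hbK : ∀ j, bK j = KaehlerDifferential.D L K (R.MK.zK (Fin.natAdd m j)))
    (v : R.MK.B) (hv : PluriS L bK N (v : K)) : InW R N fun y => y v := by
  obtain ⟨p, hp, κ, α, h⟩ := IntG_448.hon R.ML.zK (Cmp_595.isTranscendenceBasis R.ML) R.MK
    (fun i => R.z_eq i) bK hbK hN v hv
  refine ⟨p ^ κ, 2 * α, pow_ne_zero _ hp, ?_⟩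
  refine lt_of_le_of_lt (lintM_mono _ (g := fun y => ENNReal.ofReal ((m + 1 : ℝ) ^ α) *
    IntG_448.wint (fun i => R.MK.z (Fin.castAdd r i)) v (2 / (N : ℝ)) p κ α y) fun y => ?_) ?_
  · unfold IntG_448.wint
    rw [← ENNReal.ofReal_mul (by positivity)]
    apply ENNReal.ofReal_le_ofReal
    have e1 : (fun i => y (R.MK.z (Fin.castAdd r i))) = R.ML.pz (R.q y) :=
      funext fun i => (R.pz_q y i).symm
    have e2 : oz (fun i => R.MK.z (Fin.castAdd r i)) y = 1 + ∑ i, ‖R.ML.pz (R.q y) i‖ ^ 2 := by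
      unfold oz
      congr 1
      exact Finset.sum_congr rfl fun i _ => by rw [← e1]
    rw [e1, e2]
    unfold wL
    set ζ := R.ML.pz (R.q y) with hζ
    have h1 : 1 + ∑ i, ‖ζ i‖ ^ 2 ≤ (m + 1 : ℝ) * (1 + ‖ζ‖) ^ 2 := AlgC956.one_add_sum_le ζ
    have h0 : 0 < 1 + ∑ i, ‖ζ i‖ ^ 2 := by
      have : 0 ≤ ∑ i, ‖ζ i‖ ^ 2 := Finset.sum_nonneg fun _ _ => by positivity
      linarith
    have h2 : (1 + ∑ i, ‖ζ i‖ ^ 2) ^ α ≤ (m + 1 : ℝ) ^ α * (1 + ‖ζ‖) ^ (2 * α) := by
      rw [pow_mul, ← mul_pow]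
      exact pow_le_pow_left₀ h0.le h1 α
    have h3 : 0 < (1 + ‖ζ‖) ^ (2 * α) := by positivity
    have h4 : ‖MvPolynomial.eval ζ (p ^ κ)‖ / (1 + ‖ζ‖) ^ (2 * α) ≤
        (m + 1 : ℝ) ^ α * (‖MvPolynomial.eval ζ p‖ ^ κ / (1 + ∑ i, ‖ζ i‖ ^ 2) ^ α) := by
      rw [map_pow, norm_pow, mul_div_assoc', div_le_div_iff₀ h3 (pow_pos h0 _)]
      calc ‖MvPolynomial.eval ζ p‖ ^ κ * (1 + ∑ i, ‖ζ i‖ ^ 2) ^ α
          ≤ ‖MvPolynomial.eval ζ p‖ ^ κ * ((m + 1 : ℝ) ^ α * (1 + ‖ζ‖) ^ (2 * α)) :=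
            mul_le_mul_of_nonneg_left h2 (by positivity)
        _ = _ := by ring
    calc ‖y v‖ ^ (2 / N : ℝ) * (‖MvPolynomial.eval ζ (p ^ κ)‖ / (1 + ‖ζ‖) ^ (2 * α))
        ≤ ‖y v‖ ^ (2 / N : ℝ) * ((m + 1 : ℝ) ^ α *
            (‖MvPolynomial.eval ζ p‖ ^ κ / (1 + ∑ i, ‖ζ i‖ ^ 2) ^ α)) :=
          mul_le_mul_of_nonneg_left h4 (by positivity)
      _ = _ := by ring
  · rw [lintM_const_mul _ _ ENNReal.ofReal_ne_top]
    exact ENNReal.mul_lt_top ENNReal.ofReal_lt_top h

/-- a basis over `L` of the space of regular relative `N`-forms -/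
theorem exists_fam' [Algebra.EssFiniteType ℂ K] (bK : Module.Basis (Fin r) K (Ω[K⁄L])) (N : ℕ) :
    ∃ (s : ℕ) (u : Fin s → K), LinearIndependent L u ∧ (∀ i, Pluri L bK N (u i)) ∧
      ∀ v, Pluri L bK N v → v ∈ Submodule.span L (Set.range u) := by
  have hcL : CharZero L := charZero_of_injective_algebraMap (algebraMap ℂ L).injective
  have h0 : Algebra.EssFiniteType L K := Algebra.EssFiniteType.of_comp ℂ L K
  have hfin := PFin_337.pluriSp_finite (IntermediateField.fg_top_iff.mpr h0 : FGF L K) bK N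
  let e := Module.finBasis L (PFin_337.PluriSp L bK N)
  refine ⟨_, fun i => (e i : K), ?_, fun i => PFin_337.mem_PluriSp.1 (e i).2, fun v hv => ?_⟩
  · exact e.linearIndependent.map' (Submodule.subtype _) (Submodule.ker_subtype _)
  · have h1 : (⟨v, PFin_337.mem_PluriSp.2 hv⟩ : PFin_337.PluriSp L bK N) ∈
        Submodule.span L (Set.range e) := by rw [e.span_eq]; trivial
    have h2 := Submodule.mem_map_of_mem (f := Submodule.subtype _) h1
    rw [Submodule.map_span, ← Set.range_comp] at h2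
    exact h2

/-- **SAT** (LSat of SkelGeo_220) -/
theorem lsat : LSat := by
  intro L K _ _ _ _ _ _ _ m r hS hm hr z x hz hx N hNe hN4 hg0
  classical
  obtain ⟨g0, hg0, hPg0⟩ := hg0
  have hess : Algebra.EssFiniteType ℂ K := End0_508.essFiniteType_of_fgf hS.fg
  obtain ⟨s, σ, hli, hσ, hspan⟩ := exists_fam' (L := L) (kbasis hx) N
  have hs : 0 < s := by
    rcases Nat.eq_zero_or_pos s with h | h
    · exfalso
      subst h
      have h1 := hspan g0 hPg0
      rw [Set.range_eq_empty, Submodule.span_empty, Submodule.mem_bot] at h1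
      exact hg0 h1
    · exact h
  have hac : BN1_143.AC L K := fun a ha => by
    obtain ⟨c, hc⟩ := hS.ac a ha
    exact ⟨c, hc⟩
  obtain ⟨R, hRz, hRx, -, -, -, hSK⟩ := ModPack_849.exists_R0 hac hz hx ∅ (Finset.univ.image σ)
  have hmem : ∀ i, σ i ∈ R.MK.B := fun i =>
    (hSK _ (Finset.mem_image_of_mem _ (Finset.mem_univ i))).1
  have hbx : ∀ (R' : RMdl L K m r), (∀ j, R'.MK.zK (Fin.natAdd m j) = x j) →
      ∀ j, (kbasis hx) j = KaehlerDifferential.D L K (R'.MK.zK (Fin.natAdd m j)) := by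
    intro R' h j
    rw [h, FKB0_143.kbasis_apply]
  have hN0 : 0 < N := by omega
  obtain ⟨p, hp, g, hg, hsat⟩ := SatG_210.sat Step_454.oneStep R hac hNe hN4 hs
    (fun i => ⟨σ i, hmem i⟩) hli
    (fun i => inW_of_pluriS R hN0 (kbasis hx) (hbx R hRx) _ (hS.uhon.honest r (kbasis hx) N _ (hσ i)))
    (fun g hg b hb => hspan _ (pluri_of_inE hN0 (kbasis hx) (hbx (R.shK g hg) hRx)
      (SatG_210.resK R g hg fun i => ⟨σ i, hmem i⟩) (fun i => hσ i) b hb))
  refine ⟨R.shrink p hp g hg, s, σ, fun i =>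
    (R.shK_le_shrink p hp g hg) (R.MK.le_loc g hg (hmem i)), hRz, hRx, hsat, ?_⟩
  intro b hb v
  have hbb : b = kbasis hx := by
    refine Module.Basis.eq_of_apply_eq fun j => ?_
    rw [hb, hbx (R.shrink p hp g hg) hRx]
  subst hbb
  refine ⟨hspan v, fun hv => ?_⟩
  have h1 : Submodule.span L (Set.range σ) ≤ PFin_337.PluriSp L (kbasis hx) N := by
    rw [Submodule.span_le]
    rintro _ ⟨i, rfl⟩
    exact PFin_337.mem_PluriSp.2 (hσ i)
  exact PFin_337.mem_PluriSp.1 (h1 hv)

end Crest.Agent.R276.SatG_152
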