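import Mathlib
import Crest.Agent.R276.LsDefs_450

-- ▼ part R276/LsA_450
section

/-!
# Row 276 (S0419): level sets of a smooth map constant along a transversal vector field (helper450)

Calculus in `E = Fin m → ℂ`.
-/

set_option autoImplicit false
set_option linter.unusedSectionVars false

noncomputable section

open Set Filter Topology

namespace Crest.Agent.R276.LsA_450

variable {m : ℕ} {i₀ : Fin m} {V : Type*} [NormedAddCommGroup V] [NormedSpace ℝ V]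

/-- a left inverse of a linear map on `{v i₀ = 0}` -/
lemma exists_left_inv [FiniteDimensional ℝ V] (L : (Fin m → ℂ) →L[ℝ] V) (i₀ : Fin m)
    (hL : ∀ v : Fin m → ℂ, v i₀ = 0 → L v = 0 → v = 0) :
    ∃ π : V →L[ℝ] (Fin m → ℂ), (∀ x, π x i₀ = 0) ∧ ∀ v : Fin m → ℂ, v i₀ = 0 → π (L v) = v := by
  let H : Submodule ℝ (Fin m → ℂ) :=
    LinearMap.ker ((LinearMap.proj i₀ : (Fin m → ℂ) →ₗ[ℝ] ℂ))
  have hH : ∀ v, v ∈ H ↔ v i₀ = 0 := fun v => Iff.rfl
  have hker : LinearMap.ker ((L : (Fin m → ℂ) →ₗ[ℝ] V).comp H.subtype) = ⊥ := by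
    rw [LinearMap.ker_eq_bot']
    rintro ⟨v, hv⟩ h
    exact Subtype.ext (hL v ((hH v).1 hv) h)
  obtain ⟨g, hg⟩ := LinearMap.exists_leftInverse_of_injective _ hker
  refine ⟨LinearMap.toContinuousLinearMap (H.subtype.comp g), fun x => (hH _).1 (g x).2, ?_⟩
  intro v hv
  have := congrArg (fun f => ((f ⟨v, (hH v).2 hv⟩ : H) : Fin m → ℂ)) hg
  simpa using this

/-- the coordinate `i₀` -/
def pr (i₀ : Fin m) : (Fin m → ℂ) →L[ℝ] ℂ := ContinuousLinearMap.proj i₀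

@[simp] lemma pr_apply (v : Fin m → ℂ) : pr i₀ v = v i₀ := rfl

/-- the straightening map -/
def Psi (i₀ : Fin m) (X₀ : Fin m → ℂ) (π : V →L[ℝ] (Fin m → ℂ)) (Φ : (Fin m → ℂ) → V)
    (x : Fin m → ℂ) : Fin m → ℂ := x i₀ • X₀ + π (Φ x)

lemma hasFDerivAt_Psi {X₀ : Fin m → ℂ} {π : V →L[ℝ] (Fin m → ℂ)} {Φ : (Fin m → ℂ) → V}
    {x : Fin m → ℂ} (h : DifferentiableAt ℝ Φ x) :
    HasFDerivAt (Psi i₀ X₀ π Φ) ((pr i₀).smulRight X₀ + π.comp (fderiv ℝ Φ x)) x := by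
  unfold Psi
  have h1 : HasFDerivAt (fun x : Fin m → ℂ => x i₀ • X₀) ((pr i₀).smulRight X₀) x :=
    ((pr i₀).smulRight X₀).hasFDerivAt
  exact h1.add (π.hasFDerivAt.comp x h.hasFDerivAt)

lemma contDiffAt_Psi {n : WithTop ℕ∞} {X₀ : Fin m → ℂ} {π : V →L[ℝ] (Fin m → ℂ)}
    {Φ : (Fin m → ℂ) → V} {x : Fin m → ℂ} (h : ContDiffAt ℝ n Φ x) :
    ContDiffAt ℝ n (Psi i₀ X₀ π Φ) x := by
  unfold Psi
  have h1 : ContDiffAt ℝ n (fun x : Fin m → ℂ => x i₀ • X₀) x :=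
    ((pr i₀).smulRight X₀).contDiff.contDiffAt
  exact h1.add (π.contDiff.contDiffAt.comp x h)

/-- Local structure of a level set. -/
theorem level {Φ : (Fin m → ℂ) → V} {x₀ : Fin m → ℂ} [FiniteDimensional ℝ V]
    (hΦ : ContDiffAt ℝ 1 Φ x₀) {X : (Fin m → ℂ) → (Fin m → ℂ)}
    (hX1 : ∀ᶠ x in 𝓝 x₀, X x i₀ = 1)
    (htan : ∀ᶠ x in 𝓝 x₀, ∀ c : ℂ, fderiv ℝ Φ x (c • X x) = 0)
    (himm : ∀ v : Fin m → ℂ, v i₀ = 0 → fderiv ℝ Φ x₀ v = 0 → v = 0) :
    ∃ (g : ℂ → (Fin m → ℂ)) (r : ℝ), 0 < r ∧ g (x₀ i₀) = x₀ ∧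
      (∀ ζ ∈ Metric.ball (x₀ i₀) r, g ζ i₀ = ζ ∧ HasDerivAt g (X (g ζ)) ζ ∧ Φ (g ζ) = Φ x₀) ∧
      ∀ᶠ x in 𝓝 x₀, Φ x = Φ x₀ → x = g (x i₀) := by
  obtain ⟨π, hπ0, hπ⟩ := exists_left_inv (fderiv ℝ Φ x₀) i₀ himm
  have hX10 : X x₀ i₀ = 1 := hX1.self_of_nhds
  have htan0 : ∀ c : ℂ, fderiv ℝ Φ x₀ (c • X x₀) = 0 := htan.self_of_nhds
  set Ψ := Psi i₀ (X x₀) π Φ with hΨ
  have hΨc : ContDiffAt ℝ 1 Ψ x₀ := contDiffAt_Psi hΦ
  have hone : (1 : WithTop ℕ∞) ≠ 0 := one_ne_zero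
  have hd : HasFDerivAt Ψ ((ContinuousLinearEquiv.refl ℝ (Fin m → ℂ) :
      (Fin m → ℂ) ≃L[ℝ] (Fin m → ℂ)) : (Fin m → ℂ) →L[ℝ] (Fin m → ℂ)) x₀ := by
    have h := hasFDerivAt_Psi (i₀ := i₀) (X₀ := X x₀) (π := π) (hΦ.differentiableAt hone)
    have h2 : (pr i₀).smulRight (X x₀) + π.comp (fderiv ℝ Φ x₀) =
        ((ContinuousLinearEquiv.refl ℝ (Fin m → ℂ) :
      (Fin m → ℂ) ≃L[ℝ] (Fin m → ℂ)) : (Fin m → ℂ) →L[ℝ] (Fin m → ℂ)) := by
      ext1 v
      have h3 : (v - v i₀ • X x₀) i₀ = 0 := by simp [hX10]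
      have h4 := hπ _ h3
      rw [map_sub, htan0, sub_zero] at h4
      simp [h4]
    rw [← h2]
    exact h
  let e : OpenPartialHomeomorph (Fin m → ℂ) (Fin m → ℂ) :=
    hΨc.toOpenPartialHomeomorph Ψ hd hone
  have hee : ∀ x, e x = Ψ x := fun x => rfl
  have hxs : x₀ ∈ e.source := hΨc.mem_toOpenPartialHomeomorph_source hd hone
  have hxt : Ψ x₀ ∈ e.target := hΨc.image_mem_toOpenPartialHomeomorph_target hd hone
  have hec : ContDiffAt ℝ 1 e.symm (Ψ x₀) := hΨc.to_localInverse hd hone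
  -- the line
  let w : ℂ → (Fin m → ℂ) := fun ζ => ζ • X x₀ + π (Φ x₀)
  have hw0 : w (x₀ i₀) = Ψ x₀ := rfl
  have hwc : Continuous w := by fun_prop
  have hwd : ∀ ζ, HasFDerivAt w ((ContinuousLinearMap.id ℝ ℂ).smulRight (X x₀)) ζ := fun ζ =>
    ((ContinuousLinearMap.id ℝ ℂ).smulRight (X x₀)).hasFDerivAt.add_const (π (Φ x₀))
  let g : ℂ → (Fin m → ℂ) := fun ζ => e.symm (w ζ)
  have hg0 : g (x₀ i₀) = x₀ := by
    show e.symm (w (x₀ i₀)) = x₀
    rw [hw0, ← hee]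
    exact e.left_inv hxs
  have hgc : ContinuousAt g (x₀ i₀) := by
    have h1 : ContinuousAt e.symm (w (x₀ i₀)) := by rw [hw0]; exact hec.continuousAt
    exact ContinuousAt.comp h1 hwc.continuousAt
  have htg : Tendsto g (𝓝 (x₀ i₀)) (𝓝 x₀) := by
    have := hgc.tendsto; rwa [hg0] at this
  have htw : Tendsto w (𝓝 (x₀ i₀)) (𝓝 (Ψ x₀)) := by
    have := hwc.continuousAt.tendsto (x := x₀ i₀); rwa [hw0] at this
  have hΨev : ∀ᶠ x in 𝓝 x₀, ContDiffAt ℝ 1 Φ x := hΦ.eventually (by simp)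
  have hecev : ∀ᶠ y in 𝓝 (Ψ x₀), ContDiffAt ℝ 1 e.symm y := hec.eventually (by simp)
  have hall : ∀ᶠ ζ in 𝓝 (x₀ i₀), w ζ ∈ e.target ∧ ContDiffAt ℝ 1 e.symm (w ζ) ∧
      ContDiffAt ℝ 1 Φ (g ζ) ∧ X (g ζ) i₀ = 1 ∧ ∀ c : ℂ, fderiv ℝ Φ (g ζ) (c • X (g ζ)) = 0 := by
    filter_upwards [htw.eventually (e.open_target.mem_nhds hxt), htw.eventually hecev,
      htg.eventually hΨev, htg.eventually hX1, htg.eventually htan] with ζ h1 h2 h3 h4 h5
    exact ⟨h1, h2, h3, h4, h5⟩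
  obtain ⟨r, hr, hball⟩ := Metric.eventually_nhds_iff_ball.1 hall
  have key : ∀ ζ ∈ Metric.ball (x₀ i₀) r, g ζ i₀ = ζ ∧
      HasFDerivAt g ((ContinuousLinearMap.id ℝ ℂ).smulRight (X (g ζ))) ζ := by
    intro ζ hζ
    obtain ⟨h1, h2, h3, h4, h5⟩ := hball ζ hζ
    have h6 : Ψ (g ζ) = w ζ := e.right_inv h1
    have h7 : g ζ ∈ e.source := e.map_target h1
    refine ⟨?_, ?_⟩
    · have h8 := congrFun h6 i₀
      simpa [hΨ, Psi, w, hπ0, hX10] using h8
    · have hs : HasFDerivAt e.symm (fderiv ℝ e.symm (w ζ)) (w ζ) :=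
        (h2.differentiableAt hone).hasFDerivAt
      have hc := hs.comp ζ (hwd ζ)
      have hDΨ := hasFDerivAt_Psi (i₀ := i₀) (X₀ := X x₀) (π := π) (h3.differentiableAt hone)
      have hid : HasFDerivAt (fun x => e.symm (Ψ x)) (ContinuousLinearMap.id ℝ _) (g ζ) := by
        refine (hasFDerivAt_id (g ζ)).congr_of_eventuallyEq ?_
        filter_upwards [e.open_source.mem_nhds h7] with x hx
        exact e.left_inv hx
      have hs' : HasFDerivAt e.symm (fderiv ℝ e.symm (w ζ)) (Ψ (g ζ)) := by rw [h6]; exact hs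
      have hu := (hs'.comp (g ζ) hDΨ).unique hid
      have h9 : (fderiv ℝ e.symm (w ζ)).comp ((ContinuousLinearMap.id ℝ ℂ).smulRight (X x₀)) =
          (ContinuousLinearMap.id ℝ ℂ).smulRight (X (g ζ)) := by
        ext1 c
        have h10 := congrArg (fun f : (Fin m → ℂ) →L[ℝ] (Fin m → ℂ) => f (c • X (g ζ))) hu
        simpa [h4, h5] using h10
      rw [← h9]
      exact hc
  refine ⟨g, r, hr, hg0, fun ζ hζ => ⟨(key ζ hζ).1, ?_, ?_⟩, ?_⟩
  · have h1 := (key ζ hζ).2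
    have h2 : HasFDerivAt g ((ContinuousLinearMap.id ℂ ℂ).smulRight (X (g ζ))) ζ := by
      apply hasFDerivAt_of_restrictScalars ℝ h1
      ext1 c
      simp
    have := h2.hasDerivAt
    simpa using this
  · have h1 : ∀ ζ ∈ Metric.ball (x₀ i₀) r, HasFDerivAt (fun ζ => Φ (g ζ)) (0 : ℂ →L[ℝ] V) ζ := by
      intro ζ hζ
      obtain ⟨_, _, h3, _, h5⟩ := hball ζ hζ
      have h6 := (h3.differentiableAt hone).hasFDerivAt.comp ζ (key ζ hζ).2
      have h7 : (fderiv ℝ Φ (g ζ)).comp ((ContinuousLinearMap.id ℝ ℂ).smulRight (X (g ζ))) = 0 := by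
        ext1 c
        simpa using h5 c
      rw [h7] at h6
      exact h6
    have h2 := (Metric.isOpen_ball (x := x₀ i₀) (ε := r)).is_const_of_fderiv_eq_zero (𝕜 := ℝ)
      (f := fun ζ => Φ (g ζ)) (convex_ball _ _).isPreconnected
      (fun z hz => (h1 z hz).differentiableAt.differentiableWithinAt)
      (fun z hz => (h1 z hz).fderiv) hζ (Metric.mem_ball_self hr)
    rw [hg0] at h2
    exact h2
  · filter_upwards [e.open_source.mem_nhds hxs] with x hx hxΦ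
    have h1 : Ψ x = w (x i₀) := by simp only [hΨ, Psi, w, hxΦ]
    have h2 := e.left_inv hx
    rw [hee, h1] at h2
    exact h2.symm

end Crest.Agent.R276.LsA_450
end
end

-- ▼ part R276/LsB_450

/-!
# Row 276 (S0419): the classes of local invariants are closed curves (helper450)
-/

set_option autoImplicit false
set_option linter.unusedSectionVars false

noncomputable section

open Set Filter Topology MeasureTheory
open Crest.Agent.R271.Ho51
open Crest.Agent.R276.Ipc735 (SmAt HolAt)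
open Crest.Agent.R276.LsDefs_450 Crest.Agent.R276.LsA_450

namespace Crest.Agent.R276.LsB_450

variable {m : ℕ} {M : Type*} [TopologicalSpace M] [RDom m M]

section basics

/-- the inverse chart at `q` is continuous at `cp q` -/
lemma tendsto_ch_symm (q : M) : Tendsto (ch q).symm (𝓝 (cp q)) (𝓝 q) := by
  have := (ch q).symm.continuousAt (x := cp q) (by simpa using (isCh_ch q).cp_mem (mem_ch q))
  rwa [ContinuousAt, (isCh_ch q).symm_cp (mem_ch q)] at this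

lemma mem_target (q : M) : ∀ᶠ z in 𝓝 (cp q), z ∈ (ch q).target :=
  (ch q).open_target.mem_nhds ((isCh_ch q).cp_mem (mem_ch q))

lemma continuousAt_of_smAt {V : Type*} [NormedAddCommGroup V] [NormedSpace ℝ V] {f : M → V} {q : M}
    (h : SmAt f q) : ContinuousAt f q := by
  have h1 : ContinuousAt (fun y => (f ∘ (ch q).symm) (cp y)) q :=
    ContinuousAt.comp (g := f ∘ (ch q).symm) (ContDiffAt.continuousAt h) cp_cont.continuousAt
  exact h1.congr (eventually_eq_comp (isCh_ch q) (mem_ch q) f).symm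

lemma hol_continuous {f : M → ℂ} (hf : Hol f) : Continuous f := by
  rw [continuous_iff_continuousAt]
  intro q
  have h0 : ContinuousAt (f ∘ (ch q).symm) (cp q) :=
    ((hf (ch q) (isCh_ch q)).differentiableAt (mem_target q)).continuousAt
  have h1 : ContinuousAt (fun y => (f ∘ (ch q).symm) (cp y)) q :=
    ContinuousAt.comp (g := f ∘ (ch q).symm) h0 cp_cont.continuousAt
  exact h1.congr (eventually_eq_comp (isCh_ch q) (mem_ch q) f).symm

end basics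

variable {i₀ : Fin m} {V : Type*} [NormedAddCommGroup V] [NormedSpace ℝ V] {G : Type*} [Group G]
  (I : Inv M i₀ V G)

lemma contAt_F (q : M) : ContinuousAt (I.F q) q := continuousAt_of_smAt (I.sm q)

lemma diffAt_F (q : M) : DifferentiableAt ℝ (I.F q ∘ (ch q).symm) (cp q) :=
  ContDiffAt.differentiableAt (I.sm q) (by simp)

/-- the chart expression of `F q` -/
def Ph (q : M) : (Fin m → ℂ) → V := I.F q ∘ (ch q).symm

lemma ρ_mul (a b : G) (v : V) : I.ρ (a * b) v = I.ρ a (I.ρ b v) := by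
  rw [map_mul]; rfl

lemma ρ_one (v : V) : I.ρ 1 v = v := by rw [map_one]; rfl

lemma ρ_inv (a : G) (v : V) : I.ρ a⁻¹ (I.ρ a v) = v := by
  rw [← ρ_mul, inv_mul_cancel, ρ_one]


lemma mem_S_self (p : M) : p ∈ I.S p := ⟨1, (ρ_one I _).symm⟩

lemma S_symm {p q : M} (h : q ∈ I.S p) : p ∈ I.S q := by
  obtain ⟨γ, hγ⟩ := h
  exact ⟨γ⁻¹, by rw [hγ, ρ_inv]⟩

lemma S_trans {p q r : M} (h : q ∈ I.S p) (h' : r ∈ I.S q) : r ∈ I.S p := by
  obtain ⟨γ, hγ⟩ := h
  obtain ⟨γ', hγ'⟩ := h'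
  exact ⟨γ' * γ, by rw [hγ', hγ, ρ_mul]⟩


/-- near `z` the derivatives of `F z` and `F x` agree up to the group -/
lemma D_near (z : M) : ∀ᶠ x in 𝓝 z, ∃ γ, D (I.F z) x = (I.ρ γ).comp (D (I.F x) x) := by
  filter_upwards [I.ndc z] with x hx
  obtain ⟨γ, hγ⟩ := hx
  refine ⟨γ, ?_⟩
  rw [D_congr hγ]
  have h1 : HasFDerivAt ((fun y => I.ρ γ (I.F x y)) ∘ (ch x).symm)
      ((I.ρ γ).comp (D (I.F x) x)) (cp x) :=
    (I.ρ γ).hasFDerivAt.comp (cp x) (diffAt_F I x).hasFDerivAt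
  exact h1.fderiv

lemma tan_near (z : M) : ∀ᶠ x in 𝓝 z, ∀ c : ℂ, D (I.F z) x (c • I.X x) = 0 := by
  filter_upwards [D_near I z] with x hx c
  obtain ⟨γ, hγ⟩ := hx
  rw [hγ, ContinuousLinearMap.comp_apply, I.tan, map_zero]

/-- near a point `q` of a class, the class is `{F q = e q}` -/
theorem S_near [FiniteDimensional ℝ V] {p q : M} (hq : q ∈ I.S p) :
    ∀ᶠ y in 𝓝 q, (y ∈ I.S p ↔ I.F q y = I.e q) := by
  obtain ⟨U, hU, W, hW, hfin⟩ := I.pd q q
  set T := {γ | ∃ x ∈ U, ∃ y ∈ W, I.ρ γ (I.F q x) = I.F q y}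
  have hfin2 : ((fun γ => I.ρ γ (I.e q)) '' T \ {I.e q}).Finite := (hfin.image _).diff
  have hclosed : IsClosed ((fun γ => I.ρ γ (I.e q)) '' T \ {I.e q}) := hfin2.isClosed
  have hnot : I.F q q ∉ ((fun γ => I.ρ γ (I.e q)) '' T \ {I.e q}) := by
    rw [I.Fz]; simp
  have hev : ∀ᶠ y in 𝓝 q, I.F q y ∉ ((fun γ => I.ρ γ (I.e q)) '' T \ {I.e q}) :=
    (contAt_F I q).eventually (hclosed.isOpen_compl.mem_nhds hnot)
  filter_upwards [hev, hW] with y hy hyW
  constructor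
  · intro hyS
    obtain ⟨a, ha⟩ := S_trans I (S_symm I hq) hyS
    obtain ⟨b, hb⟩ := I.orb q y
    have h1 : I.F q y = I.ρ (b * a) (I.e q) := by rw [hb, ha, ρ_mul]
    by_contra hne
    apply hy
    refine ⟨⟨b * a, ⟨q, mem_of_mem_nhds hU, y, hyW, ?_⟩, h1.symm⟩, hne⟩
    rw [I.Fz, h1]
  · intro hF
    obtain ⟨b, hb⟩ := I.orb q y
    refine S_trans I hq ⟨b⁻¹, ?_⟩
    rw [← hF, hb, ρ_inv]

theorem isClosed_S [FiniteDimensional ℝ V] (p : M) : IsClosed (I.S p) := by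
  rw [← closure_subset_iff_isClosed]
  intro q hq
  obtain ⟨U, hU, W, hW, hfin⟩ := I.pd p q
  set T := {γ | ∃ x ∈ U, ∃ y ∈ W, I.ρ γ (I.F p x) = I.F q y}
  have hfin2 : ((fun γ => I.ρ γ (I.e p)) '' T).Finite := hfin.image _
  have hfr : ∃ᶠ y in 𝓝 q, y ∈ I.S p ∧ y ∈ W := by
    rw [mem_closure_iff_frequently] at hq
    exact hq.and_eventually hW
  have h2 : ∃ᶠ y in 𝓝 q, I.F q y ∈ (fun γ => I.ρ γ (I.e p)) '' T := by
    refine hfr.mono ?_
    rintro y ⟨⟨a, ha⟩, hyW⟩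
    obtain ⟨b, hb⟩ := I.orb q y
    have h1 : I.F q y = I.ρ (b * a) (I.e p) := by rw [hb, ha, ρ_mul]
    refine ⟨b * a, ⟨p, mem_of_mem_nhds hU, y, hyW, ?_⟩, h1.symm⟩
    rw [I.Fz, h1]
  have h3 : I.F q q ∈ (fun γ => I.ρ γ (I.e p)) '' T := by
    by_contra hnot
    have := (contAt_F I q).eventually (hfin2.isClosed.isOpen_compl.mem_nhds hnot)
    exact h2 this
  obtain ⟨γ, _, hγ⟩ := h3
  rw [I.Fz] at hγ
  exact ⟨γ, hγ.symm⟩

/-- **Local structure of a class** near a point of `M*`: in the chart at `q` it is a holomorphic graph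
over the coordinate `i₀`, an integral curve of `X`. -/
theorem graph [FiniteDimensional ℝ V] {p q : M} (hq : q ∈ I.S p) (hqM : q ∈ I.Mst) :
    ∃ (g : ℂ → (Fin m → ℂ)) (r : ℝ), 0 < r ∧ g (cp q i₀) = cp q ∧
      (∀ ζ ∈ Metric.ball (cp q i₀) r, g ζ ∈ (ch q).target ∧ g ζ i₀ = ζ ∧
        HasDerivAt g (I.X ((ch q).symm (g ζ))) ζ ∧ (ch q).symm (g ζ) ∈ I.S p ∧
        I.F q ((ch q).symm (g ζ)) = I.e q) ∧
      ∀ᶠ y in 𝓝 q, (I.F q y = I.e q → cp y = g (cp y i₀)) ∧ (y ∈ I.S p ↔ I.F q y = I.e q) := by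
  have hsm : ContDiffAt ℝ 1 (Ph I q) (cp q) := ContDiffAt.of_le (I.sm q) (by exact_mod_cast le_top)
  have hX1 : ∀ᶠ x in 𝓝 (cp q), (fun x => I.X ((ch q).symm x)) x i₀ = 1 :=
    Eventually.of_forall fun x => I.X1 _
  have htan : ∀ᶠ x in 𝓝 (cp q), ∀ c : ℂ,
      fderiv ℝ (Ph I q) x (c • (fun x => I.X ((ch q).symm x)) x) = 0 := by
    filter_upwards [(tendsto_ch_symm q).eventually (tan_near I q), mem_target q] with x hx hxt c
    have := hx c
    rw [D_symm (isCh_ch q) hxt] at this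
    exact this
  have himm : ∀ v : Fin m → ℂ, v i₀ = 0 → fderiv ℝ (Ph I q) (cp q) v = 0 → v = 0 := hqM
  have hval : Ph I q (cp q) = I.e q := by
    show I.F q ((ch q).symm (cp q)) = _
    rw [symm_cp, I.Fz]
  obtain ⟨g, r, hr, hg0, hg1, hg2⟩ := level hsm hX1 htan himm
  have hgc : ContinuousAt g (cp q i₀) := (hg1 _ (Metric.mem_ball_self hr)).2.1.continuousAt
  have hgt : Tendsto g (𝓝 (cp q i₀)) (𝓝 (cp q)) := by
    have := hgc.tendsto; rwa [hg0] at this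
  have hall : ∀ᶠ ζ in 𝓝 (cp q i₀), g ζ ∈ (ch q).target ∧
      ((ch q).symm (g ζ) ∈ I.S p ↔ I.F q ((ch q).symm (g ζ)) = I.e q) := by
    filter_upwards [hgt.eventually (mem_target q),
      ((tendsto_ch_symm q).comp hgt).eventually (S_near I hq)] with ζ h1 h2
    exact ⟨h1, h2⟩
  obtain ⟨r', hr', hball⟩ := Metric.eventually_nhds_iff_ball.1 hall
  refine ⟨g, min r r', lt_min hr hr', hg0, ?_, ?_⟩
  · intro ζ hζ
    have hζ1 : ζ ∈ Metric.ball (cp q i₀) r := Metric.ball_subset_ball (min_le_left _ _) hζ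
    have hζ2 : ζ ∈ Metric.ball (cp q i₀) r' := Metric.ball_subset_ball (min_le_right _ _) hζ
    obtain ⟨h1, h2, h3⟩ := hg1 ζ hζ1
    obtain ⟨h4, h5⟩ := hball ζ hζ2
    have h6 : I.F q ((ch q).symm (g ζ)) = I.e q := by rw [← hval]; exact h3
    exact ⟨h4, h1, h2, h5.2 h6, h6⟩
  · filter_upwards [S_near I hq, cp_cont.continuousAt.eventually hg2,
      (ch q).open_source.mem_nhds (mem_ch q)] with y h1 h2 h3
    refine ⟨fun hF => ?_, h1⟩
    apply h2
    show I.F q ((ch q).symm (cp y)) = _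
    rw [(isCh_ch q).symm_cp h3, hval]
    exact hF

/-- the coordinate on a class -/
def pS (p : M) (q : I.S p) : Fin 1 → ℂ := fun _ => cp (q : M) i₀

/-- a chart of a class at a point of `M*` -/
theorem exists_chart [FiniteDimensional ℝ V] {p : M} (q : I.S p) (hqM : (q : M) ∈ I.Mst) :
    ∃ (e : OpenPartialHomeomorph (I.S p) (Fin 1 → ℂ)) (g : ℂ → (Fin m → ℂ)), q ∈ e.source ∧
      (⇑e : I.S p → (Fin 1 → ℂ)) = pS I p ∧ g (cp (q : M) i₀) = cp (q : M) ∧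
      ∀ z ∈ e.target, g (z 0) ∈ (ch (q : M)).target ∧
        ((e.symm z : I.S p) : M) = (ch (q : M)).symm (g (z 0)) ∧
        HasDerivAt g (I.X (e.symm z)) (z 0) := by
  classical
  obtain ⟨g, r, hr, hg0, hg1, hg2⟩ := graph I q.2 hqM
  obtain ⟨N, hN, hNo, hqN⟩ := _root_.eventually_nhds_iff.1
    ((hg2.and ((ch (q : M)).open_source.mem_nhds (mem_ch (q : M)))).and
      ((continuous_apply i₀).continuousAt.comp cp_cont.continuousAt |>.eventually
        (Metric.ball_mem_nhds (cp (q : M) i₀) hr)))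
  -- the inverse
  let B : Set (Fin 1 → ℂ) := (fun z : Fin 1 → ℂ => z 0) ⁻¹' Metric.ball (cp (q : M) i₀) r
  have hBo : IsOpen B := Metric.isOpen_ball.preimage (continuous_apply 0)
  let k : (Fin 1 → ℂ) → M := fun z => (ch (q : M)).symm (g (z 0))
  have hkc : ContinuousOn k B := by
    intro z hz
    obtain ⟨h1, _, h3, _⟩ := hg1 _ hz
    have h4 : ContinuousAt (fun z : Fin 1 → ℂ => g (z 0)) z :=
      ContinuousAt.comp (g := g) h3.continuousAt (continuous_apply 0).continuousAt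
    exact (ContinuousAt.comp (g := (ch (q : M)).symm)
      ((ch (q : M)).symm.continuousAt (by simpa using h1)) h4).continuousWithinAt
  have hkS : ∀ z ∈ B, k z ∈ I.S p := fun z hz => (hg1 _ hz).2.2.2.1
  let k' : (Fin 1 → ℂ) → I.S p := fun z => if h : k z ∈ I.S p then ⟨k z, h⟩ else q
  have hk' : ∀ z ∈ B, (k' z : M) = k z := by
    intro z hz
    simp only [k', dif_pos (hkS z hz)]
  have hto : IsOpen (B ∩ k ⁻¹' N) := hkc.isOpen_inter_preimage hBo hNo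
  have hz1 : ∀ z ∈ B, cp (k z) i₀ = z 0 := by
    intro z hz
    obtain ⟨h1, h2, _⟩ := hg1 _ hz
    show cp ((ch (q : M)).symm (g (z 0))) i₀ = z 0
    rw [(isCh_ch (q : M)).cp_symm h1, h2]
  have hz2 : ∀ y : I.S p, (y : M) ∈ N → pS I p y ∈ B ∧ k (pS I p y) = y := by
    intro y hy
    obtain ⟨⟨⟨h1, h2⟩, h3⟩, h4⟩ := hN _ hy
    have h5 := h1 (h2.1 y.2)
    refine ⟨h4, ?_⟩
    show (ch (q : M)).symm (g (cp (y : M) i₀)) = y
    rw [← h5, (isCh_ch (q : M)).symm_cp h3]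
  let e : OpenPartialHomeomorph (I.S p) (Fin 1 → ℂ) :=
    { toFun := pS I p
      invFun := k'
      source := {y | (y : M) ∈ N}
      target := B ∩ k ⁻¹' N
      map_source' := by
        intro y hy
        obtain ⟨h1, h2⟩ := hz2 y hy
        exact ⟨h1, by rw [mem_preimage, h2]; exact hy⟩
      map_target' := by
        rintro z ⟨hz, hzN⟩
        show (k' z : M) ∈ N
        rw [hk' z hz]; exact hzN
      left_inv' := by
        intro y hy
        obtain ⟨h1, h2⟩ := hz2 y hy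
        apply Subtype.ext
        rw [hk' _ h1, h2]
      right_inv' := by
        rintro z ⟨hz, hzN⟩
        funext i
        show cp (k' z : M) i₀ = z i
        rw [hk' z hz, hz1 z hz, Subsingleton.elim i 0]
      open_source := hNo.preimage continuous_subtype_val
      open_target := hto
      continuousOn_toFun := by
        apply Continuous.continuousOn
        exact continuous_pi fun _ => (continuous_apply i₀).comp (cp_cont.comp continuous_subtype_val)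
      continuousOn_invFun := by
        rw [Topology.IsInducing.subtypeVal.continuousOn_iff]
        refine (hkc.mono inter_subset_left).congr ?_
        rintro z ⟨hz, hzN⟩
        exact hk' z hz }
  refine ⟨e, g, hqN, rfl, hg0, ?_⟩
  rintro z ⟨hz, hzN⟩
  obtain ⟨h1, h2, h3, _⟩ := hg1 _ hz
  have h5 : ((e.symm z : I.S p) : M) = k z := hk' z hz
  refine ⟨h1, h5, ?_⟩
  rw [h5]
  exact h3

theorem lh_pS [FiniteDimensional ℝ V] {p : M} (h : I.S p ⊆ I.Mst) : IsLocalHomeomorph (pS I p) := by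
  intro q
  obtain ⟨e, g, h1, h2, _⟩ := exists_chart I q (h q.2)
  exact ⟨e, h1, h2.symm⟩

/-- the Riemann domain structure of a class contained in `M*` -/
@[reducible] def rdomS [FiniteDimensional ℝ V] {p : M} (h : I.S p ⊆ I.Mst) : RDom 1 (I.S p) where
  p := pS I p
  hp := lh_pS I h

end Crest.Agent.R276.LsB_450
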