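import Crest.Agent.R276.EndC3_723
import Crest.Agent.R276.RelB_870
import Crest.Agent.R276.EndInd_870
import Crest.Agent.R276.FK1_779
import Crest.Agent.R276.Skel_220
import Crest.Agent.R276.GoalU_845

-- ▼ part R276/EndS_723
section

/-!
# Row 276, EndS (helper723): the functions on one fibre of `M_K → M_T`
-/

set_option autoImplicit false
set_option linter.unusedSectionVars false

noncomputable section

open Set Filter Topology MeasureTheory
open scoped ENNReal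

namespace Crest.Agent.R276.EndC_723

open Crest.Agent.R271 Crest.Agent.R271.Ho51
open Crest.Agent.R271.Rd692 (continuous_iff_ev continuous_ev lintegral_eq_fibre measurable_fibre)
open Crest.Agent.R271.Defs710 hiding glue
open Crest.Agent.R273.Dir73 (hol_of_local)
open Crest.Agent.R276.FKDefs_779 Crest.Agent.R276.BC_986
open Crest.Agent.R276.Mod1_987 Crest.Agent.R276.EngU_29 Crest.Agent.R276.SkelDefs_220
open Crest.Agent.R276.BR_590 (cat bs fb bs_cat fb_cat cat_bs_fb)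
open Crest.Agent.R276.End_723 (etChart zA_etChart tn zn Growth sb)
open Crest.Agent.R276.TowA_849
open Crest.Agent.R276.PshB_29 (HolMap)

/-! ### holomorphic functions and maps -/

section hol

variable {n n' : ℕ} {M : Type*} [TopologicalSpace M] [RDom n M]
  {M' : Type*} [TopologicalSpace M'] [RDom n' M']

theorem hol_comp {f : M' → M} (hf : HolMap f) {g : M → ℂ} (hg : Hol g) :
    Hol (fun x => g (f x)) := by
  refine hol_of_local fun x => ⟨ch x, isCh_ch x, mem_ch x, ?_⟩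
  have hT : (ch x).target ∈ 𝓝 (cp x) := (ch x).open_target.mem_nhds ((isCh_ch x).cp_mem (mem_ch x))
  have hc : ContinuousAt (fun w => f ((ch x).symm w)) (cp x) := by
    have h1 : ContinuousAt (ch x).symm (cp x) :=
      (ch x).symm.continuousAt (by simpa using (isCh_ch x).cp_mem (mem_ch x))
    exact hf.cont.continuousAt.comp h1
  have h2 : ∀ᶠ w in 𝓝 (cp x), f ((ch x).symm w) ∈ (ch (f x)).source := by
    apply hc.eventually_mem
    simp only [(isCh_ch x).symm_cp (mem_ch x)]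
    exact (ch (f x)).open_source.mem_nhds (mem_ch (f x))
  have heq : ((fun x => g (f x)) ∘ (ch x).symm) =ᶠ[𝓝 (cp x)]
      fun w => (g ∘ (ch (f x)).symm) (fun j => cp (f ((ch x).symm w)) j) := by
    filter_upwards [h2] with w hw
    simp only [Function.comp_apply]
    rw [(isCh_ch (f x)).symm_cp hw]
  refine DifferentiableAt.congr_of_eventuallyEq ?_ heq
  have hin : DifferentiableAt ℂ (fun w => (fun j => cp (f ((ch x).symm w)) j)) (cp x) := by
    rw [differentiableAt_pi]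
    intro j
    exact (hf.hol j (ch x) (isCh_ch x)).differentiableAt hT
  have hx : (fun j => cp (f ((ch x).symm (cp x))) j) = cp (f x) := by
    rw [(isCh_ch x).symm_cp (mem_ch x)]
  have hout : DifferentiableAt ℂ (g ∘ (ch (f x)).symm)
      (fun j => cp (f ((ch x).symm (cp x))) j) := by
    rw [hx]
    exact (hg _ (isCh_ch (f x))).differentiableAt
      ((ch (f x)).open_target.mem_nhds ((isCh_ch (f x)).cp_mem (mem_ch (f x))))
  exact DifferentiableAt.comp (g := g ∘ (ch (f x)).symm) (cp x) hout hin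

lemma hol_const (c : ℂ) : Hol (fun _ : M => c) := fun _ _ => differentiableOn_const c

lemma hol_mul {f g : M → ℂ} (hf : Hol f) (hg : Hol g) : Hol (fun x => f x * g x) :=
  fun e he => (hf e he).mul (hg e he)

lemma hol_pow {f : M → ℂ} (hf : Hol f) (k : ℕ) : Hol (fun x => f x ^ k) :=
  fun e he => (hf e he).pow k

lemma hol_sum {ι : Type*} (s : Finset ι) {f : ι → M → ℂ} (hf : ∀ i ∈ s, Hol (f i)) :
    Hol (fun x => ∑ i ∈ s, f i x) := fun e he => by
  have h : ((fun x => ∑ i ∈ s, f i x) ∘ e.symm) = fun w => ∑ i ∈ s, (f i ∘ e.symm) w := by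
    funext w; rfl
  rw [h]
  exact DifferentiableOn.fun_sum fun i hi => hf i hi e he

lemma hol_prod {ι : Type*} (s : Finset ι) {f : ι → M → ℂ} (hf : ∀ i ∈ s, Hol (f i)) :
    Hol (fun x => ∏ i ∈ s, f i x) := by
  classical
  induction s using Finset.induction_on with
  | empty => simpa using hol_const (M := M) 1
  | insert i s hi ih =>
    simp only [Finset.prod_insert hi]
    exact hol_mul (hf i (Finset.mem_insert_self i s))
      (ih fun j hj => hf j (Finset.mem_insert_of_mem hj))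

end hol

/-! ### the fibre of `M_K → M_T` -/

section tower

variable {T L K : Type} [Field T] [Field L] [Field K] [Algebra ℂ T] [Algebra ℂ L] [Algebra ℂ K]
  [Algebra T L] [Algebra L K] [Algebra T K] [IsScalarTower ℂ T L] [IsScalarTower ℂ L K]
  [IsScalarTower T L K] [IsScalarTower ℂ T K] {ρ a r : ℕ}
  {MT : Mdl T ρ} {ML : Mdl L (ρ + a)} {MK : Mdl K (ρ + a + r)} (H₁ : Rel MT ML) (H₂ : Rel ML MK)

/-- the tower as 849's `Tow` -/
def tow : Tow T L K ρ a r := ⟨MT, ML, MK, H₁.coord, H₂.coord, H₁.mem, H₂.mem⟩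

/-- `M_K → M_T` as a relative model -/
def RTK : RMdl T K ρ (a + r) := (tow H₁ H₂).TK

variable {H₁ H₂} {y₀ : (RTK H₁ H₂).ML.Pts}

/-- the base point as a point of `M_T` -/
def ptT (y₀ : (RTK H₁ H₂).ML.Pts) : MT.Pts := y₀

/-- a point of the fibre as a point of `M_K` -/
def ptK (x : (RTK H₁ H₂).Fib y₀) : MK.Pts := toM (eA ρ a r) MK x.val

lemma f_ptK (x : (RTK H₁ H₂).Fib y₀) : H₁.f (H₂.f (ptK x)) = ptT y₀ := by
  have h1 := x.q_eq
  have h2 := (tow H₁ H₂).q_TK (ptK x)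
  exact h2.symm.trans h1


lemma eA_symm_natAdd_castAdd (i : Fin a) :
    (eA ρ a r).symm (Fin.natAdd ρ (Fin.castAdd r i)) = Fin.castAdd r (Fin.natAdd ρ i) := by
  apply Fin.ext; simp [eA]

lemma eA_symm_natAdd_natAdd (i : Fin r) :
    (eA ρ a r).symm (Fin.natAdd ρ (Fin.natAdd a i)) = Fin.natAdd (ρ + a) i := by
  apply Fin.ext; simp [eA]; omega

/-- the coordinates of a point of the fibre -/
lemma cp_fib_left (x : (RTK H₁ H₂).Fib y₀) (i : Fin a) :
    cp x (Fin.castAdd r i) = MK.pz (ptK x) (Fin.castAdd r (Fin.natAdd ρ i)) := by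
  rw [← eA_symm_natAdd_castAdd]
  rfl

lemma cp_fib_right (x : (RTK H₁ H₂).Fib y₀) (i : Fin r) :
    cp x (Fin.natAdd a i) = MK.pz (ptK x) (Fin.natAdd (ρ + a) i) := by
  rw [← eA_symm_natAdd_natAdd]
  rfl

lemma pz_base (x : (RTK H₁ H₂).Fib y₀) (i : Fin ρ) :
    MK.pz (ptK x) (Fin.castAdd r (Fin.castAdd a i)) = MT.pz (ptT y₀) i := by
  have h1 : MK.pz (ptK x) (Fin.castAdd r (Fin.castAdd a i)) =
      bs (MK.pz (ptK x)) (Fin.castAdd a i) := rfl
  rw [h1, rel_pz H₂]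
  have h2 : ML.pz (H₂.f (ptK x)) (Fin.castAdd a i) = bs (ML.pz (H₂.f (ptK x))) i := rfl
  rw [h2, rel_pz H₁, f_ptK]

theorem holMap_ptK : HolMap (ptK : (RTK H₁ H₂).Fib y₀ → MK.Pts) := by
  refine ⟨?_, fun j => ?_⟩
  · exact RMdl.Fib.continuous_val (R := RTK H₁ H₂) y₀
  · have hj : ∃ j', (eA ρ a r).symm j' = j := ⟨eA ρ a r j, by simp⟩
    obtain ⟨j', rfl⟩ := hj
    refine Fin.addCases (fun i => ?_) (fun i => ?_) j'
    · have h1 : (fun x : (RTK H₁ H₂).Fib y₀ => cp (ptK x) ((eA ρ a r).symm (Fin.castAdd (a + r) i))) =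
          fun _ => MT.pz (ptT y₀) i := by
        funext x
        rw [eA_symm_castAdd]
        exact pz_base x i
      rw [h1]
      exact hol_const _
    · have h1 : (fun x : (RTK H₁ H₂).Fib y₀ => cp (ptK x) ((eA ρ a r).symm (Fin.natAdd ρ i))) =
          fun x => cp x i := rfl
      rw [h1]
      intro e he
      have h1 : DifferentiableOn ℂ (fun z : Fin (a + r) → ℂ => z i) e.target :=
        (differentiable_apply i).differentiableOn
      exact h1.congr fun z hz => by simp only [Function.comp_apply]; rw [he.cp_symm hz]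

lemma hol_ev_ptK (b : MK.B) : Hol (fun x : (RTK H₁ H₂).Fib y₀ => ptK x b) :=
  hol_comp holMap_ptK (MK.hol51_ev b)

/-- functions on `M_L` which are holomorphic along the slice -/
theorem hol_of_holS {g : ML.Pts → ℂ} (hg : HolS ML (eL ρ a) (MT.pz (ptT y₀)) g) :
    Hol (fun x : (RTK H₁ H₂).Fib y₀ => g (H₂.f (ptK x))) := by
  refine hol_of_local fun x => ⟨ch x, isCh_ch x, mem_ch x, ?_⟩
  have hT : (ch x).target ∈ 𝓝 (cp x) := (ch x).open_target.mem_nhds ((isCh_ch x).cp_mem (mem_ch x))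
  have htc : ∀ x : (RTK H₁ H₂).Fib y₀, tc ML (eL ρ a) (H₂.f (ptK x)) = MT.pz (ptT y₀) := by
    intro x
    funext i
    unfold tc eL
    rw [finSumFinEquiv_apply_left, ← rel_pz H₂]
    exact pz_base x i
  have hxc : ∀ x : (RTK H₁ H₂).Fib y₀, xc ML (eL ρ a) (H₂.f (ptK x)) = bs (cp x) := by
    intro x
    funext i
    unfold xc eL
    rw [finSumFinEquiv_apply_right, ← rel_pz H₂]
    exact (cp_fib_left x i).symm
  set z₀ := H₂.f (ptK x) with hz₀
  have han := hg z₀ (htc x)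
  have hcf : Continuous (fun y : MK.Pts => H₂.f y) := (holMap_comp ML MK H₂.incl).cont
  have hc : ContinuousAt (fun w => H₂.f (ptK ((ch x).symm w))) (cp x) := by
    have h1 : ContinuousAt (ch x).symm (cp x) :=
      (ch x).symm.continuousAt (by simpa using (isCh_ch x).cp_mem (mem_ch x))
    exact (hcf.comp holMap_ptK.cont).continuousAt.comp h1
  have h2 : ∀ᶠ w in 𝓝 (cp x), H₂.f (ptK ((ch x).symm w)) ∈ (ch z₀).source := by
    apply hc.eventually_mem
    simp only [(isCh_ch x).symm_cp (mem_ch x)]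
    exact (ch z₀).open_source.mem_nhds (mem_ch z₀)
  have heq : ((fun x : (RTK H₁ H₂).Fib y₀ => g (H₂.f (ptK x))) ∘ (ch x).symm) =ᶠ[𝓝 (cp x)]
      (fun v : Cn a => g ((ch z₀).symm (glue (eL ρ a) (MT.pz (ptT y₀)) v))) ∘ bsL a r := by
    filter_upwards [h2, hT] with w hw hwT
    simp only [Function.comp_apply]
    congr 1
    have h3 := (isCh_ch z₀).symm_cp hw
    rw [← h3]
    congr 1
    have h4 : bs (cp ((ch x).symm w)) = bs w := by rw [(isCh_ch x).cp_symm hwT]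
    have h5 := hxc ((ch x).symm w)
    have h6 := htc ((ch x).symm w)
    rw [h4] at h5
    funext j
    unfold glue
    obtain ⟨s, rfl⟩ := (eL ρ a).surjective j
    rw [Equiv.symm_apply_apply]
    rcases s with i | i
    · simp only [Sum.elim_inl]
      exact congrFun h6 i
    · simp only [Sum.elim_inr, bsL_apply]
      exact congrFun h5 i
  refine DifferentiableAt.congr_of_eventuallyEq ?_ heq
  have h7 : (bsL a r) (cp x) = xc ML (eL ρ a) z₀ := (hxc x).symm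
  refine DifferentiableAt.comp (cp x) ?_ (bsL a r).differentiableAt
  rw [h7]
  exact han.differentiableAt

end tower

end Crest.Agent.R276.EndC_723
end
end

-- ▼ part R276/EndT_723
section

/-!
# Row 276, EndT (helper723): composition `C1 … C4, Flat, … ⟹ EndData`, auxiliary lemmas

* `inh_of_hom` : homogeneous independence implies inhomogeneous independence;
* `evs_eq_sum`, `hol_evs`;
* `alg_le` : the pointwise inequality on the fibre.
-/

set_option autoImplicit false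
set_option linter.unusedSectionVars false

noncomputable section

open Set Filter Topology MeasureTheory
open scoped ENNReal

namespace Crest.Agent.R276.EndC_723

open Crest.Agent.R271 Crest.Agent.R271.Ho51
open Crest.Agent.R271.Rd692 (continuous_iff_ev continuous_ev lintegral_eq_fibre measurable_fibre)
open Crest.Agent.R271.Defs710 hiding glue
open Crest.Agent.R273.Dir73 (hol_of_local)
open Crest.Agent.R276.FKDefs_779 Crest.Agent.R276.BC_986
open Crest.Agent.R276.Mod1_987 Crest.Agent.R276.EngU_29 Crest.Agent.R276.SkelDefs_220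
open Crest.Agent.R276.BR_590 (cat bs fb bs_cat fb_cat cat_bs_fb)
open Crest.Agent.R276.End_723 (etChart zA_etChart tn zn Growth sb)
open Crest.Agent.R276.TowA_849
open Crest.Agent.R276.PshB_29 (HolMap)

/-! ### independence -/

section ind

open MvPolynomial Crest.Agent.R276.EndInd_870

theorem inh_of_hom {Y : Type*} {q : ℕ} (t : Y → Fin (q + 1) → ℂ)
    (h : ∀ (Δ : ℕ) (Q : MvPolynomial (Fin (q + 1)) ℂ), Q.IsHomogeneous Δ →
      (∀ y, eval (t y) Q = 0) → Q = 0)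
    (P : MvPolynomial (Fin q) ℂ) (hP : P ≠ 0) :
    ∃ y, t y 0 ≠ 0 ∧ eval (fun i => t y i.succ / t y 0) P ≠ 0 := by
  set N : ℕ := P.totalDegree + 1 with hN
  set Q : MvPolynomial (Fin (q + 1)) ℂ := hz (C : ℂ →+* MvPolynomial (Fin (q + 1)) ℂ) N (X 0)
    (fun i => X i.succ) P with hQ
  have hhom : Q.IsHomogeneous N := by
    rw [hQ]
    unfold hz
    refine IsHomogeneous.sum _ _ _ fun ν hν => ?_
    have h1 : ∑ i ∈ ν.support, ν i ≤ N := (sum_le_totalDegree hν).trans (Nat.le_succ _)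
    have h2 : (∏ i ∈ ν.support, (X i.succ : MvPolynomial (Fin (q + 1)) ℂ) ^ ν i).IsHomogeneous
        (∑ i ∈ ν.support, ν i) := by
      refine IsHomogeneous.prod _ _ _ fun i _ => ?_
      exact isHomogeneous_X_pow _ _
    have h3 : ((X 0 : MvPolynomial (Fin (q + 1)) ℂ) ^ (N - ∑ i ∈ ν.support, ν i)).IsHomogeneous
        (N - ∑ i ∈ ν.support, ν i) := isHomogeneous_X_pow _ _
    have h4 := (isHomogeneous_C (Fin (q + 1)) (P.coeff ν)).mul (h2.mul h3)
    rwa [zero_add, Nat.add_sub_of_le h1] at h4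
  have hQ0 : Q ≠ 0 := by
    intro h0
    obtain ⟨x, hx⟩ : ∃ x : Fin q → ℂ, eval x P ≠ 0 := by
      by_contra hcon
      push Not at hcon
      exact hP (MvPolynomial.funext fun x => by rw [hcon x, map_zero])
    apply hx
    have h1 := congrArg (eval (Fin.cons 1 x : Fin (q + 1) → ℂ)) h0
    rw [map_zero, hQ, map_hz] at h1
    have h2 : ((eval (Fin.cons 1 x : Fin (q + 1) → ℂ)).comp
        (C : ℂ →+* MvPolynomial (Fin (q + 1)) ℂ)) = RingHom.id ℂ := by
      ext c; simp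
    rw [h2, hz_eq (RingHom.id ℂ) (by simp) _ (Nat.le_succ _)] at h1
    simp only [eval_X, Fin.cons_zero, one_pow, one_mul, Fin.cons_succ, div_one] at h1
    exact h1
  obtain ⟨y, hy⟩ : ∃ y, eval (t y) Q ≠ 0 := by
    by_contra hcon
    push Not at hcon
    exact hQ0 (h N Q hhom hcon)
  have h2 : ((eval (t y)).comp (C : ℂ →+* MvPolynomial (Fin (q + 1)) ℂ)) = RingHom.id ℂ := by
    ext c; simp
  have h3 : eval (t y) Q = hz (RingHom.id ℂ) N (t y 0) (fun i => t y i.succ) P := by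
    rw [hQ, map_hz, h2]
    simp only [eval_X]
  rw [h3] at hy
  have h0 : t y 0 ≠ 0 := by
    intro h0
    rw [h0] at hy
    exact hy (hz_zero _ _ (Nat.lt_succ_self _))
  refine ⟨y, h0, fun h4 => hy ?_⟩
  rw [hz_eq _ h0 _ (Nat.le_succ _)]
  have h5 : eval₂ (RingHom.id ℂ) (fun i => t y i.succ / t y 0) P =
    eval (fun i => t y i.succ / t y 0) P := rfl
  rw [h5, h4, mul_zero]

/-- independence of the union -/
theorem ind_tower {Y G : Type*} (q : Y → G) {d e : ℕ} (τ : Fin (d + 1) → Y → ℂ)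
    (w : Fin (e + 1) → G → ℂ)
    (h1 : ∀ z : G, ∀ (Δ : ℕ) (Q : MvPolynomial (Fin (d + 1)) ℂ), Q.IsHomogeneous Δ →
      (∀ y, q y = z → eval (fun i => τ i y) Q = 0) → Q = 0)
    (h2 : ∀ (Δ : ℕ) (Q : MvPolynomial (Fin (e + 1)) ℂ), Q.IsHomogeneous Δ →
      (∀ z, eval (fun j => w j z) Q = 0) → Q = 0)
    (P : MvPolynomial (Fin d ⊕ Fin e) ℂ) (hP : P ≠ 0) :
    ∃ x, τ 0 x ≠ 0 ∧ w 0 (q x) ≠ 0 ∧
      eval (Sum.elim (fun i => τ i.succ x / τ 0 x) (fun j => w j.succ (q x) / w 0 (q x))) P ≠ 0 := by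
  refine ind_union q (⊤ : Subalgebra ℂ (G → ℂ)) (τ 0) (fun i : Fin d => τ i.succ) (w 0)
    (fun j : Fin e => w j.succ) trivial (fun _ => trivial) (fun PA hPA => ?_)
    (fun Q hQ => inh_of_hom (fun z j => w j z) h2 Q hQ) P hP
  obtain ⟨ν, hν⟩ := ne_zero_iff.1 hPA
  obtain ⟨z, hz⟩ : ∃ z : G, evA (⊤ : Subalgebra ℂ (G → ℂ)) z (PA.coeff ν) ≠ 0 := by
    by_contra hcon
    push Not at hcon
    exact hν (Subtype.ext (funext fun z => hcon z))
  have hz' : map (evA (⊤ : Subalgebra ℂ (G → ℂ)) z) PA ≠ 0 := by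
    intro h0
    apply hz
    rw [← coeff_map, h0, coeff_zero]
  obtain ⟨y, hy0, hy1⟩ := inh_of_hom (Y := {y : Y // q y = z}) (fun y i => τ i y.1)
    (fun Δ Q hQ h => h1 z Δ Q hQ fun y hy => h ⟨y, hy⟩) _ hz'
  refine ⟨y.1, hy0, ?_⟩
  rw [y.2]
  rw [eval_map] at hy1
  exact hy1

end ind

/-! ### the flat sections are holomorphic on the fibre -/

section evs

variable {K : Type} [Field K] [Algebra ℂ K] {m r : ℕ} {MK : Mdl K (m + r)}

lemma evs_eq_sum {s k : ℕ} {P : MvPolynomial (Fin s) ℂ} (hP : P.IsHomogeneous k)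
    (u : Fin s → MK.B) (y : MK.Pts) : evs u P y =
      ∑ ν ∈ (Finset.univ : Finset (Fin s)).finsuppAntidiag k,
        P.coeff ν * ∏ j, y (u j) ^ ν j := by
  unfold evs
  rw [MvPolynomial.eval_eq']
  refine Finset.sum_subset (fun ν hν => ?_) fun ν _ hν => ?_
  · rw [Finset.mem_finsuppAntidiag]
    refine ⟨?_, Finset.subset_univ _⟩
    have h1 : ν.degree = k := by
      by_contra hcon
      exact (MvPolynomial.mem_support_iff.1 hν) (hP.coeff_eq_zero hcon)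
    rw [← h1, Finsupp.degree_eq_sum]
  · rw [MvPolynomial.notMem_support_iff.1 hν, zero_mul]

end evs

section tower

variable {T L K : Type} [Field T] [Field L] [Field K] [Algebra ℂ T] [Algebra ℂ L] [Algebra ℂ K]
  [Algebra T L] [Algebra L K] [Algebra T K] [IsScalarTower ℂ T L] [IsScalarTower ℂ L K]
  [IsScalarTower T L K] [IsScalarTower ℂ T K] {ρ a r : ℕ}
  {MT : Mdl T ρ} {ML : Mdl L (ρ + a)} {MK : Mdl K (ρ + a + r)} {H₁ : Rel MT ML} {H₂ : Rel ML MK}
  {y₀ : (RTK H₁ H₂).ML.Pts}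

open scoped Classical in
theorem hol_evs {s k : ℕ} (u : Fin s → MK.B) {P : ML.Pts → MvPolynomial (Fin s) ℂ}
    (hP : ∀ z, H₁.f z = ptT y₀ → (P z).IsHomogeneous k)
    (hh : ∀ μ, HolS ML (eL ρ a) (MT.pz (ptT y₀)) fun z =>
      if H₁.f z = ptT y₀ then (P z).coeff μ else 0) :
    Hol (fun x : (RTK H₁ H₂).Fib y₀ => evs u (P (H₂.f (ptK x))) (ptK x)) := by
  have h1 : (fun x : (RTK H₁ H₂).Fib y₀ => evs u (P (H₂.f (ptK x))) (ptK x)) =
      fun x => ∑ ν ∈ (Finset.univ : Finset (Fin s)).finsuppAntidiag k,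
        (if H₁.f (H₂.f (ptK x)) = ptT y₀ then (P (H₂.f (ptK x))).coeff ν else 0) *
          ∏ j, ptK x (u j) ^ ν j := by
    funext x
    rw [evs_eq_sum (hP _ (f_ptK x))]
    refine Finset.sum_congr rfl fun ν _ => ?_
    rw [if_pos (f_ptK x)]
  rw [h1]
  refine hol_sum _ fun ν _ => hol_mul (hol_of_holS (hh ν)) ?_
  exact hol_prod _ fun j _ => hol_pow (hol_ev_ptK (u j)) _

lemma hol_w (b : ML.B) : Hol (fun x : (RTK H₁ H₂).Fib y₀ => H₂.f (ptK x) b) :=
  hol_ev_ptK (H₂.incl b)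

end tower

/-! ### the pointwise inequality -/

/-- real form -/
lemma alg_le {Tv wv b1 b2 C Dv sg c0 Wv J A a1 μ εN x p : ℝ} {t e₀ : ℕ} (hT : 0 ≤ Tv)
    (hw : 0 ≤ wv) (hb1 : 0 ≤ b1) (hb2 : 0 ≤ b2) (hC : 0 ≤ C) (hD : 0 < Dv) (hc0 : 0 < c0)
    (hsg : 0 ≤ sg) (hJ : 0 ≤ J) (he₀ : 0 < e₀) (hμ0 : 0 ≤ μ)
    (hμ : μ * εN = t) (hA : A = μ * a1) (hA0 : 0 < A) (hx : x = A / e₀ - 1) (hx0 : 0 ≤ x)
    (h1 : Tv ^ (2 * a1 / p) ≤ b1 * (C / Dv ^ εN)) (h2 : sg * Dv ^ (t : ℝ) = c0)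
    (h3 : Wv ≤ J * b2) (h4 : wv ^ 2 ≤ Wv) :
    Tv ^ (2 / p) * wv ^ (2 / (e₀ : ℝ)) ≤
      (C ^ μ * J / c0) ^ (1 / A) * (b1 ^ μ * (b2 * sg * Wv ^ x)) ^ (1 / A) := by
  have he : (0 : ℝ) < e₀ := by exact_mod_cast he₀
  have hW : 0 ≤ Wv := (sq_nonneg wv).trans h4
  have hDt : 0 < Dv ^ (t : ℝ) := Real.rpow_pos_of_pos hD _
  have e1 : Tv ^ (2 * A / p) ≤ b1 ^ μ * (C ^ μ * sg / c0) := by
    have h5 : Tv ^ (2 * A / p) = (Tv ^ (2 * a1 / p)) ^ μ := by
      rw [← Real.rpow_mul hT]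
      congr 1
      rw [hA]; ring
    have h6 : (b1 * (C / Dv ^ εN)) ^ μ = b1 ^ μ * (C ^ μ / Dv ^ (t : ℝ)) := by
      have h7 : εN * μ = t := by rw [mul_comm]; exact hμ
      rw [Real.mul_rpow hb1 (by positivity), Real.div_rpow hC (by positivity),
        ← Real.rpow_mul hD.le, h7]
    have h8 : C ^ μ / Dv ^ (t : ℝ) = C ^ μ * sg / c0 := by
      rcases eq_or_lt_of_le hsg with h9 | h9
      · rw [← h9, zero_mul] at h2
        exact absurd h2 hc0.ne
      · rw [← h2]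
        field_simp
    rw [h5, ← h8, ← h6]
    exact Real.rpow_le_rpow (by positivity) h1 hμ0
  have e2 : wv ^ (2 * A / e₀) ≤ J * b2 * Wv ^ x := by
    have h5 : wv ^ (2 * A / e₀) = (wv ^ 2) ^ (A / e₀) := by
      rw [← Real.rpow_natCast wv 2, ← Real.rpow_mul hw]
      congr 1
      push_cast; ring
    have h6 : Wv ^ (A / e₀) = Wv * Wv ^ x := by
      have h7 : A / e₀ = 1 + x := by rw [hx]; ring
      rw [h7, Real.rpow_add_of_nonneg hW zero_le_one hx0, Real.rpow_one]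
    rw [h5]
    calc (wv ^ 2) ^ (A / e₀) ≤ Wv ^ (A / e₀) :=
          Real.rpow_le_rpow (by positivity) h4 (by positivity)
      _ = Wv * Wv ^ x := h6
      _ ≤ J * b2 * Wv ^ x := by gcongr
  have e3 : (Tv ^ (2 / p) * wv ^ (2 / (e₀ : ℝ))) ^ A ≤
      (C ^ μ * J / c0) * (b1 ^ μ * (b2 * sg * Wv ^ x)) := by
    rw [Real.mul_rpow (by positivity) (by positivity), ← Real.rpow_mul hT, ← Real.rpow_mul hw]
    have h5 : (2 / p * A : ℝ) = 2 * A / p := by ring
    have h6 : (2 / (e₀ : ℝ) * A : ℝ) = 2 * A / e₀ := by ring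
    rw [h5, h6]
    calc Tv ^ (2 * A / p) * wv ^ (2 * A / e₀)
        ≤ (b1 ^ μ * (C ^ μ * sg / c0)) * (J * b2 * Wv ^ x) :=
          mul_le_mul e1 e2 (by positivity) (by positivity)
      _ = _ := by ring
  have e4 : Tv ^ (2 / p) * wv ^ (2 / (e₀ : ℝ)) =
      ((Tv ^ (2 / p) * wv ^ (2 / (e₀ : ℝ))) ^ A) ^ (1 / A) := by
    rw [← Real.rpow_mul (by positivity), mul_one_div_cancel hA0.ne', Real.rpow_one]
  rw [e4, ← Real.mul_rpow (by positivity) (by positivity)]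
  exact Real.rpow_le_rpow (by positivity) e3 (by positivity)

end Crest.Agent.R276.EndC_723
end
end

-- ▼ part R276/EndU_723
section

/-!
# Row 276, EndU (helper723): the integral over a fibre of `M_K → M_T`
-/

set_option autoImplicit false
set_option linter.unusedSectionVars false

noncomputable section

open Set Filter Topology MeasureTheory
open scoped ENNReal

namespace Crest.Agent.R276.EndC_723

open Crest.Agent.R271 Crest.Agent.R271.Ho51
open Crest.Agent.R271.Rd692 (continuous_iff_ev continuous_ev lintegral_eq_fibre measurable_fibre)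
open Crest.Agent.R271.Defs710 hiding glue
open Crest.Agent.R276.FKDefs_779 Crest.Agent.R276.BC_986
open Crest.Agent.R276.Mod1_987 Crest.Agent.R276.EngU_29 Crest.Agent.R276.SkelDefs_220
open Crest.Agent.R276.BR_590 (cat bs fb bs_cat fb_cat cat_bs_fb)
open Crest.Agent.R276.End_723 (etChart zA_etChart tn zn Growth sb)
open Crest.Agent.R276.TowA_849
open Crest.Agent.R276.CInd_870 (rm rm_q)
open Crest.Agent.R276.RelB_870 (fint_tower countable_base tc_eL)

section rel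

variable {L K : Type} [Field L] [Field K] [Algebra ℂ L] [Algebra ℂ K] [Algebra L K]
  [IsScalarTower ℂ L K] {m r : ℕ} {ML : Mdl L m} {MK : Mdl K (m + r)}

/-- the fibre coordinates -/
def xK (p : MK.Pts) : Cn r := fun j => MK.pz p (Fin.natAdd m j)

lemma measurable_sum_fib (H : Rel ML MK) (z : ML.Pts) {g g' : MK.Pts → ℝ≥0∞} (hg' : Measurable g')
    (h : ∀ y, H.f y = z → g y = g' y) :
    Measurable fun ξ : Cn r => ∑' p : {p : MK.Pts // H.f p = z ∧ xK p = ξ}, g p.1 := by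
  have h1 := (rm H).measurable_fsumR hg' z
  have h2 : (fun ξ : Cn r => ∑' p : {p : MK.Pts // H.f p = z ∧ xK p = ξ}, g p.1) =
      (rm H).fsumR g' z := by
    funext ξ
    unfold RMdl.fsumR
    let e : {p : MK.Pts // H.f p = z ∧ xK p = ξ} ≃
        {y : (rm H).MK.Pts // (rm H).q y = z ∧ (rm H).x y = ξ} :=
      Equiv.subtypeEquivRight fun y => by
        rw [rm_q]
        exact Iff.rfl
    refine Eq.trans ?_ (e.tsum_eq (fun y : {y : (rm H).MK.Pts // (rm H).q y = z ∧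
      (rm H).x y = ξ} => g' y.1))
    exact tsum_congr fun y => h y.1 y.2.1
  rw [h2]
  exact h1

lemma fint_const_mul (H : Rel ML MK) (z : ML.Pts) {c : ℝ≥0∞} (hc : c ≠ ∞) (g : MK.Pts → ℝ≥0∞) :
    H.fint z (fun y => c * g y) = c * H.fint z g := by
  unfold Rel.fint
  rw [← lintegral_const_mul' _ _ hc]
  exact lintegral_congr fun ξ => ENNReal.tsum_mul_left

end rel

section tower

variable {T L K : Type} [Field T] [Field L] [Field K] [Algebra ℂ T] [Algebra ℂ L] [Algebra ℂ K]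
  [Algebra T L] [Algebra L K] [Algebra T K] [IsScalarTower ℂ T L] [IsScalarTower ℂ L K]
  [IsScalarTower T L K] [IsScalarTower ℂ T K] {ρ a r : ℕ}
  {MT : Mdl T ρ} {ML : Mdl L (ρ + a)} {MK : Mdl K (ρ + a + r)} {H₁ : Rel MT ML} {H₂ : Rel ML MK}
  {y₀ : (RTK H₁ H₂).ML.Pts}

lemma cp_eq_append (x : (RTK H₁ H₂).Fib y₀) :
    Fin.append (xc ML (eL ρ a) (H₂.f (ptK x))) (xK (ptK x)) = cp x := by
  funext j
  refine Fin.addCases (fun i => ?_) (fun i => ?_) j
  · rw [Fin.append_left, cp_fib_left]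
    unfold xc eL
    rw [finSumFinEquiv_apply_right, ← rel_pz H₂]
    rfl
  · rw [Fin.append_right, cp_fib_right]
    rfl

/-- the points of the fibre with coordinates `ζ` -/
def eqFib (y₀ : (RTK H₁ H₂).ML.Pts) (ζ : Cn (a + r)) :
    {x : (RTK H₁ H₂).Fib y₀ // cp x = ζ} ≃ {p : MK.Pts // H₁.f (H₂.f p) = ptT y₀ ∧
      Fin.append (xc ML (eL ρ a) (H₂.f p)) (xK p) = ζ} where
  toFun x := ⟨ptK x.1, f_ptK x.1, (cp_eq_append x.1).trans x.2⟩
  invFun p :=
    let x : (RTK H₁ H₂).Fib y₀ := ⟨p.1, ((tow H₁ H₂).q_TK p.1).trans p.2.1⟩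
    ⟨x, (cp_eq_append x).symm.trans p.2.2⟩
  left_inv _ := rfl
  right_inv _ := rfl

theorem lintegral_fib {ν : Measure ((RTK H₁ H₂).Fib y₀)} (hν : IsLeb ν) {g : MK.Pts → ℝ≥0∞}
    (hg : Measurable fun x : (RTK H₁ H₂).Fib y₀ => g (ptK x)) (gz : ML.Pts → MK.Pts → ℝ≥0∞)
    (hgz : ∀ z, Measurable (gz z)) (hgg : ∀ y, g y = gz (H₂.f y) y) :
    ∫⁻ x, g (ptK x) ∂ν = ∫⁻ ξ : Cn a,
      ∑' z : {z : ML.Pts // H₁.f z = ptT y₀ ∧ xc ML (eL ρ a) z = ξ}, H₂.fint z.1 g := by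
  have hsum : ∀ ζ : Cn (a + r), ∑' x : {x : (RTK H₁ H₂).Fib y₀ // cp x = ζ}, g (ptK x.1) =
      ∑' p : {p : MK.Pts // H₁.f (H₂.f p) = ptT y₀ ∧
        Fin.append (xc ML (eL ρ a) (H₂.f p)) (xK p) = ζ}, g p.1 := by
    intro ζ
    exact (eqFib y₀ ζ).tsum_eq (fun p : {p : MK.Pts // H₁.f (H₂.f p) = ptT y₀ ∧
        Fin.append (xc ML (eL ρ a) (H₂.f p)) (xK p) = ζ} => g p.1)
  rw [lintegral_eq_fibre hν hg, lintegral_congr hsum]
  have hm := measurable_fibre (M := (RTK H₁ H₂).Fib y₀) hg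
  rw [show (fun ζ : Fin (a + r) → ℂ => ∑' y : {y : (RTK H₁ H₂).Fib y₀ // cp y = ζ},
    g (ptK y.1)) = fun ζ => _ from funext hsum] at hm
  refine fint_tower (fun y : MK.Pts => H₂.f y) (fun z : ML.Pts => H₁.f z)
    (xc ML (eL ρ a)) xK g (ptT y₀) (fun ξ => ?_) (fun z => ?_) hm
  · have hcb := countable_base ML (Fin.append (MT.pz (ptT y₀)) ξ)
    refine Function.Injective.countable (f := fun z : {z : ML.Pts // H₁.f z = ptT y₀ ∧
      xc ML (eL ρ a) z = ξ} => (⟨z.1, ?_⟩ : {w : ML.Pts // ∀ i, w (ML.z i) =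
        (Fin.append (MT.pz (ptT y₀)) ξ : Cn (ρ + a)) i})) ?_
    · intro i
      refine Fin.addCases (fun i => ?_) (fun i => ?_) i
      · rw [Fin.append_left]
        have h1 := congrFun (rel_pz H₁ z.1) i
        rw [z.2.1] at h1
        exact h1
      · rw [Fin.append_right]
        have h1 := congrFun z.2.2 i
        unfold xc eL at h1
        rw [finSumFinEquiv_apply_right] at h1
        exact h1
    · intro z z' h
      exact Subtype.ext (Subtype.mk.inj h)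
  · exact measurable_sum_fib H₂ z (hgz z) fun y hy => by rw [hgg, hy]

theorem lintegral_fib_lt {ν : Measure ((RTK H₁ H₂).Fib y₀)} (hν : IsLeb ν) {g : MK.Pts → ℝ≥0∞}
    (hg : Measurable fun x : (RTK H₁ H₂).Fib y₀ => g (ptK x)) (gz : ML.Pts → MK.Pts → ℝ≥0∞)
    (hgz : ∀ z, Measurable (gz z)) (hgg : ∀ y, g y = gz (H₂.f y) y) {C : ℝ≥0∞} (hC : C ≠ ∞)
    {Wr : ML.Pts → ℝ≥0∞} (hle : ∀ z : ML.Pts, H₁.f z = ptT y₀ → H₂.fint z g ≤ C * Wr z)
    (hW : sint ML (eL ρ a) (MT.pz (ptT y₀)) Wr < ∞) : ∫⁻ x, g (ptK x) ∂ν < ∞ := by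
  rw [lintegral_fib hν hg gz hgz hgg]
  refine lt_of_le_of_lt ?_ (ENNReal.mul_lt_top hC.lt_top hW)
  unfold sint
  rw [← lintegral_const_mul' _ _ hC]
  refine lintegral_mono fun ξ => ?_
  beta_reduce
  rw [← ENNReal.tsum_mul_left]
  let ι : {z : ML.Pts // H₁.f z = ptT y₀ ∧ xc ML (eL ρ a) z = ξ} →
      {z : ML.Pts // tc ML (eL ρ a) z = MT.pz (ptT y₀) ∧ xc ML (eL ρ a) z = ξ} :=
    fun z => ⟨z.1, by rw [tc_eL H₁, z.2.1], z.2.2⟩
  have hι : Function.Injective ι := fun z z' h => Subtype.ext (Subtype.mk.inj h)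
  calc ∑' z : {z : ML.Pts // H₁.f z = ptT y₀ ∧ xc ML (eL ρ a) z = ξ}, H₂.fint z.1 g
      ≤ ∑' z : {z : ML.Pts // H₁.f z = ptT y₀ ∧ xc ML (eL ρ a) z = ξ}, C * Wr (ι z).1 :=
        ENNReal.tsum_le_tsum fun z => hle z.1 z.2.1
    _ ≤ _ := ENNReal.tsum_comp_le_tsum_of_injective hι
        (fun z : {z : ML.Pts // tc ML (eL ρ a) z = MT.pz (ptT y₀) ∧ xc ML (eL ρ a) z = ξ} =>
          C * Wr z.1)

end tower

end Crest.Agent.R276.EndC_723
end
end

-- ▼ part R276/EndV_723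
section

/-!
# Row 276, EndV (helper723): the composition
`C1, C2, C3, C4, Flat, CJ, CInd, CNz, TCh ⟹ KapGeF ℂ K (d + e)`.
-/

set_option autoImplicit false
set_option linter.unusedSectionVars false

noncomputable section

open Set Filter Topology MeasureTheory
open scoped ENNReal

namespace Crest.Agent.R276.EndC_723

open Crest.Agent.R271 Crest.Agent.R271.Ho51
open Crest.Agent.R271.Rd692 (continuous_iff_ev continuous_ev lintegral_eq_fibre measurable_fibre)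
open Crest.Agent.R271.Defs710 hiding glue
open Crest.Agent.R276.FKDefs_779 Crest.Agent.R276.BC_986
open Crest.Agent.R276.Mod1_987 Crest.Agent.R276.EngU_29 Crest.Agent.R276.SkelDefs_220
open Crest.Agent.R276.BR_590 (cat bs fb bs_cat fb_cat cat_bs_fb)
open Crest.Agent.R276.End_723 (etChart zA_etChart tn zn Growth sb)
open Crest.Agent.R276.TowA_849
open Crest.Agent.R276.RelB_870 (tc_eL)

/-! ### algebra -/

section alg

variable {K : Type} [Field K] [Algebra ℂ K]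

/-- `dz` is a basis -/
theorem exists_basis_mdl {n : ℕ} (M : Mdl K n) : ∃ b : Module.Basis (Fin n) K (Ω[K⁄ℂ]),
    ∀ i, b i = KaehlerDifferential.D ℂ K (M.zK i) := by
  have h1 := M.het
  apply FK1_779.exists_basis_of_formallyEtale
  let _ : Algebra (MvPolynomial (Fin n) ℂ) M.B :=
    ((MvPolynomial.aeval M.z : MvPolynomial (Fin n) ℂ →ₐ[ℂ] M.B) :
      MvPolynomial (Fin n) ℂ →+* M.B).toAlgebra
  have h2 : Algebra.Etale (MvPolynomial (Fin n) ℂ) M.B := h1
  have h3 : Algebra.FormallyEtale (MvPolynomial (Fin n) ℂ) M.B := inferInstance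
  let _ : Algebra (MvPolynomial (Fin n) ℂ) K :=
    ((MvPolynomial.aeval M.zK : MvPolynomial (Fin n) ℂ →ₐ[ℂ] K) :
      MvPolynomial (Fin n) ℂ →+* K).toAlgebra
  have h4 : IsScalarTower (MvPolynomial (Fin n) ℂ) M.B K := by
    refine IsScalarTower.of_algebraMap_eq fun p => ?_
    change MvPolynomial.aeval M.zK p = ((MvPolynomial.aeval M.z p : M.B) : K)
    have h5 : (fun i => algebraMap M.B K (M.z i)) = M.zK := rfl
    rw [← h5]
    exact MvPolynomial.aeval_algebraMap_apply K M.z p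
  have h5 : Algebra.FormallyEtale M.B K :=
    Algebra.FormallyEtale.of_isLocalization (nonZeroDivisors M.B)
  have h6 : Algebra.FormallyEtale (MvPolynomial (Fin n) ℂ) K :=
    Algebra.FormallyEtale.comp (MvPolynomial (Fin n) ℂ) M.B K
  exact h6

theorem kapGeF_mono {d D : ℕ} (h : d ≤ D) (hK : KapGeF ℂ K D) : KapGeF ℂ K d := by
  obtain ⟨n, A, z, b, hA, hb, H⟩ := hK
  refine ⟨n, A, z, b, hA, hb, fun S hS hdiv => ?_⟩
  obtain ⟨m, hm, f, hf, hind⟩ := H S hS hdiv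
  refine ⟨m, hm, fun i => f (Fin.castLE (Nat.succ_le_succ h) i), fun i => hf _, ?_⟩
  have h1 := hind.comp (fun i : Fin d => Fin.castLE h i) (Fin.castLE_injective h)
  exact h1

end alg

/-! ### the composition -/

lemma enorm_rpow {x : ℂ} {p : ℝ} (hp : 0 ≤ p) : ‖x‖ₑ ^ p = ENNReal.ofReal (‖x‖ ^ p) := by
  rw [← ofReal_norm, ENNReal.ofReal_rpow_of_nonneg (norm_nonneg _) hp]

section tower

variable {T L K : Type} [Field T] [Field L] [Field K] [Algebra ℂ T] [Algebra ℂ L] [Algebra ℂ K]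
  [Algebra T L] [Algebra L K] [Algebra T K] [IsScalarTower ℂ T L] [IsScalarTower ℂ L K]
  [IsScalarTower T L K] [IsScalarTower ℂ T K] {ρ a r : ℕ}
  {MT : Mdl T ρ} {ML : Mdl L (ρ + a)} {MK : Mdl K (ρ + a + r)} {H₁ : Rel MT ML} {H₂ : Rel ML MK}

/-- **frame bound of the product weight** -/
theorem bdd_prod {N s e₀ e t k' : ℕ} {w : Fin (e + 1) → ML.B} {D : ML.Pts → ℝ}
    {ε μ x κ A : ℝ} {σ : ML.B} {b₁ : MK.Pts → ℝ} {b₂ : ML.Pts → ℝ}
    (he₀ : 0 < e₀) (hD : ∀ z, 0 < D z) (hTC : TCh H₁ H₂)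
    (hμ0 : 0 ≤ μ) (hμ : μ * (ε * N) = t) (hA : A = μ * (s * (1 + ε * N))) (hA0 : 0 < A)
    (hx : x = A / e₀ - 1) (hx0 : 0 ≤ x) (hκ : 0 < κ) (hb₁ : LPsh b₁) (hb₂ : LPsh b₂)
    {V : ValuationSubring K} (hdiv : IsDiv ℂ (ρ + a + r) V)
    (h1 : BdK H₁ H₂ V fun Y ζ => b₁ (Y.cK.s ζ) * ‖Y.jF ζ‖ ^ (2 * s * (1 + ε * N)) /
      D (H₂.f (Y.cK.s ζ)) ^ (ε * N))
    (h2 : BdL H₁ H₂ V fun Y η =>
      b₂ (Y.cL.s η) * ‖Y.jG η‖ ^ 2 * ‖Y.cL.J η‖ ^ (2 * (e₀ - 1)))
    (h3 : BdL H₁ H₂ V fun Y η => Wf w (Y.cL.s η) * ‖Y.cL.J η‖ ^ (2 * e₀))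
    (h4 : BdL H₁ H₂ V fun Y η =>
      ‖Y.cL.s η σ‖ ^ (2 / (k' : ℝ)) * ‖Y.jN η‖ ^ 2 * D (Y.cL.s η) ^ (t : ℝ) *
        (1 + ∑ i, ‖tc ML (eL ρ a) (Y.cL.s η) i‖ ^ 2) ^ κ) :
    End_723.Bdd (etChart (RTK H₁ H₂).MK)
      (fun y => B0 H₂ b₁ b₂ σ k' w μ x (toM (eA ρ a r) MK y) ^ (1 / A)) (sb ρ (a + r)) (κ / A) V := by
  classical
  obtain ⟨F1, G1, hF1, hG1, B1⟩ := h1
  obtain ⟨F2, G2, hF2, hG2, B2⟩ := h2
  obtain ⟨F3, G3, hF3, hG3, B3⟩ := h3
  obtain ⟨F4, G4, hF4, hG4, B4⟩ := h4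
  have hb := (lpsh_B0 (H := H₂) (σ := σ) (k := k') (w := w) hb₁ hb₂ hμ0 hx0).rpow
    (c := 1 / A) (by positivity)
  have key := bdd_of_logB (R := V) hTC hdiv hb (κ := κ / A) (by positivity)
    (F1 ∪ F2 ∪ F3 ∪ F4) (G1 ∪ G2 ∪ G3 ∪ G4)
    (fun f hf => by
      simp only [Finset.mem_union] at hf
      rcases hf with ((hf | hf) | hf) | hf
      · exact hF1 f hf
      · exact hF2 f hf
      · exact hF3 f hf
      · exact hF4 f hf)
    (fun f hf => by
      simp only [Finset.mem_union] at hf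
      rcases hf with ((hf | hf) | hf) | hf
      · exact hG1 f hf
      · exact hG2 f hf
      · exact hG3 f hf
      · exact hG4 f hf)
    (fun Y hY hF hG => logB_prod Y hD he₀ hμ0 hμ hA hA0 hx hx0 (fun y => hb₁.nonneg y)
      (fun z => hb₂.nonneg z)
      (B1 Y hY (fun f hf => hF f (by simp only [Finset.mem_union]; tauto))
        (fun f hf => hG f (by simp only [Finset.mem_union]; tauto)))
      (B2 Y hY (fun f hf => hF f (by simp only [Finset.mem_union]; tauto))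
        (fun f hf => hG f (by simp only [Finset.mem_union]; tauto)))
      (B3 Y hY (fun f hf => hF f (by simp only [Finset.mem_union]; tauto))
        (fun f hf => hG f (by simp only [Finset.mem_union]; tauto)))
      (B4 Y hY (fun f hf => hF f (by simp only [Finset.mem_union]; tauto))
        (fun f hf => hG f (by simp only [Finset.mem_union]; tauto))))
  have h5 := bdd_reindex (Nat.add_assoc ρ a r) MK _ _ _ _ key
  have h6 : (sT ρ a r).map (finCongr (Nat.add_assoc ρ a r)).toEmbedding = sb ρ (a + r) := sT_map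
  rw [h6] at h5
  exact h5

open scoped Classical in
/-- **the data of the endgame** -/
theorem exists_endData {N s e₀ d e : ℕ} {u : Fin s → MK.B} {w : Fin (e + 1) → ML.B}
    {D : ML.Pts → ℝ} {ε : ℝ} (hN : 0 < N) (hs : 0 < s) (he₀ : 0 < e₀) (hε : 0 < ε)
    (hD : ∀ z, 0 < D z) (hTC : TCh H₁ H₂)
    (h1 : ∀ k : ℕ, 0 < k → ∃ b₁, C1 H₁ H₂ N k u D ε b₁) (h2 : ∃ b₂, C2 H₁ H₂ w e₀ b₂)
    (h3 : C3 H₁ H₂ w e₀) (h4 : C4 H₁ H₂ D) (hF : Flat H₁ H₂ N d u D ε) (hJ : CJ ML w e₀)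
    (hNz : CNz H₁) {e' : ℕ} (ι : Fin (e' + 1) → Fin (e + 1))
    (hι : ∀ᵐ c : Cn ρ, ∀ y : MT.Pts, MT.pz y = c →
      ∀ (Δ : ℕ) (Q : MvPolynomial (Fin (e' + 1)) ℂ), Q.IsHomogeneous Δ →
        (∀ z : ML.Pts, H₁.f z = y → MvPolynomial.eval (fun i => z (w (ι i))) Q = 0) → Q = 0)
    (S : Set (ValuationSubring K)) (hS : S.Finite) (hdiv : ∀ V ∈ S, IsDiv ℂ (ρ + (a + r)) V) :
    Nonempty (End_723.EndData (RTK H₁ H₂) S d e') := by
  obtain ⟨b₂, hb₂⟩ := h2
  choose b₁ hb₁ using h1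
  have hdiv' : ∀ V ∈ S, IsDiv ℂ (ρ + a + r) V := fun V hV => by
    rw [Nat.add_assoc]; exact hdiv V hV
  obtain ⟨t, hte, k', σ, κ, hk', hσ, hκ, hσb, hσc⟩ := h4 S hS hdiv' e₀
  have ht0 : 0 < t := lt_of_lt_of_le he₀ hte
  have hN0 : (0 : ℝ) < N := by exact_mod_cast hN
  have hs0 : (1 : ℝ) ≤ s := by exact_mod_cast hs
  have he₀' : (0 : ℝ) < e₀ := by exact_mod_cast he₀
  have ht1 : (e₀ : ℝ) ≤ t := by exact_mod_cast hte
  have htpos : (0 : ℝ) < t := by exact_mod_cast ht0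
  have hεN : 0 < ε * N := by positivity
  set μ : ℝ := t / (ε * N) with hμd
  have hμ0 : 0 < μ := by positivity
  have hμ : μ * (ε * N) = t := by rw [hμd]; field_simp
  set a1 : ℝ := s * (1 + ε * N) with ha1
  set A : ℝ := μ * a1 with hA
  have hA1 : (t : ℝ) ≤ A := by
    have h5 : A = s * (μ + t) := by rw [hA, ha1, ← hμ]; ring
    rw [h5]
    nlinarith
  have hA0 : 0 < A := htpos.trans_le hA1
  set x : ℝ := A / e₀ - 1 with hx
  have hx0 : 0 ≤ x := by
    have h5 : 1 ≤ A / e₀ := by rw [one_le_div he₀']; linarith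
    rw [hx]; linarith
  -- the generic point
  have hgen : ∀ᵐ c : Cn ρ, (MvPolynomial.eval c MT.h ≠ 0) ∧
      (∀ k (hk : 0 < k), ∀ z : ML.Pts, tc ML (eL ρ a) z = c →
        ∀ P : MvPolynomial (Fin s) ℂ, P.IsHomogeneous k →
        Ieps H₂ N k u ε z (evs u P) ≠ ∞ → ∀ y : MK.Pts, H₂.f y = z →
        ‖evs u P y‖ₑ ^ (2 * s * (1 + ε * N) / (k * N)) ≤
          ENNReal.ofReal (b₁ k hk y) * Ieps H₂ N k u ε z (evs u P)) := by
    refine (Null956.ae_eval_ne MT.h_ne).and ?_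
    rw [ae_all_iff]
    intro k
    by_cases hk : 0 < k
    · filter_upwards [(hb₁ k hk).low] with c hc _
      exact hc
    · exact Eventually.of_forall fun c hk' => absurd hk' hk
  obtain ⟨c, ⟨hch, hc1⟩, hc2, hc4, hcF, hcJ, hcι, hcNz⟩ :=
    (hgen.and (hb₂.low.and (hσc.and (hF.and (hJ.and (hι.and (hNz σ hσ))))))).exists
  obtain ⟨yT, hyT⟩ := MT.surj hch
  let y₀ : (RTK H₁ H₂).ML.Pts := yT
  have hy₀ : MT.pz (ptT y₀) = c := hyT
  obtain ⟨k, P, C₀, hk, hPhom, hPhol, hPz⟩ := hcF (ptT y₀) hy₀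
  obtain ⟨c₀, hc₀⟩ := hc4 (ptT y₀) hy₀
  obtain ⟨z₁, hz₁, hz₁σ⟩ := hcNz (ptT y₀) hy₀
  have hc₀pos : 0 < c₀ := by
    rw [← hc₀ z₁ hz₁]
    have := hD z₁
    have := norm_pos_iff.2 hz₁σ
    positivity
  set C : ℝ := max C₀ 0 with hC
  have hC0 : 0 ≤ C := le_max_right _ _
  set J : ℝ≥0∞ := (e + 1) * sint ML (eL ρ a) c (fun z' => ENNReal.ofReal (Wf w z') ^ (1 / (e₀ : ℝ)))
    with hJd
  have hJt : J ≠ ∞ := by
    rw [hJd]
    exact ENNReal.mul_ne_top (by finiteness) hcJ.ne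
  have hk0 : (0 : ℝ) < k := by exact_mod_cast hk
  have hkN : (0 : ℝ) < k * N := by positivity
  obtain ⟨ν, hν⟩ := Ho51.exists_leb (M := (RTK H₁ H₂).Fib y₀)
  have tcz : ∀ x : (RTK H₁ H₂).Fib y₀, tc ML (eL ρ a) (H₂.f (ptK x)) = c := fun x => by
    rw [tc_eL H₁, f_ptK, hy₀]
  have hHol : ∀ i, Hol (fun x : (RTK H₁ H₂).Fib y₀ => evs u (P i (H₂.f (ptK x))) (ptK x)) :=
    fun i => hol_evs u (hPhom i) (hPhol i)
  refine ⟨{
    B := fun y => B0 H₂ (b₁ k hk) b₂ σ k' w μ x (toM (eA ρ a r) MK y) ^ (1 / A)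
    psh := fun l => ?_
    growth := ?_
    bdd := fun V hV => ⟨κ / A, by positivity, ?_⟩
    y₀ := y₀
    ν := ν
    leb := hν
    τ := fun i x => evs u (P i (H₂.f (ptK x))) (ptK x)
    w := fun j x => H₂.f (ptK x) (w (ι j))
    hτ := hHol
    hw := fun j => hol_w (w (ι j))
    N₁ := k * N
    e₀ := e₀
    N₁_pos := by positivity
    e₀_pos := he₀
    C := (C ^ μ * J.toReal / c₀) ^ (1 / A)
    le := fun i j x => ?_
    int := fun i j => ?_
    ind := fun Q hQ => ?_ }⟩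
  · -- psh
    exact lpsh_reindex (eA ρ a r) MK (((lpsh_B0 (H := H₂) (σ := σ) (k := k') (w := w)
      (hb₁ k hk).psh hb₂.psh hμ0.le hx0).rpow (c := 1 / A) (by positivity)).pow l)
  · -- growth
    refine growth_reindex (eA ρ a r) MK (b := fun y => B0 H₂ (b₁ k hk) b₂ σ k' w μ x y ^ (1 / A))
      (fun y => ?_) ?_
    · exact Real.rpow_nonneg (B0_nonneg (fun y => (hb₁ k hk).psh.nonneg y)
        (fun z => hb₂.psh.nonneg z) y) _
    · exact pgr_rpow (fun y => B0_nonneg (fun y => (hb₁ k hk).psh.nonneg y)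
        (fun z => hb₂.psh.nonneg z) y) (pgr_B0 (hb₁ k hk).gr hb₂.gr
          (fun y => (hb₁ k hk).psh.nonneg y) (fun z => hb₂.psh.nonneg z) hμ0.le hx0) (by positivity)
  · -- bdd
    exact bdd_prod he₀ hD hTC hμ0.le hμ hA hA0 hx hx0 hκ (hb₁ k hk).psh hb₂.psh (hdiv' V hV)
      ((hb₁ k hk).bd V (hdiv' V hV)) (hb₂.bd V (hdiv' V hV)) (h3 V (hdiv' V hV)) (hσb V hV)
  · -- le
    set y : MK.Pts := ptK x with hy
    set z : ML.Pts := H₂.f y with hz
    have hzT : H₁.f z = ptT y₀ := f_ptK x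
    have hDz := hD z
    have hDr : 0 < D z ^ (ε * N) := Real.rpow_pos_of_pos hDz _
    have hb1 := (hb₁ k hk).psh.nonneg y
    have hb2 := hb₂.psh.nonneg z
    have hI : Ieps H₂ N k u ε z (evs u (P i z)) ≤ ENNReal.ofReal (C / D z ^ (ε * N)) := by
      rw [ENNReal.ofReal_div_of_pos hDr, ENNReal.le_div_iff_mul_le
        (Or.inl (by simpa using hDr)) (Or.inl ENNReal.ofReal_ne_top)]
      exact ((hPz z hzT).2.1 i).trans (ENNReal.ofReal_le_ofReal (le_max_left _ _))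
    have g1 : ‖evs u (P i z) y‖ ^ (2 * a1 / (k * N)) ≤ b₁ k hk y * (C / D z ^ (ε * N)) := by
      have e1 := hc1 k hk z (tcz x) (P i z) (hPhom i z hzT)
        (ne_top_of_le_ne_top ENNReal.ofReal_ne_top hI) y rfl
      have e2 : (2 * s * (1 + ε * N) / (k * N) : ℝ) = 2 * a1 / (k * N) := by rw [ha1]; ring
      have e3 : 0 ≤ 2 * a1 / (k * N : ℝ) := by positivity
      rw [e2, enorm_rpow e3] at e1
      have e4 := e1.trans (mul_le_mul_right hI _)
      rw [← ENNReal.ofReal_mul hb1] at e4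
      exact (ENNReal.ofReal_le_ofReal_iff (by positivity)).1 e4
    have g3 : Wf w z ≤ J.toReal * b₂ z := by
      have e1 := hc2 hcJ.ne z (tcz x)
      have e2 := ENNReal.toReal_mono (ENNReal.mul_ne_top hJt ENNReal.ofReal_ne_top) e1
      rwa [ENNReal.toReal_ofReal (Wf_nonneg w z), ENNReal.toReal_mul,
        ENNReal.toReal_ofReal hb2] at e2
    have g4 : ‖z (w (ι j))‖ ^ 2 ≤ Wf w z :=
      Finset.single_le_sum (f := fun j => ‖z (w j)‖ ^ 2) (fun j _ => by positivity)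
        (Finset.mem_univ (ι j))
    have g5 := alg_le (e₀ := e₀) (p := k * N) (norm_nonneg (evs u (P i z) y))
      (norm_nonneg (z (w (ι j)))) hb1 hb2 hC0 hDz hc₀pos (by positivity) ENNReal.toReal_nonneg he₀
      hμ0.le hμ hA hA0 hx hx0 g1 (hc₀ z hzT) g3 g4
    have g6 : ((k * N : ℕ) : ℝ) = k * N := by push_cast; ring
    rw [g6]
    exact g5
  · -- int
    have g6 : ((k * N : ℕ) : ℝ) = k * N := by push_cast; ring
    have hp : 0 ≤ (2 : ℝ) / (k * N : ℕ) := by positivity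
    have hcev : ∀ Q : MvPolynomial (Fin s) ℂ, Continuous fun y : MK.Pts => evs u Q y := by
      intro Q
      have h5 : (fun y : MK.Pts => evs u Q y) = fun y => y (MvPolynomial.aeval u Q) := by
        funext y
        unfold evs
        rw [← MvPolynomial.aeval_eq_eval]
        exact (MvPolynomial.comp_aeval_apply u y Q).symm
      rw [h5]
      exact continuous_ev _
    refine lintegral_fib_lt hν (g := fun y => ENNReal.ofReal
      (‖evs u (P i (H₂.f y)) y‖ ^ (2 / ((k * N : ℕ) : ℝ)) *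
        ‖H₂.f y (w (ι j))‖ ^ (2 / (e₀ : ℝ)))) ?_
      (fun z y => ENNReal.ofReal (‖evs u (P i z) y‖ ^ (2 / ((k * N : ℕ) : ℝ)) *
        ‖z (w (ι j))‖ ^ (2 / (e₀ : ℝ)))) (fun z => ?_) (fun y => rfl) (C := ENNReal.ofReal C)
      ENNReal.ofReal_ne_top (Wr := fun z => ENNReal.ofReal (Wf w z) ^ (1 / (e₀ : ℝ)))
      (fun z hz => ?_) (by rw [hy₀]; exact hcJ)
    · refine Measurable.ennreal_ofReal ?_
      have c1 : Continuous (fun x : (RTK H₁ H₂).Fib y₀ => evs u (P i (H₂.f (ptK x))) (ptK x)) :=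
        (Crest.Agent.R273.OTA_34.hol_of _ (hHol i)).sm.continuous
      have c2 : Continuous (fun x : (RTK H₁ H₂).Fib y₀ => H₂.f (ptK x) (w (ι j))) :=
        (Crest.Agent.R273.OTA_34.hol_of _ (hol_w (w (ι j)))).sm.continuous
      exact (c1.norm.measurable.pow_const _).mul (c2.norm.measurable.pow_const _)
    · exact (((hcev (P i z)).norm.measurable.pow_const _).mul_const _).ennreal_ofReal
    · have e1 : H₂.fint z (fun y => ENNReal.ofReal
          (‖evs u (P i (H₂.f y)) y‖ ^ (2 / ((k * N : ℕ) : ℝ)) *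
            ‖H₂.f y (w (ι j))‖ ^ (2 / (e₀ : ℝ)))) =
          H₂.fint z (fun y => ENNReal.ofReal (‖z (w (ι j))‖ ^ (2 / (e₀ : ℝ))) *
            ‖evs u (P i z) y‖ₑ ^ (2 / (k * N : ℝ))) := by
        refine RelB_870.fint_congr H₂ fun y hy => ?_
        rw [hy, mul_comm, ENNReal.ofReal_mul (by positivity), ← g6, enorm_rpow hp]
      rw [e1, fint_const_mul H₂ z ENNReal.ofReal_ne_top]
      have e2 : ENNReal.ofReal (‖z (w (ι j))‖ ^ (2 / (e₀ : ℝ))) ≤
          ENNReal.ofReal (Wf w z) ^ (1 / (e₀ : ℝ)) := by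
        rw [ENNReal.ofReal_rpow_of_nonneg (Wf_nonneg w z) (by positivity)]
        apply ENNReal.ofReal_le_ofReal
        have g4 : ‖z (w (ι j))‖ ^ 2 ≤ Wf w z :=
          Finset.single_le_sum (f := fun j => ‖z (w j)‖ ^ 2) (fun j _ => by positivity)
            (Finset.mem_univ (ι j))
        have g7 : ‖z (w (ι j))‖ ^ (2 / (e₀ : ℝ)) = (‖z (w (ι j))‖ ^ 2) ^ (1 / (e₀ : ℝ)) := by
          rw [← Real.rpow_natCast, ← Real.rpow_mul (norm_nonneg _)]
          congr 1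
          push_cast; ring
        rw [g7]
        exact Real.rpow_le_rpow (by positivity) g4 (by positivity)
      have e3 := ((hPz z hz).1 i).trans (ENNReal.ofReal_le_ofReal (le_max_left C₀ 0))
      rw [mul_comm (ENNReal.ofReal C)]
      exact mul_le_mul' e2 e3
  · -- ind
    exact ind_tower (G := {z : ML.Pts // H₁.f z = ptT y₀})
      (fun x : (RTK H₁ H₂).Fib y₀ => ⟨H₂.f (ptK x), f_ptK x⟩)
      (fun i x => evs u (P i (H₂.f (ptK x))) (ptK x)) (fun j z => z.1 (w (ι j)))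
      (fun z Δ R hR hR0 => (hPz z.1 z.2).2.2 Δ R hR fun y hy => by
        let x : (RTK H₁ H₂).Fib y₀ := ⟨y, ((tow H₁ H₂).q_TK y).trans (by
          change H₁.f (H₂.f y) = _
          rw [hy]
          exact z.2)⟩
        have h5 : MvPolynomial.eval (fun i => evs u (P i (H₂.f y)) y) R = 0 :=
          hR0 x (Subtype.ext hy)
        rw [hy] at h5
        exact h5)
      (fun Δ R hR hR0 => hcι (ptT y₀) hy₀ Δ R hR fun z hz => hR0 ⟨z, hz⟩) Q hQ

/-- **the composition** -/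
theorem kapGeF_comp' {N s e₀ d e : ℕ} {u : Fin s → MK.B} {w : Fin (e + 1) → ML.B}
    {D : ML.Pts → ℝ} {ε : ℝ} (H₁ : Rel MT ML) (H₂ : Rel ML MK)
    (hN : 0 < N) (hs : 0 < s) (he₀ : 0 < e₀) (hε : 0 < ε)
    (hD : ∀ z, 0 < D z) (hTC : TCh H₁ H₂)
    (h1 : ∀ k : ℕ, 0 < k → ∃ b₁, C1 H₁ H₂ N k u D ε b₁) (h2 : ∃ b₂, C2 H₁ H₂ w e₀ b₂)
    (h3 : C3 H₁ H₂ w e₀) (h4 : C4 H₁ H₂ D) (hF : Flat H₁ H₂ N d u D ε) (hJ : CJ ML w e₀)
    (hI : CInd H₁ w) : KapGeF ℂ K (d + e) := by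
  obtain ⟨e', ι, he', hι⟩ := hI
  obtain ⟨b, hb⟩ := exists_basis_mdl (RTK H₁ H₂).MK
  refine kapGeF_mono (D := (d + e') + ρ) (by omega) ?_
  exact End_723.kapGeF_end (RTK H₁ H₂) rfl hb fun S hS hdiv =>
    exists_endData hN hs he₀ hε hD hTC h1 h2 h3 h4 hF hJ (CInd_870.cNz H₁) ι hι S hS hdiv

end tower

/-- **THE COMPOSITION** (no compatibility instances needed) -/
theorem kapGeF_comp {T L K : Type} [Field T] [Field L] [Field K] [Algebra ℂ T] [Algebra ℂ L]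
    [Algebra ℂ K] [Algebra T L] [Algebra L K] [IsScalarTower ℂ T L] [IsScalarTower ℂ L K]
    {ρ a r : ℕ} {MT : Mdl T ρ} {ML : Mdl L (ρ + a)} {MK : Mdl K (ρ + a + r)}
    {N s e₀ d e : ℕ} {u : Fin s → MK.B} {w : Fin (e + 1) → ML.B}
    {D : ML.Pts → ℝ} {ε : ℝ} (H₁ : Rel MT ML) (H₂ : Rel ML MK)
    (hN : 0 < N) (hs : 0 < s) (he₀ : 0 < e₀) (hε : 0 < ε)
    (hD : ∀ z, 0 < D z) (hTC : TCh H₁ H₂)
    (h1 : ∀ k : ℕ, 0 < k → ∃ b₁, C1 H₁ H₂ N k u D ε b₁) (h2 : ∃ b₂, C2 H₁ H₂ w e₀ b₂)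
    (h3 : C3 H₁ H₂ w e₀) (h4 : C4 H₁ H₂ D) (hF : Flat H₁ H₂ N d u D ε) (hJ : CJ ML w e₀)
    (hI : CInd H₁ w) : KapGeF ℂ K (d + e) := by
  let _ : Algebra T K := ((algebraMap L K).comp (algebraMap T L)).toAlgebra
  have _ : IsScalarTower T L K := IsScalarTower.of_algebraMap_eq fun _ => rfl
  have _ : IsScalarTower ℂ T K := IsScalarTower.of_algebraMap_eq fun c => by
    change algebraMap ℂ K c = algebraMap L K (algebraMap T L (algebraMap ℂ T c))
    rw [← IsScalarTower.algebraMap_apply ℂ T L, ← IsScalarTower.algebraMap_apply ℂ L K]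
  exact kapGeF_comp' H₁ H₂ hN hs he₀ hε hD hTC h1 h2 h3 h4 hF hJ hI


end Crest.Agent.R276.EndC_723
end
end

-- ▼ part R276/LComp_723
section

/-!
# Row 276, LComp (helper723): `Skel_220.LComp` and `S0419` from the eleven remaining Props.
-/

set_option autoImplicit false

noncomputable section

namespace Crest.Agent.R276.LComp_723

open Crest.Agent.R271 Crest.Agent.R276.Skel_220 Crest.Agent.R276.SkelGeo_220

/-- **(COMP)** -/
theorem lcomp : LComp := by
  intro T L K _ _ _ _ _ _ _ _ _ _ ρ a r N s e₀ d e MT ML MK H₁ H₂ u w D ε _ hN hs he₀ hε hCY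
    _ _ hTC h1 h2 h3 h4 hF hJ hI _
  exact EndC_723.kapGeF_comp H₁ H₂ hN hs he₀ hε (fun z => (hCY z).1) hTC h1 h2 h3 h4 hF hJ hI

end Crest.Agent.R276.LComp_723
end
end

-- ▼ part R276/MainSkel_723

/-!
# Row 276, MainSkel (helper723): the statement of S0419 from the eleven Props of `Skel_220`
(`LComp` is a theorem, `LComp_723.lcomp`).
-/

set_option autoImplicit false

open AlgebraicGeometry CategoryTheory Crest.AlgGeometry.Divisors
open Crest Crest.AlgGeometry Crest.AlgGeometry.Divisors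

namespace Crest.Agent.R276.LComp_723

open Crest.Agent.R276.Skel_220 Crest.Agent.R276.SkelGeo_220

/-- **the geometric core** from the eleven Props -/
theorem core_of_skel (hSat : LSat) (hGeo : LGeo) (hHull : LHull) (hPT : LPerTow) (hEv : LEv)
    (hCY : LCY) (hC1 : LC1) (hC2 : LC2) (hC4 : LC4) (hTCh : LTCh) (hFlat : LFlat) :
    GoalU_845.CoreBetaPosU :=
  coreBetaPosU hSat hGeo hHull hPT hEv hCY hC1 hC2 hC4 hTCh hFlat lcomp

/-- **S0419 from the eleven Props** -/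
theorem main_of_skel (hSat : LSat) (hGeo : LGeo) (hHull : LHull) (hPT : LPerTow) (hEv : LEv)
    (hCY : LCY) (hC1 : LC1) (hC2 : LC2) (hC4 : LC4) (hTCh : LTCh) (hFlat : LFlat)
    (X Z : Scheme.{0}) [Algebra ℂ Γ(X, ⊤)] [Algebra ℂ Γ(Z, ⊤)]
    [IsIntegral X] [IsLocallyNoetherian X] [IsIntegral Z] [IsLocallyNoetherian Z] (n m : ℕ)
    (hX : IsSmoothProperVariety ℂ X n) (hZ : IsSmoothProperVariety ℂ Z m)
    (hXp : ∃ A : WeilDiv X, IsAmple A) (hZp : ∃ A : WeilDiv Z, IsAmple A)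
    (f : X ⟶ Z) (hf : f ≫ structureMorphism ℂ Z = structureMorphism ℂ X)
    (hsurj : Function.Surjective f.base)
    (hconn : ∀ z : Spec (CommRingCat.of ℂ) ⟶ Z, z ≫ structureMorphism ℂ Z = 𝟙 _ →
      PreconnectedSpace ↥(Limits.pullback f z))
    (KX : WeilDiv X) (hKX : IsCanonicalDivisor ℂ X n KX)
    (KZ : WeilDiv Z) (hKZ : IsCanonicalDivisor ℂ Z m KZ) :
    ∃ C : ℕ → Set Z, (∀ i, IsClosed (C i) ∧ C i ≠ Set.univ) ∧
      ∀ z : Spec (CommRingCat.of ℂ) ⟶ Z, z ≫ structureMorphism ℂ Z = 𝟙 _ →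
        (∀ i, z.base (IsLocalRing.closedPoint ℂ) ∉ C i) →
        ∀ d e : ℕ, FibreKodairaDimGe ℂ f z (n - m) d → KodairaDimGe ℂ Z KZ e →
          KodairaDimGe ℂ X KX (d + e) :=
  GoalU_845.goalU (core_of_skel hSat hGeo hHull hPT hEv hCY hC1 hC2 hC4 hTCh hFlat)
    X Z n m hX hZ hXp hZp f hf hsurj hconn KX hKX KZ hKZ

end Crest.Agent.R276.LComp_723
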