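import Mathlib
import Crest.Agent.R271.H3_51
import Crest.Agent.R276.Coa_375
import Crest.Agent.R276.LsC_450
import Crest.Agent.R276.Area_448
import Crest.Agent.R276.LsB_450
import Crest.Agent.R266.Osgood
import Crest.Agent.R276.Cur_409
import Crest.Agent.R276.Der_409
import Crest.Agent.R276.Mod4_987
import Crest.Agent.R271.G3a_792
import Crest.Agent.R276.LsDefs_450
import Crest.Agent.R276.PdD_571
import Crest.Agent.R276.PdW_571
import Crest.Agent.R276.PfDer_676
import Crest.Agent.R276.MassH_137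

-- ▼ part R276/Coa2_375
section

/-!
Row 276, leaf ALG-COA (helper375), part 2: on a Riemann domain with a foliation by curves given by
level sets of maps `F j` up to a countable group, almost every leaf has finite area.
-/

set_option autoImplicit false
set_option linter.unusedSectionVars false

noncomputable section

open Set Filter Topology MeasureTheory
open scoped ENNReal NNReal
open Crest.Agent.R271.Ho51
open Crest.Agent.R276.Coa_375

namespace Crest.Agent.R276.Coa2_375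

section ins

variable {m' : ℕ} (i0 : Fin (m' + 1))

/-- insertion of the coordinate number `i0` -/
def ins : (ℂ × (Fin m' → ℂ)) →L[ℝ] (Fin (m' + 1) → ℂ) :=
  ContinuousLinearMap.pi (i0.insertNth (α := fun _ => (ℂ × (Fin m' → ℂ)) →L[ℝ] ℂ)
    (ContinuousLinearMap.fst ℝ ℂ (Fin m' → ℂ)) fun k =>
      (ContinuousLinearMap.proj k).comp (ContinuousLinearMap.snd ℝ ℂ (Fin m' → ℂ)))

lemma ins_apply (p : ℂ × (Fin m' → ℂ)) : ins i0 p = i0.insertNth p.1 p.2 := by
  funext k
  rcases Fin.eq_self_or_eq_succAbove i0 k with rfl | ⟨k, rfl⟩ <;> simp [ins]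

@[simp] lemma ins_self (p : ℂ × (Fin m' → ℂ)) : ins i0 p i0 = p.1 := by
  rw [ins_apply]; simp

/-- the coordinates as a pair -/
def cut (z : Fin (m' + 1) → ℂ) : ℂ × (Fin m' → ℂ) := (z i0, fun k => z (i0.succAbove k))

@[simp] lemma ins_cut (z : Fin (m' + 1) → ℂ) : ins i0 (cut i0 z) = z := by
  rw [ins_apply]
  funext k
  rcases Fin.eq_self_or_eq_succAbove i0 k with rfl | ⟨k, rfl⟩ <;> simp [cut]

@[simp] lemma cut_ins (p : ℂ × (Fin m' → ℂ)) : cut i0 (ins i0 p) = p := by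
  rw [ins_apply]
  ext <;> simp [cut]

lemma ins_inj : Function.Injective (ins i0 : ℂ × (Fin m' → ℂ) → _) := fun p q h => by
  rw [← cut_ins i0 p, h, cut_ins]

lemma mp : MeasurePreserving (ins i0 : ℂ × (Fin m' → ℂ) → _)
    ((volume : Measure ℂ).prod (volume : Measure (Fin m' → ℂ))) volume := by
  have h1 := (volume_preserving_piFinSuccAbove (fun _ : Fin (m' + 1) => ℂ) i0).symm
  have h2 : (⇑(MeasurableEquiv.piFinSuccAbove (fun _ : Fin (m' + 1) => ℂ) i0).symm) =
      (ins i0 : ℂ × (Fin m' → ℂ) → _) := by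
    funext p
    rw [ins_apply]
    rfl
  rw [h2] at h1
  exact h1

lemma me : MeasurableEmbedding (ins i0 : ℂ × (Fin m' → ℂ) → _) := by
  have h2 : (⇑(MeasurableEquiv.piFinSuccAbove (fun _ : Fin (m' + 1) => ℂ) i0).symm) =
      (ins i0 : ℂ × (Fin m' → ℂ) → _) := by
    funext p
    rw [ins_apply]
    rfl
  rw [← h2]
  exact MeasurableEquiv.measurableEmbedding _

end ins

variable {m' : ℕ} {M : Type*} [TopologicalSpace M] [RDom (m' + 1) M]
variable {V : Type*} [NormedAddCommGroup V] [NormedSpace ℝ V] [FiniteDimensional ℝ V]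

variable (M V) in
/-- A foliation of `M` by curves, transversal to `{z i0 = const}`: boxes `e j` with maps `F j`
whose level sets in the box are the plaques, and a countable group acting on the values. -/
structure Fol (i0 : Fin (m' + 1)) (J Γ : Type*) where
  e : J → OpenPartialHomeomorph M (Fin (m' + 1) → ℂ)
  he : ∀ j, IsCh (e j)
  F : J → (Fin (m' + 1) → ℂ) → V
  hF : ∀ j, ContDiffOn ℝ 1 (F j) (e j).target
  π : J → V →L[ℝ] (Fin m' → ℂ)
  inj : ∀ j, InjOn (fun z => (z i0, π j (F j z))) (e j).target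
  der : ∀ j, ∀ z ∈ (e j).target, ∀ v : Fin (m' + 1) → ℂ, v i0 = 0 →
    π j (fderiv ℝ (F j) z v) = 0 → v = 0
  act : Γ → V →L[ℝ] V
  act_inj : ∀ γ, Function.Injective (act γ)

variable {i0 : Fin (m' + 1)} {J Γ : Type*}

namespace Fol

variable (W : Fol M V i0 J Γ)

lemma hasFDerivAt (j : J) {z : Fin (m' + 1) → ℂ} (hz : z ∈ (W.e j).target) :
    HasFDerivAt (W.F j) (fderiv ℝ (W.F j) z) z :=
  (((W.hF j).contDiffAt ((W.e j).open_target.mem_nhds hz)).differentiableAt (by simp)).hasFDerivAt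

lemma fderiv_comp (j : J) {p : ℂ × (Fin m' → ℂ)} (hp : ins i0 p ∈ (W.e j).target)
    (v : ℂ × (Fin m' → ℂ)) :
    fderiv ℝ (fun p => W.F j (ins i0 p)) p v = fderiv ℝ (W.F j) (ins i0 p) (ins i0 v) := by
  have h1 := (W.hasFDerivAt j hp).comp p (ins i0 : ℂ × (Fin m' → ℂ) →L[ℝ] _).hasFDerivAt
  have h2 := h1.fderiv
  have h3 : fderiv ℝ (fun p => W.F j (ins i0 p)) p =
    (fderiv ℝ (W.F j) (ins i0 p)).comp (ins i0) := h2
  rw [h3]
  rfl

/-- the box in coordinates -/
def box (j : J) : CBox (Fin m' → ℂ) V where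
  Ω := ins i0 ⁻¹' (W.e j).target
  hΩ := (W.e j).open_target.preimage (ins i0).continuous
  F := fun p => W.F j (ins i0 p)
  hF := (W.hF j).comp (ins i0).contDiff.contDiffOn fun p hp => hp
  π := W.π j
  inj := by
    intro p hp q hq hpq
    apply ins_inj i0
    apply W.inj j hp hq
    simp only [ins_self]
    exact hpq
  der := by
    intro p hp v hv
    rw [W.fderiv_comp j hp] at hv
    have h1 := W.der j _ hp (ins i0 (0, v)) (by simp) hv
    have h2 : ((0 : ℂ), v) = 0 := ins_inj i0 (by rw [h1, map_zero])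
    exact (Prod.mk.inj h2).2

section meas

variable [MeasurableSpace M] [BorelSpace M]

open Classical in
/-- a function on `M` in the coordinates of the box `j` -/
def pull (j : J) (g : M → ℝ≥0∞) : ℂ × (Fin m' → ℂ) → ℝ≥0∞ :=
  (ins i0 ⁻¹' (W.e j).target).indicator fun p => g ((W.e j).symm (ins i0 p))

lemma measurable_pull (j : J) {g : M → ℝ≥0∞} (hg : Measurable g) : Measurable (W.pull j g) := by
  classical
  have hO : MeasurableSet (ins i0 ⁻¹' (W.e j).target) :=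
    ((W.e j).open_target.preimage (ins i0).continuous).measurableSet
  rcases isEmpty_or_nonempty M with hM | ⟨⟨x0⟩⟩
  · have : W.pull j g = fun _ => 0 := by
      funext p
      exact (hM.false ((W.e j).symm (ins i0 p))).elim
    rw [this]
    exact measurable_const
  have h1 : Measurable ((ins i0 ⁻¹' (W.e j).target).piecewise
      (fun p => (W.e j).symm (ins i0 p)) (fun _ => x0)) :=
    ContinuousOn.measurable_piecewise
      ((W.e j).symm.continuousOn.comp (ins i0).continuous.continuousOn fun p hp => hp)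
      continuousOn_const hO
  have h2 : W.pull j g = (ins i0 ⁻¹' (W.e j).target).indicator fun p =>
      g (((ins i0 ⁻¹' (W.e j).target).piecewise
      (fun p => (W.e j).symm (ins i0 p)) (fun _ => x0)) p) := by
    funext p
    by_cases hp : p ∈ ins i0 ⁻¹' (W.e j).target
    · simp [pull, hp]
    · simp [pull, hp]
  rw [h2]
  exact (hg.comp h1).indicator hO

lemma lintegral_source {μ : Measure M} (hμ : IsLeb μ) (j : J) {g : M → ℝ≥0∞}
    (hg : Measurable g) : ∫⁻ x in (W.e j).source, g x ∂μ =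
      ∫⁻ p in (W.box j).Ω, W.pull j g p
        ∂((volume : Measure ℂ).prod (volume : Measure (Fin m' → ℂ))) := by
  rw [hμ (W.e j) (W.he j), lintegral_map' hg.aemeasurable (aem_symm _),
    ← (mp i0).setLIntegral_comp_preimage_emb (me i0)]
  have hO : MeasurableSet (ins i0 ⁻¹' (W.e j).target) :=
    ((W.e j).open_target.preimage (ins i0).continuous).measurableSet
  refine lintegral_congr_ae ?_
  filter_upwards [ae_restrict_mem hO] with p hp
  simp [pull, hp]

section area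

variable [Countable J] [Countable Γ]

/-- all boxes together -/
def dom : Set M := ⋃ j, (W.e j).source

open Classical in
/-- disjoint pieces of the boxes -/
def piece (j : J) : Set M :=
  (W.e j).source \ ⋃ k ∈ {k : J | (Encodable.ofCountable J).encode k <
    (Encodable.ofCountable J).encode j}, (W.e k).source

lemma piece_sub (j : J) : W.piece j ⊆ (W.e j).source := sdiff_subset

lemma measurableSet_piece (j : J) : MeasurableSet (W.piece j) :=
  (W.e j).open_source.measurableSet.diff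
    (isOpen_biUnion fun k _ => (W.e k).open_source).measurableSet

lemma piece_disj {j k : J} (h : j ≠ k) : Disjoint (W.piece j) (W.piece k) := by
  rw [Set.disjoint_left]
  intro x hxj hxk
  rcases lt_trichotomy ((Encodable.ofCountable J).encode j)
    ((Encodable.ofCountable J).encode k) with h1 | h1 | h1
  · exact hxk.2 (mem_biUnion (show j ∈ _ from h1) hxj.1)
  · exact h ((Encodable.ofCountable J).encode_injective h1)
  · exact hxj.2 (mem_biUnion (show k ∈ _ from h1) hxk.1)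

lemma exists_piece {x : M} (hx : x ∈ W.dom) : ∃ j, x ∈ W.piece j := by
  classical
  obtain ⟨j0, hj0⟩ := mem_iUnion.1 hx
  have hex : ∃ n, ∃ j, (Encodable.ofCountable J).encode j = n ∧ x ∈ (W.e j).source :=
    ⟨_, j0, rfl, hj0⟩
  obtain ⟨j, hj, hxj⟩ := Nat.find_spec hex
  refine ⟨j, hxj, fun hx2 => ?_⟩
  obtain ⟨k, hk, hxk⟩ := mem_iUnion₂.1 hx2
  rw [mem_ofPred_eq, hj] at hk
  exact Nat.find_min hex hk ⟨k, rfl, hxk⟩

/-- area of the part of the set `S p` in the boxes, with density `a` with respect to the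
coordinate `i0` -/
def area (S : M → Set M) (a : M → ℝ≥0∞) (p : M) : ℝ≥0∞ :=
  ∫⁻ ζ : ℂ, ∑' q : {q // q ∈ S p ∧ q ∈ W.dom ∧ cp q i0 = ζ}, a q

/-- upper bound of the area -/
def up (a : M → ℝ≥0∞) (i : J) (q : ℂ × (ℂ × (Fin m' → ℂ))) : ℝ≥0∞ :=
  Ssum W.box (W.box i) W.act (fun j => W.pull j ((W.piece j).indicator a)) q

lemma tsum_le_up (a : M → ℝ≥0∞) (S : M → Set M)
    (hS : ∀ i j p q, p ∈ (W.e i).source → q ∈ (W.e j).source → q ∈ S p →
      ∃ γ, W.F j (cp q) = W.act γ (W.F i (cp p)))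
    (i : J) {p : M} (hp : p ∈ (W.e i).source) (ζ : ℂ) :
    ∑' q : {q // q ∈ S p ∧ q ∈ W.dom ∧ cp q i0 = ζ}, a q ≤ W.up a i (ζ, cut i0 (cp p)) := by
  classical
  have h1 : ∀ q : {q // q ∈ S p ∧ q ∈ W.dom ∧ cp q i0 = ζ}, ∃ φ : J × Γ,
      q.1 ∈ W.piece φ.1 ∧ W.F φ.1 (cp q.1) = W.act φ.2 (W.F i (cp p)) := by
    intro q
    obtain ⟨j, hj⟩ := W.exists_piece q.2.2.1
    obtain ⟨γ, hγ⟩ := hS i j p q.1 hp (W.piece_sub j hj) q.2.1
    exact ⟨(j, γ), hj, hγ⟩
  choose φ hφ1 hφ2 using h1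
  have hkey : ∀ q : {q // q ∈ S p ∧ q ∈ W.dom ∧ cp q i0 = ζ},
      (ζ, cut i0 (cp p)) ∈ (W.box (φ q).1).A (W.box i).Ω
        (fun x => W.act (φ q).2 ((W.box i).F x)) ∧
      (W.box (φ q).1).h (fun x => W.act (φ q).2 ((W.box i).F x)) (ζ, cut i0 (cp p)) =
        cut i0 (cp q.1) := by
    intro q
    have hcut : cut i0 (cp q.1) = (ζ, (cut i0 (cp q.1)).2) := by
      refine Prod.ext ?_ rfl
      exact q.2.2.2
    have h2 : (ζ, (cut i0 (cp q.1)).2) ∈ (W.box (φ q).1).Ω := by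
      rw [← hcut]
      change ins i0 (cut i0 (cp q.1)) ∈ (W.e (φ q).1).target
      rw [ins_cut]
      exact (W.he _).cp_mem (W.piece_sub _ (hφ1 q))
    have h3 : (W.box (φ q).1).F (ζ, (cut i0 (cp q.1)).2) =
        W.act (φ q).2 ((W.box i).F (cut i0 (cp p))) := by
      rw [← hcut]
      change W.F (φ q).1 (ins i0 (cut i0 (cp q.1))) =
        W.act (φ q).2 (W.F i (ins i0 (cut i0 (cp p))))
      rw [ins_cut, ins_cut]
      exact hφ2 q
    refine ⟨⟨?_, _, h2, h3⟩, ?_⟩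
    · change ins i0 (cut i0 (cp p)) ∈ (W.e i).target
      rw [ins_cut]
      exact (W.he _).cp_mem hp
    · rw [(W.box (φ q).1).h_eq (G := fun x => W.act (φ q).2 ((W.box i).F x))
        (x := cut i0 (cp p)) h2 h3, ← hcut]
  have hinj : Function.Injective φ := by
    intro q1 q2 h12
    have h2 := (hkey q1).2
    have h3 := (hkey q2).2
    rw [h12] at h2
    have h4 : cut i0 (cp q1.1) = cut i0 (cp q2.1) := h2.symm.trans h3
    have h5 : cp q1.1 = cp q2.1 := by
      rw [← ins_cut i0 (cp q1.1), h4, ins_cut]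
    apply Subtype.ext
    refine (W.he (φ q1).1).injOn (W.piece_sub _ (hφ1 q1)) ?_ h5
    rw [h12]
    exact W.piece_sub _ (hφ1 q2)
  rw [up, Ssum, ← ENNReal.tsum_prod]
  refine le_trans (le_of_eq (tsum_congr fun q => ?_))
    (ENNReal.tsum_comp_le_tsum_of_injective hinj _)
  rw [term, indicator_of_mem (hkey q).1, (hkey q).2, pull, indicator_of_mem, ins_cut,
    (W.he _).symm_cp (W.piece_sub _ (hφ1 q)), indicator_of_mem (hφ1 q)]
  change ins i0 (cut i0 (cp q.1)) ∈ (W.e (φ q).1).target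
  rw [ins_cut]
  exact (W.he _).cp_mem (W.piece_sub _ (hφ1 q))

/-- **COA.** Almost every leaf has finite area. -/
theorem ae_area_lt_top {μ : Measure M} (hμ : IsLeb μ) (w : M → ℝ≥0∞) (hwm : Measurable w)
    (hw : ∀ i j γ, ∀ z ∈ (W.e i).target, ∀ z' ∈ (W.e j).target, W.F j z' = W.act γ (W.F i z) →
      ∀ L : (Fin m' → ℂ) →L[ℝ] (Fin m' → ℂ),
        (∀ v, fderiv ℝ (W.F j) z' (ins i0 (0, L v)) = W.act γ (fderiv ℝ (W.F i) z (ins i0 (0, v))))
        → w ((W.e i).symm z) = ENNReal.ofReal |L.det| * w ((W.e j).symm z'))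
    (hfin : ∀ i, ∃ N : ℕ, ∀ j, ∀ z' ∈ (W.e j).target, ∀ s : Finset Γ,
      (∀ γ ∈ s, ∃ z ∈ (W.e i).target, W.F j z' = W.act γ (W.F i z)) → s.card ≤ N)
    (hbd : ∀ i, volume ((fun z => z i0) '' (W.e i).target) ≠ ⊤)
    (a : M → ℝ≥0∞) (ha : Measurable a) (hmass : ∫⁻ x, a x * w x ∂μ ≠ ⊤)
    (S : M → Set M)
    (hS : ∀ i j p q, p ∈ (W.e i).source → q ∈ (W.e j).source → q ∈ S p →
      ∃ γ, W.F j (cp q) = W.act γ (W.F i (cp p))) :
    ∀ᵐ p ∂μ, p ∈ W.dom → w p ≠ 0 → W.area S a p < ⊤ := by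
  set ν : Measure (ℂ × (Fin m' → ℂ)) :=
    (volume : Measure ℂ).prod (volume : Measure (Fin m' → ℂ)) with hν
  suffices h : ∀ i, ∀ᵐ p ∂μ, p ∈ (W.e i).source → w p ≠ 0 → W.area S a p < ⊤ by
    rw [← ae_all_iff] at h
    filter_upwards [h] with p hp hpd hwp
    obtain ⟨i, hi⟩ := mem_iUnion.1 hpd
    exact hp i hi hwp
  intro i
  obtain ⟨N, hN⟩ := hfin i
  have hpm : ∀ j, Measurable ((W.piece j).indicator a) := fun j =>
    ha.indicator (W.measurableSet_piece j)
  have hle := int_le (μ := (volume : Measure (Fin m' → ℂ))) W.box (W.box i) W.act W.act_inj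
    (fun j => W.pull j w) (W.pull i w)
    (fun j γ p p0 hp hp0 h L hL => by
      rw [pull, pull, indicator_of_mem (show p ∈ ins i0 ⁻¹' (W.e j).target from hp),
        indicator_of_mem (show p0 ∈ ins i0 ⁻¹' (W.e i).target from hp0)]
      refine hw i j γ (ins i0 p0) hp0 (ins i0 p) hp h L fun v => ?_
      rw [← W.fderiv_comp j hp, ← W.fderiv_comp i hp0]
      exact hL v)
    N (fun j p hp s hs => hN j (ins i0 p) hp s fun γ hγ => by
      obtain ⟨p0, hp0, h⟩ := hs γ hγ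
      exact ⟨ins i0 p0, hp0, h⟩)
    (fun j => W.pull j ((W.piece j).indicator a)) (fun j => W.measurable_pull j (hpm j))
    (fun j => W.measurable_pull j hwm) (W.measurable_pull i hwm)
  have hmass2 : ∑' j, ∫⁻ p in (W.box j).Ω, W.pull j ((W.piece j).indicator a) p * W.pull j w p ∂ν ≤
      ∫⁻ x, a x * w x ∂μ := by
    have h1 : ∀ j, ∫⁻ p in (W.box j).Ω,
        W.pull j ((W.piece j).indicator a) p * W.pull j w p ∂ν =
        ∫⁻ x in W.piece j, a x * w x ∂μ := by
      intro j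
      have h2 : (fun p => W.pull j ((W.piece j).indicator a) p * W.pull j w p) =
          W.pull j ((W.piece j).indicator fun x => a x * w x) := by
        funext p
        by_cases hp : p ∈ ins i0 ⁻¹' (W.e j).target
        · by_cases hq : (W.e j).symm (ins i0 p) ∈ W.piece j
          · simp [pull, hp, hq]
          · simp [pull, hp, hq]
        · simp [pull, hp]
      have hm : Measurable fun x => a x * w x := ha.mul hwm
      rw [h2, ← W.lintegral_source hμ j (hm.indicator (W.measurableSet_piece j)),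
        lintegral_indicator (W.measurableSet_piece j),
        Measure.restrict_restrict (W.measurableSet_piece j), inter_eq_left.2 (W.piece_sub j)]
    rw [tsum_congr h1, ← lintegral_iUnion (fun j => W.measurableSet_piece j)
      (fun j k hjk => W.piece_disj hjk)]
    exact setLIntegral_le_lintegral _ _
  have hfin1 : ∫⁻ p in (W.box i).Ω, (W.pull i w p * ∫⁻ ζ : ℂ, W.up a i (ζ, p)) ∂ν ≠ ⊤ := by
    refine ne_top_of_le_ne_top ?_ hle
    refine ENNReal.mul_ne_top ?_ (ENNReal.mul_ne_top (by simp)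
      (ne_top_of_le_ne_top hmass hmass2))
    have h3 : Prod.fst '' (W.box i).Ω = (fun z : Fin (m' + 1) → ℂ => z i0) '' (W.e i).target := by
      ext ζ
      constructor
      · rintro ⟨p, hp, rfl⟩
        exact ⟨ins i0 p, hp, ins_self i0 p⟩
      · rintro ⟨z, hz, rfl⟩
        refine ⟨cut i0 z, ?_, rfl⟩
        change ins i0 (cut i0 z) ∈ (W.e i).target
        rw [ins_cut]
        exact hz
    rw [h3]
    exact hbd i
  have hupm : Measurable fun p => ∫⁻ ζ : ℂ, W.up a i (ζ, p) := by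
    have : Measurable (W.up a i) :=
      measurable_Ssum _ _ _ (fun j => W.measurable_pull j (hpm j))
    exact this.lintegral_prod_left'
  have hae : ∀ᵐ p ∂ν.restrict (W.box i).Ω,
      W.pull i w p * ∫⁻ ζ : ℂ, W.up a i (ζ, p) < ⊤ :=
    ae_lt_top ((W.measurable_pull i hwm).mul hupm) hfin1
  have hae2 : ∀ᵐ p ∂μ.restrict (W.e i).source,
      w p * ∫⁻ ζ : ℂ, W.up a i (ζ, cut i0 (cp p)) < ⊤ := by
    rw [hμ (W.e i) (W.he i)]
    have hcm : Measurable fun z : Fin (m' + 1) → ℂ => cut i0 z := by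
      unfold cut
      fun_prop
    have hcpm : Measurable (cp : M → (Fin (m' + 1) → ℂ)) := cp_cont.measurable
    rw [ae_map_iff (aem_symm _)]
    · have hmp := (mp i0).restrict_preimage_emb (me i0) (W.e i).target
      have h4 : ∀ᵐ z ∂(volume.restrict (W.e i).target),
          W.pull i w (cut i0 z) * ∫⁻ ζ : ℂ, W.up a i (ζ, cut i0 z) < ⊤ := by
        rw [← hmp.map_eq, ae_map_iff (ins i0).continuous.measurable.aemeasurable]
        · simp only [cut_ins]
          exact hae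
        · exact measurableSet_lt ((W.measurable_pull i hwm).comp hcm |>.mul (hupm.comp hcm))
            measurable_const
      filter_upwards [h4, ae_restrict_mem (W.e i).open_target.measurableSet] with z hz hzt
      rw [(W.he i).cp_symm hzt]
      rw [pull, indicator_of_mem, ins_cut] at hz
      · exact hz
      · change ins i0 (cut i0 z) ∈ (W.e i).target
        rw [ins_cut]
        exact hzt
    · exact measurableSet_lt (hwm.mul (hupm.comp (hcm.comp hcpm))) measurable_const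
  rw [ae_restrict_iff' (W.e i).open_source.measurableSet] at hae2
  filter_upwards [hae2] with p hp hps hwp
  have h5 := hp hps
  have h6 : ∫⁻ ζ : ℂ, W.up a i (ζ, cut i0 (cp p)) < ⊤ := by
    rcases ENNReal.mul_lt_top_iff.1 h5 with h | h | h
    · exact h.2
    · exact absurd h hwp
    · rw [h]; exact ENNReal.zero_lt_top
  exact lt_of_le_of_lt (lintegral_mono fun ζ => W.tsum_le_up a S hS i hps ζ) h6

end area

end meas

end Fol

end Crest.Agent.R276.Coa2_375
end
end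

-- ▼ part R276/Coa3_375
section

/-!
Row 276, leaf ALG-COA (helper375), part 3: the coarea theorem for the structure `Inv` of
`LsDefs_450`: almost every class contained in `M*` is a curve of finite area.
-/

set_option autoImplicit false
set_option linter.unusedSectionVars false

noncomputable section

open Set Filter Topology MeasureTheory
open scoped ENNReal NNReal
open Crest.Agent.R271.Ho51
open Crest.Agent.R276.Ipc735 (SmAt HolAt)
open Crest.Agent.R276.LsDefs_450 Crest.Agent.R276.LsB_450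
open Crest.Agent.R276.Coa_375 Crest.Agent.R276.Coa2_375

namespace Crest.Agent.R276.Coa3_375

variable {m' : ℕ} {M : Type*} [TopologicalSpace M] [RDom (m' + 1) M] {i₀ : Fin (m' + 1)}
  {V : Type*} [NormedAddCommGroup V] [NormedSpace ℝ V] [FiniteDimensional ℝ V]
  {G : Type*} [Group G] (I : Inv M i₀ V G)

/-- a left inverse of an injective linear map -/
lemma exists_leftInv {E : Type*} [NormedAddCommGroup E] [NormedSpace ℝ E]
    (L : E →L[ℝ] V) (hL : ∀ v, L v = 0 → v = 0) :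
    ∃ π : V →L[ℝ] E, ∀ v, π (L v) = v := by
  obtain ⟨g, hg⟩ := LinearMap.exists_leftInverse_of_injective (L : E →ₗ[ℝ] V)
    (LinearMap.ker_eq_bot'.2 hL)
  refine ⟨LinearMap.toContinuousLinearMap g, fun v => ?_⟩
  exact LinearMap.congr_fun hg v

/-- **A foliated box** around a point of `M*`. -/
theorem exists_box {z0 : M} (hz0 : z0 ∈ I.Mst) :
    ∃ (e : OpenPartialHomeomorph M (Fin (m' + 1) → ℂ)) (π : V →L[ℝ] (Fin m' → ℂ)) (T0 : Set G),
      IsCh e ∧ z0 ∈ e.source ∧ ContDiffOn ℝ 1 (I.F z0 ∘ e.symm) e.target ∧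
      InjOn (fun z => (z i₀, π (I.F z0 (e.symm z)))) e.target ∧
      (∀ z ∈ e.target, ∀ v : Fin (m' + 1) → ℂ, v i₀ = 0 →
        π (fderiv ℝ (I.F z0 ∘ e.symm) z v) = 0 → v = 0) ∧
      (∀ x ∈ e.source, ∃ γ, ∀ᶠ y in 𝓝 x, I.F z0 y = I.ρ γ (I.F x y)) ∧
      e.target ⊆ Metric.ball (cp z0) 1 ∧ T0.Finite ∧
      ∀ γ, (∃ x ∈ e.source, ∃ y ∈ e.source, I.ρ γ (I.F z0 x) = I.F z0 y) → γ ∈ T0 := by
  obtain ⟨U0, hU0, W0, hW0, hfin⟩ := I.pd z0 z0
  set Φ : (Fin (m' + 1) → ℂ) → V := I.F z0 ∘ (ch z0).symm with hΦ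
  have hsm : ContDiffAt ℝ 1 Φ (cp z0) := ContDiffAt.of_le (I.sm z0) (by exact_mod_cast le_top)
  obtain ⟨π, hπ⟩ := exists_leftInv ((fderiv ℝ Φ (cp z0)).comp
    ((ins i₀).comp (ContinuousLinearMap.inr ℝ ℂ (Fin m' → ℂ)))) (fun v hv => by
      have h1 : ins i₀ (0, v) = 0 := hz0 (ins i₀ (0, v)) (by simp) hv
      have h2 : ((0 : ℂ), v) = 0 := ins_inj i₀ (by rw [h1, map_zero])
      exact (Prod.mk.inj h2).2)
  have hπ' : ∀ v, π (fderiv ℝ Φ (cp z0) (ins i₀ (0, v))) = v := hπ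
  -- transversality near the centre
  have hder : ∀ᶠ z in 𝓝 (cp z0), ∀ v : Fin (m' + 1) → ℂ, v i₀ = 0 →
      π (fderiv ℝ Φ z v) = 0 → v = 0 := by
    have hc : ContinuousAt (fun z => fderiv ℝ Φ z) (cp z0) :=
      (hsm.fderiv_right (m := 0) (by simp)).continuousAt
    set A : (Fin (m' + 1) → ℂ) → ((Fin m' → ℂ) →L[ℝ] (Fin m' → ℂ)) := fun z =>
      π.comp ((fderiv ℝ Φ z).comp ((ins i₀).comp (ContinuousLinearMap.inr ℝ ℂ (Fin m' → ℂ))))
      with hA
    have hA0 : A (cp z0) = ContinuousLinearMap.id ℝ _ := by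
      ext1 v
      exact hπ' v
    have hAc : ContinuousAt A (cp z0) := by
      have h1 : ContinuousAt (fun z => (fderiv ℝ Φ z).comp
          ((ins i₀).comp (ContinuousLinearMap.inr ℝ ℂ (Fin m' → ℂ)))) (cp z0) :=
        ((ContinuousLinearMap.compL ℝ (Fin m' → ℂ) (Fin (m' + 1) → ℂ) V).flip
          ((ins i₀).comp (ContinuousLinearMap.inr ℝ ℂ (Fin m' → ℂ)))).continuous.continuousAt.comp
          hc
      exact ((ContinuousLinearMap.compL ℝ (Fin m' → ℂ) V (Fin m' → ℂ)) π).continuous.continuousAt.comp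
        h1
    have h2 : ∀ᶠ z in 𝓝 (cp z0), ‖A z - ContinuousLinearMap.id ℝ _‖ < 1 := by
      have h3 : ContinuousAt (fun z => ‖A z - ContinuousLinearMap.id ℝ _‖) (cp z0) :=
        (hAc.sub continuousAt_const).norm
      have h4 : ‖A (cp z0) - ContinuousLinearMap.id ℝ _‖ < 1 := by rw [hA0]; simp
      exact h3.eventually (gt_mem_nhds h4)
    filter_upwards [h2] with z hz v hv hv2
    have h5 : v = ins i₀ (0, (cut i₀ v).2) := by
      have : cut i₀ v = (0, (cut i₀ v).2) := Prod.ext hv rfl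
      rw [← this, ins_cut]
    set v' := (cut i₀ v).2 with hv'
    have h6 : A z v' = 0 := by
      rw [h5] at hv2
      exact hv2
    have h7 : v' = 0 := by
      by_contra hne
      have h8 : ‖v'‖ ≤ ‖A z - ContinuousLinearMap.id ℝ _‖ * ‖v'‖ := by
        have := (A z - ContinuousLinearMap.id ℝ _).le_opNorm v'
        rw [_root_.sub_apply, h6, zero_sub, norm_neg] at this
        exact this
      have h9 : 0 < ‖v'‖ := norm_pos_iff.2 hne
      nlinarith
    rw [h5, h7]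
    exact map_zero _
  -- injectivity near the centre
  have hinj : ∃ S ∈ 𝓝 (cp z0), InjOn (fun z => (z i₀, π (Φ z))) S := by
    have hst : HasStrictFDerivAt Φ (fderiv ℝ Φ (cp z0)) (cp z0) := hsm.hasStrictFDerivAt (by simp)
    set p0 := cut i₀ (cp z0) with hp0
    have hp0' : ins i₀ p0 = cp z0 := ins_cut _ _
    set D1 : ℂ × (Fin m' → ℂ) →L[ℝ] ℂ × (Fin m' → ℂ) :=
      (ContinuousLinearMap.fst ℝ ℂ _).prod (π.comp ((fderiv ℝ Φ (cp z0)).comp (ins i₀))) with hD1
    have hD1inj : Function.Injective D1 := by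
      rw [injective_iff_map_eq_zero]
      rintro ⟨a, v⟩ h
      have h1 := congrArg Prod.fst h
      have h2 := congrArg Prod.snd h
      have h1' : a = 0 := h1
      subst h1'
      have h3 : π (fderiv ℝ Φ (cp z0) (ins i₀ (0, v))) = 0 := h2
      rw [hπ'] at h3
      rw [h3]; rfl
    set L1 : (ℂ × (Fin m' → ℂ)) ≃L[ℝ] (ℂ × (Fin m' → ℂ)) :=
      (LinearEquiv.ofInjectiveEndo (D1 : (ℂ × (Fin m' → ℂ)) →ₗ[ℝ] (ℂ × (Fin m' → ℂ)))
        hD1inj).toContinuousLinearEquiv with hL1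
    have hcoe : (L1 : ℂ × (Fin m' → ℂ) →L[ℝ] ℂ × (Fin m' → ℂ)) = D1 := by
      apply ContinuousLinearMap.ext
      intro v
      rfl
    have hst1 : HasStrictFDerivAt (fun p => ((ins i₀ p) i₀, π (Φ (ins i₀ p))))
        (L1 : ℂ × (Fin m' → ℂ) →L[ℝ] ℂ × (Fin m' → ℂ)) p0 := by
      rw [hcoe]
      have h1 : HasStrictFDerivAt (fun p => Φ (ins i₀ p))
          ((fderiv ℝ Φ (cp z0)).comp (ins i₀)) p0 := by
        refine HasStrictFDerivAt.comp p0 (g := Φ) ?_ (ins i₀).hasStrictFDerivAt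
        rw [hp0']
        exact hst
      have h2 : (fun p : ℂ × (Fin m' → ℂ) => ((ins i₀ p) i₀, π (Φ (ins i₀ p)))) =
          fun p => (p.1, π (Φ (ins i₀ p))) := by
        funext p; simp
      rw [h2]
      exact hasStrictFDerivAt_fst.prodMk (π.hasStrictFDerivAt.comp p0 h1)
    set hh := hst1.toOpenPartialHomeomorph _
    have hmem : hh.source ∈ 𝓝 p0 :=
      hh.open_source.mem_nhds hst1.mem_toOpenPartialHomeomorph_source
    have hio : InjOn (fun p : ℂ × (Fin m' → ℂ) => ((ins i₀ p) i₀, π (Φ (ins i₀ p))))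
        hh.source := by
      have := hh.injOn
      rwa [hst1.toOpenPartialHomeomorph_coe] at this
    have hcc : Continuous fun z : Fin (m' + 1) → ℂ => cut i₀ z := by
      unfold cut
      fun_prop
    refine ⟨(fun z => cut i₀ z) ⁻¹' hh.source, hcc.continuousAt.preimage_mem_nhds hmem, ?_⟩
    intro z hz z' hz' hzz
    have h5 : cut i₀ z = cut i₀ z' := by
      apply hio hz hz'
      simp only [ins_cut]
      exact hzz
    rw [← ins_cut i₀ z, h5, ins_cut]
  obtain ⟨S, hS, hSinj⟩ := hinj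
  have hcp : Tendsto (cp : M → (Fin (m' + 1) → ℂ)) (𝓝 z0) (𝓝 (cp z0)) := cp_cont.continuousAt
  have hcd : ∀ᶠ z in 𝓝 (cp z0), ContDiffAt ℝ 1 Φ z := hsm.eventually (by simp)
  have hall : ∀ᶠ x in 𝓝 z0, x ∈ U0 ∧ x ∈ W0 ∧ cp x ∈ S ∧ ContDiffAt ℝ 1 Φ (cp x) ∧
      (∀ v : Fin (m' + 1) → ℂ, v i₀ = 0 → π (fderiv ℝ Φ (cp x) v) = 0 → v = 0) ∧
      (∃ γ, ∀ᶠ y in 𝓝 x, I.F z0 y = I.ρ γ (I.F x y)) ∧ cp x ∈ Metric.ball (cp z0) 1 := by
    filter_upwards [hU0, hW0, hcp hS, hcp.eventually hcd, hcp.eventually hder, I.ndc z0,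
      hcp (Metric.ball_mem_nhds _ one_pos)] with x h1 h2 h3 h4 h5 h6 h7
    exact ⟨h1, h2, h3, h4, h5, h6, h7⟩
  obtain ⟨U, hUsub, hUo, hUz⟩ := mem_nhds_iff.1 hall
  set e := (ch z0).restrOpen U hUo with he
  have hes : e.source = (ch z0).source ∩ U := (ch z0).restrOpen_source U hUo
  have hsy : ∀ z, e.symm z = (ch z0).symm z := fun z => rfl
  have hich : IsCh e := isCh_ch z0
  have htU : ∀ z ∈ e.target, e.symm z ∈ U := fun z hz => by
    have := e.map_target hz
    rw [hes] at this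
    exact this.2
  have hcpz : ∀ z ∈ e.target, cp (e.symm z) = z := fun z hz => hich.cp_symm hz
  refine ⟨e, π, _, hich, ?_, ?_, ?_, ?_, ?_, ?_, hfin, ?_⟩
  · rw [hes]; exact ⟨mem_ch z0, hUz⟩
  · intro z hz
    have h1 := (hUsub (htU z hz)).2.2.2.1
    rw [hcpz z hz] at h1
    exact h1.contDiffWithinAt
  · intro z hz z' hz' hzz
    have h1 := (hUsub (htU z hz)).2.2.1
    have h2 := (hUsub (htU z' hz')).2.2.1
    rw [hcpz z hz] at h1
    rw [hcpz z' hz'] at h2
    exact hSinj h1 h2 hzz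
  · intro z hz
    have h1 := (hUsub (htU z hz)).2.2.2.2.1
    rw [hcpz z hz] at h1
    exact h1
  · intro x hx
    rw [hes] at hx
    exact (hUsub hx.2).2.2.2.2.2.1
  · intro z hz
    have h1 := (hUsub (htU z hz)).2.2.2.2.2.2
    rw [hcpz z hz] at h1
    exact h1
  · rintro γ ⟨x, hx, y, hy, hxy⟩
    rw [hes] at hx hy
    exact ⟨x, (hUsub hx.2).1, y, (hUsub hy.2).2.1, hxy⟩

/-- derivative of `F z0` in the box at a point `x` of it -/
lemma fderiv_box {z0 : M} {e : OpenPartialHomeomorph M (Fin (m' + 1) → ℂ)} (he : IsCh e)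
    {x : M} (hx : x ∈ e.source) {γ : G} (hγ : ∀ᶠ y in 𝓝 x, I.F z0 y = I.ρ γ (I.F x y)) :
    fderiv ℝ (I.F z0 ∘ e.symm) (cp x) = (I.ρ γ).comp (D (I.F x) x) := by
  rw [← D_eq he hx, D_congr hγ]
  have h1 : HasFDerivAt ((fun y => I.ρ γ (I.F x y)) ∘ (ch x).symm)
      ((I.ρ γ).comp (D (I.F x) x)) (cp x) :=
    (I.ρ γ).hasFDerivAt.comp (cp x) (diffAt_F I x).hasFDerivAt
  exact h1.fderiv

/-- **Existence of the foliated atlas** for `Inv`. -/
theorem exists_fol [SecondCountableTopology M] : ∃ (t : Set I.Mst) (W : Fol M V i₀ t G),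
    t.Countable ∧ I.Mst ⊆ W.dom ∧ (∀ j, W.F j = I.F (j : I.Mst) ∘ (W.e j).symm) ∧
    (∀ γ, W.act γ = I.ρ γ) ∧
    (∀ j : t, ∀ x ∈ (W.e j).source, ∃ γ, ∀ᶠ y in 𝓝 x, I.F (j : I.Mst) y = I.ρ γ (I.F x y)) ∧
    (∀ j : t, (W.e j).target ⊆ Metric.ball (cp ((j : I.Mst) : M)) 1) ∧
    (∀ j : t, ∃ T0 : Set G, T0.Finite ∧
      ∀ γ, (∃ x ∈ (W.e j).source, ∃ y ∈ (W.e j).source,
        I.ρ γ (I.F (j : I.Mst) x) = I.F (j : I.Mst) y) → γ ∈ T0) := by
  choose e π T0 h1 h2 h3 h4 h5 h6 h7 h8 h9 using fun z : I.Mst => exists_box I z.2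
  obtain ⟨t, htc, htcov⟩ := TopologicalSpace.isOpen_iUnion_countable
    (fun z : I.Mst => (e z).source) (fun z => (e z).open_source)
  refine ⟨t,
    { e := fun j => e j
      he := fun j => h1 j
      F := fun j => I.F (j : I.Mst) ∘ (e j).symm
      hF := fun j => h3 j
      π := fun j => π j
      inj := fun j => h4 j
      der := fun j => h5 j
      act := fun γ => I.ρ γ
      act_inj := fun γ v w hvw => by
        have := congrArg (I.ρ γ⁻¹) hvw
        rwa [ρ_inv, ρ_inv] at this },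
    htc, ?_, fun j => rfl, fun γ => rfl, fun j => h6 j, fun j => h7 j,
    fun j => ⟨T0 j, h8 j, h9 j⟩⟩
  intro x hx
  have h10 : x ∈ ⋃ z : I.Mst, (e z).source := mem_iUnion.2 ⟨⟨x, hx⟩, h2 ⟨x, hx⟩⟩
  rw [← htcov] at h10
  obtain ⟨z, hz, hxz⟩ := mem_iUnion₂.1 h10
  exact mem_iUnion.2 ⟨⟨z, hz⟩, hxz⟩

/-- **COA for `Inv`.** For almost every `p ∈ M*` with `w p ≠ 0` and `S p ⊆ M*` the class of `p` has
finite area with density `a`. -/
theorem coa_inv [SecondCountableTopology M] [MeasurableSpace M] [BorelSpace M] [Countable G]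
    {μ : Measure M} (hμ : IsLeb μ) (w : M → ℝ≥0∞) (hwm : Measurable w)
    (hw : ∀ x y γ, I.e y = I.ρ γ (I.e x) → ∀ L : (Fin m' → ℂ) →L[ℝ] (Fin m' → ℂ),
      (∀ v, D (I.F y) y (ins i₀ (0, L v)) = I.ρ γ (D (I.F x) x (ins i₀ (0, v)))) →
        w x = ENNReal.ofReal |L.det| * w y)
    (a : M → ℝ≥0∞) (ha : Measurable a) (hmass : ∫⁻ x, a x * w x ∂μ ≠ ⊤) :
    ∀ᵐ p ∂μ, p ∈ I.Mst → w p ≠ 0 → I.S p ⊆ I.Mst →
      ∫⁻ ζ : ℂ, ∑' q : {q // q ∈ I.S p ∧ cp q i₀ = ζ}, a q < ⊤ := by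
  obtain ⟨t, W, htc, hdom, hF, hact, hch, hball, hT⟩ := exists_fol I
  have : Countable t := htc.to_subtype
  have hmain := W.ae_area_lt_top hμ w hwm
    (by
      intro i j γ z hz z' hz' hzz L hL
      set x := (W.e i).symm z with hx
      set y := (W.e j).symm z' with hy
      have hxs : x ∈ (W.e i).source := (W.e i).map_target hz
      have hys : y ∈ (W.e j).source := (W.e j).map_target hz'
      have hcx : cp x = z := (W.he i).cp_symm hz
      have hcy : cp y = z' := (W.he j).cp_symm hz'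
      obtain ⟨γx, hγx⟩ := hch i x hxs
      obtain ⟨γy, hγy⟩ := hch j y hys
      have ex : I.F (i : I.Mst) x = I.ρ γx (I.e x) := by rw [hγx.self_of_nhds, I.Fz]
      have ey : I.F (j : I.Mst) y = I.ρ γy (I.e y) := by rw [hγy.self_of_nhds, I.Fz]
      refine hw x y (γy⁻¹ * γ * γx) ?_ L fun v => ?_
      · have h1 : I.F (j : I.Mst) y = I.ρ γ (I.F (i : I.Mst) x) := by
          rw [hF, hF, hact] at hzz
          exact hzz
        rw [ρ_mul, ρ_mul, ← ex, ← h1, ey, ρ_inv]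
      · have h2 := hL v
        rw [hF, hF, hact, ← hcx, ← hcy, fderiv_box I (W.he i) hxs hγx,
          fderiv_box I (W.he j) hys hγy] at h2
        rw [ρ_mul, ρ_mul]
        have h3 : I.ρ γy (D (I.F y) y (ins i₀ (0, L v))) =
            I.ρ γ (I.ρ γx (D (I.F x) x (ins i₀ (0, v)))) := h2
        rw [← h3, ρ_inv])
    (by
      intro i
      obtain ⟨T0, hT0, hT1⟩ := hT i
      refine ⟨hT0.toFinset.card, fun j z' hz' s hs => ?_⟩
      rcases s.eq_empty_or_nonempty with rfl | ⟨γ1, hγ1⟩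
      · simp
      classical
      obtain ⟨z1, hz1, h1⟩ := hs γ1 hγ1
      rw [hF, hF, hact] at h1
      refine Finset.card_le_card_of_injOn (fun γ => γ⁻¹ * γ1) ?_ ?_
      · intro γ hγ
        obtain ⟨z2, hz2, h2⟩ := hs γ hγ
        rw [hF, hF, hact] at h2
        simp only [Finset.mem_coe, Set.Finite.mem_toFinset]
        refine hT1 _ ⟨(W.e i).symm z1, (W.e i).map_target hz1, (W.e i).symm z2,
          (W.e i).map_target hz2, ?_⟩
        have h3 : I.ρ γ1 (I.F (i : I.Mst) ((W.e i).symm z1)) =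
            I.ρ γ (I.F (i : I.Mst) ((W.e i).symm z2)) :=
          h1.symm.trans h2
        rw [ρ_mul, h3, ρ_inv]
      · intro γ _ γ' _ hγγ
        have : γ⁻¹ = γ'⁻¹ := mul_right_cancel hγγ
        exact inv_injective this)
    (by
      intro i
      have hsub : (fun z : Fin (m' + 1) → ℂ => z i₀) '' (W.e i).target ⊆
          Metric.ball (cp ((i : I.Mst) : M) i₀) 1 := by
        rintro _ ⟨z, hz, rfl⟩
        have h1 := hball i hz
        rw [Metric.mem_ball] at h1 ⊢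
        exact lt_of_le_of_lt (dist_le_pi_dist z (cp ((i : I.Mst) : M)) i₀) h1
      exact ne_top_of_le_ne_top Metric.isBounded_ball.measure_lt_top.ne (measure_mono hsub))
    a ha hmass I.S
    (by
      rintro i j p q hp hq ⟨γ, hγ⟩
      obtain ⟨γp, hγp⟩ := hch i p hp
      obtain ⟨γq, hγq⟩ := hch j q hq
      have ep : I.F (i : I.Mst) p = I.ρ γp (I.e p) := by rw [hγp.self_of_nhds, I.Fz]
      have eq : I.F (j : I.Mst) q = I.ρ γq (I.e q) := by rw [hγq.self_of_nhds, I.Fz]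
      refine ⟨γq * γ * γp⁻¹, ?_⟩
      rw [hF, hF, hact]
      simp only [Function.comp_apply]
      rw [(W.he j).symm_cp hq, (W.he i).symm_cp hp, eq, ep, ρ_mul, ρ_mul, ρ_inv, hγ])
  filter_upwards [hmain] with p hp hpM hwp hSp
  have h1 := hp (hdom hpM) hwp
  refine lt_of_le_of_lt (lintegral_mono fun ζ => ?_) h1
  have hinc : ∀ q : {q // q ∈ I.S p ∧ cp q i₀ = ζ},
      q.1 ∈ I.S p ∧ q.1 ∈ W.dom ∧ cp q.1 i₀ = ζ := fun q =>
    ⟨q.2.1, hdom (hSp q.2.1), q.2.2⟩
  exact ENNReal.tsum_comp_le_tsum_of_injective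
    (f := fun q : {q // q ∈ I.S p ∧ cp q i₀ = ζ} =>
      (⟨q.1, hinc q⟩ : {q // q ∈ I.S p ∧ q ∈ W.dom ∧ cp q i₀ = ζ}))
    (fun q q' h => by simpa [Subtype.ext_iff] using h) (fun q => a q.1)

/-- the Lebesgue integral over a Riemann domain of dimension one -/
lemma lintegral_eq_fibres {A : Type*} [TopologicalSpace A] [RDom 1 A] [SecondCountableTopology A]
    [MeasurableSpace A] [BorelSpace A] {ν : Measure A} (hν : IsLeb ν) {f : A → ℝ≥0∞}
    (hf : Measurable f) :
    ∫⁻ x, f x ∂ν = ∫⁻ ζ : ℂ, ∑' x : {x : A // cp x 0 = ζ}, f x := by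
  have hSD : Area_448.SD (cp : A → (Fin 1 → ℂ))
      (fun _ => ContinuousLinearMap.id ℂ (Fin 1 → ℂ)) := by
    intro x
    have h1 : (cp ∘ (ch x).symm) =ᶠ[𝓝 (cp x)] (fun z : Fin 1 → ℂ => z) := by
      filter_upwards [(ch x).open_target.mem_nhds ((isCh_ch x).cp_mem (mem_ch x))] with z hz
      exact (isCh_ch x).cp_symm hz
    exact (hasStrictFDerivAt_id (cp x)).congr_of_eventuallyEq h1.symm
  have h1 := Area_448.area hν hSD (by simpa using continuous_const) hf
  simp only [ContinuousLinearMap.det, ContinuousLinearMap.coe_id, LinearMap.det_id, norm_one,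
    one_pow, ENNReal.ofReal_one, mul_one] at h1
  rw [h1]
  have hmp : MeasurePreserving (MeasurableEquiv.funUnique (Fin 1) ℂ)
    (volume : Measure (Fin 1 → ℂ)) volume := volume_preserving_funUnique (Fin 1) ℂ
  rw [← hmp.lintegral_comp_emb (MeasurableEquiv.measurableEmbedding _)]
  refine lintegral_congr fun η => ?_
  have h2 : ∀ x : A, cp x = η ↔ cp x 0 = MeasurableEquiv.funUnique (Fin 1) ℂ η := by
    intro x
    constructor
    · rintro rfl; rfl
    · intro h
      funext k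
      rw [Subsingleton.elim k 0, h]
      rfl
  have h3 : {x : A // cp x = η} ≃ {x : A // cp x 0 = MeasurableEquiv.funUnique (Fin 1) ℂ η} :=
    Equiv.subtypeEquivRight h2
  rw [← (Equiv.subtypeEquivRight h2).tsum_eq]
  refine tsum_congr fun x => ?_
  simp

/-- **COA, final form**: finite area with respect to any Lebesgue measure of the curve `S p`. -/
theorem coa_curve [SecondCountableTopology M] [MeasurableSpace M] [BorelSpace M] [Countable G]
    {μ : Measure M} (hμ : IsLeb μ) (w : M → ℝ≥0∞) (hwm : Measurable w)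
    (hw : ∀ x y γ, I.e y = I.ρ γ (I.e x) → ∀ L : (Fin m' → ℂ) →L[ℝ] (Fin m' → ℂ),
      (∀ v, D (I.F y) y (ins i₀ (0, L v)) = I.ρ γ (D (I.F x) x (ins i₀ (0, v)))) →
        w x = ENNReal.ofReal |L.det| * w y)
    (a : M → ℝ≥0∞) (ha : Measurable a) (hmass : ∫⁻ x, a x * w x ∂μ ≠ ⊤) :
    ∀ᵐ p ∂μ, p ∈ I.Mst → w p ≠ 0 → ∀ h : I.S p ⊆ I.Mst,
      letI := rdomS I h
      ∀ ν : Measure (I.S p), IsLeb ν → ∫⁻ q, a q ∂ν < ⊤ := by
  filter_upwards [coa_inv I hμ w hwm hw a ha hmass] with p hp hpM hwp h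
  let := rdomS I h
  intro ν hν
  have h1 := hp hpM hwp h
  rw [lintegral_eq_fibres hν (f := fun q : I.S p => a q) (ha.comp measurable_subtype_coe)]
  refine lt_of_le_of_lt (le_of_eq ?_) h1
  refine lintegral_congr fun ζ => ?_
  let E : {x : I.S p // cp x 0 = ζ} ≃ {q // q ∈ I.S p ∧ cp q i₀ = ζ} :=
    { toFun := fun x => ⟨x.1.1, x.1.2, x.2⟩
      invFun := fun q => ⟨⟨q.1, q.2.1⟩, q.2.2⟩
      left_inv := fun x => rfl
      right_inv := fun q => rfl }
  exact E.tsum_eq (fun q => a q.1)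

end Crest.Agent.R276.Coa3_375
end
end

-- ▼ part R276/SardA_450
section

/-!
# Row 276 (S0419): degeneracy of a smooth map is invariant along a symmetry field (helper450)

`transport`: if `dΦ(c X) = 0` near `x₀`, `X i₀ = 1`, then every point near `x₀` where `dΦ` is not injective on
`{v i₀ = 0}` can be moved, inside a small neighbourhood and inside the level set of `Φ`, to such a
point with prescribed coordinate `i₀`. (Linearised ordinary differential equation.)
-/

set_option autoImplicit false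
set_option linter.unusedSectionVars false

noncomputable section

open Set Filter Topology

namespace Crest.Agent.R276.SardA_450

variable {m : ℕ} {i₀ : Fin m} {V : Type*} [NormedAddCommGroup V] [NormedSpace ℝ V]

/-- `dΦ` is not injective on `{v i₀ = 0}` -/
def Bad (i₀ : Fin m) (Φ : (Fin m → ℂ) → V) : Set (Fin m → ℂ) :=
  {x | ∃ v : Fin m → ℂ, v ≠ 0 ∧ v i₀ = 0 ∧ fderiv ℝ Φ x v = 0}

lemma const_of_deriv {F : Type*} [NormedAddCommGroup F] [NormedSpace ℝ F] {f : ℝ → F} {ε : ℝ}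
    (h : ∀ t ∈ Ioo (-ε) ε, HasDerivAt f 0 t) {t : ℝ} (ht : t ∈ Ioo (-ε) ε) : f t = f 0 := by
  have h0 : (0 : ℝ) ∈ Ioo (-ε) ε := by
    constructor <;> linarith [ht.1, ht.2]
  exact isOpen_Ioo.is_const_of_deriv_eq_zero (convex_Ioo _ _).isPreconnected
    (fun x hx => (h x hx).differentiableAt.differentiableWithinAt)
    (fun x hx => (h x hx).deriv) ht h0

/-- the linearised field -/
def fld (X : (Fin m → ℂ) → (Fin m → ℂ)) (z : (Fin m → ℂ) × ℂ × (Fin m → ℂ)) :
    (Fin m → ℂ) × ℂ × (Fin m → ℂ) :=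
  (z.2.1 • X z.1, 0, z.2.1 • fderiv ℝ X z.1 z.2.2)

lemma fld_contDiffAt {X : (Fin m → ℂ) → (Fin m → ℂ)} {z : (Fin m → ℂ) × ℂ × (Fin m → ℂ)}
    (hX : ContDiffAt ℝ 2 X z.1) : ContDiffAt ℝ 1 (fld X) z := by
  have h1 : ContDiffAt ℝ 1 X z.1 := hX.of_le (by norm_num)
  have h2 : ContDiffAt ℝ 1 (fderiv ℝ X) z.1 := hX.fderiv_right (by norm_num)
  have hf : ContDiffAt ℝ 1 (fun z : (Fin m → ℂ) × ℂ × (Fin m → ℂ) => z.1) z :=
    contDiff_fst.contDiffAt
  have hs : ContDiffAt ℝ 1 (fun z : (Fin m → ℂ) × ℂ × (Fin m → ℂ) => z.2.1) z :=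
    (contDiff_fst.comp contDiff_snd).contDiffAt
  have ht : ContDiffAt ℝ 1 (fun z : (Fin m → ℂ) × ℂ × (Fin m → ℂ) => z.2.2) z :=
    (contDiff_snd.comp contDiff_snd).contDiffAt
  have e1 : ContDiffAt ℝ 1 (fun z : (Fin m → ℂ) × ℂ × (Fin m → ℂ) => X z.1) z :=
    h1.comp z hf
  have e2 : ContDiffAt ℝ 1 (fun z : (Fin m → ℂ) × ℂ × (Fin m → ℂ) => fderiv ℝ X z.1) z :=
    h2.comp z hf
  exact (hs.smul e1).prodMk (contDiffAt_const.prodMk (hs.smul (e2.clm_apply ht)))

/-- the differentiated tangency -/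
lemma tan2 {Φ : (Fin m → ℂ) → V} {X : (Fin m → ℂ) → (Fin m → ℂ)} {y : Fin m → ℂ}
    (hΦ : ContDiffAt ℝ 2 Φ y) (hX : ContDiffAt ℝ 2 X y) (a : ℂ)
    (htan : ∀ᶠ x in 𝓝 y, ∀ c : ℂ, fderiv ℝ Φ x (c • X x) = 0) (u : Fin m → ℂ) :
    fderiv ℝ (fderiv ℝ Φ) y (a • X y) u + fderiv ℝ Φ y (a • fderiv ℝ X y u) = 0 := by
  have h1 : HasFDerivAt (fderiv ℝ Φ) (fderiv ℝ (fderiv ℝ Φ) y) y :=
    ((hΦ.fderiv_right (m := 1) (by norm_num)).differentiableAt (by norm_num)).hasFDerivAt
  have h2 : HasFDerivAt (fun x => a • X x) (a • fderiv ℝ X y) y :=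
    ((hX.differentiableAt (by norm_num)).hasFDerivAt).const_smul a
  have h3 := h1.clm_apply h2
  have h4 : HasFDerivAt (fun x => fderiv ℝ Φ x (a • X x)) (0 : (Fin m → ℂ) →L[ℝ] V) y := by
    refine (hasFDerivAt_const (0 : V) y).congr_of_eventuallyEq ?_
    filter_upwards [htan] with x hx
    exact hx a
  have h5 := congrArg (fun L : (Fin m → ℂ) →L[ℝ] V => L u) (h3.unique h4)
  have hsym := hΦ.isSymmSndFDerivAt (by simp [minSmoothness_of_isRCLikeNormedField])
  have h6 := hsym (a • X y) u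
  rw [h6]
  simpa [add_comm] using h5

theorem transport {Φ : (Fin m → ℂ) → V} {X : (Fin m → ℂ) → (Fin m → ℂ)} {x₀ : Fin m → ℂ}
    (hΦ : ContDiffAt ℝ 2 Φ x₀) (hX : ContDiffAt ℝ 2 X x₀)
    (hX1 : ∀ᶠ x in 𝓝 x₀, X x i₀ = 1)
    (htan : ∀ᶠ x in 𝓝 x₀, ∀ c : ℂ, fderiv ℝ Φ x (c • X x) = 0) {N : Set (Fin m → ℂ)}
    (hN : N ∈ 𝓝 x₀) :
    ∃ δ > 0, ∀ q ∈ Metric.ball x₀ δ, q ∈ Bad i₀ Φ → ∀ ζ ∈ Metric.ball (x₀ i₀) δ,
      ∃ q' ∈ N, q' i₀ = ζ ∧ Φ q' = Φ q ∧ q' ∈ Bad i₀ Φ := by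
  have hgood : ∀ᶠ x in 𝓝 x₀, ContDiffAt ℝ 2 Φ x ∧ ContDiffAt ℝ 2 X x ∧ X x i₀ = 1 ∧
      (∀ c : ℂ, fderiv ℝ Φ x (c • X x) = 0) ∧ x ∈ N := by
    filter_upwards [hΦ.eventually (by simp), hX.eventually (by simp), hX1, htan, hN]
      with x h1 h2 h3 h4 h5
    exact ⟨h1, h2, h3, h4, h5⟩
  obtain ⟨R, hR, hRo, hxR⟩ := _root_.eventually_nhds_iff.1 hgood
  -- the flow
  set z₀ : (Fin m → ℂ) × ℂ × (Fin m → ℂ) := (x₀, 0, 0) with hz₀
  have hW : ContDiffAt ℝ 1 (fld X) z₀ := fld_contDiffAt hX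
  obtain ⟨ε, hε, a, r, L, K, hr, hPL⟩ := IsPicardLindelof.of_contDiffAt_one hW
  obtain ⟨α, hα, hαc⟩ :=
    (hPL 0).exists_forall_mem_closedBall_eq_hasDerivWithinAt_continuousOn
  simp only [zero_sub, zero_add] at hα hαc
  have hmem0 : (z₀, (0 : ℝ)) ∈ Metric.closedBall z₀ (r : ℝ) ×ˢ Icc (-ε) ε :=
    ⟨Metric.mem_closedBall_self r.2, by constructor <;> linarith⟩
  have hnb : (Metric.closedBall z₀ (r : ℝ) ×ˢ Icc (-ε) ε : Set _) ∈ 𝓝 (z₀, (0 : ℝ)) :=
    prod_mem_nhds (Metric.closedBall_mem_nhds _ hr) (Icc_mem_nhds (by linarith) hε)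
  have hca : ContinuousAt α (z₀, 0) := (hαc _ hmem0).continuousAt hnb
  have hα0 : α (z₀, 0) = z₀ := (hα z₀ (Metric.mem_closedBall_self r.2)).1
  have hopen : {z : (Fin m → ℂ) × ℂ × (Fin m → ℂ) | z.1 ∈ R} ∈ 𝓝 (α (z₀, 0)) := by
    rw [hα0]
    exact (hRo.preimage continuous_fst).mem_nhds hxR
  have hpre := hca.preimage_mem_nhds hopen
  rw [nhds_prod_eq] at hpre
  obtain ⟨A, hA, B, hB, hAB⟩ := Filter.mem_prod_iff.1 hpre
  obtain ⟨r1, hr1, hr1A⟩ := Metric.mem_nhds_iff.1 hA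
  obtain ⟨ε1, hε1, hε1B⟩ := Metric.mem_nhds_iff.1 hB
  -- radii
  set r2 : ℝ := min (r1 / 2) r with hr2
  have hr2p : 0 < r2 := lt_min (by linarith) hr
  set η : ℝ := min ε1 ε with hη
  have hηp : 0 < η := lt_min hε1 hε
  set T : ℝ := η / 2 with hT
  have hTp : 0 < T := by positivity
  have hTη : T < η := by rw [hT]; linarith
  refine ⟨min r2 (r2 * T / 2), by positivity, ?_⟩
  intro q hq hqB ζ hζ
  obtain ⟨v, hv, hv0, hvk⟩ := hqB
  -- initial values
  have hqr : dist q x₀ < r2 := lt_of_lt_of_le (Metric.mem_ball.1 hq) (min_le_left _ _)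
  have hq0 : dist (q i₀) (x₀ i₀) < r2 * T / 2 :=
    lt_of_le_of_lt (dist_le_pi_dist q x₀ i₀)
      (lt_of_lt_of_le (Metric.mem_ball.1 hq) (min_le_right _ _))
  have hζ0 : dist ζ (x₀ i₀) < r2 * T / 2 :=
    lt_of_lt_of_le (Metric.mem_ball.1 hζ) (min_le_right _ _)
  set τ : ℂ := (ζ - q i₀) / T with hτ
  have hτT : q i₀ + (T : ℂ) * τ = ζ := by
    rw [hτ]
    have : (T : ℂ) ≠ 0 := by exact_mod_cast hTp.ne'
    field_simp
    ring
  have hτn : ‖τ‖ ≤ r2 := by
    rw [hτ, norm_div, Complex.norm_real, Real.norm_of_nonneg hTp.le, div_le_iff₀ hTp, ← dist_eq_norm]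
    have := dist_triangle_right ζ (q i₀) (x₀ i₀)
    linarith
  obtain ⟨s, hs0, hs⟩ : ∃ s : ℝ, 0 < s ∧ ‖s • v‖ ≤ r2 := by
    have hvn : 0 < ‖v‖ := norm_pos_iff.2 hv
    refine ⟨r2 / ‖v‖, by positivity, ?_⟩
    rw [norm_smul, Real.norm_of_nonneg (by positivity), div_mul_cancel₀ _ hvn.ne']
  set u₀ : Fin m → ℂ := s • v with hu₀
  have hu₀ne : u₀ ≠ 0 := smul_ne_zero hs0.ne' hv
  have hu₀0 : u₀ i₀ = 0 := by rw [hu₀, Pi.smul_apply, hv0, smul_zero]
  have hu₀k : fderiv ℝ Φ q u₀ = 0 := by rw [hu₀, map_smul, hvk, smul_zero]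
  set p₀ : (Fin m → ℂ) × ℂ × (Fin m → ℂ) := (q, τ, u₀) with hp₀
  have hp₀d : dist p₀ z₀ ≤ r2 := by
    rw [hp₀, hz₀, Prod.dist_eq, Prod.dist_eq]
    refine max_le hqr.le (max_le ?_ ?_)
    · simpa using hτn
    · simpa using hs
  have hp₀r : p₀ ∈ Metric.closedBall z₀ (r : ℝ) := Metric.mem_closedBall.2
    (hp₀d.trans (min_le_right _ _))
  have hp₀A : p₀ ∈ A := hr1A (Metric.mem_ball.2 (lt_of_le_of_lt hp₀d
    (lt_of_le_of_lt (min_le_left _ _) (by linarith))))
  obtain ⟨hin, hder⟩ := hα p₀ hp₀r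
  -- the solution on the open interval
  have hsub : ∀ t ∈ Ioo (-η) η, t ∈ Icc (-ε) ε ∧ t ∈ Ioo (-ε) ε ∧ t ∈ B := by
    intro t ht
    have h1 : η ≤ ε := min_le_right _ _
    have h2 : η ≤ ε1 := min_le_left _ _
    have h3 : t ∈ Ioo (-ε) ε := ⟨by linarith [ht.1], by linarith [ht.2]⟩
    refine ⟨Ioo_subset_Icc_self h3, h3, hε1B ?_⟩
    rw [Metric.mem_ball, dist_zero_right, Real.norm_eq_abs, abs_lt]
    exact ⟨by linarith [ht.1], by linarith [ht.2]⟩
  have hd : ∀ t ∈ Ioo (-η) η, HasDerivAt (fun t => α (p₀, t)) (fld X (α (p₀, t))) t := by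
    intro t ht
    obtain ⟨h1, h2, _⟩ := hsub t ht
    exact (hder t h1).hasDerivAt (Icc_mem_nhds h2.1 h2.2)
  have hyR : ∀ t ∈ Ioo (-η) η, (α (p₀, t)).1 ∈ R := by
    intro t ht
    exact hAB (show (p₀, t) ∈ A ×ˢ B from ⟨hp₀A, (hsub t ht).2.2⟩)
  set y : ℝ → (Fin m → ℂ) := fun t => (α (p₀, t)).1 with hy
  set σ : ℝ → ℂ := fun t => (α (p₀, t)).2.1 with hσ
  set u : ℝ → (Fin m → ℂ) := fun t => (α (p₀, t)).2.2 with hu
  have hy' : ∀ t ∈ Ioo (-η) η, HasDerivAt y (σ t • X (y t)) t := fun t ht =>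
    (ContinuousLinearMap.fst ℝ (Fin m → ℂ) (ℂ × (Fin m → ℂ))).hasFDerivAt.comp_hasDerivAt t (hd t ht)
  have hσ' : ∀ t ∈ Ioo (-η) η, HasDerivAt σ 0 t := fun t ht =>
    ((ContinuousLinearMap.fst ℝ ℂ (Fin m → ℂ)).comp
      (ContinuousLinearMap.snd ℝ (Fin m → ℂ) (ℂ × (Fin m → ℂ)))).hasFDerivAt.comp_hasDerivAt t (hd t ht)
  have hu' : ∀ t ∈ Ioo (-η) η, HasDerivAt u (σ t • fderiv ℝ X (y t) (u t)) t := fun t ht =>
    ((ContinuousLinearMap.snd ℝ ℂ (Fin m → ℂ)).comp
      (ContinuousLinearMap.snd ℝ (Fin m → ℂ) (ℂ × (Fin m → ℂ)))).hasFDerivAt.comp_hasDerivAt t (hd t ht)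
  have hy00 : y 0 = q := by show (α (p₀, 0)).1 = q; rw [hin]
  have hσ00 : σ 0 = τ := by show (α (p₀, 0)).2.1 = τ; rw [hin]
  have hu00 : u 0 = u₀ := by show (α (p₀, 0)).2.2 = u₀; rw [hin]
  have hσt : ∀ t ∈ Ioo (-η) η, σ t = τ := fun t ht => (const_of_deriv hσ' ht).trans hσ00
  have hTm : T ∈ Ioo (-η) η := ⟨by linarith, hTη⟩
  -- the coordinate
  have hyi : y T i₀ = ζ := by
    have h1 : ∀ t ∈ Ioo (-η) η, HasDerivAt (fun t => y t i₀ - (t : ℂ) * τ) 0 t := by
      intro t ht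
      have e1 : HasDerivAt (fun t => y t i₀) (σ t * X (y t) i₀) t := by
        have := hasDerivAt_pi.1 (hy' t ht) i₀
        simpa using this
      have e2 : HasDerivAt (fun t : ℝ => (t : ℂ) * τ) (1 * τ) t :=
        (Complex.ofRealCLM.hasFDerivAt.comp_hasDerivAt t (hasDerivAt_id t)).mul_const τ
      have e3 := e1.sub e2
      have e4 : σ t * X (y t) i₀ - 1 * τ = 0 := by
        rw [hσt t ht, (hR _ (hyR t ht)).2.2.1]; ring
      rw [e4] at e3
      exact e3
    have h2 := const_of_deriv h1 hTm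
    simp only [hy00, Complex.ofReal_zero, zero_mul, sub_zero] at h2
    rw [← hτT]
    linear_combination h2
  -- `Φ` is constant
  have hΦc : Φ (y T) = Φ q := by
    have h1 : ∀ t ∈ Ioo (-η) η, HasDerivAt (fun t => Φ (y t)) 0 t := by
      intro t ht
      obtain ⟨g1, _, _, g4, _⟩ := hR _ (hyR t ht)
      have e1 := (g1.differentiableAt (by norm_num)).hasFDerivAt.comp_hasDerivAt t (hy' t ht)
      rw [g4] at e1
      exact e1
    have := const_of_deriv h1 hTm
    rw [hy00] at this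
    exact this
  -- the kernel
  have hker : fderiv ℝ Φ (y T) (u T) = 0 := by
    have h1 : ∀ t ∈ Ioo (-η) η, HasDerivAt (fun t => fderiv ℝ Φ (y t) (u t)) 0 t := by
      intro t ht
      obtain ⟨g1, g2, _, _, _⟩ := hR _ (hyR t ht)
      have htan' : ∀ᶠ x in 𝓝 (y t), ∀ c : ℂ, fderiv ℝ Φ x (c • X x) = 0 :=
        (hRo.eventually_mem (hyR t ht)).mono fun x hx => (hR x hx).2.2.2.1
      have e0 : HasFDerivAt (fderiv ℝ Φ) (fderiv ℝ (fderiv ℝ Φ) (y t)) (y t) :=
        ((g1.fderiv_right (m := 1) (by norm_num)).differentiableAt (by norm_num)).hasFDerivAt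
      have e1 := e0.comp_hasDerivAt t (hy' t ht)
      have e2 := e1.clm_apply (hu' t ht)
      have e3 := tan2 g1 g2 (σ t) htan' (u t)
      have e4 : fderiv ℝ (fderiv ℝ Φ) (y t) (σ t • X (y t)) (u t) +
          (fderiv ℝ Φ ∘ y) t (σ t • fderiv ℝ X (y t) (u t)) = 0 := e3
      rw [e4] at e2
      exact e2
    have := const_of_deriv h1 hTm
    simp only [hy00, hu00, hu₀k] at this
    exact this
  have hui : u T i₀ = 0 := by
    have h1 : ∀ t ∈ Ioo (-η) η, HasDerivAt (fun t => u t i₀) 0 t := by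
      intro t ht
      obtain ⟨_, g2, _, _, _⟩ := hR _ (hyR t ht)
      have e1 := (ContinuousLinearMap.proj (R := ℝ) (φ := fun _ : Fin m => ℂ)
          i₀).hasFDerivAt.comp_hasDerivAt t (hu' t ht)
      have e2 : HasFDerivAt (fun x => X x i₀)
          ((ContinuousLinearMap.proj (R := ℝ) (φ := fun _ : Fin m => ℂ) i₀).comp
            (fderiv ℝ X (y t))) (y t) :=
        (ContinuousLinearMap.proj (R := ℝ) (φ := fun _ : Fin m => ℂ) i₀).hasFDerivAt.comp (y t)
          (g2.differentiableAt (by norm_num)).hasFDerivAt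
      have e3 : HasFDerivAt (fun x => X x i₀) (0 : (Fin m → ℂ) →L[ℝ] ℂ) (y t) := by
        refine (hasFDerivAt_const (1 : ℂ) (y t)).congr_of_eventuallyEq ?_
        filter_upwards [hRo.mem_nhds (hyR t ht)] with x hx
        exact (hR x hx).2.2.1
      have e4 := congrArg (fun L : (Fin m → ℂ) →L[ℝ] ℂ => L (u t)) (e2.unique e3)
      have e5 : (ContinuousLinearMap.proj (R := ℝ) (φ := fun _ : Fin m => ℂ) i₀)
          (σ t • fderiv ℝ X (y t) (u t)) = 0 := by
        have : fderiv ℝ X (y t) (u t) i₀ = 0 := by simpa using e4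
        simp [this]
      rw [e5] at e1
      exact e1
    have := const_of_deriv h1 hTm
    simp only [hu00, hu₀0] at this
    exact this
  have hune : u T ≠ 0 := by
    intro huT
    -- uniqueness for the linear equation
    have hcont : ContinuousOn (fun t => ‖(σ t • fderiv ℝ X (y t) :
        (Fin m → ℂ) →L[ℝ] (Fin m → ℂ))‖₊) (Icc 0 T) := by
      intro t ht
      have htm : t ∈ Ioo (-η) η := ⟨by linarith [ht.1], by linarith [ht.2]⟩
      obtain ⟨_, g2, _, _, _⟩ := hR _ (hyR t htm)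
      have c1 : ContinuousAt (fun t => fderiv ℝ X (y t)) t :=
        ContinuousAt.comp (g := fderiv ℝ X)
          (g2.fderiv_right (m := 1) (by norm_num)).continuousAt (hy' t htm).continuousAt
      exact ((hσ' t htm).continuousAt.smul c1).nnnorm.continuousWithinAt
    obtain ⟨K', hK'⟩ := (isCompact_Icc.image_of_continuousOn hcont).bddAbove
    have hlip : ∀ t ∈ Ioc (0 : ℝ) T, LipschitzOnWith K'
        ((fun (t : ℝ) (w : Fin m → ℂ) => σ t • fderiv ℝ X (y t) w) t)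
        ((fun _ : ℝ => (univ : Set (Fin m → ℂ))) t) := by
      intro t ht
      have h1 : ‖(σ t • fderiv ℝ X (y t) : (Fin m → ℂ) →L[ℝ] (Fin m → ℂ))‖₊ ≤ K' :=
        hK' ⟨t, Ioc_subset_Icc_self ht, rfl⟩
      exact ((σ t • fderiv ℝ X (y t) : (Fin m → ℂ) →L[ℝ] (Fin m → ℂ)).lipschitz.weaken
        h1).lipschitzOnWith
    have hin' : ∀ t ∈ Icc (0 : ℝ) T, t ∈ Ioo (-η) η := fun t ht =>
      ⟨by linarith [ht.1], by linarith [ht.2]⟩
    have huniq := ODE_solution_unique_of_mem_Icc_left (f := u) (g := fun _ => (0 : Fin m → ℂ))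
      hlip (fun t ht => (hu' t (hin' t ht)).continuousAt.continuousWithinAt)
      (fun t ht => (hu' t (hin' t (Ioc_subset_Icc_self ht))).hasDerivWithinAt)
      (fun t _ => mem_univ _) continuousOn_const
      (fun t ht => by
        have : σ t • fderiv ℝ X (y t) (0 : Fin m → ℂ) = 0 := by simp
        simp only [this]
        exact hasDerivWithinAt_const _ _ _)
      (fun t _ => mem_univ _) huT
    have h0 := huniq (show (0 : ℝ) ∈ Icc 0 T from ⟨le_refl _, hTp.le⟩)
    rw [hu00] at h0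
    exact hu₀ne h0
  exact ⟨y T, (hR _ (hyR T hTm)).2.2.2.2, hyi, hΦc, u T, hune, hui, hker⟩

end Crest.Agent.R276.SardA_450
end
end

-- ▼ part R276/SardB_450
section

/-!
# Row 276 (S0419): almost all classes meeting `M*` are contained in `M*` (helper450)
-/

set_option autoImplicit false
set_option linter.unusedSectionVars false

noncomputable section

open Set Filter Topology MeasureTheory
open Crest.Agent.R271.Ho51
open Crest.Agent.R276.Ipc735 (SmAt HolAt)
open Crest.Agent.R276.LsDefs_450 Crest.Agent.R276.LsA_450 Crest.Agent.R276.LsB_450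
open Crest.Agent.R276.SardA_450

namespace Crest.Agent.R276.SardB_450

section coord

variable {m : ℕ} {i₀ : Fin m} {V : Type*} [NormedAddCommGroup V] [NormedSpace ℝ V]

/-- the cylinder `{ζ X₀ + L n : n ∈ A}` over a set of radii -/
def cyl (X₀ : Fin m → ℂ) (B : Set ℂ) (A : Set (Fin m → ℂ)) : Set (Fin m → ℂ) :=
  {w | ∃ ζ ∈ B, ∃ n ∈ A, w = ζ • X₀ + n}

lemma det_eq_zero_of_ker {L : (Fin m → ℂ) →L[ℝ] (Fin m → ℂ)} {v : Fin m → ℂ} (hv : v ≠ 0)
    (h : L v = 0) : L.det = 0 := by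
  show LinearMap.det (L : (Fin m → ℂ) →ₗ[ℝ] (Fin m → ℂ)) = 0
  rw [LinearMap.det_eq_zero_iff_ker_ne_bot]
  intro hb
  rw [LinearMap.ker_eq_bot'] at hb
  exact hv (hb v h)

/-- the cylinder over the critical values of `L ∘ Φ` near a point is a null set -/
theorem cyl_null {Φ : (Fin m → ℂ) → V} {X : (Fin m → ℂ) → (Fin m → ℂ)} {x₀ : Fin m → ℂ}
    (hΦ : ContDiffAt ℝ 2 Φ x₀) (hX : ContDiffAt ℝ 2 X x₀)
    (hX1 : ∀ᶠ x in 𝓝 x₀, X x i₀ = 1)
    (htan : ∀ᶠ x in 𝓝 x₀, ∀ c : ℂ, fderiv ℝ Φ x (c • X x) = 0) :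
    ∃ δ > 0, ∀ (X₀ : Fin m → ℂ) (L : V →L[ℝ] (Fin m → ℂ)),
      volume (cyl X₀ univ ((fun x => L (Φ x)) '' (Metric.ball x₀ δ ∩ Bad i₀ Φ))) = 0 := by
  have hN : {x | ContDiffAt ℝ 2 Φ x} ∈ 𝓝 x₀ := hΦ.eventually (by simp)
  obtain ⟨δ, hδ, hT⟩ := transport hΦ hX hX1 htan hN
  refine ⟨δ, hδ, fun X₀ L => ?_⟩
  set N' : Set (Fin m → ℂ) := (fun x => L (Φ x)) '' (Metric.ball x₀ δ ∩ Bad i₀ Φ) with hN'
  -- over a ball
  have h1 : volume (cyl X₀ (Metric.ball (x₀ i₀) δ) N') = 0 := by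
    have hsub : cyl X₀ (Metric.ball (x₀ i₀) δ) N' ⊆
        Psi i₀ X₀ L Φ '' ({x | ContDiffAt ℝ 2 Φ x} ∩ Bad i₀ Φ) := by
      rintro w ⟨ζ, hζ, n, ⟨q, ⟨hq, hqB⟩, rfl⟩, rfl⟩
      obtain ⟨q', hq'N, hq'i, hq'Φ, hq'B⟩ := hT q hq hqB ζ hζ
      refine ⟨q', ⟨hq'N, hq'B⟩, ?_⟩
      simp only [Psi, hq'i, hq'Φ]
    refine measure_mono_null hsub ?_
    refine addHaar_image_eq_zero_of_det_fderivWithin_eq_zero volume
      (f' := fun x => (pr i₀).smulRight X₀ + L.comp (fderiv ℝ Φ x)) ?_ ?_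
    · rintro x ⟨hx, _⟩
      have hx' : ContDiffAt ℝ 2 Φ x := hx
      exact (hasFDerivAt_Psi (hx'.differentiableAt (by norm_num))).hasFDerivWithinAt
    · rintro x ⟨_, v, hv, hv0, hvk⟩
      refine det_eq_zero_of_ker hv ?_
      simp [hv0, hvk]
  -- translates
  have h2 : ∀ c : ℂ, volume (cyl X₀ (Metric.ball c δ) N') = 0 := by
    intro c
    have hsub : cyl X₀ (Metric.ball c δ) N' ⊆
        (fun w => w + (x₀ i₀ - c) • X₀) ⁻¹' cyl X₀ (Metric.ball (x₀ i₀) δ) N' := by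
      rintro w ⟨ζ, hζ, n, hn, rfl⟩
      refine ⟨ζ + (x₀ i₀ - c), ?_, n, hn, ?_⟩
      · rw [Metric.mem_ball, dist_eq_norm] at hζ ⊢
        have : ζ + (x₀ i₀ - c) - x₀ i₀ = ζ - c := by ring
        rwa [this]
      · simp only [add_smul]
        abel
    refine measure_mono_null hsub ?_
    rw [measure_preimage_add_right]
    exact h1
  have h3 : cyl X₀ univ N' ⊆
      ⋃ k : ℕ, cyl X₀ (Metric.ball (TopologicalSpace.denseSeq ℂ k) δ) N' := by
    rintro w ⟨ζ, _, n, hn, rfl⟩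
    obtain ⟨k, hk⟩ := (TopologicalSpace.denseRange_denseSeq ℂ).exists_dist_lt ζ hδ
    exact mem_iUnion.2 ⟨k, ζ, Metric.mem_ball.2 hk, n, hn, rfl⟩
  exact measure_mono_null h3 (measure_iUnion_null fun k => h2 _)

/-- the preimage of a null set under the straightening map at an immersive point is locally null -/
theorem pre_null {Φ : (Fin m → ℂ) → V} {x₀ : Fin m → ℂ} [FiniteDimensional ℝ V]
    (hΦ : ContDiffAt ℝ 1 Φ x₀) {X₀ : Fin m → ℂ} (hX1 : X₀ i₀ = 1)
    (htan : ∀ c : ℂ, fderiv ℝ Φ x₀ (c • X₀) = 0)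
    (himm : ∀ v : Fin m → ℂ, v i₀ = 0 → fderiv ℝ Φ x₀ v = 0 → v = 0) :
    ∃ (π : V →L[ℝ] (Fin m → ℂ)), ∃ O ∈ 𝓝 x₀, ∀ Z : Set (Fin m → ℂ), volume Z = 0 →
      volume (O ∩ Psi i₀ X₀ π Φ ⁻¹' Z) = 0 := by
  obtain ⟨π, hπ0, hπ⟩ := exists_left_inv (fderiv ℝ Φ x₀) i₀ himm
  set Ψ := Psi i₀ X₀ π Φ with hΨ
  have hΨc : ContDiffAt ℝ 1 Ψ x₀ := contDiffAt_Psi hΦ
  have hone : (1 : WithTop ℕ∞) ≠ 0 := one_ne_zero
  have hd : HasFDerivAt Ψ ((ContinuousLinearEquiv.refl ℝ (Fin m → ℂ) :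
      (Fin m → ℂ) ≃L[ℝ] (Fin m → ℂ)) : (Fin m → ℂ) →L[ℝ] (Fin m → ℂ)) x₀ := by
    have h := hasFDerivAt_Psi (i₀ := i₀) (X₀ := X₀) (π := π) (hΦ.differentiableAt hone)
    have h2 : (pr i₀).smulRight X₀ + π.comp (fderiv ℝ Φ x₀) =
        ((ContinuousLinearEquiv.refl ℝ (Fin m → ℂ) :
      (Fin m → ℂ) ≃L[ℝ] (Fin m → ℂ)) : (Fin m → ℂ) →L[ℝ] (Fin m → ℂ)) := by
      ext1 v
      have h3 : (v - v i₀ • X₀) i₀ = 0 := by simp [hX1]
      have h4 := hπ _ h3
      rw [map_sub, htan, sub_zero] at h4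
      simp [h4]
    rw [← h2]
    exact h
  let e : OpenPartialHomeomorph (Fin m → ℂ) (Fin m → ℂ) :=
    hΨc.toOpenPartialHomeomorph Ψ hd hone
  have hee : ∀ x, e x = Ψ x := fun x => rfl
  have hxs : x₀ ∈ e.source := hΨc.mem_toOpenPartialHomeomorph_source hd hone
  have hec : ContDiffAt ℝ 1 e.symm (Ψ x₀) := hΨc.to_localInverse hd hone
  have hev : ∀ᶠ x in 𝓝 x₀, ContDiffAt ℝ 1 e.symm (Ψ x) :=
    hΨc.continuousAt.eventually (hec.eventually (by simp))
  refine ⟨π, e.source ∩ {x | ContDiffAt ℝ 1 e.symm (Ψ x)},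
    inter_mem (e.open_source.mem_nhds hxs) hev, fun Z hZ => ?_⟩
  have hsub : e.source ∩ {x | ContDiffAt ℝ 1 e.symm (Ψ x)} ∩ Ψ ⁻¹' Z ⊆
      e.symm '' (Z ∩ {w | ContDiffAt ℝ 1 e.symm w}) := by
    rintro x ⟨⟨h1, h2⟩, h3⟩
    exact ⟨Ψ x, ⟨h3, h2⟩, e.left_inv h1⟩
  refine measure_mono_null hsub ?_
  refine addHaar_image_eq_zero_of_differentiableOn_of_addHaar_eq_zero volume ?_
    (measure_mono_null inter_subset_left hZ)
  rintro w ⟨_, hw⟩
  have hw' : ContDiffAt ℝ 1 e.symm w := hw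
  exact (hw'.differentiableAt hone).differentiableWithinAt

end coord

/-! ### on the Riemann domain -/

variable {m : ℕ} {M : Type*} [TopologicalSpace M] [RDom m M]
  {i₀ : Fin m} {V : Type*} [NormedAddCommGroup V] [NormedSpace ℝ V] {G : Type*} [Group G]
  (I : Inv M i₀ V G)


/-- near `z` the complement of `M*` is the set where `d F z` is degenerate -/
lemma bad_near (z : M) : ∀ᶠ x in 𝓝 z, x ∉ I.Mst → cp x ∈ Bad i₀ (Ph I z) := by
  filter_upwards [D_near I z, (ch z).open_source.mem_nhds (mem_ch z)] with x hx hxs hxM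
  obtain ⟨γ, hγ⟩ := hx
  have h1 : ∃ v : Fin m → ℂ, v i₀ = 0 ∧ D (I.F x) x v = 0 ∧ v ≠ 0 := by
    by_contra hcon
    apply hxM
    intro v hv0 hv
    by_contra hne
    exact hcon ⟨v, hv0, hv, hne⟩
  obtain ⟨v, hv0, hv, hne⟩ := h1
  refine ⟨v, hne, hv0, ?_⟩
  have h2 : D (I.F z) x = fderiv ℝ (Ph I z) (cp x) := D_eq (isCh_ch z) hxs (I.F z)
  rw [← h2, hγ, ContinuousLinearMap.comp_apply, hv, map_zero]

lemma X_contDiffAt (z : M) : ContDiffAt ℝ 2 (fun x => I.X ((ch z).symm x)) (cp z) := by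
  rw [contDiffAt_pi]
  intro j
  have h1 := I.holX j (ch z) (isCh_ch z)
  have h2 : AnalyticAt ℂ ((fun y => I.X y j) ∘ (ch z).symm) (cp z) :=
    Crest.Agent.R266.SCV.analyticOnNhd_of_differentiableOn (ch z).open_target h1 _
      ((isCh_ch z).cp_mem (mem_ch z))
  exact (h2.restrictScalars (𝕜 := ℝ)).contDiffAt

lemma Ph_contDiffAt (z : M) : ContDiffAt ℝ 2 (Ph I z) (cp z) :=
  ContDiffAt.of_le (I.sm z) two_le_top'

lemma tan_Ph (z : M) : ∀ᶠ x in 𝓝 (cp z), ∀ c : ℂ,
    fderiv ℝ (Ph I z) x (c • (fun x => I.X ((ch z).symm x)) x) = 0 := by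
  filter_upwards [(tendsto_ch_symm z).eventually (tan_near I z), mem_target z] with x hx hxt c
  have := hx c
  rw [D_symm (isCh_ch z) hxt] at this
  exact this

/-- a neighbourhood of `z` such that the cylinder over the critical values is null -/
lemma exists_U (z : M) : ∃ U ∈ 𝓝 z, ∀ (X₀ : Fin m → ℂ) (L : V →L[ℝ] (Fin m → ℂ)),
    volume (cyl X₀ univ ((fun x => L (I.F z x)) '' (U ∩ (I.Mst)ᶜ))) = 0 := by
  obtain ⟨δ, hδ, h⟩ := cyl_null (i₀ := i₀) (Ph_contDiffAt I z) (X_contDiffAt I z)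
    (Eventually.of_forall fun x => I.X1 _) (tan_Ph I z)
  refine ⟨{x | (x ∉ I.Mst → cp x ∈ Bad i₀ (Ph I z)) ∧ x ∈ (ch z).source ∧
    cp x ∈ Metric.ball (cp z) δ}, ?_, fun X₀ L => ?_⟩
  · filter_upwards [bad_near I z, (ch z).open_source.mem_nhds (mem_ch z),
      cp_cont.continuousAt.eventually (Metric.ball_mem_nhds (cp z) hδ)] with x h1 h2 h3
    exact ⟨h1, h2, h3⟩
  · refine measure_mono_null ?_ (h X₀ L)
    rintro w ⟨ζ, hζ, n, ⟨x, ⟨⟨h1, h2, h3⟩, hxM⟩, rfl⟩, rfl⟩
    refine ⟨ζ, hζ, _, ⟨cp x, ⟨h3, h1 hxM⟩, rfl⟩, ?_⟩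
    show _ = ζ • X₀ + L (I.F z ((ch z).symm (cp x)))
    rw [(isCh_ch z).symm_cp h2]

variable [MeasurableSpace M] [BorelSpace M]

/-- a subset of a chart domain whose image in coordinates is null is null -/
lemma null_of_cp {μ : Measure M} (hμ : IsLeb μ) {z : M} {A : Set M} (hA : A ⊆ (ch z).source)
    (h : volume (cp '' A) = 0) : μ A = 0 := by
  set T := toMeasurable volume (cp '' A) with hT
  have hTm : MeasurableSet T := measurableSet_toMeasurable _ _
  have hT0 : volume T = 0 := by rw [hT, measure_toMeasurable, h]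
  have hm : MeasurableSet ((ch z).source ∩ cp ⁻¹' T) :=
    (ch z).open_source.measurableSet.inter (cp_cont.measurable hTm)
  have hsub : A ⊆ (ch z).source ∩ cp ⁻¹' T := fun x hx =>
    ⟨hA hx, subset_toMeasurable _ _ ⟨x, hx, rfl⟩⟩
  refine measure_mono_null hsub ?_
  have h1 : μ ((ch z).source ∩ cp ⁻¹' T) = chm (ch z) ((ch z).source ∩ cp ⁻¹' T) := by
    rw [chm, ← hμ (ch z) (isCh_ch z), Measure.restrict_apply hm]
    congr 1
    ext y; simp only [mem_inter_iff]; tauto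
  rw [h1, chm_apply_sub (isCh_ch z) hm inter_subset_left]
  refine measure_mono_null ?_ hT0
  rintro _ ⟨y, ⟨_, hy⟩, rfl⟩
  exact hy

theorem sard [SecondCountableTopology M] [FiniteDimensional ℝ V] [Countable G] {μ : Measure M}
    (hμ : IsLeb μ) : μ {p | p ∈ I.Mst ∧ ¬ I.S p ⊆ I.Mst} = 0 := by
  -- a countable cover by good neighbourhoods
  choose U hU hUn using exists_U I
  obtain ⟨C, hCc, hCu⟩ := TopologicalSpace.countable_cover_nhds (f := U) hU
  refine measure_null_of_locally_null _ fun p₀ hp₀ => ?_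
  obtain ⟨hp₀M, _⟩ := hp₀
  have hsm : ContDiffAt ℝ 1 (Ph I p₀) (cp p₀) := (Ph_contDiffAt I p₀).of_le (by norm_num)
  obtain ⟨π, O, hO, hOn⟩ := pre_null (i₀ := i₀) hsm (I.X1 p₀)
    (fun c => by
      have := I.tan p₀ c
      exact this) hp₀M
  set O' : Set M := (ch p₀).source ∩ cp ⁻¹' O with hO'
  have hO'n : O' ∈ 𝓝 p₀ := inter_mem ((ch p₀).open_source.mem_nhds (mem_ch p₀))
    (cp_cont.continuousAt.preimage_mem_nhds hO)
  refine ⟨O' ∩ {p | ¬ I.S p ⊆ I.Mst}, ?_, ?_⟩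
  · have : {p | p ∈ I.Mst ∧ ¬ I.S p ⊆ I.Mst} ∩ O' ∈ 𝓝[{p | p ∈ I.Mst ∧ ¬ I.S p ⊆ I.Mst}] p₀ :=
      inter_mem self_mem_nhdsWithin (mem_nhdsWithin_of_mem_nhds hO'n)
    exact mem_of_superset this fun p hp => ⟨hp.2, hp.1.2⟩
  · refine null_of_cp hμ (z := p₀) (fun p hp => hp.1.1) ?_
    have hsub : cp '' (O' ∩ {p | ¬ I.S p ⊆ I.Mst}) ⊆ ⋃ z ∈ C, ⋃ γ : G,
        (O ∩ Psi i₀ (I.X p₀) π (Ph I p₀) ⁻¹'
          (cyl (I.X p₀) univ ((fun x => (π.comp (I.ρ γ)) (I.F z x)) '' (U z ∩ (I.Mst)ᶜ)))) := by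
      rintro _ ⟨p, ⟨⟨hps, hpO⟩, hpS⟩, rfl⟩
      obtain ⟨q, hqS, hqM⟩ := Set.not_subset.1 hpS
      obtain ⟨γ, hγ⟩ := hqS
      have hq : q ∈ ⋃ z ∈ C, U z := by rw [hCu]; exact mem_univ q
      obtain ⟨z, hz, hqU⟩ := mem_iUnion₂.1 hq
      obtain ⟨a, ha⟩ := I.orb z q
      obtain ⟨b, hb⟩ := I.orb p₀ p
      refine mem_iUnion₂.2 ⟨z, hz, mem_iUnion.2 ⟨b * γ⁻¹ * a⁻¹, hpO, ?_⟩⟩
      refine ⟨cp p i₀, mem_univ _, _, ⟨q, ⟨hqU, hqM⟩, rfl⟩, ?_⟩
      simp only [Psi, Ph, Function.comp_apply, (isCh_ch p₀).symm_cp hps,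
        ContinuousLinearMap.comp_apply]
      have : I.F p₀ p = I.ρ (b * γ⁻¹ * a⁻¹) (I.F z q) := by
        rw [ha, hγ, ρ_mul, ρ_inv, ρ_mul, ρ_inv, hb]
      rw [this]
    refine measure_mono_null hsub ?_
    refine (measure_biUnion_null_iff hCc).2 fun z _ => measure_iUnion_null fun γ => ?_
    exact hOn _ (hUn z _ _)


end Crest.Agent.R276.SardB_450
end
end

-- ▼ part R276/Pf1_409
section

/-!
# Period fibres are algebraic, part 1 (helper409, row 276)

`M : Mdl K n`, `ι : A → M.Pts` a closed integral curve of a regular vector field, of finite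
Fubini-Study area: the jets of order `≤ C (d+1)` along the vector field, at a point of the curve,
of the polynomials of degree `≤ d` in `z`, determine all the jets.
-/

set_option autoImplicit false

noncomputable section

open Set Filter Topology MeasureTheory Complex

namespace Crest.Agent.R276.Pf1_409

open Crest.Agent.R271.Ho51 hiding Hol
open Crest.Agent.R271.W792
open Crest.Agent.R276.Cur_409
open Crest.Agent.R276.Mod1_987

/-! ### iterated derivatives on a Riemann surface -/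

section iter

variable {A : Type*} [TopologicalSpace A] [RDom 1 A]

theorem single_eq (c : ℂ) : (Pi.single 0 c : Fin 1 → ℂ) = fun _ => c := by
  funext i; rw [Subsingleton.elim i 0]; simp

theorem dz_of_hol {f : A → ℂ} (hf : Hol f) (y : A) : dz 0 f y = D f y e1 := by
  rw [dz_eq, single_eq, single_eq]
  have h1 : (fun _ : Fin 1 => I) = I • e1 := by
    funext i; simp [e1]
  have h2 : (fun _ : Fin 1 => (1 : ℂ)) = e1 := rfl
  rw [h1, h2, hf.cl]
  have : I * (I * D f y e1) = - D f y e1 := by rw [← mul_assoc, I_mul_I]; ring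
  rw [this]; ring

theorem hol_dz {f : A → ℂ} (hf : Hol f) : Hol (dz 0 f) := by
  have h1 : dz 0 f = fun y => D f y e1 := by funext y; exact dz_of_hol hf y
  rw [h1]
  refine ⟨hf.sm.D.apply e1, fun x w => ?_⟩
  rw [D_D_comm hf.sm x e1 (I • w)]
  have h2 : (fun y => D f y (I • w)) = fun y => I * D f y w := by
    funext y; exact hf.cl y w
  rw [h2, D_const_mulC (hf.sm.D.apply w), D_D_comm hf.sm x w e1]

theorem deriv_loc {f : A → ℂ} (hf : Hol f) (p : A) {t : ℂ} (ht : cst t ∈ (ch p).target) :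
    deriv (loc f p) t = loc (dz 0 f) p t := by
  have h1 : HasFDerivAt (f ∘ (ch p).symm) (D f ((ch p).symm (cst t))) (cst t) := by
    rw [D_symm (isCh_ch p) ht]
    exact ((hf.sm.contDiffAt' (isCh_ch p) ht).differentiableAt (by simp)).hasFDerivAt
  let cL : ℂ →L[ℝ] (Fin 1 → ℂ) := ContinuousLinearMap.pi fun _ => ContinuousLinearMap.id ℝ ℂ
  have h2 : HasFDerivAt cst cL t := cL.hasFDerivAt
  have h3 : HasFDerivAt (loc f p) ((D f ((ch p).symm (cst t))).comp cL) t := h1.comp t h2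
  have h4 := (loc_differentiableAt hf p ht).hasDerivAt.hasFDerivAt.restrictScalars ℝ
  have h5 := h3.unique h4
  have h6 := congrArg (fun L : ℂ →L[ℝ] ℂ => L 1) h5
  simp only [ContinuousLinearMap.comp_apply, ContinuousLinearMap.coe_restrictScalars',
    ContinuousLinearMap.toSpanSingleton_apply, one_smul] at h6
  rw [← h6]
  have h7 : cL 1 = e1 := by funext i; rfl
  rw [h7, loc, dz_of_hol hf]

theorem iteratedDeriv_loc {f : A → ℂ} (hf : Hol f) (p : A) (j : ℕ) :
    ∀ᶠ t in 𝓝 (cp p 0), iteratedDeriv j (loc f p) t = loc ((dz 0)^[j] f) p t := by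
  induction j generalizing f with
  | zero => exact Eventually.of_forall fun t => by simp
  | succ j ih =>
    have htar : ∀ᶠ t in 𝓝 (cp p 0), cst t ∈ (ch p).target := by
      apply continuous_cst.continuousAt.eventually
      rw [cst_apply]
      exact (ch p).open_target.mem_nhds ((isCh_ch p).cp_mem (mem_ch p))
    have h1 : ∀ᶠ t in 𝓝 (cp p 0), deriv (loc f p) t = loc (dz 0 f) p t := by
      filter_upwards [htar] with t ht
      exact deriv_loc hf p ht
    filter_upwards [ih (hol_dz hf), eventually_eventually_nhds.2 h1] with t h2 h3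
    rw [iteratedDeriv_succ', Function.iterate_succ_apply, ← h2]
    exact Filter.EventuallyEq.iteratedDeriv_eq j h3

theorem iteratedDeriv_loc_self {f : A → ℂ} (hf : Hol f) (p : A) (j : ℕ) :
    iteratedDeriv j (loc f p) (cp p 0) = ((dz 0)^[j] f) p := by
  rw [(iteratedDeriv_loc hf p j).self_of_nhds, loc, cst_apply, symm_cp]

end iter

/-! ### the exhaustion of a model -/

section exh

variable {K : Type} [Field K] [Algebra ℂ K] {n : ℕ} (M : Mdl K n)

/-- the coordinate functions -/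
def zc (i : Fin n) (y : M.B →ₐ[ℂ] ℂ) : ℂ := y (M.z i)

theorem hol_zc (i : Fin n) : Hol (zc M i) := M.hol792_ev (M.z i)

/-- the boundary function -/
def hc (y : M.B →ₐ[ℂ] ℂ) : ℂ := MvPolynomial.eval (M.pz y) M.h

theorem hc_eq : hc M = fun y => y (MvPolynomial.aeval M.z M.h) := by
  funext y
  unfold hc
  rw [← M.apply_az' y M.h]
  rfl

theorem hol_hc : Hol (hc M) := by
  rw [hc_eq]; exact M.hol792_ev _

theorem hc_ne (y : M.B →ₐ[ℂ] ℂ) : hc M y ≠ 0 := M.eval_h_ne y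

theorem hc_aeval (y : M.B →ₐ[ℂ] ℂ) : hc M y = MvPolynomial.aeval (fun i => zc M i y) M.h := rfl

theorem sm_hlg : Sm (lg (fun _ : Unit => hc M) 0) := by
  refine sm_lg (fun _ => (hol_hc M).sm) fun y => ?_
  have := norm_pos_iff.2 (hc_ne M y)
  simp only [nS, Finset.univ_unique, Finset.sum_const, Finset.card_singleton, one_smul, add_zero]
  positivity

theorem exists_u : ∃ (u : (M.B →ₐ[ℂ] ℂ) → ℝ) (C : ℝ), Sm u ∧ 0 ≤ C ∧ (∀ y, 0 ≤ u y) ∧
    (∀ R : ℝ, IsCompact {y | u y ≤ R}) ∧ ∀ y w, lev u y w = C * lev (lg (zc M) 1) y w := by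
  set d := M.h.totalDegree with hd
  obtain ⟨A, hA0, hA⟩ := norm_aeval_le (zc M) M.h (d := d) le_rfl
  have hlgs : Sm (lg (zc M) 1) := sm_lg (fun i => (hol_zc M i).sm) fun y => by
    have := nS_nonneg (zc M) y
    linarith
  set u : (M.B →ₐ[ℂ] ℂ) → ℝ := fun y =>
    (((d : ℝ) + 1) * lg (zc M) 1 y + (-1) * lg (fun _ : Unit => hc M) 0 y) + Real.log (A + 1)
    with hu
  have hus : Sm u := (((Sm.const _).mulR hlgs).add ((Sm.const _).mulR (sm_hlg M))).add (Sm.const _)
  have hl0 : ∀ y, 0 ≤ lg (zc M) 1 y := fun y => Real.log_nonneg (one_le_sx (zc M) y)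
  have hlA : 0 ≤ Real.log (A + 1) := Real.log_nonneg (by linarith)
  have hlh : ∀ y, lg (fun _ : Unit => hc M) 0 y = Real.log (‖hc M y‖ ^ 2) := by
    intro y; simp [lg, nS]
  have hup : ∀ y, Real.log (‖hc M y‖ ^ 2) ≤ Real.log (A + 1) + d * lg (zc M) 1 y := by
    intro y
    have h1 := hA y
    rw [← hc_aeval] at h1
    have h2 : (d : ℝ) * lg (zc M) 1 y = Real.log (sx (zc M) y ^ d) := by
      rw [Real.log_pow]; rfl
    have h3 := one_le_sx (zc M) y
    have h4 := norm_pos_iff.2 (hc_ne M y)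
    rw [h2, ← Real.log_mul (by positivity) (by positivity)]
    refine Real.log_le_log (by positivity) (h1.trans ?_)
    gcongr
    linarith
  have hu1 : ∀ y, lg (zc M) 1 y ≤ u y := by
    intro y
    have h1 := hup y
    rw [hu]
    simp only [hlh]
    linarith
  refine ⟨u, (d : ℝ) + 1, hus, by positivity, fun y => (hl0 y).trans (hu1 y), ?_, ?_⟩
  · intro R
    set S : Set (Fin n → ℂ) := {ζ | ∑ i, ‖ζ i‖ ^ 2 ≤ Real.exp R ∧
      Real.exp (-R) ≤ ‖MvPolynomial.eval ζ M.h‖ ^ 2} with hS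
    have hSc : IsCompact S := by
      refine Metric.isCompact_of_isClosed_isBounded ?_ ?_
      · exact (isClosed_le (f := fun ζ : Fin n → ℂ => ∑ i, ‖ζ i‖ ^ 2) (by fun_prop)
          continuous_const).inter
          (isClosed_le continuous_const ((MvPolynomial.continuous_eval M.h).norm.pow 2))
      · refine (Metric.isBounded_closedBall (x := (0 : Fin n → ℂ))
          (r := Real.sqrt (Real.exp R))).subset ?_
        intro ζ hζ
        rw [mem_closedBall_zero_iff, pi_norm_le_iff_of_nonneg (Real.sqrt_nonneg _)]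
        intro i
        apply Real.le_sqrt_of_sq_le
        refine le_trans ?_ hζ.1
        exact Finset.single_le_sum (f := fun i => ‖ζ i‖ ^ 2) (fun j _ => by positivity)
          (Finset.mem_univ i)
    have hSh : ∀ ζ ∈ S, MvPolynomial.eval ζ M.h ≠ 0 := by
      intro ζ hζ h0
      have h1 := hζ.2
      rw [h0, norm_zero] at h1
      have := Real.exp_pos (-R)
      norm_num at h1
      linarith
    refine (M.isCompact_preimage hSc hSh).of_isClosed_subset
      (isClosed_le hus.continuous continuous_const) ?_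
    intro y hy
    have hyR : u y ≤ R := hy
    refine ⟨?_, ?_⟩
    · have h1 : lg (zc M) 1 y ≤ R := (hu1 y).trans hyR
      have h2 : sx (zc M) y ≤ Real.exp R := by
        have h3 := Real.exp_le_exp.2 h1
        have h4 : Real.exp (lg (zc M) 1 y) = sx (zc M) y := by
          unfold lg
          rw [Real.exp_log]
          · rfl
          · have := one_le_sx (zc M) y
            unfold sx at this
            linarith
        rwa [h4] at h3
      have h5 : ∑ i, ‖M.pz y i‖ ^ 2 = nS (zc M) y := rfl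
      rw [h5]
      unfold sx at h2
      linarith
    · have h1 : -R ≤ Real.log (‖hc M y‖ ^ 2) := by
        have h2 : u y = (((d : ℝ) + 1) * lg (zc M) 1 y + (-1) * Real.log (‖hc M y‖ ^ 2)) +
            Real.log (A + 1) := by rw [hu]; simp only [hlh]
        have h3 : 0 ≤ ((d : ℝ) + 1) * lg (zc M) 1 y := mul_nonneg (by positivity) (hl0 y)
        linarith
      have h4 := norm_pos_iff.2 (hc_ne M y)
      have h5 := (Real.le_log_iff_exp_le (by positivity)).1 h1
      exact h5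
  · intro y w
    have h1 : lev u y w = lev (fun y => (((d : ℝ) + 1) * lg (zc M) 1 y +
      (-1) * lg (fun _ : Unit => hc M) 0 y) + Real.log (A + 1)) y w := rfl
    rw [h1, lev_add (((Sm.const _).mulR hlgs).add ((Sm.const _).mulR (sm_hlg M))) (Sm.const _),
      lev_const, lev_add ((Sm.const _).mulR hlgs) ((Sm.const _).mulR (sm_hlg M)),
      lev_const_mul hlgs, lev_const_mul (sm_hlg M),
      Crest.Agent.R271.G792.lev_lg_unit (hol_hc M) (hc_ne M)]
    ring

end exh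

/-! ### the curve -/

section curve

open Crest.Agent.R276.LsC_450

variable {K : Type} [Field K] [Algebra ℂ K] {n : ℕ} (M : Mdl K n)
  {A : Type*} [TopologicalSpace A] [RDom 1 A] {X : (M.B →ₐ[ℂ] ℂ) → Fin n → ℂ}
  {ι : A → (M.B →ₐ[ℂ] ℂ)}

theorem hol_comp (hi : Integral X ι) {f : (M.B →ₐ[ℂ] ℂ) → ℂ} (hf : Hol f) :
    Hol (fun q => f (ι q)) where
  sm := hi.sm hf.sm
  cl := fun q w => by
    rw [hi.D_sm hf.sm, hi.D_sm hf.sm, ← hf.cl]
    congr 1
    funext j
    simp [mul_assoc]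

theorem dz_comp_ev (hi : Integral X ι) (DB : Derivation ℂ M.B M.B)
    (hDB : ∀ (b : M.B) (y : M.B →ₐ[ℂ] ℂ), D (fun y : M.B →ₐ[ℂ] ℂ => y b) y (X y) = y (DB b))
    (b : M.B) : dz 0 (fun q : A => ι q b) = fun q => ι q (DB b) := by
  funext q
  rw [dz_of_hol (hol_comp M hi (M.hol792_ev b)), hi.D_sm (M.hol792_ev b).sm]
  rw [← hDB b (ι q)]
  congr 1
  funext j
  simp [e1]

theorem iterate_dz_comp (hi : Integral X ι) (DB : Derivation ℂ M.B M.B)
    (hDB : ∀ (b : M.B) (y : M.B →ₐ[ℂ] ℂ), D (fun y : M.B →ₐ[ℂ] ℂ => y b) y (X y) = y (DB b))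
    (b : M.B) (j : ℕ) : (dz 0)^[j] (fun q : A => ι q b) = fun q => ι q ((⇑DB)^[j] b) := by
  induction j generalizing b with
  | zero => rfl
  | succ j ih =>
    rw [Function.iterate_succ_apply, dz_comp_ev M hi DB hDB b, ih (DB b),
      ← Function.iterate_succ_apply]

/-- **Theorem (curve).** -/
theorem jets_curve [T2Space A] [MeasurableSpace A] [BorelSpace A] {ν : Measure A}
    (hν : IsLeb ν) (hX : ∀ j, Crest.Agent.R271.Ho51.Hol (fun y => X y j)) (hi : Integral X ι)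
    (hcl : IsClosedEmbedding ι) (DB : Derivation ℂ M.B M.B)
    (hDB : ∀ (b : M.B) (y : M.B →ₐ[ℂ] ℂ), D (fun y : M.B →ₐ[ℂ] ℂ => y b) y (X y) = y (DB b))
    (harea : ∫⁻ q, ENNReal.ofReal (lev (lg (zc M) 1) (ι q) (X (ι q))) ∂ν ≠ ⊤) (q0 : A) :
    ∃ C' : ℕ, ∀ (d : ℕ) (P : MvPolynomial (Fin n) ℂ), P.totalDegree ≤ d →
      (∀ j ≤ C' * (d + 1), ι q0 ((⇑DB)^[j] (MvPolynomial.aeval M.z P)) = 0) →
      ∀ j, ι q0 ((⇑DB)^[j] (MvPolynomial.aeval M.z P)) = 0 := by
  obtain ⟨u, C, hus, hC0, hu0, huc, huL⟩ := exists_u M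
  set x : Fin n → A → ℂ := fun i q => zc M i (ι q) with hx
  have hxh : ∀ i, Hol (x i) := fun i => hol_comp M hi (hol_zc M i)
  have hlgs : Sm (lg (zc M) 1) := sm_lg (fun i => (hol_zc M i).sm) fun y => by
    have := nS_nonneg (zc M) y
    linarith
  -- Levi forms of restrictions
  have hlev : ∀ f : (M.B →ₐ[ℂ] ℂ) → ℝ, Sm f → ∀ q : A,
      lev (fun q => f (ι q)) q e1 = lev f (ι q) (X (ι q)) := by
    intro f hf q
    rw [← Levi_eq_lev (hi.sm hf), ← Levi_eq_lev hf, hi.levi hX hf q e1]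
    congr 1
    funext j
    simp [e1]
  have hlgx : ∀ q, lev (lg x 1) q e1 = lev (lg (zc M) 1) (ι q) (X (ι q)) := fun q =>
    hlev _ hlgs q
  have hω0 : ∀ q, 0 ≤ lev (lg x 1) q e1 := fun q =>
    lev_lg_nonneg hxh zero_le_one (fun z => by
      have := nS_nonneg x z
      linarith) q e1
  have hint : Integrable (fun q => lev (lg x 1) q e1) ν := by
    refine ⟨(sm_lev (sm_lg1 hxh) e1).continuous.aestronglyMeasurable, ?_⟩
    rw [hasFiniteIntegral_iff_ofReal (Eventually.of_forall hω0)]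
    simp only [hlgx]
    exact lt_top_iff_ne_top.2 harea
  obtain ⟨C', hC'⟩ := jets_determine hν hxh hint (u := fun q => u (ι q)) (hi.sm hus)
    (fun q => hu0 _) (fun R => hcl.isCompact_preimage (huc R)) hC0
    (fun q => by rw [hlev u hus q, huL, hlgx]) q0
  have hfun : ∀ P : MvPolynomial (Fin n) ℂ,
      (fun q : A => (MvPolynomial.aeval (fun i => x i q) P : ℂ)) =
        fun q => ι q (MvPolynomial.aeval M.z P) := by
    intro P
    funext q
    exact (M.apply_az' (ι q) P).symm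
  have hiter : ∀ (P : MvPolynomial (Fin n) ℂ) (j : ℕ),
      iteratedDeriv j (loc (fun q : A => (MvPolynomial.aeval (fun i => x i q) P : ℂ)) q0)
        (cp q0 0) = ι q0 ((⇑DB)^[j] (MvPolynomial.aeval M.z P)) := by
    intro P j
    rw [iteratedDeriv_loc_self (hol_aeval hxh P), hfun P, iterate_dz_comp M hi DB hDB]
  refine ⟨C', fun d P hP hj j => ?_⟩
  rw [← hiter]
  refine hC' d P hP (fun j hj' => ?_) j
  rw [hiter]
  exact hj j hj'

end curve

/-! ### Theorem A -/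

section main

open Crest.Agent.R276.LsDefs_450 Crest.Agent.R276.LsB_450 Crest.Agent.R276.LsC_450
open Crest.Agent.R276.Coa2_375 Crest.Agent.R276.Der_409
open scoped ENNReal

variable {K : Type} [Field K] [Algebra ℂ K] {n : ℕ} (M : Mdl K n)

theorem isAlgebraic_adjoin :
    Algebra.IsAlgebraic (Algebra.adjoin ℂ (Set.range fun i => algebraMap M.B K (M.z i))) K := by
  classical
  set Aa := Algebra.adjoin ℂ (Set.range fun i => algebraMap M.B K (M.z i)) with hAa
  let g : MvPolynomial (Fin n) ℂ →ₐ[ℂ] Aa := MvPolynomial.aeval fun i =>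
    ⟨algebraMap M.B K (M.z i), Algebra.subset_adjoin ⟨i, rfl⟩⟩
  have hg : ∀ p, ((g p : Aa) : K) = M.aK p := by
    intro p
    have h1 := MvPolynomial.comp_aeval_apply (fun i => (⟨algebraMap M.B K (M.z i),
      Algebra.subset_adjoin ⟨i, rfl⟩⟩ : Aa)) Aa.val p
    exact h1
  have hginj : Function.Injective g := fun p q h => M.aK_injective (by
    rw [← hg, ← hg, h])
  -- transport of integrality
  have hint : IsIntegral Aa (M.θ : K) := by
    refine ⟨M.μ.map (g : MvPolynomial (Fin n) ℂ →+* Aa), M.monic.map _, ?_⟩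
    rw [Polynomial.eval₂_map]
    have h1 : (algebraMap Aa K).comp (g : MvPolynomial (Fin n) ℂ →+* Aa) = M.aK :=
      RingHom.ext hg
    rw [h1]
    have h2 := Mod1_987.eval₂_az_val M.z M.θ M.μ
    rw [M.root] at h2
    exact h2.symm
  refine ⟨fun a => ?_⟩
  obtain ⟨r, hr, q, hq⟩ := M.gen_frac a
  have h3 : IsIntegral Aa (M.aK r * a) := by
    rw [hq]
    have h4 : Mod1_987.ev2 M.zK M.θ q =
        Polynomial.aeval (M.θ : K) (q.map (g : MvPolynomial (Fin n) ℂ →+* Aa)) := by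
      rw [Polynomial.aeval_def, Polynomial.eval₂_map]
      have h1 : (algebraMap Aa K).comp (g : MvPolynomial (Fin n) ℂ →+* Aa) = M.aK :=
        RingHom.ext hg
      rw [h1]
    rw [h4]
    have h5 : Polynomial.aeval (M.θ : K) (q.map (g : MvPolynomial (Fin n) ℂ →+* Aa)) ∈
        Algebra.adjoin Aa {(M.θ : K)} := Polynomial.aeval_mem_adjoin_singleton _ _
    exact (adjoin_le_integralClosure hint) h5
  have h6 : algebraMap Aa K (g r) = M.aK r := hg r
  have h7 : g r ≠ 0 := fun h => hr (hginj (by rw [h, map_zero]))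
  rw [← h6, ← Algebra.smul_def] at h3
  exact IsAlgebraic.iff_exists_smul_integral.2 ⟨g r, h7, h3⟩

theorem null_zero {μ : Measure (M.B →ₐ[ℂ] ℂ)} (hμ : IsLeb μ) {b : M.B} (hb : b ≠ 0) :
    μ {y | y b = 0} = 0 := by
  have hm : MeasurableSet {y : M.B →ₐ[ℂ] ℂ | y b = 0} :=
    (isClosed_eq (M.hol792_ev b).sm.continuous continuous_const).measurableSet
  have h1 := M.lintM_eq hμ (g := indicator {y : M.B →ₐ[ℂ] ℂ | y b = 0} (fun _ => (1 : ℝ≥0∞)))
    (measurable_const.indicator hm)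
  have h2 := AB2_590.lintM_congr_off M.het hb
    (f := indicator {y : M.B →ₐ[ℂ] ℂ | y b = 0} (fun _ => (1 : ℝ≥0∞))) (g := fun _ => 0)
    (fun y hy => by rw [indicator_of_notMem]; exact hy)
  rw [h2, M.lintM_eq hμ measurable_const, lintegral_indicator hm] at h1
  simpa using h1.symm

theorem continuous_Levi {f : (M.B →ₐ[ℂ] ℂ) → ℝ} (hf : Sm f) {X : (M.B →ₐ[ℂ] ℂ) → Fin n → ℂ}
    (hX : ∀ j, Crest.Agent.R271.Ho51.Hol (fun y => X y j)) :
    Continuous (fun y => Levi f y (X y)) := by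
  unfold Levi
  refine Complex.continuous_re.comp ?_
  refine continuous_finsetSum _ fun j _ => continuous_finsetSum _ fun k _ => ?_
  have hXc : ∀ j, Continuous (fun y => X y j) := fun j => hol_continuous (hX j)
  have h1 : Continuous (fun y => Lv f y j k) := (hf.ofReal.db k |>.dz j).continuous
  exact (h1.mul (hXc j)).mul (Complex.continuous_conj.comp (hXc k))

theorem leb_ne_zero {N : Type*} [TopologicalSpace N] {n : ℕ} [RDom n N] [MeasurableSpace N]
    [BorelSpace N] [Nonempty N] {μ : Measure N} (hμ : IsLeb μ) : μ ≠ 0 := by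
  rintro rfl
  obtain ⟨x⟩ := ‹Nonempty N›
  have h1 := hμ (ch x) (isCh_ch x)
  rw [Measure.restrict_zero] at h1
  have h2 := congrArg (fun ν : Measure N => ν univ) h1
  simp only [Measure.coe_zero, Pi.zero_apply] at h2
  rw [Measure.map_apply_of_aemeasurable ((ch x).continuousOn_symm.aemeasurable
    (ch x).open_target.measurableSet) MeasurableSet.univ, preimage_univ,
    Measure.restrict_apply_univ] at h2
  exact ((ch x).open_target.measure_pos volume ⟨cp x, (isCh_ch x).cp_mem (mem_ch x)⟩).ne h2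

/-- **Theorem A.** -/
theorem trdeg_le_one {K : Type} [Field K] [Algebra ℂ K] {m' : ℕ} (M : Mdl K (m' + 1))
    {i₀ : Fin (m' + 1)} {V : Type*} [NormedAddCommGroup V] [NormedSpace ℝ V]
    [FiniteDimensional ℝ V] {G : Type*} [Group G] [Countable G]
    (J : Inv (M.B →ₐ[ℂ] ℂ) i₀ V G) {μ : Measure (M.B →ₐ[ℂ] ℂ)} (hμ : IsLeb μ)
    (w : (M.B →ₐ[ℂ] ℂ) → ℝ≥0∞) (hwm : Measurable w)
    (hw : ∀ x y γ, J.e y = J.ρ γ (J.e x) → ∀ L : (Fin m' → ℂ) →L[ℝ] (Fin m' → ℂ),
      (∀ v, D (J.F y) y (ins i₀ (0, L v)) = J.ρ γ (D (J.F x) x (ins i₀ (0, v)))) →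
        w x = ENNReal.ofReal |L.det| * w y)
    (hmass : ∫⁻ x, ENNReal.ofReal (Levi (lg (zc M) 1) x (J.X x)) * w x ∂μ ≠ ⊤)
    (hMst : ∀ᵐ x ∂μ, x ∈ J.Mst) (hw0 : ∀ᵐ x ∂μ, w x ≠ 0)
    (DB : Derivation ℂ M.B M.B)
    (hDB : ∀ (b : M.B) (y : M.B →ₐ[ℂ] ℂ), D (fun y : M.B →ₐ[ℂ] ℂ => y b) y (J.X y) = y (DB b))
    (DK : Derivation ℂ K K) (hDK : ∀ b : M.B, DK b = DB b) :
    Algebra.trdeg (Kc DK) K ≤ 1 := by
  have hlgs : Sm (lg (zc M) 1) := sm_lg (fun i => (hol_zc M i).sm) fun y => by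
    have := nS_nonneg (zc M) y
    linarith
  have ha : Measurable fun x => ENNReal.ofReal (Levi (lg (zc M) 1) x (J.X x)) :=
    (continuous_Levi M hlgs J.holX).measurable.ennreal_ofReal
  have hcoa := Coa3_375.coa_curve J hμ w hwm hw _ ha hmass
  have hsard : ∀ᵐ p ∂μ, ¬ (p ∈ J.Mst ∧ ¬ J.S p ⊆ J.Mst) := by
    rw [ae_iff]
    simpa only [not_not] using SardB_450.sard J hμ
  refine trdeg_Kc_le_one (B := M.B) Subtype.val_injective DK DB (fun b => hDK b) M.z
    (isAlgebraic_adjoin M) ?_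
  intro b hb
  have hall : ∀ᵐ p ∂μ, ∀ n, p (b n) ≠ 0 := by
    rw [ae_all_iff]
    intro n
    rw [ae_iff]
    simpa only [ne_eq, not_not] using null_zero M hμ (hb n)
  have hne : (ae μ).NeBot := ae_neBot.2 (leb_ne_zero hμ)
  obtain ⟨p, hp1, hp2, hp3, hp4, hp5⟩ :=
    (hall.and (hcoa.and (hsard.and (hMst.and hw0)))).exists
  refine ⟨p, hp1, ?_⟩
  have hS : J.S p ⊆ J.Mst := by
    by_contra h
    exact hp3 ⟨hp4, h⟩
  let := rdomS J hS
  have hi : LsC_450.Integral J.X (fun q : J.S p => (q : (M.B →ₐ[ℂ] ℂ))) := integral_S J hS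
  have hcl : IsClosedEmbedding (fun q : J.S p => (q : (M.B →ₐ[ℂ] ℂ))) :=
    (isClosed_S J p).isClosedEmbedding_subtypeVal
  obtain ⟨ν, hν⟩ := Crest.Agent.R271.Ho51.exists_leb (M := J.S p)
  have h1 := hp2 hp4 hp5 hS ν hν
  obtain ⟨C', hC'⟩ := jets_curve M hν J.holX hi hcl DB hDB (by
    refine ne_of_lt (lt_of_le_of_lt (le_of_eq ?_) h1)
    refine lintegral_congr fun q => ?_
    rw [Levi_eq_lev hlgs]) ⟨p, mem_S_self J p⟩
  exact ⟨C', hC'⟩

end main

end Crest.Agent.R276.Pf1_409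
end
end

-- ▼ part R276/InvV_450
section

/-!
# Row 276 (S0419): the instance of `LsDefs_450.Inv` given by a VHS (helper450)

`V : VHS (n+1) M N w`, `i₀ : Fin (n+1)` the coordinate of the curves, `A : Finset (Fin n)` (the coordinates
`i₀.succAbove i`, `i ∈ A`, are also used as invariants), `X` a holomorphic vector field with `X i₀ = 1`,
`X = 0` on `A` and `∑ X_j g_{jk} = 0` (`g = gP V` the period metric).
-/

set_option autoImplicit false
set_option linter.unusedSectionVars false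

noncomputable section

open Set Filter Topology Matrix
open Crest.Agent.R271.Ho51
open Crest.Agent.R276.Ipc735 (SmAt HolAt lM dM cm)
open Crest.Agent.R276.Pd571 Crest.Agent.R276.PdL571
open Crest.Agent.R276.LsDefs_450

namespace Crest.Agent.R276.InvV_450

section gen

variable {m : ℕ} {M : Type*} [TopologicalSpace M] [RDom m M]
  {W W' : Type*} [NormedAddCommGroup W] [NormedSpace ℝ W] [NormedAddCommGroup W'] [NormedSpace ℝ W']

lemma D_clm_at {f : M → W} {x : M} (hf : DifferentiableAt ℝ (f ∘ (ch x).symm) (cp x))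
    (T : W →L[ℝ] W') (v : Fin m → ℂ) : D (fun y => T (f y)) x v = T (D f x v) := by
  have h1 : HasFDerivAt ((fun y => T (f y)) ∘ (ch x).symm) (T.comp (D f x)) (cp x) :=
    T.hasFDerivAt.comp (cp x) hf.hasFDerivAt
  have h2 : D (fun y => T (f y)) x = T.comp (D f x) := h1.fderiv
  rw [h2]; rfl

lemma D_coord (x : M) (j : Fin m) (v : Fin m → ℂ) : D (fun y : M => cp y j) x v = v j := by
  have h1 : ((fun y : M => cp y j) ∘ (ch x).symm) =ᶠ[𝓝 (cp x)] fun c => c j := by
    filter_upwards [(ch x).open_target.mem_nhds ((isCh_ch x).cp_mem (mem_ch x))] with c hc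
    simp [(isCh_ch x).cp_symm hc]
  have h2 : D (fun y : M => cp y j) x = fderiv ℝ (fun c : Fin m → ℂ => c j) (cp x) := h1.fderiv_eq
  rw [h2]
  have h3 : HasFDerivAt (fun c : Fin m → ℂ => c j)
      (ContinuousLinearMap.proj (R := ℝ) (φ := fun _ : Fin m => ℂ) j) (cp x) :=
    (ContinuousLinearMap.proj (R := ℝ) (φ := fun _ : Fin m => ℂ) j).hasFDerivAt
  rw [h3.fderiv]
  rfl

end gen

variable {n N w : ℕ} {M : Type*} [TopologicalSpace M] [RDom (n + 1) M]
variable (V : Ipc735.VHS (n + 1) M N w) (i₀ : Fin (n + 1)) (A : Finset (Fin n))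

/-- the invariant in the frame at `z` -/
def FI (z y : M) : Vt N A := vt (FF V z y) fun i => cp y (i₀.succAbove i.1)

/-- the invariant -/
def eI (x : M) : Vt N A := vt (ev V x) fun i => cp x (i₀.succAbove i.1)

lemma FI_self (z : M) : FI V i₀ A z z = eI V i₀ A z := by
  unfold FI eI
  rw [FF_self]

lemma FI_orb (z y : M) : FI V i₀ A z y = rho (V.P z y) (eI V i₀ A y) := rfl

lemma FI_sm (z : M) : SmAt (FI V i₀ A z) z := by
  have h1 : ContDiffAt ℝ (⊤ : ℕ∞)
      (fun c => fun i k => lM V.P V.E z ((ch z).symm c) i k) (cp z) := by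
    rw [contDiffAt_pi]
    intro i
    rw [contDiffAt_pi]
    intro k
    exact V.smE z i k
  have h2 : ContDiffAt ℝ (⊤ : ℕ∞)
      (fun c => fun i k => (FF V z ((ch z).symm c)).2 i k) (cp z) := by
    refine (contDiffAt_const (c := fun i k => V.S z i k)).congr_of_eventuallyEq ?_
    have ht : Tendsto (ch z).symm (𝓝 (cp z)) (𝓝 z) := by
      have := (ch z).symm.continuousAt (x := cp z) (by simpa using (isCh_ch z).cp_mem (mem_ch z))
      rwa [ContinuousAt, (isCh_ch z).symm_cp (mem_ch z)] at this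
    filter_upwards [ht.eventually (FF_snd V z)] with c hc
    rw [hc]
  have h3 : ContDiffAt ℝ (⊤ : ℕ∞)
      (fun c => fun i : A => cp ((ch z).symm c) (i₀.succAbove i.1)) (cp z) := by
    rw [contDiffAt_pi]
    intro i
    have h4 : ContDiffAt ℝ (⊤ : ℕ∞) (fun c : Fin (n + 1) → ℂ => c (i₀.succAbove i.1)) (cp z) :=
      (contDiff_apply ℝ ℂ (i₀.succAbove i.1)).contDiffAt
    refine h4.congr_of_eventuallyEq ?_
    filter_upwards [(ch z).open_target.mem_nhds ((isCh_ch z).cp_mem (mem_ch z))] with c hc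
    rw [(isCh_ch z).cp_symm hc]
  exact h1.prodMk (h2.prodMk h3)

lemma FI_diff (z : M) : DifferentiableAt ℝ (FI V i₀ A z ∘ (ch z).symm) (cp z) :=
  ContDiffAt.differentiableAt (FI_sm V i₀ A z) (by simp)

/-- the derivative of the invariant at the centre -/
theorem D_FI (z : M) (v : Fin (n + 1) → ℂ) : D (FI V i₀ A z) z v =
    (fun i k => TE V z v i k, fun _ _ => 0, fun i : A => v (i₀.succAbove i.1)) := by
  have hd := FI_diff V i₀ A z
  refine Prod.ext ?_ (Prod.ext ?_ ?_)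
  · funext i k
    have h1 := D_clm_at hd ((ContinuousLinearMap.proj (R := ℝ) (φ := fun _ : Fin N => ℂ) k).comp
      ((ContinuousLinearMap.proj (R := ℝ) (φ := fun _ : Fin N => Fin N → ℂ) i).comp
        (ContinuousLinearMap.fst ℝ (Fin N → Fin N → ℂ) ((Fin N → Fin N → ℂ) × (A → ℂ))))) v
    exact h1.symm
  · funext i k
    have h1 := D_clm_at hd ((ContinuousLinearMap.proj (R := ℝ) (φ := fun _ : Fin N => ℂ) k).comp
      ((ContinuousLinearMap.proj (R := ℝ) (φ := fun _ : Fin N => Fin N → ℂ) i).comp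
        ((ContinuousLinearMap.fst ℝ (Fin N → Fin N → ℂ) (A → ℂ)).comp
        (ContinuousLinearMap.snd ℝ (Fin N → Fin N → ℂ) ((Fin N → Fin N → ℂ) × (A → ℂ)))))) v
    have h2 : (fun y => (FF V z y).2 i k) =ᶠ[𝓝 z] fun _ => V.S z i k := by
      filter_upwards [FF_snd V z] with y hy
      rw [hy]
    have h3 : D (fun y => (FF V z y).2 i k) z v = 0 := by
      rw [D_congr h2, D_const]; rfl
    exact h1.symm.trans h3
  · funext i
    have h1 := D_clm_at hd ((ContinuousLinearMap.proj (R := ℝ) (φ := fun _ : A => ℂ) i).comp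
        ((ContinuousLinearMap.snd ℝ (Fin N → Fin N → ℂ) (A → ℂ)).comp
        (ContinuousLinearMap.snd ℝ (Fin N → Fin N → ℂ) ((Fin N → Fin N → ℂ) × (A → ℂ))))) v
    exact h1.symm.trans (D_coord z (i₀.succAbove i.1) v)

lemma FI_ndc (z : M) : ∀ᶠ x in 𝓝 z, ∃ γ : GL (Fin N) ℤ, ∀ᶠ y in 𝓝 x,
    FI V i₀ A z y = rho γ (FI V i₀ A x y) := by
  obtain ⟨U, hU, h⟩ := FF_change V z
  filter_upwards [eventually_mem_nhds_iff.2 hU] with x hx
  refine ⟨V.P z x, ?_⟩
  filter_upwards [hx] with y hy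
  unfold FI
  rw [h z (mem_of_mem_nhds hU) x (mem_of_mem_nhds hx) y hy, rho_vt]

lemma FI_pd (p q : M) : ∃ U ∈ 𝓝 p, ∃ W ∈ 𝓝 q,
    {γ : GL (Fin N) ℤ | ∃ x ∈ U, ∃ y ∈ W, rho γ (FI V i₀ A p x) = FI V i₀ A q y}.Finite := by
  obtain ⟨U, hU, W, hW, hf⟩ := PD V p q
  refine ⟨U, hU, W, hW, hf.subset ?_⟩
  rintro g ⟨x, hx, y, hy, hg⟩
  unfold FI at hg
  rw [rho_vt] at hg
  exact ⟨x, hx, y, hy, (vt_inj hg).1⟩

/-- a real direction annihilated by the period metric does not move the Hodge structure -/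
lemma TE_zero_of {x : M} {X : Fin (n + 1) → ℂ} (h : ∀ k, ∑ j, X j * gP V x j k = 0) (c : ℂ) :
    TE V x (c • X) = 0 := by
  rw [TE_eq_zero_iff, bf_apply]
  have h1 : (gP V x)ᵀ *ᵥ (c • X) = 0 := by
    rw [Matrix.mulVec_smul]
    have : (gP V x)ᵀ *ᵥ X = 0 := by
      funext k
      simp only [Matrix.mulVec, dotProduct, Matrix.transpose_apply, Pi.zero_apply]
      rw [← h k]
      exact Finset.sum_congr rfl fun j _ => mul_comm _ _
    rw [this, smul_zero]
  rw [h1]
  simp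

/-- **The instance.** -/
def mkInv (X : M → Fin (n + 1) → ℂ) (hX1 : ∀ x, X x i₀ = 1)
    (hXA : ∀ x, ∀ i ∈ A, X x (i₀.succAbove i) = 0) (hXh : ∀ j, Hol (fun y => X y j))
    (hXg : ∀ x k, ∑ j, X x j * gP V x j k = 0) : Inv M i₀ (Vt N A) (GL (Fin N) ℤ) where
  ρ := rho
  e := eI V i₀ A
  F := FI V i₀ A
  X := X
  Fz := FI_self V i₀ A
  orb := fun z y => ⟨V.P z y, FI_orb V i₀ A z y⟩
  sm := FI_sm V i₀ A
  ndc := FI_ndc V i₀ A
  pd := FI_pd V i₀ A
  X1 := hX1
  holX := hXh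
  tan := fun z c => by
    rw [D_FI, TE_zero_of V (hXg z) c]
    refine Prod.ext rfl (Prod.ext rfl ?_)
    funext i
    show (c • X z) (i₀.succAbove i.1) = 0
    rw [Pi.smul_apply, hXA z i.1 i.2, smul_zero]

section inst

variable {V i₀ A} {X : M → Fin (n + 1) → ℂ} (hX1 : ∀ x, X x i₀ = 1)
    (hXA : ∀ x, ∀ i ∈ A, X x (i₀.succAbove i) = 0) (hXh : ∀ j, Hol (fun y => X y j))
    (hXg : ∀ x k, ∑ j, X x j * gP V x j k = 0)


theorem mem_Mst_iff (x : M) : x ∈ (mkInv V i₀ A X hX1 hXA hXh hXg).Mst ↔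
    ∀ v : Fin (n + 1) → ℂ, v i₀ = 0 → (∀ i ∈ A, v (i₀.succAbove i) = 0) → TE V x v = 0 → v = 0 := by
  have key : ∀ v : Fin (n + 1) → ℂ, D ((mkInv V i₀ A X hX1 hXA hXh hXg).F x) x v = 0 ↔
      TE V x v = 0 ∧ ∀ i ∈ A, v (i₀.succAbove i) = 0 := by
    intro v
    have h0 : D ((mkInv V i₀ A X hX1 hXA hXh hXg).F x) x v = _ := D_FI V i₀ A x v
    rw [h0]
    constructor
    · intro h
      have h1 := congrArg (fun q : Vt N A => q.1) h
      have h3 := congrArg (fun q : Vt N A => q.2.2) h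
      exact ⟨by ext i k; exact congrFun (congrFun h1 i) k, fun i hi => congrFun h3 ⟨i, hi⟩⟩
    · rintro ⟨h1, h2⟩
      rw [h1]
      refine Prod.ext rfl (Prod.ext rfl ?_)
      funext i
      exact h2 i.1 i.2
  constructor
  · intro h v hv hA hT
    exact h v hv ((key v).2 ⟨hT, hA⟩)
  · intro h v hv hD
    obtain ⟨h1, h2⟩ := (key v).1 hD
    exact h v hv h2 h1

end inst

end Crest.Agent.R276.InvV_450
end
end

-- ▼ part R276/Pf2_409
section

/-!
# Period fibres are algebraic, part 2 (helper409, row 276)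

`M : Mdl K (n+1)`, `V` a VHS on `M.Pts`, `e : Fin (n+1) ≃ α ⊕ β`, `f : α → Fin (n+1) → M.B` a frame of the
kernel of the period metric, `f i (e.symm (inl j)) = δ_ij`, and `det (gP_ββ) > 0` everywhere.

* `mdata` the data of 137's finite mass theorem;
* `trdeg_slope` every derivation `D_{f i}` has constants of corank `≤ 1`;
* `comm` the `D_{f i}` commute.
-/

set_option autoImplicit false
set_option linter.unusedSectionVars false

noncomputable section

open Set Filter Topology MeasureTheory Complex Matrix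
open scoped ENNReal ComplexConjugate ComplexOrder

namespace Crest.Agent.R276.Pf2_409

open Crest.Agent.R271.Ho51
open Crest.Agent.R276.Mod1_987
open Crest.Agent.R276.Pd571 Crest.Agent.R276.PdL571

/-! ### polynomials -/

section poly

variable {n : ℕ} (p : MvPolynomial (Fin n) ℂ)

theorem differentiable_eval : Differentiable ℂ fun z : Fin n → ℂ => MvPolynomial.eval z p := by
  induction p using MvPolynomial.induction_on with
  | C a => simp
  | add p q hp hq =>
    simp only [map_add]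
    exact hp.add hq
  | mul_X p i hp =>
    have h : (fun z : Fin n → ℂ => MvPolynomial.eval z (p * MvPolynomial.X i)) =
        fun z => MvPolynomial.eval z p * z i := by
      funext z; simp
    rw [h]
    exact hp.mul (differentiable_apply i)

theorem contDiff_eval : ContDiff ℝ (⊤ : ℕ∞) fun z : Fin n → ℂ => MvPolynomial.eval z p := by
  induction p using MvPolynomial.induction_on with
  | C a => simpa using contDiff_const
  | add p q hp hq =>
    simp only [map_add]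
    exact hp.add hq
  | mul_X p i hp =>
    have h : (fun z : Fin n → ℂ => MvPolynomial.eval z (p * MvPolynomial.X i)) =
        fun z => MvPolynomial.eval z p * z i := by
      funext z; simp
    rw [h]
    exact hp.mul (contDiff_apply ℝ ℂ i)

end poly

/-! ### the data of the mass theorem -/

section data

open Crest.Agent.R276.NL_137

variable {K : Type} [Field K] [Algebra ℂ K] {m : ℕ} (M : Mdl K m)

theorem encard_fib (z : Fin m → ℂ) :
    ((cp : (M.B →ₐ[ℂ] ℂ) → (Fin m → ℂ)) ⁻¹' {z}).encard ≤ M.deg := by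
  by_cases hz : MvPolynomial.eval z M.h = 0
  · have h1 : ((cp : (M.B →ₐ[ℂ] ℂ) → (Fin m → ℂ)) ⁻¹' {z}) = ∅ := by
      rw [Set.eq_empty_iff_forall_notMem]
      intro y hy
      have h2 : M.pz y = z := hy
      exact M.eval_h_ne y (by rw [h2, hz])
    rw [h1]; simp
  · obtain ⟨h1, h2⟩ := M.card_fib hz
    have h3 : ((cp : (M.B →ₐ[ℂ] ℂ) → (Fin m → ℂ)) ⁻¹' {z}).encard = M.deg := by
      have h4 : ((cp : (M.B →ₐ[ℂ] ℂ) → (Fin m → ℂ)) ⁻¹' {z}) = {y | M.pz y = z} := rfl
      have h5 : Finite {y : M.B →ₐ[ℂ] ℂ | M.pz y = z} := h2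
      rw [h4, Set.encard, ENat.card_eq_coe_natCard]
      exact_mod_cast h1
    exact h3.le

theorem isCompact_sub (R δ : ℝ) (hδ : 0 < δ) :
    IsCompact {x : M.B →ₐ[ℂ] ℂ | nsq (cp x) ≤ R ∧ δ ≤ ‖MvPolynomial.eval (cp x) M.h‖} := by
  set S : Set (Fin m → ℂ) := {ζ | nsq ζ ≤ R ∧ δ ≤ ‖MvPolynomial.eval ζ M.h‖} with hS
  have hSc : IsCompact S := by
    refine Metric.isCompact_of_isClosed_isBounded ?_ ?_
    · exact (isClosed_le nsq_contDiff.continuous continuous_const).inter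
        (isClosed_le continuous_const (MvPolynomial.continuous_eval M.h).norm)
    · refine (Metric.isBounded_closedBall (x := (0 : Fin m → ℂ))
        (r := Real.sqrt R)).subset ?_
      intro ζ hζ
      rw [mem_closedBall_zero_iff, pi_norm_le_iff_of_nonneg (Real.sqrt_nonneg _)]
      intro i
      apply Real.le_sqrt_of_sq_le
      refine le_trans ?_ hζ.1
      exact Finset.single_le_sum (f := fun i => ‖ζ i‖ ^ 2) (fun j _ => by positivity)
        (Finset.mem_univ i)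
  exact M.isCompact_preimage hSc fun ζ hζ h0 => by
    have h1 := hζ.2
    rw [h0, norm_zero] at h1
    linarith

theorem log_h_le : ∃ C : ℝ, 0 ≤ C ∧ ∀ x : M.B →ₐ[ℂ] ℂ,
    Real.log ‖MvPolynomial.eval (cp x) M.h‖ ≤ C + C * Lg (cp x) := by
  obtain ⟨A, hA0, hA⟩ := Cur_409.norm_aeval_le (Pf1_409.zc M) M.h (d := M.h.totalDegree) le_rfl
  set d := M.h.totalDegree
  refine ⟨Real.log (A + 1) + d, add_nonneg (Real.log_nonneg (by linarith)) (by positivity),
    fun x => ?_⟩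
  have h1 := hA x
  have h2 : MvPolynomial.eval (cp x) M.h = Pf1_409.hc M x := rfl
  rw [h2]
  rw [← Pf1_409.hc_aeval] at h1
  have h3 : 0 < ‖Pf1_409.hc M x‖ := norm_pos_iff.2 (Pf1_409.hc_ne M x)
  have hsx : Cur_409.sx (Pf1_409.zc M) x = 1 + nsq (cp x) := by
    unfold Cur_409.sx
    rw [add_comm]
    rfl
  rw [hsx] at h1
  have hL := Lg_nonneg (cp x)
  have hn := nsq_nonneg (cp x)
  have h4 : Real.log (‖Pf1_409.hc M x‖ ^ 2) ≤ Real.log ((A + 1) * (1 + nsq (cp x)) ^ d) := by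
    refine Real.log_le_log (by positivity) (h1.trans ?_)
    gcongr
    linarith
  rw [Real.log_mul (by positivity) (by positivity), Real.log_pow, Real.log_pow] at h4
  have h5 : Real.log (1 + nsq (cp x)) = Lg (cp x) := rfl
  rw [h5] at h4
  have hlA : 0 ≤ Real.log (A + 1) := Real.log_nonneg (by linarith)
  by_cases hneg : Real.log ‖Pf1_409.hc M x‖ ≤ 0
  · have : 0 ≤ Real.log (A + 1) + d + (Real.log (A + 1) + d) * Lg (cp x) := by positivity
    linarith
  · push Not at hneg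
    have h6 : Real.log ‖Pf1_409.hc M x‖ ≤ Real.log (A + 1) + d * Lg (cp x) := by
      have : ((2 : ℕ) : ℝ) * Real.log ‖Pf1_409.hc M x‖ ≤ Real.log (A + 1) + d * Lg (cp x) := h4
      push_cast at this
      linarith
    have h7 : 0 ≤ (d : ℝ) + Real.log (A + 1) * Lg (cp x) := by positivity
    linarith

variable {n N w : ℕ} {K : Type} [Field K] [Algebra ℂ K] (M : Mdl K (n + 1))
  (V : Ipc735.VHS (n + 1) (M.B →ₐ[ℂ] ℂ) N w)
  {α β : Type} [Fintype α] [DecidableEq α] [Fintype β] [DecidableEq β]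
  (e : Fin (n + 1) ≃ α ⊕ β)

/-- the Gram determinant in the directions `β` -/
def dd (y : M.B →ₐ[ℂ] ℂ) : ℝ :=
  ((gP V y).submatrix (e.symm ∘ Sum.inr) (e.symm ∘ Sum.inr)).det.re

theorem sm_dd : Sm (dd M V e) :=
  (sm_det (G := fun x : (M.B →ₐ[ℂ] ℂ) =>
    (gP V x).submatrix (e.symm ∘ Sum.inr) (e.symm ∘ Sum.inr)) fun _ _ => sm_gP V _ _).clm
      Complex.reCLM

/-- the data of the finite mass theorem, `d = (det gP_ββ)^k` -/
theorem exists_mdata (k : ℕ) (hpos : ∀ y, 0 < dd M V e y)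
    (hpsh : ∀ y v, 0 ≤ Levi (fun y => Real.log (dd M V e y)) y v)
    (hgr : ∃ (C : ℝ) (l a : ℕ), 0 ≤ C ∧ ∀ y, dd M V e y * ‖MvPolynomial.eval (M.pz y) M.h‖ ^ l ≤
      C * (1 + ∑ i, ‖M.pz y i‖ ^ 2) ^ a) :
    ∃ P : MData (n := n + 1) (M.B →ₐ[ℂ] ℂ), P.d = fun y => dd M V e y ^ k := by
  obtain ⟨C1, hC1, h1⟩ := log_h_le M
  obtain ⟨C2, l, a, hC2, h2⟩ := hgr
  have hsl : Sm (fun y => Real.log (dd M V e y)) := Sm_log (sm_dd M V e) hpos
  have hlog : (fun y => Real.log (dd M V e y ^ k)) = fun y => k * Real.log (dd M V e y) := by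
    funext y; rw [Real.log_pow]
  set C3 : ℝ := C1 + k * (Real.log (C2 + 1) + l + a) with hC3
  have hlC2 : 0 ≤ Real.log (C2 + 1) := Real.log_nonneg (by linarith)
  have hC30 : 0 ≤ C3 := by positivity
  refine ⟨⟨M.deg, encard_fib M, fun z => MvPolynomial.eval z M.h, differentiable_eval _,
    contDiff_eval _, M.eval_h_ne, C3, hC30, fun x => ?_, fun R δ hδ => isCompact_sub M R δ hδ,
    fun y => dd M V e y ^ k, Sm.comp (contDiff_id.pow k) (sm_dd M V e), fun x _ v => ?_,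
    fun x _ => ?_⟩, rfl⟩
  · refine (h1 x).trans ?_
    have hL := Lg_nonneg (cp x)
    have h3 : C1 ≤ C3 := by
      rw [hC3]
      have : 0 ≤ k * (Real.log (C2 + 1) + l + a) := by positivity
      linarith
    gcongr
  · simp only [hlog]
    rw [Levi_const_mul hsl]
    exact mul_nonneg (by positivity) (hpsh x v)
  · show Real.log (dd M V e x ^ k) ≤ _
    rw [Real.log_pow]
    have hh : 0 < ‖MvPolynomial.eval (M.pz x) M.h‖ := norm_pos_iff.2 (M.eval_h_ne x)
    have hL := Lg_nonneg (cp x)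
    have hx := hpos x
    have hn : (0 : ℝ) ≤ ∑ i, ‖M.pz x i‖ ^ 2 := Finset.sum_nonneg fun i _ => by positivity
    have h4 : Real.log (dd M V e x * ‖MvPolynomial.eval (M.pz x) M.h‖ ^ l) ≤
        Real.log ((C2 + 1) * (1 + ∑ i, ‖M.pz x i‖ ^ 2) ^ a) := by
      refine Real.log_le_log (by positivity) ((h2 x).trans ?_)
      gcongr
      linarith
    rw [Real.log_mul hx.ne' (by positivity), Real.log_mul (by positivity) (by positivity),
      Real.log_pow, Real.log_pow] at h4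
    have h5 : Real.log (1 + ∑ i, ‖M.pz x i‖ ^ 2) = Lg (cp x) := rfl
    rw [h5] at h4
    have h6 : -Real.log ‖MvPolynomial.eval (M.pz x) M.h‖ ≤
        Real.posLog ‖MvPolynomial.eval (M.pz x) M.h‖⁻¹ := by
      rw [← Real.log_inv]
      exact le_max_right _ _
    have h7 : 0 ≤ Real.posLog ‖MvPolynomial.eval (M.pz x) M.h‖⁻¹ := Real.posLog_nonneg
    set q := Real.posLog ‖MvPolynomial.eval (M.pz x) M.h‖⁻¹ with hq
    have hqe : Real.posLog ‖MvPolynomial.eval (cp x) M.h‖⁻¹ = q := rfl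
    rw [hqe]
    have h8 : Real.log (dd M V e x) ≤ Real.log (C2 + 1) + a * Lg (cp x) + l * q := by
      have : -(l * Real.log ‖MvPolynomial.eval (M.pz x) M.h‖) ≤ l * q := by
        rw [← mul_neg]
        exact mul_le_mul_of_nonneg_left h6 (by positivity)
      linarith
    have hk : (0 : ℝ) ≤ k := by positivity
    have h9 := mul_le_mul_of_nonneg_left h8 hk
    refine h9.trans ?_
    have e1 : (k : ℝ) * Real.log (C2 + 1) ≤ C3 := by
      rw [hC3]
      have : 0 ≤ (k : ℝ) * (l + a) := by positivity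
      nlinarith
    have e2 : (k : ℝ) * a ≤ C3 := by
      rw [hC3]
      have : 0 ≤ (k : ℝ) * (Real.log (C2 + 1) + l) := by positivity
      nlinarith
    have e3 : (k : ℝ) * l ≤ C3 := by
      rw [hC3]
      have : 0 ≤ (k : ℝ) * (Real.log (C2 + 1) + a) := by positivity
      nlinarith
    have e4 := mul_le_mul_of_nonneg_right e2 hL
    have e5 := mul_le_mul_of_nonneg_right e3 h7
    nlinarith

theorem posSemidef_sub {X : Type*} [TopologicalSpace X] [RDom m X] {φ : X → ℝ} (hφ : Sm φ) {x : X}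
    {G : Matrix (Fin m) (Fin m) ℂ} (hG : G.IsHermitian)
    (h : ∀ v : Fin m → ℂ, (∑ j, ∑ k, G j k * v j * conj (v k)).re ≤ Levi φ x v) :
    (LvM φ x - G).PosSemidef := by
  have hL : (LvM φ x).IsHermitian := by
    ext j k
    rw [Matrix.conjTranspose_apply]
    exact Lv_conj hφ x k j
  have hGr : ∀ v : Fin m → ℂ, ((∑ j, ∑ k, G j k * v j * conj (v k)).re : ℂ) =
      ∑ j, ∑ k, G j k * v j * conj (v k) := by
    intro v
    rw [← Complex.conj_eq_iff_re]
    simp only [map_sum, map_mul, Complex.conj_conj]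
    rw [Finset.sum_comm]
    refine Finset.sum_congr rfl fun k _ => Finset.sum_congr rfl fun j _ => ?_
    have : conj (G j k) = G k j := by
      have := congrFun (congrFun hG k) j
      rw [Matrix.conjTranspose_apply] at this
      exact this
    rw [this]
    ring
  refine Matrix.PosSemidef.of_dotProduct_mulVec_nonneg (hL.sub hG) fun v => ?_
  have h1 : star v ⬝ᵥ ((LvM φ x - G) *ᵥ v) = ((Levi φ x (fun j => conj (v j)) -
      (∑ j, ∑ k, G j k * (conj (v j)) * conj (conj (v k))).re : ℝ) : ℂ) := by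
    rw [Complex.ofReal_sub, Levi_eq hφ, hGr]
    rw [← Finset.sum_sub_distrib]
    simp only [dotProduct, Matrix.mulVec, Finset.mul_sum, Matrix.sub_apply, LvM, Matrix.of_apply,
      Pi.star_apply]
    refine Finset.sum_congr rfl fun j _ => ?_
    rw [← Finset.sum_sub_distrib]
    refine Finset.sum_congr rfl fun k _ => ?_
    simp only [Complex.conj_conj, RCLike.star_def]
    ring
  rw [h1]
  have h2 := h (fun j => conj (v j))
  have h3 : 0 ≤ Levi φ x (fun j => conj (v j)) -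
      (∑ j, ∑ k, G j k * (conj (v j)) * conj (conj (v k))).re := by linarith
  exact_mod_cast h3

variable (f : α → Fin (n + 1) → M.B)

/-- the hypotheses on the slopes and on the period metric -/
structure Slopes : Prop where
  f1 : ∀ i j, f i (e.symm (Sum.inl j)) = if i = j then 1 else 0
  f0 : ∀ (y : M.B →ₐ[ℂ] ℂ) i k, ∑ j, y (f i j) * gP V y j k = 0
  pos : ∀ y, 0 < dd M V e y
  psh : ∀ y v, 0 ≤ Levi (fun y => Real.log (dd M V e y)) y v
  gr : ∃ (C : ℝ) (l a : ℕ), 0 ≤ C ∧ ∀ y, dd M V e y * ‖MvPolynomial.eval (M.pz y) M.h‖ ^ l ≤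
      C * (1 + ∑ i, ‖M.pz y i‖ ^ 2) ^ a
  lev : ∃ c : ℝ, 0 < c ∧ ∀ y (v b : Fin (n + 1) → ℂ), (∀ i, b (e.symm (Sum.inl i)) = 0) →
    (∀ k, ∑ j, (v - b) j * gP V y j k = 0) →
      c * (∑ j, ∑ k, gP V y j k * v j * conj (v k)).re ≤
        Levi (fun y => Real.log (dd M V e y)) y v

variable {M V e f}

/-- subtracting the kernel part -/
theorem Slopes.split (H : Slopes M V e f) (y : M.B →ₐ[ℂ] ℂ) (v : Fin (n + 1) → ℂ) :
    ∃ b : Fin (n + 1) → ℂ, (∀ i, b (e.symm (Sum.inl i)) = 0) ∧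
      (∀ k, ∑ j, (v - b) j * gP V y j k = 0) ∧
      v - b = fun j => ∑ i, v (e.symm (Sum.inl i)) * y (f i j) := by
  refine ⟨fun j => v j - ∑ i, v (e.symm (Sum.inl i)) * y (f i j), fun i => ?_, fun k => ?_, ?_⟩
  · simp only
    rw [Finset.sum_eq_single i]
    · rw [H.f1, if_pos rfl, map_one, mul_one, sub_self]
    · intro j _ hj
      rw [H.f1, if_neg hj, map_zero, mul_zero]
    · intro h; exact absurd (Finset.mem_univ _) h
  · simp only [Pi.sub_apply, sub_sub_cancel, Finset.sum_mul]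
    rw [Finset.sum_comm]
    refine Finset.sum_eq_zero fun i _ => ?_
    simp only [mul_assoc]
    rw [← Finset.mul_sum, H.f0, mul_zero]
  · funext j
    simp only [Pi.sub_apply, sub_sub_cancel]

section mass

attribute [local instance] flat

theorem Levi_lg (x : M.B →ₐ[ℂ] ℂ) (w : Fin (n + 1) → ℂ) :
    Levi (Crest.Agent.R271.W792.lg (Pf1_409.zc M) 1) x w = Levi Lg (cp x) w := by
  have h1 : Crest.Agent.R271.W792.lg (Pf1_409.zc M) 1 = fun y => Lg (cp y) := by
    funext y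
    unfold Crest.Agent.R271.W792.lg Lg
    rw [add_comm]
    rfl
  rw [h1, Levi_coord]

theorem Levi_lg_nonneg (x : M.B →ₐ[ℂ] ℂ) (w : Fin (n + 1) → ℂ) :
    0 ≤ Levi (Crest.Agent.R271.W792.lg (Pf1_409.zc M) 1) x w := by
  rw [Levi_lg]; exact Levi_Lg_nonneg _ _

theorem mass_slope (H : Slopes M V e f) {μ : Measure (M.B →ₐ[ℂ] ℂ)} (hμ : IsLeb μ) (i₀ : α) :
    ∫⁻ x : M.B →ₐ[ℂ] ℂ, ENNReal.ofReal (Levi Lg (cp x) (fun j => x (f i₀ j)) *
      (∏ i ∈ Finset.univ.erase i₀, ((1 + ‖cp x (e.symm (Sum.inl i))‖ ^ 2)⁻¹) ^ 2) *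
      dd M V e x) ∂μ < ∞ := by
  obtain ⟨c, hc, hlev⟩ := H.lev
  obtain ⟨k, hk⟩ := exists_nat_ge (c⁻¹)
  have hkc : 1 ≤ k * c := by
    have := mul_le_mul_of_nonneg_right hk hc.le
    rwa [inv_mul_cancel₀ hc.ne'] at this
  obtain ⟨P, hP⟩ := exists_mdata M V e k H.pos H.psh H.gr
  have hset : {x | 0 < P.d x} = univ := by
    rw [Set.eq_univ_iff_forall]
    intro x
    show 0 < P.d x
    rw [hP]
    exact pow_pos (H.pos x) k
  have hsl : Sm (fun y => Real.log (dd M V e y)) := Sm_log (sm_dd M V e) H.pos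
  have hlog : (fun y => Real.log (P.d y)) = fun y => k * Real.log (dd M V e y) := by
    funext y; rw [hP]; simp only; rw [Real.log_pow]
  have key := mass_frame hμ P e i₀ (fun x => gP V x)
    (fun x => Matrix.of fun i j => x (f i j)) (fun x _ => gP_posSemidef V x)
    (fun x _ => by
      rw [hlog]
      refine posSemidef_sub ((Sm.const _).mulR hsl) (gP_herm V x) fun v => ?_
      rw [Levi_const_mul hsl]
      obtain ⟨b, hb1, hb2, -⟩ := H.split x v
      have h1 := hlev x v b hb1 hb2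
      have h2 : 0 ≤ (∑ j, ∑ k, gP V x j k * v j * conj (v k)).re := by
        have h3 := (gP_posSemidef V x).dotProduct_mulVec_nonneg (fun j => conj (v j))
        have h4 := (Complex.le_def.1 h3).1
        have h5 : star (fun j => conj (v j)) ⬝ᵥ (gP V x *ᵥ fun j => conj (v j)) =
            ∑ j, ∑ k, gP V x j k * v j * conj (v k) := by
          simp only [dotProduct, Matrix.mulVec, Finset.mul_sum, Pi.star_apply, RCLike.star_def,
            Complex.conj_conj]
          refine Finset.sum_congr rfl fun j _ => Finset.sum_congr rfl fun k _ => ?_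
          ring
        rw [h5] at h4
        exact h4
      have h3 : (∑ j, ∑ k, gP V x j k * v j * conj (v k)).re ≤
          k * (c * (∑ j, ∑ k, gP V x j k * v j * conj (v k)).re) := by
        rw [← mul_assoc]
        exact le_mul_of_one_le_left h2 hkc
      exact h3.trans (mul_le_mul_of_nonneg_left h1 (by positivity)))
    (fun x i j => by
      rw [Matrix.of_apply, H.f1]
      split_ifs
      · exact map_one x
      · exact map_zero x)
    (fun x _ => by
      ext i k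
      rw [Matrix.mul_apply, Matrix.zero_apply]
      exact H.f0 x i k)
  rw [hset, Measure.restrict_univ] at key
  exact key

end mass

variable (e) in
/-- the slice coordinates which are invariants -/
def AA (i₀ : α) : Finset (Fin n) :=
  Finset.univ.filter fun k => (e ((e.symm (Sum.inl i₀)).succAbove k)).isLeft = true

theorem mem_AA {i₀ : α} {k : Fin n} :
    k ∈ AA e i₀ ↔ ∃ i, i ≠ i₀ ∧ (e.symm (Sum.inl i₀)).succAbove k = e.symm (Sum.inl i) := by
  rw [AA, Finset.mem_filter, Sum.isLeft_iff]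
  constructor
  · rintro ⟨-, i, hi⟩
    have h1 : (e.symm (Sum.inl i₀)).succAbove k = e.symm (Sum.inl i) := by
      rw [← hi, e.symm_apply_apply]
    refine ⟨i, ?_, h1⟩
    rintro rfl
    exact Fin.succAbove_ne _ _ h1
  · rintro ⟨i, -, hi⟩
    exact ⟨Finset.mem_univ _, i, by rw [hi, e.apply_symm_apply]⟩

theorem notMem_AA {i₀ : α} {k : Fin n} :
    k ∉ AA e i₀ ↔ ∃ b, (e.symm (Sum.inl i₀)).succAbove k = e.symm (Sum.inr b) := by
  rw [AA, Finset.mem_filter]
  constructor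
  · intro h
    rcases h1 : e ((e.symm (Sum.inl i₀)).succAbove k) with i | b
    · exact absurd ⟨Finset.mem_univ _, by rw [h1]; rfl⟩ h
    · exact ⟨b, by rw [← h1, e.symm_apply_apply]⟩
  · rintro ⟨b, hb⟩ ⟨-, h⟩
    rw [hb, e.apply_symm_apply] at h
    simp at h

/-- the complement of the invariants is `β` -/
theorem exists_EE (i₀ : α) : ∃ E : Cm (AA e i₀) ≃ β,
    ∀ k, e.symm (Sum.inr (E k)) = (e.symm (Sum.inl i₀)).succAbove k.1 := by
  classical
  choose g hg using fun k : Cm (AA e i₀) => notMem_AA.1 k.2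
  have hb : Function.Bijective g := by
    constructor
    · intro k k' h
      have h1 := hg k
      rw [h, ← hg k'] at h1
      exact Subtype.ext (Fin.succAbove_right_injective h1)
    · intro b
      obtain ⟨k, hk⟩ := Fin.exists_succAbove_eq (x := e.symm (Sum.inr b))
        (y := e.symm (Sum.inl i₀)) (by rw [Ne, e.symm.injective.eq_iff]; simp)
      refine ⟨⟨k, notMem_AA.2 ⟨b, hk⟩⟩, ?_⟩
      have h1 := hk.symm.trans (hg ⟨k, notMem_AA.2 ⟨b, hk⟩⟩)
      exact (Sum.inr_injective (e.symm.injective h1)).symm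
  exact ⟨Equiv.ofBijective g hb, fun k => (hg k).symm⟩

theorem prod_AA (i₀ : α) (F : Fin (n + 1) → ℝ) :
    ∏ k ∈ AA e i₀, F ((e.symm (Sum.inl i₀)).succAbove k) =
      ∏ i ∈ Finset.univ.erase i₀, F (e.symm (Sum.inl i)) := by
  classical
  have h1 : ∏ k ∈ AA e i₀, F ((e.symm (Sum.inl i₀)).succAbove k) =
      ∏ j ∈ (AA e i₀).map (e.symm (Sum.inl i₀)).succAboveEmb, F j := by
    rw [Finset.prod_map]; rfl
  have h2 : ∏ i ∈ Finset.univ.erase i₀, F (e.symm (Sum.inl i)) =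
      ∏ j ∈ (Finset.univ.erase i₀).map ⟨fun i => e.symm (Sum.inl i),
        e.symm.injective.comp Sum.inl_injective⟩, F j := by
    rw [Finset.prod_map]; rfl
  rw [h1, h2]
  congr 1
  ext j
  simp only [Finset.mem_map, Finset.mem_erase, Finset.mem_univ, and_true,
    Function.Embedding.coeFn_mk]
  constructor
  · rintro ⟨k, hk, rfl⟩
    obtain ⟨i, hi, hi'⟩ := mem_AA.1 hk
    exact ⟨i, hi, hi'.symm⟩
  · rintro ⟨i, hi, rfl⟩
    obtain ⟨k, hk⟩ := Fin.exists_succAbove_eq (x := e.symm (Sum.inl i))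
      (y := e.symm (Sum.inl i₀)) (by
        rw [Ne, e.symm.injective.eq_iff, Sum.inl_injective.eq_iff]; exact hi)
    exact ⟨k, mem_AA.2 ⟨i, hi, hk⟩, hk⟩

theorem det_AA (i₀ : α) (x : M.B →ₐ[ℂ] ℂ) :
    (sub (AA e i₀) (gS V (e.symm (Sum.inl i₀)) x)).det.re = dd M V e x := by
  obtain ⟨E, hE⟩ := exists_EE (e := e) i₀
  have h1 : sub (AA e i₀) (gS V (e.symm (Sum.inl i₀)) x) =
      ((gP V x).submatrix (e.symm ∘ Sum.inr) (e.symm ∘ Sum.inr)).submatrix E E := by
    ext j k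
    show gP V x _ _ = gP V x _ _
    simp only [Function.comp_apply]
    rw [hE, hE]
  rw [h1, Matrix.det_submatrix_equiv_self]
  rfl

theorem wS_AA (i₀ : α) (x : M.B →ₐ[ℂ] ℂ) : wS V (e.symm (Sum.inl i₀)) (AA e i₀) x =
    (∏ i ∈ Finset.univ.erase i₀, ((1 + ‖cp x (e.symm (Sum.inl i))‖ ^ 2)⁻¹) ^ 2) *
      dd M V e x := by
  unfold wS
  rw [det_AA, prod_AA i₀ (fun j => ((1 + ‖cp x j‖ ^ 2) ^ 2)⁻¹), mul_comm]
  congr 1
  exact Finset.prod_congr rfl fun i _ => by rw [inv_pow]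

theorem countable_GL (N : ℕ) : Countable (GL (Fin N) ℤ) := by
  have h1 : Countable (Matrix (Fin N) (Fin N) ℤ) := by
    unfold Matrix
    infer_instance
  exact (Units.val_injective (α := Matrix (Fin N) (Fin N) ℤ)).countable

section main

open Crest.Agent.R276.InvV_450 Crest.Agent.R276.LsDefs_450 Crest.Agent.R276.Coa2_375
open Crest.Agent.R276.PfDer_676 Crest.Agent.R276.Der_409

/-- the invariance of the weight for the instance of 450 -/
theorem hw_inst {X : (M.B →ₐ[ℂ] ℂ) → Fin (n + 1) → ℂ} (i₀ : Fin (n + 1)) (A : Finset (Fin n))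
    (hX1 : ∀ x, X x i₀ = 1) (hXA : ∀ x, ∀ i ∈ A, X x (i₀.succAbove i) = 0)
    (hXh : ∀ j, Crest.Agent.R271.Ho51.Hol (fun y => X y j))
    (hXg : ∀ x k, ∑ j, X x j * gP V x j k = 0) :
    ∀ x y γ, (mkInv V i₀ A X hX1 hXA hXh hXg).e y =
      (mkInv V i₀ A X hX1 hXA hXh hXg).ρ γ ((mkInv V i₀ A X hX1 hXA hXh hXg).e x) →
      ∀ L : (Fin n → ℂ) →L[ℝ] (Fin n → ℂ),
      (∀ v, D ((mkInv V i₀ A X hX1 hXA hXh hXg).F y) y (ins i₀ (0, L v)) =
        (mkInv V i₀ A X hX1 hXA hXh hXg).ρ γ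
          (D ((mkInv V i₀ A X hX1 hXA hXh hXg).F x) x (ins i₀ (0, v)))) →
        ENNReal.ofReal (wS V i₀ A x) = ENNReal.ofReal |L.det| * ENNReal.ofReal (wS V i₀ A y) := by
  intro x y γ h L hL
  have h1 : vt (ev V y) (fun i : A => cp y (i₀.succAbove i.1)) =
      vt (act γ (ev V x)) (fun i : A => cp x (i₀.succAbove i.1)) := h
  have hcp : ∀ i ∈ A, (cp y : Fin (n + 1) → ℂ) (i₀.succAbove i) =
      (cp x : Fin (n + 1) → ℂ) (i₀.succAbove i) := fun i hi =>
    congrFun (vt_inj h1).2 ⟨i, hi⟩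
  have h2 : ∀ v, (fun i k => TE V y (i₀.insertNth 0 (L v)) i k, fun _ _ => 0,
      fun i : A => (i₀.insertNth 0 (L v) : Fin (n + 1) → ℂ) (i₀.succAbove i.1)) =
      rho γ ((fun i k => TE V x (i₀.insertNth 0 v) i k, fun _ _ => 0,
        fun i : A => (i₀.insertNth 0 v : Fin (n + 1) → ℂ) (i₀.succAbove i.1)) : Vt N A) := by
    intro v
    have h3 := hL v
    rw [ins_apply, ins_apply] at h3
    have h4 : D ((mkInv V i₀ A X hX1 hXA hXh hXg).F y) y (i₀.insertNth 0 (L v)) = _ :=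
      D_FI V i₀ A y _
    have h5 : D ((mkInv V i₀ A X hX1 hXA hXh hXg).F x) x (i₀.insertNth 0 v) = _ :=
      D_FI V i₀ A x _
    simp only at h3
    rw [h4, h5] at h3
    exact h3
  have hT : ∀ v, TE V y (i₀.insertNth 0 (L v)) =
      Ipc735.cm γ * TE V x (i₀.insertNth 0 v) * Ipc735.cm γ⁻¹ := by
    intro v
    have h3 := congrArg (fun q : Vt N A => Matrix.of q.1) (h2 v)
    simp only [rho_fst] at h3
    exact h3
  have hLA : ∀ v, ∀ i ∈ A, L v i = v i := by
    intro v i hi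
    have h3 := congrFun (congrArg (fun q : Vt N A => q.2.2) (h2 v)) ⟨i, hi⟩
    simp only [rho_snd, Fin.insertNth_apply_succAbove] at h3
    exact h3
  rw [← ENNReal.ofReal_mul (abs_nonneg _), inv_pt γ hcp L hT hLA]

theorem trdeg_slope (H : Slopes M V e f) (i₀ : α) :
    Algebra.trdeg (Kc (Df M (fun j => (f i₀ j : K)))) K ≤ 1 := by
  obtain ⟨μ, hμ⟩ := M.exists_leb
  have hc := countable_GL N
  set i' : Fin (n + 1) := e.symm (Sum.inl i₀) with hi'
  set X : (M.B →ₐ[ℂ] ℂ) → Fin (n + 1) → ℂ := fun x j => x (f i₀ j) with hX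
  have hX1 : ∀ x, X x i' = 1 := fun x => by
    show x (f i₀ (e.symm (Sum.inl i₀))) = 1
    rw [H.f1, if_pos rfl, map_one]
  have hXA : ∀ x, ∀ i ∈ AA e i₀, X x (i'.succAbove i) = 0 := fun x k hk => by
    obtain ⟨i, hi, hk'⟩ := mem_AA.1 hk
    show x (f i₀ (i'.succAbove k)) = 0
    rw [hi', hk', H.f1, if_neg (Ne.symm hi), map_zero]
  have hXh : ∀ j, Crest.Agent.R271.Ho51.Hol (fun y => X y j) := fun j => M.hol51_ev _
  have hXg : ∀ x k, ∑ j, X x j * gP V x j k = 0 := fun x k => H.f0 x i₀ k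
  refine Pf1_409.trdeg_le_one M (mkInv V i' (AA e i₀) X hX1 hXA hXh hXg) hμ
    (fun x => ENNReal.ofReal (wS V i' (AA e i₀) x))
    (sm_wS V i' (AA e i₀)).continuous.measurable.ennreal_ofReal
    (hw_inst i' (AA e i₀) hX1 hXA hXh hXg) ?_ ?_ ?_ (DfB M (f i₀)) (fun b y => ?_) _
    (fun b => Df_coe M (f i₀) b)
  · have h1 := (mass_slope H hμ i₀).ne
    refine ne_of_eq_of_ne (lintegral_congr fun x => ?_) h1
    rw [wS_AA, ← ENNReal.ofReal_mul]
    · rw [mul_assoc, Levi_lg]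
      rfl
    · exact Levi_lg_nonneg x _
  · refine Eventually.of_forall fun x => ?_
    rw [mem_Mst_iff, imm_iff, det_AA]
    exact H.pos x
  · refine Eventually.of_forall fun x => ?_
    have : 0 < wS V i' (AA e i₀) x := by
      rw [wS_pos_iff, det_AA]
      exact H.pos x
    simpa using this
  · exact D_ev_field M (f i₀) b y

end main

end data

end Crest.Agent.R276.Pf2_409
end
end

-- ▼ part R276/PfDer2_676

/-!
Row 276 (S0419), PF-DER part 2 (helper676).

* `iteratedDeriv_loc` : on a Riemann surface `A` over `ℂ`, if `dz 0 (F k) = F (k+1)` then the iterated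
  derivatives of `F 0` are the values `F k p`;
* `jets_leaf` : on a leaf, `iteratedDeriv k (loc (ev b) p) (cp p 0) = p ((DfB M f)^[k] b)`;
* `bracket_tan` : the bracket of two fields annihilated by `D F` is annihilated by `D F`;
* `comm_of_ker` : a frame of algebraic fields whose pointwise span is an involutive kernel commutes.
-/

set_option autoImplicit false

open Topology Filter Set

noncomputable section

namespace Crest.Agent.R276.PfDer_676

open Crest.Agent.R271.Defs710 Crest.Agent.R271.Rd692 Crest.Agent.R271.Ho51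
open Crest.Agent.R271
open Crest.Agent.R276.Mod1_987 Crest.Agent.R276.Cur_409
open Crest.Agent.R276.Ipc735 (SmAt)

/-! ### jets on a Riemann surface -/

section jets

variable {A : Type*} [TopologicalSpace A] [RDom 1 A]




end jets

/-! ### jets on a leaf -/

section leaf

variable {K : Type} [Field K] [Algebra ℂ K] {m : ℕ} (M : Mdl K m)


end leaf

/-! ### brackets of fields annihilated by `D F` -/

section bracket

variable {m : ℕ} {X : Type*} [TopologicalSpace X] [RDom m X] {V : Type*} [NormedAddCommGroup V]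
  [NormedSpace ℝ V]

/-- `D F` annihilates the bracket -/
theorem bracket_tan {F : X → V} {y : X} (hF : SmAt F y) {U W : X → Fin m → ℂ}
    (hU : SmAt U y) (hW : SmAt W y) (hUt : ∀ᶠ z in 𝓝 y, D F z (U z) = 0)
    (hWt : ∀ᶠ z in 𝓝 y, D F z (W z) = 0) :
    D F y (D W y (U y) - D U y (W y)) = 0 := by
  set G : (Fin m → ℂ) → V := F ∘ (ch y).symm with hG
  set u : (Fin m → ℂ) → Fin m → ℂ := U ∘ (ch y).symm with hu
  set v : (Fin m → ℂ) → Fin m → ℂ := W ∘ (ch y).symm with hv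
  have hF' : ContDiffAt ℝ (⊤ : ℕ∞) G (cp y) := hF
  have hsymm : Tendsto (ch y).symm (𝓝 (cp y)) (𝓝 y) := by
    have := (ch y).symm.continuousAt (x := cp y) (by simpa using (isCh_ch y).cp_mem (mem_ch y))
    rwa [ContinuousAt, (isCh_ch y).symm_cp (mem_ch y)] at this
  have htgt : ∀ᶠ w in 𝓝 (cp y), w ∈ (ch y).target :=
    (ch y).open_target.mem_nhds ((isCh_ch y).cp_mem (mem_ch y))
  have key : ∀ {u' : (Fin m → ℂ) → Fin m → ℂ} {U' : X → Fin m → ℂ}, u' = U' ∘ (ch y).symm →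
      SmAt U' y → (∀ᶠ z in 𝓝 y, D F z (U' z) = 0) → ∀ w' : Fin m → ℂ,
      fderiv ℝ (fderiv ℝ G) (cp y) w' (u' (cp y)) + fderiv ℝ G (cp y) (fderiv ℝ u' (cp y) w') = 0 := by
    intro u' U' hu' hU' hUt' w'
    have h1 : (fun w => fderiv ℝ G w (u' w)) =ᶠ[𝓝 (cp y)] fun _ => 0 := by
      filter_upwards [hsymm.eventually hUt', htgt] with w h1 h2
      rw [D_symm (isCh_ch y) h2] at h1
      rw [hu']
      exact h1
    have h2 : DifferentiableAt ℝ (fderiv ℝ G) (cp y) :=
      (hF'.fderiv_right (m := 1) one_add_one_le_top').differentiableAt (by simp)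
    have h3 : DifferentiableAt ℝ u' (cp y) := by
      rw [hu']
      exact ContDiffAt.differentiableAt hU' (by simp)
    have h4 := h1.fderiv_eq (𝕜 := ℝ)
    rw [fderiv_clm_apply h2 h3] at h4
    rw [fderiv_const_apply] at h4
    have h5 := congrArg (fun L : (Fin m → ℂ) →L[ℝ] V => L w') h4
    simp only [_root_.add_apply, ContinuousLinearMap.comp_apply, ContinuousLinearMap.flip_apply,
      _root_.zero_apply] at h5
    rw [add_comm]
    exact h5
  have h1 := key hu hU hUt (W y)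
  have h2 := key hv hW hWt (U y)
  have h3 := (hF'.isSymmSndFDerivAt (by
    simp only [minSmoothness_of_isRCLikeNormedField]
    exact two_le_top')) (W y) (U y)
  have hu0 : u (cp y) = U y := by simp [hu, symm_cp]
  have hv0 : v (cp y) = W y := by simp [hv, symm_cp]
  rw [hu0] at h1
  rw [hv0] at h2
  have h3' : fderiv ℝ (fderiv ℝ G) (cp y) (W y) (U y) = fderiv ℝ (fderiv ℝ G) (cp y) (U y) (W y) := h3
  change fderiv ℝ G (cp y) (fderiv ℝ v (cp y) (U y) - fderiv ℝ u (cp y) (W y)) = 0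
  rw [(fderiv ℝ G (cp y)).map_sub]
  rw [h3'] at h1
  have h4 : fderiv ℝ G (cp y) (fderiv ℝ v (cp y) (U y)) =
      - fderiv ℝ (fderiv ℝ G) (cp y) (U y) (W y) := by
    rw [eq_neg_iff_add_eq_zero, add_comm]; exact h2
  have h5 : fderiv ℝ G (cp y) (fderiv ℝ u (cp y) (W y)) =
      - fderiv ℝ (fderiv ℝ G) (cp y) (U y) (W y) := by
    rw [eq_neg_iff_add_eq_zero, add_comm]; exact h1
  rw [h4, h5, sub_self]

end bracket

/-! ### algebraic frames of an involutive kernel -/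

section comm

variable {K : Type} [Field K] [Algebra ℂ K] {m : ℕ} (M : Mdl K m)

/-- the components of the bracket of `D_f` and `D_g` -/
def brB (f g : Fin m → M.B) (j : Fin m) : M.B := DfB M f (g j) - DfB M g (f j)

lemma brB_coe (f g : Fin m → M.B) (j : Fin m) :
    ((brB M f g j : M.B) : K) =
      Df M (fun j => (f j : K)) (g j) - Df M (fun j => (g j : K)) (f j) := by
  unfold brB
  rw [Df_coe, Df_coe]
  rfl

theorem lie_Df_coe (f g : Fin m → M.B) :
    ⁅Df M (fun j => (f j : K)), Df M (fun j => (g j : K))⁆ = Df M (fun j => (brB M f g j : K)) := by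
  rw [lie_Df]
  congr 1
  funext j
  rw [brB_coe]

/-- the vector field `(y (f_j))_j` is smooth -/
lemma smAt_field (f : Fin m → M.B) (y : M.Pts) : SmAt (fun x : M.Pts => fun j => x (f j)) y := by
  unfold SmAt
  rw [contDiffAt_pi]
  intro j
  exact (M.hol792_ev (f j)).sm y

/-- derivative of the vector field -/
lemma D_field (f : Fin m → M.B) (y : M.Pts) (w : Fin m → ℂ) (j : Fin m) :
    D (fun x : M.Pts => fun j => x (f j)) y w j = ∑ l, w l * y (dB M l (f j)) := by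
  rw [← D_ev]
  unfold D
  have h1 : DifferentiableAt ℝ ((fun x : M.Pts => fun j => x (f j)) ∘ (ch y).symm) (cp y) :=
    ContDiffAt.differentiableAt (smAt_field M f y) (by simp)
  have h2 := fderiv_pi (𝕜 := ℝ) (φ := fun j => (fun x : M.Pts => x (f j)) ∘ (ch y).symm)
    (x := cp y) (fun j => (M.hol792_ev (f j)).sm.differentiableAt y)
  have h3 : ((fun x : M.Pts => fun j => x (f j)) ∘ (ch y).symm) =
      fun w j => ((fun x : M.Pts => x (f j)) ∘ (ch y).symm) w := rfl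
  rw [h3, h2]
  rfl

/-- the bracket of the algebraic fields is the bracket of the analytic fields -/
theorem bracket_field (f g : Fin m → M.B) (y : M.Pts) :
    D (fun x : M.Pts => fun j => x (g j)) y (fun j => y (f j)) -
      D (fun x : M.Pts => fun j => x (f j)) y (fun j => y (g j)) = fun j => y (brB M f g j) := by
  funext j
  rw [Pi.sub_apply, D_field, D_field]
  unfold brB
  rw [map_sub, DfB_apply, DfB_apply, map_sum, map_sum]
  simp only [map_mul]

variable {V : Type*} [NormedAddCommGroup V] [NormedSpace ℝ V]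

/-- fields annihilated by `D F` near `y`: the algebraic bracket is annihilated at `y` -/
theorem D_bracket_eq_zero {F : M.Pts → V} {y : M.Pts} (hF : SmAt F y) (f g : Fin m → M.B)
    (hf : ∀ᶠ z in 𝓝 y, D F z (fun j => z (f j)) = 0)
    (hg : ∀ᶠ z in 𝓝 y, D F z (fun j => z (g j)) = 0) :
    D F y (fun j => y (brB M f g j)) = 0 := by
  rw [← bracket_field]
  exact bracket_tan hF (smAt_field M f y) (smAt_field M g y) hf hg

lemma DfB_smul (c : ℂ) (f : Fin m → M.B) (b : M.B) : DfB M (c • f) b = c • DfB M f b := by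
  rw [DfB_apply, DfB_apply, Finset.smul_sum]
  refine Finset.sum_congr rfl fun j _ => ?_
  rw [Pi.smul_apply, smul_mul_assoc]

lemma brB_smul (c : ℂ) (f g : Fin m → M.B) (j : Fin m) :
    brB M f (c • g) j = c • brB M f g j := by
  unfold brB
  rw [DfB_smul, Pi.smul_apply, Derivation.map_smul, smul_sub]

/-- the same with all complex multiples -/
theorem D_smul_bracket_eq_zero {F : M.Pts → V} {y : M.Pts} (hF : SmAt F y) (f g : Fin m → M.B)
    (hf : ∀ᶠ z in 𝓝 y, D F z (fun j => z (f j)) = 0)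
    (hg : ∀ c : ℂ, ∀ᶠ z in 𝓝 y, D F z (c • fun j => z (g j)) = 0) (c : ℂ) :
    D F y (c • fun j => y (brB M f g j)) = 0 := by
  have h1 := D_bracket_eq_zero M hF f (c • g) hf (by
    filter_upwards [hg c] with z hz
    have h2 : (fun j => z ((c • g) j)) = c • fun j => z (g j) := by
      funext j
      rw [Pi.smul_apply, Pi.smul_apply, map_smul]
    rw [h2]
    exact hz)
  have h2 : (fun j => y (brB M f (c • g) j)) = c • fun j => y (brB M f g j) := by
    funext j
    rw [brB_smul, Pi.smul_apply, map_smul]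
  rw [h2] at h1
  exact h1

/-- **commuting frames of an involutive kernel** -/
theorem comm_of_ker {a : Type*} [DecidableEq a] (i₀ : a → Fin m) (f : a → Fin m → M.B)
    (hδ : ∀ i l, f i (i₀ l) = if i = l then 1 else 0)
    (ker : M.Pts → (Fin m → ℂ) → Prop)
    (hker : ∀ x v, ker x v → (∀ l, v (i₀ l) = 0) → v = 0)
    (hbr : ∀ x i k, ker x (fun j => x (brB M (f i) (f k) j))) (i k : a) :
    ⁅Df M (fun j => (f i j : K)), Df M (fun j => (f k j : K))⁆ = 0 := by
  rw [lie_Df_coe, Df_zero_iff]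
  have h1 : ∀ (D : Derivation ℂ M.B M.B) (p : Prop) [Decidable p],
      D (if p then 1 else 0) = 0 := by
    intro D p _
    split_ifs
    · exact D.map_one_eq_zero
    · exact map_zero D
  have h0 : ∀ l, brB M (f i) (f k) (i₀ l) = 0 := by
    intro l
    unfold brB
    rw [hδ, hδ, h1, h1, sub_zero]
  funext j
  have h2 : brB M (f i) (f k) j = 0 := by
    apply M.ext_of_pts
    intro x
    have h3 := hker x _ (hbr x i k) (fun l => by rw [h0, map_zero])
    rw [congrFun h3 j, map_zero]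
    rfl
  rw [h2]
  rfl

end comm

end Crest.Agent.R276.PfDer_676
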