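import Mathlib
import Crest.Agent.R276.BC4_986
import Crest.Agent.R276.BR2_590
import Crest.Agent.R276.DivVal11_858
import Crest.Agent.R276.BR4_590
import Crest.Agent.R276.BR5_590
import Crest.Agent.R276.SkelDefs_220
import Crest.Agent.R276.TChK_858

-- ▼ part R276/BR6_590
section

/-!
Row 276, leaf BC-REL (helper590), part 6: analytic order = algebraic order.

`dens`            : a function of the model which vanishes on the divisor near one point is
                    divisible by `t`;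
`hasOrd_of_ord`   : if `f = τ^k · (zero free)` on an analytic boundary chart then `f` has order `k`.
-/

set_option autoImplicit false

open scoped Topology BigOperators
open Set Metric Filter MvPolynomial

noncomputable section

namespace Crest.Agent.R276.BR_590

open Crest.Agent.R271.Defs710 Crest.Agent.R271.Bd741 Crest.Agent.R276.BC_986
open Crest.Agent.R276.FKDefs_779 Crest.Agent.R276.DivVal_858

variable {n : ℕ} {K : Type} [Field K] [Algebra ℂ K]

/-- **density**: `u = 0` on the divisor near one point implies `t ∣ u` -/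
theorem dens {D : DivModel n K} {R : ValuationSubring K} (hD : D.ModelOf R)
    (htr : Algebra.trdeg ℂ K = n) {y : D.A →ₐ[ℂ] ℂ} (C : Chart D.w y) (hy : y D.t = 0) {ρ : ℝ}
    (hρ : 0 < ρ) (hρC : ρ ≤ C.r) (u : D.A)
    (h : ∀ ζ ∈ ball (0 : Cn n) ρ, ζ D.i₀ = 0 → C.s ζ u = 0) : D.t ∣ u := by
  classical
  by_contra hu
  set i₀ := D.i₀ with hi₀
  let x : Fin n → D.A := fun i => if i = i₀ then u else D.w i
  have hcR : ∀ c : ℂ, algebraMap ℂ K c ∈ R := by
    intro c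
    rw [IsScalarTower.algebraMap_apply ℂ D.A K]
    exact hD.mem _
  have hne : R ≠ ⊤ := by
    rintro rfl
    have h1 := hD.lt
    have h2 : (⊤ : ValuationSubring K).valuation (algebraMap D.A K D.t) = 1 := by
      have h3 := (⊤ : ValuationSubring K).valuation_le_one ⟨algebraMap D.A K D.t, trivial⟩
      have h4 := (⊤ : ValuationSubring K).valuation_le_one ⟨(algebraMap D.A K D.t)⁻¹, trivial⟩
      refine le_antisymm h3 ?_
      simp only [map_inv₀] at h4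
      have h5 := hD.pos
      exact (inv_le_one₀ h5).1 h4
    rw [h2] at h1
    exact lt_irrefl _ h1
  -- a polynomial relation modulo `t`
  have hnot : ¬ ResInd ℂ R (fun i => algebraMap D.A K (x i)) := by
    intro hres
    have := ResInd.succ_le htr hcR hne hres
    omega
  have haev : ∀ P : MvPolynomial (Fin n) ℂ,
      aeval (fun i => algebraMap D.A K (x i)) P = algebraMap D.A K (aeval x P) := by
    intro P
    exact (comp_aeval_apply (f := x) (IsScalarTower.toAlgHom ℂ D.A K) P).symm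
  obtain ⟨P, hP0, hP⟩ : ∃ P : MvPolynomial (Fin n) ℂ, P ≠ 0 ∧ D.t ∣ aeval x P := by
    by_contra hcon
    push Not at hcon
    refine hnot ⟨fun i => hD.mem _, fun P hP => ?_⟩
    rw [haev]
    exact hD.unit _ (hcon P hP)
  -- remove the factors `X i₀`
  have hfin : FiniteMultiplicity (X i₀ : MvPolynomial (Fin n) ℂ) P :=
    FiniteMultiplicity.of_prime_left (X_prime (i := i₀)) hP0
  obtain ⟨k, Q, hQ, hPQ⟩ : ∃ (k : ℕ) (Q : MvPolynomial (Fin n) ℂ), ¬ X i₀ ∣ Q ∧ P = X i₀ ^ k * Q := by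
    obtain ⟨Q, h1, h2⟩ := hfin.exists_eq_pow_mul_and_not_dvd
    exact ⟨_, Q, h2, h1⟩
  have hQt : D.t ∣ aeval x Q := by
    rw [hPQ, map_mul, map_pow, aeval_X] at hP
    have hx : x i₀ = u := by simp [x]
    rw [hx] at hP
    rcases D.t_prime.dvd_or_dvd hP with h1 | h1
    · exact absurd (D.t_prime.dvd_of_dvd_pow h1) hu
    · exact h1
  obtain ⟨q, hq⟩ := hQt
  -- the polynomial `Q₀ = Q|_{X i₀ = 0}`
  let σ : Fin n → MvPolynomial (Fin n) ℂ := fun i => if i = i₀ then 0 else X i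
  have hσ : ∀ Q : MvPolynomial (Fin n) ℂ, (X i₀ : MvPolynomial (Fin n) ℂ) ∣ Q - aeval σ Q := by
    intro Q
    induction Q using MvPolynomial.induction_on with
    | C a => rw [aeval_C]; simp [MvPolynomial.algebraMap_eq]
    | add p q h1 h2 =>
      rw [map_add]
      have : p + q - (aeval σ p + aeval σ q) = (p - aeval σ p) + (q - aeval σ q) := by ring
      rw [this]
      exact dvd_add h1 h2
    | mul_X p i h1 =>
      rw [map_mul, aeval_X]
      by_cases hi : i = i₀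
      · subst hi
        simp only [σ, if_true, mul_zero, sub_zero]
        exact dvd_mul_left _ _
      · simp only [σ, if_neg hi]
        rw [← sub_mul]
        exact h1.mul_right _
  have hQ₀ : aeval σ Q = 0 := by
    have hinf : ∀ i : Fin n, (ball (y (D.w i)) ρ).Infinite := fun i =>
      infinite_of_mem_nhds (y (D.w i)) (ball_mem_nhds _ hρ)
    apply funext_set (fun i => ball (y (D.w i)) ρ) hinf
    intro v hv
    rw [map_zero]
    -- the point of the chart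
    let ζ : Cn n := fun i => if i = i₀ then 0 else v i - y (D.w i)
    have hζ : ζ ∈ ball (0 : Cn n) ρ := by
      rw [mem_ball_zero_iff, pi_norm_lt_iff hρ]
      intro i
      by_cases hi : i = i₀
      · simp [ζ, hi, hρ]
      · simp only [ζ, if_neg hi]
        have := hv i (mem_univ _)
        rwa [mem_ball, dist_eq_norm] at this
    have hζ0 : ζ D.i₀ = 0 := by simp [ζ, hi₀]
    have h1 := h ζ hζ hζ0
    have hζC : ζ ∈ ball (0 : Cn n) C.r := ball_subset_ball hρC hζ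
    have h2 : C.s ζ (aeval x Q) = 0 := by
      rw [hq, map_mul]
      have h3 := C.s_z ζ hζC D.i₀
      have h4 : y (D.w D.i₀) = 0 := hy
      have h5 : C.s ζ D.t = 0 := by
        change C.s ζ (D.w D.i₀) = 0
        rw [h3, h4, hζ0, add_zero]
      rw [h5, zero_mul]
    have h3 : C.s ζ (aeval x Q) = eval (fun i => if i = i₀ then 0 else v i) Q := by
      rw [comp_aeval_apply]
      have e1 : (fun i => C.s ζ (x i)) = fun i => if i = i₀ then 0 else v i := by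
        funext i
        by_cases hi : i = i₀
        · simp only [x, if_pos hi]; exact h1
        · simp only [x, if_neg hi]
          rw [C.s_z ζ hζC i]
          simp [ζ, hi]
      rw [e1]
      rfl
    rw [h3] at h2
    have h4 : eval v (aeval σ Q) = eval (fun i => if i = i₀ then 0 else v i) Q := by
      have h5 : aeval v (aeval σ Q) = aeval (fun i => aeval v (σ i)) Q :=
        comp_aeval_apply (f := σ) (aeval v) Q
      have e1 : (fun i => aeval v (σ i)) = fun i => if i = i₀ then (0 : ℂ) else v i := by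
        funext i
        by_cases hi : i = i₀
        · simp [σ, hi]
        · simp [σ, hi]
      rw [e1] at h5
      exact h5
    rw [h4]
    exact h2
  apply hQ
  have := hσ Q
  rwa [hQ₀, sub_zero] at this

lemma zpow_lt_false {A B : ℂ → ℂ} {k a : ℤ} (hA : ContinuousAt A 0) (hB : ContinuousAt B 0)
    (hA0 : A 0 ≠ 0) (h : ∀ᶠ ε in 𝓝[≠] (0 : ℂ), ε ^ k * A ε = ε ^ a * B ε) (hlt : k < a) :
    False := by
  obtain ⟨m, hm⟩ := Int.eq_ofNat_of_zero_le (sub_nonneg.2 hlt.le)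
  have hm0 : m ≠ 0 := by rintro rfl; simp at hm; omega
  have h1 : ∀ᶠ ε in 𝓝[≠] (0 : ℂ), A ε = ε ^ m * B ε := by
    filter_upwards [h, self_mem_nhdsWithin] with ε hε hε0
    have hε0' : ε ≠ 0 := hε0
    have e1 : a = k + m := by omega
    rw [e1, zpow_add₀ hε0', zpow_natCast, mul_assoc] at hε
    exact mul_left_cancel₀ (zpow_ne_zero _ hε0') hε
  have h2 : Tendsto A (𝓝[≠] (0 : ℂ)) (𝓝 (A 0)) := hA.tendsto.mono_left nhdsWithin_le_nhds
  have h3 : Tendsto (fun ε : ℂ => ε ^ m * B ε) (𝓝[≠] (0 : ℂ)) (𝓝 (0 ^ m * B 0)) := by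
    have h4 : Tendsto (fun ε : ℂ => ε ^ m * B ε) (𝓝 (0 : ℂ)) (𝓝 (0 ^ m * B 0)) :=
      ((continuous_pow m).tendsto 0).mul hB.tendsto
    exact h4.mono_left nhdsWithin_le_nhds
  have h5 : Tendsto A (𝓝[≠] (0 : ℂ)) (𝓝 (0 ^ m * B 0)) := h3.congr' (h1.mono fun _ h => h.symm)
  have h6 := tendsto_nhds_unique h2 h5
  rw [zero_pow hm0, zero_mul] at h6
  exact hA0 h6

lemma zpow_eq {A B : ℂ → ℂ} {k a : ℤ} (hA : ContinuousAt A 0) (hB : ContinuousAt B 0)
    (hA0 : A 0 ≠ 0) (hB0 : B 0 ≠ 0)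
    (h : ∀ᶠ ε in 𝓝[≠] (0 : ℂ), ε ^ k * A ε = ε ^ a * B ε) : k = a := by
  rcases lt_trichotomy k a with h1 | h1 | h1
  · exact (zpow_lt_false hA hB hA0 h h1).elim
  · exact h1
  · exact (zpow_lt_false hB hA hB0 (h.mono fun _ h => h.symm) h1).elim

/-- value of an element of known order -/
lemma isVal_of_eq {D : DivModel n K} {s : D.A →ₐ[ℂ] ℂ} {f : K} {a : ℤ} {p q : D.A}
    (h : f * algebraMap D.A K q = algebraMap D.A K D.t ^ a * algebraMap D.A K p) (hq : s q ≠ 0)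
    (ht : s D.t ≠ 0) : IsVal s f (s D.t ^ a * s p / s q) := by
  have htK := D.tK_ne
  obtain ⟨N, hN | hN⟩ := Int.eq_nat_or_neg a
  · refine ⟨D.t ^ N * p, q, hq, ?_, ?_⟩
    · rw [h, hN, zpow_natCast, map_mul, map_pow]
    · rw [map_mul, map_pow, hN, zpow_natCast]
      field_simp
  · refine ⟨p, D.t ^ N * q, ?_, ?_, ?_⟩
    · rw [map_mul, map_pow]
      exact mul_ne_zero (pow_ne_zero _ ht) hq
    · rw [map_mul, map_pow]
      calc f * (algebraMap D.A K D.t ^ N * algebraMap D.A K q)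
          = algebraMap D.A K D.t ^ N * (f * algebraMap D.A K q) := by ring
        _ = algebraMap D.A K p := by
          rw [h, hN, zpow_neg, zpow_natCast]; field_simp
    · rw [map_mul, map_pow, hN, zpow_neg, zpow_natCast]
      field_simp

/-- **analytic order = algebraic order** -/
theorem hasOrd_of_ord {D : DivModel n K} {R : ValuationSubring K} (hD : D.ModelOf R)
    (htr : Algebra.trdeg ℂ K = n) {B : Type} [CommRing B] [Algebra ℂ B] [Algebra B K]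
    [IsFractionRing B K] (X : BChart D B) {G₀ : Cn n → ℂ} {e : ℕ} (T : Root D.i₀ X.r G₀ e)
    {δ : ℝ} (hδ : 0 < δ) (hδT : δ ≤ T.ρ) {f : K} {k : ℤ} {G : Cn n → ℂ}
    (hG : ContinuousOn G (ball 0 δ)) (hG0 : ∀ ξ ∈ ball (0 : Cn n) δ, G ξ ≠ 0)
    (h : ∀ ξ ∈ ball (0 : Cn n) δ, ξ D.i₀ ≠ 0 → ∀ b c : B,
      algebraMap B K b = f * algebraMap B K c →
        X.s (T.Ξ ξ) b = ξ D.i₀ ^ k * G ξ * X.s (T.Ξ ξ) c) : D.HasOrd f k := by
  classical
  have hf : f ≠ 0 := by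
    rintro rfl
    have h1 := h (Pi.single D.i₀ ((δ / 2 : ℝ) : ℂ)) (by
      rw [mem_ball_zero_iff, Pi.norm_single]
      simp only [Complex.norm_real, Real.norm_eq_abs]
      rw [abs_of_pos (by positivity)]
      linarith) (by
      rw [Pi.single_eq_same]
      simp [hδ.ne']) 0 1 (by simp)
    rw [map_zero, map_one, mul_one] at h1
    refine mul_ne_zero (zpow_ne_zero _ ?_) (hG0 _ ?_) h1.symm
    · rw [Pi.single_eq_same]
      simp [hδ.ne']
    · rw [mem_ball_zero_iff, Pi.norm_single]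
      simp only [Complex.norm_real, Real.norm_eq_abs]
      rw [abs_of_pos (by positivity)]
      linarith
  obtain ⟨a, ha⟩ := D.exists_hasOrd f hf
  obtain ⟨p, q, hp, hq, hpq⟩ := ha
  obtain ⟨b₁, c₁, hc₁, hbc⟩ := IsFractionRing.div_surjective (A := B) f
  have hc₁K : algebraMap B K c₁ ≠ 0 := by
    intro h0
    have h1 : algebraMap B K c₁ = algebraMap B K 0 := by rw [h0, map_zero]
    have h2 := IsFractionRing.injective B K h1
    rw [h2] at hbc
    rw [map_zero, div_zero] at hbc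
    exact hf hbc.symm
  have hbc' : algebraMap B K b₁ = f * algebraMap B K c₁ := by
    rw [← hbc, div_mul_cancel₀ _ hc₁K]
  obtain ⟨a₁, p₁, q₁, hp₁, hq₁, hpq₁⟩ := D.exists_hasOrd _ hc₁K
  have hprod : ¬ D.t ∣ p * q * (p₁ * q₁) :=
    D.not_dvd_mul (D.not_dvd_mul hp hq) (D.not_dvd_mul hp₁ hq₁)
  -- a good point of the divisor
  obtain ⟨ζ₀, hζ₀, hζ₀0, hne⟩ : ∃ ζ₀ ∈ ball (0 : Cn n) (min δ X.r), ζ₀ D.i₀ = 0 ∧
      X.C.s ζ₀ (p * q * (p₁ * q₁)) ≠ 0 := by
    by_contra hcon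
    push Not at hcon
    exact hprod (dens hD htr X.C X.y_t (lt_min hδ X.r_pos) ((min_le_right _ _).trans X.r_le) _ hcon)
  have hζ₀δ : ζ₀ ∈ ball (0 : Cn n) δ := ball_subset_ball (min_le_left _ _) hζ₀
  have hζ₀T : ζ₀ ∈ ball (0 : Cn n) T.ρ := ball_subset_ball hδT hζ₀δ
  have hfix : T.Ξ ζ₀ = ζ₀ := by
    funext i
    by_cases hi : i = D.i₀
    · subst hi
      have := T.eq ζ₀ hζ₀T
      rw [this, hζ₀0, zero_mul]
    · exact T.coord ζ₀ hζ₀T i hi
  -- the path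
  let γ : ℂ → Cn n := fun ε => Function.update ζ₀ D.i₀ ε
  have hγ0 : γ 0 = ζ₀ := by
    simp only [γ]
    rw [← hζ₀0, Function.update_eq_self]
  have hγc : Continuous γ := continuous_const.update D.i₀ continuous_id
  have hγi : ∀ ε, γ ε D.i₀ = ε := fun ε => by simp [γ]
  have hγδ : ∀ᶠ ε in 𝓝 (0 : ℂ), γ ε ∈ ball (0 : Cn n) δ := by
    have h1 : Tendsto γ (𝓝 0) (𝓝 ζ₀) := by
      have := hγc.tendsto 0
      rwa [hγ0] at this
    exact h1.eventually (isOpen_ball.mem_nhds hζ₀δ)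
  have hΞc : ContinuousAt (fun ε => T.Ξ (γ ε)) 0 := by
    refine ContinuousAt.comp (g := T.Ξ) (f := γ) ?_ hγc.continuousAt
    rw [hγ0]
    exact (T.an ζ₀ hζ₀T).continuousAt
  have hval : ∀ u : D.A, ContinuousAt (fun ε => X.C.s (T.Ξ (γ ε)) u) 0 := by
    intro u
    refine ContinuousAt.comp (g := fun ζ => X.C.s ζ u) (f := fun ε => T.Ξ (γ ε)) ?_ hΞc
    simp only [hγ0, hfix]
    have : ζ₀ ∈ ball (0 : Cn n) X.r := ball_subset_ball (min_le_right _ _) hζ₀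
    exact (X.analA u ζ₀ this).continuousAt
  have hval0 : ∀ u : D.A, X.C.s (T.Ξ (γ 0)) u = X.C.s ζ₀ u := fun u => by rw [hγ0, hfix]
  rw [map_mul, map_mul, map_mul] at hne
  have hp0 : X.C.s ζ₀ p ≠ 0 := left_ne_zero_of_mul (left_ne_zero_of_mul hne)
  have hq0 : X.C.s ζ₀ q ≠ 0 := right_ne_zero_of_mul (left_ne_zero_of_mul hne)
  have hp₁0 : X.C.s ζ₀ p₁ ≠ 0 := left_ne_zero_of_mul (right_ne_zero_of_mul hne)
  have hq₁0 : X.C.s ζ₀ q₁ ≠ 0 := right_ne_zero_of_mul (right_ne_zero_of_mul hne)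
  have hEc : ContinuousAt (fun ε => T.E (γ ε)) 0 := by
    refine ContinuousAt.comp (g := T.E) (f := γ) ?_ hγc.continuousAt
    rw [hγ0]
    exact (T.anE ζ₀ hζ₀T).continuousAt
  have hE0 : T.E (γ 0) ≠ 0 := by rw [hγ0]; exact T.ne ζ₀ hζ₀T
  have hGc : ContinuousAt (fun ε => G (γ ε)) 0 := by
    refine ContinuousAt.comp (g := G) (f := γ) ?_ hγc.continuousAt
    rw [hγ0]
    exact hG.continuousAt (isOpen_ball.mem_nhds hζ₀δ)
  have hka : k = a := by
   refine zpow_eq (A := fun ε => G (γ ε))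
    (B := fun ε => T.E (γ ε) ^ a * X.C.s (T.Ξ (γ ε)) p / X.C.s (T.Ξ (γ ε)) q) hGc ?_ ?_ ?_ ?_
   · refine ((hEc.zpow₀ a (Or.inl hE0)).mul (hval p)).div (hval q) ?_
     rw [hval0]; exact hq0
   · simp only [hγ0]
     exact hG0 _ hζ₀δ
   · simp only [hγ0, hfix]
     exact div_ne_zero (mul_ne_zero (zpow_ne_zero _ (T.ne ζ₀ hζ₀T)) hp0) hq0
   · have e1 : ∀ u : D.A, X.C.s ζ₀ u ≠ 0 → ∀ᶠ ε in 𝓝 (0 : ℂ), X.C.s (T.Ξ (γ ε)) u ≠ 0 := by
       intro u hu
       refine (hval u).eventually_ne ?_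
       rw [hval0]; exact hu
     have h1 : ∀ᶠ ε in 𝓝[≠] (0 : ℂ), γ ε ∈ ball (0 : Cn n) δ ∧ X.C.s (T.Ξ (γ ε)) p ≠ 0 ∧
         X.C.s (T.Ξ (γ ε)) q ≠ 0 ∧ X.C.s (T.Ξ (γ ε)) p₁ ≠ 0 ∧ X.C.s (T.Ξ (γ ε)) q₁ ≠ 0 :=
       (hγδ.and ((e1 p hp0).and ((e1 q hq0).and ((e1 p₁ hp₁0).and (e1 q₁ hq₁0))))).filter_mono
         nhdsWithin_le_nhds
     filter_upwards [h1, self_mem_nhdsWithin] with ε hε hε0
     obtain ⟨k1, k2, k3, k4, k5⟩ := hε
     have hε0' : ε ≠ 0 := hε0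
     have kT : γ ε ∈ ball (0 : Cn n) T.ρ := ball_subset_ball hδT k1
     have hγ0' : γ ε D.i₀ ≠ 0 := by rw [hγi]; exact hε0'
     have kV : T.Ξ (γ ε) ∈ X.V := root_mem_V X T kT hγ0'
     have ht : X.C.s (T.Ξ (γ ε)) D.t = ε * T.E (γ ε) := by
       rw [X.s_t kV.1, T.eq _ kT, hγi]
     have ht0 : X.C.s (T.Ξ (γ ε)) D.t ≠ 0 := by
       rw [ht]; exact mul_ne_zero hε0' (T.ne _ kT)
     have v1 := isVal_of_eq hpq k3 ht0
     have v2 := isVal_of_eq hpq₁ k5 ht0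
     have v3 := (X.isVal_s kV c₁).unique D.inj v2
     have hc0 : X.s (T.Ξ (γ ε)) c₁ ≠ 0 := by
       rw [v3]
       exact div_ne_zero (mul_ne_zero (zpow_ne_zero _ ht0) k4) k5
     have v4 := v1.mul (X.isVal_s kV c₁)
     rw [← hbc'] at v4
     have v5 := (X.isVal_s kV b₁).unique D.inj v4
     have v6 := h (γ ε) k1 hγ0' b₁ c₁ hbc'
     rw [v5] at v6
     have v7 := mul_right_cancel₀ hc0 v6
     rw [hγi, ht, mul_zpow] at v7
     rw [← v7]
     ring
  rw [hka]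
  exact ⟨p, q, hp, hq, hpq⟩

end Crest.Agent.R276.BR_590
end
end

-- ▼ part R276/TChA_858

/-! # Row 276, helper858: TCh, part A: wrappers between 986/590's charts and 220's `AC`. -/

set_option autoImplicit false

open scoped Topology BigOperators
open Set Metric Filter

noncomputable section

namespace Crest.Agent.R276.TCh_858

open Crest.Agent.R271.Defs710 Crest.Agent.R271.Bd741
open Crest.Agent.R276.FKDefs_779 Crest.Agent.R276.BC_986 Crest.Agent.R276.DivVal_858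
open Crest.Agent.R276.BR_590 Crest.Agent.R276.Mod1_987
open Crest.Agent.R276.SkelDefs_220 (AC PD tau Mono low pw)

section PD

variable {n : ℕ} {δ : ℝ}

lemma mem_PD_some {i : Fin n} {ζ : Cn n} :
    ζ ∈ PD δ (some i) ↔ ζ ∈ ball (0 : Cn n) δ ∧ ζ i ≠ 0 := by
  rw [mem_ball_zero_iff]
  constructor
  · rintro ⟨h1, h2⟩; exact ⟨h1, h2 i rfl⟩
  · rintro ⟨h1, h2⟩; exact ⟨h1, fun j hj => by cases hj; exact h2⟩

lemma mem_PD_none {ζ : Cn n} : ζ ∈ PD δ none ↔ ζ ∈ ball (0 : Cn n) δ := by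
  rw [mem_ball_zero_iff]
  constructor
  · rintro ⟨h1, -⟩; exact h1
  · intro h1; exact ⟨h1, fun j hj => by cases hj⟩

lemma PD_sub {j : Option (Fin n)} : PD δ j ⊆ ball (0 : Cn n) δ := by
  intro ζ hζ
  rw [mem_ball_zero_iff]
  exact hζ.1

lemma isOpen_PD {j : Option (Fin n)} : IsOpen (PD δ j) := by
  rcases j with _ | i
  · have : PD δ (none : Option (Fin n)) = ball 0 δ := by ext ζ; exact mem_PD_none
    rw [this]; exact isOpen_ball
  · have : PD δ (some i) = ball (0 : Cn n) δ ∩ {ζ | ζ i ≠ 0} := by ext ζ; exact mem_PD_some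
    rw [this]
    exact isOpen_ball.inter (isOpen_ne_fun (continuous_apply _) continuous_const)

end PD

section V

variable {K : Type} [Field K] [Algebra ℂ K] {n : ℕ} (M : Mdl K n) {D : DivModel n K}
  (X : BChart D M.B) {G₀ : Cn n → ℂ} {e : ℕ} (T : Root D.i₀ X.r G₀ e)

/-- the chart `X.s ∘ T.Ξ` as an `AC` -/
def acV {δ : ℝ} (hδ : δ ≤ T.ρ) {j : Option (Fin n)} (hj : j = some D.i₀) : AC M δ j where
  s := fun ξ => X.s (T.Ξ ξ)
  anal := by
    subst hj
    intro b ξ hξ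
    have h1 := mem_PD_some.mp hξ
    exact (ofRoot X T).anal b ξ ⟨ball_subset_ball hδ h1.1, h1.2⟩
  inj := by
    subst hj
    intro ξ hξ ξ' hξ' h
    have h1 := mem_PD_some.mp hξ
    have h2 := mem_PD_some.mp hξ'
    exact (ofRoot X T).inj ⟨ball_subset_ball hδ h1.1, h1.2⟩ ⟨ball_subset_ball hδ h2.1, h2.2⟩ h

@[simp] lemma acV_s {δ : ℝ} (hδ : δ ≤ T.ρ) {j : Option (Fin n)} (hj : j = some D.i₀) (ξ : Cn n) :
    (acV M X T hδ hj).s ξ = X.s (T.Ξ ξ) := rfl

lemma mono_V {δ : ℝ} {i : Fin n} {j : Option (Fin n)} (hj : j = some i) {u G : Cn n → ℂ} {k : ℤ}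
    (hG : AnalyticOnNhd ℂ G (ball 0 δ)) (hG0 : ∀ ζ ∈ ball (0 : Cn n) δ, G ζ ≠ 0)
    (h : ∀ ζ ∈ ball (0 : Cn n) δ, ζ i ≠ 0 → u ζ = ζ i ^ k * G ζ) : Mono δ j u k := by
  subst hj
  refine ⟨G, hG, hG0, fun ζ hζ => ?_⟩
  have h1 := mem_PD_some.mp hζ
  exact h ζ h1.1 h1.2

lemma ord_V {δ : ℝ} (hδ : δ ≤ T.ρ) {j : Option (Fin n)} (hj : j = some D.i₀) {f : K} {a : ℤ}
    {G' : Cn n → ℂ} (h : Good D X f a G') : (acV M X T hδ hj).Ord f a := by
  have hA := Good.ofRoot X T h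
  refine ⟨fun ξ => ξ D.i₀ ^ a * (T.E ξ ^ a * G' (T.Ξ ξ)), mono_V hj
    (hA.an.mono (ball_subset_ball hδ)) (fun ξ hξ => hA.ne ξ (ball_subset_ball hδ hξ))
    (fun ξ _ _ => rfl), ?_⟩
  subst hj
  intro ξ hξ b c hbc
  have h1 := mem_PD_some.mp hξ
  exact hA.eq ξ ⟨ball_subset_ball hδ h1.1, h1.2⟩ b c hbc.symm

lemma J_V {δ : ℝ} (hδ : δ ≤ T.ρ) {j : Option (Fin n)} (hj : j = some D.i₀)
    (b : Fin n → Ω[K⁄ℂ]) (hb : ∀ i, b i = KaehlerDifferential.D ℂ K (M.z i : K)) {c : ℤ}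
    {GJ : Cn n → ℂ} (hJ : Good D X (D.dw.toMatrix b).det c GJ) :
    Mono δ j (acV M X T hδ hj).J c := by
  have hA := Good.ofRoot_jac X T M.z b hb hJ
  refine mono_V hj (hA.an.mono (ball_subset_ball hδ)) (fun ξ hξ => hA.ne ξ (ball_subset_ball hδ hξ))
    (fun ξ h1 h2 => ?_)
  exact hA.eq ξ ⟨ball_subset_ball hδ h1, h2⟩

variable {R : ValuationSubring K}

theorem hasOrd_of_acOrd (hD : D.ModelOf R) (htr : Algebra.trdeg ℂ K = n) {δ : ℝ} (hδ0 : 0 < δ)
    (hδ : δ ≤ T.ρ) {j : Option (Fin n)} (hj : j = some D.i₀) {f : K} {k : ℤ}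
    (h : (acV M X T hδ hj).Ord f k) : D.HasOrd f k := by
  obtain ⟨u, ⟨G, hG, hG0, hu⟩, h2⟩ := h
  subst hj
  refine hasOrd_of_ord hD htr X T hδ0 hδ hG.continuousOn hG0 (fun ξ h3 h4 b c hbc => ?_)
  have h5 : ξ ∈ PD δ (some D.i₀) := mem_PD_some.mpr ⟨h3, h4⟩
  have h6 := h2 ξ h5 b c hbc
  rw [hu ξ h5] at h6
  exact h6

theorem ordR_V (hD : D.ModelOf R) (htr : Algebra.trdeg ℂ K = n) {δ : ℝ} (hδ0 : 0 < δ)
    (hδ : δ ≤ T.ρ) {j : Option (Fin n)} (hj : j = some D.i₀) {f : K} {k : ℤ}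
    (h : (acV M X T hδ hj).Ord f k) : f ∈ R ↔ 0 ≤ k :=
  hD.mem_iff (hasOrd_of_acOrd M X T hD htr hδ0 hδ hj h)

theorem regAt_V_abs (hD : D.ModelOf R) (htr : Algebra.trdeg ℂ K = n) {δ : ℝ} (hδ0 : 0 < δ)
    (hδ : δ ≤ T.ρ) {j : Option (Fin n)} (hj : j = some D.i₀) (b : Module.Basis (Fin n) K (Ω[K⁄ℂ]))
    {c : ℤ} (hc : D.HasOrd (D.dw.toMatrix b).det c) {g : K} {k : ℤ}
    (h : (acV M X T hδ hj).Ord g k) (m : ℕ) : RegAt ℂ R b m g ↔ 0 ≤ k + m * c :=
  hD.regAt_iff b (hasOrd_of_acOrd M X T hD htr hδ0 hδ hj h) hc m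

end V

section H

variable {K : Type} [Field K] [Algebra ℂ K] {n : ℕ} (M : Mdl K n) {y : M.Pts} (C : Chart M.z y)

lemma chart_inj : InjOn C.s (ball (0 : Cn n) C.r) := by
  intro ζ hζ ζ' hζ' h
  funext i
  have h1 := C.s_z ζ hζ i
  have h2 := C.s_z ζ' hζ' i
  rw [h] at h1
  exact add_left_cancel (h1.symm.trans h2)

/-- an ordinary chart of the model as an `AC` -/
def acH {δ : ℝ} (hδ : δ ≤ C.r) (j : Option (Fin n)) : AC M δ j where
  s := C.s
  anal := fun b ξ hξ => C.anal b ξ (ball_subset_ball hδ (PD_sub hξ))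
  inj := (chart_inj M C).mono (fun _ hξ => ball_subset_ball hδ (PD_sub hξ))

@[simp] lemma acH_s {δ : ℝ} (hδ : δ ≤ C.r) (j : Option (Fin n)) (ξ : Cn n) :
    (acH M C hδ j).s ξ = C.s ξ := rfl

lemma mono_H {δ : ℝ} {j : Option (Fin n)} (hj : j = none) {u : Cn n → ℂ} (k : ℤ)
    (hG : AnalyticOnNhd ℂ u (ball 0 δ)) (hG0 : ∀ ζ ∈ ball (0 : Cn n) δ, u ζ ≠ 0) :
    Mono δ j u k := by
  subst hj
  refine ⟨u, hG, hG0, fun ζ _ => ?_⟩
  change u ζ = 1 ^ k * u ζ
  rw [one_zpow, one_mul]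

lemma J_H {δ : ℝ} (hδ : δ ≤ C.r) (j : Option (Fin n)) {ξ : Cn n} (hξ : ξ ∈ ball (0 : Cn n) δ) :
    (acH M C hδ j).J ξ = 1 := by
  unfold SkelDefs_220.AC.J
  have h1 : (fun ζ : Cn n => M.pz ((acH M C hδ j).s ζ)) =ᶠ[𝓝 ξ] fun ζ => M.pz y + ζ := by
    filter_upwards [isOpen_ball.mem_nhds hξ] with ζ hζ
    funext i
    exact C.s_z ζ (ball_subset_ball hδ hζ) i
  rw [h1.fderiv_eq]
  have h2 : fderiv ℂ (fun ζ : Cn n => M.pz y + ζ) ξ = ContinuousLinearMap.id ℂ (Cn n) := by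
    rw [fderiv_const_add]
    exact fderiv_fun_id
  rw [h2]
  exact LinearMap.det_id

lemma Jmono_H {δ : ℝ} (hδ : δ ≤ C.r) {j : Option (Fin n)} (hj : j = none) (k : ℤ) :
    Mono δ j (acH M C hδ j).J k := by
  subst hj
  refine ⟨fun _ => 1, analyticOnNhd_const, fun _ _ => one_ne_zero, fun ζ hζ => ?_⟩
  rw [J_H M C hδ none (PD_sub hζ)]
  change (1 : ℂ) = 1 ^ k * 1
  rw [one_zpow, one_mul]

/-- `f = b / c` with `b`, `c` without zeros on the chart -/
lemma ord_H {δ : ℝ} (hδ : δ ≤ C.r) {j : Option (Fin n)} (hj : j = none) {f : K} {b₀ c₀ : M.B}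
    (hf : (b₀ : K) = f * c₀) (hb : ∀ ζ ∈ ball (0 : Cn n) δ, C.s ζ b₀ ≠ 0)
    (hc : ∀ ζ ∈ ball (0 : Cn n) δ, C.s ζ c₀ ≠ 0) (k : ℤ) : (acH M C hδ j).Ord f k := by
  refine ⟨fun ζ => C.s ζ b₀ / C.s ζ c₀, mono_H hj k ?_ ?_, ?_⟩
  · intro ζ hζ
    exact (C.anal b₀ ζ (ball_subset_ball hδ hζ)).div (C.anal c₀ ζ (ball_subset_ball hδ hζ)) (hc ζ hζ)
  · intro ζ hζ
    exact div_ne_zero (hb ζ hζ) (hc ζ hζ)
  · intro ζ hζ b c hbc
    have h1 := PD_sub hζ
    have hc0 : (c₀ : K) ≠ 0 := by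
      intro h0
      apply hc ζ h1
      have : c₀ = 0 := Subtype.ext h0
      rw [this, map_zero]
    have h2 : b * c₀ = b₀ * c := by
      apply Subtype.ext
      change (b : K) * c₀ = b₀ * c
      rw [hbc, hf]
      ring
    have h3 := congrArg (C.s ζ) h2
    rw [map_mul, map_mul] at h3
    change C.s ζ b = C.s ζ b₀ / C.s ζ c₀ * C.s ζ c
    field_simp [hc ζ h1]
    linear_combination h3

end H

section pw

variable {m r : ℕ}

lemma low_castAdd (i : Fin m) : low (some (Fin.castAdd r i)) = some i := by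
  unfold SkelDefs_220.low
  rw [Option.bind_some, dif_pos (by simp)]
  rfl

lemma low_natAdd (i : Fin r) : low (some (Fin.natAdd m i)) = (none : Option (Fin m)) := by
  unfold SkelDefs_220.low
  rw [Option.bind_some, dif_neg (by simp)]


lemma pw_castAdd (e : ℕ) (i : Fin m) (ζ : Cn (m + r)) :
    pw e (some (Fin.castAdd r i)) ζ = pe i e (bs ζ) := by
  funext j
  unfold SkelDefs_220.pw pe bs
  rw [low_castAdd]
  by_cases h : j = i
  · subst h; simp
  · rw [if_neg (fun h' => h (Option.some.inj h').symm), if_neg h]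

lemma pw_of_low_none (e : ℕ) {j : Option (Fin (m + r))} (hj : low j = none) (ζ : Cn (m + r)) :
    pw e j ζ = bs ζ := by
  funext k
  unfold SkelDefs_220.pw bs
  rw [hj]
  simp

end pw

end Crest.Agent.R276.TCh_858
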