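import Mathlib
import Crest.Agent.R276.DR_175
import Crest.Agent.R276.Top3h_279
import Crest.Agent.R276.DR4_175

-- ▼ part R276/DR5_175
section

/-!
# Row 276, IPC (helper175): forms and cocycles on open subsets of the plane, part 5

* `RepBy.pull` (R6) : naturality for a smooth map together with a change of frames.
-/

set_option autoImplicit false
set_option linter.unusedSectionVars false

noncomputable section

open Set Filter Topology MeasureTheory Matrix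
open Crest.Agent.R276.Ipc735

namespace Crest.Agent.R276.DR_175

variable {N : ℕ}

section chain
variable {F : Type*} [NormedAddCommGroup F] [NormedSpace ℂ F]

lemma hasFDerivAt_comp_wir {h : ℂ → F} {Ψ : ℂ → ℂ} {z : ℂ} (hh : DifferentiableAt ℝ h (Ψ z))
    (hΨ : DifferentiableAt ℝ Ψ z) :
    HasFDerivAt (fun y => h (Ψ y))
      (wir (wz Ψ z • wz h (Ψ z) + (starRingEnd ℂ) (wb Ψ z) • wb h (Ψ z))
        (wb Ψ z • wz h (Ψ z) + (starRingEnd ℂ) (wz Ψ z) • wb h (Ψ z))) z := by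
  have h1 : HasFDerivAt (fun y => h (Ψ y)) ((fderiv ℝ h (Ψ z)).comp (fderiv ℝ Ψ z)) z :=
    hh.hasFDerivAt.comp z hΨ.hasFDerivAt
  convert h1 using 1
  ext v
  show _ = fderiv ℝ h (Ψ z) (fderiv ℝ Ψ z v)
  rw [wir_apply, fderiv_eq_wir h, fderiv_eq_wir Ψ]
  simp only [smul_eq_mul, map_add, map_mul, Complex.conj_conj]
  module

lemma wz_comp {h : ℂ → F} {Ψ : ℂ → ℂ} {z : ℂ} (hh : DifferentiableAt ℝ h (Ψ z))
    (hΨ : DifferentiableAt ℝ Ψ z) : wz (fun y => h (Ψ y)) z =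
      wz Ψ z • wz h (Ψ z) + (starRingEnd ℂ) (wb Ψ z) • wb h (Ψ z) :=
  wz_of_hasFDerivAt (hasFDerivAt_comp_wir hh hΨ)

lemma wb_comp {h : ℂ → F} {Ψ : ℂ → ℂ} {z : ℂ} (hh : DifferentiableAt ℝ h (Ψ z))
    (hΨ : DifferentiableAt ℝ Ψ z) : wb (fun y => h (Ψ y)) z =
      wb Ψ z • wz h (Ψ z) + (starRingEnd ℂ) (wz Ψ z) • wb h (Ψ z) :=
  wb_of_hasFDerivAt (hasFDerivAt_comp_wir hh hΨ)

end chain

/-- pull back of a section -/
def plS (Ψ : ℂ → ℂ) (B : ℂ → GL (Fin N) ℤ) (f : ℂ → Fin N → ℂ) (x : ℂ) : Fin N → ℂ :=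
  act (B x) (f (Ψ x))

/-- pull back of a cocycle -/
def plU (Ψ : ℂ → ℂ) (B : ℂ → GL (Fin N) ℤ) (u : ℂ → ℂ → Fin N → ℂ) (x y : ℂ) : Fin N → ℂ :=
  act (B x) (u (Ψ x) (Ψ y))

/-- pull back of a form, `dx` component -/
def plA (Ψ : ℂ → ℂ) (B : ℂ → GL (Fin N) ℤ) (a b : ℂ → Fin N → ℂ) (x : ℂ) : Fin N → ℂ :=
  wz Ψ x • plS Ψ B a x + (starRingEnd ℂ) (wb Ψ x) • plS Ψ B b x

/-- pull back of a form, `dx̄` component -/
def plB (Ψ : ℂ → ℂ) (B : ℂ → GL (Fin N) ℤ) (a b : ℂ → Fin N → ℂ) (x : ℂ) : Fin N → ℂ :=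
  wb Ψ x • plS Ψ B a x + (starRingEnd ℂ) (wz Ψ x) • plS Ψ B b x

/-- `(Ψ, B)` carries the flat bundle `P1` on `O1` to `P0` on `O0` -/
structure PlFrame (O0 O1 : Set ℂ) (P0 P1 : ℂ → ℂ → GL (Fin N) ℤ) (Ψ : ℂ → ℂ)
    (B : ℂ → GL (Fin N) ℤ) : Prop where
  smooth : ∀ z ∈ O0, ContDiffAt ℝ (⊤ : ℕ∞) Ψ z
  maps : ∀ z ∈ O0, Ψ z ∈ O1
  fr : ∀ z ∈ O0, ∃ U ∈ 𝓝 z, ∀ x ∈ U, ∀ y ∈ U, P0 x y = B x * P1 (Ψ x) (Ψ y) * (B y)⁻¹

variable {O0 O1 : Set ℂ} {P0 P1 : ℂ → ℂ → GL (Fin N) ℤ} {Ψ : ℂ → ℂ} {B : ℂ → GL (Fin N) ℤ}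

lemma PlFrame.cocOn (H : PlFrame O0 O1 P0 P1 Ψ B) {u : ℂ → ℂ → Fin N → ℂ} (hu : CocOn O1 P1 u) :
    CocOn O0 P0 (plU Ψ B u) := by
  intro z hz
  obtain ⟨U, hU, h⟩ := H.fr z hz
  obtain ⟨U', hU', h'⟩ := hu (Ψ z) (H.maps z hz)
  refine ⟨U ∩ Ψ ⁻¹' U', Filter.inter_mem hU
    ((H.smooth z hz).continuousAt.preimage_mem_nhds hU'), fun x hx y hy t ht => ?_⟩
  unfold plU
  rw [← h' _ hx.2 _ hy.2 _ ht.2, map_add, h x hx.1 y hy.1, act_mul_apply, act_mul_apply,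
    act_inv_act]


/-- **(R6)** naturality -/
theorem RepBy.pull (H : PlFrame O0 O1 P0 P1 Ψ B) {u : ℂ → ℂ → Fin N → ℂ} {f a b : ℂ → Fin N → ℂ}
    (h : RepBy O1 P1 u f a b) :
    RepBy O0 P0 (plU Ψ B u) (plS Ψ B f) (plA Ψ B a b) (plB Ψ B a b) := by
  intro z hz
  obtain ⟨U, hU, hfr⟩ := H.fr z hz
  have h1 : aff P0 (plU Ψ B u) (plS Ψ B f) z =ᶠ[𝓝 z] fun y => act (B z) (aff P1 u f (Ψ z) (Ψ y)) := by
    filter_upwards [hU] with y hy
    unfold aff plU plS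
    rw [hfr z (mem_of_mem_nhds hU) y hy, act_mul_apply, act_mul_apply, act_inv_act, map_add]
  obtain ⟨h2, h3, h4⟩ := h (Ψ z) (H.maps z hz)
  have hΨ := H.smooth z hz
  have h5 : ContDiffAt ℝ (⊤ : ℕ∞) (fun y => aff P1 u f (Ψ z) (Ψ y)) z := h2.comp z hΨ
  refine ⟨?_, ?_, ?_⟩
  · exact (((act (B z)).restrictScalars ℝ).contDiff.contDiffAt.comp z h5).congr_of_eventuallyEq h1
  · rw [wz_congr h1, wz_clm _ (near_diff h5), wz_comp (near_diff h2) (near_diff hΨ), h3, h4,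
      map_add, map_smul, map_smul]
    rfl
  · rw [wb_congr h1, wb_clm _ (near_diff h5), wb_comp (near_diff h2) (near_diff hΨ), h3, h4,
      map_add, map_smul, map_smul]
    rfl

theorem Rep.pull (H : PlFrame O0 O1 P0 P1 Ψ B) {u : ℂ → ℂ → Fin N → ℂ} {a b : ℂ → Fin N → ℂ}
    (h : Rep O1 P1 u a b) : Rep O0 P0 (plU Ψ B u) (plA Ψ B a b) (plB Ψ B a b) := by
  obtain ⟨f, hf⟩ := h
  exact ⟨_, hf.pull H⟩

/-- pull back of smooth sections -/
theorem SmOn.pull (H : PlFrame O0 O1 P0 P1 Ψ B) {φ : ℂ → Fin N → ℂ} (h : SmOn O1 P1 φ) :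
    SmOn O0 P0 (plS Ψ B φ) ∧ (∀ z ∈ O0, e1 P0 (plS Ψ B φ) z = plA Ψ B (e1 P1 φ) (e2 P1 φ) z) ∧
      ∀ z ∈ O0, e2 P0 (plS Ψ B φ) z = plB Ψ B (e1 P1 φ) (e2 P1 φ) z := by
  have h1 : RepBy O1 P1 (fun _ _ => 0) φ (e1 P1 φ) (e2 P1 φ) := by
    intro z hz
    rw [aff_zero]
    exact ⟨h z hz, rfl, rfl⟩
  have h2 := h1.pull H
  have h3 : plU Ψ B (fun _ _ => (0 : Fin N → ℂ)) = fun _ _ => 0 := by
    funext x y; unfold plU; rw [map_zero]
  rw [h3] at h2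
  refine ⟨fun z hz => ?_, fun z hz => ?_, fun z hz => ?_⟩
  · have := (h2 z hz).1; rwa [aff_zero] at this
  · have := (h2 z hz).2.1; rwa [aff_zero] at this
  · have := (h2 z hz).2.2; rwa [aff_zero] at this

end Crest.Agent.R276.DR_175
end
end

-- ▼ part R276/Wcl_175

/-!
# Row 276, IPC (helper175): the class of a smooth closed parabolic form

`V : VHS (m+1) (Tot Q) N w`, `s : S`, `Wf V s` = parabolic classes of the fibre (helper279).
* `SC R a b` : smooth closed form; `CF R a b` : moreover compactly supported in `ℂ \ A`.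
* `wcl V s a b : Wf V s` : class of a smooth closed parabolic form.
* `wcl_add`, `wcl_smul`, `wcl_eq_zero`, `wcl_surj`, `wcl_sub_exact`.
* `wcl_tau` : compatibility with the transports.
-/

set_option autoImplicit false
set_option linter.unusedSectionVars false

noncomputable section

open Set Filter Topology MeasureTheory Matrix
open Crest.Agent.R271.Ho51
open Crest.Agent.R276.Ipc735 Crest.Agent.R276.DR_175 Crest.Agent.R276.Top3_279

namespace Crest.Agent.R276.Wcl_175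

variable {N w : ℕ}

/-- smooth closed form -/
structure SC {A : Finset ℂ} (R : PVHS A N w) (a b : ℂ → Fin N → ℂ) : Prop where
  smA : R.Sm a
  smB : R.Sm b
  cl : R.Closed a b

/-- smooth closed form with compact support in `ℂ \ A` -/
structure CF {A : Finset ℂ} (R : PVHS A N w) (a b : ℂ → Fin N → ℂ) : Prop extends SC R a b where
  cpt : ∃ K : Set ℂ, IsCompact K ∧ K ⊆ (A : Set ℂ)ᶜ ∧ ∀ x ∉ K, a x = 0 ∧ b x = 0

/-! ### general lemmas on representations -/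

section rep

variable {O : Set ℂ} {P : ℂ → ℂ → GL (Fin N) ℤ} {u u' : ℂ → ℂ → Fin N → ℂ}
  {f f' a b a' b' : ℂ → Fin N → ℂ}

lemma RepBy.add (h : RepBy O P u f a b) (h' : RepBy O P u' f' a' b') :
    RepBy O P (fun x y => u x y + u' x y) (fun x => f x + f' x) (a + a') (b + b') := by
  intro z hz
  obtain ⟨h1, h2, h3⟩ := h z hz
  obtain ⟨h1', h2', h3'⟩ := h' z hz
  have e : DR_175.aff P (fun x y => u x y + u' x y) (fun x => f x + f' x) z =
      fun y => DR_175.aff P u f z y + DR_175.aff P u' f' z y := by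
    funext y; unfold DR_175.aff; beta_reduce; rw [map_add]; abel
  rw [e]
  refine ⟨h1.add h1', ?_, ?_⟩
  · rw [wz_add (near_diff h1) (near_diff h1'), h2, h2']; rfl
  · rw [wb_add (near_diff h1) (near_diff h1'), h3, h3']; rfl

lemma RepBy.smul (c : ℂ) (h : RepBy O P u f a b) :
    RepBy O P (fun x y => c • u x y) (fun x => c • f x) (c • a) (c • b) := by
  intro z hz
  obtain ⟨h1, h2, h3⟩ := h z hz
  let T : (Fin N → ℂ) →L[ℂ] (Fin N → ℂ) := c • ContinuousLinearMap.id ℂ _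
  have e : DR_175.aff P (fun x y => c • u x y) (fun x => c • f x) z = fun y => T (DR_175.aff P u f z y) := by
    funext y
    show act (P z y) (c • f y) + c • u z y = c • DR_175.aff P u f z y
    unfold DR_175.aff; rw [map_smul, smul_add]
  rw [e]
  refine ⟨(T.restrictScalars ℝ).contDiff.contDiffAt.comp z h1, ?_, ?_⟩
  · rw [wz_clm T (near_diff h1), h2]; rfl
  · rw [wb_clm T (near_diff h1), h3]; rfl

lemma RepBy.congr (h : RepBy O P u f a b) (ha : ∀ z ∈ O, a' z = a z) (hb : ∀ z ∈ O, b' z = b z) :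
    RepBy O P u f a' b' := by
  intro z hz
  obtain ⟨h1, h2, h3⟩ := h z hz
  exact ⟨h1, h2.trans (ha z hz).symm, h3.trans (hb z hz).symm⟩

lemma Rep.congr (h : Rep O P u a b) (ha : ∀ z ∈ O, a' z = a z) (hb : ∀ z ∈ O, b' z = b z) :
    Rep O P u a' b' := by
  obtain ⟨f, hf⟩ := h
  exact ⟨f, RepBy.congr hf ha hb⟩

lemma CocOn.add' (hu : CocOn O P u) (hu' : CocOn O P u') : CocOn O P (fun x y => u x y + u' x y) := by
  intro z hz
  obtain ⟨U, hU, h⟩ := hu z hz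
  obtain ⟨U', hU', h'⟩ := hu' z hz
  refine ⟨U ∩ U', Filter.inter_mem hU hU', fun x hx y hy t ht => ?_⟩
  beta_reduce
  rw [← h x hx.1 y hy.1 t ht.1, ← h' x hx.2 y hy.2 t ht.2, map_add]; abel

lemma CocOn.smul' (c : ℂ) (hu : CocOn O P u) : CocOn O P (fun x y => c • u x y) := by
  intro z hz
  obtain ⟨U, hU, h⟩ := hu z hz
  refine ⟨U, hU, fun x hx y hy t ht => ?_⟩
  beta_reduce
  rw [← h x hx y hy t ht, map_smul, smul_add]

lemma CocOn.sub' (hu : CocOn O P u) (hu' : CocOn O P u') : CocOn O P (fun x y => u x y - u' x y) := by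
  have h := CocOn.add' hu (CocOn.smul' (-1) hu')
  have e : (fun x y => u x y - u' x y) = fun x y => u x y + (-1 : ℂ) • u' x y := by
    funext x y; rw [neg_one_smul, sub_eq_add_neg]
  rw [e]; exact h

end rep

variable {m : ℕ} {S : Type*} [TopologicalSpace S] [RDom m S] {k : ℕ} {Q : Punc S k}
  (V : VHS (m + 1) (Tot Q) N w)

lemma ndcOn (s : S) : NDCOn ((Q.A s : Set ℂ)ᶜ) (rP Q V.P s) := by
  have h := (V.res s).ndc
  rwa [(V.isRes s).P] at h

lemma sm_iff (s : S) (φ : ℂ → Fin N → ℂ) :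
    (V.res s).Sm φ ↔ SmOn ((Q.A s : Set ℂ)ᶜ) (rP Q V.P s) φ := by
  unfold PVHS.Sm SmOn
  rw [(V.isRes s).P]
  rfl

lemma closed_iff (s : S) (a b : ℂ → Fin N → ℂ) :
    (V.res s).Closed a b ↔ ClOn ((Q.A s : Set ℂ)ᶜ) (rP Q V.P s) a b := by
  unfold PVHS.Closed PVHS.d1 PVHS.d2 ClOn
  rw [(V.isRes s).P]
  rfl

lemma d1_eq (s : S) (φ : ℂ → Fin N → ℂ) : (V.res s).d1 φ = e1 (rP Q V.P s) φ := by
  unfold PVHS.d1 e1
  rw [(V.isRes s).P]

lemma d2_eq (s : S) (φ : ℂ → Fin N → ℂ) : (V.res s).d2 φ = e2 (rP Q V.P s) φ := by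
  unfold PVHS.d2 e2
  rw [(V.isRes s).P]

lemma exactOn_iff (s : S) (U : Set ℂ) (a b : ℂ → Fin N → ℂ) :
    (V.res s).ExactOn U a b ↔ Rep (U ∩ (Q.A s : Set ℂ)ᶜ) (rP Q V.P s) (fun _ _ => 0) a b := by
  rw [← exactNear_iff_rep, exactNear_iff, (V.isRes s).P]

variable {V} {s : S} {a b a' b' : ℂ → Fin N → ℂ} {u : ℂ → ℂ → Fin N → ℂ}

/-- smooth closed forms represent cocycles -/
lemma SC.exists_rep (h : SC (V.res s) a b) : ∃ u, CocOn ((Q.A s : Set ℂ)ᶜ) (rP Q V.P s) u ∧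
    Rep ((Q.A s : Set ℂ)ᶜ) (rP Q V.P s) u a b := by
  obtain ⟨u, hu, hr⟩ := DR_175.exists_rep (isOpen_compl Q s) (ndcOn V s) ((sm_iff V s a).1 h.smA)
    ((sm_iff V s b).1 h.smB) ((closed_iff V s a b).1 h.cl)
  exact ⟨u, hu, _, hr⟩

lemma sc_of_rep (hu : CocOn ((Q.A s : Set ℂ)ᶜ) (rP Q V.P s) u)
    (h : Rep ((Q.A s : Set ℂ)ᶜ) (rP Q V.P s) u a b) : SC (V.res s) a b := by
  obtain ⟨f, hf⟩ := h
  obtain ⟨h1, h2, h3⟩ := hf.smooth (isOpen_compl Q s) (ndcOn V s) hu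
  exact ⟨(sm_iff V s a).2 h1, (sm_iff V s b).2 h2, (closed_iff V s a b).2 h3⟩

open Classical in
variable (V s) in
/-- the class in `H1` of the fibre of a smooth closed form -/
def clH (a b : ℂ → Fin N → ℂ) : HF (rC N) V.P s :=
  if h : SC (V.res s) a b then Top3_279.cl V s h.exists_rep.choose h.exists_rep.choose_spec.1 else 0

lemma clH_eq (hu : CocOn ((Q.A s : Set ℂ)ᶜ) (rP Q V.P s) u)
    (h : Rep ((Q.A s : Set ℂ)ᶜ) (rP Q V.P s) u a b) : clH V s a b = Top3_279.cl V s u hu := by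
  have hsc := sc_of_rep hu h
  rw [clH, dif_pos hsc, cl_eq_iff]
  exact Rep.cob (isOpen_compl Q s) (ndcOn V s) hsc.exists_rep.choose_spec.1 hu
    hsc.exists_rep.choose_spec.2 h


lemma SC.add (h : SC (V.res s) a b) (h' : SC (V.res s) a' b') :
    SC (V.res s) (a + a') (b + b') := by
  obtain ⟨u, hu, f, hf⟩ := h.exists_rep
  obtain ⟨u', hu', f', hf'⟩ := h'.exists_rep
  exact sc_of_rep (CocOn.add' hu hu') ⟨_, RepBy.add hf hf'⟩

lemma SC.smul (c : ℂ) (h : SC (V.res s) a b) : SC (V.res s) (c • a) (c • b) := by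
  obtain ⟨u, hu, f, hf⟩ := h.exists_rep
  exact sc_of_rep (CocOn.smul' c hu) ⟨_, RepBy.smul c hf⟩

lemma clH_add (h : SC (V.res s) a b) (h' : SC (V.res s) a' b') :
    clH V s (a + a') (b + b') = clH V s a b + clH V s a' b' := by
  obtain ⟨u, hu, f, hf⟩ := h.exists_rep
  obtain ⟨u', hu', f', hf'⟩ := h'.exists_rep
  rw [clH_eq hu ⟨f, hf⟩, clH_eq hu' ⟨f', hf'⟩, clH_eq (CocOn.add' hu hu') ⟨_, RepBy.add hf hf'⟩,
    cl_add V hu hu']

lemma clH_smul (c : ℂ) (h : SC (V.res s) a b) :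
    clH V s (c • a) (c • b) = c • clH V s a b := by
  obtain ⟨u, hu, f, hf⟩ := h.exists_rep
  rw [clH_eq hu ⟨f, hf⟩, clH_eq (CocOn.smul' c hu) ⟨_, RepBy.smul c hf⟩, cl_smul V c hu]

/-- the class vanishes iff the form is exact -/
lemma clH_eq_zero_iff (h : SC (V.res s) a b) : clH V s a b = 0 ↔
    ∃ φ, (V.res s).Sm φ ∧ ∀ z ∉ Q.A s, (V.res s).d1 φ z = a z ∧ (V.res s).d2 φ z = b z := by
  obtain ⟨u, hu, hr⟩ := h.exists_rep
  rw [clH_eq hu hr, cl_eq_zero_iff, ← Rep.exact_iff (isOpen_compl Q s) (ndcOn V s) hu hr,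
    rep_zero_iff]
  constructor
  · rintro ⟨φ, hφ⟩
    refine ⟨φ, (sm_iff V s φ).2 fun z hz => (hφ z hz).1, fun z hz => ?_⟩
    rw [d1_eq, d2_eq]
    exact (hφ z hz).2
  · rintro ⟨φ, h1, h2⟩
    refine ⟨φ, fun z hz => ⟨(sm_iff V s φ).1 h1 z hz, ?_⟩⟩
    have := h2 z hz
    rwa [d1_eq, d2_eq] at this

/-- parabolic forms are those with parabolic class -/
lemma clH_mem_par_iff (h : SC (V.res s) a b) :
    clH V s a b ∈ parF (rC N) V.P s ↔ (V.res s).Par a b := by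
  obtain ⟨u, hu, hr⟩ := h.exists_rep
  rw [clH_eq hu hr, cl_mem_par_iff]
  unfold PVHS.Par
  have key : ∀ U : Set ℂ, IsOpen U → (CobOn (U ∩ (Q.A s : Set ℂ)ᶜ) (rP Q V.P s) u ↔
      (V.res s).ExactOn U a b) := by
    intro U hU
    rw [exactOn_iff]
    have hO : IsOpen (U ∩ (Q.A s : Set ℂ)ᶜ) := hU.inter (isOpen_compl Q s)
    have hsub : U ∩ (Q.A s : Set ℂ)ᶜ ⊆ (Q.A s : Set ℂ)ᶜ := inter_subset_right
    obtain ⟨f, hf⟩ := hr
    exact (Rep.exact_iff hO (NDCOn.mono (ndcOn V s) hsub) (CocOn.mono hu hsub)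
      ⟨f, RepBy.mono hf hsub⟩).symm
  constructor
  · rintro ⟨h1, r, h2⟩
    refine ⟨fun p hp => ?_, r, (key _ (isOpen_lt continuous_const continuous_norm)).1 h2⟩
    obtain ⟨U, hU, h3⟩ := h1 p hp
    obtain ⟨W, hWU, hW, hpW⟩ := mem_nhds_iff.1 hU
    exact ⟨W, hW.mem_nhds hpW, (key W hW).1 (CobOn.mono h3 (inter_subset_inter_left _ hWU))⟩
  · rintro ⟨h1, r, h2⟩
    refine ⟨fun p hp => ?_, r, (key _ (isOpen_lt continuous_const continuous_norm)).2 h2⟩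
    obtain ⟨U, hU, φ, h3⟩ := h1 p hp
    obtain ⟨W, hWU, hW, hpW⟩ := mem_nhds_iff.1 hU
    exact ⟨W, hW.mem_nhds hpW, (key W hW).2 ⟨φ, fun z hz hzA => h3 z (hWU hz) hzA⟩⟩

open Classical in
variable (V s) in
/-- the class of a smooth closed parabolic form -/
def wcl (a b : ℂ → Fin N → ℂ) : Wf V s :=
  if h : clH V s a b ∈ parF (rC N) V.P s then ⟨clH V s a b, h⟩ else 0

lemma wcl_val (h : SC (V.res s) a b) (hp : (V.res s).Par a b) :
    (wcl V s a b).1 = clH V s a b := by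
  have h1 := (clH_mem_par_iff h).2 hp
  rw [wcl, dif_pos h1]

lemma CF.par (h : CF (V.res s) a b) : (V.res s).Par a b := by
  obtain ⟨K, hK, hKA, h0⟩ := h.cpt
  have key : ∀ U : Set ℂ, Disjoint U K → (V.res s).ExactOn U a b := by
    intro U hU
    rw [exactOn_iff, rep_zero_iff]
    refine ⟨fun _ => 0, fun z hz => ⟨sm_zero, ?_⟩⟩
    have hzK : z ∉ K := fun hk => Set.disjoint_left.1 hU hz.1 hk
    have e0 : lV (rP Q V.P s) (fun _ => (0 : Fin N → ℂ)) z = fun _ => 0 := by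
      funext y; rw [lV_eq, map_zero]
    constructor
    · rw [(h0 z hzK).1, e1, e0, wz_const]
    · rw [(h0 z hzK).2, e2, e0, wb_const]
  refine ⟨fun p hp => ⟨Kᶜ, hK.isClosed.isOpen_compl.mem_nhds fun hpK => hKA hpK hp,
    key _ disjoint_compl_left⟩, ?_⟩
  obtain ⟨r, hr⟩ := hK.isBounded.subset_closedBall (0 : ℂ)
  refine ⟨r, key _ ?_⟩
  rw [Set.disjoint_left]
  intro z hz hzK
  have := hr hzK
  rw [mem_closedBall_zero_iff] at this
  exact absurd hz (not_lt.2 this)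

lemma par_add (h : SC (V.res s) a b) (h' : SC (V.res s) a' b') (hp : (V.res s).Par a b)
    (hp' : (V.res s).Par a' b') : (V.res s).Par (a + a') (b + b') := by
  rw [← clH_mem_par_iff (h.add h'), clH_add h h']
  exact Submodule.add_mem _ ((clH_mem_par_iff h).2 hp) ((clH_mem_par_iff h').2 hp')

lemma par_smul (c : ℂ) (h : SC (V.res s) a b) (hp : (V.res s).Par a b) :
    (V.res s).Par (c • a) (c • b) := by
  rw [← clH_mem_par_iff (h.smul c), clH_smul c h]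
  exact Submodule.smul_mem _ c ((clH_mem_par_iff h).2 hp)

theorem wcl_add (h : SC (V.res s) a b) (h' : SC (V.res s) a' b') (hp : (V.res s).Par a b)
    (hp' : (V.res s).Par a' b') : wcl V s (a + a') (b + b') = wcl V s a b + wcl V s a' b' := by
  apply Subtype.ext
  rw [wcl_val (h.add h') (par_add h h' hp hp'), clH_add h h']
  show _ = (wcl V s a b).1 + (wcl V s a' b').1
  rw [wcl_val h hp, wcl_val h' hp']

theorem wcl_smul (c : ℂ) (h : SC (V.res s) a b) (hp : (V.res s).Par a b) :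
    wcl V s (c • a) (c • b) = c • wcl V s a b := by
  apply Subtype.ext
  rw [wcl_val (h.smul c) (par_smul c h hp), clH_smul c h]
  show _ = c • (wcl V s a b).1
  rw [wcl_val h hp]

/-- the class vanishes iff the form is exact -/
theorem wcl_eq_zero (h : SC (V.res s) a b) (hp : (V.res s).Par a b) : wcl V s a b = 0 ↔
    ∃ φ, (V.res s).Sm φ ∧ ∀ z ∉ Q.A s, (V.res s).d1 φ z = a z ∧ (V.res s).d2 φ z = b z := by
  rw [← clH_eq_zero_iff h, ← wcl_val h hp]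
  constructor
  · intro h0; rw [h0]; rfl
  · intro h0; exact Subtype.ext h0

/-- adding an exact form does not change the class -/
theorem clH_congr_exact (h : SC (V.res s) a b) {g : ℂ → Fin N → ℂ} (hg : (V.res s).Sm g)
    (ha : ∀ z ∉ Q.A s, a' z = a z - (V.res s).d1 g z)
    (hb : ∀ z ∉ Q.A s, b' z = b z - (V.res s).d2 g z) :
    SC (V.res s) a' b' ∧ clH V s a' b' = clH V s a b := by
  obtain ⟨u, hu, f, hf⟩ := h.exists_rep
  have h1 : RepBy ((Q.A s : Set ℂ)ᶜ) (rP Q V.P s) (fun _ _ => 0) g (e1 (rP Q V.P s) g)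
      (e2 (rP Q V.P s) g) := by
    intro z hz
    rw [aff_zero]
    exact ⟨(sm_iff V s g).1 hg z hz, rfl, rfl⟩
  have h2 := RepBy.add hf (RepBy.smul (-1) h1)
  have h3 : (fun x y => u x y + (-1 : ℂ) • ((fun _ _ => 0 : ℂ → ℂ → Fin N → ℂ) x y)) = u := by
    funext x y; simp
  rw [h3] at h2
  have h4 : Rep ((Q.A s : Set ℂ)ᶜ) (rP Q V.P s) u a' b' := by
    refine ⟨_, RepBy.congr h2 (fun z hz => ?_) (fun z hz => ?_)⟩
    · rw [ha z hz, d1_eq, Pi.add_apply, Pi.smul_apply, neg_one_smul, sub_eq_add_neg]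
    · rw [hb z hz, d2_eq, Pi.add_apply, Pi.smul_apply, neg_one_smul, sub_eq_add_neg]
  exact ⟨sc_of_rep hu h4, by rw [clH_eq hu h4, clH_eq hu ⟨f, hf⟩]⟩

/-- every parabolic form is cohomologous to a compactly supported one -/
theorem exists_CF (h : SC (V.res s) a b) (hp : (V.res s).Par a b) :
    ∃ a' b' g, CF (V.res s) a' b' ∧ (V.res s).Sm g ∧
      (∀ z ∉ Q.A s, a' z = a z - (V.res s).d1 g z ∧ b' z = b z - (V.res s).d2 g z) ∧
      wcl V s a' b' = wcl V s a b := by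
  classical
  obtain ⟨h1, R, h2⟩ := hp
  have h1' : ∀ p ∈ Q.A s, ∃ U ∈ 𝓝 p, ExactNear (Q.A s) (rP Q V.P s) U a b := by
    intro p hp
    obtain ⟨U, hU, hex⟩ := h1 p hp
    rw [exactNear_iff, (V.isRes s).P] at hex
    exact ⟨U, hU, hex⟩
  have h2' : ∃ R : ℝ, ExactNear (Q.A s) (rP Q V.P s) {z | R < ‖z‖} a b := by
    rw [exactNear_iff, (V.isRes s).P] at h2
    exact ⟨R, h2⟩
  obtain ⟨g, hg, K, hK, hKA, hcut⟩ := exists_cut h1' h2'
  have hgS : (V.res s).Sm g := (sm_iff V s g).2 hg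
  let a' : ℂ → Fin N → ℂ := fun z => if z ∈ Q.A s then 0 else a z - (V.res s).d1 g z
  let b' : ℂ → Fin N → ℂ := fun z => if z ∈ Q.A s then 0 else b z - (V.res s).d2 g z
  have ea : ∀ z ∉ Q.A s, a' z = a z - (V.res s).d1 g z := fun z hz => if_neg hz
  have eb : ∀ z ∉ Q.A s, b' z = b z - (V.res s).d2 g z := fun z hz => if_neg hz
  obtain ⟨h3, h4⟩ := clH_congr_exact h hgS ea eb
  have hcf : CF (V.res s) a' b' := by
    refine ⟨h3, K, hK, hKA, fun z hz => ?_⟩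
    by_cases hzA : z ∈ Q.A s
    · exact ⟨if_pos hzA, if_pos hzA⟩
    · obtain ⟨h5, h6⟩ := hcut z hz hzA
      rw [ea z hzA, eb z hzA, d1_eq, d2_eq, h5, h6]
      exact ⟨sub_self _, sub_self _⟩
  refine ⟨a', b', g, hcf, hgS, fun z hz => ⟨ea z hz, eb z hz⟩, ?_⟩
  apply Subtype.ext
  rw [wcl_val h3 hcf.par, wcl_val h ⟨h1, R, h2⟩, h4]

/-- every class is the class of a compactly supported form -/
theorem wcl_surj (c : Wf V s) : ∃ a b, CF (V.res s) a b ∧ wcl V s a b = c := by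
  obtain ⟨u, hu, hc⟩ := cl_surj V s c.1
  obtain ⟨a, b, hr⟩ := exists_form (ndcOn V s) hu
  have hsc := sc_of_rep hu hr
  have hcl : clH V s a b = c.1 := by rw [clH_eq hu hr, hc]
  have hp : (V.res s).Par a b := by
    rw [← clH_mem_par_iff hsc, hcl]; exact c.2
  obtain ⟨a', b', g, hcf, -, -, h⟩ := exists_CF hsc hp
  refine ⟨a', b', hcf, ?_⟩
  rw [h]
  apply Subtype.ext
  rw [wcl_val hsc hp, hcl]

end Crest.Agent.R276.Wcl_175
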